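import Vale.Agent.Lib.P154.PChain.BC.R5_0

set_option linter.all false

namespace Vale.Agent.Lib.P154.PChain.BC.S6

open Vale.Agent.Lib.P154.Chain

noncomputable def pc0 : PT := (PT.nd (nat_lit 5642988) (PT.nd (nat_lit 5393154) (PT.nd (nat_lit 5205798) (PT.nd (nat_lit 4768764) (PT.nd (nat_lit 4706364) (PT.nd (nat_lit 4706286) PT.nil (PT.lf (nat_lit 76) (nat_lit 6) (nat_lit 1) (nat_lit 3) (nat_lit 262) (nat_lit 75) (nat_lit 263))) (PT.lf (nat_lit 76) (nat_lit 6) (nat_lit 1) (nat_lit 1) (nat_lit 263) (nat_lit 75) (nat_lit 262))) (PT.nd (nat_lit 374634) (PT.lf (nat_lit 152) (nat_lit 3) (nat_lit 2) (nat_lit 1) (nat_lit 262) (nat_lit 76) (nat_lit 262)) (PT.lf (nat_lit 304) (nat_lit 3) (nat_lit 4) (nat_lit 1) (nat_lit 259) (nat_lit 82) (nat_lit 259)))) (PT.nd (nat_lit 62478) (PT.nd (nat_lit 78) (PT.lf (nat_lit 380) (nat_lit 6) (nat_lit 5) (nat_lit 3) (nat_lit 258) (nat_lit 83) (nat_lit 259)) (PT.lf (nat_lit 380) (nat_lit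 6) (nat_lit 5) (nat_lit 1) (nat_lit 259) (nat_lit 83) (nat_lit 258))) (PT.nd (nat_lit 62400) (PT.lf (nat_lit 532) (nat_lit 3) (nat_lit 7) (nat_lit 1) (nat_lit 258) (nat_lit 84) (nat_lit 258)) (PT.nd (nat_lit 78) (PT.lf (nat_lit 608) (nat_lit 6) (nat_lit 8) (nat_lit 3) (nat_lit 257) (nat_lit 85) (nat_lit 258)) (PT.lf (nat_lit 608) (nat_lit 6) (nat_lit 8) (nat_lit 1) (nat_lit 258) (nat_lit 85) (nat_lit 257)))))) (PT.nd (nat_lit 124956) (PT.nd (nat_lit 62478) (PT.nd (nat_lit 62400) (PT.lf (nat_lit 760) (nat_lit 3) (nat_lit 10) (nat_lit 1) (nat_lit 257) (nat_lit 86) (nat_lit 257)) (PT.lf (nat_lit 836) (nat_lit 6) (nat_lit 11) (nat_lit 3) (nat_lit 256) (nat_lit 87) (nat_lit 257))) (PT.nd (nat_lit 62322) (PT.lf (nat_lit 836) (nat_lit 6) (nat_lit 11) (nat_lit 1) (nat_lit 257) (nat_lit 87) (nat_lit 256)) (PT.nd (nat_lit 78) (PT.lf (nat_lit 912) (nat_lit 6) (nat_lit 12) (nat_lit 3) (nat_lit 255) (nat_lit 88) (nat_lit 257))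 (PT.lf (nat_lit 988) (nat_lit 3) (nat_lit 13) (nat_lit 1) (nat_lit 256) (nat_lit 88) (nat_lit 256))))) (PT.nd (nat_lit 62400) (PT.nd (nat_lit 62322) (PT.lf (nat_lit 912) (nat_lit 6) (nat_lit 12) (nat_lit 1) (nat_lit 257) (nat_lit 88) (nat_lit 255)) (PT.lf (nat_lit 1064) (nat_lit 6) (nat_lit 14) (nat_lit 3) (nat_lit 255) (nat_lit 89) (nat_lit 256))) (PT.nd (nat_lit 62322) (PT.lf (nat_lit 1064) (nat_lit 6) (nat_lit 14) (nat_lit 1) (nat_lit 256) (nat_lit 89) (nat_lit 255)) (PT.nd (nat_lit 78) (PT.lf (nat_lit 1140) (nat_lit 6) (nat_lit 15) (nat_lit 3) (nat_lit 254) (nat_lit 90) (nat_lit 256)) (PT.lf (nat_lit 1216) (nat_lit 3) (nat_lit 16) (nat_lit 1) (nat_lit 255) (nat_lit 90) (nat_lit 255))))))) (PT.nd (nat_lit 249678) (PT.nd (nat_lit 124800) (PT.nd (nat_lit 62400) (PT.nd (nat_lit 62322) (PT.lf (nat_lit 1140) (nat_lit 6) (nat_lit 15) (nat_lit 1) (nat_lit 256) (nat_lit 90) (nat_lit 254)) (PT.lf (nat_lit 1292) (nat_lit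 6) (nat_lit 17) (nat_lit 3) (nat_lit 254) (nat_lit 91) (nat_lit 255))) (PT.nd (nat_lit 62322) (PT.lf (nat_lit 1292) (nat_lit 6) (nat_lit 17) (nat_lit 1) (nat_lit 255) (nat_lit 91) (nat_lit 254)) (PT.lf (nat_lit 1368) (nat_lit 6) (nat_lit 18) (nat_lit 3) (nat_lit 253) (nat_lit 92) (nat_lit 255)))) (PT.nd (nat_lit 62400) (PT.nd (nat_lit 78) (PT.lf (nat_lit 1444) (nat_lit 3) (nat_lit 19) (nat_lit 1) (nat_lit 254) (nat_lit 92) (nat_lit 254)) (PT.lf (nat_lit 1368) (nat_lit 6) (nat_lit 18) (nat_lit 1) (nat_lit 255) (nat_lit 92) (nat_lit 253))) (PT.nd (nat_lit 78) (PT.lf (nat_lit 1520) (nat_lit 6) (nat_lit 20) (nat_lit 3) (nat_lit 253) (nat_lit 93) (nat_lit 254)) (PT.nd (nat_lit 62322) (PT.lf (nat_lit 1520) (nat_lit 6) (nat_lit 20) (nat_lit 1) (nat_lit 254) (nat_lit 93) (nat_lit 253)) (PT.lf (nat_lit 1596) (nat_lit 6) (nat_lit 21) (nat_lit 3) (nat_lit 252) (nat_lit 94) (nat_lit 254)))))) (PT.nd (nat_lit 124878) (PT.nd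 (nat_lit 62400) (PT.nd (nat_lit 78) (PT.lf (nat_lit 1672) (nat_lit 3) (nat_lit 22) (nat_lit 1) (nat_lit 253) (nat_lit 94) (nat_lit 253)) (PT.lf (nat_lit 1596) (nat_lit 6) (nat_lit 21) (nat_lit 1) (nat_lit 254) (nat_lit 94) (nat_lit 252))) (PT.nd (nat_lit 78) (PT.lf (nat_lit 1748) (nat_lit 6) (nat_lit 23) (nat_lit 3) (nat_lit 252) (nat_lit 95) (nat_lit 253)) (PT.nd (nat_lit 62322) (PT.lf (nat_lit 1748) (nat_lit 6) (nat_lit 23) (nat_lit 1) (nat_lit 253) (nat_lit 95) (nat_lit 252)) (PT.lf (nat_lit 1824) (nat_lit 6) (nat_lit 24) (nat_lit 3) (nat_lit 251) (nat_lit 96) (nat_lit 253))))) (PT.nd (nat_lit 62400) (PT.nd (nat_lit 78) (PT.lf (nat_lit 1900) (nat_lit 3) (nat_lit 25) (nat_lit 1) (nat_lit 252) (nat_lit 96) (nat_lit 252)) (PT.lf (nat_lit 1824) (nat_lit 6) (nat_lit 24) (nat_lit 1) (nat_lit 253) (nat_lit 96) (nat_lit 251))) (PT.nd (nat_lit 78) (PT.lf (nat_lit 1976) (nat_lit 6) (nat_lit 26) (nat_lit 3) (nat_lit 251)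 (nat_lit 97) (nat_lit 252)) (PT.nd (nat_lit 62322) (PT.lf (nat_lit 1976) (nat_lit 6) (nat_lit 26) (nat_lit 1) (nat_lit 252) (nat_lit 97) (nat_lit 251)) (PT.lf (nat_lit 2052) (nat_lit 6) (nat_lit 27) (nat_lit 3) (nat_lit 250) (nat_lit 98) (nat_lit 252))))))))
noncomputable def pc1 : PT := (PT.nd (nat_lit 499434) (PT.nd (nat_lit 249678) (PT.nd (nat_lit 124800) (PT.nd (nat_lit 62400) (PT.nd (nat_lit 78) (PT.lf (nat_lit 2128) (nat_lit 3) (nat_lit 28) (nat_lit 1) (nat_lit 251) (nat_lit 98) (nat_lit 251)) (PT.lf (nat_lit 2052) (nat_lit 6) (nat_lit 27) (nat_lit 1) (nat_lit 252) (nat_lit 98) (nat_lit 250))) (PT.nd (nat_lit 78) (PT.lf (nat_lit 2204) (nat_lit 6) (nat_lit 29) (nat_lit 3) (nat_lit 250) (nat_lit 99) (nat_lit 251)) (PT.lf (nat_lit 2204) (nat_lit 6) (nat_lit 29) (nat_lit 1) (nat_lit 251) (nat_lit 99) (nat_lit 250)))) (PT.nd (nat_lit 156) (PT.nd (nat_lit 78) (PT.lf (nat_lit 2280) (nat_lit 6) (nat_lit 30) (nat_lit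 3) (nat_lit 249) (nat_lit 100) (nat_lit 251)) (PT.lf (nat_lit 2356) (nat_lit 3) (nat_lit 31) (nat_lit 1) (nat_lit 250) (nat_lit 100) (nat_lit 250))) (PT.nd (nat_lit 62322) (PT.lf (nat_lit 2280) (nat_lit 6) (nat_lit 30) (nat_lit 1) (nat_lit 251) (nat_lit 100) (nat_lit 249)) (PT.nd (nat_lit 78) (PT.lf (nat_lit 2432) (nat_lit 6) (nat_lit 32) (nat_lit 3) (nat_lit 249) (nat_lit 101) (nat_lit 250)) (PT.lf (nat_lit 2432) (nat_lit 6) (nat_lit 32) (nat_lit 1) (nat_lit 250) (nat_lit 101) (nat_lit 249)))))) (PT.nd (nat_lit 124878) (PT.nd (nat_lit 156) (PT.nd (nat_lit 78) (PT.lf (nat_lit 2508) (nat_lit 6) (nat_lit 33) (nat_lit 3) (nat_lit 248) (nat_lit 102) (nat_lit 250)) (PT.lf (nat_lit 2584) (nat_lit 3) (nat_lit 34) (nat_lit 1) (nat_lit 249) (nat_lit 102) (nat_lit 249))) (PT.nd (nat_lit 62322) (PT.lf (nat_lit 2508) (nat_lit 6) (nat_lit 33) (nat_lit 1) (nat_lit 250) (nat_lit 102) (nat_lit 248)) (PT.nd (nat_lit 78) (PT.lf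 (nat_lit 2660) (nat_lit 6) (nat_lit 35) (nat_lit 3) (nat_lit 248) (nat_lit 103) (nat_lit 249)) (PT.lf (nat_lit 2660) (nat_lit 6) (nat_lit 35) (nat_lit 1) (nat_lit 249) (nat_lit 103) (nat_lit 248))))) (PT.nd (nat_lit 156) (PT.nd (nat_lit 78) (PT.lf (nat_lit 2736) (nat_lit 6) (nat_lit 36) (nat_lit 3) (nat_lit 247) (nat_lit 104) (nat_lit 249)) (PT.lf (nat_lit 2812) (nat_lit 3) (nat_lit 37) (nat_lit 1) (nat_lit 248) (nat_lit 104) (nat_lit 248))) (PT.nd (nat_lit 62322) (PT.lf (nat_lit 2736) (nat_lit 6) (nat_lit 36) (nat_lit 1) (nat_lit 249) (nat_lit 104) (nat_lit 247)) (PT.nd (nat_lit 78) (PT.lf (nat_lit 2888) (nat_lit 6) (nat_lit 38) (nat_lit 3) (nat_lit 247) (nat_lit 105) (nat_lit 248)) (PT.lf (nat_lit 2888) (nat_lit 6) (nat_lit 38) (nat_lit 1) (nat_lit 248) (nat_lit 105) (nat_lit 247))))))) (PT.nd (nat_lit 249756) (PT.nd (nat_lit 124878) (PT.nd (nat_lit 156) (PT.nd (nat_lit 78) (PT.lf (nat_lit 2964) (nat_lit 6) (nat_lit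 39) (nat_lit 3) (nat_lit 246) (nat_lit 106) (nat_lit 248)) (PT.lf (nat_lit 3040) (nat_lit 3) (nat_lit 40) (nat_lit 1) (nat_lit 247) (nat_lit 106) (nat_lit 247))) (PT.nd (nat_lit 62322) (PT.lf (nat_lit 2964) (nat_lit 6) (nat_lit 39) (nat_lit 1) (nat_lit 248) (nat_lit 106) (nat_lit 246)) (PT.nd (nat_lit 78) (PT.lf (nat_lit 3116) (nat_lit 6) (nat_lit 41) (nat_lit 3) (nat_lit 246) (nat_lit 107) (nat_lit 247)) (PT.lf (nat_lit 3116) (nat_lit 6) (nat_lit 41) (nat_lit 1) (nat_lit 247) (nat_lit 107) (nat_lit 246))))) (PT.nd (nat_lit 156) (PT.nd (nat_lit 78) (PT.lf (nat_lit 3192) (nat_lit 6) (nat_lit 42) (nat_lit 3) (nat_lit 245) (nat_lit 108) (nat_lit 247)) (PT.lf (nat_lit 3268) (nat_lit 3) (nat_lit 43) (nat_lit 1) (nat_lit 246) (nat_lit 108) (nat_lit 246))) (PT.nd (nat_lit 62322) (PT.lf (nat_lit 3192) (nat_lit 6) (nat_lit 42) (nat_lit 1) (nat_lit 247) (nat_lit 108) (nat_lit 245)) (PT.nd (nat_lit 78) (PT.lf (nat_lit 3344)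 (nat_lit 6) (nat_lit 44) (nat_lit 3) (nat_lit 245) (nat_lit 109) (nat_lit 246)) (PT.lf (nat_lit 3344) (nat_lit 6) (nat_lit 44) (nat_lit 1) (nat_lit 246) (nat_lit 109) (nat_lit 245)))))) (PT.nd (nat_lit 124878) (PT.nd (nat_lit 156) (PT.nd (nat_lit 78) (PT.lf (nat_lit 3420) (nat_lit 6) (nat_lit 45) (nat_lit 3) (nat_lit 244) (nat_lit 110) (nat_lit 246)) (PT.lf (nat_lit 3496) (nat_lit 3) (nat_lit 46) (nat_lit 1) (nat_lit 245) (nat_lit 110) (nat_lit 245))) (PT.nd (nat_lit 62322) (PT.lf (nat_lit 3420) (nat_lit 6) (nat_lit 45) (nat_lit 1) (nat_lit 246) (nat_lit 110) (nat_lit 244)) (PT.nd (nat_lit 78) (PT.lf (nat_lit 3572) (nat_lit 6) (nat_lit 47) (nat_lit 3) (nat_lit 244) (nat_lit 111) (nat_lit 245)) (PT.lf (nat_lit 3572) (nat_lit 6) (nat_lit 47) (nat_lit 1) (nat_lit 245) (nat_lit 111) (nat_lit 244))))) (PT.nd (nat_lit 156) (PT.nd (nat_lit 78) (PT.lf (nat_lit 3648) (nat_lit 6) (nat_lit 48) (nat_lit 3) (nat_lit 243) (nat_lit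 112) (nat_lit 245)) (PT.lf (nat_lit 3724) (nat_lit 3) (nat_lit 49) (nat_lit 1) (nat_lit 244) (nat_lit 112) (nat_lit 244))) (PT.nd (nat_lit 62322) (PT.lf (nat_lit 3648) (nat_lit 6) (nat_lit 48) (nat_lit 1) (nat_lit 245) (nat_lit 112) (nat_lit 243)) (PT.nd (nat_lit 78) (PT.lf (nat_lit 3800) (nat_lit 6) (nat_lit 50) (nat_lit 3) (nat_lit 243) (nat_lit 113) (nat_lit 244)) (PT.lf (nat_lit 3800) (nat_lit 6) (nat_lit 50) (nat_lit 1) (nat_lit 244) (nat_lit 113) (nat_lit 243))))))))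
noncomputable def pc2 : PT := (PT.nd (nat_lit 437190) (PT.nd (nat_lit 187434) (PT.nd (nat_lit 62556) (PT.nd (nat_lit 156) (PT.nd (nat_lit 78) (PT.lf (nat_lit 3876) (nat_lit 6) (nat_lit 51) (nat_lit 3) (nat_lit 242) (nat_lit 114) (nat_lit 244)) (PT.lf (nat_lit 3952) (nat_lit 3) (nat_lit 52) (nat_lit 1) (nat_lit 243) (nat_lit 114) (nat_lit 243))) (PT.nd (nat_lit 62322) (PT.lf (nat_lit 3876) (nat_lit 6) (nat_lit 51) (nat_lit 1) (nat_lit 244) (nat_lit 114) (nat_lit 242)) (PT.lf (nat_lit 4028) (nat_lit 6) (nat_lit 53) (nat_lit 3) (nat_lit 242) (nat_lit 115) (nat_lit 243)))) (PT.nd (nat_lit 62400) (PT.nd (nat_lit 62322) (PT.lf (nat_lit 4028) (nat_lit 6) (nat_lit 53) (nat_lit 1) (nat_lit 243) (nat_lit 115) (nat_lit 242)) (PT.lf (nat_lit 4104) (nat_lit 6) (nat_lit 54) (nat_lit 3) (nat_lit 241) (nat_lit 116) (nat_lit 243))) (PT.nd (nat_lit 78) (PT.lf (nat_lit 4180) (nat_lit 3) (nat_lit 55) (nat_lit 1) (nat_lit 242) (nat_lit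 116) (nat_lit 242)) (PT.nd (nat_lit 62322) (PT.lf (nat_lit 4104) (nat_lit 6) (nat_lit 54) (nat_lit 1) (nat_lit 243) (nat_lit 116) (nat_lit 241)) (PT.lf (nat_lit 4256) (nat_lit 6) (nat_lit 56) (nat_lit 3) (nat_lit 241) (nat_lit 117) (nat_lit 242)))))) (PT.nd (nat_lit 124878) (PT.nd (nat_lit 62400) (PT.nd (nat_lit 62322) (PT.lf (nat_lit 4256) (nat_lit 6) (nat_lit 56) (nat_lit 1) (nat_lit 242) (nat_lit 117) (nat_lit 241)) (PT.lf (nat_lit 4332) (nat_lit 6) (nat_lit 57) (nat_lit 3) (nat_lit 240) (nat_lit 118) (nat_lit 242))) (PT.nd (nat_lit 78) (PT.lf (nat_lit 4408) (nat_lit 3) (nat_lit 58) (nat_lit 1) (nat_lit 241) (nat_lit 118) (nat_lit 241)) (PT.nd (nat_lit 62322) (PT.lf (nat_lit 4332) (nat_lit 6) (nat_lit 57) (nat_lit 1) (nat_lit 242) (nat_lit 118) (nat_lit 240)) (PT.lf (nat_lit 4484) (nat_lit 6) (nat_lit 59) (nat_lit 3) (nat_lit 240) (nat_lit 119) (nat_lit 241))))) (PT.nd (nat_lit 62400) (PT.nd (nat_lit 62322)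 (PT.lf (nat_lit 4484) (nat_lit 6) (nat_lit 59) (nat_lit 1) (nat_lit 241) (nat_lit 119) (nat_lit 240)) (PT.lf (nat_lit 4560) (nat_lit 6) (nat_lit 60) (nat_lit 3) (nat_lit 239) (nat_lit 120) (nat_lit 241))) (PT.nd (nat_lit 78) (PT.lf (nat_lit 4636) (nat_lit 3) (nat_lit 61) (nat_lit 1) (nat_lit 240) (nat_lit 120) (nat_lit 240)) (PT.nd (nat_lit 62322) (PT.lf (nat_lit 4560) (nat_lit 6) (nat_lit 60) (nat_lit 1) (nat_lit 241) (nat_lit 120) (nat_lit 239)) (PT.lf (nat_lit 4712) (nat_lit 6) (nat_lit 62) (nat_lit 3) (nat_lit 239) (nat_lit 121) (nat_lit 240))))))) (PT.nd (nat_lit 249678) (PT.nd (nat_lit 124878) (PT.nd (nat_lit 62400) (PT.nd (nat_lit 62322) (PT.lf (nat_lit 4712) (nat_lit 6) (nat_lit 62) (nat_lit 1) (nat_lit 240) (nat_lit 121) (nat_lit 239)) (PT.lf (nat_lit 4788) (nat_lit 6) (nat_lit 63) (nat_lit 3) (nat_lit 238) (nat_lit 122) (nat_lit 240))) (PT.nd (nat_lit 78) (PT.lf (nat_lit 4864) (nat_lit 3) (nat_lit 64)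 (nat_lit 1) (nat_lit 239) (nat_lit 122) (nat_lit 239)) (PT.nd (nat_lit 62322) (PT.lf (nat_lit 4788) (nat_lit 6) (nat_lit 63) (nat_lit 1) (nat_lit 240) (nat_lit 122) (nat_lit 238)) (PT.lf (nat_lit 4940) (nat_lit 6) (nat_lit 65) (nat_lit 3) (nat_lit 238) (nat_lit 123) (nat_lit 239))))) (PT.nd (nat_lit 62400) (PT.nd (nat_lit 62322) (PT.lf (nat_lit 4940) (nat_lit 6) (nat_lit 65) (nat_lit 1) (nat_lit 239) (nat_lit 123) (nat_lit 238)) (PT.lf (nat_lit 5016) (nat_lit 6) (nat_lit 66) (nat_lit 3) (nat_lit 237) (nat_lit 124) (nat_lit 239))) (PT.nd (nat_lit 78) (PT.lf (nat_lit 5092) (nat_lit 3) (nat_lit 67) (nat_lit 1) (nat_lit 238) (nat_lit 124) (nat_lit 238)) (PT.nd (nat_lit 62244) (PT.lf (nat_lit 5016) (nat_lit 6) (nat_lit 66) (nat_lit 1) (nat_lit 239) (nat_lit 124) (nat_lit 237)) (PT.lf (nat_lit 5168) (nat_lit 6) (nat_lit 68) (nat_lit 3) (nat_lit 236) (nat_lit 125) (nat_lit 239)))))) (PT.nd (nat_lit 62556) (PT.nd (nat_lit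 156) (PT.nd (nat_lit 78) (PT.lf (nat_lit 5244) (nat_lit 6) (nat_lit 69) (nat_lit 3) (nat_lit 237) (nat_lit 125) (nat_lit 238)) (PT.lf (nat_lit 5244) (nat_lit 6) (nat_lit 69) (nat_lit 1) (nat_lit 238) (nat_lit 125) (nat_lit 237))) (PT.nd (nat_lit 62244) (PT.lf (nat_lit 5168) (nat_lit 6) (nat_lit 68) (nat_lit 1) (nat_lit 239) (nat_lit 125) (nat_lit 236)) (PT.nd (nat_lit 78) (PT.lf (nat_lit 5320) (nat_lit 6) (nat_lit 70) (nat_lit 3) (nat_lit 236) (nat_lit 126) (nat_lit 238)) (PT.lf (nat_lit 5396) (nat_lit 3) (nat_lit 71) (nat_lit 1) (nat_lit 237) (nat_lit 126) (nat_lit 237))))) (PT.nd (nat_lit 62322) (PT.nd (nat_lit 62244) (PT.lf (nat_lit 5320) (nat_lit 6) (nat_lit 70) (nat_lit 1) (nat_lit 238) (nat_lit 126) (nat_lit 236)) (PT.lf (nat_lit 5472) (nat_lit 6) (nat_lit 72) (nat_lit 3) (nat_lit 235) (nat_lit 127) (nat_lit 238))) (PT.nd (nat_lit 78) (PT.lf (nat_lit 5548) (nat_lit 6) (nat_lit 73) (nat_lit 3) (nat_lit 236)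 (nat_lit 127) (nat_lit 237)) (PT.nd (nat_lit 78) (PT.lf (nat_lit 5548) (nat_lit 6) (nat_lit 73) (nat_lit 1) (nat_lit 237) (nat_lit 127) (nat_lit 236)) (PT.lf (nat_lit 5472) (nat_lit 6) (nat_lit 72) (nat_lit 1) (nat_lit 238) (nat_lit 127) (nat_lit 235))))))))
noncomputable def pc3 : PT := (PT.nd (nat_lit 312312) (PT.nd (nat_lit 125034) (PT.nd (nat_lit 62478) (PT.nd (nat_lit 156) (PT.nd (nat_lit 78) (PT.lf (nat_lit 5624) (nat_lit 6) (nat_lit 74) (nat_lit 3) (nat_lit 235) (nat_lit 128) (nat_lit 237)) (PT.lf (nat_lit 5700) (nat_lit 3) (nat_lit 75) (nat_lit 1) (nat_lit 236) (nat_lit 128) (nat_lit 236))) (PT.nd (nat_lit 62244) (PT.lf (nat_lit 5624) (nat_lit 6) (nat_lit 74) (nat_lit 1) (nat_lit 237) (nat_lit 128) (nat_lit 235)) (PT.lf (nat_lit 5776) (nat_lit 6) (nat_lit 76) (nat_lit 3) (nat_lit 234) (nat_lit 129) (nat_lit 237)))) (PT.nd (nat_lit 156) (PT.nd (nat_lit 78) (PT.lf (nat_lit 5852) (nat_lit 6) (nat_lit 77) (nat_lit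 3) (nat_lit 235) (nat_lit 129) (nat_lit 236)) (PT.lf (nat_lit 5852) (nat_lit 6) (nat_lit 77) (nat_lit 1) (nat_lit 236) (nat_lit 129) (nat_lit 235))) (PT.nd (nat_lit 62244) (PT.lf (nat_lit 5776) (nat_lit 6) (nat_lit 76) (nat_lit 1) (nat_lit 237) (nat_lit 129) (nat_lit 234)) (PT.nd (nat_lit 78) (PT.lf (nat_lit 5928) (nat_lit 6) (nat_lit 78) (nat_lit 3) (nat_lit 234) (nat_lit 130) (nat_lit 236)) (PT.lf (nat_lit 6004) (nat_lit 3) (nat_lit 79) (nat_lit 1) (nat_lit 235) (nat_lit 130) (nat_lit 235)))))) (PT.nd (nat_lit 124722) (PT.nd (nat_lit 62322) (PT.nd (nat_lit 62244) (PT.lf (nat_lit 5928) (nat_lit 6) (nat_lit 78) (nat_lit 1) (nat_lit 236) (nat_lit 130) (nat_lit 234)) (PT.lf (nat_lit 6080) (nat_lit 6) (nat_lit 80) (nat_lit 3) (nat_lit 233) (nat_lit 131) (nat_lit 236))) (PT.nd (nat_lit 78) (PT.lf (nat_lit 6156) (nat_lit 6) (nat_lit 81) (nat_lit 3) (nat_lit 234) (nat_lit 131) (nat_lit 235)) (PT.nd (nat_lit 78) (PT.lf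 (nat_lit 6156) (nat_lit 6) (nat_lit 81) (nat_lit 1) (nat_lit 235) (nat_lit 131) (nat_lit 234)) (PT.lf (nat_lit 6080) (nat_lit 6) (nat_lit 80) (nat_lit 1) (nat_lit 236) (nat_lit 131) (nat_lit 233))))) (PT.nd (nat_lit 156) (PT.nd (nat_lit 78) (PT.lf (nat_lit 6232) (nat_lit 6) (nat_lit 82) (nat_lit 3) (nat_lit 233) (nat_lit 132) (nat_lit 235)) (PT.lf (nat_lit 6308) (nat_lit 3) (nat_lit 83) (nat_lit 1) (nat_lit 234) (nat_lit 132) (nat_lit 234))) (PT.nd (nat_lit 62244) (PT.lf (nat_lit 6232) (nat_lit 6) (nat_lit 82) (nat_lit 1) (nat_lit 235) (nat_lit 132) (nat_lit 233)) (PT.nd (nat_lit 78) (PT.lf (nat_lit 6384) (nat_lit 6) (nat_lit 84) (nat_lit 3) (nat_lit 232) (nat_lit 133) (nat_lit 235)) (PT.lf (nat_lit 6460) (nat_lit 6) (nat_lit 85) (nat_lit 3) (nat_lit 233) (nat_lit 133) (nat_lit 234))))))) (PT.nd (nat_lit 187278) (PT.nd (nat_lit 124722) (PT.nd (nat_lit 62322) (PT.nd (nat_lit 78) (PT.lf (nat_lit 6460) (nat_lit 6)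 (nat_lit 85) (nat_lit 1) (nat_lit 234) (nat_lit 133) (nat_lit 233)) (PT.lf (nat_lit 6384) (nat_lit 6) (nat_lit 84) (nat_lit 1) (nat_lit 235) (nat_lit 133) (nat_lit 232))) (PT.nd (nat_lit 78) (PT.lf (nat_lit 6536) (nat_lit 6) (nat_lit 86) (nat_lit 3) (nat_lit 232) (nat_lit 134) (nat_lit 234)) (PT.nd (nat_lit 78) (PT.lf (nat_lit 6612) (nat_lit 3) (nat_lit 87) (nat_lit 1) (nat_lit 233) (nat_lit 134) (nat_lit 233)) (PT.lf (nat_lit 6536) (nat_lit 6) (nat_lit 86) (nat_lit 1) (nat_lit 234) (nat_lit 134) (nat_lit 232))))) (PT.nd (nat_lit 156) (PT.nd (nat_lit 78) (PT.lf (nat_lit 6688) (nat_lit 6) (nat_lit 88) (nat_lit 3) (nat_lit 231) (nat_lit 135) (nat_lit 234)) (PT.lf (nat_lit 6764) (nat_lit 6) (nat_lit 89) (nat_lit 3) (nat_lit 232) (nat_lit 135) (nat_lit 233))) (PT.nd (nat_lit 78) (PT.lf (nat_lit 6764) (nat_lit 6) (nat_lit 89) (nat_lit 1) (nat_lit 233) (nat_lit 135) (nat_lit 232)) (PT.nd (nat_lit 62244) (PT.lf (nat_lit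 6688) (nat_lit 6) (nat_lit 88) (nat_lit 1) (nat_lit 234) (nat_lit 135) (nat_lit 231)) (PT.lf (nat_lit 6840) (nat_lit 6) (nat_lit 90) (nat_lit 3) (nat_lit 231) (nat_lit 136) (nat_lit 233)))))) (PT.nd (nat_lit 62556) (PT.nd (nat_lit 62322) (PT.nd (nat_lit 78) (PT.lf (nat_lit 6916) (nat_lit 3) (nat_lit 91) (nat_lit 1) (nat_lit 232) (nat_lit 136) (nat_lit 232)) (PT.lf (nat_lit 6840) (nat_lit 6) (nat_lit 90) (nat_lit 1) (nat_lit 233) (nat_lit 136) (nat_lit 231))) (PT.nd (nat_lit 78) (PT.lf (nat_lit 6992) (nat_lit 6) (nat_lit 92) (nat_lit 3) (nat_lit 230) (nat_lit 137) (nat_lit 233)) (PT.nd (nat_lit 78) (PT.lf (nat_lit 7068) (nat_lit 6) (nat_lit 93) (nat_lit 3) (nat_lit 231) (nat_lit 137) (nat_lit 232)) (PT.lf (nat_lit 7068) (nat_lit 6) (nat_lit 93) (nat_lit 1) (nat_lit 232) (nat_lit 137) (nat_lit 231))))) (PT.nd (nat_lit 62244) (PT.nd (nat_lit 62166) (PT.lf (nat_lit 6992) (nat_lit 6) (nat_lit 92) (nat_lit 1) (nat_lit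 233) (nat_lit 137) (nat_lit 230)) (PT.lf (nat_lit 7144) (nat_lit 6) (nat_lit 94) (nat_lit 3) (nat_lit 229) (nat_lit 138) (nat_lit 233))) (PT.nd (nat_lit 78) (PT.lf (nat_lit 7220) (nat_lit 6) (nat_lit 95) (nat_lit 3) (nat_lit 230) (nat_lit 138) (nat_lit 232)) (PT.nd (nat_lit 78) (PT.lf (nat_lit 7296) (nat_lit 3) (nat_lit 96) (nat_lit 1) (nat_lit 231) (nat_lit 138) (nat_lit 231)) (PT.lf (nat_lit 7220) (nat_lit 6) (nat_lit 95) (nat_lit 1) (nat_lit 232) (nat_lit 138) (nat_lit 230))))))))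
noncomputable def pc4 : PT := (PT.nd (nat_lit 311922) (PT.nd (nat_lit 124878) (PT.nd (nat_lit 62400) (PT.nd (nat_lit 62244) (PT.nd (nat_lit 62166) (PT.lf (nat_lit 7144) (nat_lit 6) (nat_lit 94) (nat_lit 1) (nat_lit 233) (nat_lit 138) (nat_lit 229)) (PT.lf (nat_lit 7372) (nat_lit 6) (nat_lit 97) (nat_lit 3) (nat_lit 229) (nat_lit 139) (nat_lit 232))) (PT.nd (nat_lit 78) (PT.lf (nat_lit 7448) (nat_lit 6) (nat_lit 98) (nat_lit 3) (nat_lit 230) (nat_lit 139) (nat_lit 231)) (PT.lf (nat_lit 7448) (nat_lit 6) (nat_lit 98) (nat_lit 1) (nat_lit 231) (nat_lit 139) (nat_lit 230)))) (PT.nd (nat_lit 62244) (PT.nd (nat_lit 62166) (PT.lf (nat_lit 7372) (nat_lit 6) (nat_lit 97) (nat_lit 1) (nat_lit 232) (nat_lit 139) (nat_lit 229)) (PT.lf (nat_lit 7524) (nat_lit 6) (nat_lit 99) (nat_lit 3) (nat_lit 228) (nat_lit 140) (nat_lit 232))) (PT.nd (nat_lit 78) (PT.lf (nat_lit 7600) (nat_lit 6) (nat_lit 100) (nat_lit 3) (nat_lit 229) (nat_lit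 140) (nat_lit 231)) (PT.nd (nat_lit 78) (PT.lf (nat_lit 7676) (nat_lit 3) (nat_lit 101) (nat_lit 1) (nat_lit 230) (nat_lit 140) (nat_lit 230)) (PT.lf (nat_lit 7600) (nat_lit 6) (nat_lit 100) (nat_lit 1) (nat_lit 231) (nat_lit 140) (nat_lit 229)))))) (PT.nd (nat_lit 124566) (PT.nd (nat_lit 62244) (PT.nd (nat_lit 62166) (PT.lf (nat_lit 7524) (nat_lit 6) (nat_lit 99) (nat_lit 1) (nat_lit 232) (nat_lit 140) (nat_lit 228)) (PT.lf (nat_lit 7752) (nat_lit 6) (nat_lit 102) (nat_lit 3) (nat_lit 228) (nat_lit 141) (nat_lit 231))) (PT.nd (nat_lit 78) (PT.lf (nat_lit 7828) (nat_lit 6) (nat_lit 103) (nat_lit 3) (nat_lit 229) (nat_lit 141) (nat_lit 230)) (PT.nd (nat_lit 78) (PT.lf (nat_lit 7828) (nat_lit 6) (nat_lit 103) (nat_lit 1) (nat_lit 230) (nat_lit 141) (nat_lit 229)) (PT.lf (nat_lit 7752) (nat_lit 6) (nat_lit 102) (nat_lit 1) (nat_lit 231) (nat_lit 141) (nat_lit 228))))) (PT.nd (nat_lit 156) (PT.nd (nat_lit 78) (PT.lf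 (nat_lit 7904) (nat_lit 6) (nat_lit 104) (nat_lit 3) (nat_lit 227) (nat_lit 142) (nat_lit 231)) (PT.lf (nat_lit 7980) (nat_lit 6) (nat_lit 105) (nat_lit 3) (nat_lit 228) (nat_lit 142) (nat_lit 230))) (PT.nd (nat_lit 78) (PT.lf (nat_lit 8056) (nat_lit 3) (nat_lit 106) (nat_lit 1) (nat_lit 229) (nat_lit 142) (nat_lit 229)) (PT.nd (nat_lit 78) (PT.lf (nat_lit 7980) (nat_lit 6) (nat_lit 105) (nat_lit 1) (nat_lit 230) (nat_lit 142) (nat_lit 228)) (PT.lf (nat_lit 7904) (nat_lit 6) (nat_lit 104) (nat_lit 1) (nat_lit 231) (nat_lit 142) (nat_lit 227))))))) (PT.nd (nat_lit 124956) (PT.nd (nat_lit 62478) (PT.nd (nat_lit 156) (PT.nd (nat_lit 78) (PT.lf (nat_lit 8132) (nat_lit 6) (nat_lit 107) (nat_lit 3) (nat_lit 227) (nat_lit 143) (nat_lit 230)) (PT.lf (nat_lit 8208) (nat_lit 6) (nat_lit 108) (nat_lit 3) (nat_lit 228) (nat_lit 143) (nat_lit 229))) (PT.nd (nat_lit 78) (PT.lf (nat_lit 8208) (nat_lit 6) (nat_lit 108) (nat_lit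 1) (nat_lit 229) (nat_lit 143) (nat_lit 228)) (PT.nd (nat_lit 62166) (PT.lf (nat_lit 8132) (nat_lit 6) (nat_lit 107) (nat_lit 1) (nat_lit 230) (nat_lit 143) (nat_lit 227)) (PT.lf (nat_lit 8284) (nat_lit 6) (nat_lit 109) (nat_lit 3) (nat_lit 226) (nat_lit 144) (nat_lit 230))))) (PT.nd (nat_lit 156) (PT.nd (nat_lit 78) (PT.lf (nat_lit 8360) (nat_lit 6) (nat_lit 110) (nat_lit 3) (nat_lit 227) (nat_lit 144) (nat_lit 229)) (PT.lf (nat_lit 8436) (nat_lit 3) (nat_lit 111) (nat_lit 1) (nat_lit 228) (nat_lit 144) (nat_lit 228))) (PT.nd (nat_lit 78) (PT.lf (nat_lit 8360) (nat_lit 6) (nat_lit 110) (nat_lit 1) (nat_lit 229) (nat_lit 144) (nat_lit 227)) (PT.nd (nat_lit 62166) (PT.lf (nat_lit 8284) (nat_lit 6) (nat_lit 109) (nat_lit 1) (nat_lit 230) (nat_lit 144) (nat_lit 226)) (PT.lf (nat_lit 8512) (nat_lit 6) (nat_lit 112) (nat_lit 3) (nat_lit 226) (nat_lit 145) (nat_lit 229)))))) (PT.nd (nat_lit 62478) (PT.nd (nat_lit 156)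 (PT.nd (nat_lit 78) (PT.lf (nat_lit 8588) (nat_lit 6) (nat_lit 113) (nat_lit 3) (nat_lit 227) (nat_lit 145) (nat_lit 228)) (PT.lf (nat_lit 8588) (nat_lit 6) (nat_lit 113) (nat_lit 1) (nat_lit 228) (nat_lit 145) (nat_lit 227))) (PT.nd (nat_lit 62166) (PT.lf (nat_lit 8512) (nat_lit 6) (nat_lit 112) (nat_lit 1) (nat_lit 229) (nat_lit 145) (nat_lit 226)) (PT.nd (nat_lit 78) (PT.lf (nat_lit 8664) (nat_lit 6) (nat_lit 114) (nat_lit 3) (nat_lit 225) (nat_lit 146) (nat_lit 229)) (PT.lf (nat_lit 8740) (nat_lit 6) (nat_lit 115) (nat_lit 3) (nat_lit 226) (nat_lit 146) (nat_lit 228))))) (PT.nd (nat_lit 156) (PT.nd (nat_lit 78) (PT.lf (nat_lit 8816) (nat_lit 3) (nat_lit 116) (nat_lit 1) (nat_lit 227) (nat_lit 146) (nat_lit 227)) (PT.lf (nat_lit 8740) (nat_lit 6) (nat_lit 115) (nat_lit 1) (nat_lit 228) (nat_lit 146) (nat_lit 226))) (PT.nd (nat_lit 62088) (PT.lf (nat_lit 8664) (nat_lit 6) (nat_lit 114) (nat_lit 1) (nat_lit 229)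 (nat_lit 146) (nat_lit 225)) (PT.nd (nat_lit 78) (PT.lf (nat_lit 8892) (nat_lit 6) (nat_lit 117) (nat_lit 3) (nat_lit 224) (nat_lit 147) (nat_lit 229)) (PT.lf (nat_lit 8968) (nat_lit 6) (nat_lit 118) (nat_lit 3) (nat_lit 225) (nat_lit 147) (nat_lit 228))))))))
noncomputable def pc5 : PT := (PT.nd (nat_lit 187512) (PT.nd (nat_lit 124722) (PT.nd (nat_lit 62322) (PT.nd (nat_lit 156) (PT.nd (nat_lit 78) (PT.lf (nat_lit 9044) (nat_lit 6) (nat_lit 119) (nat_lit 3) (nat_lit 226) (nat_lit 147) (nat_lit 227)) (PT.lf (nat_lit 9044) (nat_lit 6) (nat_lit 119) (nat_lit 1) (nat_lit 227) (nat_lit 147) (nat_lit 226))) (PT.nd (nat_lit 78) (PT.lf (nat_lit 8968) (nat_lit 6) (nat_lit 118) (nat_lit 1) (nat_lit 228) (nat_lit 147) (nat_lit 225)) (PT.lf (nat_lit 8892) (nat_lit 6) (nat_lit 117) (nat_lit 1) (nat_lit 229) (nat_lit 147) (nat_lit 224)))) (PT.nd (nat_lit 156) (PT.nd (nat_lit 78) (PT.lf (nat_lit 9120) (nat_lit 6) (nat_lit 120)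 (nat_lit 3) (nat_lit 224) (nat_lit 148) (nat_lit 228)) (PT.lf (nat_lit 9196) (nat_lit 6) (nat_lit 121) (nat_lit 3) (nat_lit 225) (nat_lit 148) (nat_lit 227))) (PT.nd (nat_lit 78) (PT.lf (nat_lit 9272) (nat_lit 3) (nat_lit 122) (nat_lit 1) (nat_lit 226) (nat_lit 148) (nat_lit 226)) (PT.nd (nat_lit 78) (PT.lf (nat_lit 9196) (nat_lit 6) (nat_lit 121) (nat_lit 1) (nat_lit 227) (nat_lit 148) (nat_lit 225)) (PT.lf (nat_lit 9120) (nat_lit 6) (nat_lit 120) (nat_lit 1) (nat_lit 228) (nat_lit 148) (nat_lit 224)))))) (PT.nd (nat_lit 390) (PT.nd (nat_lit 156) (PT.nd (nat_lit 78) (PT.lf (nat_lit 9348) (nat_lit 6) (nat_lit 123) (nat_lit 3) (nat_lit 223) (nat_lit 149) (nat_lit 228)) (PT.lf (nat_lit 9424) (nat_lit 6) (nat_lit 124) (nat_lit 3) (nat_lit 224) (nat_lit 149) (nat_lit 227))) (PT.nd (nat_lit 78) (PT.lf (nat_lit 9500) (nat_lit 6) (nat_lit 125) (nat_lit 3) (nat_lit 225) (nat_lit 149) (nat_lit 226)) (PT.nd (nat_lit 78)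 (PT.lf (nat_lit 9500) (nat_lit 6) (nat_lit 125) (nat_lit 1) (nat_lit 226) (nat_lit 149) (nat_lit 225)) (PT.lf (nat_lit 9424) (nat_lit 6) (nat_lit 124) (nat_lit 1) (nat_lit 227) (nat_lit 149) (nat_lit 224))))) (PT.nd (nat_lit 62166) (PT.nd (nat_lit 62088) (PT.lf (nat_lit 9348) (nat_lit 6) (nat_lit 123) (nat_lit 1) (nat_lit 228) (nat_lit 149) (nat_lit 223)) (PT.lf (nat_lit 9576) (nat_lit 6) (nat_lit 126) (nat_lit 3) (nat_lit 223) (nat_lit 150) (nat_lit 227))) (PT.nd (nat_lit 78) (PT.lf (nat_lit 9652) (nat_lit 6) (nat_lit 127) (nat_lit 3) (nat_lit 224) (nat_lit 150) (nat_lit 226)) (PT.nd (nat_lit 78) (PT.lf (nat_lit 9728) (nat_lit 3) (nat_lit 128) (nat_lit 1) (nat_lit 225) (nat_lit 150) (nat_lit 225)) (PT.lf (nat_lit 9652) (nat_lit 6) (nat_lit 127) (nat_lit 1) (nat_lit 226) (nat_lit 150) (nat_lit 224))))))) (PT.nd (nat_lit 124800) (PT.nd (nat_lit 62400) (PT.nd (nat_lit 62166) (PT.nd (nat_lit 62088) (PT.lf (nat_lit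 9576) (nat_lit 6) (nat_lit 126) (nat_lit 1) (nat_lit 227) (nat_lit 150) (nat_lit 223)) (PT.lf (nat_lit 9804) (nat_lit 6) (nat_lit 129) (nat_lit 3) (nat_lit 222) (nat_lit 151) (nat_lit 227))) (PT.nd (nat_lit 78) (PT.lf (nat_lit 9880) (nat_lit 6) (nat_lit 130) (nat_lit 3) (nat_lit 223) (nat_lit 151) (nat_lit 226)) (PT.nd (nat_lit 78) (PT.lf (nat_lit 9956) (nat_lit 6) (nat_lit 131) (nat_lit 3) (nat_lit 224) (nat_lit 151) (nat_lit 225)) (PT.lf (nat_lit 9956) (nat_lit 6) (nat_lit 131) (nat_lit 1) (nat_lit 225) (nat_lit 151) (nat_lit 224))))) (PT.nd (nat_lit 62166) (PT.nd (nat_lit 78) (PT.lf (nat_lit 9880) (nat_lit 6) (nat_lit 130) (nat_lit 1) (nat_lit 226) (nat_lit 151) (nat_lit 223)) (PT.lf (nat_lit 9804) (nat_lit 6) (nat_lit 129) (nat_lit 1) (nat_lit 227) (nat_lit 151) (nat_lit 222))) (PT.nd (nat_lit 78) (PT.lf (nat_lit 10032) (nat_lit 6) (nat_lit 132) (nat_lit 3) (nat_lit 222) (nat_lit 152) (nat_lit 226)) (PT.nd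 (nat_lit 78) (PT.lf (nat_lit 10108) (nat_lit 6) (nat_lit 133) (nat_lit 3) (nat_lit 223) (nat_lit 152) (nat_lit 225)) (PT.lf (nat_lit 10184) (nat_lit 3) (nat_lit 134) (nat_lit 1) (nat_lit 224) (nat_lit 152) (nat_lit 224)))))) (PT.nd (nat_lit 62400) (PT.nd (nat_lit 62166) (PT.nd (nat_lit 78) (PT.lf (nat_lit 10108) (nat_lit 6) (nat_lit 133) (nat_lit 1) (nat_lit 225) (nat_lit 152) (nat_lit 223)) (PT.lf (nat_lit 10032) (nat_lit 6) (nat_lit 132) (nat_lit 1) (nat_lit 226) (nat_lit 152) (nat_lit 222))) (PT.nd (nat_lit 78) (PT.lf (nat_lit 10260) (nat_lit 6) (nat_lit 135) (nat_lit 3) (nat_lit 221) (nat_lit 153) (nat_lit 226)) (PT.nd (nat_lit 78) (PT.lf (nat_lit 10336) (nat_lit 6) (nat_lit 136) (nat_lit 3) (nat_lit 222) (nat_lit 153) (nat_lit 225)) (PT.lf (nat_lit 10412) (nat_lit 6) (nat_lit 137) (nat_lit 3) (nat_lit 223) (nat_lit 153) (nat_lit 224))))) (PT.nd (nat_lit 156) (PT.nd (nat_lit 78) (PT.lf (nat_lit 10412) (nat_lit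 6) (nat_lit 137) (nat_lit 1) (nat_lit 224) (nat_lit 153) (nat_lit 223)) (PT.lf (nat_lit 10336) (nat_lit 6) (nat_lit 136) (nat_lit 1) (nat_lit 225) (nat_lit 153) (nat_lit 222))) (PT.nd (nat_lit 62010) (PT.lf (nat_lit 10260) (nat_lit 6) (nat_lit 135) (nat_lit 1) (nat_lit 226) (nat_lit 153) (nat_lit 221)) (PT.nd (nat_lit 78) (PT.lf (nat_lit 10488) (nat_lit 6) (nat_lit 138) (nat_lit 3) (nat_lit 220) (nat_lit 154) (nat_lit 226)) (PT.lf (nat_lit 10564) (nat_lit 6) (nat_lit 139) (nat_lit 3) (nat_lit 221) (nat_lit 154) (nat_lit 225))))))))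
noncomputable def pc6 : PT := (PT.nd (nat_lit 187278) (PT.nd (nat_lit 62634) (PT.nd (nat_lit 312) (PT.nd (nat_lit 156) (PT.nd (nat_lit 78) (PT.lf (nat_lit 10640) (nat_lit 6) (nat_lit 140) (nat_lit 3) (nat_lit 222) (nat_lit 154) (nat_lit 224)) (PT.lf (nat_lit 10716) (nat_lit 3) (nat_lit 141) (nat_lit 1) (nat_lit 223) (nat_lit 154) (nat_lit 223))) (PT.nd (nat_lit 78) (PT.lf (nat_lit 10640) (nat_lit 6) (nat_lit 140) (nat_lit 1) (nat_lit 224) (nat_lit 154) (nat_lit 222)) (PT.lf (nat_lit 10564) (nat_lit 6) (nat_lit 139) (nat_lit 1) (nat_lit 225) (nat_lit 154) (nat_lit 221)))) (PT.nd (nat_lit 62088) (PT.nd (nat_lit 62010) (PT.lf (nat_lit 10488) (nat_lit 6) (nat_lit 138) (nat_lit 1) (nat_lit 226) (nat_lit 154) (nat_lit 220)) (PT.lf (nat_lit 10792) (nat_lit 6) (nat_lit 142) (nat_lit 3) (nat_lit 220) (nat_lit 155) (nat_lit 225))) (PT.nd (nat_lit 78) (PT.lf (nat_lit 10868) (nat_lit 6) (nat_lit 143) (nat_lit 3) (nat_lit 221)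 (nat_lit 155) (nat_lit 224)) (PT.nd (nat_lit 78) (PT.lf (nat_lit 10944) (nat_lit 6) (nat_lit 144) (nat_lit 3) (nat_lit 222) (nat_lit 155) (nat_lit 223)) (PT.lf (nat_lit 10944) (nat_lit 6) (nat_lit 144) (nat_lit 1) (nat_lit 223) (nat_lit 155) (nat_lit 222)))))) (PT.nd (nat_lit 62322) (PT.nd (nat_lit 62088) (PT.nd (nat_lit 78) (PT.lf (nat_lit 10868) (nat_lit 6) (nat_lit 143) (nat_lit 1) (nat_lit 224) (nat_lit 155) (nat_lit 221)) (PT.lf (nat_lit 10792) (nat_lit 6) (nat_lit 142) (nat_lit 1) (nat_lit 225) (nat_lit 155) (nat_lit 220))) (PT.nd (nat_lit 78) (PT.lf (nat_lit 11020) (nat_lit 6) (nat_lit 145) (nat_lit 3) (nat_lit 219) (nat_lit 156) (nat_lit 225)) (PT.nd (nat_lit 78) (PT.lf (nat_lit 11096) (nat_lit 6) (nat_lit 146) (nat_lit 3) (nat_lit 220) (nat_lit 156) (nat_lit 224)) (PT.lf (nat_lit 11172) (nat_lit 6) (nat_lit 147) (nat_lit 3) (nat_lit 221) (nat_lit 156) (nat_lit 223))))) (PT.nd (nat_lit 156) (PT.nd (nat_lit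 78) (PT.lf (nat_lit 11248) (nat_lit 3) (nat_lit 148) (nat_lit 1) (nat_lit 222) (nat_lit 156) (nat_lit 222)) (PT.lf (nat_lit 11172) (nat_lit 6) (nat_lit 147) (nat_lit 1) (nat_lit 223) (nat_lit 156) (nat_lit 221))) (PT.nd (nat_lit 78) (PT.lf (nat_lit 11096) (nat_lit 6) (nat_lit 146) (nat_lit 1) (nat_lit 224) (nat_lit 156) (nat_lit 220)) (PT.nd (nat_lit 62010) (PT.lf (nat_lit 11020) (nat_lit 6) (nat_lit 145) (nat_lit 1) (nat_lit 225) (nat_lit 156) (nat_lit 219)) (PT.lf (nat_lit 11324) (nat_lit 6) (nat_lit 149) (nat_lit 3) (nat_lit 219) (nat_lit 157) (nat_lit 224))))))) (PT.nd (nat_lit 62712) (PT.nd (nat_lit 62322) (PT.nd (nat_lit 156) (PT.nd (nat_lit 78) (PT.lf (nat_lit 11400) (nat_lit 6) (nat_lit 150) (nat_lit 3) (nat_lit 220) (nat_lit 157) (nat_lit 223)) (PT.lf (nat_lit 11476) (nat_lit 6) (nat_lit 151) (nat_lit 3) (nat_lit 221) (nat_lit 157) (nat_lit 222))) (PT.nd (nat_lit 78) (PT.lf (nat_lit 11476) (nat_lit 6)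 (nat_lit 151) (nat_lit 1) (nat_lit 222) (nat_lit 157) (nat_lit 221)) (PT.nd (nat_lit 78) (PT.lf (nat_lit 11400) (nat_lit 6) (nat_lit 150) (nat_lit 1) (nat_lit 223) (nat_lit 157) (nat_lit 220)) (PT.lf (nat_lit 11324) (nat_lit 6) (nat_lit 149) (nat_lit 1) (nat_lit 224) (nat_lit 157) (nat_lit 219))))) (PT.nd (nat_lit 156) (PT.nd (nat_lit 78) (PT.lf (nat_lit 11552) (nat_lit 6) (nat_lit 152) (nat_lit 3) (nat_lit 218) (nat_lit 158) (nat_lit 224)) (PT.lf (nat_lit 11628) (nat_lit 6) (nat_lit 153) (nat_lit 3) (nat_lit 219) (nat_lit 158) (nat_lit 223))) (PT.nd (nat_lit 78) (PT.lf (nat_lit 11704) (nat_lit 6) (nat_lit 154) (nat_lit 3) (nat_lit 220) (nat_lit 158) (nat_lit 222)) (PT.nd (nat_lit 78) (PT.lf (nat_lit 11780) (nat_lit 3) (nat_lit 155) (nat_lit 1) (nat_lit 221) (nat_lit 158) (nat_lit 221)) (PT.lf (nat_lit 11704) (nat_lit 6) (nat_lit 154) (nat_lit 1) (nat_lit 222) (nat_lit 158) (nat_lit 220)))))) (PT.nd (nat_lit 62244)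 (PT.nd (nat_lit 62010) (PT.nd (nat_lit 78) (PT.lf (nat_lit 11628) (nat_lit 6) (nat_lit 153) (nat_lit 1) (nat_lit 223) (nat_lit 158) (nat_lit 219)) (PT.lf (nat_lit 11552) (nat_lit 6) (nat_lit 152) (nat_lit 1) (nat_lit 224) (nat_lit 158) (nat_lit 218))) (PT.nd (nat_lit 78) (PT.lf (nat_lit 11856) (nat_lit 6) (nat_lit 156) (nat_lit 3) (nat_lit 217) (nat_lit 159) (nat_lit 224)) (PT.nd (nat_lit 78) (PT.lf (nat_lit 11932) (nat_lit 6) (nat_lit 157) (nat_lit 3) (nat_lit 218) (nat_lit 159) (nat_lit 223)) (PT.lf (nat_lit 12008) (nat_lit 6) (nat_lit 158) (nat_lit 3) (nat_lit 219) (nat_lit 159) (nat_lit 222))))) (PT.nd (nat_lit 156) (PT.nd (nat_lit 78) (PT.lf (nat_lit 12084) (nat_lit 6) (nat_lit 159) (nat_lit 3) (nat_lit 220) (nat_lit 159) (nat_lit 221)) (PT.lf (nat_lit 12084) (nat_lit 6) (nat_lit 159) (nat_lit 1) (nat_lit 221) (nat_lit 159) (nat_lit 220))) (PT.nd (nat_lit 78) (PT.lf (nat_lit 12008) (nat_lit 6) (nat_lit 158)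 (nat_lit 1) (nat_lit 222) (nat_lit 159) (nat_lit 219)) (PT.nd (nat_lit 78) (PT.lf (nat_lit 11932) (nat_lit 6) (nat_lit 157) (nat_lit 1) (nat_lit 223) (nat_lit 159) (nat_lit 218)) (PT.lf (nat_lit 11856) (nat_lit 6) (nat_lit 156) (nat_lit 1) (nat_lit 224) (nat_lit 159) (nat_lit 217))))))))
noncomputable def pc7 : PT := (PT.nd (nat_lit 125112) (PT.nd (nat_lit 62556) (PT.nd (nat_lit 312) (PT.nd (nat_lit 156) (PT.nd (nat_lit 78) (PT.lf (nat_lit 12160) (nat_lit 6) (nat_lit 160) (nat_lit 3) (nat_lit 217) (nat_lit 160) (nat_lit 223)) (PT.lf (nat_lit 12236) (nat_lit 6) (nat_lit 161) (nat_lit 3) (nat_lit 218) (nat_lit 160) (nat_lit 222))) (PT.nd (nat_lit 78) (PT.lf (nat_lit 12312) (nat_lit 6) (nat_lit 162) (nat_lit 3) (nat_lit 219) (nat_lit 160) (nat_lit 221)) (PT.lf (nat_lit 12388) (nat_lit 3) (nat_lit 163) (nat_lit 1) (nat_lit 220) (nat_lit 160) (nat_lit 220)))) (PT.nd (nat_lit 156) (PT.nd (nat_lit 78) (PT.lf (nat_lit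 12312) (nat_lit 6) (nat_lit 162) (nat_lit 1) (nat_lit 221) (nat_lit 160) (nat_lit 219)) (PT.lf (nat_lit 12236) (nat_lit 6) (nat_lit 161) (nat_lit 1) (nat_lit 222) (nat_lit 160) (nat_lit 218))) (PT.nd (nat_lit 61932) (PT.lf (nat_lit 12160) (nat_lit 6) (nat_lit 160) (nat_lit 1) (nat_lit 223) (nat_lit 160) (nat_lit 217)) (PT.nd (nat_lit 78) (PT.lf (nat_lit 12464) (nat_lit 6) (nat_lit 164) (nat_lit 3) (nat_lit 216) (nat_lit 161) (nat_lit 223)) (PT.lf (nat_lit 12540) (nat_lit 6) (nat_lit 165) (nat_lit 3) (nat_lit 217) (nat_lit 161) (nat_lit 222)))))) (PT.nd (nat_lit 390) (PT.nd (nat_lit 156) (PT.nd (nat_lit 78) (PT.lf (nat_lit 12616) (nat_lit 6) (nat_lit 166) (nat_lit 3) (nat_lit 218) (nat_lit 161) (nat_lit 221)) (PT.lf (nat_lit 12692) (nat_lit 6) (nat_lit 167) (nat_lit 3) (nat_lit 219) (nat_lit 161) (nat_lit 220))) (PT.nd (nat_lit 78) (PT.lf (nat_lit 12692) (nat_lit 6) (nat_lit 167) (nat_lit 1) (nat_lit 220) (nat_lit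 161) (nat_lit 219)) (PT.nd (nat_lit 78) (PT.lf (nat_lit 12616) (nat_lit 6) (nat_lit 166) (nat_lit 1) (nat_lit 221) (nat_lit 161) (nat_lit 218)) (PT.lf (nat_lit 12540) (nat_lit 6) (nat_lit 165) (nat_lit 1) (nat_lit 222) (nat_lit 161) (nat_lit 217))))) (PT.nd (nat_lit 61932) (PT.nd (nat_lit 61854) (PT.lf (nat_lit 12464) (nat_lit 6) (nat_lit 164) (nat_lit 1) (nat_lit 223) (nat_lit 161) (nat_lit 216)) (PT.lf (nat_lit 12768) (nat_lit 6) (nat_lit 168) (nat_lit 3) (nat_lit 215) (nat_lit 162) (nat_lit 223))) (PT.nd (nat_lit 78) (PT.lf (nat_lit 12844) (nat_lit 6) (nat_lit 169) (nat_lit 3) (nat_lit 216) (nat_lit 162) (nat_lit 222)) (PT.nd (nat_lit 78) (PT.lf (nat_lit 12920) (nat_lit 6) (nat_lit 170) (nat_lit 3) (nat_lit 217) (nat_lit 162) (nat_lit 221)) (PT.lf (nat_lit 12996) (nat_lit 6) (nat_lit 171) (nat_lit 3) (nat_lit 218) (nat_lit 162) (nat_lit 220))))))) (PT.nd (nat_lit 62556) (PT.nd (nat_lit 62166) (PT.nd (nat_lit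 156) (PT.nd (nat_lit 78) (PT.lf (nat_lit 13072) (nat_lit 3) (nat_lit 172) (nat_lit 1) (nat_lit 219) (nat_lit 162) (nat_lit 219)) (PT.lf (nat_lit 12996) (nat_lit 6) (nat_lit 171) (nat_lit 1) (nat_lit 220) (nat_lit 162) (nat_lit 218))) (PT.nd (nat_lit 78) (PT.lf (nat_lit 12920) (nat_lit 6) (nat_lit 170) (nat_lit 1) (nat_lit 221) (nat_lit 162) (nat_lit 217)) (PT.nd (nat_lit 78) (PT.lf (nat_lit 12844) (nat_lit 6) (nat_lit 169) (nat_lit 1) (nat_lit 222) (nat_lit 162) (nat_lit 216)) (PT.lf (nat_lit 12768) (nat_lit 6) (nat_lit 168) (nat_lit 1) (nat_lit 223) (nat_lit 162) (nat_lit 215))))) (PT.nd (nat_lit 156) (PT.nd (nat_lit 78) (PT.lf (nat_lit 13148) (nat_lit 6) (nat_lit 173) (nat_lit 3) (nat_lit 215) (nat_lit 163) (nat_lit 222)) (PT.lf (nat_lit 13224) (nat_lit 6) (nat_lit 174) (nat_lit 3) (nat_lit 216) (nat_lit 163) (nat_lit 221))) (PT.nd (nat_lit 78) (PT.lf (nat_lit 13300) (nat_lit 6) (nat_lit 175) (nat_lit 3) (nat_lit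 217) (nat_lit 163) (nat_lit 220)) (PT.nd (nat_lit 78) (PT.lf (nat_lit 13376) (nat_lit 6) (nat_lit 176) (nat_lit 3) (nat_lit 218) (nat_lit 163) (nat_lit 219)) (PT.lf (nat_lit 13376) (nat_lit 6) (nat_lit 176) (nat_lit 1) (nat_lit 219) (nat_lit 163) (nat_lit 218)))))) (PT.nd (nat_lit 62166) (PT.nd (nat_lit 156) (PT.nd (nat_lit 78) (PT.lf (nat_lit 13300) (nat_lit 6) (nat_lit 175) (nat_lit 1) (nat_lit 220) (nat_lit 163) (nat_lit 217)) (PT.lf (nat_lit 13224) (nat_lit 6) (nat_lit 174) (nat_lit 1) (nat_lit 221) (nat_lit 163) (nat_lit 216))) (PT.nd (nat_lit 61854) (PT.lf (nat_lit 13148) (nat_lit 6) (nat_lit 173) (nat_lit 1) (nat_lit 222) (nat_lit 163) (nat_lit 215)) (PT.nd (nat_lit 78) (PT.lf (nat_lit 13452) (nat_lit 6) (nat_lit 177) (nat_lit 3) (nat_lit 214) (nat_lit 164) (nat_lit 222)) (PT.lf (nat_lit 13528) (nat_lit 6) (nat_lit 178) (nat_lit 3) (nat_lit 215) (nat_lit 164) (nat_lit 221))))) (PT.nd (nat_lit 156) (PT.nd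 (nat_lit 78) (PT.lf (nat_lit 13604) (nat_lit 6) (nat_lit 179) (nat_lit 3) (nat_lit 216) (nat_lit 164) (nat_lit 220)) (PT.lf (nat_lit 13680) (nat_lit 6) (nat_lit 180) (nat_lit 3) (nat_lit 217) (nat_lit 164) (nat_lit 219))) (PT.nd (nat_lit 78) (PT.lf (nat_lit 13756) (nat_lit 3) (nat_lit 181) (nat_lit 1) (nat_lit 218) (nat_lit 164) (nat_lit 218)) (PT.nd (nat_lit 78) (PT.lf (nat_lit 13680) (nat_lit 6) (nat_lit 180) (nat_lit 1) (nat_lit 219) (nat_lit 164) (nat_lit 217)) (PT.lf (nat_lit 13604) (nat_lit 6) (nat_lit 179) (nat_lit 1) (nat_lit 220) (nat_lit 164) (nat_lit 216))))))))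
noncomputable def pc8 : PT := (PT.nd (nat_lit 186732) (PT.nd (nat_lit 62478) (PT.nd (nat_lit 62088) (PT.nd (nat_lit 61932) (PT.nd (nat_lit 78) (PT.lf (nat_lit 13528) (nat_lit 6) (nat_lit 178) (nat_lit 1) (nat_lit 221) (nat_lit 164) (nat_lit 215)) (PT.lf (nat_lit 13452) (nat_lit 6) (nat_lit 177) (nat_lit 1) (nat_lit 222) (nat_lit 164) (nat_lit 214))) (PT.nd (nat_lit 78) (PT.lf (nat_lit 13832) (nat_lit 6) (nat_lit 182) (nat_lit 3) (nat_lit 214) (nat_lit 165) (nat_lit 221)) (PT.lf (nat_lit 13908) (nat_lit 6) (nat_lit 183) (nat_lit 3) (nat_lit 215) (nat_lit 165) (nat_lit 220)))) (PT.nd (nat_lit 156) (PT.nd (nat_lit 78) (PT.lf (nat_lit 13984) (nat_lit 6) (nat_lit 184) (nat_lit 3) (nat_lit 216) (nat_lit 165) (nat_lit 219)) (PT.lf (nat_lit 14060) (nat_lit 6) (nat_lit 185) (nat_lit 3) (nat_lit 217) (nat_lit 165) (nat_lit 218))) (PT.nd (nat_lit 78) (PT.lf (nat_lit 14060) (nat_lit 6) (nat_lit 185) (nat_lit 1) (nat_lit 218)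 (nat_lit 165) (nat_lit 217)) (PT.nd (nat_lit 78) (PT.lf (nat_lit 13984) (nat_lit 6) (nat_lit 184) (nat_lit 1) (nat_lit 219) (nat_lit 165) (nat_lit 216)) (PT.lf (nat_lit 13908) (nat_lit 6) (nat_lit 183) (nat_lit 1) (nat_lit 220) (nat_lit 165) (nat_lit 215)))))) (PT.nd (nat_lit 62166) (PT.nd (nat_lit 61932) (PT.nd (nat_lit 61854) (PT.lf (nat_lit 13832) (nat_lit 6) (nat_lit 182) (nat_lit 1) (nat_lit 221) (nat_lit 165) (nat_lit 214)) (PT.lf (nat_lit 14136) (nat_lit 6) (nat_lit 186) (nat_lit 3) (nat_lit 213) (nat_lit 166) (nat_lit 221))) (PT.nd (nat_lit 78) (PT.lf (nat_lit 14212) (nat_lit 6) (nat_lit 187) (nat_lit 3) (nat_lit 214) (nat_lit 166) (nat_lit 220)) (PT.nd (nat_lit 78) (PT.lf (nat_lit 14288) (nat_lit 6) (nat_lit 188) (nat_lit 3) (nat_lit 215) (nat_lit 166) (nat_lit 219)) (PT.lf (nat_lit 14364) (nat_lit 6) (nat_lit 189) (nat_lit 3) (nat_lit 216) (nat_lit 166) (nat_lit 218))))) (PT.nd (nat_lit 156) (PT.nd (nat_lit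 78) (PT.lf (nat_lit 14440) (nat_lit 3) (nat_lit 190) (nat_lit 1) (nat_lit 217) (nat_lit 166) (nat_lit 217)) (PT.lf (nat_lit 14364) (nat_lit 6) (nat_lit 189) (nat_lit 1) (nat_lit 218) (nat_lit 166) (nat_lit 216))) (PT.nd (nat_lit 78) (PT.lf (nat_lit 14288) (nat_lit 6) (nat_lit 188) (nat_lit 1) (nat_lit 219) (nat_lit 166) (nat_lit 215)) (PT.nd (nat_lit 78) (PT.lf (nat_lit 14212) (nat_lit 6) (nat_lit 187) (nat_lit 1) (nat_lit 220) (nat_lit 166) (nat_lit 214)) (PT.lf (nat_lit 14136) (nat_lit 6) (nat_lit 186) (nat_lit 1) (nat_lit 221) (nat_lit 166) (nat_lit 213))))))) (PT.nd (nat_lit 702) (PT.nd (nat_lit 312) (PT.nd (nat_lit 156) (PT.nd (nat_lit 78) (PT.lf (nat_lit 14516) (nat_lit 6) (nat_lit 191) (nat_lit 3) (nat_lit 212) (nat_lit 167) (nat_lit 221)) (PT.lf (nat_lit 14592) (nat_lit 6) (nat_lit 192) (nat_lit 3) (nat_lit 213) (nat_lit 167) (nat_lit 220))) (PT.nd (nat_lit 78) (PT.lf (nat_lit 14668) (nat_lit 6) (nat_lit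 193) (nat_lit 3) (nat_lit 214) (nat_lit 167) (nat_lit 219)) (PT.lf (nat_lit 14744) (nat_lit 6) (nat_lit 194) (nat_lit 3) (nat_lit 215) (nat_lit 167) (nat_lit 218)))) (PT.nd (nat_lit 156) (PT.nd (nat_lit 78) (PT.lf (nat_lit 14820) (nat_lit 6) (nat_lit 195) (nat_lit 3) (nat_lit 216) (nat_lit 167) (nat_lit 217)) (PT.lf (nat_lit 14820) (nat_lit 6) (nat_lit 195) (nat_lit 1) (nat_lit 217) (nat_lit 167) (nat_lit 216))) (PT.nd (nat_lit 78) (PT.lf (nat_lit 14744) (nat_lit 6) (nat_lit 194) (nat_lit 1) (nat_lit 218) (nat_lit 167) (nat_lit 215)) (PT.nd (nat_lit 78) (PT.lf (nat_lit 14668) (nat_lit 6) (nat_lit 193) (nat_lit 1) (nat_lit 219) (nat_lit 167) (nat_lit 214)) (PT.lf (nat_lit 14592) (nat_lit 6) (nat_lit 192) (nat_lit 1) (nat_lit 220) (nat_lit 167) (nat_lit 213)))))) (PT.nd (nat_lit 62088) (PT.nd (nat_lit 61854) (PT.nd (nat_lit 61776) (PT.lf (nat_lit 14516) (nat_lit 6) (nat_lit 191) (nat_lit 1) (nat_lit 221) (nat_lit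 167) (nat_lit 212)) (PT.lf (nat_lit 14896) (nat_lit 6) (nat_lit 196) (nat_lit 3) (nat_lit 212) (nat_lit 168) (nat_lit 220))) (PT.nd (nat_lit 78) (PT.lf (nat_lit 14972) (nat_lit 6) (nat_lit 197) (nat_lit 3) (nat_lit 213) (nat_lit 168) (nat_lit 219)) (PT.nd (nat_lit 78) (PT.lf (nat_lit 15048) (nat_lit 6) (nat_lit 198) (nat_lit 3) (nat_lit 214) (nat_lit 168) (nat_lit 218)) (PT.lf (nat_lit 15124) (nat_lit 6) (nat_lit 199) (nat_lit 3) (nat_lit 215) (nat_lit 168) (nat_lit 217))))) (PT.nd (nat_lit 156) (PT.nd (nat_lit 78) (PT.lf (nat_lit 15200) (nat_lit 3) (nat_lit 200) (nat_lit 1) (nat_lit 216) (nat_lit 168) (nat_lit 216)) (PT.lf (nat_lit 15124) (nat_lit 6) (nat_lit 199) (nat_lit 1) (nat_lit 217) (nat_lit 168) (nat_lit 215))) (PT.nd (nat_lit 78) (PT.lf (nat_lit 15048) (nat_lit 6) (nat_lit 198) (nat_lit 1) (nat_lit 218) (nat_lit 168) (nat_lit 214)) (PT.nd (nat_lit 78) (PT.lf (nat_lit 14972) (nat_lit 6) (nat_lit 197) (nat_lit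 1) (nat_lit 219) (nat_lit 168) (nat_lit 213)) (PT.lf (nat_lit 14896) (nat_lit 6) (nat_lit 196) (nat_lit 1) (nat_lit 220) (nat_lit 168) (nat_lit 212))))))))
noncomputable def pc9 : PT := (PT.nd (nat_lit 63102) (PT.nd (nat_lit 702) (PT.nd (nat_lit 312) (PT.nd (nat_lit 156) (PT.nd (nat_lit 78) (PT.lf (nat_lit 15276) (nat_lit 6) (nat_lit 201) (nat_lit 3) (nat_lit 211) (nat_lit 169) (nat_lit 220)) (PT.lf (nat_lit 15352) (nat_lit 6) (nat_lit 202) (nat_lit 3) (nat_lit 212) (nat_lit 169) (nat_lit 219))) (PT.nd (nat_lit 78) (PT.lf (nat_lit 15428) (nat_lit 6) (nat_lit 203) (nat_lit 3) (nat_lit 213) (nat_lit 169) (nat_lit 218)) (PT.lf (nat_lit 15504) (nat_lit 6) (nat_lit 204) (nat_lit 3) (nat_lit 214) (nat_lit 169) (nat_lit 217)))) (PT.nd (nat_lit 156) (PT.nd (nat_lit 78) (PT.lf (nat_lit 15580) (nat_lit 6) (nat_lit 205) (nat_lit 3) (nat_lit 215) (nat_lit 169) (nat_lit 216)) (PT.lf (nat_lit 15580) (nat_lit 6) (nat_lit 205)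 (nat_lit 1) (nat_lit 216) (nat_lit 169) (nat_lit 215))) (PT.nd (nat_lit 78) (PT.lf (nat_lit 15504) (nat_lit 6) (nat_lit 204) (nat_lit 1) (nat_lit 217) (nat_lit 169) (nat_lit 214)) (PT.nd (nat_lit 78) (PT.lf (nat_lit 15428) (nat_lit 6) (nat_lit 203) (nat_lit 1) (nat_lit 218) (nat_lit 169) (nat_lit 213)) (PT.lf (nat_lit 15352) (nat_lit 6) (nat_lit 202) (nat_lit 1) (nat_lit 219) (nat_lit 169) (nat_lit 212)))))) (PT.nd (nat_lit 62010) (PT.nd (nat_lit 61776) (PT.nd (nat_lit 61698) (PT.lf (nat_lit 15276) (nat_lit 6) (nat_lit 201) (nat_lit 1) (nat_lit 220) (nat_lit 169) (nat_lit 211)) (PT.lf (nat_lit 15656) (nat_lit 6) (nat_lit 206) (nat_lit 3) (nat_lit 210) (nat_lit 170) (nat_lit 220))) (PT.nd (nat_lit 78) (PT.lf (nat_lit 15732) (nat_lit 6) (nat_lit 207) (nat_lit 3) (nat_lit 211) (nat_lit 170) (nat_lit 219)) (PT.nd (nat_lit 78) (PT.lf (nat_lit 15808) (nat_lit 6) (nat_lit 208) (nat_lit 3) (nat_lit 212) (nat_lit 170) (nat_lit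 218)) (PT.lf (nat_lit 15884) (nat_lit 6) (nat_lit 209) (nat_lit 3) (nat_lit 213) (nat_lit 170) (nat_lit 217))))) (PT.nd (nat_lit 156) (PT.nd (nat_lit 78) (PT.lf (nat_lit 15960) (nat_lit 6) (nat_lit 210) (nat_lit 3) (nat_lit 214) (nat_lit 170) (nat_lit 216)) (PT.lf (nat_lit 16036) (nat_lit 3) (nat_lit 211) (nat_lit 1) (nat_lit 215) (nat_lit 170) (nat_lit 215))) (PT.nd (nat_lit 78) (PT.lf (nat_lit 15960) (nat_lit 6) (nat_lit 210) (nat_lit 1) (nat_lit 216) (nat_lit 170) (nat_lit 214)) (PT.nd (nat_lit 78) (PT.lf (nat_lit 15884) (nat_lit 6) (nat_lit 209) (nat_lit 1) (nat_lit 217) (nat_lit 170) (nat_lit 213)) (PT.lf (nat_lit 15808) (nat_lit 6) (nat_lit 208) (nat_lit 1) (nat_lit 218) (nat_lit 170) (nat_lit 212))))))) (PT.nd (nat_lit 62322) (PT.nd (nat_lit 61932) (PT.nd (nat_lit 61698) (PT.nd (nat_lit 78) (PT.lf (nat_lit 15732) (nat_lit 6) (nat_lit 207) (nat_lit 1) (nat_lit 219) (nat_lit 170) (nat_lit 211)) (PT.lf (nat_lit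 15656) (nat_lit 6) (nat_lit 206) (nat_lit 1) (nat_lit 220) (nat_lit 170) (nat_lit 210))) (PT.nd (nat_lit 78) (PT.lf (nat_lit 16112) (nat_lit 6) (nat_lit 212) (nat_lit 3) (nat_lit 209) (nat_lit 171) (nat_lit 220)) (PT.nd (nat_lit 78) (PT.lf (nat_lit 16188) (nat_lit 6) (nat_lit 213) (nat_lit 3) (nat_lit 210) (nat_lit 171) (nat_lit 219)) (PT.lf (nat_lit 16264) (nat_lit 6) (nat_lit 214) (nat_lit 3) (nat_lit 211) (nat_lit 171) (nat_lit 218))))) (PT.nd (nat_lit 156) (PT.nd (nat_lit 78) (PT.lf (nat_lit 16340) (nat_lit 6) (nat_lit 215) (nat_lit 3) (nat_lit 212) (nat_lit 171) (nat_lit 217)) (PT.lf (nat_lit 16416) (nat_lit 6) (nat_lit 216) (nat_lit 3) (nat_lit 213) (nat_lit 171) (nat_lit 216))) (PT.nd (nat_lit 78) (PT.lf (nat_lit 16492) (nat_lit 6) (nat_lit 217) (nat_lit 3) (nat_lit 214) (nat_lit 171) (nat_lit 215)) (PT.nd (nat_lit 78) (PT.lf (nat_lit 16492) (nat_lit 6) (nat_lit 217) (nat_lit 1) (nat_lit 215) (nat_lit 171)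 (nat_lit 214)) (PT.lf (nat_lit 16416) (nat_lit 6) (nat_lit 216) (nat_lit 1) (nat_lit 216) (nat_lit 171) (nat_lit 213)))))) (PT.nd (nat_lit 61932) (PT.nd (nat_lit 156) (PT.nd (nat_lit 78) (PT.lf (nat_lit 16340) (nat_lit 6) (nat_lit 215) (nat_lit 1) (nat_lit 217) (nat_lit 171) (nat_lit 212)) (PT.lf (nat_lit 16264) (nat_lit 6) (nat_lit 214) (nat_lit 1) (nat_lit 218) (nat_lit 171) (nat_lit 211))) (PT.nd (nat_lit 78) (PT.lf (nat_lit 16188) (nat_lit 6) (nat_lit 213) (nat_lit 1) (nat_lit 219) (nat_lit 171) (nat_lit 210)) (PT.nd (nat_lit 61620) (PT.lf (nat_lit 16112) (nat_lit 6) (nat_lit 212) (nat_lit 1) (nat_lit 220) (nat_lit 171) (nat_lit 209)) (PT.lf (nat_lit 16568) (nat_lit 6) (nat_lit 218) (nat_lit 3) (nat_lit 209) (nat_lit 172) (nat_lit 219))))) (PT.nd (nat_lit 156) (PT.nd (nat_lit 78) (PT.lf (nat_lit 16644) (nat_lit 6) (nat_lit 219) (nat_lit 3) (nat_lit 210) (nat_lit 172) (nat_lit 218)) (PT.lf (nat_lit 16720) (nat_lit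 6) (nat_lit 220) (nat_lit 3) (nat_lit 211) (nat_lit 172) (nat_lit 217))) (PT.nd (nat_lit 78) (PT.lf (nat_lit 16796) (nat_lit 6) (nat_lit 221) (nat_lit 3) (nat_lit 212) (nat_lit 172) (nat_lit 216)) (PT.nd (nat_lit 78) (PT.lf (nat_lit 16872) (nat_lit 6) (nat_lit 222) (nat_lit 3) (nat_lit 213) (nat_lit 172) (nat_lit 215)) (PT.lf (nat_lit 16948) (nat_lit 3) (nat_lit 223) (nat_lit 1) (nat_lit 214) (nat_lit 172) (nat_lit 214))))))))
noncomputable def pc10 : PT := (PT.nd (nat_lit 124488) (PT.nd (nat_lit 62244) (PT.nd (nat_lit 312) (PT.nd (nat_lit 156) (PT.nd (nat_lit 78) (PT.lf (nat_lit 16872) (nat_lit 6) (nat_lit 222) (nat_lit 1) (nat_lit 215) (nat_lit 172) (nat_lit 213)) (PT.lf (nat_lit 16796) (nat_lit 6) (nat_lit 221) (nat_lit 1) (nat_lit 216) (nat_lit 172) (nat_lit 212))) (PT.nd (nat_lit 78) (PT.lf (nat_lit 16720) (nat_lit 6) (nat_lit 220) (nat_lit 1) (nat_lit 217) (nat_lit 172) (nat_lit 211)) (PT.lf (nat_lit 16644)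 (nat_lit 6) (nat_lit 219) (nat_lit 1) (nat_lit 218) (nat_lit 172) (nat_lit 210)))) (PT.nd (nat_lit 61698) (PT.nd (nat_lit 61620) (PT.lf (nat_lit 16568) (nat_lit 6) (nat_lit 218) (nat_lit 1) (nat_lit 219) (nat_lit 172) (nat_lit 209)) (PT.lf (nat_lit 17024) (nat_lit 6) (nat_lit 224) (nat_lit 3) (nat_lit 208) (nat_lit 173) (nat_lit 219))) (PT.nd (nat_lit 78) (PT.lf (nat_lit 17100) (nat_lit 6) (nat_lit 225) (nat_lit 3) (nat_lit 209) (nat_lit 173) (nat_lit 218)) (PT.nd (nat_lit 78) (PT.lf (nat_lit 17176) (nat_lit 6) (nat_lit 226) (nat_lit 3) (nat_lit 210) (nat_lit 173) (nat_lit 217)) (PT.lf (nat_lit 17252) (nat_lit 6) (nat_lit 227) (nat_lit 3) (nat_lit 211) (nat_lit 173) (nat_lit 216)))))) (PT.nd (nat_lit 390) (PT.nd (nat_lit 156) (PT.nd (nat_lit 78) (PT.lf (nat_lit 17328) (nat_lit 6) (nat_lit 228) (nat_lit 3) (nat_lit 212) (nat_lit 173) (nat_lit 215)) (PT.lf (nat_lit 17404) (nat_lit 6) (nat_lit 229) (nat_lit 3) (nat_lit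 213) (nat_lit 173) (nat_lit 214))) (PT.nd (nat_lit 78) (PT.lf (nat_lit 17404) (nat_lit 6) (nat_lit 229) (nat_lit 1) (nat_lit 214) (nat_lit 173) (nat_lit 213)) (PT.nd (nat_lit 78) (PT.lf (nat_lit 17328) (nat_lit 6) (nat_lit 228) (nat_lit 1) (nat_lit 215) (nat_lit 173) (nat_lit 212)) (PT.lf (nat_lit 17252) (nat_lit 6) (nat_lit 227) (nat_lit 1) (nat_lit 216) (nat_lit 173) (nat_lit 211))))) (PT.nd (nat_lit 156) (PT.nd (nat_lit 78) (PT.lf (nat_lit 17176) (nat_lit 6) (nat_lit 226) (nat_lit 1) (nat_lit 217) (nat_lit 173) (nat_lit 210)) (PT.lf (nat_lit 17100) (nat_lit 6) (nat_lit 225) (nat_lit 1) (nat_lit 218) (nat_lit 173) (nat_lit 209))) (PT.nd (nat_lit 61542) (PT.lf (nat_lit 17024) (nat_lit 6) (nat_lit 224) (nat_lit 1) (nat_lit 219) (nat_lit 173) (nat_lit 208)) (PT.nd (nat_lit 78) (PT.lf (nat_lit 17480) (nat_lit 6) (nat_lit 230) (nat_lit 3) (nat_lit 207) (nat_lit 174) (nat_lit 219)) (PT.lf (nat_lit 17556) (nat_lit 6)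 (nat_lit 231) (nat_lit 3) (nat_lit 208) (nat_lit 174) (nat_lit 218))))))) (PT.nd (nat_lit 780) (PT.nd (nat_lit 390) (PT.nd (nat_lit 156) (PT.nd (nat_lit 78) (PT.lf (nat_lit 17632) (nat_lit 6) (nat_lit 232) (nat_lit 3) (nat_lit 209) (nat_lit 174) (nat_lit 217)) (PT.lf (nat_lit 17708) (nat_lit 6) (nat_lit 233) (nat_lit 3) (nat_lit 210) (nat_lit 174) (nat_lit 216))) (PT.nd (nat_lit 78) (PT.lf (nat_lit 17784) (nat_lit 6) (nat_lit 234) (nat_lit 3) (nat_lit 211) (nat_lit 174) (nat_lit 215)) (PT.nd (nat_lit 78) (PT.lf (nat_lit 17860) (nat_lit 6) (nat_lit 235) (nat_lit 3) (nat_lit 212) (nat_lit 174) (nat_lit 214)) (PT.lf (nat_lit 17936) (nat_lit 3) (nat_lit 236) (nat_lit 1) (nat_lit 213) (nat_lit 174) (nat_lit 213))))) (PT.nd (nat_lit 156) (PT.nd (nat_lit 78) (PT.lf (nat_lit 17860) (nat_lit 6) (nat_lit 235) (nat_lit 1) (nat_lit 214) (nat_lit 174) (nat_lit 212)) (PT.lf (nat_lit 17784) (nat_lit 6) (nat_lit 234) (nat_lit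 1) (nat_lit 215) (nat_lit 174) (nat_lit 211))) (PT.nd (nat_lit 78) (PT.lf (nat_lit 17708) (nat_lit 6) (nat_lit 233) (nat_lit 1) (nat_lit 216) (nat_lit 174) (nat_lit 210)) (PT.nd (nat_lit 78) (PT.lf (nat_lit 17632) (nat_lit 6) (nat_lit 232) (nat_lit 1) (nat_lit 217) (nat_lit 174) (nat_lit 209)) (PT.lf (nat_lit 17556) (nat_lit 6) (nat_lit 231) (nat_lit 1) (nat_lit 218) (nat_lit 174) (nat_lit 208)))))) (PT.nd (nat_lit 61854) (PT.nd (nat_lit 61620) (PT.nd (nat_lit 61542) (PT.lf (nat_lit 17480) (nat_lit 6) (nat_lit 230) (nat_lit 1) (nat_lit 219) (nat_lit 174) (nat_lit 207)) (PT.lf (nat_lit 18012) (nat_lit 6) (nat_lit 237) (nat_lit 3) (nat_lit 207) (nat_lit 175) (nat_lit 218))) (PT.nd (nat_lit 78) (PT.lf (nat_lit 18088) (nat_lit 6) (nat_lit 238) (nat_lit 3) (nat_lit 208) (nat_lit 175) (nat_lit 217)) (PT.nd (nat_lit 78) (PT.lf (nat_lit 18164) (nat_lit 6) (nat_lit 239) (nat_lit 3) (nat_lit 209) (nat_lit 175) (nat_lit 216))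 (PT.lf (nat_lit 18240) (nat_lit 6) (nat_lit 240) (nat_lit 3) (nat_lit 210) (nat_lit 175) (nat_lit 215))))) (PT.nd (nat_lit 156) (PT.nd (nat_lit 78) (PT.lf (nat_lit 18316) (nat_lit 6) (nat_lit 241) (nat_lit 3) (nat_lit 211) (nat_lit 175) (nat_lit 214)) (PT.lf (nat_lit 18392) (nat_lit 6) (nat_lit 242) (nat_lit 3) (nat_lit 212) (nat_lit 175) (nat_lit 213))) (PT.nd (nat_lit 78) (PT.lf (nat_lit 18392) (nat_lit 6) (nat_lit 242) (nat_lit 1) (nat_lit 213) (nat_lit 175) (nat_lit 212)) (PT.nd (nat_lit 78) (PT.lf (nat_lit 18316) (nat_lit 6) (nat_lit 241) (nat_lit 1) (nat_lit 214) (nat_lit 175) (nat_lit 211)) (PT.lf (nat_lit 18240) (nat_lit 6) (nat_lit 240) (nat_lit 1) (nat_lit 215) (nat_lit 175) (nat_lit 210))))))))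
noncomputable def pc11 : PT := (PT.nd (nat_lit 124332) (PT.nd (nat_lit 62166) (PT.nd (nat_lit 61776) (PT.nd (nat_lit 156) (PT.nd (nat_lit 78) (PT.lf (nat_lit 18164) (nat_lit 6) (nat_lit 239) (nat_lit 1) (nat_lit 216) (nat_lit 175) (nat_lit 209)) (PT.lf (nat_lit 18088) (nat_lit 6) (nat_lit 238) (nat_lit 1) (nat_lit 217) (nat_lit 175) (nat_lit 208))) (PT.nd (nat_lit 61542) (PT.lf (nat_lit 18012) (nat_lit 6) (nat_lit 237) (nat_lit 1) (nat_lit 218) (nat_lit 175) (nat_lit 207)) (PT.lf (nat_lit 18468) (nat_lit 6) (nat_lit 243) (nat_lit 3) (nat_lit 206) (nat_lit 176) (nat_lit 218)))) (PT.nd (nat_lit 156) (PT.nd (nat_lit 78) (PT.lf (nat_lit 18544) (nat_lit 6) (nat_lit 244) (nat_lit 3) (nat_lit 207) (nat_lit 176) (nat_lit 217)) (PT.lf (nat_lit 18620) (nat_lit 6) (nat_lit 245) (nat_lit 3) (nat_lit 208) (nat_lit 176) (nat_lit 216))) (PT.nd (nat_lit 78) (PT.lf (nat_lit 18696) (nat_lit 6) (nat_lit 246) (nat_lit 3) (nat_lit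 209) (nat_lit 176) (nat_lit 215)) (PT.nd (nat_lit 78) (PT.lf (nat_lit 18772) (nat_lit 6) (nat_lit 247) (nat_lit 3) (nat_lit 210) (nat_lit 176) (nat_lit 214)) (PT.lf (nat_lit 18848) (nat_lit 6) (nat_lit 248) (nat_lit 3) (nat_lit 211) (nat_lit 176) (nat_lit 213)))))) (PT.nd (nat_lit 390) (PT.nd (nat_lit 156) (PT.nd (nat_lit 78) (PT.lf (nat_lit 18924) (nat_lit 3) (nat_lit 249) (nat_lit 1) (nat_lit 212) (nat_lit 176) (nat_lit 212)) (PT.lf (nat_lit 18848) (nat_lit 6) (nat_lit 248) (nat_lit 1) (nat_lit 213) (nat_lit 176) (nat_lit 211))) (PT.nd (nat_lit 78) (PT.lf (nat_lit 18772) (nat_lit 6) (nat_lit 247) (nat_lit 1) (nat_lit 214) (nat_lit 176) (nat_lit 210)) (PT.nd (nat_lit 78) (PT.lf (nat_lit 18696) (nat_lit 6) (nat_lit 246) (nat_lit 1) (nat_lit 215) (nat_lit 176) (nat_lit 209)) (PT.lf (nat_lit 18620) (nat_lit 6) (nat_lit 245) (nat_lit 1) (nat_lit 216) (nat_lit 176) (nat_lit 208))))) (PT.nd (nat_lit 61542) (PT.nd (nat_lit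 78) (PT.lf (nat_lit 18544) (nat_lit 6) (nat_lit 244) (nat_lit 1) (nat_lit 217) (nat_lit 176) (nat_lit 207)) (PT.lf (nat_lit 18468) (nat_lit 6) (nat_lit 243) (nat_lit 1) (nat_lit 218) (nat_lit 176) (nat_lit 206))) (PT.nd (nat_lit 78) (PT.lf (nat_lit 19000) (nat_lit 6) (nat_lit 250) (nat_lit 3) (nat_lit 205) (nat_lit 177) (nat_lit 218)) (PT.nd (nat_lit 78) (PT.lf (nat_lit 19076) (nat_lit 6) (nat_lit 251) (nat_lit 3) (nat_lit 206) (nat_lit 177) (nat_lit 217)) (PT.lf (nat_lit 19152) (nat_lit 6) (nat_lit 252) (nat_lit 3) (nat_lit 207) (nat_lit 177) (nat_lit 216))))))) (PT.nd (nat_lit 780) (PT.nd (nat_lit 390) (PT.nd (nat_lit 156) (PT.nd (nat_lit 78) (PT.lf (nat_lit 19228) (nat_lit 6) (nat_lit 253) (nat_lit 3) (nat_lit 208) (nat_lit 177) (nat_lit 215)) (PT.lf (nat_lit 19304) (nat_lit 6) (nat_lit 254) (nat_lit 3) (nat_lit 209) (nat_lit 177) (nat_lit 214))) (PT.nd (nat_lit 78) (PT.lf (nat_lit 19380) (nat_lit 6) (nat_lit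 255) (nat_lit 3) (nat_lit 210) (nat_lit 177) (nat_lit 213)) (PT.nd (nat_lit 78) (PT.lf (nat_lit 19456) (nat_lit 6) (nat_lit 256) (nat_lit 3) (nat_lit 211) (nat_lit 177) (nat_lit 212)) (PT.lf (nat_lit 19456) (nat_lit 6) (nat_lit 256) (nat_lit 1) (nat_lit 212) (nat_lit 177) (nat_lit 211))))) (PT.nd (nat_lit 156) (PT.nd (nat_lit 78) (PT.lf (nat_lit 19380) (nat_lit 6) (nat_lit 255) (nat_lit 1) (nat_lit 213) (nat_lit 177) (nat_lit 210)) (PT.lf (nat_lit 19304) (nat_lit 6) (nat_lit 254) (nat_lit 1) (nat_lit 214) (nat_lit 177) (nat_lit 209))) (PT.nd (nat_lit 78) (PT.lf (nat_lit 19228) (nat_lit 6) (nat_lit 253) (nat_lit 1) (nat_lit 215) (nat_lit 177) (nat_lit 208)) (PT.nd (nat_lit 78) (PT.lf (nat_lit 19152) (nat_lit 6) (nat_lit 252) (nat_lit 1) (nat_lit 216) (nat_lit 177) (nat_lit 207)) (PT.lf (nat_lit 19076) (nat_lit 6) (nat_lit 251) (nat_lit 1) (nat_lit 217) (nat_lit 177) (nat_lit 206)))))) (PT.nd (nat_lit 61698) (PT.nd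 (nat_lit 61464) (PT.nd (nat_lit 61386) (PT.lf (nat_lit 19000) (nat_lit 6) (nat_lit 250) (nat_lit 1) (nat_lit 218) (nat_lit 177) (nat_lit 205)) (PT.lf (nat_lit 19532) (nat_lit 6) (nat_lit 257) (nat_lit 3) (nat_lit 204) (nat_lit 178) (nat_lit 218))) (PT.nd (nat_lit 78) (PT.lf (nat_lit 19608) (nat_lit 6) (nat_lit 258) (nat_lit 3) (nat_lit 205) (nat_lit 178) (nat_lit 217)) (PT.nd (nat_lit 78) (PT.lf (nat_lit 19684) (nat_lit 6) (nat_lit 259) (nat_lit 3) (nat_lit 206) (nat_lit 178) (nat_lit 216)) (PT.lf (nat_lit 19760) (nat_lit 6) (nat_lit 260) (nat_lit 3) (nat_lit 207) (nat_lit 178) (nat_lit 215))))) (PT.nd (nat_lit 156) (PT.nd (nat_lit 78) (PT.lf (nat_lit 19836) (nat_lit 6) (nat_lit 261) (nat_lit 3) (nat_lit 208) (nat_lit 178) (nat_lit 214)) (PT.lf (nat_lit 19912) (nat_lit 6) (nat_lit 262) (nat_lit 3) (nat_lit 209) (nat_lit 178) (nat_lit 213))) (PT.nd (nat_lit 78) (PT.lf (nat_lit 19988) (nat_lit 6) (nat_lit 263) (nat_lit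 3) (nat_lit 210) (nat_lit 178) (nat_lit 212)) (PT.nd (nat_lit 78) (PT.lf (nat_lit 20064) (nat_lit 3) (nat_lit 264) (nat_lit 1) (nat_lit 211) (nat_lit 178) (nat_lit 211)) (PT.lf (nat_lit 19988) (nat_lit 6) (nat_lit 263) (nat_lit 1) (nat_lit 212) (nat_lit 178) (nat_lit 210))))))))
noncomputable def pc12 : PT := (PT.nd (nat_lit 62712) (PT.nd (nat_lit 61932) (PT.nd (nat_lit 312) (PT.nd (nat_lit 156) (PT.nd (nat_lit 78) (PT.lf (nat_lit 19912) (nat_lit 6) (nat_lit 262) (nat_lit 1) (nat_lit 213) (nat_lit 178) (nat_lit 209)) (PT.lf (nat_lit 19836) (nat_lit 6) (nat_lit 261) (nat_lit 1) (nat_lit 214) (nat_lit 178) (nat_lit 208))) (PT.nd (nat_lit 78) (PT.lf (nat_lit 19760) (nat_lit 6) (nat_lit 260) (nat_lit 1) (nat_lit 215) (nat_lit 178) (nat_lit 207)) (PT.lf (nat_lit 19684) (nat_lit 6) (nat_lit 259) (nat_lit 1) (nat_lit 216) (nat_lit 178) (nat_lit 206)))) (PT.nd (nat_lit 61386) (PT.nd (nat_lit 78) (PT.lf (nat_lit 19608)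 (nat_lit 6) (nat_lit 258) (nat_lit 1) (nat_lit 217) (nat_lit 178) (nat_lit 205)) (PT.lf (nat_lit 19532) (nat_lit 6) (nat_lit 257) (nat_lit 1) (nat_lit 218) (nat_lit 178) (nat_lit 204))) (PT.nd (nat_lit 78) (PT.lf (nat_lit 20140) (nat_lit 6) (nat_lit 265) (nat_lit 3) (nat_lit 203) (nat_lit 179) (nat_lit 218)) (PT.nd (nat_lit 78) (PT.lf (nat_lit 20216) (nat_lit 6) (nat_lit 266) (nat_lit 3) (nat_lit 204) (nat_lit 179) (nat_lit 217)) (PT.lf (nat_lit 20292) (nat_lit 6) (nat_lit 267) (nat_lit 3) (nat_lit 205) (nat_lit 179) (nat_lit 216)))))) (PT.nd (nat_lit 390) (PT.nd (nat_lit 156) (PT.nd (nat_lit 78) (PT.lf (nat_lit 20368) (nat_lit 6) (nat_lit 268) (nat_lit 3) (nat_lit 206) (nat_lit 179) (nat_lit 215)) (PT.lf (nat_lit 20444) (nat_lit 6) (nat_lit 269) (nat_lit 3) (nat_lit 207) (nat_lit 179) (nat_lit 214))) (PT.nd (nat_lit 78) (PT.lf (nat_lit 20520) (nat_lit 6) (nat_lit 270) (nat_lit 3) (nat_lit 208) (nat_lit 179) (nat_lit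 213)) (PT.nd (nat_lit 78) (PT.lf (nat_lit 20596) (nat_lit 6) (nat_lit 271) (nat_lit 3) (nat_lit 209) (nat_lit 179) (nat_lit 212)) (PT.lf (nat_lit 20672) (nat_lit 6) (nat_lit 272) (nat_lit 3) (nat_lit 210) (nat_lit 179) (nat_lit 211))))) (PT.nd (nat_lit 156) (PT.nd (nat_lit 78) (PT.lf (nat_lit 20672) (nat_lit 6) (nat_lit 272) (nat_lit 1) (nat_lit 211) (nat_lit 179) (nat_lit 210)) (PT.lf (nat_lit 20596) (nat_lit 6) (nat_lit 271) (nat_lit 1) (nat_lit 212) (nat_lit 179) (nat_lit 209))) (PT.nd (nat_lit 78) (PT.lf (nat_lit 20520) (nat_lit 6) (nat_lit 270) (nat_lit 1) (nat_lit 213) (nat_lit 179) (nat_lit 208)) (PT.nd (nat_lit 78) (PT.lf (nat_lit 20444) (nat_lit 6) (nat_lit 269) (nat_lit 1) (nat_lit 214) (nat_lit 179) (nat_lit 207)) (PT.lf (nat_lit 20368) (nat_lit 6) (nat_lit 268) (nat_lit 1) (nat_lit 215) (nat_lit 179) (nat_lit 206))))))) (PT.nd (nat_lit 62010) (PT.nd (nat_lit 61620) (PT.nd (nat_lit 156) (PT.nd (nat_lit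 78) (PT.lf (nat_lit 20292) (nat_lit 6) (nat_lit 267) (nat_lit 1) (nat_lit 216) (nat_lit 179) (nat_lit 205)) (PT.lf (nat_lit 20216) (nat_lit 6) (nat_lit 266) (nat_lit 1) (nat_lit 217) (nat_lit 179) (nat_lit 204))) (PT.nd (nat_lit 61308) (PT.lf (nat_lit 20140) (nat_lit 6) (nat_lit 265) (nat_lit 1) (nat_lit 218) (nat_lit 179) (nat_lit 203)) (PT.nd (nat_lit 78) (PT.lf (nat_lit 20748) (nat_lit 6) (nat_lit 273) (nat_lit 3) (nat_lit 203) (nat_lit 180) (nat_lit 217)) (PT.lf (nat_lit 20824) (nat_lit 6) (nat_lit 274) (nat_lit 3) (nat_lit 204) (nat_lit 180) (nat_lit 216))))) (PT.nd (nat_lit 156) (PT.nd (nat_lit 78) (PT.lf (nat_lit 20900) (nat_lit 6) (nat_lit 275) (nat_lit 3) (nat_lit 205) (nat_lit 180) (nat_lit 215)) (PT.lf (nat_lit 20976) (nat_lit 6) (nat_lit 276) (nat_lit 3) (nat_lit 206) (nat_lit 180) (nat_lit 214))) (PT.nd (nat_lit 78) (PT.lf (nat_lit 21052) (nat_lit 6) (nat_lit 277) (nat_lit 3) (nat_lit 207) (nat_lit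 180) (nat_lit 213)) (PT.nd (nat_lit 78) (PT.lf (nat_lit 21128) (nat_lit 6) (nat_lit 278) (nat_lit 3) (nat_lit 208) (nat_lit 180) (nat_lit 212)) (PT.lf (nat_lit 21204) (nat_lit 6) (nat_lit 279) (nat_lit 3) (nat_lit 209) (nat_lit 180) (nat_lit 211)))))) (PT.nd (nat_lit 390) (PT.nd (nat_lit 156) (PT.nd (nat_lit 78) (PT.lf (nat_lit 21280) (nat_lit 3) (nat_lit 280) (nat_lit 1) (nat_lit 210) (nat_lit 180) (nat_lit 210)) (PT.lf (nat_lit 21204) (nat_lit 6) (nat_lit 279) (nat_lit 1) (nat_lit 211) (nat_lit 180) (nat_lit 209))) (PT.nd (nat_lit 78) (PT.lf (nat_lit 21128) (nat_lit 6) (nat_lit 278) (nat_lit 1) (nat_lit 212) (nat_lit 180) (nat_lit 208)) (PT.nd (nat_lit 78) (PT.lf (nat_lit 21052) (nat_lit 6) (nat_lit 277) (nat_lit 1) (nat_lit 213) (nat_lit 180) (nat_lit 207)) (PT.lf (nat_lit 20976) (nat_lit 6) (nat_lit 276) (nat_lit 1) (nat_lit 214) (nat_lit 180) (nat_lit 206))))) (PT.nd (nat_lit 156) (PT.nd (nat_lit 78) (PT.lf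 (nat_lit 20900) (nat_lit 6) (nat_lit 275) (nat_lit 1) (nat_lit 215) (nat_lit 180) (nat_lit 205)) (PT.lf (nat_lit 20824) (nat_lit 6) (nat_lit 274) (nat_lit 1) (nat_lit 216) (nat_lit 180) (nat_lit 204))) (PT.nd (nat_lit 61308) (PT.lf (nat_lit 20748) (nat_lit 6) (nat_lit 273) (nat_lit 1) (nat_lit 217) (nat_lit 180) (nat_lit 203)) (PT.nd (nat_lit 78) (PT.lf (nat_lit 21356) (nat_lit 6) (nat_lit 281) (nat_lit 3) (nat_lit 202) (nat_lit 181) (nat_lit 217)) (PT.lf (nat_lit 21432) (nat_lit 6) (nat_lit 282) (nat_lit 3) (nat_lit 203) (nat_lit 181) (nat_lit 216))))))))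
noncomputable def pc13 : PT := (PT.nd (nat_lit 62634) (PT.nd (nat_lit 702) (PT.nd (nat_lit 312) (PT.nd (nat_lit 156) (PT.nd (nat_lit 78) (PT.lf (nat_lit 21508) (nat_lit 6) (nat_lit 283) (nat_lit 3) (nat_lit 204) (nat_lit 181) (nat_lit 215)) (PT.lf (nat_lit 21584) (nat_lit 6) (nat_lit 284) (nat_lit 3) (nat_lit 205) (nat_lit 181) (nat_lit 214))) (PT.nd (nat_lit 78) (PT.lf (nat_lit 21660) (nat_lit 6) (nat_lit 285) (nat_lit 3) (nat_lit 206) (nat_lit 181) (nat_lit 213)) (PT.lf (nat_lit 21736) (nat_lit 6) (nat_lit 286) (nat_lit 3) (nat_lit 207) (nat_lit 181) (nat_lit 212)))) (PT.nd (nat_lit 156) (PT.nd (nat_lit 78) (PT.lf (nat_lit 21812) (nat_lit 6) (nat_lit 287) (nat_lit 3) (nat_lit 208) (nat_lit 181) (nat_lit 211)) (PT.lf (nat_lit 21888) (nat_lit 6) (nat_lit 288) (nat_lit 3) (nat_lit 209) (nat_lit 181) (nat_lit 210))) (PT.nd (nat_lit 78) (PT.lf (nat_lit 21888) (nat_lit 6) (nat_lit 288) (nat_lit 1) (nat_lit 210) (nat_lit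 181) (nat_lit 209)) (PT.nd (nat_lit 78) (PT.lf (nat_lit 21812) (nat_lit 6) (nat_lit 287) (nat_lit 1) (nat_lit 211) (nat_lit 181) (nat_lit 208)) (PT.lf (nat_lit 21736) (nat_lit 6) (nat_lit 286) (nat_lit 1) (nat_lit 212) (nat_lit 181) (nat_lit 207)))))) (PT.nd (nat_lit 61542) (PT.nd (nat_lit 156) (PT.nd (nat_lit 78) (PT.lf (nat_lit 21660) (nat_lit 6) (nat_lit 285) (nat_lit 1) (nat_lit 213) (nat_lit 181) (nat_lit 206)) (PT.lf (nat_lit 21584) (nat_lit 6) (nat_lit 284) (nat_lit 1) (nat_lit 214) (nat_lit 181) (nat_lit 205))) (PT.nd (nat_lit 78) (PT.lf (nat_lit 21508) (nat_lit 6) (nat_lit 283) (nat_lit 1) (nat_lit 215) (nat_lit 181) (nat_lit 204)) (PT.nd (nat_lit 78) (PT.lf (nat_lit 21432) (nat_lit 6) (nat_lit 282) (nat_lit 1) (nat_lit 216) (nat_lit 181) (nat_lit 203)) (PT.lf (nat_lit 21356) (nat_lit 6) (nat_lit 281) (nat_lit 1) (nat_lit 217) (nat_lit 181) (nat_lit 202))))) (PT.nd (nat_lit 156) (PT.nd (nat_lit 78) (PT.lf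 (nat_lit 21964) (nat_lit 6) (nat_lit 289) (nat_lit 3) (nat_lit 201) (nat_lit 182) (nat_lit 217)) (PT.lf (nat_lit 22040) (nat_lit 6) (nat_lit 290) (nat_lit 3) (nat_lit 202) (nat_lit 182) (nat_lit 216))) (PT.nd (nat_lit 78) (PT.lf (nat_lit 22116) (nat_lit 6) (nat_lit 291) (nat_lit 3) (nat_lit 203) (nat_lit 182) (nat_lit 215)) (PT.nd (nat_lit 78) (PT.lf (nat_lit 22192) (nat_lit 6) (nat_lit 292) (nat_lit 3) (nat_lit 204) (nat_lit 182) (nat_lit 214)) (PT.lf (nat_lit 22268) (nat_lit 6) (nat_lit 293) (nat_lit 3) (nat_lit 205) (nat_lit 182) (nat_lit 213))))))) (PT.nd (nat_lit 780) (PT.nd (nat_lit 390) (PT.nd (nat_lit 156) (PT.nd (nat_lit 78) (PT.lf (nat_lit 22344) (nat_lit 6) (nat_lit 294) (nat_lit 3) (nat_lit 206) (nat_lit 182) (nat_lit 212)) (PT.lf (nat_lit 22420) (nat_lit 6) (nat_lit 295) (nat_lit 3) (nat_lit 207) (nat_lit 182) (nat_lit 211))) (PT.nd (nat_lit 78) (PT.lf (nat_lit 22496) (nat_lit 6) (nat_lit 296) (nat_lit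 3) (nat_lit 208) (nat_lit 182) (nat_lit 210)) (PT.nd (nat_lit 78) (PT.lf (nat_lit 22572) (nat_lit 3) (nat_lit 297) (nat_lit 1) (nat_lit 209) (nat_lit 182) (nat_lit 209)) (PT.lf (nat_lit 22496) (nat_lit 6) (nat_lit 296) (nat_lit 1) (nat_lit 210) (nat_lit 182) (nat_lit 208))))) (PT.nd (nat_lit 156) (PT.nd (nat_lit 78) (PT.lf (nat_lit 22420) (nat_lit 6) (nat_lit 295) (nat_lit 1) (nat_lit 211) (nat_lit 182) (nat_lit 207)) (PT.lf (nat_lit 22344) (nat_lit 6) (nat_lit 294) (nat_lit 1) (nat_lit 212) (nat_lit 182) (nat_lit 206))) (PT.nd (nat_lit 78) (PT.lf (nat_lit 22268) (nat_lit 6) (nat_lit 293) (nat_lit 1) (nat_lit 213) (nat_lit 182) (nat_lit 205)) (PT.nd (nat_lit 78) (PT.lf (nat_lit 22192) (nat_lit 6) (nat_lit 292) (nat_lit 1) (nat_lit 214) (nat_lit 182) (nat_lit 204)) (PT.lf (nat_lit 22116) (nat_lit 6) (nat_lit 291) (nat_lit 1) (nat_lit 215) (nat_lit 182) (nat_lit 203)))))) (PT.nd (nat_lit 61464) (PT.nd (nat_lit 61230)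 (PT.nd (nat_lit 78) (PT.lf (nat_lit 22040) (nat_lit 6) (nat_lit 290) (nat_lit 1) (nat_lit 216) (nat_lit 182) (nat_lit 202)) (PT.lf (nat_lit 21964) (nat_lit 6) (nat_lit 289) (nat_lit 1) (nat_lit 217) (nat_lit 182) (nat_lit 201))) (PT.nd (nat_lit 78) (PT.lf (nat_lit 22800) (nat_lit 6) (nat_lit 300) (nat_lit 3) (nat_lit 200) (nat_lit 183) (nat_lit 217)) (PT.nd (nat_lit 78) (PT.lf (nat_lit 22876) (nat_lit 6) (nat_lit 301) (nat_lit 3) (nat_lit 201) (nat_lit 183) (nat_lit 216)) (PT.lf (nat_lit 22952) (nat_lit 6) (nat_lit 302) (nat_lit 3) (nat_lit 202) (nat_lit 183) (nat_lit 215))))) (PT.nd (nat_lit 156) (PT.nd (nat_lit 78) (PT.lf (nat_lit 23028) (nat_lit 6) (nat_lit 303) (nat_lit 3) (nat_lit 203) (nat_lit 183) (nat_lit 214)) (PT.lf (nat_lit 23104) (nat_lit 6) (nat_lit 304) (nat_lit 3) (nat_lit 204) (nat_lit 183) (nat_lit 213))) (PT.nd (nat_lit 78) (PT.lf (nat_lit 23180) (nat_lit 6) (nat_lit 305) (nat_lit 3) (nat_lit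 205) (nat_lit 183) (nat_lit 212)) (PT.nd (nat_lit 78) (PT.lf (nat_lit 23256) (nat_lit 6) (nat_lit 306) (nat_lit 3) (nat_lit 206) (nat_lit 183) (nat_lit 211)) (PT.lf (nat_lit 23332) (nat_lit 6) (nat_lit 307) (nat_lit 3) (nat_lit 207) (nat_lit 183) (nat_lit 210))))))))
noncomputable def pc14 : PT := (PT.nd (nat_lit 62478) (PT.nd (nat_lit 702) (PT.nd (nat_lit 312) (PT.nd (nat_lit 156) (PT.nd (nat_lit 78) (PT.lf (nat_lit 23408) (nat_lit 6) (nat_lit 308) (nat_lit 3) (nat_lit 208) (nat_lit 183) (nat_lit 209)) (PT.lf (nat_lit 23408) (nat_lit 6) (nat_lit 308) (nat_lit 1) (nat_lit 209) (nat_lit 183) (nat_lit 208))) (PT.nd (nat_lit 78) (PT.lf (nat_lit 23332) (nat_lit 6) (nat_lit 307) (nat_lit 1) (nat_lit 210) (nat_lit 183) (nat_lit 207)) (PT.lf (nat_lit 23256) (nat_lit 6) (nat_lit 306) (nat_lit 1) (nat_lit 211) (nat_lit 183) (nat_lit 206)))) (PT.nd (nat_lit 156) (PT.nd (nat_lit 78) (PT.lf (nat_lit 23180) (nat_lit 6) (nat_lit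 305) (nat_lit 1) (nat_lit 212) (nat_lit 183) (nat_lit 205)) (PT.lf (nat_lit 23104) (nat_lit 6) (nat_lit 304) (nat_lit 1) (nat_lit 213) (nat_lit 183) (nat_lit 204))) (PT.nd (nat_lit 78) (PT.lf (nat_lit 23028) (nat_lit 6) (nat_lit 303) (nat_lit 1) (nat_lit 214) (nat_lit 183) (nat_lit 203)) (PT.nd (nat_lit 78) (PT.lf (nat_lit 22952) (nat_lit 6) (nat_lit 302) (nat_lit 1) (nat_lit 215) (nat_lit 183) (nat_lit 202)) (PT.lf (nat_lit 22876) (nat_lit 6) (nat_lit 301) (nat_lit 1) (nat_lit 216) (nat_lit 183) (nat_lit 201)))))) (PT.nd (nat_lit 61386) (PT.nd (nat_lit 61152) (PT.nd (nat_lit 61074) (PT.lf (nat_lit 22800) (nat_lit 6) (nat_lit 300) (nat_lit 1) (nat_lit 217) (nat_lit 183) (nat_lit 200)) (PT.lf (nat_lit 22724) (nat_lit 6) (nat_lit 299) (nat_lit 3) (nat_lit 199) (nat_lit 184) (nat_lit 217))) (PT.nd (nat_lit 78) (PT.lf (nat_lit 24092) (nat_lit 6) (nat_lit 317) (nat_lit 3) (nat_lit 200) (nat_lit 184) (nat_lit 216)) (PT.nd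 (nat_lit 78) (PT.lf (nat_lit 24168) (nat_lit 6) (nat_lit 318) (nat_lit 3) (nat_lit 201) (nat_lit 184) (nat_lit 215)) (PT.lf (nat_lit 24244) (nat_lit 6) (nat_lit 319) (nat_lit 3) (nat_lit 202) (nat_lit 184) (nat_lit 214))))) (PT.nd (nat_lit 156) (PT.nd (nat_lit 78) (PT.lf (nat_lit 24320) (nat_lit 6) (nat_lit 320) (nat_lit 3) (nat_lit 203) (nat_lit 184) (nat_lit 213)) (PT.lf (nat_lit 24396) (nat_lit 6) (nat_lit 321) (nat_lit 3) (nat_lit 204) (nat_lit 184) (nat_lit 212))) (PT.nd (nat_lit 78) (PT.lf (nat_lit 24472) (nat_lit 6) (nat_lit 322) (nat_lit 3) (nat_lit 205) (nat_lit 184) (nat_lit 211)) (PT.nd (nat_lit 78) (PT.lf (nat_lit 24548) (nat_lit 6) (nat_lit 323) (nat_lit 3) (nat_lit 206) (nat_lit 184) (nat_lit 210)) (PT.lf (nat_lit 24624) (nat_lit 6) (nat_lit 324) (nat_lit 3) (nat_lit 207) (nat_lit 184) (nat_lit 209))))))) (PT.nd (nat_lit 61698) (PT.nd (nat_lit 390) (PT.nd (nat_lit 156) (PT.nd (nat_lit 78) (PT.lf (nat_lit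 24700) (nat_lit 3) (nat_lit 325) (nat_lit 1) (nat_lit 208) (nat_lit 184) (nat_lit 208)) (PT.lf (nat_lit 24624) (nat_lit 6) (nat_lit 324) (nat_lit 1) (nat_lit 209) (nat_lit 184) (nat_lit 207))) (PT.nd (nat_lit 78) (PT.lf (nat_lit 24548) (nat_lit 6) (nat_lit 323) (nat_lit 1) (nat_lit 210) (nat_lit 184) (nat_lit 206)) (PT.nd (nat_lit 78) (PT.lf (nat_lit 24472) (nat_lit 6) (nat_lit 322) (nat_lit 1) (nat_lit 211) (nat_lit 184) (nat_lit 205)) (PT.lf (nat_lit 24396) (nat_lit 6) (nat_lit 321) (nat_lit 1) (nat_lit 212) (nat_lit 184) (nat_lit 204))))) (PT.nd (nat_lit 156) (PT.nd (nat_lit 78) (PT.lf (nat_lit 24320) (nat_lit 6) (nat_lit 320) (nat_lit 1) (nat_lit 213) (nat_lit 184) (nat_lit 203)) (PT.lf (nat_lit 24244) (nat_lit 6) (nat_lit 319) (nat_lit 1) (nat_lit 214) (nat_lit 184) (nat_lit 202))) (PT.nd (nat_lit 78) (PT.lf (nat_lit 24168) (nat_lit 6) (nat_lit 318) (nat_lit 1) (nat_lit 215) (nat_lit 184) (nat_lit 201)) (PT.nd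 (nat_lit 78) (PT.lf (nat_lit 24092) (nat_lit 6) (nat_lit 317) (nat_lit 1) (nat_lit 216) (nat_lit 184) (nat_lit 200)) (PT.lf (nat_lit 22724) (nat_lit 6) (nat_lit 299) (nat_lit 1) (nat_lit 217) (nat_lit 184) (nat_lit 199)))))) (PT.nd (nat_lit 390) (PT.nd (nat_lit 156) (PT.nd (nat_lit 78) (PT.lf (nat_lit 22648) (nat_lit 6) (nat_lit 298) (nat_lit 3) (nat_lit 198) (nat_lit 185) (nat_lit 217)) (PT.lf (nat_lit 24016) (nat_lit 6) (nat_lit 316) (nat_lit 3) (nat_lit 199) (nat_lit 185) (nat_lit 216))) (PT.nd (nat_lit 78) (PT.lf (nat_lit 25308) (nat_lit 6) (nat_lit 333) (nat_lit 3) (nat_lit 200) (nat_lit 185) (nat_lit 215)) (PT.nd (nat_lit 78) (PT.lf (nat_lit 25384) (nat_lit 6) (nat_lit 334) (nat_lit 3) (nat_lit 201) (nat_lit 185) (nat_lit 214)) (PT.lf (nat_lit 25460) (nat_lit 6) (nat_lit 335) (nat_lit 3) (nat_lit 202) (nat_lit 185) (nat_lit 213))))) (PT.nd (nat_lit 156) (PT.nd (nat_lit 78) (PT.lf (nat_lit 25536) (nat_lit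 6) (nat_lit 336) (nat_lit 3) (nat_lit 203) (nat_lit 185) (nat_lit 212)) (PT.lf (nat_lit 25612) (nat_lit 6) (nat_lit 337) (nat_lit 3) (nat_lit 204) (nat_lit 185) (nat_lit 211))) (PT.nd (nat_lit 78) (PT.lf (nat_lit 25688) (nat_lit 6) (nat_lit 338) (nat_lit 3) (nat_lit 205) (nat_lit 185) (nat_lit 210)) (PT.nd (nat_lit 78) (PT.lf (nat_lit 25764) (nat_lit 6) (nat_lit 339) (nat_lit 3) (nat_lit 206) (nat_lit 185) (nat_lit 209)) (PT.lf (nat_lit 25840) (nat_lit 6) (nat_lit 340) (nat_lit 3) (nat_lit 207) (nat_lit 185) (nat_lit 208))))))))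
noncomputable def pc15 : PT := (PT.nd (nat_lit 62400) (PT.nd (nat_lit 702) (PT.nd (nat_lit 312) (PT.nd (nat_lit 156) (PT.nd (nat_lit 78) (PT.lf (nat_lit 25840) (nat_lit 6) (nat_lit 340) (nat_lit 1) (nat_lit 208) (nat_lit 185) (nat_lit 207)) (PT.lf (nat_lit 25764) (nat_lit 6) (nat_lit 339) (nat_lit 1) (nat_lit 209) (nat_lit 185) (nat_lit 206))) (PT.nd (nat_lit 78) (PT.lf (nat_lit 25688) (nat_lit 6) (nat_lit 338) (nat_lit 1) (nat_lit 210) (nat_lit 185) (nat_lit 205)) (PT.lf (nat_lit 25612) (nat_lit 6) (nat_lit 337) (nat_lit 1) (nat_lit 211) (nat_lit 185) (nat_lit 204)))) (PT.nd (nat_lit 156) (PT.nd (nat_lit 78) (PT.lf (nat_lit 25536) (nat_lit 6) (nat_lit 336) (nat_lit 1) (nat_lit 212) (nat_lit 185) (nat_lit 203)) (PT.lf (nat_lit 25460) (nat_lit 6) (nat_lit 335) (nat_lit 1) (nat_lit 213) (nat_lit 185) (nat_lit 202))) (PT.nd (nat_lit 78) (PT.lf (nat_lit 25384) (nat_lit 6) (nat_lit 334) (nat_lit 1) (nat_lit 214) (nat_lit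 185) (nat_lit 201)) (PT.nd (nat_lit 78) (PT.lf (nat_lit 25308) (nat_lit 6) (nat_lit 333) (nat_lit 1) (nat_lit 215) (nat_lit 185) (nat_lit 200)) (PT.lf (nat_lit 24016) (nat_lit 6) (nat_lit 316) (nat_lit 1) (nat_lit 216) (nat_lit 185) (nat_lit 199)))))) (PT.nd (nat_lit 61308) (PT.nd (nat_lit 61074) (PT.nd (nat_lit 60996) (PT.lf (nat_lit 22648) (nat_lit 6) (nat_lit 298) (nat_lit 1) (nat_lit 217) (nat_lit 185) (nat_lit 198)) (PT.lf (nat_lit 23940) (nat_lit 6) (nat_lit 315) (nat_lit 3) (nat_lit 198) (nat_lit 186) (nat_lit 216))) (PT.nd (nat_lit 78) (PT.lf (nat_lit 25232) (nat_lit 6) (nat_lit 332) (nat_lit 3) (nat_lit 199) (nat_lit 186) (nat_lit 215)) (PT.nd (nat_lit 78) (PT.lf (nat_lit 26448) (nat_lit 6) (nat_lit 348) (nat_lit 3) (nat_lit 200) (nat_lit 186) (nat_lit 214)) (PT.lf (nat_lit 26524) (nat_lit 6) (nat_lit 349) (nat_lit 3) (nat_lit 201) (nat_lit 186) (nat_lit 213))))) (PT.nd (nat_lit 156) (PT.nd (nat_lit 78)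 (PT.lf (nat_lit 26600) (nat_lit 6) (nat_lit 350) (nat_lit 3) (nat_lit 202) (nat_lit 186) (nat_lit 212)) (PT.lf (nat_lit 26676) (nat_lit 6) (nat_lit 351) (nat_lit 3) (nat_lit 203) (nat_lit 186) (nat_lit 211))) (PT.nd (nat_lit 78) (PT.lf (nat_lit 26752) (nat_lit 6) (nat_lit 352) (nat_lit 3) (nat_lit 204) (nat_lit 186) (nat_lit 210)) (PT.nd (nat_lit 78) (PT.lf (nat_lit 26828) (nat_lit 6) (nat_lit 353) (nat_lit 3) (nat_lit 205) (nat_lit 186) (nat_lit 209)) (PT.lf (nat_lit 26904) (nat_lit 6) (nat_lit 354) (nat_lit 3) (nat_lit 206) (nat_lit 186) (nat_lit 208))))))) (PT.nd (nat_lit 61698) (PT.nd (nat_lit 390) (PT.nd (nat_lit 156) (PT.nd (nat_lit 78) (PT.lf (nat_lit 26980) (nat_lit 3) (nat_lit 355) (nat_lit 1) (nat_lit 207) (nat_lit 186) (nat_lit 207)) (PT.lf (nat_lit 26904) (nat_lit 6) (nat_lit 354) (nat_lit 1) (nat_lit 208) (nat_lit 186) (nat_lit 206))) (PT.nd (nat_lit 78) (PT.lf (nat_lit 26828) (nat_lit 6) (nat_lit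 353) (nat_lit 1) (nat_lit 209) (nat_lit 186) (nat_lit 205)) (PT.nd (nat_lit 78) (PT.lf (nat_lit 26752) (nat_lit 6) (nat_lit 352) (nat_lit 1) (nat_lit 210) (nat_lit 186) (nat_lit 204)) (PT.lf (nat_lit 26676) (nat_lit 6) (nat_lit 351) (nat_lit 1) (nat_lit 211) (nat_lit 186) (nat_lit 203))))) (PT.nd (nat_lit 156) (PT.nd (nat_lit 78) (PT.lf (nat_lit 26600) (nat_lit 6) (nat_lit 350) (nat_lit 1) (nat_lit 212) (nat_lit 186) (nat_lit 202)) (PT.lf (nat_lit 26524) (nat_lit 6) (nat_lit 349) (nat_lit 1) (nat_lit 213) (nat_lit 186) (nat_lit 201))) (PT.nd (nat_lit 78) (PT.lf (nat_lit 26448) (nat_lit 6) (nat_lit 348) (nat_lit 1) (nat_lit 214) (nat_lit 186) (nat_lit 200)) (PT.nd (nat_lit 78) (PT.lf (nat_lit 25232) (nat_lit 6) (nat_lit 332) (nat_lit 1) (nat_lit 215) (nat_lit 186) (nat_lit 199)) (PT.lf (nat_lit 23940) (nat_lit 6) (nat_lit 315) (nat_lit 1) (nat_lit 216) (nat_lit 186) (nat_lit 198)))))) (PT.nd (nat_lit 390) (PT.nd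 (nat_lit 156) (PT.nd (nat_lit 78) (PT.lf (nat_lit 23864) (nat_lit 6) (nat_lit 314) (nat_lit 3) (nat_lit 197) (nat_lit 187) (nat_lit 216)) (PT.lf (nat_lit 25156) (nat_lit 6) (nat_lit 331) (nat_lit 3) (nat_lit 198) (nat_lit 187) (nat_lit 215))) (PT.nd (nat_lit 78) (PT.lf (nat_lit 26372) (nat_lit 6) (nat_lit 347) (nat_lit 3) (nat_lit 199) (nat_lit 187) (nat_lit 214)) (PT.nd (nat_lit 78) (PT.lf (nat_lit 27512) (nat_lit 6) (nat_lit 362) (nat_lit 3) (nat_lit 200) (nat_lit 187) (nat_lit 213)) (PT.lf (nat_lit 27588) (nat_lit 6) (nat_lit 363) (nat_lit 3) (nat_lit 201) (nat_lit 187) (nat_lit 212))))) (PT.nd (nat_lit 156) (PT.nd (nat_lit 78) (PT.lf (nat_lit 27664) (nat_lit 6) (nat_lit 364) (nat_lit 3) (nat_lit 202) (nat_lit 187) (nat_lit 211)) (PT.lf (nat_lit 27740) (nat_lit 6) (nat_lit 365) (nat_lit 3) (nat_lit 203) (nat_lit 187) (nat_lit 210))) (PT.nd (nat_lit 78) (PT.lf (nat_lit 27816) (nat_lit 6) (nat_lit 366) (nat_lit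 3) (nat_lit 204) (nat_lit 187) (nat_lit 209)) (PT.nd (nat_lit 78) (PT.lf (nat_lit 27892) (nat_lit 6) (nat_lit 367) (nat_lit 3) (nat_lit 205) (nat_lit 187) (nat_lit 208)) (PT.lf (nat_lit 27968) (nat_lit 6) (nat_lit 368) (nat_lit 3) (nat_lit 206) (nat_lit 187) (nat_lit 207))))))))
noncomputable def pc16 : PT := (PT.nd (nat_lit 62322) (PT.nd (nat_lit 702) (PT.nd (nat_lit 312) (PT.nd (nat_lit 156) (PT.nd (nat_lit 78) (PT.lf (nat_lit 27968) (nat_lit 6) (nat_lit 368) (nat_lit 1) (nat_lit 207) (nat_lit 187) (nat_lit 206)) (PT.lf (nat_lit 27892) (nat_lit 6) (nat_lit 367) (nat_lit 1) (nat_lit 208) (nat_lit 187) (nat_lit 205))) (PT.nd (nat_lit 78) (PT.lf (nat_lit 27816) (nat_lit 6) (nat_lit 366) (nat_lit 1) (nat_lit 209) (nat_lit 187) (nat_lit 204)) (PT.lf (nat_lit 27740) (nat_lit 6) (nat_lit 365) (nat_lit 1) (nat_lit 210) (nat_lit 187) (nat_lit 203)))) (PT.nd (nat_lit 156) (PT.nd (nat_lit 78) (PT.lf (nat_lit 27664) (nat_lit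 6) (nat_lit 364) (nat_lit 1) (nat_lit 211) (nat_lit 187) (nat_lit 202)) (PT.lf (nat_lit 27588) (nat_lit 6) (nat_lit 363) (nat_lit 1) (nat_lit 212) (nat_lit 187) (nat_lit 201))) (PT.nd (nat_lit 78) (PT.lf (nat_lit 27512) (nat_lit 6) (nat_lit 362) (nat_lit 1) (nat_lit 213) (nat_lit 187) (nat_lit 200)) (PT.nd (nat_lit 78) (PT.lf (nat_lit 26372) (nat_lit 6) (nat_lit 347) (nat_lit 1) (nat_lit 214) (nat_lit 187) (nat_lit 199)) (PT.lf (nat_lit 25156) (nat_lit 6) (nat_lit 331) (nat_lit 1) (nat_lit 215) (nat_lit 187) (nat_lit 198)))))) (PT.nd (nat_lit 61230) (PT.nd (nat_lit 60996) (PT.nd (nat_lit 60918) (PT.lf (nat_lit 23864) (nat_lit 6) (nat_lit 314) (nat_lit 1) (nat_lit 216) (nat_lit 187) (nat_lit 197)) (PT.lf (nat_lit 23788) (nat_lit 6) (nat_lit 313) (nat_lit 3) (nat_lit 196) (nat_lit 188) (nat_lit 216))) (PT.nd (nat_lit 78) (PT.lf (nat_lit 25080) (nat_lit 6) (nat_lit 330) (nat_lit 3) (nat_lit 197) (nat_lit 188) (nat_lit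 215)) (PT.nd (nat_lit 78) (PT.lf (nat_lit 26296) (nat_lit 6) (nat_lit 346) (nat_lit 3) (nat_lit 198) (nat_lit 188) (nat_lit 214)) (PT.lf (nat_lit 27436) (nat_lit 6) (nat_lit 361) (nat_lit 3) (nat_lit 199) (nat_lit 188) (nat_lit 213))))) (PT.nd (nat_lit 156) (PT.nd (nat_lit 78) (PT.lf (nat_lit 28500) (nat_lit 6) (nat_lit 375) (nat_lit 3) (nat_lit 200) (nat_lit 188) (nat_lit 212)) (PT.lf (nat_lit 28576) (nat_lit 6) (nat_lit 376) (nat_lit 3) (nat_lit 201) (nat_lit 188) (nat_lit 211))) (PT.nd (nat_lit 78) (PT.lf (nat_lit 28652) (nat_lit 6) (nat_lit 377) (nat_lit 3) (nat_lit 202) (nat_lit 188) (nat_lit 210)) (PT.nd (nat_lit 78) (PT.lf (nat_lit 28728) (nat_lit 6) (nat_lit 378) (nat_lit 3) (nat_lit 203) (nat_lit 188) (nat_lit 209)) (PT.lf (nat_lit 28804) (nat_lit 6) (nat_lit 379) (nat_lit 3) (nat_lit 204) (nat_lit 188) (nat_lit 208))))))) (PT.nd (nat_lit 702) (PT.nd (nat_lit 312) (PT.nd (nat_lit 156) (PT.nd (nat_lit 78)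 (PT.lf (nat_lit 28880) (nat_lit 6) (nat_lit 380) (nat_lit 3) (nat_lit 205) (nat_lit 188) (nat_lit 207)) (PT.lf (nat_lit 28956) (nat_lit 3) (nat_lit 381) (nat_lit 1) (nat_lit 206) (nat_lit 188) (nat_lit 206))) (PT.nd (nat_lit 78) (PT.lf (nat_lit 28880) (nat_lit 6) (nat_lit 380) (nat_lit 1) (nat_lit 207) (nat_lit 188) (nat_lit 205)) (PT.lf (nat_lit 28804) (nat_lit 6) (nat_lit 379) (nat_lit 1) (nat_lit 208) (nat_lit 188) (nat_lit 204)))) (PT.nd (nat_lit 156) (PT.nd (nat_lit 78) (PT.lf (nat_lit 28728) (nat_lit 6) (nat_lit 378) (nat_lit 1) (nat_lit 209) (nat_lit 188) (nat_lit 203)) (PT.lf (nat_lit 28652) (nat_lit 6) (nat_lit 377) (nat_lit 1) (nat_lit 210) (nat_lit 188) (nat_lit 202))) (PT.nd (nat_lit 78) (PT.lf (nat_lit 28576) (nat_lit 6) (nat_lit 376) (nat_lit 1) (nat_lit 211) (nat_lit 188) (nat_lit 201)) (PT.nd (nat_lit 78) (PT.lf (nat_lit 28500) (nat_lit 6) (nat_lit 375) (nat_lit 1) (nat_lit 212) (nat_lit 188) (nat_lit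 200)) (PT.lf (nat_lit 27436) (nat_lit 6) (nat_lit 361) (nat_lit 1) (nat_lit 213) (nat_lit 188) (nat_lit 199)))))) (PT.nd (nat_lit 61152) (PT.nd (nat_lit 156) (PT.nd (nat_lit 78) (PT.lf (nat_lit 26296) (nat_lit 6) (nat_lit 346) (nat_lit 1) (nat_lit 214) (nat_lit 188) (nat_lit 198)) (PT.lf (nat_lit 25080) (nat_lit 6) (nat_lit 330) (nat_lit 1) (nat_lit 215) (nat_lit 188) (nat_lit 197))) (PT.nd (nat_lit 60840) (PT.lf (nat_lit 23788) (nat_lit 6) (nat_lit 313) (nat_lit 1) (nat_lit 216) (nat_lit 188) (nat_lit 196)) (PT.nd (nat_lit 78) (PT.lf (nat_lit 23712) (nat_lit 6) (nat_lit 312) (nat_lit 3) (nat_lit 195) (nat_lit 189) (nat_lit 216)) (PT.lf (nat_lit 25004) (nat_lit 6) (nat_lit 329) (nat_lit 3) (nat_lit 196) (nat_lit 189) (nat_lit 215))))) (PT.nd (nat_lit 156) (PT.nd (nat_lit 78) (PT.lf (nat_lit 26220) (nat_lit 6) (nat_lit 345) (nat_lit 3) (nat_lit 197) (nat_lit 189) (nat_lit 214)) (PT.lf (nat_lit 27360) (nat_lit 6)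 (nat_lit 360) (nat_lit 3) (nat_lit 198) (nat_lit 189) (nat_lit 213))) (PT.nd (nat_lit 78) (PT.lf (nat_lit 28424) (nat_lit 6) (nat_lit 374) (nat_lit 3) (nat_lit 199) (nat_lit 189) (nat_lit 212)) (PT.nd (nat_lit 78) (PT.lf (nat_lit 29412) (nat_lit 6) (nat_lit 387) (nat_lit 3) (nat_lit 200) (nat_lit 189) (nat_lit 211)) (PT.lf (nat_lit 29488) (nat_lit 6) (nat_lit 388) (nat_lit 3) (nat_lit 201) (nat_lit 189) (nat_lit 210))))))))
noncomputable def pc17 : PT := (PT.nd (nat_lit 62166) (PT.nd (nat_lit 702) (PT.nd (nat_lit 312) (PT.nd (nat_lit 156) (PT.nd (nat_lit 78) (PT.lf (nat_lit 29564) (nat_lit 6) (nat_lit 389) (nat_lit 3) (nat_lit 202) (nat_lit 189) (nat_lit 209)) (PT.lf (nat_lit 29640) (nat_lit 6) (nat_lit 390) (nat_lit 3) (nat_lit 203) (nat_lit 189) (nat_lit 208))) (PT.nd (nat_lit 78) (PT.lf (nat_lit 29716) (nat_lit 6) (nat_lit 391) (nat_lit 3) (nat_lit 204) (nat_lit 189) (nat_lit 207)) (PT.lf (nat_lit 29792) (nat_lit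 6) (nat_lit 392) (nat_lit 3) (nat_lit 205) (nat_lit 189) (nat_lit 206)))) (PT.nd (nat_lit 156) (PT.nd (nat_lit 78) (PT.lf (nat_lit 29792) (nat_lit 6) (nat_lit 392) (nat_lit 1) (nat_lit 206) (nat_lit 189) (nat_lit 205)) (PT.lf (nat_lit 29716) (nat_lit 6) (nat_lit 391) (nat_lit 1) (nat_lit 207) (nat_lit 189) (nat_lit 204))) (PT.nd (nat_lit 78) (PT.lf (nat_lit 29640) (nat_lit 6) (nat_lit 390) (nat_lit 1) (nat_lit 208) (nat_lit 189) (nat_lit 203)) (PT.nd (nat_lit 78) (PT.lf (nat_lit 29564) (nat_lit 6) (nat_lit 389) (nat_lit 1) (nat_lit 209) (nat_lit 189) (nat_lit 202)) (PT.lf (nat_lit 29488) (nat_lit 6) (nat_lit 388) (nat_lit 1) (nat_lit 210) (nat_lit 189) (nat_lit 201)))))) (PT.nd (nat_lit 390) (PT.nd (nat_lit 156) (PT.nd (nat_lit 78) (PT.lf (nat_lit 29412) (nat_lit 6) (nat_lit 387) (nat_lit 1) (nat_lit 211) (nat_lit 189) (nat_lit 200)) (PT.lf (nat_lit 28424) (nat_lit 6) (nat_lit 374) (nat_lit 1) (nat_lit 212) (nat_lit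 189) (nat_lit 199))) (PT.nd (nat_lit 78) (PT.lf (nat_lit 27360) (nat_lit 6) (nat_lit 360) (nat_lit 1) (nat_lit 213) (nat_lit 189) (nat_lit 198)) (PT.nd (nat_lit 78) (PT.lf (nat_lit 26220) (nat_lit 6) (nat_lit 345) (nat_lit 1) (nat_lit 214) (nat_lit 189) (nat_lit 197)) (PT.lf (nat_lit 25004) (nat_lit 6) (nat_lit 329) (nat_lit 1) (nat_lit 215) (nat_lit 189) (nat_lit 196))))) (PT.nd (nat_lit 60840) (PT.nd (nat_lit 60762) (PT.lf (nat_lit 23712) (nat_lit 6) (nat_lit 312) (nat_lit 1) (nat_lit 216) (nat_lit 189) (nat_lit 195)) (PT.lf (nat_lit 23636) (nat_lit 6) (nat_lit 311) (nat_lit 3) (nat_lit 194) (nat_lit 190) (nat_lit 216))) (PT.nd (nat_lit 78) (PT.lf (nat_lit 24928) (nat_lit 6) (nat_lit 328) (nat_lit 3) (nat_lit 195) (nat_lit 190) (nat_lit 215)) (PT.nd (nat_lit 78) (PT.lf (nat_lit 26144) (nat_lit 6) (nat_lit 344) (nat_lit 3) (nat_lit 196) (nat_lit 190) (nat_lit 214)) (PT.lf (nat_lit 27284) (nat_lit 6) (nat_lit 359)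 (nat_lit 3) (nat_lit 197) (nat_lit 190) (nat_lit 213))))))) (PT.nd (nat_lit 780) (PT.nd (nat_lit 390) (PT.nd (nat_lit 156) (PT.nd (nat_lit 78) (PT.lf (nat_lit 28348) (nat_lit 6) (nat_lit 373) (nat_lit 3) (nat_lit 198) (nat_lit 190) (nat_lit 212)) (PT.lf (nat_lit 29336) (nat_lit 6) (nat_lit 386) (nat_lit 3) (nat_lit 199) (nat_lit 190) (nat_lit 211))) (PT.nd (nat_lit 78) (PT.lf (nat_lit 30248) (nat_lit 6) (nat_lit 398) (nat_lit 3) (nat_lit 200) (nat_lit 190) (nat_lit 210)) (PT.nd (nat_lit 78) (PT.lf (nat_lit 30324) (nat_lit 6) (nat_lit 399) (nat_lit 3) (nat_lit 201) (nat_lit 190) (nat_lit 209)) (PT.lf (nat_lit 30400) (nat_lit 6) (nat_lit 400) (nat_lit 3) (nat_lit 202) (nat_lit 190) (nat_lit 208))))) (PT.nd (nat_lit 156) (PT.nd (nat_lit 78) (PT.lf (nat_lit 30476) (nat_lit 6) (nat_lit 401) (nat_lit 3) (nat_lit 203) (nat_lit 190) (nat_lit 207)) (PT.lf (nat_lit 30552) (nat_lit 6) (nat_lit 402) (nat_lit 3) (nat_lit 204)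 (nat_lit 190) (nat_lit 206))) (PT.nd (nat_lit 78) (PT.lf (nat_lit 30628) (nat_lit 3) (nat_lit 403) (nat_lit 1) (nat_lit 205) (nat_lit 190) (nat_lit 205)) (PT.nd (nat_lit 78) (PT.lf (nat_lit 30552) (nat_lit 6) (nat_lit 402) (nat_lit 1) (nat_lit 206) (nat_lit 190) (nat_lit 204)) (PT.lf (nat_lit 30476) (nat_lit 6) (nat_lit 401) (nat_lit 1) (nat_lit 207) (nat_lit 190) (nat_lit 203)))))) (PT.nd (nat_lit 390) (PT.nd (nat_lit 156) (PT.nd (nat_lit 78) (PT.lf (nat_lit 30400) (nat_lit 6) (nat_lit 400) (nat_lit 1) (nat_lit 208) (nat_lit 190) (nat_lit 202)) (PT.lf (nat_lit 30324) (nat_lit 6) (nat_lit 399) (nat_lit 1) (nat_lit 209) (nat_lit 190) (nat_lit 201))) (PT.nd (nat_lit 78) (PT.lf (nat_lit 30248) (nat_lit 6) (nat_lit 398) (nat_lit 1) (nat_lit 210) (nat_lit 190) (nat_lit 200)) (PT.nd (nat_lit 78) (PT.lf (nat_lit 29336) (nat_lit 6) (nat_lit 386) (nat_lit 1) (nat_lit 211) (nat_lit 190) (nat_lit 199)) (PT.lf (nat_lit 28348)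 (nat_lit 6) (nat_lit 373) (nat_lit 1) (nat_lit 212) (nat_lit 190) (nat_lit 198))))) (PT.nd (nat_lit 156) (PT.nd (nat_lit 78) (PT.lf (nat_lit 27284) (nat_lit 6) (nat_lit 359) (nat_lit 1) (nat_lit 213) (nat_lit 190) (nat_lit 197)) (PT.lf (nat_lit 26144) (nat_lit 6) (nat_lit 344) (nat_lit 1) (nat_lit 214) (nat_lit 190) (nat_lit 196))) (PT.nd (nat_lit 78) (PT.lf (nat_lit 24928) (nat_lit 6) (nat_lit 328) (nat_lit 1) (nat_lit 215) (nat_lit 190) (nat_lit 195)) (PT.nd (nat_lit 60684) (PT.lf (nat_lit 23636) (nat_lit 6) (nat_lit 311) (nat_lit 1) (nat_lit 216) (nat_lit 190) (nat_lit 194)) (PT.lf (nat_lit 23560) (nat_lit 6) (nat_lit 310) (nat_lit 3) (nat_lit 193) (nat_lit 191) (nat_lit 216))))))))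
noncomputable def pc18 : PT := (PT.nd (nat_lit 1482) (PT.nd (nat_lit 702) (PT.nd (nat_lit 312) (PT.nd (nat_lit 156) (PT.nd (nat_lit 78) (PT.lf (nat_lit 24852) (nat_lit 6) (nat_lit 327) (nat_lit 3) (nat_lit 194) (nat_lit 191) (nat_lit 215)) (PT.lf (nat_lit 26068) (nat_lit 6) (nat_lit 343) (nat_lit 3) (nat_lit 195) (nat_lit 191) (nat_lit 214))) (PT.nd (nat_lit 78) (PT.lf (nat_lit 27208) (nat_lit 6) (nat_lit 358) (nat_lit 3) (nat_lit 196) (nat_lit 191) (nat_lit 213)) (PT.lf (nat_lit 28272) (nat_lit 6) (nat_lit 372) (nat_lit 3) (nat_lit 197) (nat_lit 191) (nat_lit 212)))) (PT.nd (nat_lit 156) (PT.nd (nat_lit 78) (PT.lf (nat_lit 29260) (nat_lit 6) (nat_lit 385) (nat_lit 3) (nat_lit 198) (nat_lit 191) (nat_lit 211)) (PT.lf (nat_lit 30172) (nat_lit 6) (nat_lit 397) (nat_lit 3) (nat_lit 199) (nat_lit 191) (nat_lit 210))) (PT.nd (nat_lit 78) (PT.lf (nat_lit 31008) (nat_lit 6) (nat_lit 408) (nat_lit 3) (nat_lit 200) (nat_lit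 191) (nat_lit 209)) (PT.nd (nat_lit 78) (PT.lf (nat_lit 31084) (nat_lit 6) (nat_lit 409) (nat_lit 3) (nat_lit 201) (nat_lit 191) (nat_lit 208)) (PT.lf (nat_lit 31160) (nat_lit 6) (nat_lit 410) (nat_lit 3) (nat_lit 202) (nat_lit 191) (nat_lit 207)))))) (PT.nd (nat_lit 390) (PT.nd (nat_lit 156) (PT.nd (nat_lit 78) (PT.lf (nat_lit 31236) (nat_lit 6) (nat_lit 411) (nat_lit 3) (nat_lit 203) (nat_lit 191) (nat_lit 206)) (PT.lf (nat_lit 31312) (nat_lit 6) (nat_lit 412) (nat_lit 3) (nat_lit 204) (nat_lit 191) (nat_lit 205))) (PT.nd (nat_lit 78) (PT.lf (nat_lit 31312) (nat_lit 6) (nat_lit 412) (nat_lit 1) (nat_lit 205) (nat_lit 191) (nat_lit 204)) (PT.nd (nat_lit 78) (PT.lf (nat_lit 31236) (nat_lit 6) (nat_lit 411) (nat_lit 1) (nat_lit 206) (nat_lit 191) (nat_lit 203)) (PT.lf (nat_lit 31160) (nat_lit 6) (nat_lit 410) (nat_lit 1) (nat_lit 207) (nat_lit 191) (nat_lit 202))))) (PT.nd (nat_lit 156) (PT.nd (nat_lit 78) (PT.lf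 (nat_lit 31084) (nat_lit 6) (nat_lit 409) (nat_lit 1) (nat_lit 208) (nat_lit 191) (nat_lit 201)) (PT.lf (nat_lit 31008) (nat_lit 6) (nat_lit 408) (nat_lit 1) (nat_lit 209) (nat_lit 191) (nat_lit 200))) (PT.nd (nat_lit 78) (PT.lf (nat_lit 30172) (nat_lit 6) (nat_lit 397) (nat_lit 1) (nat_lit 210) (nat_lit 191) (nat_lit 199)) (PT.nd (nat_lit 78) (PT.lf (nat_lit 29260) (nat_lit 6) (nat_lit 385) (nat_lit 1) (nat_lit 211) (nat_lit 191) (nat_lit 198)) (PT.lf (nat_lit 28272) (nat_lit 6) (nat_lit 372) (nat_lit 1) (nat_lit 212) (nat_lit 191) (nat_lit 197))))))) (PT.nd (nat_lit 61308) (PT.nd (nat_lit 60918) (PT.nd (nat_lit 156) (PT.nd (nat_lit 78) (PT.lf (nat_lit 27208) (nat_lit 6) (nat_lit 358) (nat_lit 1) (nat_lit 213) (nat_lit 191) (nat_lit 196)) (PT.lf (nat_lit 26068) (nat_lit 6) (nat_lit 343) (nat_lit 1) (nat_lit 214) (nat_lit 191) (nat_lit 195))) (PT.nd (nat_lit 78) (PT.lf (nat_lit 24852) (nat_lit 6) (nat_lit 327)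 (nat_lit 1) (nat_lit 215) (nat_lit 191) (nat_lit 194)) (PT.nd (nat_lit 60606) (PT.lf (nat_lit 23560) (nat_lit 6) (nat_lit 310) (nat_lit 1) (nat_lit 216) (nat_lit 191) (nat_lit 193)) (PT.lf (nat_lit 23484) (nat_lit 3) (nat_lit 309) (nat_lit 3) (nat_lit 192) (nat_lit 192) (nat_lit 216))))) (PT.nd (nat_lit 156) (PT.nd (nat_lit 78) (PT.lf (nat_lit 24776) (nat_lit 6) (nat_lit 326) (nat_lit 3) (nat_lit 193) (nat_lit 192) (nat_lit 215)) (PT.lf (nat_lit 25992) (nat_lit 6) (nat_lit 342) (nat_lit 3) (nat_lit 194) (nat_lit 192) (nat_lit 214))) (PT.nd (nat_lit 78) (PT.lf (nat_lit 27132) (nat_lit 6) (nat_lit 357) (nat_lit 3) (nat_lit 195) (nat_lit 192) (nat_lit 213)) (PT.nd (nat_lit 78) (PT.lf (nat_lit 28196) (nat_lit 6) (nat_lit 371) (nat_lit 3) (nat_lit 196) (nat_lit 192) (nat_lit 212)) (PT.lf (nat_lit 29184) (nat_lit 6) (nat_lit 384) (nat_lit 3) (nat_lit 197) (nat_lit 192) (nat_lit 211)))))) (PT.nd (nat_lit 390) (PT.nd (nat_lit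 156) (PT.nd (nat_lit 78) (PT.lf (nat_lit 30096) (nat_lit 6) (nat_lit 396) (nat_lit 3) (nat_lit 198) (nat_lit 192) (nat_lit 210)) (PT.lf (nat_lit 30932) (nat_lit 6) (nat_lit 407) (nat_lit 3) (nat_lit 199) (nat_lit 192) (nat_lit 209))) (PT.nd (nat_lit 78) (PT.lf (nat_lit 31692) (nat_lit 6) (nat_lit 417) (nat_lit 3) (nat_lit 200) (nat_lit 192) (nat_lit 208)) (PT.nd (nat_lit 78) (PT.lf (nat_lit 31768) (nat_lit 6) (nat_lit 418) (nat_lit 3) (nat_lit 201) (nat_lit 192) (nat_lit 207)) (PT.lf (nat_lit 31844) (nat_lit 6) (nat_lit 419) (nat_lit 3) (nat_lit 202) (nat_lit 192) (nat_lit 206))))) (PT.nd (nat_lit 156) (PT.nd (nat_lit 78) (PT.lf (nat_lit 31920) (nat_lit 6) (nat_lit 420) (nat_lit 3) (nat_lit 203) (nat_lit 192) (nat_lit 205)) (PT.lf (nat_lit 31996) (nat_lit 3) (nat_lit 421) (nat_lit 1) (nat_lit 204) (nat_lit 192) (nat_lit 204))) (PT.nd (nat_lit 78) (PT.lf (nat_lit 31920) (nat_lit 6) (nat_lit 420) (nat_lit 1) (nat_lit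 205) (nat_lit 192) (nat_lit 203)) (PT.nd (nat_lit 78) (PT.lf (nat_lit 31844) (nat_lit 6) (nat_lit 419) (nat_lit 1) (nat_lit 206) (nat_lit 192) (nat_lit 202)) (PT.lf (nat_lit 31768) (nat_lit 6) (nat_lit 418) (nat_lit 1) (nat_lit 207) (nat_lit 192) (nat_lit 201))))))))
noncomputable def pc19 : PT := (PT.nd (nat_lit 61932) (PT.nd (nat_lit 61152) (PT.nd (nat_lit 312) (PT.nd (nat_lit 156) (PT.nd (nat_lit 78) (PT.lf (nat_lit 31692) (nat_lit 6) (nat_lit 417) (nat_lit 1) (nat_lit 208) (nat_lit 192) (nat_lit 200)) (PT.lf (nat_lit 30932) (nat_lit 6) (nat_lit 407) (nat_lit 1) (nat_lit 209) (nat_lit 192) (nat_lit 199))) (PT.nd (nat_lit 78) (PT.lf (nat_lit 30096) (nat_lit 6) (nat_lit 396) (nat_lit 1) (nat_lit 210) (nat_lit 192) (nat_lit 198)) (PT.lf (nat_lit 29184) (nat_lit 6) (nat_lit 384) (nat_lit 1) (nat_lit 211) (nat_lit 192) (nat_lit 197)))) (PT.nd (nat_lit 156) (PT.nd (nat_lit 78) (PT.lf (nat_lit 28196) (nat_lit 6) (nat_lit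 371) (nat_lit 1) (nat_lit 212) (nat_lit 192) (nat_lit 196)) (PT.lf (nat_lit 27132) (nat_lit 6) (nat_lit 357) (nat_lit 1) (nat_lit 213) (nat_lit 192) (nat_lit 195))) (PT.nd (nat_lit 78) (PT.lf (nat_lit 25992) (nat_lit 6) (nat_lit 342) (nat_lit 1) (nat_lit 214) (nat_lit 192) (nat_lit 194)) (PT.nd (nat_lit 78) (PT.lf (nat_lit 24776) (nat_lit 6) (nat_lit 326) (nat_lit 1) (nat_lit 215) (nat_lit 192) (nat_lit 193)) (PT.lf (nat_lit 23484) (nat_lit 3) (nat_lit 309) (nat_lit 0) (nat_lit 216) (nat_lit 192) (nat_lit 192)))))) (PT.nd (nat_lit 390) (PT.nd (nat_lit 156) (PT.nd (nat_lit 78) (PT.lf (nat_lit 23560) (nat_lit 6) (nat_lit 310) (nat_lit 5) (nat_lit 191) (nat_lit 193) (nat_lit 216)) (PT.lf (nat_lit 24776) (nat_lit 6) (nat_lit 326) (nat_lit 5) (nat_lit 192) (nat_lit 193) (nat_lit 215))) (PT.nd (nat_lit 78) (PT.lf (nat_lit 25916) (nat_lit 3) (nat_lit 341) (nat_lit 3) (nat_lit 193) (nat_lit 193) (nat_lit 214)) (PT.nd (nat_lit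 78) (PT.lf (nat_lit 27056) (nat_lit 6) (nat_lit 356) (nat_lit 3) (nat_lit 194) (nat_lit 193) (nat_lit 213)) (PT.lf (nat_lit 28120) (nat_lit 6) (nat_lit 370) (nat_lit 3) (nat_lit 195) (nat_lit 193) (nat_lit 212))))) (PT.nd (nat_lit 156) (PT.nd (nat_lit 78) (PT.lf (nat_lit 29108) (nat_lit 6) (nat_lit 383) (nat_lit 3) (nat_lit 196) (nat_lit 193) (nat_lit 211)) (PT.lf (nat_lit 30020) (nat_lit 6) (nat_lit 395) (nat_lit 3) (nat_lit 197) (nat_lit 193) (nat_lit 210))) (PT.nd (nat_lit 78) (PT.lf (nat_lit 30856) (nat_lit 6) (nat_lit 406) (nat_lit 3) (nat_lit 198) (nat_lit 193) (nat_lit 209)) (PT.nd (nat_lit 78) (PT.lf (nat_lit 31616) (nat_lit 6) (nat_lit 416) (nat_lit 3) (nat_lit 199) (nat_lit 193) (nat_lit 208)) (PT.lf (nat_lit 32300) (nat_lit 6) (nat_lit 425) (nat_lit 3) (nat_lit 200) (nat_lit 193) (nat_lit 207))))))) (PT.nd (nat_lit 780) (PT.nd (nat_lit 390) (PT.nd (nat_lit 156) (PT.nd (nat_lit 78) (PT.lf (nat_lit 32376)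 (nat_lit 6) (nat_lit 426) (nat_lit 3) (nat_lit 201) (nat_lit 193) (nat_lit 206)) (PT.lf (nat_lit 32452) (nat_lit 6) (nat_lit 427) (nat_lit 3) (nat_lit 202) (nat_lit 193) (nat_lit 205))) (PT.nd (nat_lit 78) (PT.lf (nat_lit 32528) (nat_lit 6) (nat_lit 428) (nat_lit 3) (nat_lit 203) (nat_lit 193) (nat_lit 204)) (PT.nd (nat_lit 78) (PT.lf (nat_lit 32528) (nat_lit 6) (nat_lit 428) (nat_lit 1) (nat_lit 204) (nat_lit 193) (nat_lit 203)) (PT.lf (nat_lit 32452) (nat_lit 6) (nat_lit 427) (nat_lit 1) (nat_lit 205) (nat_lit 193) (nat_lit 202))))) (PT.nd (nat_lit 156) (PT.nd (nat_lit 78) (PT.lf (nat_lit 32376) (nat_lit 6) (nat_lit 426) (nat_lit 1) (nat_lit 206) (nat_lit 193) (nat_lit 201)) (PT.lf (nat_lit 32300) (nat_lit 6) (nat_lit 425) (nat_lit 1) (nat_lit 207) (nat_lit 193) (nat_lit 200))) (PT.nd (nat_lit 78) (PT.lf (nat_lit 31616) (nat_lit 6) (nat_lit 416) (nat_lit 1) (nat_lit 208) (nat_lit 193) (nat_lit 199)) (PT.nd (nat_lit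 78) (PT.lf (nat_lit 30856) (nat_lit 6) (nat_lit 406) (nat_lit 1) (nat_lit 209) (nat_lit 193) (nat_lit 198)) (PT.lf (nat_lit 30020) (nat_lit 6) (nat_lit 395) (nat_lit 1) (nat_lit 210) (nat_lit 193) (nat_lit 197)))))) (PT.nd (nat_lit 390) (PT.nd (nat_lit 156) (PT.nd (nat_lit 78) (PT.lf (nat_lit 29108) (nat_lit 6) (nat_lit 383) (nat_lit 1) (nat_lit 211) (nat_lit 193) (nat_lit 196)) (PT.lf (nat_lit 28120) (nat_lit 6) (nat_lit 370) (nat_lit 1) (nat_lit 212) (nat_lit 193) (nat_lit 195))) (PT.nd (nat_lit 78) (PT.lf (nat_lit 27056) (nat_lit 6) (nat_lit 356) (nat_lit 1) (nat_lit 213) (nat_lit 193) (nat_lit 194)) (PT.nd (nat_lit 78) (PT.lf (nat_lit 25916) (nat_lit 3) (nat_lit 341) (nat_lit 0) (nat_lit 214) (nat_lit 193) (nat_lit 193)) (PT.lf (nat_lit 24776) (nat_lit 6) (nat_lit 326) (nat_lit 0) (nat_lit 215) (nat_lit 193) (nat_lit 192))))) (PT.nd (nat_lit 60528) (PT.nd (nat_lit 60450) (PT.lf (nat_lit 23560) (nat_lit 6) (nat_lit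 310) (nat_lit 0) (nat_lit 216) (nat_lit 193) (nat_lit 191)) (PT.lf (nat_lit 23636) (nat_lit 6) (nat_lit 311) (nat_lit 5) (nat_lit 190) (nat_lit 194) (nat_lit 216))) (PT.nd (nat_lit 78) (PT.lf (nat_lit 24852) (nat_lit 6) (nat_lit 327) (nat_lit 5) (nat_lit 191) (nat_lit 194) (nat_lit 215)) (PT.nd (nat_lit 78) (PT.lf (nat_lit 25992) (nat_lit 6) (nat_lit 342) (nat_lit 5) (nat_lit 192) (nat_lit 194) (nat_lit 214)) (PT.lf (nat_lit 27056) (nat_lit 6) (nat_lit 356) (nat_lit 5) (nat_lit 193) (nat_lit 194) (nat_lit 213))))))))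
noncomputable def pc20 : PT := (PT.nd (nat_lit 1482) (PT.nd (nat_lit 702) (PT.nd (nat_lit 312) (PT.nd (nat_lit 156) (PT.nd (nat_lit 78) (PT.lf (nat_lit 28044) (nat_lit 3) (nat_lit 369) (nat_lit 3) (nat_lit 194) (nat_lit 194) (nat_lit 212)) (PT.lf (nat_lit 29032) (nat_lit 6) (nat_lit 382) (nat_lit 3) (nat_lit 195) (nat_lit 194) (nat_lit 211))) (PT.nd (nat_lit 78) (PT.lf (nat_lit 29944) (nat_lit 6) (nat_lit 394) (nat_lit 3) (nat_lit 196) (nat_lit 194) (nat_lit 210)) (PT.lf (nat_lit 30780) (nat_lit 6) (nat_lit 405) (nat_lit 3) (nat_lit 197) (nat_lit 194) (nat_lit 209)))) (PT.nd (nat_lit 156) (PT.nd (nat_lit 78) (PT.lf (nat_lit 31540) (nat_lit 6) (nat_lit 415) (nat_lit 3) (nat_lit 198) (nat_lit 194) (nat_lit 208)) (PT.lf (nat_lit 32224) (nat_lit 6) (nat_lit 424) (nat_lit 3) (nat_lit 199) (nat_lit 194) (nat_lit 207))) (PT.nd (nat_lit 78) (PT.lf (nat_lit 32832) (nat_lit 6) (nat_lit 432) (nat_lit 3) (nat_lit 200) (nat_lit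 194) (nat_lit 206)) (PT.nd (nat_lit 78) (PT.lf (nat_lit 32908) (nat_lit 6) (nat_lit 433) (nat_lit 3) (nat_lit 201) (nat_lit 194) (nat_lit 205)) (PT.lf (nat_lit 32984) (nat_lit 6) (nat_lit 434) (nat_lit 3) (nat_lit 202) (nat_lit 194) (nat_lit 204)))))) (PT.nd (nat_lit 390) (PT.nd (nat_lit 156) (PT.nd (nat_lit 78) (PT.lf (nat_lit 33060) (nat_lit 3) (nat_lit 435) (nat_lit 1) (nat_lit 203) (nat_lit 194) (nat_lit 203)) (PT.lf (nat_lit 32984) (nat_lit 6) (nat_lit 434) (nat_lit 1) (nat_lit 204) (nat_lit 194) (nat_lit 202))) (PT.nd (nat_lit 78) (PT.lf (nat_lit 32908) (nat_lit 6) (nat_lit 433) (nat_lit 1) (nat_lit 205) (nat_lit 194) (nat_lit 201)) (PT.nd (nat_lit 78) (PT.lf (nat_lit 32832) (nat_lit 6) (nat_lit 432) (nat_lit 1) (nat_lit 206) (nat_lit 194) (nat_lit 200)) (PT.lf (nat_lit 32224) (nat_lit 6) (nat_lit 424) (nat_lit 1) (nat_lit 207) (nat_lit 194) (nat_lit 199))))) (PT.nd (nat_lit 156) (PT.nd (nat_lit 78) (PT.lf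 (nat_lit 31540) (nat_lit 6) (nat_lit 415) (nat_lit 1) (nat_lit 208) (nat_lit 194) (nat_lit 198)) (PT.lf (nat_lit 30780) (nat_lit 6) (nat_lit 405) (nat_lit 1) (nat_lit 209) (nat_lit 194) (nat_lit 197))) (PT.nd (nat_lit 78) (PT.lf (nat_lit 29944) (nat_lit 6) (nat_lit 394) (nat_lit 1) (nat_lit 210) (nat_lit 194) (nat_lit 196)) (PT.nd (nat_lit 78) (PT.lf (nat_lit 29032) (nat_lit 6) (nat_lit 382) (nat_lit 1) (nat_lit 211) (nat_lit 194) (nat_lit 195)) (PT.lf (nat_lit 28044) (nat_lit 3) (nat_lit 369) (nat_lit 0) (nat_lit 212) (nat_lit 194) (nat_lit 194))))))) (PT.nd (nat_lit 61074) (PT.nd (nat_lit 60684) (PT.nd (nat_lit 156) (PT.nd (nat_lit 78) (PT.lf (nat_lit 27056) (nat_lit 6) (nat_lit 356) (nat_lit 0) (nat_lit 213) (nat_lit 194) (nat_lit 193)) (PT.lf (nat_lit 25992) (nat_lit 6) (nat_lit 342) (nat_lit 0) (nat_lit 214) (nat_lit 194) (nat_lit 192))) (PT.nd (nat_lit 78) (PT.lf (nat_lit 24852) (nat_lit 6) (nat_lit 327)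 (nat_lit 0) (nat_lit 215) (nat_lit 194) (nat_lit 191)) (PT.nd (nat_lit 60372) (PT.lf (nat_lit 23636) (nat_lit 6) (nat_lit 311) (nat_lit 0) (nat_lit 216) (nat_lit 194) (nat_lit 190)) (PT.lf (nat_lit 23712) (nat_lit 6) (nat_lit 312) (nat_lit 5) (nat_lit 189) (nat_lit 195) (nat_lit 216))))) (PT.nd (nat_lit 156) (PT.nd (nat_lit 78) (PT.lf (nat_lit 24928) (nat_lit 6) (nat_lit 328) (nat_lit 5) (nat_lit 190) (nat_lit 195) (nat_lit 215)) (PT.lf (nat_lit 26068) (nat_lit 6) (nat_lit 343) (nat_lit 5) (nat_lit 191) (nat_lit 195) (nat_lit 214))) (PT.nd (nat_lit 78) (PT.lf (nat_lit 27132) (nat_lit 6) (nat_lit 357) (nat_lit 5) (nat_lit 192) (nat_lit 195) (nat_lit 213)) (PT.nd (nat_lit 78) (PT.lf (nat_lit 28120) (nat_lit 6) (nat_lit 370) (nat_lit 5) (nat_lit 193) (nat_lit 195) (nat_lit 212)) (PT.lf (nat_lit 29032) (nat_lit 6) (nat_lit 382) (nat_lit 5) (nat_lit 194) (nat_lit 195) (nat_lit 211)))))) (PT.nd (nat_lit 390) (PT.nd (nat_lit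 156) (PT.nd (nat_lit 78) (PT.lf (nat_lit 29868) (nat_lit 3) (nat_lit 393) (nat_lit 3) (nat_lit 195) (nat_lit 195) (nat_lit 210)) (PT.lf (nat_lit 30704) (nat_lit 6) (nat_lit 404) (nat_lit 3) (nat_lit 196) (nat_lit 195) (nat_lit 209))) (PT.nd (nat_lit 78) (PT.lf (nat_lit 31464) (nat_lit 6) (nat_lit 414) (nat_lit 3) (nat_lit 197) (nat_lit 195) (nat_lit 208)) (PT.nd (nat_lit 78) (PT.lf (nat_lit 32148) (nat_lit 6) (nat_lit 423) (nat_lit 3) (nat_lit 198) (nat_lit 195) (nat_lit 207)) (PT.lf (nat_lit 32756) (nat_lit 6) (nat_lit 431) (nat_lit 3) (nat_lit 199) (nat_lit 195) (nat_lit 206))))) (PT.nd (nat_lit 156) (PT.nd (nat_lit 78) (PT.lf (nat_lit 33288) (nat_lit 6) (nat_lit 438) (nat_lit 3) (nat_lit 200) (nat_lit 195) (nat_lit 205)) (PT.lf (nat_lit 33364) (nat_lit 6) (nat_lit 439) (nat_lit 3) (nat_lit 201) (nat_lit 195) (nat_lit 204))) (PT.nd (nat_lit 78) (PT.lf (nat_lit 33440) (nat_lit 6) (nat_lit 440) (nat_lit 3) (nat_lit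 202) (nat_lit 195) (nat_lit 203)) (PT.nd (nat_lit 78) (PT.lf (nat_lit 33440) (nat_lit 6) (nat_lit 440) (nat_lit 1) (nat_lit 203) (nat_lit 195) (nat_lit 202)) (PT.lf (nat_lit 33364) (nat_lit 6) (nat_lit 439) (nat_lit 1) (nat_lit 204) (nat_lit 195) (nat_lit 201))))))))
noncomputable def pc21 : PT := (PT.nd (nat_lit 61698) (PT.nd (nat_lit 702) (PT.nd (nat_lit 312) (PT.nd (nat_lit 156) (PT.nd (nat_lit 78) (PT.lf (nat_lit 33288) (nat_lit 6) (nat_lit 438) (nat_lit 1) (nat_lit 205) (nat_lit 195) (nat_lit 200)) (PT.lf (nat_lit 32756) (nat_lit 6) (nat_lit 431) (nat_lit 1) (nat_lit 206) (nat_lit 195) (nat_lit 199))) (PT.nd (nat_lit 78) (PT.lf (nat_lit 32148) (nat_lit 6) (nat_lit 423) (nat_lit 1) (nat_lit 207) (nat_lit 195) (nat_lit 198)) (PT.lf (nat_lit 31464) (nat_lit 6) (nat_lit 414) (nat_lit 1) (nat_lit 208) (nat_lit 195) (nat_lit 197)))) (PT.nd (nat_lit 156) (PT.nd (nat_lit 78) (PT.lf (nat_lit 30704) (nat_lit 6) (nat_lit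 404) (nat_lit 1) (nat_lit 209) (nat_lit 195) (nat_lit 196)) (PT.lf (nat_lit 29868) (nat_lit 3) (nat_lit 393) (nat_lit 0) (nat_lit 210) (nat_lit 195) (nat_lit 195))) (PT.nd (nat_lit 78) (PT.lf (nat_lit 29032) (nat_lit 6) (nat_lit 382) (nat_lit 0) (nat_lit 211) (nat_lit 195) (nat_lit 194)) (PT.nd (nat_lit 78) (PT.lf (nat_lit 28120) (nat_lit 6) (nat_lit 370) (nat_lit 0) (nat_lit 212) (nat_lit 195) (nat_lit 193)) (PT.lf (nat_lit 27132) (nat_lit 6) (nat_lit 357) (nat_lit 0) (nat_lit 213) (nat_lit 195) (nat_lit 192)))))) (PT.nd (nat_lit 60606) (PT.nd (nat_lit 156) (PT.nd (nat_lit 78) (PT.lf (nat_lit 26068) (nat_lit 6) (nat_lit 343) (nat_lit 0) (nat_lit 214) (nat_lit 195) (nat_lit 191)) (PT.lf (nat_lit 24928) (nat_lit 6) (nat_lit 328) (nat_lit 0) (nat_lit 215) (nat_lit 195) (nat_lit 190))) (PT.nd (nat_lit 60294) (PT.lf (nat_lit 23712) (nat_lit 6) (nat_lit 312) (nat_lit 0) (nat_lit 216) (nat_lit 195) (nat_lit 189)) (PT.nd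 (nat_lit 78) (PT.lf (nat_lit 23788) (nat_lit 6) (nat_lit 313) (nat_lit 5) (nat_lit 188) (nat_lit 196) (nat_lit 216)) (PT.lf (nat_lit 25004) (nat_lit 6) (nat_lit 329) (nat_lit 5) (nat_lit 189) (nat_lit 196) (nat_lit 215))))) (PT.nd (nat_lit 156) (PT.nd (nat_lit 78) (PT.lf (nat_lit 26144) (nat_lit 6) (nat_lit 344) (nat_lit 5) (nat_lit 190) (nat_lit 196) (nat_lit 214)) (PT.lf (nat_lit 27208) (nat_lit 6) (nat_lit 358) (nat_lit 5) (nat_lit 191) (nat_lit 196) (nat_lit 213))) (PT.nd (nat_lit 78) (PT.lf (nat_lit 28196) (nat_lit 6) (nat_lit 371) (nat_lit 5) (nat_lit 192) (nat_lit 196) (nat_lit 212)) (PT.nd (nat_lit 78) (PT.lf (nat_lit 29108) (nat_lit 6) (nat_lit 383) (nat_lit 5) (nat_lit 193) (nat_lit 196) (nat_lit 211)) (PT.lf (nat_lit 29944) (nat_lit 6) (nat_lit 394) (nat_lit 5) (nat_lit 194) (nat_lit 196) (nat_lit 210))))))) (PT.nd (nat_lit 780) (PT.nd (nat_lit 390) (PT.nd (nat_lit 156) (PT.nd (nat_lit 78) (PT.lf (nat_lit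 30704) (nat_lit 6) (nat_lit 404) (nat_lit 5) (nat_lit 195) (nat_lit 196) (nat_lit 209)) (PT.lf (nat_lit 31388) (nat_lit 3) (nat_lit 413) (nat_lit 3) (nat_lit 196) (nat_lit 196) (nat_lit 208))) (PT.nd (nat_lit 78) (PT.lf (nat_lit 32072) (nat_lit 6) (nat_lit 422) (nat_lit 3) (nat_lit 197) (nat_lit 196) (nat_lit 207)) (PT.nd (nat_lit 78) (PT.lf (nat_lit 32680) (nat_lit 6) (nat_lit 430) (nat_lit 3) (nat_lit 198) (nat_lit 196) (nat_lit 206)) (PT.lf (nat_lit 33212) (nat_lit 6) (nat_lit 437) (nat_lit 3) (nat_lit 199) (nat_lit 196) (nat_lit 205))))) (PT.nd (nat_lit 156) (PT.nd (nat_lit 78) (PT.lf (nat_lit 33668) (nat_lit 6) (nat_lit 443) (nat_lit 3) (nat_lit 200) (nat_lit 196) (nat_lit 204)) (PT.lf (nat_lit 33744) (nat_lit 6) (nat_lit 444) (nat_lit 3) (nat_lit 201) (nat_lit 196) (nat_lit 203))) (PT.nd (nat_lit 78) (PT.lf (nat_lit 33820) (nat_lit 3) (nat_lit 445) (nat_lit 1) (nat_lit 202) (nat_lit 196) (nat_lit 202)) (PT.nd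 (nat_lit 78) (PT.lf (nat_lit 33744) (nat_lit 6) (nat_lit 444) (nat_lit 1) (nat_lit 203) (nat_lit 196) (nat_lit 201)) (PT.lf (nat_lit 33668) (nat_lit 6) (nat_lit 443) (nat_lit 1) (nat_lit 204) (nat_lit 196) (nat_lit 200)))))) (PT.nd (nat_lit 390) (PT.nd (nat_lit 156) (PT.nd (nat_lit 78) (PT.lf (nat_lit 33212) (nat_lit 6) (nat_lit 437) (nat_lit 1) (nat_lit 205) (nat_lit 196) (nat_lit 199)) (PT.lf (nat_lit 32680) (nat_lit 6) (nat_lit 430) (nat_lit 1) (nat_lit 206) (nat_lit 196) (nat_lit 198))) (PT.nd (nat_lit 78) (PT.lf (nat_lit 32072) (nat_lit 6) (nat_lit 422) (nat_lit 1) (nat_lit 207) (nat_lit 196) (nat_lit 197)) (PT.nd (nat_lit 78) (PT.lf (nat_lit 31388) (nat_lit 3) (nat_lit 413) (nat_lit 0) (nat_lit 208) (nat_lit 196) (nat_lit 196)) (PT.lf (nat_lit 30704) (nat_lit 6) (nat_lit 404) (nat_lit 0) (nat_lit 209) (nat_lit 196) (nat_lit 195))))) (PT.nd (nat_lit 156) (PT.nd (nat_lit 78) (PT.lf (nat_lit 29944) (nat_lit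 6) (nat_lit 394) (nat_lit 0) (nat_lit 210) (nat_lit 196) (nat_lit 194)) (PT.lf (nat_lit 29108) (nat_lit 6) (nat_lit 383) (nat_lit 0) (nat_lit 211) (nat_lit 196) (nat_lit 193))) (PT.nd (nat_lit 78) (PT.lf (nat_lit 28196) (nat_lit 6) (nat_lit 371) (nat_lit 0) (nat_lit 212) (nat_lit 196) (nat_lit 192)) (PT.nd (nat_lit 78) (PT.lf (nat_lit 27208) (nat_lit 6) (nat_lit 358) (nat_lit 0) (nat_lit 213) (nat_lit 196) (nat_lit 191)) (PT.lf (nat_lit 26144) (nat_lit 6) (nat_lit 344) (nat_lit 0) (nat_lit 214) (nat_lit 196) (nat_lit 190))))))))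
noncomputable def pc22 : PT := (PT.nd (nat_lit 61620) (PT.nd (nat_lit 60840) (PT.nd (nat_lit 60450) (PT.nd (nat_lit 60294) (PT.nd (nat_lit 78) (PT.lf (nat_lit 25004) (nat_lit 6) (nat_lit 329) (nat_lit 0) (nat_lit 215) (nat_lit 196) (nat_lit 189)) (PT.lf (nat_lit 23788) (nat_lit 6) (nat_lit 313) (nat_lit 0) (nat_lit 216) (nat_lit 196) (nat_lit 188))) (PT.nd (nat_lit 78) (PT.lf (nat_lit 23864) (nat_lit 6) (nat_lit 314) (nat_lit 5) (nat_lit 187) (nat_lit 197) (nat_lit 216)) (PT.lf (nat_lit 25080) (nat_lit 6) (nat_lit 330) (nat_lit 5) (nat_lit 188) (nat_lit 197) (nat_lit 215)))) (PT.nd (nat_lit 156) (PT.nd (nat_lit 78) (PT.lf (nat_lit 26220) (nat_lit 6) (nat_lit 345) (nat_lit 5) (nat_lit 189) (nat_lit 197) (nat_lit 214)) (PT.lf (nat_lit 27284) (nat_lit 6) (nat_lit 359) (nat_lit 5) (nat_lit 190) (nat_lit 197) (nat_lit 213))) (PT.nd (nat_lit 78) (PT.lf (nat_lit 28272) (nat_lit 6) (nat_lit 372) (nat_lit 5) (nat_lit 191)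 (nat_lit 197) (nat_lit 212)) (PT.nd (nat_lit 78) (PT.lf (nat_lit 29184) (nat_lit 6) (nat_lit 384) (nat_lit 5) (nat_lit 192) (nat_lit 197) (nat_lit 211)) (PT.lf (nat_lit 30020) (nat_lit 6) (nat_lit 395) (nat_lit 5) (nat_lit 193) (nat_lit 197) (nat_lit 210)))))) (PT.nd (nat_lit 390) (PT.nd (nat_lit 156) (PT.nd (nat_lit 78) (PT.lf (nat_lit 30780) (nat_lit 6) (nat_lit 405) (nat_lit 5) (nat_lit 194) (nat_lit 197) (nat_lit 209)) (PT.lf (nat_lit 31464) (nat_lit 6) (nat_lit 414) (nat_lit 5) (nat_lit 195) (nat_lit 197) (nat_lit 208))) (PT.nd (nat_lit 78) (PT.lf (nat_lit 32072) (nat_lit 6) (nat_lit 422) (nat_lit 5) (nat_lit 196) (nat_lit 197) (nat_lit 207)) (PT.nd (nat_lit 78) (PT.lf (nat_lit 32604) (nat_lit 3) (nat_lit 429) (nat_lit 3) (nat_lit 197) (nat_lit 197) (nat_lit 206)) (PT.lf (nat_lit 33136) (nat_lit 6) (nat_lit 436) (nat_lit 3) (nat_lit 198) (nat_lit 197) (nat_lit 205))))) (PT.nd (nat_lit 156) (PT.nd (nat_lit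 78) (PT.lf (nat_lit 33592) (nat_lit 6) (nat_lit 442) (nat_lit 3) (nat_lit 199) (nat_lit 197) (nat_lit 204)) (PT.lf (nat_lit 33972) (nat_lit 6) (nat_lit 447) (nat_lit 3) (nat_lit 200) (nat_lit 197) (nat_lit 203))) (PT.nd (nat_lit 78) (PT.lf (nat_lit 34048) (nat_lit 6) (nat_lit 448) (nat_lit 3) (nat_lit 201) (nat_lit 197) (nat_lit 202)) (PT.nd (nat_lit 78) (PT.lf (nat_lit 34048) (nat_lit 6) (nat_lit 448) (nat_lit 1) (nat_lit 202) (nat_lit 197) (nat_lit 201)) (PT.lf (nat_lit 33972) (nat_lit 6) (nat_lit 447) (nat_lit 1) (nat_lit 203) (nat_lit 197) (nat_lit 200))))))) (PT.nd (nat_lit 780) (PT.nd (nat_lit 390) (PT.nd (nat_lit 156) (PT.nd (nat_lit 78) (PT.lf (nat_lit 33592) (nat_lit 6) (nat_lit 442) (nat_lit 1) (nat_lit 204) (nat_lit 197) (nat_lit 199)) (PT.lf (nat_lit 33136) (nat_lit 6) (nat_lit 436) (nat_lit 1) (nat_lit 205) (nat_lit 197) (nat_lit 198))) (PT.nd (nat_lit 78) (PT.lf (nat_lit 32604) (nat_lit 3) (nat_lit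 429) (nat_lit 0) (nat_lit 206) (nat_lit 197) (nat_lit 197)) (PT.nd (nat_lit 78) (PT.lf (nat_lit 32072) (nat_lit 6) (nat_lit 422) (nat_lit 0) (nat_lit 207) (nat_lit 197) (nat_lit 196)) (PT.lf (nat_lit 31464) (nat_lit 6) (nat_lit 414) (nat_lit 0) (nat_lit 208) (nat_lit 197) (nat_lit 195))))) (PT.nd (nat_lit 156) (PT.nd (nat_lit 78) (PT.lf (nat_lit 30780) (nat_lit 6) (nat_lit 405) (nat_lit 0) (nat_lit 209) (nat_lit 197) (nat_lit 194)) (PT.lf (nat_lit 30020) (nat_lit 6) (nat_lit 395) (nat_lit 0) (nat_lit 210) (nat_lit 197) (nat_lit 193))) (PT.nd (nat_lit 78) (PT.lf (nat_lit 29184) (nat_lit 6) (nat_lit 384) (nat_lit 0) (nat_lit 211) (nat_lit 197) (nat_lit 192)) (PT.nd (nat_lit 78) (PT.lf (nat_lit 28272) (nat_lit 6) (nat_lit 372) (nat_lit 0) (nat_lit 212) (nat_lit 197) (nat_lit 191)) (PT.lf (nat_lit 27284) (nat_lit 6) (nat_lit 359) (nat_lit 0) (nat_lit 213) (nat_lit 197) (nat_lit 190)))))) (PT.nd (nat_lit 60372) (PT.nd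 (nat_lit 156) (PT.nd (nat_lit 78) (PT.lf (nat_lit 26220) (nat_lit 6) (nat_lit 345) (nat_lit 0) (nat_lit 214) (nat_lit 197) (nat_lit 189)) (PT.lf (nat_lit 25080) (nat_lit 6) (nat_lit 330) (nat_lit 0) (nat_lit 215) (nat_lit 197) (nat_lit 188))) (PT.nd (nat_lit 60060) (PT.lf (nat_lit 23864) (nat_lit 6) (nat_lit 314) (nat_lit 0) (nat_lit 216) (nat_lit 197) (nat_lit 187)) (PT.nd (nat_lit 78) (PT.lf (nat_lit 22648) (nat_lit 6) (nat_lit 298) (nat_lit 5) (nat_lit 185) (nat_lit 198) (nat_lit 217)) (PT.lf (nat_lit 23940) (nat_lit 6) (nat_lit 315) (nat_lit 5) (nat_lit 186) (nat_lit 198) (nat_lit 216))))) (PT.nd (nat_lit 156) (PT.nd (nat_lit 78) (PT.lf (nat_lit 25156) (nat_lit 6) (nat_lit 331) (nat_lit 5) (nat_lit 187) (nat_lit 198) (nat_lit 215)) (PT.lf (nat_lit 26296) (nat_lit 6) (nat_lit 346) (nat_lit 5) (nat_lit 188) (nat_lit 198) (nat_lit 214))) (PT.nd (nat_lit 78) (PT.lf (nat_lit 27360) (nat_lit 6) (nat_lit 360) (nat_lit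 5) (nat_lit 189) (nat_lit 198) (nat_lit 213)) (PT.nd (nat_lit 78) (PT.lf (nat_lit 28348) (nat_lit 6) (nat_lit 373) (nat_lit 5) (nat_lit 190) (nat_lit 198) (nat_lit 212)) (PT.lf (nat_lit 29260) (nat_lit 6) (nat_lit 385) (nat_lit 5) (nat_lit 191) (nat_lit 198) (nat_lit 211))))))))
noncomputable def pc23 : PT := (PT.nd (nat_lit 1482) (PT.nd (nat_lit 702) (PT.nd (nat_lit 312) (PT.nd (nat_lit 156) (PT.nd (nat_lit 78) (PT.lf (nat_lit 30096) (nat_lit 6) (nat_lit 396) (nat_lit 5) (nat_lit 192) (nat_lit 198) (nat_lit 210)) (PT.lf (nat_lit 30856) (nat_lit 6) (nat_lit 406) (nat_lit 5) (nat_lit 193) (nat_lit 198) (nat_lit 209))) (PT.nd (nat_lit 78) (PT.lf (nat_lit 31540) (nat_lit 6) (nat_lit 415) (nat_lit 5) (nat_lit 194) (nat_lit 198) (nat_lit 208)) (PT.lf (nat_lit 32148) (nat_lit 6) (nat_lit 423) (nat_lit 5) (nat_lit 195) (nat_lit 198) (nat_lit 207)))) (PT.nd (nat_lit 156) (PT.nd (nat_lit 78) (PT.lf (nat_lit 32680) (nat_lit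 6) (nat_lit 430) (nat_lit 5) (nat_lit 196) (nat_lit 198) (nat_lit 206)) (PT.lf (nat_lit 33136) (nat_lit 6) (nat_lit 436) (nat_lit 5) (nat_lit 197) (nat_lit 198) (nat_lit 205))) (PT.nd (nat_lit 78) (PT.lf (nat_lit 33516) (nat_lit 3) (nat_lit 441) (nat_lit 3) (nat_lit 198) (nat_lit 198) (nat_lit 204)) (PT.nd (nat_lit 78) (PT.lf (nat_lit 33896) (nat_lit 6) (nat_lit 446) (nat_lit 3) (nat_lit 199) (nat_lit 198) (nat_lit 203)) (PT.lf (nat_lit 34200) (nat_lit 6) (nat_lit 450) (nat_lit 3) (nat_lit 200) (nat_lit 198) (nat_lit 202)))))) (PT.nd (nat_lit 390) (PT.nd (nat_lit 156) (PT.nd (nat_lit 78) (PT.lf (nat_lit 34276) (nat_lit 3) (nat_lit 451) (nat_lit 1) (nat_lit 201) (nat_lit 198) (nat_lit 201)) (PT.lf (nat_lit 34200) (nat_lit 6) (nat_lit 450) (nat_lit 1) (nat_lit 202) (nat_lit 198) (nat_lit 200))) (PT.nd (nat_lit 78) (PT.lf (nat_lit 33896) (nat_lit 6) (nat_lit 446) (nat_lit 1) (nat_lit 203) (nat_lit 198) (nat_lit 199))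 (PT.nd (nat_lit 78) (PT.lf (nat_lit 33516) (nat_lit 3) (nat_lit 441) (nat_lit 0) (nat_lit 204) (nat_lit 198) (nat_lit 198)) (PT.lf (nat_lit 33136) (nat_lit 6) (nat_lit 436) (nat_lit 0) (nat_lit 205) (nat_lit 198) (nat_lit 197))))) (PT.nd (nat_lit 156) (PT.nd (nat_lit 78) (PT.lf (nat_lit 32680) (nat_lit 6) (nat_lit 430) (nat_lit 0) (nat_lit 206) (nat_lit 198) (nat_lit 196)) (PT.lf (nat_lit 32148) (nat_lit 6) (nat_lit 423) (nat_lit 0) (nat_lit 207) (nat_lit 198) (nat_lit 195))) (PT.nd (nat_lit 78) (PT.lf (nat_lit 31540) (nat_lit 6) (nat_lit 415) (nat_lit 0) (nat_lit 208) (nat_lit 198) (nat_lit 194)) (PT.nd (nat_lit 78) (PT.lf (nat_lit 30856) (nat_lit 6) (nat_lit 406) (nat_lit 0) (nat_lit 209) (nat_lit 198) (nat_lit 193)) (PT.lf (nat_lit 30096) (nat_lit 6) (nat_lit 396) (nat_lit 0) (nat_lit 210) (nat_lit 198) (nat_lit 192))))))) (PT.nd (nat_lit 60606) (PT.nd (nat_lit 390) (PT.nd (nat_lit 156) (PT.nd (nat_lit 78) (PT.lf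 (nat_lit 29260) (nat_lit 6) (nat_lit 385) (nat_lit 0) (nat_lit 211) (nat_lit 198) (nat_lit 191)) (PT.lf (nat_lit 28348) (nat_lit 6) (nat_lit 373) (nat_lit 0) (nat_lit 212) (nat_lit 198) (nat_lit 190))) (PT.nd (nat_lit 78) (PT.lf (nat_lit 27360) (nat_lit 6) (nat_lit 360) (nat_lit 0) (nat_lit 213) (nat_lit 198) (nat_lit 189)) (PT.nd (nat_lit 78) (PT.lf (nat_lit 26296) (nat_lit 6) (nat_lit 346) (nat_lit 0) (nat_lit 214) (nat_lit 198) (nat_lit 188)) (PT.lf (nat_lit 25156) (nat_lit 6) (nat_lit 331) (nat_lit 0) (nat_lit 215) (nat_lit 198) (nat_lit 187))))) (PT.nd (nat_lit 59982) (PT.nd (nat_lit 78) (PT.lf (nat_lit 23940) (nat_lit 6) (nat_lit 315) (nat_lit 0) (nat_lit 216) (nat_lit 198) (nat_lit 186)) (PT.lf (nat_lit 22648) (nat_lit 6) (nat_lit 298) (nat_lit 0) (nat_lit 217) (nat_lit 198) (nat_lit 185))) (PT.nd (nat_lit 78) (PT.lf (nat_lit 22724) (nat_lit 6) (nat_lit 299) (nat_lit 5) (nat_lit 184) (nat_lit 199) (nat_lit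 217)) (PT.nd (nat_lit 78) (PT.lf (nat_lit 24016) (nat_lit 6) (nat_lit 316) (nat_lit 5) (nat_lit 185) (nat_lit 199) (nat_lit 216)) (PT.lf (nat_lit 25232) (nat_lit 6) (nat_lit 332) (nat_lit 5) (nat_lit 186) (nat_lit 199) (nat_lit 215)))))) (PT.nd (nat_lit 390) (PT.nd (nat_lit 156) (PT.nd (nat_lit 78) (PT.lf (nat_lit 26372) (nat_lit 6) (nat_lit 347) (nat_lit 5) (nat_lit 187) (nat_lit 199) (nat_lit 214)) (PT.lf (nat_lit 27436) (nat_lit 6) (nat_lit 361) (nat_lit 5) (nat_lit 188) (nat_lit 199) (nat_lit 213))) (PT.nd (nat_lit 78) (PT.lf (nat_lit 28424) (nat_lit 6) (nat_lit 374) (nat_lit 5) (nat_lit 189) (nat_lit 199) (nat_lit 212)) (PT.nd (nat_lit 78) (PT.lf (nat_lit 29336) (nat_lit 6) (nat_lit 386) (nat_lit 5) (nat_lit 190) (nat_lit 199) (nat_lit 211)) (PT.lf (nat_lit 30172) (nat_lit 6) (nat_lit 397) (nat_lit 5) (nat_lit 191) (nat_lit 199) (nat_lit 210))))) (PT.nd (nat_lit 156) (PT.nd (nat_lit 78) (PT.lf (nat_lit 30932)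 (nat_lit 6) (nat_lit 407) (nat_lit 5) (nat_lit 192) (nat_lit 199) (nat_lit 209)) (PT.lf (nat_lit 31616) (nat_lit 6) (nat_lit 416) (nat_lit 5) (nat_lit 193) (nat_lit 199) (nat_lit 208))) (PT.nd (nat_lit 78) (PT.lf (nat_lit 32224) (nat_lit 6) (nat_lit 424) (nat_lit 5) (nat_lit 194) (nat_lit 199) (nat_lit 207)) (PT.nd (nat_lit 78) (PT.lf (nat_lit 32756) (nat_lit 6) (nat_lit 431) (nat_lit 5) (nat_lit 195) (nat_lit 199) (nat_lit 206)) (PT.lf (nat_lit 33212) (nat_lit 6) (nat_lit 437) (nat_lit 5) (nat_lit 196) (nat_lit 199) (nat_lit 205))))))))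
noncomputable def pc24 : PT := (PT.nd (nat_lit 1482) (PT.nd (nat_lit 702) (PT.nd (nat_lit 312) (PT.nd (nat_lit 156) (PT.nd (nat_lit 78) (PT.lf (nat_lit 33592) (nat_lit 6) (nat_lit 442) (nat_lit 5) (nat_lit 197) (nat_lit 199) (nat_lit 204)) (PT.lf (nat_lit 33896) (nat_lit 6) (nat_lit 446) (nat_lit 5) (nat_lit 198) (nat_lit 199) (nat_lit 203))) (PT.nd (nat_lit 78) (PT.lf (nat_lit 34124) (nat_lit 3) (nat_lit 449) (nat_lit 3) (nat_lit 199) (nat_lit 199) (nat_lit 202)) (PT.lf (nat_lit 34352) (nat_lit 6) (nat_lit 452) (nat_lit 3) (nat_lit 200) (nat_lit 199) (nat_lit 201)))) (PT.nd (nat_lit 156) (PT.nd (nat_lit 78) (PT.lf (nat_lit 34352) (nat_lit 6) (nat_lit 452) (nat_lit 1) (nat_lit 201) (nat_lit 199) (nat_lit 200)) (PT.lf (nat_lit 34124) (nat_lit 3) (nat_lit 449) (nat_lit 0) (nat_lit 202) (nat_lit 199) (nat_lit 199))) (PT.nd (nat_lit 78) (PT.lf (nat_lit 33896) (nat_lit 6) (nat_lit 446) (nat_lit 0) (nat_lit 203) (nat_lit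 199) (nat_lit 198)) (PT.nd (nat_lit 78) (PT.lf (nat_lit 33592) (nat_lit 6) (nat_lit 442) (nat_lit 0) (nat_lit 204) (nat_lit 199) (nat_lit 197)) (PT.lf (nat_lit 33212) (nat_lit 6) (nat_lit 437) (nat_lit 0) (nat_lit 205) (nat_lit 199) (nat_lit 196)))))) (PT.nd (nat_lit 390) (PT.nd (nat_lit 156) (PT.nd (nat_lit 78) (PT.lf (nat_lit 32756) (nat_lit 6) (nat_lit 431) (nat_lit 0) (nat_lit 206) (nat_lit 199) (nat_lit 195)) (PT.lf (nat_lit 32224) (nat_lit 6) (nat_lit 424) (nat_lit 0) (nat_lit 207) (nat_lit 199) (nat_lit 194))) (PT.nd (nat_lit 78) (PT.lf (nat_lit 31616) (nat_lit 6) (nat_lit 416) (nat_lit 0) (nat_lit 208) (nat_lit 199) (nat_lit 193)) (PT.nd (nat_lit 78) (PT.lf (nat_lit 30932) (nat_lit 6) (nat_lit 407) (nat_lit 0) (nat_lit 209) (nat_lit 199) (nat_lit 192)) (PT.lf (nat_lit 30172) (nat_lit 6) (nat_lit 397) (nat_lit 0) (nat_lit 210) (nat_lit 199) (nat_lit 191))))) (PT.nd (nat_lit 156) (PT.nd (nat_lit 78) (PT.lf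 (nat_lit 29336) (nat_lit 6) (nat_lit 386) (nat_lit 0) (nat_lit 211) (nat_lit 199) (nat_lit 190)) (PT.lf (nat_lit 28424) (nat_lit 6) (nat_lit 374) (nat_lit 0) (nat_lit 212) (nat_lit 199) (nat_lit 189))) (PT.nd (nat_lit 78) (PT.lf (nat_lit 27436) (nat_lit 6) (nat_lit 361) (nat_lit 0) (nat_lit 213) (nat_lit 199) (nat_lit 188)) (PT.nd (nat_lit 78) (PT.lf (nat_lit 26372) (nat_lit 6) (nat_lit 347) (nat_lit 0) (nat_lit 214) (nat_lit 199) (nat_lit 187)) (PT.lf (nat_lit 25232) (nat_lit 6) (nat_lit 332) (nat_lit 0) (nat_lit 215) (nat_lit 199) (nat_lit 186))))))) (PT.nd (nat_lit 60528) (PT.nd (nat_lit 60138) (PT.nd (nat_lit 59904) (PT.nd (nat_lit 78) (PT.lf (nat_lit 24016) (nat_lit 6) (nat_lit 316) (nat_lit 0) (nat_lit 216) (nat_lit 199) (nat_lit 185)) (PT.lf (nat_lit 22724) (nat_lit 6) (nat_lit 299) (nat_lit 0) (nat_lit 217) (nat_lit 199) (nat_lit 184))) (PT.nd (nat_lit 78) (PT.lf (nat_lit 22800) (nat_lit 6) (nat_lit 300)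 (nat_lit 5) (nat_lit 183) (nat_lit 200) (nat_lit 217)) (PT.nd (nat_lit 78) (PT.lf (nat_lit 24092) (nat_lit 6) (nat_lit 317) (nat_lit 5) (nat_lit 184) (nat_lit 200) (nat_lit 216)) (PT.lf (nat_lit 25308) (nat_lit 6) (nat_lit 333) (nat_lit 5) (nat_lit 185) (nat_lit 200) (nat_lit 215))))) (PT.nd (nat_lit 156) (PT.nd (nat_lit 78) (PT.lf (nat_lit 26448) (nat_lit 6) (nat_lit 348) (nat_lit 5) (nat_lit 186) (nat_lit 200) (nat_lit 214)) (PT.lf (nat_lit 27512) (nat_lit 6) (nat_lit 362) (nat_lit 5) (nat_lit 187) (nat_lit 200) (nat_lit 213))) (PT.nd (nat_lit 78) (PT.lf (nat_lit 28500) (nat_lit 6) (nat_lit 375) (nat_lit 5) (nat_lit 188) (nat_lit 200) (nat_lit 212)) (PT.nd (nat_lit 78) (PT.lf (nat_lit 29412) (nat_lit 6) (nat_lit 387) (nat_lit 5) (nat_lit 189) (nat_lit 200) (nat_lit 211)) (PT.lf (nat_lit 30248) (nat_lit 6) (nat_lit 398) (nat_lit 5) (nat_lit 190) (nat_lit 200) (nat_lit 210)))))) (PT.nd (nat_lit 390) (PT.nd (nat_lit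 156) (PT.nd (nat_lit 78) (PT.lf (nat_lit 31008) (nat_lit 6) (nat_lit 408) (nat_lit 5) (nat_lit 191) (nat_lit 200) (nat_lit 209)) (PT.lf (nat_lit 31692) (nat_lit 6) (nat_lit 417) (nat_lit 5) (nat_lit 192) (nat_lit 200) (nat_lit 208))) (PT.nd (nat_lit 78) (PT.lf (nat_lit 32300) (nat_lit 6) (nat_lit 425) (nat_lit 5) (nat_lit 193) (nat_lit 200) (nat_lit 207)) (PT.nd (nat_lit 78) (PT.lf (nat_lit 32832) (nat_lit 6) (nat_lit 432) (nat_lit 5) (nat_lit 194) (nat_lit 200) (nat_lit 206)) (PT.lf (nat_lit 33288) (nat_lit 6) (nat_lit 438) (nat_lit 5) (nat_lit 195) (nat_lit 200) (nat_lit 205))))) (PT.nd (nat_lit 156) (PT.nd (nat_lit 78) (PT.lf (nat_lit 33668) (nat_lit 6) (nat_lit 443) (nat_lit 5) (nat_lit 196) (nat_lit 200) (nat_lit 204)) (PT.lf (nat_lit 33972) (nat_lit 6) (nat_lit 447) (nat_lit 5) (nat_lit 197) (nat_lit 200) (nat_lit 203))) (PT.nd (nat_lit 78) (PT.lf (nat_lit 34200) (nat_lit 6) (nat_lit 450) (nat_lit 5) (nat_lit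 198) (nat_lit 200) (nat_lit 202)) (PT.nd (nat_lit 78) (PT.lf (nat_lit 34352) (nat_lit 6) (nat_lit 452) (nat_lit 5) (nat_lit 199) (nat_lit 200) (nat_lit 201)) (PT.lf (nat_lit 34428) (nat_lit 1) (nat_lit 453) (nat_lit 0) (nat_lit 200) (nat_lit 200) (nat_lit 200))))))))
noncomputable def pc25 : PT := (PT.nd (nat_lit 61152) (PT.nd (nat_lit 702) (PT.nd (nat_lit 312) (PT.nd (nat_lit 156) (PT.nd (nat_lit 78) (PT.lf (nat_lit 34352) (nat_lit 6) (nat_lit 452) (nat_lit 0) (nat_lit 201) (nat_lit 200) (nat_lit 199)) (PT.lf (nat_lit 34200) (nat_lit 6) (nat_lit 450) (nat_lit 0) (nat_lit 202) (nat_lit 200) (nat_lit 198))) (PT.nd (nat_lit 78) (PT.lf (nat_lit 33972) (nat_lit 6) (nat_lit 447) (nat_lit 0) (nat_lit 203) (nat_lit 200) (nat_lit 197)) (PT.lf (nat_lit 33668) (nat_lit 6) (nat_lit 443) (nat_lit 0) (nat_lit 204) (nat_lit 200) (nat_lit 196)))) (PT.nd (nat_lit 156) (PT.nd (nat_lit 78) (PT.lf (nat_lit 33288) (nat_lit 6) (nat_lit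 438) (nat_lit 0) (nat_lit 205) (nat_lit 200) (nat_lit 195)) (PT.lf (nat_lit 32832) (nat_lit 6) (nat_lit 432) (nat_lit 0) (nat_lit 206) (nat_lit 200) (nat_lit 194))) (PT.nd (nat_lit 78) (PT.lf (nat_lit 32300) (nat_lit 6) (nat_lit 425) (nat_lit 0) (nat_lit 207) (nat_lit 200) (nat_lit 193)) (PT.nd (nat_lit 78) (PT.lf (nat_lit 31692) (nat_lit 6) (nat_lit 417) (nat_lit 0) (nat_lit 208) (nat_lit 200) (nat_lit 192)) (PT.lf (nat_lit 31008) (nat_lit 6) (nat_lit 408) (nat_lit 0) (nat_lit 209) (nat_lit 200) (nat_lit 191)))))) (PT.nd (nat_lit 390) (PT.nd (nat_lit 156) (PT.nd (nat_lit 78) (PT.lf (nat_lit 30248) (nat_lit 6) (nat_lit 398) (nat_lit 0) (nat_lit 210) (nat_lit 200) (nat_lit 190)) (PT.lf (nat_lit 29412) (nat_lit 6) (nat_lit 387) (nat_lit 0) (nat_lit 211) (nat_lit 200) (nat_lit 189))) (PT.nd (nat_lit 78) (PT.lf (nat_lit 28500) (nat_lit 6) (nat_lit 375) (nat_lit 0) (nat_lit 212) (nat_lit 200) (nat_lit 188)) (PT.nd (nat_lit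 78) (PT.lf (nat_lit 27512) (nat_lit 6) (nat_lit 362) (nat_lit 0) (nat_lit 213) (nat_lit 200) (nat_lit 187)) (PT.lf (nat_lit 26448) (nat_lit 6) (nat_lit 348) (nat_lit 0) (nat_lit 214) (nat_lit 200) (nat_lit 186))))) (PT.nd (nat_lit 156) (PT.nd (nat_lit 78) (PT.lf (nat_lit 25308) (nat_lit 6) (nat_lit 333) (nat_lit 0) (nat_lit 215) (nat_lit 200) (nat_lit 185)) (PT.lf (nat_lit 24092) (nat_lit 6) (nat_lit 317) (nat_lit 0) (nat_lit 216) (nat_lit 200) (nat_lit 184))) (PT.nd (nat_lit 59748) (PT.lf (nat_lit 22800) (nat_lit 6) (nat_lit 300) (nat_lit 0) (nat_lit 217) (nat_lit 200) (nat_lit 183)) (PT.nd (nat_lit 78) (PT.lf (nat_lit 21964) (nat_lit 6) (nat_lit 289) (nat_lit 5) (nat_lit 182) (nat_lit 201) (nat_lit 217)) (PT.lf (nat_lit 22876) (nat_lit 6) (nat_lit 301) (nat_lit 5) (nat_lit 183) (nat_lit 201) (nat_lit 216))))))) (PT.nd (nat_lit 780) (PT.nd (nat_lit 390) (PT.nd (nat_lit 156) (PT.nd (nat_lit 78) (PT.lf (nat_lit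 24168) (nat_lit 6) (nat_lit 318) (nat_lit 5) (nat_lit 184) (nat_lit 201) (nat_lit 215)) (PT.lf (nat_lit 25384) (nat_lit 6) (nat_lit 334) (nat_lit 5) (nat_lit 185) (nat_lit 201) (nat_lit 214))) (PT.nd (nat_lit 78) (PT.lf (nat_lit 26524) (nat_lit 6) (nat_lit 349) (nat_lit 5) (nat_lit 186) (nat_lit 201) (nat_lit 213)) (PT.nd (nat_lit 78) (PT.lf (nat_lit 27588) (nat_lit 6) (nat_lit 363) (nat_lit 5) (nat_lit 187) (nat_lit 201) (nat_lit 212)) (PT.lf (nat_lit 28576) (nat_lit 6) (nat_lit 376) (nat_lit 5) (nat_lit 188) (nat_lit 201) (nat_lit 211))))) (PT.nd (nat_lit 156) (PT.nd (nat_lit 78) (PT.lf (nat_lit 29488) (nat_lit 6) (nat_lit 388) (nat_lit 5) (nat_lit 189) (nat_lit 201) (nat_lit 210)) (PT.lf (nat_lit 30324) (nat_lit 6) (nat_lit 399) (nat_lit 5) (nat_lit 190) (nat_lit 201) (nat_lit 209))) (PT.nd (nat_lit 78) (PT.lf (nat_lit 31084) (nat_lit 6) (nat_lit 409) (nat_lit 5) (nat_lit 191) (nat_lit 201) (nat_lit 208)) (PT.nd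 (nat_lit 78) (PT.lf (nat_lit 31768) (nat_lit 6) (nat_lit 418) (nat_lit 5) (nat_lit 192) (nat_lit 201) (nat_lit 207)) (PT.lf (nat_lit 32376) (nat_lit 6) (nat_lit 426) (nat_lit 5) (nat_lit 193) (nat_lit 201) (nat_lit 206)))))) (PT.nd (nat_lit 390) (PT.nd (nat_lit 156) (PT.nd (nat_lit 78) (PT.lf (nat_lit 32908) (nat_lit 6) (nat_lit 433) (nat_lit 5) (nat_lit 194) (nat_lit 201) (nat_lit 205)) (PT.lf (nat_lit 33364) (nat_lit 6) (nat_lit 439) (nat_lit 5) (nat_lit 195) (nat_lit 201) (nat_lit 204))) (PT.nd (nat_lit 78) (PT.lf (nat_lit 33744) (nat_lit 6) (nat_lit 444) (nat_lit 5) (nat_lit 196) (nat_lit 201) (nat_lit 203)) (PT.nd (nat_lit 78) (PT.lf (nat_lit 34048) (nat_lit 6) (nat_lit 448) (nat_lit 5) (nat_lit 197) (nat_lit 201) (nat_lit 202)) (PT.lf (nat_lit 34276) (nat_lit 3) (nat_lit 451) (nat_lit 4) (nat_lit 198) (nat_lit 201) (nat_lit 201))))) (PT.nd (nat_lit 156) (PT.nd (nat_lit 78) (PT.lf (nat_lit 34352) (nat_lit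 6) (nat_lit 452) (nat_lit 4) (nat_lit 199) (nat_lit 201) (nat_lit 200)) (PT.lf (nat_lit 34352) (nat_lit 6) (nat_lit 452) (nat_lit 2) (nat_lit 200) (nat_lit 201) (nat_lit 199))) (PT.nd (nat_lit 78) (PT.lf (nat_lit 34276) (nat_lit 3) (nat_lit 451) (nat_lit 0) (nat_lit 201) (nat_lit 201) (nat_lit 198)) (PT.nd (nat_lit 78) (PT.lf (nat_lit 34048) (nat_lit 6) (nat_lit 448) (nat_lit 0) (nat_lit 202) (nat_lit 201) (nat_lit 197)) (PT.lf (nat_lit 33744) (nat_lit 6) (nat_lit 444) (nat_lit 0) (nat_lit 203) (nat_lit 201) (nat_lit 196))))))))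
noncomputable def pc26 : PT := (PT.nd (nat_lit 61074) (PT.nd (nat_lit 702) (PT.nd (nat_lit 312) (PT.nd (nat_lit 156) (PT.nd (nat_lit 78) (PT.lf (nat_lit 33364) (nat_lit 6) (nat_lit 439) (nat_lit 0) (nat_lit 204) (nat_lit 201) (nat_lit 195)) (PT.lf (nat_lit 32908) (nat_lit 6) (nat_lit 433) (nat_lit 0) (nat_lit 205) (nat_lit 201) (nat_lit 194))) (PT.nd (nat_lit 78) (PT.lf (nat_lit 32376) (nat_lit 6) (nat_lit 426) (nat_lit 0) (nat_lit 206) (nat_lit 201) (nat_lit 193)) (PT.lf (nat_lit 31768) (nat_lit 6) (nat_lit 418) (nat_lit 0) (nat_lit 207) (nat_lit 201) (nat_lit 192)))) (PT.nd (nat_lit 156) (PT.nd (nat_lit 78) (PT.lf (nat_lit 31084) (nat_lit 6) (nat_lit 409) (nat_lit 0) (nat_lit 208) (nat_lit 201) (nat_lit 191)) (PT.lf (nat_lit 30324) (nat_lit 6) (nat_lit 399) (nat_lit 0) (nat_lit 209) (nat_lit 201) (nat_lit 190))) (PT.nd (nat_lit 78) (PT.lf (nat_lit 29488) (nat_lit 6) (nat_lit 388) (nat_lit 0) (nat_lit 210) (nat_lit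 201) (nat_lit 189)) (PT.nd (nat_lit 78) (PT.lf (nat_lit 28576) (nat_lit 6) (nat_lit 376) (nat_lit 0) (nat_lit 211) (nat_lit 201) (nat_lit 188)) (PT.lf (nat_lit 27588) (nat_lit 6) (nat_lit 363) (nat_lit 0) (nat_lit 212) (nat_lit 201) (nat_lit 187)))))) (PT.nd (nat_lit 59982) (PT.nd (nat_lit 156) (PT.nd (nat_lit 78) (PT.lf (nat_lit 26524) (nat_lit 6) (nat_lit 349) (nat_lit 0) (nat_lit 213) (nat_lit 201) (nat_lit 186)) (PT.lf (nat_lit 25384) (nat_lit 6) (nat_lit 334) (nat_lit 0) (nat_lit 214) (nat_lit 201) (nat_lit 185))) (PT.nd (nat_lit 78) (PT.lf (nat_lit 24168) (nat_lit 6) (nat_lit 318) (nat_lit 0) (nat_lit 215) (nat_lit 201) (nat_lit 184)) (PT.nd (nat_lit 78) (PT.lf (nat_lit 22876) (nat_lit 6) (nat_lit 301) (nat_lit 0) (nat_lit 216) (nat_lit 201) (nat_lit 183)) (PT.lf (nat_lit 21964) (nat_lit 6) (nat_lit 289) (nat_lit 0) (nat_lit 217) (nat_lit 201) (nat_lit 182))))) (PT.nd (nat_lit 156) (PT.nd (nat_lit 78) (PT.lf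 (nat_lit 21356) (nat_lit 6) (nat_lit 281) (nat_lit 5) (nat_lit 181) (nat_lit 202) (nat_lit 217)) (PT.lf (nat_lit 22040) (nat_lit 6) (nat_lit 290) (nat_lit 5) (nat_lit 182) (nat_lit 202) (nat_lit 216))) (PT.nd (nat_lit 78) (PT.lf (nat_lit 22952) (nat_lit 6) (nat_lit 302) (nat_lit 5) (nat_lit 183) (nat_lit 202) (nat_lit 215)) (PT.nd (nat_lit 78) (PT.lf (nat_lit 24244) (nat_lit 6) (nat_lit 319) (nat_lit 5) (nat_lit 184) (nat_lit 202) (nat_lit 214)) (PT.lf (nat_lit 25460) (nat_lit 6) (nat_lit 335) (nat_lit 5) (nat_lit 185) (nat_lit 202) (nat_lit 213))))))) (PT.nd (nat_lit 780) (PT.nd (nat_lit 390) (PT.nd (nat_lit 156) (PT.nd (nat_lit 78) (PT.lf (nat_lit 26600) (nat_lit 6) (nat_lit 350) (nat_lit 5) (nat_lit 186) (nat_lit 202) (nat_lit 212)) (PT.lf (nat_lit 27664) (nat_lit 6) (nat_lit 364) (nat_lit 5) (nat_lit 187) (nat_lit 202) (nat_lit 211))) (PT.nd (nat_lit 78) (PT.lf (nat_lit 28652) (nat_lit 6) (nat_lit 377) (nat_lit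 5) (nat_lit 188) (nat_lit 202) (nat_lit 210)) (PT.nd (nat_lit 78) (PT.lf (nat_lit 29564) (nat_lit 6) (nat_lit 389) (nat_lit 5) (nat_lit 189) (nat_lit 202) (nat_lit 209)) (PT.lf (nat_lit 30400) (nat_lit 6) (nat_lit 400) (nat_lit 5) (nat_lit 190) (nat_lit 202) (nat_lit 208))))) (PT.nd (nat_lit 156) (PT.nd (nat_lit 78) (PT.lf (nat_lit 31160) (nat_lit 6) (nat_lit 410) (nat_lit 5) (nat_lit 191) (nat_lit 202) (nat_lit 207)) (PT.lf (nat_lit 31844) (nat_lit 6) (nat_lit 419) (nat_lit 5) (nat_lit 192) (nat_lit 202) (nat_lit 206))) (PT.nd (nat_lit 78) (PT.lf (nat_lit 32452) (nat_lit 6) (nat_lit 427) (nat_lit 5) (nat_lit 193) (nat_lit 202) (nat_lit 205)) (PT.nd (nat_lit 78) (PT.lf (nat_lit 32984) (nat_lit 6) (nat_lit 434) (nat_lit 5) (nat_lit 194) (nat_lit 202) (nat_lit 204)) (PT.lf (nat_lit 33440) (nat_lit 6) (nat_lit 440) (nat_lit 5) (nat_lit 195) (nat_lit 202) (nat_lit 203)))))) (PT.nd (nat_lit 390) (PT.nd (nat_lit 156)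 (PT.nd (nat_lit 78) (PT.lf (nat_lit 33820) (nat_lit 3) (nat_lit 445) (nat_lit 4) (nat_lit 196) (nat_lit 202) (nat_lit 202)) (PT.lf (nat_lit 34048) (nat_lit 6) (nat_lit 448) (nat_lit 4) (nat_lit 197) (nat_lit 202) (nat_lit 201))) (PT.nd (nat_lit 78) (PT.lf (nat_lit 34200) (nat_lit 6) (nat_lit 450) (nat_lit 4) (nat_lit 198) (nat_lit 202) (nat_lit 200)) (PT.nd (nat_lit 78) (PT.lf (nat_lit 34124) (nat_lit 3) (nat_lit 449) (nat_lit 2) (nat_lit 199) (nat_lit 202) (nat_lit 199)) (PT.lf (nat_lit 34200) (nat_lit 6) (nat_lit 450) (nat_lit 2) (nat_lit 200) (nat_lit 202) (nat_lit 198))))) (PT.nd (nat_lit 156) (PT.nd (nat_lit 78) (PT.lf (nat_lit 34048) (nat_lit 6) (nat_lit 448) (nat_lit 2) (nat_lit 201) (nat_lit 202) (nat_lit 197)) (PT.lf (nat_lit 33820) (nat_lit 3) (nat_lit 445) (nat_lit 0) (nat_lit 202) (nat_lit 202) (nat_lit 196))) (PT.nd (nat_lit 78) (PT.lf (nat_lit 33440) (nat_lit 6) (nat_lit 440) (nat_lit 0) (nat_lit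 203) (nat_lit 202) (nat_lit 195)) (PT.nd (nat_lit 78) (PT.lf (nat_lit 32984) (nat_lit 6) (nat_lit 434) (nat_lit 0) (nat_lit 204) (nat_lit 202) (nat_lit 194)) (PT.lf (nat_lit 32452) (nat_lit 6) (nat_lit 427) (nat_lit 0) (nat_lit 205) (nat_lit 202) (nat_lit 193))))))))
noncomputable def pc27 : PT := (PT.nd (nat_lit 60918) (PT.nd (nat_lit 702) (PT.nd (nat_lit 312) (PT.nd (nat_lit 156) (PT.nd (nat_lit 78) (PT.lf (nat_lit 31844) (nat_lit 6) (nat_lit 419) (nat_lit 0) (nat_lit 206) (nat_lit 202) (nat_lit 192)) (PT.lf (nat_lit 31160) (nat_lit 6) (nat_lit 410) (nat_lit 0) (nat_lit 207) (nat_lit 202) (nat_lit 191))) (PT.nd (nat_lit 78) (PT.lf (nat_lit 30400) (nat_lit 6) (nat_lit 400) (nat_lit 0) (nat_lit 208) (nat_lit 202) (nat_lit 190)) (PT.lf (nat_lit 29564) (nat_lit 6) (nat_lit 389) (nat_lit 0) (nat_lit 209) (nat_lit 202) (nat_lit 189)))) (PT.nd (nat_lit 156) (PT.nd (nat_lit 78) (PT.lf (nat_lit 28652) (nat_lit 6) (nat_lit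 377) (nat_lit 0) (nat_lit 210) (nat_lit 202) (nat_lit 188)) (PT.lf (nat_lit 27664) (nat_lit 6) (nat_lit 364) (nat_lit 0) (nat_lit 211) (nat_lit 202) (nat_lit 187))) (PT.nd (nat_lit 78) (PT.lf (nat_lit 26600) (nat_lit 6) (nat_lit 350) (nat_lit 0) (nat_lit 212) (nat_lit 202) (nat_lit 186)) (PT.nd (nat_lit 78) (PT.lf (nat_lit 25460) (nat_lit 6) (nat_lit 335) (nat_lit 0) (nat_lit 213) (nat_lit 202) (nat_lit 185)) (PT.lf (nat_lit 24244) (nat_lit 6) (nat_lit 319) (nat_lit 0) (nat_lit 214) (nat_lit 202) (nat_lit 184)))))) (PT.nd (nat_lit 59826) (PT.nd (nat_lit 156) (PT.nd (nat_lit 78) (PT.lf (nat_lit 22952) (nat_lit 6) (nat_lit 302) (nat_lit 0) (nat_lit 215) (nat_lit 202) (nat_lit 183)) (PT.lf (nat_lit 22040) (nat_lit 6) (nat_lit 290) (nat_lit 0) (nat_lit 216) (nat_lit 202) (nat_lit 182))) (PT.nd (nat_lit 59514) (PT.lf (nat_lit 21356) (nat_lit 6) (nat_lit 281) (nat_lit 0) (nat_lit 217) (nat_lit 202) (nat_lit 181)) (PT.nd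 (nat_lit 78) (PT.lf (nat_lit 20140) (nat_lit 6) (nat_lit 265) (nat_lit 5) (nat_lit 179) (nat_lit 203) (nat_lit 218)) (PT.lf (nat_lit 20748) (nat_lit 6) (nat_lit 273) (nat_lit 5) (nat_lit 180) (nat_lit 203) (nat_lit 217))))) (PT.nd (nat_lit 156) (PT.nd (nat_lit 78) (PT.lf (nat_lit 21432) (nat_lit 6) (nat_lit 282) (nat_lit 5) (nat_lit 181) (nat_lit 203) (nat_lit 216)) (PT.lf (nat_lit 22116) (nat_lit 6) (nat_lit 291) (nat_lit 5) (nat_lit 182) (nat_lit 203) (nat_lit 215))) (PT.nd (nat_lit 78) (PT.lf (nat_lit 23028) (nat_lit 6) (nat_lit 303) (nat_lit 5) (nat_lit 183) (nat_lit 203) (nat_lit 214)) (PT.nd (nat_lit 78) (PT.lf (nat_lit 24320) (nat_lit 6) (nat_lit 320) (nat_lit 5) (nat_lit 184) (nat_lit 203) (nat_lit 213)) (PT.lf (nat_lit 25536) (nat_lit 6) (nat_lit 336) (nat_lit 5) (nat_lit 185) (nat_lit 203) (nat_lit 212))))))) (PT.nd (nat_lit 780) (PT.nd (nat_lit 390) (PT.nd (nat_lit 156) (PT.nd (nat_lit 78) (PT.lf (nat_lit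 26676) (nat_lit 6) (nat_lit 351) (nat_lit 5) (nat_lit 186) (nat_lit 203) (nat_lit 211)) (PT.lf (nat_lit 27740) (nat_lit 6) (nat_lit 365) (nat_lit 5) (nat_lit 187) (nat_lit 203) (nat_lit 210))) (PT.nd (nat_lit 78) (PT.lf (nat_lit 28728) (nat_lit 6) (nat_lit 378) (nat_lit 5) (nat_lit 188) (nat_lit 203) (nat_lit 209)) (PT.nd (nat_lit 78) (PT.lf (nat_lit 29640) (nat_lit 6) (nat_lit 390) (nat_lit 5) (nat_lit 189) (nat_lit 203) (nat_lit 208)) (PT.lf (nat_lit 30476) (nat_lit 6) (nat_lit 401) (nat_lit 5) (nat_lit 190) (nat_lit 203) (nat_lit 207))))) (PT.nd (nat_lit 156) (PT.nd (nat_lit 78) (PT.lf (nat_lit 31236) (nat_lit 6) (nat_lit 411) (nat_lit 5) (nat_lit 191) (nat_lit 203) (nat_lit 206)) (PT.lf (nat_lit 31920) (nat_lit 6) (nat_lit 420) (nat_lit 5) (nat_lit 192) (nat_lit 203) (nat_lit 205))) (PT.nd (nat_lit 78) (PT.lf (nat_lit 32528) (nat_lit 6) (nat_lit 428) (nat_lit 5) (nat_lit 193) (nat_lit 203) (nat_lit 204)) (PT.nd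 (nat_lit 78) (PT.lf (nat_lit 33060) (nat_lit 3) (nat_lit 435) (nat_lit 4) (nat_lit 194) (nat_lit 203) (nat_lit 203)) (PT.lf (nat_lit 33440) (nat_lit 6) (nat_lit 440) (nat_lit 4) (nat_lit 195) (nat_lit 203) (nat_lit 202)))))) (PT.nd (nat_lit 390) (PT.nd (nat_lit 156) (PT.nd (nat_lit 78) (PT.lf (nat_lit 33744) (nat_lit 6) (nat_lit 444) (nat_lit 4) (nat_lit 196) (nat_lit 203) (nat_lit 201)) (PT.lf (nat_lit 33972) (nat_lit 6) (nat_lit 447) (nat_lit 4) (nat_lit 197) (nat_lit 203) (nat_lit 200))) (PT.nd (nat_lit 78) (PT.lf (nat_lit 33896) (nat_lit 6) (nat_lit 446) (nat_lit 4) (nat_lit 198) (nat_lit 203) (nat_lit 199)) (PT.nd (nat_lit 78) (PT.lf (nat_lit 33896) (nat_lit 6) (nat_lit 446) (nat_lit 2) (nat_lit 199) (nat_lit 203) (nat_lit 198)) (PT.lf (nat_lit 33972) (nat_lit 6) (nat_lit 447) (nat_lit 2) (nat_lit 200) (nat_lit 203) (nat_lit 197))))) (PT.nd (nat_lit 156) (PT.nd (nat_lit 78) (PT.lf (nat_lit 33744) (nat_lit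 6) (nat_lit 444) (nat_lit 2) (nat_lit 201) (nat_lit 203) (nat_lit 196)) (PT.lf (nat_lit 33440) (nat_lit 6) (nat_lit 440) (nat_lit 2) (nat_lit 202) (nat_lit 203) (nat_lit 195))) (PT.nd (nat_lit 78) (PT.lf (nat_lit 33060) (nat_lit 3) (nat_lit 435) (nat_lit 0) (nat_lit 203) (nat_lit 203) (nat_lit 194)) (PT.nd (nat_lit 78) (PT.lf (nat_lit 32528) (nat_lit 6) (nat_lit 428) (nat_lit 0) (nat_lit 204) (nat_lit 203) (nat_lit 193)) (PT.lf (nat_lit 31920) (nat_lit 6) (nat_lit 420) (nat_lit 0) (nat_lit 205) (nat_lit 203) (nat_lit 192))))))))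
noncomputable def pc28 : PT := (PT.nd (nat_lit 60762) (PT.nd (nat_lit 702) (PT.nd (nat_lit 312) (PT.nd (nat_lit 156) (PT.nd (nat_lit 78) (PT.lf (nat_lit 31236) (nat_lit 6) (nat_lit 411) (nat_lit 0) (nat_lit 206) (nat_lit 203) (nat_lit 191)) (PT.lf (nat_lit 30476) (nat_lit 6) (nat_lit 401) (nat_lit 0) (nat_lit 207) (nat_lit 203) (nat_lit 190))) (PT.nd (nat_lit 78) (PT.lf (nat_lit 29640) (nat_lit 6) (nat_lit 390) (nat_lit 0) (nat_lit 208) (nat_lit 203) (nat_lit 189)) (PT.lf (nat_lit 28728) (nat_lit 6) (nat_lit 378) (nat_lit 0) (nat_lit 209) (nat_lit 203) (nat_lit 188)))) (PT.nd (nat_lit 156) (PT.nd (nat_lit 78) (PT.lf (nat_lit 27740) (nat_lit 6) (nat_lit 365) (nat_lit 0) (nat_lit 210) (nat_lit 203) (nat_lit 187)) (PT.lf (nat_lit 26676) (nat_lit 6) (nat_lit 351) (nat_lit 0) (nat_lit 211) (nat_lit 203) (nat_lit 186))) (PT.nd (nat_lit 78) (PT.lf (nat_lit 25536) (nat_lit 6) (nat_lit 336) (nat_lit 0) (nat_lit 212) (nat_lit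 203) (nat_lit 185)) (PT.nd (nat_lit 78) (PT.lf (nat_lit 24320) (nat_lit 6) (nat_lit 320) (nat_lit 0) (nat_lit 213) (nat_lit 203) (nat_lit 184)) (PT.lf (nat_lit 23028) (nat_lit 6) (nat_lit 303) (nat_lit 0) (nat_lit 214) (nat_lit 203) (nat_lit 183)))))) (PT.nd (nat_lit 59670) (PT.nd (nat_lit 156) (PT.nd (nat_lit 78) (PT.lf (nat_lit 22116) (nat_lit 6) (nat_lit 291) (nat_lit 0) (nat_lit 215) (nat_lit 203) (nat_lit 182)) (PT.lf (nat_lit 21432) (nat_lit 6) (nat_lit 282) (nat_lit 0) (nat_lit 216) (nat_lit 203) (nat_lit 181))) (PT.nd (nat_lit 78) (PT.lf (nat_lit 20748) (nat_lit 6) (nat_lit 273) (nat_lit 0) (nat_lit 217) (nat_lit 203) (nat_lit 180)) (PT.nd (nat_lit 59358) (PT.lf (nat_lit 20140) (nat_lit 6) (nat_lit 265) (nat_lit 0) (nat_lit 218) (nat_lit 203) (nat_lit 179)) (PT.lf (nat_lit 19532) (nat_lit 6) (nat_lit 257) (nat_lit 5) (nat_lit 178) (nat_lit 204) (nat_lit 218))))) (PT.nd (nat_lit 156) (PT.nd (nat_lit 78)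 (PT.lf (nat_lit 20216) (nat_lit 6) (nat_lit 266) (nat_lit 5) (nat_lit 179) (nat_lit 204) (nat_lit 217)) (PT.lf (nat_lit 20824) (nat_lit 6) (nat_lit 274) (nat_lit 5) (nat_lit 180) (nat_lit 204) (nat_lit 216))) (PT.nd (nat_lit 78) (PT.lf (nat_lit 21508) (nat_lit 6) (nat_lit 283) (nat_lit 5) (nat_lit 181) (nat_lit 204) (nat_lit 215)) (PT.nd (nat_lit 78) (PT.lf (nat_lit 22192) (nat_lit 6) (nat_lit 292) (nat_lit 5) (nat_lit 182) (nat_lit 204) (nat_lit 214)) (PT.lf (nat_lit 23104) (nat_lit 6) (nat_lit 304) (nat_lit 5) (nat_lit 183) (nat_lit 204) (nat_lit 213))))))) (PT.nd (nat_lit 780) (PT.nd (nat_lit 390) (PT.nd (nat_lit 156) (PT.nd (nat_lit 78) (PT.lf (nat_lit 24396) (nat_lit 6) (nat_lit 321) (nat_lit 5) (nat_lit 184) (nat_lit 204) (nat_lit 212)) (PT.lf (nat_lit 25612) (nat_lit 6) (nat_lit 337) (nat_lit 5) (nat_lit 185) (nat_lit 204) (nat_lit 211))) (PT.nd (nat_lit 78) (PT.lf (nat_lit 26752) (nat_lit 6) (nat_lit 352)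 (nat_lit 5) (nat_lit 186) (nat_lit 204) (nat_lit 210)) (PT.nd (nat_lit 78) (PT.lf (nat_lit 27816) (nat_lit 6) (nat_lit 366) (nat_lit 5) (nat_lit 187) (nat_lit 204) (nat_lit 209)) (PT.lf (nat_lit 28804) (nat_lit 6) (nat_lit 379) (nat_lit 5) (nat_lit 188) (nat_lit 204) (nat_lit 208))))) (PT.nd (nat_lit 156) (PT.nd (nat_lit 78) (PT.lf (nat_lit 29716) (nat_lit 6) (nat_lit 391) (nat_lit 5) (nat_lit 189) (nat_lit 204) (nat_lit 207)) (PT.lf (nat_lit 30552) (nat_lit 6) (nat_lit 402) (nat_lit 5) (nat_lit 190) (nat_lit 204) (nat_lit 206))) (PT.nd (nat_lit 78) (PT.lf (nat_lit 31312) (nat_lit 6) (nat_lit 412) (nat_lit 5) (nat_lit 191) (nat_lit 204) (nat_lit 205)) (PT.nd (nat_lit 78) (PT.lf (nat_lit 31996) (nat_lit 3) (nat_lit 421) (nat_lit 4) (nat_lit 192) (nat_lit 204) (nat_lit 204)) (PT.lf (nat_lit 32528) (nat_lit 6) (nat_lit 428) (nat_lit 4) (nat_lit 193) (nat_lit 204) (nat_lit 203)))))) (PT.nd (nat_lit 390) (PT.nd (nat_lit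 156) (PT.nd (nat_lit 78) (PT.lf (nat_lit 32984) (nat_lit 6) (nat_lit 434) (nat_lit 4) (nat_lit 194) (nat_lit 204) (nat_lit 202)) (PT.lf (nat_lit 33364) (nat_lit 6) (nat_lit 439) (nat_lit 4) (nat_lit 195) (nat_lit 204) (nat_lit 201))) (PT.nd (nat_lit 78) (PT.lf (nat_lit 33668) (nat_lit 6) (nat_lit 443) (nat_lit 4) (nat_lit 196) (nat_lit 204) (nat_lit 200)) (PT.nd (nat_lit 78) (PT.lf (nat_lit 33592) (nat_lit 6) (nat_lit 442) (nat_lit 4) (nat_lit 197) (nat_lit 204) (nat_lit 199)) (PT.lf (nat_lit 33516) (nat_lit 3) (nat_lit 441) (nat_lit 2) (nat_lit 198) (nat_lit 204) (nat_lit 198))))) (PT.nd (nat_lit 156) (PT.nd (nat_lit 78) (PT.lf (nat_lit 33592) (nat_lit 6) (nat_lit 442) (nat_lit 2) (nat_lit 199) (nat_lit 204) (nat_lit 197)) (PT.lf (nat_lit 33668) (nat_lit 6) (nat_lit 443) (nat_lit 2) (nat_lit 200) (nat_lit 204) (nat_lit 196))) (PT.nd (nat_lit 78) (PT.lf (nat_lit 33364) (nat_lit 6) (nat_lit 439) (nat_lit 2) (nat_lit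 201) (nat_lit 204) (nat_lit 195)) (PT.nd (nat_lit 78) (PT.lf (nat_lit 32984) (nat_lit 6) (nat_lit 434) (nat_lit 2) (nat_lit 202) (nat_lit 204) (nat_lit 194)) (PT.lf (nat_lit 32528) (nat_lit 6) (nat_lit 428) (nat_lit 2) (nat_lit 203) (nat_lit 204) (nat_lit 193))))))))
noncomputable def pc29 : PT := (PT.nd (nat_lit 60684) (PT.nd (nat_lit 702) (PT.nd (nat_lit 312) (PT.nd (nat_lit 156) (PT.nd (nat_lit 78) (PT.lf (nat_lit 31996) (nat_lit 3) (nat_lit 421) (nat_lit 0) (nat_lit 204) (nat_lit 204) (nat_lit 192)) (PT.lf (nat_lit 31312) (nat_lit 6) (nat_lit 412) (nat_lit 0) (nat_lit 205) (nat_lit 204) (nat_lit 191))) (PT.nd (nat_lit 78) (PT.lf (nat_lit 30552) (nat_lit 6) (nat_lit 402) (nat_lit 0) (nat_lit 206) (nat_lit 204) (nat_lit 190)) (PT.lf (nat_lit 29716) (nat_lit 6) (nat_lit 391) (nat_lit 0) (nat_lit 207) (nat_lit 204) (nat_lit 189)))) (PT.nd (nat_lit 156) (PT.nd (nat_lit 78) (PT.lf (nat_lit 28804) (nat_lit 6) (nat_lit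 379) (nat_lit 0) (nat_lit 208) (nat_lit 204) (nat_lit 188)) (PT.lf (nat_lit 27816) (nat_lit 6) (nat_lit 366) (nat_lit 0) (nat_lit 209) (nat_lit 204) (nat_lit 187))) (PT.nd (nat_lit 78) (PT.lf (nat_lit 26752) (nat_lit 6) (nat_lit 352) (nat_lit 0) (nat_lit 210) (nat_lit 204) (nat_lit 186)) (PT.nd (nat_lit 78) (PT.lf (nat_lit 25612) (nat_lit 6) (nat_lit 337) (nat_lit 0) (nat_lit 211) (nat_lit 204) (nat_lit 185)) (PT.lf (nat_lit 24396) (nat_lit 6) (nat_lit 321) (nat_lit 0) (nat_lit 212) (nat_lit 204) (nat_lit 184)))))) (PT.nd (nat_lit 390) (PT.nd (nat_lit 156) (PT.nd (nat_lit 78) (PT.lf (nat_lit 23104) (nat_lit 6) (nat_lit 304) (nat_lit 0) (nat_lit 213) (nat_lit 204) (nat_lit 183)) (PT.lf (nat_lit 22192) (nat_lit 6) (nat_lit 292) (nat_lit 0) (nat_lit 214) (nat_lit 204) (nat_lit 182))) (PT.nd (nat_lit 78) (PT.lf (nat_lit 21508) (nat_lit 6) (nat_lit 283) (nat_lit 0) (nat_lit 215) (nat_lit 204) (nat_lit 181)) (PT.nd (nat_lit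 78) (PT.lf (nat_lit 20824) (nat_lit 6) (nat_lit 274) (nat_lit 0) (nat_lit 216) (nat_lit 204) (nat_lit 180)) (PT.lf (nat_lit 20216) (nat_lit 6) (nat_lit 266) (nat_lit 0) (nat_lit 217) (nat_lit 204) (nat_lit 179))))) (PT.nd (nat_lit 59358) (PT.nd (nat_lit 59280) (PT.lf (nat_lit 19532) (nat_lit 6) (nat_lit 257) (nat_lit 0) (nat_lit 218) (nat_lit 204) (nat_lit 178)) (PT.lf (nat_lit 19000) (nat_lit 6) (nat_lit 250) (nat_lit 5) (nat_lit 177) (nat_lit 205) (nat_lit 218))) (PT.nd (nat_lit 78) (PT.lf (nat_lit 19608) (nat_lit 6) (nat_lit 258) (nat_lit 5) (nat_lit 178) (nat_lit 205) (nat_lit 217)) (PT.nd (nat_lit 78) (PT.lf (nat_lit 20292) (nat_lit 6) (nat_lit 267) (nat_lit 5) (nat_lit 179) (nat_lit 205) (nat_lit 216)) (PT.lf (nat_lit 20900) (nat_lit 6) (nat_lit 275) (nat_lit 5) (nat_lit 180) (nat_lit 205) (nat_lit 215))))))) (PT.nd (nat_lit 780) (PT.nd (nat_lit 390) (PT.nd (nat_lit 156) (PT.nd (nat_lit 78) (PT.lf (nat_lit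 21584) (nat_lit 6) (nat_lit 284) (nat_lit 5) (nat_lit 181) (nat_lit 205) (nat_lit 214)) (PT.lf (nat_lit 22268) (nat_lit 6) (nat_lit 293) (nat_lit 5) (nat_lit 182) (nat_lit 205) (nat_lit 213))) (PT.nd (nat_lit 78) (PT.lf (nat_lit 23180) (nat_lit 6) (nat_lit 305) (nat_lit 5) (nat_lit 183) (nat_lit 205) (nat_lit 212)) (PT.nd (nat_lit 78) (PT.lf (nat_lit 24472) (nat_lit 6) (nat_lit 322) (nat_lit 5) (nat_lit 184) (nat_lit 205) (nat_lit 211)) (PT.lf (nat_lit 25688) (nat_lit 6) (nat_lit 338) (nat_lit 5) (nat_lit 185) (nat_lit 205) (nat_lit 210))))) (PT.nd (nat_lit 156) (PT.nd (nat_lit 78) (PT.lf (nat_lit 26828) (nat_lit 6) (nat_lit 353) (nat_lit 5) (nat_lit 186) (nat_lit 205) (nat_lit 209)) (PT.lf (nat_lit 27892) (nat_lit 6) (nat_lit 367) (nat_lit 5) (nat_lit 187) (nat_lit 205) (nat_lit 208))) (PT.nd (nat_lit 78) (PT.lf (nat_lit 28880) (nat_lit 6) (nat_lit 380) (nat_lit 5) (nat_lit 188) (nat_lit 205) (nat_lit 207)) (PT.nd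 (nat_lit 78) (PT.lf (nat_lit 29792) (nat_lit 6) (nat_lit 392) (nat_lit 5) (nat_lit 189) (nat_lit 205) (nat_lit 206)) (PT.lf (nat_lit 30628) (nat_lit 3) (nat_lit 403) (nat_lit 4) (nat_lit 190) (nat_lit 205) (nat_lit 205)))))) (PT.nd (nat_lit 390) (PT.nd (nat_lit 156) (PT.nd (nat_lit 78) (PT.lf (nat_lit 31312) (nat_lit 6) (nat_lit 412) (nat_lit 4) (nat_lit 191) (nat_lit 205) (nat_lit 204)) (PT.lf (nat_lit 31920) (nat_lit 6) (nat_lit 420) (nat_lit 4) (nat_lit 192) (nat_lit 205) (nat_lit 203))) (PT.nd (nat_lit 78) (PT.lf (nat_lit 32452) (nat_lit 6) (nat_lit 427) (nat_lit 4) (nat_lit 193) (nat_lit 205) (nat_lit 202)) (PT.nd (nat_lit 78) (PT.lf (nat_lit 32908) (nat_lit 6) (nat_lit 433) (nat_lit 4) (nat_lit 194) (nat_lit 205) (nat_lit 201)) (PT.lf (nat_lit 33288) (nat_lit 6) (nat_lit 438) (nat_lit 4) (nat_lit 195) (nat_lit 205) (nat_lit 200))))) (PT.nd (nat_lit 156) (PT.nd (nat_lit 78) (PT.lf (nat_lit 33212) (nat_lit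 6) (nat_lit 437) (nat_lit 4) (nat_lit 196) (nat_lit 205) (nat_lit 199)) (PT.lf (nat_lit 33136) (nat_lit 6) (nat_lit 436) (nat_lit 4) (nat_lit 197) (nat_lit 205) (nat_lit 198))) (PT.nd (nat_lit 78) (PT.lf (nat_lit 33136) (nat_lit 6) (nat_lit 436) (nat_lit 2) (nat_lit 198) (nat_lit 205) (nat_lit 197)) (PT.nd (nat_lit 78) (PT.lf (nat_lit 33212) (nat_lit 6) (nat_lit 437) (nat_lit 2) (nat_lit 199) (nat_lit 205) (nat_lit 196)) (PT.lf (nat_lit 33288) (nat_lit 6) (nat_lit 438) (nat_lit 2) (nat_lit 200) (nat_lit 205) (nat_lit 195))))))))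
noncomputable def pc30 : PT := (PT.nd (nat_lit 60606) (PT.nd (nat_lit 702) (PT.nd (nat_lit 312) (PT.nd (nat_lit 156) (PT.nd (nat_lit 78) (PT.lf (nat_lit 32908) (nat_lit 6) (nat_lit 433) (nat_lit 2) (nat_lit 201) (nat_lit 205) (nat_lit 194)) (PT.lf (nat_lit 32452) (nat_lit 6) (nat_lit 427) (nat_lit 2) (nat_lit 202) (nat_lit 205) (nat_lit 193))) (PT.nd (nat_lit 78) (PT.lf (nat_lit 31920) (nat_lit 6) (nat_lit 420) (nat_lit 2) (nat_lit 203) (nat_lit 205) (nat_lit 192)) (PT.lf (nat_lit 31312) (nat_lit 6) (nat_lit 412) (nat_lit 2) (nat_lit 204) (nat_lit 205) (nat_lit 191)))) (PT.nd (nat_lit 156) (PT.nd (nat_lit 78) (PT.lf (nat_lit 30628) (nat_lit 3) (nat_lit 403) (nat_lit 0) (nat_lit 205) (nat_lit 205) (nat_lit 190)) (PT.lf (nat_lit 29792) (nat_lit 6) (nat_lit 392) (nat_lit 0) (nat_lit 206) (nat_lit 205) (nat_lit 189))) (PT.nd (nat_lit 78) (PT.lf (nat_lit 28880) (nat_lit 6) (nat_lit 380) (nat_lit 0) (nat_lit 207) (nat_lit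 205) (nat_lit 188)) (PT.nd (nat_lit 78) (PT.lf (nat_lit 27892) (nat_lit 6) (nat_lit 367) (nat_lit 0) (nat_lit 208) (nat_lit 205) (nat_lit 187)) (PT.lf (nat_lit 26828) (nat_lit 6) (nat_lit 353) (nat_lit 0) (nat_lit 209) (nat_lit 205) (nat_lit 186)))))) (PT.nd (nat_lit 390) (PT.nd (nat_lit 156) (PT.nd (nat_lit 78) (PT.lf (nat_lit 25688) (nat_lit 6) (nat_lit 338) (nat_lit 0) (nat_lit 210) (nat_lit 205) (nat_lit 185)) (PT.lf (nat_lit 24472) (nat_lit 6) (nat_lit 322) (nat_lit 0) (nat_lit 211) (nat_lit 205) (nat_lit 184))) (PT.nd (nat_lit 78) (PT.lf (nat_lit 23180) (nat_lit 6) (nat_lit 305) (nat_lit 0) (nat_lit 212) (nat_lit 205) (nat_lit 183)) (PT.nd (nat_lit 78) (PT.lf (nat_lit 22268) (nat_lit 6) (nat_lit 293) (nat_lit 0) (nat_lit 213) (nat_lit 205) (nat_lit 182)) (PT.lf (nat_lit 21584) (nat_lit 6) (nat_lit 284) (nat_lit 0) (nat_lit 214) (nat_lit 205) (nat_lit 181))))) (PT.nd (nat_lit 156) (PT.nd (nat_lit 78) (PT.lf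 (nat_lit 20900) (nat_lit 6) (nat_lit 275) (nat_lit 0) (nat_lit 215) (nat_lit 205) (nat_lit 180)) (PT.lf (nat_lit 20292) (nat_lit 6) (nat_lit 267) (nat_lit 0) (nat_lit 216) (nat_lit 205) (nat_lit 179))) (PT.nd (nat_lit 78) (PT.lf (nat_lit 19608) (nat_lit 6) (nat_lit 258) (nat_lit 0) (nat_lit 217) (nat_lit 205) (nat_lit 178)) (PT.nd (nat_lit 59202) (PT.lf (nat_lit 19000) (nat_lit 6) (nat_lit 250) (nat_lit 0) (nat_lit 218) (nat_lit 205) (nat_lit 177)) (PT.lf (nat_lit 18468) (nat_lit 6) (nat_lit 243) (nat_lit 5) (nat_lit 176) (nat_lit 206) (nat_lit 218))))))) (PT.nd (nat_lit 780) (PT.nd (nat_lit 390) (PT.nd (nat_lit 156) (PT.nd (nat_lit 78) (PT.lf (nat_lit 19076) (nat_lit 6) (nat_lit 251) (nat_lit 5) (nat_lit 177) (nat_lit 206) (nat_lit 217)) (PT.lf (nat_lit 19684) (nat_lit 6) (nat_lit 259) (nat_lit 5) (nat_lit 178) (nat_lit 206) (nat_lit 216))) (PT.nd (nat_lit 78) (PT.lf (nat_lit 20368) (nat_lit 6) (nat_lit 268) (nat_lit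 5) (nat_lit 179) (nat_lit 206) (nat_lit 215)) (PT.nd (nat_lit 78) (PT.lf (nat_lit 20976) (nat_lit 6) (nat_lit 276) (nat_lit 5) (nat_lit 180) (nat_lit 206) (nat_lit 214)) (PT.lf (nat_lit 21660) (nat_lit 6) (nat_lit 285) (nat_lit 5) (nat_lit 181) (nat_lit 206) (nat_lit 213))))) (PT.nd (nat_lit 156) (PT.nd (nat_lit 78) (PT.lf (nat_lit 22344) (nat_lit 6) (nat_lit 294) (nat_lit 5) (nat_lit 182) (nat_lit 206) (nat_lit 212)) (PT.lf (nat_lit 23256) (nat_lit 6) (nat_lit 306) (nat_lit 5) (nat_lit 183) (nat_lit 206) (nat_lit 211))) (PT.nd (nat_lit 78) (PT.lf (nat_lit 24548) (nat_lit 6) (nat_lit 323) (nat_lit 5) (nat_lit 184) (nat_lit 206) (nat_lit 210)) (PT.nd (nat_lit 78) (PT.lf (nat_lit 25764) (nat_lit 6) (nat_lit 339) (nat_lit 5) (nat_lit 185) (nat_lit 206) (nat_lit 209)) (PT.lf (nat_lit 26904) (nat_lit 6) (nat_lit 354) (nat_lit 5) (nat_lit 186) (nat_lit 206) (nat_lit 208)))))) (PT.nd (nat_lit 390) (PT.nd (nat_lit 156)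 (PT.nd (nat_lit 78) (PT.lf (nat_lit 27968) (nat_lit 6) (nat_lit 368) (nat_lit 5) (nat_lit 187) (nat_lit 206) (nat_lit 207)) (PT.lf (nat_lit 28956) (nat_lit 3) (nat_lit 381) (nat_lit 4) (nat_lit 188) (nat_lit 206) (nat_lit 206))) (PT.nd (nat_lit 78) (PT.lf (nat_lit 29792) (nat_lit 6) (nat_lit 392) (nat_lit 4) (nat_lit 189) (nat_lit 206) (nat_lit 205)) (PT.nd (nat_lit 78) (PT.lf (nat_lit 30552) (nat_lit 6) (nat_lit 402) (nat_lit 4) (nat_lit 190) (nat_lit 206) (nat_lit 204)) (PT.lf (nat_lit 31236) (nat_lit 6) (nat_lit 411) (nat_lit 4) (nat_lit 191) (nat_lit 206) (nat_lit 203))))) (PT.nd (nat_lit 156) (PT.nd (nat_lit 78) (PT.lf (nat_lit 31844) (nat_lit 6) (nat_lit 419) (nat_lit 4) (nat_lit 192) (nat_lit 206) (nat_lit 202)) (PT.lf (nat_lit 32376) (nat_lit 6) (nat_lit 426) (nat_lit 4) (nat_lit 193) (nat_lit 206) (nat_lit 201))) (PT.nd (nat_lit 78) (PT.lf (nat_lit 32832) (nat_lit 6) (nat_lit 432) (nat_lit 4) (nat_lit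 194) (nat_lit 206) (nat_lit 200)) (PT.nd (nat_lit 78) (PT.lf (nat_lit 32756) (nat_lit 6) (nat_lit 431) (nat_lit 4) (nat_lit 195) (nat_lit 206) (nat_lit 199)) (PT.lf (nat_lit 32680) (nat_lit 6) (nat_lit 430) (nat_lit 4) (nat_lit 196) (nat_lit 206) (nat_lit 198))))))))
noncomputable def pc31 : PT := (PT.nd (nat_lit 1482) (PT.nd (nat_lit 702) (PT.nd (nat_lit 312) (PT.nd (nat_lit 156) (PT.nd (nat_lit 78) (PT.lf (nat_lit 32604) (nat_lit 3) (nat_lit 429) (nat_lit 2) (nat_lit 197) (nat_lit 206) (nat_lit 197)) (PT.lf (nat_lit 32680) (nat_lit 6) (nat_lit 430) (nat_lit 2) (nat_lit 198) (nat_lit 206) (nat_lit 196))) (PT.nd (nat_lit 78) (PT.lf (nat_lit 32756) (nat_lit 6) (nat_lit 431) (nat_lit 2) (nat_lit 199) (nat_lit 206) (nat_lit 195)) (PT.lf (nat_lit 32832) (nat_lit 6) (nat_lit 432) (nat_lit 2) (nat_lit 200) (nat_lit 206) (nat_lit 194)))) (PT.nd (nat_lit 156) (PT.nd (nat_lit 78) (PT.lf (nat_lit 32376) (nat_lit 6) (nat_lit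 426) (nat_lit 2) (nat_lit 201) (nat_lit 206) (nat_lit 193)) (PT.lf (nat_lit 31844) (nat_lit 6) (nat_lit 419) (nat_lit 2) (nat_lit 202) (nat_lit 206) (nat_lit 192))) (PT.nd (nat_lit 78) (PT.lf (nat_lit 31236) (nat_lit 6) (nat_lit 411) (nat_lit 2) (nat_lit 203) (nat_lit 206) (nat_lit 191)) (PT.nd (nat_lit 78) (PT.lf (nat_lit 30552) (nat_lit 6) (nat_lit 402) (nat_lit 2) (nat_lit 204) (nat_lit 206) (nat_lit 190)) (PT.lf (nat_lit 29792) (nat_lit 6) (nat_lit 392) (nat_lit 2) (nat_lit 205) (nat_lit 206) (nat_lit 189)))))) (PT.nd (nat_lit 390) (PT.nd (nat_lit 156) (PT.nd (nat_lit 78) (PT.lf (nat_lit 28956) (nat_lit 3) (nat_lit 381) (nat_lit 0) (nat_lit 206) (nat_lit 206) (nat_lit 188)) (PT.lf (nat_lit 27968) (nat_lit 6) (nat_lit 368) (nat_lit 0) (nat_lit 207) (nat_lit 206) (nat_lit 187))) (PT.nd (nat_lit 78) (PT.lf (nat_lit 26904) (nat_lit 6) (nat_lit 354) (nat_lit 0) (nat_lit 208) (nat_lit 206) (nat_lit 186)) (PT.nd (nat_lit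 78) (PT.lf (nat_lit 25764) (nat_lit 6) (nat_lit 339) (nat_lit 0) (nat_lit 209) (nat_lit 206) (nat_lit 185)) (PT.lf (nat_lit 24548) (nat_lit 6) (nat_lit 323) (nat_lit 0) (nat_lit 210) (nat_lit 206) (nat_lit 184))))) (PT.nd (nat_lit 156) (PT.nd (nat_lit 78) (PT.lf (nat_lit 23256) (nat_lit 6) (nat_lit 306) (nat_lit 0) (nat_lit 211) (nat_lit 206) (nat_lit 183)) (PT.lf (nat_lit 22344) (nat_lit 6) (nat_lit 294) (nat_lit 0) (nat_lit 212) (nat_lit 206) (nat_lit 182))) (PT.nd (nat_lit 78) (PT.lf (nat_lit 21660) (nat_lit 6) (nat_lit 285) (nat_lit 0) (nat_lit 213) (nat_lit 206) (nat_lit 181)) (PT.nd (nat_lit 78) (PT.lf (nat_lit 20976) (nat_lit 6) (nat_lit 276) (nat_lit 0) (nat_lit 214) (nat_lit 206) (nat_lit 180)) (PT.lf (nat_lit 20368) (nat_lit 6) (nat_lit 268) (nat_lit 0) (nat_lit 215) (nat_lit 206) (nat_lit 179))))))) (PT.nd (nat_lit 59748) (PT.nd (nat_lit 59358) (PT.nd (nat_lit 156) (PT.nd (nat_lit 78) (PT.lf (nat_lit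 19684) (nat_lit 6) (nat_lit 259) (nat_lit 0) (nat_lit 216) (nat_lit 206) (nat_lit 178)) (PT.lf (nat_lit 19076) (nat_lit 6) (nat_lit 251) (nat_lit 0) (nat_lit 217) (nat_lit 206) (nat_lit 177))) (PT.nd (nat_lit 59046) (PT.lf (nat_lit 18468) (nat_lit 6) (nat_lit 243) (nat_lit 0) (nat_lit 218) (nat_lit 206) (nat_lit 176)) (PT.nd (nat_lit 78) (PT.lf (nat_lit 17480) (nat_lit 6) (nat_lit 230) (nat_lit 5) (nat_lit 174) (nat_lit 207) (nat_lit 219)) (PT.lf (nat_lit 18012) (nat_lit 6) (nat_lit 237) (nat_lit 5) (nat_lit 175) (nat_lit 207) (nat_lit 218))))) (PT.nd (nat_lit 156) (PT.nd (nat_lit 78) (PT.lf (nat_lit 18544) (nat_lit 6) (nat_lit 244) (nat_lit 5) (nat_lit 176) (nat_lit 207) (nat_lit 217)) (PT.lf (nat_lit 19152) (nat_lit 6) (nat_lit 252) (nat_lit 5) (nat_lit 177) (nat_lit 207) (nat_lit 216))) (PT.nd (nat_lit 78) (PT.lf (nat_lit 19760) (nat_lit 6) (nat_lit 260) (nat_lit 5) (nat_lit 178) (nat_lit 207) (nat_lit 215))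 (PT.nd (nat_lit 78) (PT.lf (nat_lit 20444) (nat_lit 6) (nat_lit 269) (nat_lit 5) (nat_lit 179) (nat_lit 207) (nat_lit 214)) (PT.lf (nat_lit 21052) (nat_lit 6) (nat_lit 277) (nat_lit 5) (nat_lit 180) (nat_lit 207) (nat_lit 213)))))) (PT.nd (nat_lit 390) (PT.nd (nat_lit 156) (PT.nd (nat_lit 78) (PT.lf (nat_lit 21736) (nat_lit 6) (nat_lit 286) (nat_lit 5) (nat_lit 181) (nat_lit 207) (nat_lit 212)) (PT.lf (nat_lit 22420) (nat_lit 6) (nat_lit 295) (nat_lit 5) (nat_lit 182) (nat_lit 207) (nat_lit 211))) (PT.nd (nat_lit 78) (PT.lf (nat_lit 23332) (nat_lit 6) (nat_lit 307) (nat_lit 5) (nat_lit 183) (nat_lit 207) (nat_lit 210)) (PT.nd (nat_lit 78) (PT.lf (nat_lit 24624) (nat_lit 6) (nat_lit 324) (nat_lit 5) (nat_lit 184) (nat_lit 207) (nat_lit 209)) (PT.lf (nat_lit 25840) (nat_lit 6) (nat_lit 340) (nat_lit 5) (nat_lit 185) (nat_lit 207) (nat_lit 208))))) (PT.nd (nat_lit 156) (PT.nd (nat_lit 78) (PT.lf (nat_lit 26980) (nat_lit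 3) (nat_lit 355) (nat_lit 4) (nat_lit 186) (nat_lit 207) (nat_lit 207)) (PT.lf (nat_lit 27968) (nat_lit 6) (nat_lit 368) (nat_lit 4) (nat_lit 187) (nat_lit 207) (nat_lit 206))) (PT.nd (nat_lit 78) (PT.lf (nat_lit 28880) (nat_lit 6) (nat_lit 380) (nat_lit 4) (nat_lit 188) (nat_lit 207) (nat_lit 205)) (PT.nd (nat_lit 78) (PT.lf (nat_lit 29716) (nat_lit 6) (nat_lit 391) (nat_lit 4) (nat_lit 189) (nat_lit 207) (nat_lit 204)) (PT.lf (nat_lit 30476) (nat_lit 6) (nat_lit 401) (nat_lit 4) (nat_lit 190) (nat_lit 207) (nat_lit 203))))))))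
noncomputable def pc32 : PT := (PT.nd (nat_lit 1482) (PT.nd (nat_lit 702) (PT.nd (nat_lit 312) (PT.nd (nat_lit 156) (PT.nd (nat_lit 78) (PT.lf (nat_lit 31160) (nat_lit 6) (nat_lit 410) (nat_lit 4) (nat_lit 191) (nat_lit 207) (nat_lit 202)) (PT.lf (nat_lit 31768) (nat_lit 6) (nat_lit 418) (nat_lit 4) (nat_lit 192) (nat_lit 207) (nat_lit 201))) (PT.nd (nat_lit 78) (PT.lf (nat_lit 32300) (nat_lit 6) (nat_lit 425) (nat_lit 4) (nat_lit 193) (nat_lit 207) (nat_lit 200)) (PT.lf (nat_lit 32224) (nat_lit 6) (nat_lit 424) (nat_lit 4) (nat_lit 194) (nat_lit 207) (nat_lit 199)))) (PT.nd (nat_lit 156) (PT.nd (nat_lit 78) (PT.lf (nat_lit 32148) (nat_lit 6) (nat_lit 423) (nat_lit 4) (nat_lit 195) (nat_lit 207) (nat_lit 198)) (PT.lf (nat_lit 32072) (nat_lit 6) (nat_lit 422) (nat_lit 4) (nat_lit 196) (nat_lit 207) (nat_lit 197))) (PT.nd (nat_lit 78) (PT.lf (nat_lit 32072) (nat_lit 6) (nat_lit 422) (nat_lit 2) (nat_lit 197) (nat_lit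 207) (nat_lit 196)) (PT.nd (nat_lit 78) (PT.lf (nat_lit 32148) (nat_lit 6) (nat_lit 423) (nat_lit 2) (nat_lit 198) (nat_lit 207) (nat_lit 195)) (PT.lf (nat_lit 32224) (nat_lit 6) (nat_lit 424) (nat_lit 2) (nat_lit 199) (nat_lit 207) (nat_lit 194)))))) (PT.nd (nat_lit 390) (PT.nd (nat_lit 156) (PT.nd (nat_lit 78) (PT.lf (nat_lit 32300) (nat_lit 6) (nat_lit 425) (nat_lit 2) (nat_lit 200) (nat_lit 207) (nat_lit 193)) (PT.lf (nat_lit 31768) (nat_lit 6) (nat_lit 418) (nat_lit 2) (nat_lit 201) (nat_lit 207) (nat_lit 192))) (PT.nd (nat_lit 78) (PT.lf (nat_lit 31160) (nat_lit 6) (nat_lit 410) (nat_lit 2) (nat_lit 202) (nat_lit 207) (nat_lit 191)) (PT.nd (nat_lit 78) (PT.lf (nat_lit 30476) (nat_lit 6) (nat_lit 401) (nat_lit 2) (nat_lit 203) (nat_lit 207) (nat_lit 190)) (PT.lf (nat_lit 29716) (nat_lit 6) (nat_lit 391) (nat_lit 2) (nat_lit 204) (nat_lit 207) (nat_lit 189))))) (PT.nd (nat_lit 156) (PT.nd (nat_lit 78) (PT.lf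 (nat_lit 28880) (nat_lit 6) (nat_lit 380) (nat_lit 2) (nat_lit 205) (nat_lit 207) (nat_lit 188)) (PT.lf (nat_lit 27968) (nat_lit 6) (nat_lit 368) (nat_lit 2) (nat_lit 206) (nat_lit 207) (nat_lit 187))) (PT.nd (nat_lit 78) (PT.lf (nat_lit 26980) (nat_lit 3) (nat_lit 355) (nat_lit 0) (nat_lit 207) (nat_lit 207) (nat_lit 186)) (PT.nd (nat_lit 78) (PT.lf (nat_lit 25840) (nat_lit 6) (nat_lit 340) (nat_lit 0) (nat_lit 208) (nat_lit 207) (nat_lit 185)) (PT.lf (nat_lit 24624) (nat_lit 6) (nat_lit 324) (nat_lit 0) (nat_lit 209) (nat_lit 207) (nat_lit 184))))))) (PT.nd (nat_lit 702) (PT.nd (nat_lit 312) (PT.nd (nat_lit 156) (PT.nd (nat_lit 78) (PT.lf (nat_lit 23332) (nat_lit 6) (nat_lit 307) (nat_lit 0) (nat_lit 210) (nat_lit 207) (nat_lit 183)) (PT.lf (nat_lit 22420) (nat_lit 6) (nat_lit 295) (nat_lit 0) (nat_lit 211) (nat_lit 207) (nat_lit 182))) (PT.nd (nat_lit 78) (PT.lf (nat_lit 21736) (nat_lit 6) (nat_lit 286) (nat_lit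 0) (nat_lit 212) (nat_lit 207) (nat_lit 181)) (PT.lf (nat_lit 21052) (nat_lit 6) (nat_lit 277) (nat_lit 0) (nat_lit 213) (nat_lit 207) (nat_lit 180)))) (PT.nd (nat_lit 156) (PT.nd (nat_lit 78) (PT.lf (nat_lit 20444) (nat_lit 6) (nat_lit 269) (nat_lit 0) (nat_lit 214) (nat_lit 207) (nat_lit 179)) (PT.lf (nat_lit 19760) (nat_lit 6) (nat_lit 260) (nat_lit 0) (nat_lit 215) (nat_lit 207) (nat_lit 178))) (PT.nd (nat_lit 78) (PT.lf (nat_lit 19152) (nat_lit 6) (nat_lit 252) (nat_lit 0) (nat_lit 216) (nat_lit 207) (nat_lit 177)) (PT.nd (nat_lit 78) (PT.lf (nat_lit 18544) (nat_lit 6) (nat_lit 244) (nat_lit 0) (nat_lit 217) (nat_lit 207) (nat_lit 176)) (PT.lf (nat_lit 18012) (nat_lit 6) (nat_lit 237) (nat_lit 0) (nat_lit 218) (nat_lit 207) (nat_lit 175)))))) (PT.nd (nat_lit 59202) (PT.nd (nat_lit 58968) (PT.nd (nat_lit 58890) (PT.lf (nat_lit 17480) (nat_lit 6) (nat_lit 230) (nat_lit 0) (nat_lit 219) (nat_lit 207) (nat_lit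 174)) (PT.lf (nat_lit 17024) (nat_lit 6) (nat_lit 224) (nat_lit 5) (nat_lit 173) (nat_lit 208) (nat_lit 219))) (PT.nd (nat_lit 78) (PT.lf (nat_lit 17556) (nat_lit 6) (nat_lit 231) (nat_lit 5) (nat_lit 174) (nat_lit 208) (nat_lit 218)) (PT.nd (nat_lit 78) (PT.lf (nat_lit 18088) (nat_lit 6) (nat_lit 238) (nat_lit 5) (nat_lit 175) (nat_lit 208) (nat_lit 217)) (PT.lf (nat_lit 18620) (nat_lit 6) (nat_lit 245) (nat_lit 5) (nat_lit 176) (nat_lit 208) (nat_lit 216))))) (PT.nd (nat_lit 156) (PT.nd (nat_lit 78) (PT.lf (nat_lit 19228) (nat_lit 6) (nat_lit 253) (nat_lit 5) (nat_lit 177) (nat_lit 208) (nat_lit 215)) (PT.lf (nat_lit 19836) (nat_lit 6) (nat_lit 261) (nat_lit 5) (nat_lit 178) (nat_lit 208) (nat_lit 214))) (PT.nd (nat_lit 78) (PT.lf (nat_lit 20520) (nat_lit 6) (nat_lit 270) (nat_lit 5) (nat_lit 179) (nat_lit 208) (nat_lit 213)) (PT.nd (nat_lit 78) (PT.lf (nat_lit 21128) (nat_lit 6) (nat_lit 278) (nat_lit 5) (nat_lit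 180) (nat_lit 208) (nat_lit 212)) (PT.lf (nat_lit 21812) (nat_lit 6) (nat_lit 287) (nat_lit 5) (nat_lit 181) (nat_lit 208) (nat_lit 211))))))))
noncomputable def pc33 : PT := (PT.nd (nat_lit 1482) (PT.nd (nat_lit 702) (PT.nd (nat_lit 312) (PT.nd (nat_lit 156) (PT.nd (nat_lit 78) (PT.lf (nat_lit 22496) (nat_lit 6) (nat_lit 296) (nat_lit 5) (nat_lit 182) (nat_lit 208) (nat_lit 210)) (PT.lf (nat_lit 23408) (nat_lit 6) (nat_lit 308) (nat_lit 5) (nat_lit 183) (nat_lit 208) (nat_lit 209))) (PT.nd (nat_lit 78) (PT.lf (nat_lit 24700) (nat_lit 3) (nat_lit 325) (nat_lit 4) (nat_lit 184) (nat_lit 208) (nat_lit 208)) (PT.lf (nat_lit 25840) (nat_lit 6) (nat_lit 340) (nat_lit 4) (nat_lit 185) (nat_lit 208) (nat_lit 207)))) (PT.nd (nat_lit 156) (PT.nd (nat_lit 78) (PT.lf (nat_lit 26904) (nat_lit 6) (nat_lit 354) (nat_lit 4) (nat_lit 186) (nat_lit 208) (nat_lit 206)) (PT.lf (nat_lit 27892) (nat_lit 6) (nat_lit 367) (nat_lit 4)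 (nat_lit 187) (nat_lit 208) (nat_lit 205))) (PT.nd (nat_lit 78) (PT.lf (nat_lit 28804) (nat_lit 6) (nat_lit 379) (nat_lit 4) (nat_lit 188) (nat_lit 208) (nat_lit 204)) (PT.nd (nat_lit 78) (PT.lf (nat_lit 29640) (nat_lit 6) (nat_lit 390) (nat_lit 4) (nat_lit 189) (nat_lit 208) (nat_lit 203)) (PT.lf (nat_lit 30400) (nat_lit 6) (nat_lit 400) (nat_lit 4) (nat_lit 190) (nat_lit 208) (nat_lit 202)))))) (PT.nd (nat_lit 390) (PT.nd (nat_lit 156) (PT.nd (nat_lit 78) (PT.lf (nat_lit 31084) (nat_lit 6) (nat_lit 409) (nat_lit 4) (nat_lit 191) (nat_lit 208) (nat_lit 201)) (PT.lf (nat_lit 31692) (nat_lit 6) (nat_lit 417) (nat_lit 4) (nat_lit 192) (nat_lit 208) (nat_lit 200))) (PT.nd (nat_lit 78) (PT.lf (nat_lit 31616) (nat_lit 6) (nat_lit 416) (nat_lit 4) (nat_lit 193) (nat_lit 208) (nat_lit 199)) (PT.nd (nat_lit 78) (PT.lf (nat_lit 31540) (nat_lit 6) (nat_lit 415) (nat_lit 4) (nat_lit 194) (nat_lit 208) (nat_lit 198)) (PT.lf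 (nat_lit 31464) (nat_lit 6) (nat_lit 414) (nat_lit 4) (nat_lit 195) (nat_lit 208) (nat_lit 197))))) (PT.nd (nat_lit 156) (PT.nd (nat_lit 78) (PT.lf (nat_lit 31388) (nat_lit 3) (nat_lit 413) (nat_lit 2) (nat_lit 196) (nat_lit 208) (nat_lit 196)) (PT.lf (nat_lit 31464) (nat_lit 6) (nat_lit 414) (nat_lit 2) (nat_lit 197) (nat_lit 208) (nat_lit 195))) (PT.nd (nat_lit 78) (PT.lf (nat_lit 31540) (nat_lit 6) (nat_lit 415) (nat_lit 2) (nat_lit 198) (nat_lit 208) (nat_lit 194)) (PT.nd (nat_lit 78) (PT.lf (nat_lit 31616) (nat_lit 6) (nat_lit 416) (nat_lit 2) (nat_lit 199) (nat_lit 208) (nat_lit 193)) (PT.lf (nat_lit 31692) (nat_lit 6) (nat_lit 417) (nat_lit 2) (nat_lit 200) (nat_lit 208) (nat_lit 192))))))) (PT.nd (nat_lit 780) (PT.nd (nat_lit 390) (PT.nd (nat_lit 156) (PT.nd (nat_lit 78) (PT.lf (nat_lit 31084) (nat_lit 6) (nat_lit 409) (nat_lit 2) (nat_lit 201) (nat_lit 208) (nat_lit 191)) (PT.lf (nat_lit 30400) (nat_lit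 6) (nat_lit 400) (nat_lit 2) (nat_lit 202) (nat_lit 208) (nat_lit 190))) (PT.nd (nat_lit 78) (PT.lf (nat_lit 29640) (nat_lit 6) (nat_lit 390) (nat_lit 2) (nat_lit 203) (nat_lit 208) (nat_lit 189)) (PT.nd (nat_lit 78) (PT.lf (nat_lit 28804) (nat_lit 6) (nat_lit 379) (nat_lit 2) (nat_lit 204) (nat_lit 208) (nat_lit 188)) (PT.lf (nat_lit 27892) (nat_lit 6) (nat_lit 367) (nat_lit 2) (nat_lit 205) (nat_lit 208) (nat_lit 187))))) (PT.nd (nat_lit 156) (PT.nd (nat_lit 78) (PT.lf (nat_lit 26904) (nat_lit 6) (nat_lit 354) (nat_lit 2) (nat_lit 206) (nat_lit 208) (nat_lit 186)) (PT.lf (nat_lit 25840) (nat_lit 6) (nat_lit 340) (nat_lit 2) (nat_lit 207) (nat_lit 208) (nat_lit 185))) (PT.nd (nat_lit 78) (PT.lf (nat_lit 24700) (nat_lit 3) (nat_lit 325) (nat_lit 0) (nat_lit 208) (nat_lit 208) (nat_lit 184)) (PT.nd (nat_lit 78) (PT.lf (nat_lit 23408) (nat_lit 6) (nat_lit 308) (nat_lit 0) (nat_lit 209) (nat_lit 208) (nat_lit 183))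 (PT.lf (nat_lit 22496) (nat_lit 6) (nat_lit 296) (nat_lit 0) (nat_lit 210) (nat_lit 208) (nat_lit 182)))))) (PT.nd (nat_lit 390) (PT.nd (nat_lit 156) (PT.nd (nat_lit 78) (PT.lf (nat_lit 21812) (nat_lit 6) (nat_lit 287) (nat_lit 0) (nat_lit 211) (nat_lit 208) (nat_lit 181)) (PT.lf (nat_lit 21128) (nat_lit 6) (nat_lit 278) (nat_lit 0) (nat_lit 212) (nat_lit 208) (nat_lit 180))) (PT.nd (nat_lit 78) (PT.lf (nat_lit 20520) (nat_lit 6) (nat_lit 270) (nat_lit 0) (nat_lit 213) (nat_lit 208) (nat_lit 179)) (PT.nd (nat_lit 78) (PT.lf (nat_lit 19836) (nat_lit 6) (nat_lit 261) (nat_lit 0) (nat_lit 214) (nat_lit 208) (nat_lit 178)) (PT.lf (nat_lit 19228) (nat_lit 6) (nat_lit 253) (nat_lit 0) (nat_lit 215) (nat_lit 208) (nat_lit 177))))) (PT.nd (nat_lit 156) (PT.nd (nat_lit 78) (PT.lf (nat_lit 18620) (nat_lit 6) (nat_lit 245) (nat_lit 0) (nat_lit 216) (nat_lit 208) (nat_lit 176)) (PT.lf (nat_lit 18088) (nat_lit 6) (nat_lit 238)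 (nat_lit 0) (nat_lit 217) (nat_lit 208) (nat_lit 175))) (PT.nd (nat_lit 78) (PT.lf (nat_lit 17556) (nat_lit 6) (nat_lit 231) (nat_lit 0) (nat_lit 218) (nat_lit 208) (nat_lit 174)) (PT.nd (nat_lit 58734) (PT.lf (nat_lit 17024) (nat_lit 6) (nat_lit 224) (nat_lit 0) (nat_lit 219) (nat_lit 208) (nat_lit 173)) (PT.lf (nat_lit 16112) (nat_lit 6) (nat_lit 212) (nat_lit 5) (nat_lit 171) (nat_lit 209) (nat_lit 220))))))))
noncomputable def pc34 : PT := (PT.nd (nat_lit 1482) (PT.nd (nat_lit 702) (PT.nd (nat_lit 312) (PT.nd (nat_lit 156) (PT.nd (nat_lit 78) (PT.lf (nat_lit 16568) (nat_lit 6) (nat_lit 218) (nat_lit 5) (nat_lit 172) (nat_lit 209) (nat_lit 219)) (PT.lf (nat_lit 17100) (nat_lit 6) (nat_lit 225) (nat_lit 5) (nat_lit 173) (nat_lit 209) (nat_lit 218))) (PT.nd (nat_lit 78) (PT.lf (nat_lit 17632) (nat_lit 6) (nat_lit 232) (nat_lit 5) (nat_lit 174) (nat_lit 209) (nat_lit 217)) (PT.lf (nat_lit 18164) (nat_lit 6) (nat_lit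 239) (nat_lit 5) (nat_lit 175) (nat_lit 209) (nat_lit 216)))) (PT.nd (nat_lit 156) (PT.nd (nat_lit 78) (PT.lf (nat_lit 18696) (nat_lit 6) (nat_lit 246) (nat_lit 5) (nat_lit 176) (nat_lit 209) (nat_lit 215)) (PT.lf (nat_lit 19304) (nat_lit 6) (nat_lit 254) (nat_lit 5) (nat_lit 177) (nat_lit 209) (nat_lit 214))) (PT.nd (nat_lit 78) (PT.lf (nat_lit 19912) (nat_lit 6) (nat_lit 262) (nat_lit 5) (nat_lit 178) (nat_lit 209) (nat_lit 213)) (PT.nd (nat_lit 78) (PT.lf (nat_lit 20596) (nat_lit 6) (nat_lit 271) (nat_lit 5) (nat_lit 179) (nat_lit 209) (nat_lit 212)) (PT.lf (nat_lit 21204) (nat_lit 6) (nat_lit 279) (nat_lit 5) (nat_lit 180) (nat_lit 209) (nat_lit 211)))))) (PT.nd (nat_lit 390) (PT.nd (nat_lit 156) (PT.nd (nat_lit 78) (PT.lf (nat_lit 21888) (nat_lit 6) (nat_lit 288) (nat_lit 5) (nat_lit 181) (nat_lit 209) (nat_lit 210)) (PT.lf (nat_lit 22572) (nat_lit 3) (nat_lit 297) (nat_lit 4) (nat_lit 182) (nat_lit 209) (nat_lit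 209))) (PT.nd (nat_lit 78) (PT.lf (nat_lit 23408) (nat_lit 6) (nat_lit 308) (nat_lit 4) (nat_lit 183) (nat_lit 209) (nat_lit 208)) (PT.nd (nat_lit 78) (PT.lf (nat_lit 24624) (nat_lit 6) (nat_lit 324) (nat_lit 4) (nat_lit 184) (nat_lit 209) (nat_lit 207)) (PT.lf (nat_lit 25764) (nat_lit 6) (nat_lit 339) (nat_lit 4) (nat_lit 185) (nat_lit 209) (nat_lit 206))))) (PT.nd (nat_lit 156) (PT.nd (nat_lit 78) (PT.lf (nat_lit 26828) (nat_lit 6) (nat_lit 353) (nat_lit 4) (nat_lit 186) (nat_lit 209) (nat_lit 205)) (PT.lf (nat_lit 27816) (nat_lit 6) (nat_lit 366) (nat_lit 4) (nat_lit 187) (nat_lit 209) (nat_lit 204))) (PT.nd (nat_lit 78) (PT.lf (nat_lit 28728) (nat_lit 6) (nat_lit 378) (nat_lit 4) (nat_lit 188) (nat_lit 209) (nat_lit 203)) (PT.nd (nat_lit 78) (PT.lf (nat_lit 29564) (nat_lit 6) (nat_lit 389) (nat_lit 4) (nat_lit 189) (nat_lit 209) (nat_lit 202)) (PT.lf (nat_lit 30324) (nat_lit 6) (nat_lit 399) (nat_lit 4) (nat_lit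 190) (nat_lit 209) (nat_lit 201))))))) (PT.nd (nat_lit 780) (PT.nd (nat_lit 390) (PT.nd (nat_lit 156) (PT.nd (nat_lit 78) (PT.lf (nat_lit 31008) (nat_lit 6) (nat_lit 408) (nat_lit 4) (nat_lit 191) (nat_lit 209) (nat_lit 200)) (PT.lf (nat_lit 30932) (nat_lit 6) (nat_lit 407) (nat_lit 4) (nat_lit 192) (nat_lit 209) (nat_lit 199))) (PT.nd (nat_lit 78) (PT.lf (nat_lit 30856) (nat_lit 6) (nat_lit 406) (nat_lit 4) (nat_lit 193) (nat_lit 209) (nat_lit 198)) (PT.nd (nat_lit 78) (PT.lf (nat_lit 30780) (nat_lit 6) (nat_lit 405) (nat_lit 4) (nat_lit 194) (nat_lit 209) (nat_lit 197)) (PT.lf (nat_lit 30704) (nat_lit 6) (nat_lit 404) (nat_lit 4) (nat_lit 195) (nat_lit 209) (nat_lit 196))))) (PT.nd (nat_lit 156) (PT.nd (nat_lit 78) (PT.lf (nat_lit 30704) (nat_lit 6) (nat_lit 404) (nat_lit 2) (nat_lit 196) (nat_lit 209) (nat_lit 195)) (PT.lf (nat_lit 30780) (nat_lit 6) (nat_lit 405) (nat_lit 2) (nat_lit 197) (nat_lit 209) (nat_lit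 194))) (PT.nd (nat_lit 78) (PT.lf (nat_lit 30856) (nat_lit 6) (nat_lit 406) (nat_lit 2) (nat_lit 198) (nat_lit 209) (nat_lit 193)) (PT.nd (nat_lit 78) (PT.lf (nat_lit 30932) (nat_lit 6) (nat_lit 407) (nat_lit 2) (nat_lit 199) (nat_lit 209) (nat_lit 192)) (PT.lf (nat_lit 31008) (nat_lit 6) (nat_lit 408) (nat_lit 2) (nat_lit 200) (nat_lit 209) (nat_lit 191)))))) (PT.nd (nat_lit 390) (PT.nd (nat_lit 156) (PT.nd (nat_lit 78) (PT.lf (nat_lit 30324) (nat_lit 6) (nat_lit 399) (nat_lit 2) (nat_lit 201) (nat_lit 209) (nat_lit 190)) (PT.lf (nat_lit 29564) (nat_lit 6) (nat_lit 389) (nat_lit 2) (nat_lit 202) (nat_lit 209) (nat_lit 189))) (PT.nd (nat_lit 78) (PT.lf (nat_lit 28728) (nat_lit 6) (nat_lit 378) (nat_lit 2) (nat_lit 203) (nat_lit 209) (nat_lit 188)) (PT.nd (nat_lit 78) (PT.lf (nat_lit 27816) (nat_lit 6) (nat_lit 366) (nat_lit 2) (nat_lit 204) (nat_lit 209) (nat_lit 187)) (PT.lf (nat_lit 26828) (nat_lit 6) (nat_lit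 353) (nat_lit 2) (nat_lit 205) (nat_lit 209) (nat_lit 186))))) (PT.nd (nat_lit 156) (PT.nd (nat_lit 78) (PT.lf (nat_lit 25764) (nat_lit 6) (nat_lit 339) (nat_lit 2) (nat_lit 206) (nat_lit 209) (nat_lit 185)) (PT.lf (nat_lit 24624) (nat_lit 6) (nat_lit 324) (nat_lit 2) (nat_lit 207) (nat_lit 209) (nat_lit 184))) (PT.nd (nat_lit 78) (PT.lf (nat_lit 23408) (nat_lit 6) (nat_lit 308) (nat_lit 2) (nat_lit 208) (nat_lit 209) (nat_lit 183)) (PT.nd (nat_lit 78) (PT.lf (nat_lit 22572) (nat_lit 3) (nat_lit 297) (nat_lit 0) (nat_lit 209) (nat_lit 209) (nat_lit 182)) (PT.lf (nat_lit 21888) (nat_lit 6) (nat_lit 288) (nat_lit 0) (nat_lit 210) (nat_lit 209) (nat_lit 181))))))))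
noncomputable def pc35 : PT := (PT.nd (nat_lit 59982) (PT.nd (nat_lit 702) (PT.nd (nat_lit 312) (PT.nd (nat_lit 156) (PT.nd (nat_lit 78) (PT.lf (nat_lit 21204) (nat_lit 6) (nat_lit 279) (nat_lit 0) (nat_lit 211) (nat_lit 209) (nat_lit 180)) (PT.lf (nat_lit 20596) (nat_lit 6) (nat_lit 271) (nat_lit 0) (nat_lit 212) (nat_lit 209) (nat_lit 179))) (PT.nd (nat_lit 78) (PT.lf (nat_lit 19912) (nat_lit 6) (nat_lit 262) (nat_lit 0) (nat_lit 213) (nat_lit 209) (nat_lit 178)) (PT.lf (nat_lit 19304) (nat_lit 6) (nat_lit 254) (nat_lit 0) (nat_lit 214) (nat_lit 209) (nat_lit 177)))) (PT.nd (nat_lit 156) (PT.nd (nat_lit 78) (PT.lf (nat_lit 18696) (nat_lit 6) (nat_lit 246) (nat_lit 0) (nat_lit 215) (nat_lit 209) (nat_lit 176)) (PT.lf (nat_lit 18164) (nat_lit 6) (nat_lit 239) (nat_lit 0) (nat_lit 216) (nat_lit 209) (nat_lit 175))) (PT.nd (nat_lit 78) (PT.lf (nat_lit 17632) (nat_lit 6) (nat_lit 232) (nat_lit 0) (nat_lit 217) (nat_lit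 209) (nat_lit 174)) (PT.nd (nat_lit 78) (PT.lf (nat_lit 17100) (nat_lit 6) (nat_lit 225) (nat_lit 0) (nat_lit 218) (nat_lit 209) (nat_lit 173)) (PT.lf (nat_lit 16568) (nat_lit 6) (nat_lit 218) (nat_lit 0) (nat_lit 219) (nat_lit 209) (nat_lit 172)))))) (PT.nd (nat_lit 58890) (PT.nd (nat_lit 58656) (PT.nd (nat_lit 58578) (PT.lf (nat_lit 16112) (nat_lit 6) (nat_lit 212) (nat_lit 0) (nat_lit 220) (nat_lit 209) (nat_lit 171)) (PT.lf (nat_lit 15656) (nat_lit 6) (nat_lit 206) (nat_lit 5) (nat_lit 170) (nat_lit 210) (nat_lit 220))) (PT.nd (nat_lit 78) (PT.lf (nat_lit 16188) (nat_lit 6) (nat_lit 213) (nat_lit 5) (nat_lit 171) (nat_lit 210) (nat_lit 219)) (PT.nd (nat_lit 78) (PT.lf (nat_lit 16644) (nat_lit 6) (nat_lit 219) (nat_lit 5) (nat_lit 172) (nat_lit 210) (nat_lit 218)) (PT.lf (nat_lit 17176) (nat_lit 6) (nat_lit 226) (nat_lit 5) (nat_lit 173) (nat_lit 210) (nat_lit 217))))) (PT.nd (nat_lit 156) (PT.nd (nat_lit 78)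 (PT.lf (nat_lit 17708) (nat_lit 6) (nat_lit 233) (nat_lit 5) (nat_lit 174) (nat_lit 210) (nat_lit 216)) (PT.lf (nat_lit 18240) (nat_lit 6) (nat_lit 240) (nat_lit 5) (nat_lit 175) (nat_lit 210) (nat_lit 215))) (PT.nd (nat_lit 78) (PT.lf (nat_lit 18772) (nat_lit 6) (nat_lit 247) (nat_lit 5) (nat_lit 176) (nat_lit 210) (nat_lit 214)) (PT.nd (nat_lit 78) (PT.lf (nat_lit 19380) (nat_lit 6) (nat_lit 255) (nat_lit 5) (nat_lit 177) (nat_lit 210) (nat_lit 213)) (PT.lf (nat_lit 19988) (nat_lit 6) (nat_lit 263) (nat_lit 5) (nat_lit 178) (nat_lit 210) (nat_lit 212))))))) (PT.nd (nat_lit 780) (PT.nd (nat_lit 390) (PT.nd (nat_lit 156) (PT.nd (nat_lit 78) (PT.lf (nat_lit 20672) (nat_lit 6) (nat_lit 272) (nat_lit 5) (nat_lit 179) (nat_lit 210) (nat_lit 211)) (PT.lf (nat_lit 21280) (nat_lit 3) (nat_lit 280) (nat_lit 4) (nat_lit 180) (nat_lit 210) (nat_lit 210))) (PT.nd (nat_lit 78) (PT.lf (nat_lit 21888) (nat_lit 6) (nat_lit 288)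 (nat_lit 4) (nat_lit 181) (nat_lit 210) (nat_lit 209)) (PT.nd (nat_lit 78) (PT.lf (nat_lit 22496) (nat_lit 6) (nat_lit 296) (nat_lit 4) (nat_lit 182) (nat_lit 210) (nat_lit 208)) (PT.lf (nat_lit 23332) (nat_lit 6) (nat_lit 307) (nat_lit 4) (nat_lit 183) (nat_lit 210) (nat_lit 207))))) (PT.nd (nat_lit 156) (PT.nd (nat_lit 78) (PT.lf (nat_lit 24548) (nat_lit 6) (nat_lit 323) (nat_lit 4) (nat_lit 184) (nat_lit 210) (nat_lit 206)) (PT.lf (nat_lit 25688) (nat_lit 6) (nat_lit 338) (nat_lit 4) (nat_lit 185) (nat_lit 210) (nat_lit 205))) (PT.nd (nat_lit 78) (PT.lf (nat_lit 26752) (nat_lit 6) (nat_lit 352) (nat_lit 4) (nat_lit 186) (nat_lit 210) (nat_lit 204)) (PT.nd (nat_lit 78) (PT.lf (nat_lit 27740) (nat_lit 6) (nat_lit 365) (nat_lit 4) (nat_lit 187) (nat_lit 210) (nat_lit 203)) (PT.lf (nat_lit 28652) (nat_lit 6) (nat_lit 377) (nat_lit 4) (nat_lit 188) (nat_lit 210) (nat_lit 202)))))) (PT.nd (nat_lit 390) (PT.nd (nat_lit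 156) (PT.nd (nat_lit 78) (PT.lf (nat_lit 29488) (nat_lit 6) (nat_lit 388) (nat_lit 4) (nat_lit 189) (nat_lit 210) (nat_lit 201)) (PT.lf (nat_lit 30248) (nat_lit 6) (nat_lit 398) (nat_lit 4) (nat_lit 190) (nat_lit 210) (nat_lit 200))) (PT.nd (nat_lit 78) (PT.lf (nat_lit 30172) (nat_lit 6) (nat_lit 397) (nat_lit 4) (nat_lit 191) (nat_lit 210) (nat_lit 199)) (PT.nd (nat_lit 78) (PT.lf (nat_lit 30096) (nat_lit 6) (nat_lit 396) (nat_lit 4) (nat_lit 192) (nat_lit 210) (nat_lit 198)) (PT.lf (nat_lit 30020) (nat_lit 6) (nat_lit 395) (nat_lit 4) (nat_lit 193) (nat_lit 210) (nat_lit 197))))) (PT.nd (nat_lit 156) (PT.nd (nat_lit 78) (PT.lf (nat_lit 29944) (nat_lit 6) (nat_lit 394) (nat_lit 4) (nat_lit 194) (nat_lit 210) (nat_lit 196)) (PT.lf (nat_lit 29868) (nat_lit 3) (nat_lit 393) (nat_lit 2) (nat_lit 195) (nat_lit 210) (nat_lit 195))) (PT.nd (nat_lit 78) (PT.lf (nat_lit 29944) (nat_lit 6) (nat_lit 394) (nat_lit 2) (nat_lit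 196) (nat_lit 210) (nat_lit 194)) (PT.nd (nat_lit 78) (PT.lf (nat_lit 30020) (nat_lit 6) (nat_lit 395) (nat_lit 2) (nat_lit 197) (nat_lit 210) (nat_lit 193)) (PT.lf (nat_lit 30096) (nat_lit 6) (nat_lit 396) (nat_lit 2) (nat_lit 198) (nat_lit 210) (nat_lit 192))))))))
noncomputable def pc36 : PT := (PT.nd (nat_lit 1482) (PT.nd (nat_lit 702) (PT.nd (nat_lit 312) (PT.nd (nat_lit 156) (PT.nd (nat_lit 78) (PT.lf (nat_lit 30172) (nat_lit 6) (nat_lit 397) (nat_lit 2) (nat_lit 199) (nat_lit 210) (nat_lit 191)) (PT.lf (nat_lit 30248) (nat_lit 6) (nat_lit 398) (nat_lit 2) (nat_lit 200) (nat_lit 210) (nat_lit 190))) (PT.nd (nat_lit 78) (PT.lf (nat_lit 29488) (nat_lit 6) (nat_lit 388) (nat_lit 2) (nat_lit 201) (nat_lit 210) (nat_lit 189)) (PT.lf (nat_lit 28652) (nat_lit 6) (nat_lit 377) (nat_lit 2) (nat_lit 202) (nat_lit 210) (nat_lit 188)))) (PT.nd (nat_lit 156) (PT.nd (nat_lit 78) (PT.lf (nat_lit 27740) (nat_lit 6) (nat_lit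 365) (nat_lit 2) (nat_lit 203) (nat_lit 210) (nat_lit 187)) (PT.lf (nat_lit 26752) (nat_lit 6) (nat_lit 352) (nat_lit 2) (nat_lit 204) (nat_lit 210) (nat_lit 186))) (PT.nd (nat_lit 78) (PT.lf (nat_lit 25688) (nat_lit 6) (nat_lit 338) (nat_lit 2) (nat_lit 205) (nat_lit 210) (nat_lit 185)) (PT.nd (nat_lit 78) (PT.lf (nat_lit 24548) (nat_lit 6) (nat_lit 323) (nat_lit 2) (nat_lit 206) (nat_lit 210) (nat_lit 184)) (PT.lf (nat_lit 23332) (nat_lit 6) (nat_lit 307) (nat_lit 2) (nat_lit 207) (nat_lit 210) (nat_lit 183)))))) (PT.nd (nat_lit 390) (PT.nd (nat_lit 156) (PT.nd (nat_lit 78) (PT.lf (nat_lit 22496) (nat_lit 6) (nat_lit 296) (nat_lit 2) (nat_lit 208) (nat_lit 210) (nat_lit 182)) (PT.lf (nat_lit 21888) (nat_lit 6) (nat_lit 288) (nat_lit 2) (nat_lit 209) (nat_lit 210) (nat_lit 181))) (PT.nd (nat_lit 78) (PT.lf (nat_lit 21280) (nat_lit 3) (nat_lit 280) (nat_lit 0) (nat_lit 210) (nat_lit 210) (nat_lit 180)) (PT.nd (nat_lit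 78) (PT.lf (nat_lit 20672) (nat_lit 6) (nat_lit 272) (nat_lit 0) (nat_lit 211) (nat_lit 210) (nat_lit 179)) (PT.lf (nat_lit 19988) (nat_lit 6) (nat_lit 263) (nat_lit 0) (nat_lit 212) (nat_lit 210) (nat_lit 178))))) (PT.nd (nat_lit 156) (PT.nd (nat_lit 78) (PT.lf (nat_lit 19380) (nat_lit 6) (nat_lit 255) (nat_lit 0) (nat_lit 213) (nat_lit 210) (nat_lit 177)) (PT.lf (nat_lit 18772) (nat_lit 6) (nat_lit 247) (nat_lit 0) (nat_lit 214) (nat_lit 210) (nat_lit 176))) (PT.nd (nat_lit 78) (PT.lf (nat_lit 18240) (nat_lit 6) (nat_lit 240) (nat_lit 0) (nat_lit 215) (nat_lit 210) (nat_lit 175)) (PT.nd (nat_lit 78) (PT.lf (nat_lit 17708) (nat_lit 6) (nat_lit 233) (nat_lit 0) (nat_lit 216) (nat_lit 210) (nat_lit 174)) (PT.lf (nat_lit 17176) (nat_lit 6) (nat_lit 226) (nat_lit 0) (nat_lit 217) (nat_lit 210) (nat_lit 173))))))) (PT.nd (nat_lit 59202) (PT.nd (nat_lit 58812) (PT.nd (nat_lit 156) (PT.nd (nat_lit 78) (PT.lf (nat_lit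 16644) (nat_lit 6) (nat_lit 219) (nat_lit 0) (nat_lit 218) (nat_lit 210) (nat_lit 172)) (PT.lf (nat_lit 16188) (nat_lit 6) (nat_lit 213) (nat_lit 0) (nat_lit 219) (nat_lit 210) (nat_lit 171))) (PT.nd (nat_lit 58500) (PT.lf (nat_lit 15656) (nat_lit 6) (nat_lit 206) (nat_lit 0) (nat_lit 220) (nat_lit 210) (nat_lit 170)) (PT.nd (nat_lit 78) (PT.lf (nat_lit 15276) (nat_lit 6) (nat_lit 201) (nat_lit 5) (nat_lit 169) (nat_lit 211) (nat_lit 220)) (PT.lf (nat_lit 15732) (nat_lit 6) (nat_lit 207) (nat_lit 5) (nat_lit 170) (nat_lit 211) (nat_lit 219))))) (PT.nd (nat_lit 156) (PT.nd (nat_lit 78) (PT.lf (nat_lit 16264) (nat_lit 6) (nat_lit 214) (nat_lit 5) (nat_lit 171) (nat_lit 211) (nat_lit 218)) (PT.lf (nat_lit 16720) (nat_lit 6) (nat_lit 220) (nat_lit 5) (nat_lit 172) (nat_lit 211) (nat_lit 217))) (PT.nd (nat_lit 78) (PT.lf (nat_lit 17252) (nat_lit 6) (nat_lit 227) (nat_lit 5) (nat_lit 173) (nat_lit 211) (nat_lit 216))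 (PT.nd (nat_lit 78) (PT.lf (nat_lit 17784) (nat_lit 6) (nat_lit 234) (nat_lit 5) (nat_lit 174) (nat_lit 211) (nat_lit 215)) (PT.lf (nat_lit 18316) (nat_lit 6) (nat_lit 241) (nat_lit 5) (nat_lit 175) (nat_lit 211) (nat_lit 214)))))) (PT.nd (nat_lit 390) (PT.nd (nat_lit 156) (PT.nd (nat_lit 78) (PT.lf (nat_lit 18848) (nat_lit 6) (nat_lit 248) (nat_lit 5) (nat_lit 176) (nat_lit 211) (nat_lit 213)) (PT.lf (nat_lit 19456) (nat_lit 6) (nat_lit 256) (nat_lit 5) (nat_lit 177) (nat_lit 211) (nat_lit 212))) (PT.nd (nat_lit 78) (PT.lf (nat_lit 20064) (nat_lit 3) (nat_lit 264) (nat_lit 4) (nat_lit 178) (nat_lit 211) (nat_lit 211)) (PT.nd (nat_lit 78) (PT.lf (nat_lit 20672) (nat_lit 6) (nat_lit 272) (nat_lit 4) (nat_lit 179) (nat_lit 211) (nat_lit 210)) (PT.lf (nat_lit 21204) (nat_lit 6) (nat_lit 279) (nat_lit 4) (nat_lit 180) (nat_lit 211) (nat_lit 209))))) (PT.nd (nat_lit 156) (PT.nd (nat_lit 78) (PT.lf (nat_lit 21812) (nat_lit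 6) (nat_lit 287) (nat_lit 4) (nat_lit 181) (nat_lit 211) (nat_lit 208)) (PT.lf (nat_lit 22420) (nat_lit 6) (nat_lit 295) (nat_lit 4) (nat_lit 182) (nat_lit 211) (nat_lit 207))) (PT.nd (nat_lit 78) (PT.lf (nat_lit 23256) (nat_lit 6) (nat_lit 306) (nat_lit 4) (nat_lit 183) (nat_lit 211) (nat_lit 206)) (PT.nd (nat_lit 78) (PT.lf (nat_lit 24472) (nat_lit 6) (nat_lit 322) (nat_lit 4) (nat_lit 184) (nat_lit 211) (nat_lit 205)) (PT.lf (nat_lit 25612) (nat_lit 6) (nat_lit 337) (nat_lit 4) (nat_lit 185) (nat_lit 211) (nat_lit 204))))))))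
noncomputable def pc37 : PT := (PT.nd (nat_lit 1482) (PT.nd (nat_lit 702) (PT.nd (nat_lit 312) (PT.nd (nat_lit 156) (PT.nd (nat_lit 78) (PT.lf (nat_lit 26676) (nat_lit 6) (nat_lit 351) (nat_lit 4) (nat_lit 186) (nat_lit 211) (nat_lit 203)) (PT.lf (nat_lit 27664) (nat_lit 6) (nat_lit 364) (nat_lit 4) (nat_lit 187) (nat_lit 211) (nat_lit 202))) (PT.nd (nat_lit 78) (PT.lf (nat_lit 28576) (nat_lit 6) (nat_lit 376) (nat_lit 4) (nat_lit 188) (nat_lit 211) (nat_lit 201)) (PT.lf (nat_lit 29412) (nat_lit 6) (nat_lit 387) (nat_lit 4) (nat_lit 189) (nat_lit 211) (nat_lit 200)))) (PT.nd (nat_lit 156) (PT.nd (nat_lit 78) (PT.lf (nat_lit 29336) (nat_lit 6) (nat_lit 386) (nat_lit 4) (nat_lit 190) (nat_lit 211) (nat_lit 199)) (PT.lf (nat_lit 29260) (nat_lit 6) (nat_lit 385) (nat_lit 4) (nat_lit 191) (nat_lit 211) (nat_lit 198))) (PT.nd (nat_lit 78) (PT.lf (nat_lit 29184) (nat_lit 6) (nat_lit 384) (nat_lit 4) (nat_lit 192) (nat_lit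 211) (nat_lit 197)) (PT.nd (nat_lit 78) (PT.lf (nat_lit 29108) (nat_lit 6) (nat_lit 383) (nat_lit 4) (nat_lit 193) (nat_lit 211) (nat_lit 196)) (PT.lf (nat_lit 29032) (nat_lit 6) (nat_lit 382) (nat_lit 4) (nat_lit 194) (nat_lit 211) (nat_lit 195)))))) (PT.nd (nat_lit 390) (PT.nd (nat_lit 156) (PT.nd (nat_lit 78) (PT.lf (nat_lit 29032) (nat_lit 6) (nat_lit 382) (nat_lit 2) (nat_lit 195) (nat_lit 211) (nat_lit 194)) (PT.lf (nat_lit 29108) (nat_lit 6) (nat_lit 383) (nat_lit 2) (nat_lit 196) (nat_lit 211) (nat_lit 193))) (PT.nd (nat_lit 78) (PT.lf (nat_lit 29184) (nat_lit 6) (nat_lit 384) (nat_lit 2) (nat_lit 197) (nat_lit 211) (nat_lit 192)) (PT.nd (nat_lit 78) (PT.lf (nat_lit 29260) (nat_lit 6) (nat_lit 385) (nat_lit 2) (nat_lit 198) (nat_lit 211) (nat_lit 191)) (PT.lf (nat_lit 29336) (nat_lit 6) (nat_lit 386) (nat_lit 2) (nat_lit 199) (nat_lit 211) (nat_lit 190))))) (PT.nd (nat_lit 156) (PT.nd (nat_lit 78) (PT.lf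 (nat_lit 29412) (nat_lit 6) (nat_lit 387) (nat_lit 2) (nat_lit 200) (nat_lit 211) (nat_lit 189)) (PT.lf (nat_lit 28576) (nat_lit 6) (nat_lit 376) (nat_lit 2) (nat_lit 201) (nat_lit 211) (nat_lit 188))) (PT.nd (nat_lit 78) (PT.lf (nat_lit 27664) (nat_lit 6) (nat_lit 364) (nat_lit 2) (nat_lit 202) (nat_lit 211) (nat_lit 187)) (PT.nd (nat_lit 78) (PT.lf (nat_lit 26676) (nat_lit 6) (nat_lit 351) (nat_lit 2) (nat_lit 203) (nat_lit 211) (nat_lit 186)) (PT.lf (nat_lit 25612) (nat_lit 6) (nat_lit 337) (nat_lit 2) (nat_lit 204) (nat_lit 211) (nat_lit 185))))))) (PT.nd (nat_lit 780) (PT.nd (nat_lit 390) (PT.nd (nat_lit 156) (PT.nd (nat_lit 78) (PT.lf (nat_lit 24472) (nat_lit 6) (nat_lit 322) (nat_lit 2) (nat_lit 205) (nat_lit 211) (nat_lit 184)) (PT.lf (nat_lit 23256) (nat_lit 6) (nat_lit 306) (nat_lit 2) (nat_lit 206) (nat_lit 211) (nat_lit 183))) (PT.nd (nat_lit 78) (PT.lf (nat_lit 22420) (nat_lit 6) (nat_lit 295) (nat_lit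 2) (nat_lit 207) (nat_lit 211) (nat_lit 182)) (PT.nd (nat_lit 78) (PT.lf (nat_lit 21812) (nat_lit 6) (nat_lit 287) (nat_lit 2) (nat_lit 208) (nat_lit 211) (nat_lit 181)) (PT.lf (nat_lit 21204) (nat_lit 6) (nat_lit 279) (nat_lit 2) (nat_lit 209) (nat_lit 211) (nat_lit 180))))) (PT.nd (nat_lit 156) (PT.nd (nat_lit 78) (PT.lf (nat_lit 20672) (nat_lit 6) (nat_lit 272) (nat_lit 2) (nat_lit 210) (nat_lit 211) (nat_lit 179)) (PT.lf (nat_lit 20064) (nat_lit 3) (nat_lit 264) (nat_lit 0) (nat_lit 211) (nat_lit 211) (nat_lit 178))) (PT.nd (nat_lit 78) (PT.lf (nat_lit 19456) (nat_lit 6) (nat_lit 256) (nat_lit 0) (nat_lit 212) (nat_lit 211) (nat_lit 177)) (PT.nd (nat_lit 78) (PT.lf (nat_lit 18848) (nat_lit 6) (nat_lit 248) (nat_lit 0) (nat_lit 213) (nat_lit 211) (nat_lit 176)) (PT.lf (nat_lit 18316) (nat_lit 6) (nat_lit 241) (nat_lit 0) (nat_lit 214) (nat_lit 211) (nat_lit 175)))))) (PT.nd (nat_lit 390) (PT.nd (nat_lit 156)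 (PT.nd (nat_lit 78) (PT.lf (nat_lit 17784) (nat_lit 6) (nat_lit 234) (nat_lit 0) (nat_lit 215) (nat_lit 211) (nat_lit 174)) (PT.lf (nat_lit 17252) (nat_lit 6) (nat_lit 227) (nat_lit 0) (nat_lit 216) (nat_lit 211) (nat_lit 173))) (PT.nd (nat_lit 78) (PT.lf (nat_lit 16720) (nat_lit 6) (nat_lit 220) (nat_lit 0) (nat_lit 217) (nat_lit 211) (nat_lit 172)) (PT.nd (nat_lit 78) (PT.lf (nat_lit 16264) (nat_lit 6) (nat_lit 214) (nat_lit 0) (nat_lit 218) (nat_lit 211) (nat_lit 171)) (PT.lf (nat_lit 15732) (nat_lit 6) (nat_lit 207) (nat_lit 0) (nat_lit 219) (nat_lit 211) (nat_lit 170))))) (PT.nd (nat_lit 58422) (PT.nd (nat_lit 58344) (PT.lf (nat_lit 15276) (nat_lit 6) (nat_lit 201) (nat_lit 0) (nat_lit 220) (nat_lit 211) (nat_lit 169)) (PT.lf (nat_lit 14516) (nat_lit 6) (nat_lit 191) (nat_lit 5) (nat_lit 167) (nat_lit 212) (nat_lit 221))) (PT.nd (nat_lit 78) (PT.lf (nat_lit 14896) (nat_lit 6) (nat_lit 196) (nat_lit 5) (nat_lit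 168) (nat_lit 212) (nat_lit 220)) (PT.nd (nat_lit 78) (PT.lf (nat_lit 15352) (nat_lit 6) (nat_lit 202) (nat_lit 5) (nat_lit 169) (nat_lit 212) (nat_lit 219)) (PT.lf (nat_lit 15808) (nat_lit 6) (nat_lit 208) (nat_lit 5) (nat_lit 170) (nat_lit 212) (nat_lit 218))))))))
noncomputable def pc38 : PT := (PT.nd (nat_lit 1482) (PT.nd (nat_lit 702) (PT.nd (nat_lit 312) (PT.nd (nat_lit 156) (PT.nd (nat_lit 78) (PT.lf (nat_lit 16340) (nat_lit 6) (nat_lit 215) (nat_lit 5) (nat_lit 171) (nat_lit 212) (nat_lit 217)) (PT.lf (nat_lit 16796) (nat_lit 6) (nat_lit 221) (nat_lit 5) (nat_lit 172) (nat_lit 212) (nat_lit 216))) (PT.nd (nat_lit 78) (PT.lf (nat_lit 17328) (nat_lit 6) (nat_lit 228) (nat_lit 5) (nat_lit 173) (nat_lit 212) (nat_lit 215)) (PT.lf (nat_lit 17860) (nat_lit 6) (nat_lit 235) (nat_lit 5) (nat_lit 174) (nat_lit 212) (nat_lit 214)))) (PT.nd (nat_lit 156) (PT.nd (nat_lit 78) (PT.lf (nat_lit 18392) (nat_lit 6) (nat_lit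 242) (nat_lit 5) (nat_lit 175) (nat_lit 212) (nat_lit 213)) (PT.lf (nat_lit 18924) (nat_lit 3) (nat_lit 249) (nat_lit 4) (nat_lit 176) (nat_lit 212) (nat_lit 212))) (PT.nd (nat_lit 78) (PT.lf (nat_lit 19456) (nat_lit 6) (nat_lit 256) (nat_lit 4) (nat_lit 177) (nat_lit 212) (nat_lit 211)) (PT.nd (nat_lit 78) (PT.lf (nat_lit 19988) (nat_lit 6) (nat_lit 263) (nat_lit 4) (nat_lit 178) (nat_lit 212) (nat_lit 210)) (PT.lf (nat_lit 20596) (nat_lit 6) (nat_lit 271) (nat_lit 4) (nat_lit 179) (nat_lit 212) (nat_lit 209)))))) (PT.nd (nat_lit 390) (PT.nd (nat_lit 156) (PT.nd (nat_lit 78) (PT.lf (nat_lit 21128) (nat_lit 6) (nat_lit 278) (nat_lit 4) (nat_lit 180) (nat_lit 212) (nat_lit 208)) (PT.lf (nat_lit 21736) (nat_lit 6) (nat_lit 286) (nat_lit 4) (nat_lit 181) (nat_lit 212) (nat_lit 207))) (PT.nd (nat_lit 78) (PT.lf (nat_lit 22344) (nat_lit 6) (nat_lit 294) (nat_lit 4) (nat_lit 182) (nat_lit 212) (nat_lit 206)) (PT.nd (nat_lit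 78) (PT.lf (nat_lit 23180) (nat_lit 6) (nat_lit 305) (nat_lit 4) (nat_lit 183) (nat_lit 212) (nat_lit 205)) (PT.lf (nat_lit 24396) (nat_lit 6) (nat_lit 321) (nat_lit 4) (nat_lit 184) (nat_lit 212) (nat_lit 204))))) (PT.nd (nat_lit 156) (PT.nd (nat_lit 78) (PT.lf (nat_lit 25536) (nat_lit 6) (nat_lit 336) (nat_lit 4) (nat_lit 185) (nat_lit 212) (nat_lit 203)) (PT.lf (nat_lit 26600) (nat_lit 6) (nat_lit 350) (nat_lit 4) (nat_lit 186) (nat_lit 212) (nat_lit 202))) (PT.nd (nat_lit 78) (PT.lf (nat_lit 27588) (nat_lit 6) (nat_lit 363) (nat_lit 4) (nat_lit 187) (nat_lit 212) (nat_lit 201)) (PT.nd (nat_lit 78) (PT.lf (nat_lit 28500) (nat_lit 6) (nat_lit 375) (nat_lit 4) (nat_lit 188) (nat_lit 212) (nat_lit 200)) (PT.lf (nat_lit 28424) (nat_lit 6) (nat_lit 374) (nat_lit 4) (nat_lit 189) (nat_lit 212) (nat_lit 199))))))) (PT.nd (nat_lit 780) (PT.nd (nat_lit 390) (PT.nd (nat_lit 156) (PT.nd (nat_lit 78) (PT.lf (nat_lit 28348)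 (nat_lit 6) (nat_lit 373) (nat_lit 4) (nat_lit 190) (nat_lit 212) (nat_lit 198)) (PT.lf (nat_lit 28272) (nat_lit 6) (nat_lit 372) (nat_lit 4) (nat_lit 191) (nat_lit 212) (nat_lit 197))) (PT.nd (nat_lit 78) (PT.lf (nat_lit 28196) (nat_lit 6) (nat_lit 371) (nat_lit 4) (nat_lit 192) (nat_lit 212) (nat_lit 196)) (PT.nd (nat_lit 78) (PT.lf (nat_lit 28120) (nat_lit 6) (nat_lit 370) (nat_lit 4) (nat_lit 193) (nat_lit 212) (nat_lit 195)) (PT.lf (nat_lit 28044) (nat_lit 3) (nat_lit 369) (nat_lit 2) (nat_lit 194) (nat_lit 212) (nat_lit 194))))) (PT.nd (nat_lit 156) (PT.nd (nat_lit 78) (PT.lf (nat_lit 28120) (nat_lit 6) (nat_lit 370) (nat_lit 2) (nat_lit 195) (nat_lit 212) (nat_lit 193)) (PT.lf (nat_lit 28196) (nat_lit 6) (nat_lit 371) (nat_lit 2) (nat_lit 196) (nat_lit 212) (nat_lit 192))) (PT.nd (nat_lit 78) (PT.lf (nat_lit 28272) (nat_lit 6) (nat_lit 372) (nat_lit 2) (nat_lit 197) (nat_lit 212) (nat_lit 191)) (PT.nd (nat_lit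 78) (PT.lf (nat_lit 28348) (nat_lit 6) (nat_lit 373) (nat_lit 2) (nat_lit 198) (nat_lit 212) (nat_lit 190)) (PT.lf (nat_lit 28424) (nat_lit 6) (nat_lit 374) (nat_lit 2) (nat_lit 199) (nat_lit 212) (nat_lit 189)))))) (PT.nd (nat_lit 390) (PT.nd (nat_lit 156) (PT.nd (nat_lit 78) (PT.lf (nat_lit 28500) (nat_lit 6) (nat_lit 375) (nat_lit 2) (nat_lit 200) (nat_lit 212) (nat_lit 188)) (PT.lf (nat_lit 27588) (nat_lit 6) (nat_lit 363) (nat_lit 2) (nat_lit 201) (nat_lit 212) (nat_lit 187))) (PT.nd (nat_lit 78) (PT.lf (nat_lit 26600) (nat_lit 6) (nat_lit 350) (nat_lit 2) (nat_lit 202) (nat_lit 212) (nat_lit 186)) (PT.nd (nat_lit 78) (PT.lf (nat_lit 25536) (nat_lit 6) (nat_lit 336) (nat_lit 2) (nat_lit 203) (nat_lit 212) (nat_lit 185)) (PT.lf (nat_lit 24396) (nat_lit 6) (nat_lit 321) (nat_lit 2) (nat_lit 204) (nat_lit 212) (nat_lit 184))))) (PT.nd (nat_lit 156) (PT.nd (nat_lit 78) (PT.lf (nat_lit 23180) (nat_lit 6) (nat_lit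 305) (nat_lit 2) (nat_lit 205) (nat_lit 212) (nat_lit 183)) (PT.lf (nat_lit 22344) (nat_lit 6) (nat_lit 294) (nat_lit 2) (nat_lit 206) (nat_lit 212) (nat_lit 182))) (PT.nd (nat_lit 78) (PT.lf (nat_lit 21736) (nat_lit 6) (nat_lit 286) (nat_lit 2) (nat_lit 207) (nat_lit 212) (nat_lit 181)) (PT.nd (nat_lit 78) (PT.lf (nat_lit 21128) (nat_lit 6) (nat_lit 278) (nat_lit 2) (nat_lit 208) (nat_lit 212) (nat_lit 180)) (PT.lf (nat_lit 20596) (nat_lit 6) (nat_lit 271) (nat_lit 2) (nat_lit 209) (nat_lit 212) (nat_lit 179))))))))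
noncomputable def pc39 : PT := (PT.nd (nat_lit 59592) (PT.nd (nat_lit 702) (PT.nd (nat_lit 312) (PT.nd (nat_lit 156) (PT.nd (nat_lit 78) (PT.lf (nat_lit 19988) (nat_lit 6) (nat_lit 263) (nat_lit 2) (nat_lit 210) (nat_lit 212) (nat_lit 178)) (PT.lf (nat_lit 19456) (nat_lit 6) (nat_lit 256) (nat_lit 2) (nat_lit 211) (nat_lit 212) (nat_lit 177))) (PT.nd (nat_lit 78) (PT.lf (nat_lit 18924) (nat_lit 3) (nat_lit 249) (nat_lit 0) (nat_lit 212) (nat_lit 212) (nat_lit 176)) (PT.lf (nat_lit 18392) (nat_lit 6) (nat_lit 242) (nat_lit 0) (nat_lit 213) (nat_lit 212) (nat_lit 175)))) (PT.nd (nat_lit 156) (PT.nd (nat_lit 78) (PT.lf (nat_lit 17860) (nat_lit 6) (nat_lit 235) (nat_lit 0) (nat_lit 214) (nat_lit 212) (nat_lit 174)) (PT.lf (nat_lit 17328) (nat_lit 6) (nat_lit 228) (nat_lit 0) (nat_lit 215) (nat_lit 212) (nat_lit 173))) (PT.nd (nat_lit 78) (PT.lf (nat_lit 16796) (nat_lit 6) (nat_lit 221) (nat_lit 0) (nat_lit 216) (nat_lit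 212) (nat_lit 172)) (PT.nd (nat_lit 78) (PT.lf (nat_lit 16340) (nat_lit 6) (nat_lit 215) (nat_lit 0) (nat_lit 217) (nat_lit 212) (nat_lit 171)) (PT.lf (nat_lit 15808) (nat_lit 6) (nat_lit 208) (nat_lit 0) (nat_lit 218) (nat_lit 212) (nat_lit 170)))))) (PT.nd (nat_lit 58500) (PT.nd (nat_lit 156) (PT.nd (nat_lit 78) (PT.lf (nat_lit 15352) (nat_lit 6) (nat_lit 202) (nat_lit 0) (nat_lit 219) (nat_lit 212) (nat_lit 169)) (PT.lf (nat_lit 14896) (nat_lit 6) (nat_lit 196) (nat_lit 0) (nat_lit 220) (nat_lit 212) (nat_lit 168))) (PT.nd (nat_lit 58188) (PT.lf (nat_lit 14516) (nat_lit 6) (nat_lit 191) (nat_lit 0) (nat_lit 221) (nat_lit 212) (nat_lit 167)) (PT.nd (nat_lit 78) (PT.lf (nat_lit 14136) (nat_lit 6) (nat_lit 186) (nat_lit 5) (nat_lit 166) (nat_lit 213) (nat_lit 221)) (PT.lf (nat_lit 14592) (nat_lit 6) (nat_lit 192) (nat_lit 5) (nat_lit 167) (nat_lit 213) (nat_lit 220))))) (PT.nd (nat_lit 156) (PT.nd (nat_lit 78)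 (PT.lf (nat_lit 14972) (nat_lit 6) (nat_lit 197) (nat_lit 5) (nat_lit 168) (nat_lit 213) (nat_lit 219)) (PT.lf (nat_lit 15428) (nat_lit 6) (nat_lit 203) (nat_lit 5) (nat_lit 169) (nat_lit 213) (nat_lit 218))) (PT.nd (nat_lit 78) (PT.lf (nat_lit 15884) (nat_lit 6) (nat_lit 209) (nat_lit 5) (nat_lit 170) (nat_lit 213) (nat_lit 217)) (PT.nd (nat_lit 78) (PT.lf (nat_lit 16416) (nat_lit 6) (nat_lit 216) (nat_lit 5) (nat_lit 171) (nat_lit 213) (nat_lit 216)) (PT.lf (nat_lit 16872) (nat_lit 6) (nat_lit 222) (nat_lit 5) (nat_lit 172) (nat_lit 213) (nat_lit 215))))))) (PT.nd (nat_lit 780) (PT.nd (nat_lit 390) (PT.nd (nat_lit 156) (PT.nd (nat_lit 78) (PT.lf (nat_lit 17404) (nat_lit 6) (nat_lit 229) (nat_lit 5) (nat_lit 173) (nat_lit 213) (nat_lit 214)) (PT.lf (nat_lit 17936) (nat_lit 3) (nat_lit 236) (nat_lit 4) (nat_lit 174) (nat_lit 213) (nat_lit 213))) (PT.nd (nat_lit 78) (PT.lf (nat_lit 18392) (nat_lit 6) (nat_lit 242)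 (nat_lit 4) (nat_lit 175) (nat_lit 213) (nat_lit 212)) (PT.nd (nat_lit 78) (PT.lf (nat_lit 18848) (nat_lit 6) (nat_lit 248) (nat_lit 4) (nat_lit 176) (nat_lit 213) (nat_lit 211)) (PT.lf (nat_lit 19380) (nat_lit 6) (nat_lit 255) (nat_lit 4) (nat_lit 177) (nat_lit 213) (nat_lit 210))))) (PT.nd (nat_lit 156) (PT.nd (nat_lit 78) (PT.lf (nat_lit 19912) (nat_lit 6) (nat_lit 262) (nat_lit 4) (nat_lit 178) (nat_lit 213) (nat_lit 209)) (PT.lf (nat_lit 20520) (nat_lit 6) (nat_lit 270) (nat_lit 4) (nat_lit 179) (nat_lit 213) (nat_lit 208))) (PT.nd (nat_lit 78) (PT.lf (nat_lit 21052) (nat_lit 6) (nat_lit 277) (nat_lit 4) (nat_lit 180) (nat_lit 213) (nat_lit 207)) (PT.nd (nat_lit 78) (PT.lf (nat_lit 21660) (nat_lit 6) (nat_lit 285) (nat_lit 4) (nat_lit 181) (nat_lit 213) (nat_lit 206)) (PT.lf (nat_lit 22268) (nat_lit 6) (nat_lit 293) (nat_lit 4) (nat_lit 182) (nat_lit 213) (nat_lit 205)))))) (PT.nd (nat_lit 390) (PT.nd (nat_lit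 156) (PT.nd (nat_lit 78) (PT.lf (nat_lit 23104) (nat_lit 6) (nat_lit 304) (nat_lit 4) (nat_lit 183) (nat_lit 213) (nat_lit 204)) (PT.lf (nat_lit 24320) (nat_lit 6) (nat_lit 320) (nat_lit 4) (nat_lit 184) (nat_lit 213) (nat_lit 203))) (PT.nd (nat_lit 78) (PT.lf (nat_lit 25460) (nat_lit 6) (nat_lit 335) (nat_lit 4) (nat_lit 185) (nat_lit 213) (nat_lit 202)) (PT.nd (nat_lit 78) (PT.lf (nat_lit 26524) (nat_lit 6) (nat_lit 349) (nat_lit 4) (nat_lit 186) (nat_lit 213) (nat_lit 201)) (PT.lf (nat_lit 27512) (nat_lit 6) (nat_lit 362) (nat_lit 4) (nat_lit 187) (nat_lit 213) (nat_lit 200))))) (PT.nd (nat_lit 156) (PT.nd (nat_lit 78) (PT.lf (nat_lit 27436) (nat_lit 6) (nat_lit 361) (nat_lit 4) (nat_lit 188) (nat_lit 213) (nat_lit 199)) (PT.lf (nat_lit 27360) (nat_lit 6) (nat_lit 360) (nat_lit 4) (nat_lit 189) (nat_lit 213) (nat_lit 198))) (PT.nd (nat_lit 78) (PT.lf (nat_lit 27284) (nat_lit 6) (nat_lit 359) (nat_lit 4) (nat_lit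 190) (nat_lit 213) (nat_lit 197)) (PT.nd (nat_lit 78) (PT.lf (nat_lit 27208) (nat_lit 6) (nat_lit 358) (nat_lit 4) (nat_lit 191) (nat_lit 213) (nat_lit 196)) (PT.lf (nat_lit 27132) (nat_lit 6) (nat_lit 357) (nat_lit 4) (nat_lit 192) (nat_lit 213) (nat_lit 195))))))))
noncomputable def pc40 : PT := (PT.nd (nat_lit 1482) (PT.nd (nat_lit 702) (PT.nd (nat_lit 312) (PT.nd (nat_lit 156) (PT.nd (nat_lit 78) (PT.lf (nat_lit 27056) (nat_lit 6) (nat_lit 356) (nat_lit 4) (nat_lit 193) (nat_lit 213) (nat_lit 194)) (PT.lf (nat_lit 27056) (nat_lit 6) (nat_lit 356) (nat_lit 2) (nat_lit 194) (nat_lit 213) (nat_lit 193))) (PT.nd (nat_lit 78) (PT.lf (nat_lit 27132) (nat_lit 6) (nat_lit 357) (nat_lit 2) (nat_lit 195) (nat_lit 213) (nat_lit 192)) (PT.lf (nat_lit 27208) (nat_lit 6) (nat_lit 358) (nat_lit 2) (nat_lit 196) (nat_lit 213) (nat_lit 191)))) (PT.nd (nat_lit 156) (PT.nd (nat_lit 78) (PT.lf (nat_lit 27284) (nat_lit 6) (nat_lit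 359) (nat_lit 2) (nat_lit 197) (nat_lit 213) (nat_lit 190)) (PT.lf (nat_lit 27360) (nat_lit 6) (nat_lit 360) (nat_lit 2) (nat_lit 198) (nat_lit 213) (nat_lit 189))) (PT.nd (nat_lit 78) (PT.lf (nat_lit 27436) (nat_lit 6) (nat_lit 361) (nat_lit 2) (nat_lit 199) (nat_lit 213) (nat_lit 188)) (PT.nd (nat_lit 78) (PT.lf (nat_lit 27512) (nat_lit 6) (nat_lit 362) (nat_lit 2) (nat_lit 200) (nat_lit 213) (nat_lit 187)) (PT.lf (nat_lit 26524) (nat_lit 6) (nat_lit 349) (nat_lit 2) (nat_lit 201) (nat_lit 213) (nat_lit 186)))))) (PT.nd (nat_lit 390) (PT.nd (nat_lit 156) (PT.nd (nat_lit 78) (PT.lf (nat_lit 25460) (nat_lit 6) (nat_lit 335) (nat_lit 2) (nat_lit 202) (nat_lit 213) (nat_lit 185)) (PT.lf (nat_lit 24320) (nat_lit 6) (nat_lit 320) (nat_lit 2) (nat_lit 203) (nat_lit 213) (nat_lit 184))) (PT.nd (nat_lit 78) (PT.lf (nat_lit 23104) (nat_lit 6) (nat_lit 304) (nat_lit 2) (nat_lit 204) (nat_lit 213) (nat_lit 183)) (PT.nd (nat_lit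 78) (PT.lf (nat_lit 22268) (nat_lit 6) (nat_lit 293) (nat_lit 2) (nat_lit 205) (nat_lit 213) (nat_lit 182)) (PT.lf (nat_lit 21660) (nat_lit 6) (nat_lit 285) (nat_lit 2) (nat_lit 206) (nat_lit 213) (nat_lit 181))))) (PT.nd (nat_lit 156) (PT.nd (nat_lit 78) (PT.lf (nat_lit 21052) (nat_lit 6) (nat_lit 277) (nat_lit 2) (nat_lit 207) (nat_lit 213) (nat_lit 180)) (PT.lf (nat_lit 20520) (nat_lit 6) (nat_lit 270) (nat_lit 2) (nat_lit 208) (nat_lit 213) (nat_lit 179))) (PT.nd (nat_lit 78) (PT.lf (nat_lit 19912) (nat_lit 6) (nat_lit 262) (nat_lit 2) (nat_lit 209) (nat_lit 213) (nat_lit 178)) (PT.nd (nat_lit 78) (PT.lf (nat_lit 19380) (nat_lit 6) (nat_lit 255) (nat_lit 2) (nat_lit 210) (nat_lit 213) (nat_lit 177)) (PT.lf (nat_lit 18848) (nat_lit 6) (nat_lit 248) (nat_lit 2) (nat_lit 211) (nat_lit 213) (nat_lit 176))))))) (PT.nd (nat_lit 58734) (PT.nd (nat_lit 390) (PT.nd (nat_lit 156) (PT.nd (nat_lit 78) (PT.lf (nat_lit 18392)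 (nat_lit 6) (nat_lit 242) (nat_lit 2) (nat_lit 212) (nat_lit 213) (nat_lit 175)) (PT.lf (nat_lit 17936) (nat_lit 3) (nat_lit 236) (nat_lit 0) (nat_lit 213) (nat_lit 213) (nat_lit 174))) (PT.nd (nat_lit 78) (PT.lf (nat_lit 17404) (nat_lit 6) (nat_lit 229) (nat_lit 0) (nat_lit 214) (nat_lit 213) (nat_lit 173)) (PT.nd (nat_lit 78) (PT.lf (nat_lit 16872) (nat_lit 6) (nat_lit 222) (nat_lit 0) (nat_lit 215) (nat_lit 213) (nat_lit 172)) (PT.lf (nat_lit 16416) (nat_lit 6) (nat_lit 216) (nat_lit 0) (nat_lit 216) (nat_lit 213) (nat_lit 171))))) (PT.nd (nat_lit 156) (PT.nd (nat_lit 78) (PT.lf (nat_lit 15884) (nat_lit 6) (nat_lit 209) (nat_lit 0) (nat_lit 217) (nat_lit 213) (nat_lit 170)) (PT.lf (nat_lit 15428) (nat_lit 6) (nat_lit 203) (nat_lit 0) (nat_lit 218) (nat_lit 213) (nat_lit 169))) (PT.nd (nat_lit 78) (PT.lf (nat_lit 14972) (nat_lit 6) (nat_lit 197) (nat_lit 0) (nat_lit 219) (nat_lit 213) (nat_lit 168)) (PT.nd (nat_lit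 78) (PT.lf (nat_lit 14592) (nat_lit 6) (nat_lit 192) (nat_lit 0) (nat_lit 220) (nat_lit 213) (nat_lit 167)) (PT.lf (nat_lit 14136) (nat_lit 6) (nat_lit 186) (nat_lit 0) (nat_lit 221) (nat_lit 213) (nat_lit 166)))))) (PT.nd (nat_lit 390) (PT.nd (nat_lit 156) (PT.nd (nat_lit 78) (PT.lf (nat_lit 13452) (nat_lit 6) (nat_lit 177) (nat_lit 5) (nat_lit 164) (nat_lit 214) (nat_lit 222)) (PT.lf (nat_lit 13832) (nat_lit 6) (nat_lit 182) (nat_lit 5) (nat_lit 165) (nat_lit 214) (nat_lit 221))) (PT.nd (nat_lit 78) (PT.lf (nat_lit 14212) (nat_lit 6) (nat_lit 187) (nat_lit 5) (nat_lit 166) (nat_lit 214) (nat_lit 220)) (PT.nd (nat_lit 78) (PT.lf (nat_lit 14668) (nat_lit 6) (nat_lit 193) (nat_lit 5) (nat_lit 167) (nat_lit 214) (nat_lit 219)) (PT.lf (nat_lit 15048) (nat_lit 6) (nat_lit 198) (nat_lit 5) (nat_lit 168) (nat_lit 214) (nat_lit 218))))) (PT.nd (nat_lit 156) (PT.nd (nat_lit 78) (PT.lf (nat_lit 15504) (nat_lit 6) (nat_lit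 204) (nat_lit 5) (nat_lit 169) (nat_lit 214) (nat_lit 217)) (PT.lf (nat_lit 15960) (nat_lit 6) (nat_lit 210) (nat_lit 5) (nat_lit 170) (nat_lit 214) (nat_lit 216))) (PT.nd (nat_lit 78) (PT.lf (nat_lit 16492) (nat_lit 6) (nat_lit 217) (nat_lit 5) (nat_lit 171) (nat_lit 214) (nat_lit 215)) (PT.nd (nat_lit 78) (PT.lf (nat_lit 16948) (nat_lit 3) (nat_lit 223) (nat_lit 4) (nat_lit 172) (nat_lit 214) (nat_lit 214)) (PT.lf (nat_lit 17404) (nat_lit 6) (nat_lit 229) (nat_lit 4) (nat_lit 173) (nat_lit 214) (nat_lit 213))))))))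
noncomputable def pc41 : PT := (PT.nd (nat_lit 1482) (PT.nd (nat_lit 702) (PT.nd (nat_lit 312) (PT.nd (nat_lit 156) (PT.nd (nat_lit 78) (PT.lf (nat_lit 17860) (nat_lit 6) (nat_lit 235) (nat_lit 4) (nat_lit 174) (nat_lit 214) (nat_lit 212)) (PT.lf (nat_lit 18316) (nat_lit 6) (nat_lit 241) (nat_lit 4) (nat_lit 175) (nat_lit 214) (nat_lit 211))) (PT.nd (nat_lit 78) (PT.lf (nat_lit 18772) (nat_lit 6) (nat_lit 247) (nat_lit 4) (nat_lit 176) (nat_lit 214) (nat_lit 210)) (PT.lf (nat_lit 19304) (nat_lit 6) (nat_lit 254) (nat_lit 4) (nat_lit 177) (nat_lit 214) (nat_lit 209)))) (PT.nd (nat_lit 156) (PT.nd (nat_lit 78) (PT.lf (nat_lit 19836) (nat_lit 6) (nat_lit 261) (nat_lit 4) (nat_lit 178) (nat_lit 214) (nat_lit 208)) (PT.lf (nat_lit 20444) (nat_lit 6) (nat_lit 269) (nat_lit 4) (nat_lit 179) (nat_lit 214) (nat_lit 207))) (PT.nd (nat_lit 78) (PT.lf (nat_lit 20976) (nat_lit 6) (nat_lit 276) (nat_lit 4) (nat_lit 180) (nat_lit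 214) (nat_lit 206)) (PT.nd (nat_lit 78) (PT.lf (nat_lit 21584) (nat_lit 6) (nat_lit 284) (nat_lit 4) (nat_lit 181) (nat_lit 214) (nat_lit 205)) (PT.lf (nat_lit 22192) (nat_lit 6) (nat_lit 292) (nat_lit 4) (nat_lit 182) (nat_lit 214) (nat_lit 204)))))) (PT.nd (nat_lit 390) (PT.nd (nat_lit 156) (PT.nd (nat_lit 78) (PT.lf (nat_lit 23028) (nat_lit 6) (nat_lit 303) (nat_lit 4) (nat_lit 183) (nat_lit 214) (nat_lit 203)) (PT.lf (nat_lit 24244) (nat_lit 6) (nat_lit 319) (nat_lit 4) (nat_lit 184) (nat_lit 214) (nat_lit 202))) (PT.nd (nat_lit 78) (PT.lf (nat_lit 25384) (nat_lit 6) (nat_lit 334) (nat_lit 4) (nat_lit 185) (nat_lit 214) (nat_lit 201)) (PT.nd (nat_lit 78) (PT.lf (nat_lit 26448) (nat_lit 6) (nat_lit 348) (nat_lit 4) (nat_lit 186) (nat_lit 214) (nat_lit 200)) (PT.lf (nat_lit 26372) (nat_lit 6) (nat_lit 347) (nat_lit 4) (nat_lit 187) (nat_lit 214) (nat_lit 199))))) (PT.nd (nat_lit 156) (PT.nd (nat_lit 78) (PT.lf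 (nat_lit 26296) (nat_lit 6) (nat_lit 346) (nat_lit 4) (nat_lit 188) (nat_lit 214) (nat_lit 198)) (PT.lf (nat_lit 26220) (nat_lit 6) (nat_lit 345) (nat_lit 4) (nat_lit 189) (nat_lit 214) (nat_lit 197))) (PT.nd (nat_lit 78) (PT.lf (nat_lit 26144) (nat_lit 6) (nat_lit 344) (nat_lit 4) (nat_lit 190) (nat_lit 214) (nat_lit 196)) (PT.nd (nat_lit 78) (PT.lf (nat_lit 26068) (nat_lit 6) (nat_lit 343) (nat_lit 4) (nat_lit 191) (nat_lit 214) (nat_lit 195)) (PT.lf (nat_lit 25992) (nat_lit 6) (nat_lit 342) (nat_lit 4) (nat_lit 192) (nat_lit 214) (nat_lit 194))))))) (PT.nd (nat_lit 780) (PT.nd (nat_lit 390) (PT.nd (nat_lit 156) (PT.nd (nat_lit 78) (PT.lf (nat_lit 25916) (nat_lit 3) (nat_lit 341) (nat_lit 2) (nat_lit 193) (nat_lit 214) (nat_lit 193)) (PT.lf (nat_lit 25992) (nat_lit 6) (nat_lit 342) (nat_lit 2) (nat_lit 194) (nat_lit 214) (nat_lit 192))) (PT.nd (nat_lit 78) (PT.lf (nat_lit 26068) (nat_lit 6) (nat_lit 343) (nat_lit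 2) (nat_lit 195) (nat_lit 214) (nat_lit 191)) (PT.nd (nat_lit 78) (PT.lf (nat_lit 26144) (nat_lit 6) (nat_lit 344) (nat_lit 2) (nat_lit 196) (nat_lit 214) (nat_lit 190)) (PT.lf (nat_lit 26220) (nat_lit 6) (nat_lit 345) (nat_lit 2) (nat_lit 197) (nat_lit 214) (nat_lit 189))))) (PT.nd (nat_lit 156) (PT.nd (nat_lit 78) (PT.lf (nat_lit 26296) (nat_lit 6) (nat_lit 346) (nat_lit 2) (nat_lit 198) (nat_lit 214) (nat_lit 188)) (PT.lf (nat_lit 26372) (nat_lit 6) (nat_lit 347) (nat_lit 2) (nat_lit 199) (nat_lit 214) (nat_lit 187))) (PT.nd (nat_lit 78) (PT.lf (nat_lit 26448) (nat_lit 6) (nat_lit 348) (nat_lit 2) (nat_lit 200) (nat_lit 214) (nat_lit 186)) (PT.nd (nat_lit 78) (PT.lf (nat_lit 25384) (nat_lit 6) (nat_lit 334) (nat_lit 2) (nat_lit 201) (nat_lit 214) (nat_lit 185)) (PT.lf (nat_lit 24244) (nat_lit 6) (nat_lit 319) (nat_lit 2) (nat_lit 202) (nat_lit 214) (nat_lit 184)))))) (PT.nd (nat_lit 390) (PT.nd (nat_lit 156)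 (PT.nd (nat_lit 78) (PT.lf (nat_lit 23028) (nat_lit 6) (nat_lit 303) (nat_lit 2) (nat_lit 203) (nat_lit 214) (nat_lit 183)) (PT.lf (nat_lit 22192) (nat_lit 6) (nat_lit 292) (nat_lit 2) (nat_lit 204) (nat_lit 214) (nat_lit 182))) (PT.nd (nat_lit 78) (PT.lf (nat_lit 21584) (nat_lit 6) (nat_lit 284) (nat_lit 2) (nat_lit 205) (nat_lit 214) (nat_lit 181)) (PT.nd (nat_lit 78) (PT.lf (nat_lit 20976) (nat_lit 6) (nat_lit 276) (nat_lit 2) (nat_lit 206) (nat_lit 214) (nat_lit 180)) (PT.lf (nat_lit 20444) (nat_lit 6) (nat_lit 269) (nat_lit 2) (nat_lit 207) (nat_lit 214) (nat_lit 179))))) (PT.nd (nat_lit 156) (PT.nd (nat_lit 78) (PT.lf (nat_lit 19836) (nat_lit 6) (nat_lit 261) (nat_lit 2) (nat_lit 208) (nat_lit 214) (nat_lit 178)) (PT.lf (nat_lit 19304) (nat_lit 6) (nat_lit 254) (nat_lit 2) (nat_lit 209) (nat_lit 214) (nat_lit 177))) (PT.nd (nat_lit 78) (PT.lf (nat_lit 18772) (nat_lit 6) (nat_lit 247) (nat_lit 2) (nat_lit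 210) (nat_lit 214) (nat_lit 176)) (PT.nd (nat_lit 78) (PT.lf (nat_lit 18316) (nat_lit 6) (nat_lit 241) (nat_lit 2) (nat_lit 211) (nat_lit 214) (nat_lit 175)) (PT.lf (nat_lit 17860) (nat_lit 6) (nat_lit 235) (nat_lit 2) (nat_lit 212) (nat_lit 214) (nat_lit 174))))))))
noncomputable def pc42 : PT := (PT.nd (nat_lit 59202) (PT.nd (nat_lit 702) (PT.nd (nat_lit 312) (PT.nd (nat_lit 156) (PT.nd (nat_lit 78) (PT.lf (nat_lit 17404) (nat_lit 6) (nat_lit 229) (nat_lit 2) (nat_lit 213) (nat_lit 214) (nat_lit 173)) (PT.lf (nat_lit 16948) (nat_lit 3) (nat_lit 223) (nat_lit 0) (nat_lit 214) (nat_lit 214) (nat_lit 172))) (PT.nd (nat_lit 78) (PT.lf (nat_lit 16492) (nat_lit 6) (nat_lit 217) (nat_lit 0) (nat_lit 215) (nat_lit 214) (nat_lit 171)) (PT.lf (nat_lit 15960) (nat_lit 6) (nat_lit 210) (nat_lit 0) (nat_lit 216) (nat_lit 214) (nat_lit 170)))) (PT.nd (nat_lit 156) (PT.nd (nat_lit 78) (PT.lf (nat_lit 15504) (nat_lit 6) (nat_lit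 204) (nat_lit 0) (nat_lit 217) (nat_lit 214) (nat_lit 169)) (PT.lf (nat_lit 15048) (nat_lit 6) (nat_lit 198) (nat_lit 0) (nat_lit 218) (nat_lit 214) (nat_lit 168))) (PT.nd (nat_lit 78) (PT.lf (nat_lit 14668) (nat_lit 6) (nat_lit 193) (nat_lit 0) (nat_lit 219) (nat_lit 214) (nat_lit 167)) (PT.nd (nat_lit 78) (PT.lf (nat_lit 14212) (nat_lit 6) (nat_lit 187) (nat_lit 0) (nat_lit 220) (nat_lit 214) (nat_lit 166)) (PT.lf (nat_lit 13832) (nat_lit 6) (nat_lit 182) (nat_lit 0) (nat_lit 221) (nat_lit 214) (nat_lit 165)))))) (PT.nd (nat_lit 58110) (PT.nd (nat_lit 57876) (PT.nd (nat_lit 57798) (PT.lf (nat_lit 13452) (nat_lit 6) (nat_lit 177) (nat_lit 0) (nat_lit 222) (nat_lit 214) (nat_lit 164)) (PT.lf (nat_lit 12768) (nat_lit 6) (nat_lit 168) (nat_lit 5) (nat_lit 162) (nat_lit 215) (nat_lit 223))) (PT.nd (nat_lit 78) (PT.lf (nat_lit 13148) (nat_lit 6) (nat_lit 173) (nat_lit 5) (nat_lit 163) (nat_lit 215) (nat_lit 222)) (PT.nd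 (nat_lit 78) (PT.lf (nat_lit 13528) (nat_lit 6) (nat_lit 178) (nat_lit 5) (nat_lit 164) (nat_lit 215) (nat_lit 221)) (PT.lf (nat_lit 13908) (nat_lit 6) (nat_lit 183) (nat_lit 5) (nat_lit 165) (nat_lit 215) (nat_lit 220))))) (PT.nd (nat_lit 156) (PT.nd (nat_lit 78) (PT.lf (nat_lit 14288) (nat_lit 6) (nat_lit 188) (nat_lit 5) (nat_lit 166) (nat_lit 215) (nat_lit 219)) (PT.lf (nat_lit 14744) (nat_lit 6) (nat_lit 194) (nat_lit 5) (nat_lit 167) (nat_lit 215) (nat_lit 218))) (PT.nd (nat_lit 78) (PT.lf (nat_lit 15124) (nat_lit 6) (nat_lit 199) (nat_lit 5) (nat_lit 168) (nat_lit 215) (nat_lit 217)) (PT.nd (nat_lit 78) (PT.lf (nat_lit 15580) (nat_lit 6) (nat_lit 205) (nat_lit 5) (nat_lit 169) (nat_lit 215) (nat_lit 216)) (PT.lf (nat_lit 16036) (nat_lit 3) (nat_lit 211) (nat_lit 4) (nat_lit 170) (nat_lit 215) (nat_lit 215))))))) (PT.nd (nat_lit 780) (PT.nd (nat_lit 390) (PT.nd (nat_lit 156) (PT.nd (nat_lit 78) (PT.lf (nat_lit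 16492) (nat_lit 6) (nat_lit 217) (nat_lit 4) (nat_lit 171) (nat_lit 215) (nat_lit 214)) (PT.lf (nat_lit 16872) (nat_lit 6) (nat_lit 222) (nat_lit 4) (nat_lit 172) (nat_lit 215) (nat_lit 213))) (PT.nd (nat_lit 78) (PT.lf (nat_lit 17328) (nat_lit 6) (nat_lit 228) (nat_lit 4) (nat_lit 173) (nat_lit 215) (nat_lit 212)) (PT.nd (nat_lit 78) (PT.lf (nat_lit 17784) (nat_lit 6) (nat_lit 234) (nat_lit 4) (nat_lit 174) (nat_lit 215) (nat_lit 211)) (PT.lf (nat_lit 18240) (nat_lit 6) (nat_lit 240) (nat_lit 4) (nat_lit 175) (nat_lit 215) (nat_lit 210))))) (PT.nd (nat_lit 156) (PT.nd (nat_lit 78) (PT.lf (nat_lit 18696) (nat_lit 6) (nat_lit 246) (nat_lit 4) (nat_lit 176) (nat_lit 215) (nat_lit 209)) (PT.lf (nat_lit 19228) (nat_lit 6) (nat_lit 253) (nat_lit 4) (nat_lit 177) (nat_lit 215) (nat_lit 208))) (PT.nd (nat_lit 78) (PT.lf (nat_lit 19760) (nat_lit 6) (nat_lit 260) (nat_lit 4) (nat_lit 178) (nat_lit 215) (nat_lit 207)) (PT.nd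 (nat_lit 78) (PT.lf (nat_lit 20368) (nat_lit 6) (nat_lit 268) (nat_lit 4) (nat_lit 179) (nat_lit 215) (nat_lit 206)) (PT.lf (nat_lit 20900) (nat_lit 6) (nat_lit 275) (nat_lit 4) (nat_lit 180) (nat_lit 215) (nat_lit 205)))))) (PT.nd (nat_lit 390) (PT.nd (nat_lit 156) (PT.nd (nat_lit 78) (PT.lf (nat_lit 21508) (nat_lit 6) (nat_lit 283) (nat_lit 4) (nat_lit 181) (nat_lit 215) (nat_lit 204)) (PT.lf (nat_lit 22116) (nat_lit 6) (nat_lit 291) (nat_lit 4) (nat_lit 182) (nat_lit 215) (nat_lit 203))) (PT.nd (nat_lit 78) (PT.lf (nat_lit 22952) (nat_lit 6) (nat_lit 302) (nat_lit 4) (nat_lit 183) (nat_lit 215) (nat_lit 202)) (PT.nd (nat_lit 78) (PT.lf (nat_lit 24168) (nat_lit 6) (nat_lit 318) (nat_lit 4) (nat_lit 184) (nat_lit 215) (nat_lit 201)) (PT.lf (nat_lit 25308) (nat_lit 6) (nat_lit 333) (nat_lit 4) (nat_lit 185) (nat_lit 215) (nat_lit 200))))) (PT.nd (nat_lit 156) (PT.nd (nat_lit 78) (PT.lf (nat_lit 25232) (nat_lit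 6) (nat_lit 332) (nat_lit 4) (nat_lit 186) (nat_lit 215) (nat_lit 199)) (PT.lf (nat_lit 25156) (nat_lit 6) (nat_lit 331) (nat_lit 4) (nat_lit 187) (nat_lit 215) (nat_lit 198))) (PT.nd (nat_lit 78) (PT.lf (nat_lit 25080) (nat_lit 6) (nat_lit 330) (nat_lit 4) (nat_lit 188) (nat_lit 215) (nat_lit 197)) (PT.nd (nat_lit 78) (PT.lf (nat_lit 25004) (nat_lit 6) (nat_lit 329) (nat_lit 4) (nat_lit 189) (nat_lit 215) (nat_lit 196)) (PT.lf (nat_lit 24928) (nat_lit 6) (nat_lit 328) (nat_lit 4) (nat_lit 190) (nat_lit 215) (nat_lit 195))))))))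
noncomputable def pc43 : PT := (PT.nd (nat_lit 1482) (PT.nd (nat_lit 702) (PT.nd (nat_lit 312) (PT.nd (nat_lit 156) (PT.nd (nat_lit 78) (PT.lf (nat_lit 24852) (nat_lit 6) (nat_lit 327) (nat_lit 4) (nat_lit 191) (nat_lit 215) (nat_lit 194)) (PT.lf (nat_lit 24776) (nat_lit 6) (nat_lit 326) (nat_lit 4) (nat_lit 192) (nat_lit 215) (nat_lit 193))) (PT.nd (nat_lit 78) (PT.lf (nat_lit 24776) (nat_lit 6) (nat_lit 326) (nat_lit 2) (nat_lit 193) (nat_lit 215) (nat_lit 192)) (PT.lf (nat_lit 24852) (nat_lit 6) (nat_lit 327) (nat_lit 2) (nat_lit 194) (nat_lit 215) (nat_lit 191)))) (PT.nd (nat_lit 156) (PT.nd (nat_lit 78) (PT.lf (nat_lit 24928) (nat_lit 6) (nat_lit 328) (nat_lit 2) (nat_lit 195) (nat_lit 215) (nat_lit 190)) (PT.lf (nat_lit 25004) (nat_lit 6) (nat_lit 329) (nat_lit 2) (nat_lit 196) (nat_lit 215) (nat_lit 189))) (PT.nd (nat_lit 78) (PT.lf (nat_lit 25080) (nat_lit 6) (nat_lit 330) (nat_lit 2) (nat_lit 197) (nat_lit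 215) (nat_lit 188)) (PT.nd (nat_lit 78) (PT.lf (nat_lit 25156) (nat_lit 6) (nat_lit 331) (nat_lit 2) (nat_lit 198) (nat_lit 215) (nat_lit 187)) (PT.lf (nat_lit 25232) (nat_lit 6) (nat_lit 332) (nat_lit 2) (nat_lit 199) (nat_lit 215) (nat_lit 186)))))) (PT.nd (nat_lit 390) (PT.nd (nat_lit 156) (PT.nd (nat_lit 78) (PT.lf (nat_lit 25308) (nat_lit 6) (nat_lit 333) (nat_lit 2) (nat_lit 200) (nat_lit 215) (nat_lit 185)) (PT.lf (nat_lit 24168) (nat_lit 6) (nat_lit 318) (nat_lit 2) (nat_lit 201) (nat_lit 215) (nat_lit 184))) (PT.nd (nat_lit 78) (PT.lf (nat_lit 22952) (nat_lit 6) (nat_lit 302) (nat_lit 2) (nat_lit 202) (nat_lit 215) (nat_lit 183)) (PT.nd (nat_lit 78) (PT.lf (nat_lit 22116) (nat_lit 6) (nat_lit 291) (nat_lit 2) (nat_lit 203) (nat_lit 215) (nat_lit 182)) (PT.lf (nat_lit 21508) (nat_lit 6) (nat_lit 283) (nat_lit 2) (nat_lit 204) (nat_lit 215) (nat_lit 181))))) (PT.nd (nat_lit 156) (PT.nd (nat_lit 78) (PT.lf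 (nat_lit 20900) (nat_lit 6) (nat_lit 275) (nat_lit 2) (nat_lit 205) (nat_lit 215) (nat_lit 180)) (PT.lf (nat_lit 20368) (nat_lit 6) (nat_lit 268) (nat_lit 2) (nat_lit 206) (nat_lit 215) (nat_lit 179))) (PT.nd (nat_lit 78) (PT.lf (nat_lit 19760) (nat_lit 6) (nat_lit 260) (nat_lit 2) (nat_lit 207) (nat_lit 215) (nat_lit 178)) (PT.nd (nat_lit 78) (PT.lf (nat_lit 19228) (nat_lit 6) (nat_lit 253) (nat_lit 2) (nat_lit 208) (nat_lit 215) (nat_lit 177)) (PT.lf (nat_lit 18696) (nat_lit 6) (nat_lit 246) (nat_lit 2) (nat_lit 209) (nat_lit 215) (nat_lit 176))))))) (PT.nd (nat_lit 780) (PT.nd (nat_lit 390) (PT.nd (nat_lit 156) (PT.nd (nat_lit 78) (PT.lf (nat_lit 18240) (nat_lit 6) (nat_lit 240) (nat_lit 2) (nat_lit 210) (nat_lit 215) (nat_lit 175)) (PT.lf (nat_lit 17784) (nat_lit 6) (nat_lit 234) (nat_lit 2) (nat_lit 211) (nat_lit 215) (nat_lit 174))) (PT.nd (nat_lit 78) (PT.lf (nat_lit 17328) (nat_lit 6) (nat_lit 228) (nat_lit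 2) (nat_lit 212) (nat_lit 215) (nat_lit 173)) (PT.nd (nat_lit 78) (PT.lf (nat_lit 16872) (nat_lit 6) (nat_lit 222) (nat_lit 2) (nat_lit 213) (nat_lit 215) (nat_lit 172)) (PT.lf (nat_lit 16492) (nat_lit 6) (nat_lit 217) (nat_lit 2) (nat_lit 214) (nat_lit 215) (nat_lit 171))))) (PT.nd (nat_lit 156) (PT.nd (nat_lit 78) (PT.lf (nat_lit 16036) (nat_lit 3) (nat_lit 211) (nat_lit 0) (nat_lit 215) (nat_lit 215) (nat_lit 170)) (PT.lf (nat_lit 15580) (nat_lit 6) (nat_lit 205) (nat_lit 0) (nat_lit 216) (nat_lit 215) (nat_lit 169))) (PT.nd (nat_lit 78) (PT.lf (nat_lit 15124) (nat_lit 6) (nat_lit 199) (nat_lit 0) (nat_lit 217) (nat_lit 215) (nat_lit 168)) (PT.nd (nat_lit 78) (PT.lf (nat_lit 14744) (nat_lit 6) (nat_lit 194) (nat_lit 0) (nat_lit 218) (nat_lit 215) (nat_lit 167)) (PT.lf (nat_lit 14288) (nat_lit 6) (nat_lit 188) (nat_lit 0) (nat_lit 219) (nat_lit 215) (nat_lit 166)))))) (PT.nd (nat_lit 57954) (PT.nd (nat_lit 156)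 (PT.nd (nat_lit 78) (PT.lf (nat_lit 13908) (nat_lit 6) (nat_lit 183) (nat_lit 0) (nat_lit 220) (nat_lit 215) (nat_lit 165)) (PT.lf (nat_lit 13528) (nat_lit 6) (nat_lit 178) (nat_lit 0) (nat_lit 221) (nat_lit 215) (nat_lit 164))) (PT.nd (nat_lit 78) (PT.lf (nat_lit 13148) (nat_lit 6) (nat_lit 173) (nat_lit 0) (nat_lit 222) (nat_lit 215) (nat_lit 163)) (PT.nd (nat_lit 57642) (PT.lf (nat_lit 12768) (nat_lit 6) (nat_lit 168) (nat_lit 0) (nat_lit 223) (nat_lit 215) (nat_lit 162)) (PT.lf (nat_lit 12464) (nat_lit 6) (nat_lit 164) (nat_lit 5) (nat_lit 161) (nat_lit 216) (nat_lit 223))))) (PT.nd (nat_lit 156) (PT.nd (nat_lit 78) (PT.lf (nat_lit 12844) (nat_lit 6) (nat_lit 169) (nat_lit 5) (nat_lit 162) (nat_lit 216) (nat_lit 222)) (PT.lf (nat_lit 13224) (nat_lit 6) (nat_lit 174) (nat_lit 5) (nat_lit 163) (nat_lit 216) (nat_lit 221))) (PT.nd (nat_lit 78) (PT.lf (nat_lit 13604) (nat_lit 6) (nat_lit 179) (nat_lit 5) (nat_lit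 164) (nat_lit 216) (nat_lit 220)) (PT.nd (nat_lit 78) (PT.lf (nat_lit 13984) (nat_lit 6) (nat_lit 184) (nat_lit 5) (nat_lit 165) (nat_lit 216) (nat_lit 219)) (PT.lf (nat_lit 14364) (nat_lit 6) (nat_lit 189) (nat_lit 5) (nat_lit 166) (nat_lit 216) (nat_lit 218))))))))
noncomputable def pc44 : PT := (PT.nd (nat_lit 1482) (PT.nd (nat_lit 702) (PT.nd (nat_lit 312) (PT.nd (nat_lit 156) (PT.nd (nat_lit 78) (PT.lf (nat_lit 14820) (nat_lit 6) (nat_lit 195) (nat_lit 5) (nat_lit 167) (nat_lit 216) (nat_lit 217)) (PT.lf (nat_lit 15200) (nat_lit 3) (nat_lit 200) (nat_lit 4) (nat_lit 168) (nat_lit 216) (nat_lit 216))) (PT.nd (nat_lit 78) (PT.lf (nat_lit 15580) (nat_lit 6) (nat_lit 205) (nat_lit 4) (nat_lit 169) (nat_lit 216) (nat_lit 215)) (PT.lf (nat_lit 15960) (nat_lit 6) (nat_lit 210) (nat_lit 4) (nat_lit 170) (nat_lit 216) (nat_lit 214)))) (PT.nd (nat_lit 156) (PT.nd (nat_lit 78) (PT.lf (nat_lit 16416) (nat_lit 6) (nat_lit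 216) (nat_lit 4) (nat_lit 171) (nat_lit 216) (nat_lit 213)) (PT.lf (nat_lit 16796) (nat_lit 6) (nat_lit 221) (nat_lit 4) (nat_lit 172) (nat_lit 216) (nat_lit 212))) (PT.nd (nat_lit 78) (PT.lf (nat_lit 17252) (nat_lit 6) (nat_lit 227) (nat_lit 4) (nat_lit 173) (nat_lit 216) (nat_lit 211)) (PT.nd (nat_lit 78) (PT.lf (nat_lit 17708) (nat_lit 6) (nat_lit 233) (nat_lit 4) (nat_lit 174) (nat_lit 216) (nat_lit 210)) (PT.lf (nat_lit 18164) (nat_lit 6) (nat_lit 239) (nat_lit 4) (nat_lit 175) (nat_lit 216) (nat_lit 209)))))) (PT.nd (nat_lit 390) (PT.nd (nat_lit 156) (PT.nd (nat_lit 78) (PT.lf (nat_lit 18620) (nat_lit 6) (nat_lit 245) (nat_lit 4) (nat_lit 176) (nat_lit 216) (nat_lit 208)) (PT.lf (nat_lit 19152) (nat_lit 6) (nat_lit 252) (nat_lit 4) (nat_lit 177) (nat_lit 216) (nat_lit 207))) (PT.nd (nat_lit 78) (PT.lf (nat_lit 19684) (nat_lit 6) (nat_lit 259) (nat_lit 4) (nat_lit 178) (nat_lit 216) (nat_lit 206)) (PT.nd (nat_lit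 78) (PT.lf (nat_lit 20292) (nat_lit 6) (nat_lit 267) (nat_lit 4) (nat_lit 179) (nat_lit 216) (nat_lit 205)) (PT.lf (nat_lit 20824) (nat_lit 6) (nat_lit 274) (nat_lit 4) (nat_lit 180) (nat_lit 216) (nat_lit 204))))) (PT.nd (nat_lit 156) (PT.nd (nat_lit 78) (PT.lf (nat_lit 21432) (nat_lit 6) (nat_lit 282) (nat_lit 4) (nat_lit 181) (nat_lit 216) (nat_lit 203)) (PT.lf (nat_lit 22040) (nat_lit 6) (nat_lit 290) (nat_lit 4) (nat_lit 182) (nat_lit 216) (nat_lit 202))) (PT.nd (nat_lit 78) (PT.lf (nat_lit 22876) (nat_lit 6) (nat_lit 301) (nat_lit 4) (nat_lit 183) (nat_lit 216) (nat_lit 201)) (PT.nd (nat_lit 78) (PT.lf (nat_lit 24092) (nat_lit 6) (nat_lit 317) (nat_lit 4) (nat_lit 184) (nat_lit 216) (nat_lit 200)) (PT.lf (nat_lit 24016) (nat_lit 6) (nat_lit 316) (nat_lit 4) (nat_lit 185) (nat_lit 216) (nat_lit 199))))))) (PT.nd (nat_lit 780) (PT.nd (nat_lit 390) (PT.nd (nat_lit 156) (PT.nd (nat_lit 78) (PT.lf (nat_lit 23940)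 (nat_lit 6) (nat_lit 315) (nat_lit 4) (nat_lit 186) (nat_lit 216) (nat_lit 198)) (PT.lf (nat_lit 23864) (nat_lit 6) (nat_lit 314) (nat_lit 4) (nat_lit 187) (nat_lit 216) (nat_lit 197))) (PT.nd (nat_lit 78) (PT.lf (nat_lit 23788) (nat_lit 6) (nat_lit 313) (nat_lit 4) (nat_lit 188) (nat_lit 216) (nat_lit 196)) (PT.nd (nat_lit 78) (PT.lf (nat_lit 23712) (nat_lit 6) (nat_lit 312) (nat_lit 4) (nat_lit 189) (nat_lit 216) (nat_lit 195)) (PT.lf (nat_lit 23636) (nat_lit 6) (nat_lit 311) (nat_lit 4) (nat_lit 190) (nat_lit 216) (nat_lit 194))))) (PT.nd (nat_lit 156) (PT.nd (nat_lit 78) (PT.lf (nat_lit 23560) (nat_lit 6) (nat_lit 310) (nat_lit 4) (nat_lit 191) (nat_lit 216) (nat_lit 193)) (PT.lf (nat_lit 23484) (nat_lit 3) (nat_lit 309) (nat_lit 2) (nat_lit 192) (nat_lit 216) (nat_lit 192))) (PT.nd (nat_lit 78) (PT.lf (nat_lit 23560) (nat_lit 6) (nat_lit 310) (nat_lit 2) (nat_lit 193) (nat_lit 216) (nat_lit 191)) (PT.nd (nat_lit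 78) (PT.lf (nat_lit 23636) (nat_lit 6) (nat_lit 311) (nat_lit 2) (nat_lit 194) (nat_lit 216) (nat_lit 190)) (PT.lf (nat_lit 23712) (nat_lit 6) (nat_lit 312) (nat_lit 2) (nat_lit 195) (nat_lit 216) (nat_lit 189)))))) (PT.nd (nat_lit 390) (PT.nd (nat_lit 156) (PT.nd (nat_lit 78) (PT.lf (nat_lit 23788) (nat_lit 6) (nat_lit 313) (nat_lit 2) (nat_lit 196) (nat_lit 216) (nat_lit 188)) (PT.lf (nat_lit 23864) (nat_lit 6) (nat_lit 314) (nat_lit 2) (nat_lit 197) (nat_lit 216) (nat_lit 187))) (PT.nd (nat_lit 78) (PT.lf (nat_lit 23940) (nat_lit 6) (nat_lit 315) (nat_lit 2) (nat_lit 198) (nat_lit 216) (nat_lit 186)) (PT.nd (nat_lit 78) (PT.lf (nat_lit 24016) (nat_lit 6) (nat_lit 316) (nat_lit 2) (nat_lit 199) (nat_lit 216) (nat_lit 185)) (PT.lf (nat_lit 24092) (nat_lit 6) (nat_lit 317) (nat_lit 2) (nat_lit 200) (nat_lit 216) (nat_lit 184))))) (PT.nd (nat_lit 156) (PT.nd (nat_lit 78) (PT.lf (nat_lit 22876) (nat_lit 6) (nat_lit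 301) (nat_lit 2) (nat_lit 201) (nat_lit 216) (nat_lit 183)) (PT.lf (nat_lit 22040) (nat_lit 6) (nat_lit 290) (nat_lit 2) (nat_lit 202) (nat_lit 216) (nat_lit 182))) (PT.nd (nat_lit 78) (PT.lf (nat_lit 21432) (nat_lit 6) (nat_lit 282) (nat_lit 2) (nat_lit 203) (nat_lit 216) (nat_lit 181)) (PT.nd (nat_lit 78) (PT.lf (nat_lit 20824) (nat_lit 6) (nat_lit 274) (nat_lit 2) (nat_lit 204) (nat_lit 216) (nat_lit 180)) (PT.lf (nat_lit 20292) (nat_lit 6) (nat_lit 267) (nat_lit 2) (nat_lit 205) (nat_lit 216) (nat_lit 179))))))))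
noncomputable def pc45 : PT := (PT.nd (nat_lit 58890) (PT.nd (nat_lit 702) (PT.nd (nat_lit 312) (PT.nd (nat_lit 156) (PT.nd (nat_lit 78) (PT.lf (nat_lit 19684) (nat_lit 6) (nat_lit 259) (nat_lit 2) (nat_lit 206) (nat_lit 216) (nat_lit 178)) (PT.lf (nat_lit 19152) (nat_lit 6) (nat_lit 252) (nat_lit 2) (nat_lit 207) (nat_lit 216) (nat_lit 177))) (PT.nd (nat_lit 78) (PT.lf (nat_lit 18620) (nat_lit 6) (nat_lit 245) (nat_lit 2) (nat_lit 208) (nat_lit 216) (nat_lit 176)) (PT.lf (nat_lit 18164) (nat_lit 6) (nat_lit 239) (nat_lit 2) (nat_lit 209) (nat_lit 216) (nat_lit 175)))) (PT.nd (nat_lit 156) (PT.nd (nat_lit 78) (PT.lf (nat_lit 17708) (nat_lit 6) (nat_lit 233) (nat_lit 2) (nat_lit 210) (nat_lit 216) (nat_lit 174)) (PT.lf (nat_lit 17252) (nat_lit 6) (nat_lit 227) (nat_lit 2) (nat_lit 211) (nat_lit 216) (nat_lit 173))) (PT.nd (nat_lit 78) (PT.lf (nat_lit 16796) (nat_lit 6) (nat_lit 221) (nat_lit 2) (nat_lit 212) (nat_lit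 216) (nat_lit 172)) (PT.nd (nat_lit 78) (PT.lf (nat_lit 16416) (nat_lit 6) (nat_lit 216) (nat_lit 2) (nat_lit 213) (nat_lit 216) (nat_lit 171)) (PT.lf (nat_lit 15960) (nat_lit 6) (nat_lit 210) (nat_lit 2) (nat_lit 214) (nat_lit 216) (nat_lit 170)))))) (PT.nd (nat_lit 390) (PT.nd (nat_lit 156) (PT.nd (nat_lit 78) (PT.lf (nat_lit 15580) (nat_lit 6) (nat_lit 205) (nat_lit 2) (nat_lit 215) (nat_lit 216) (nat_lit 169)) (PT.lf (nat_lit 15200) (nat_lit 3) (nat_lit 200) (nat_lit 0) (nat_lit 216) (nat_lit 216) (nat_lit 168))) (PT.nd (nat_lit 78) (PT.lf (nat_lit 14820) (nat_lit 6) (nat_lit 195) (nat_lit 0) (nat_lit 217) (nat_lit 216) (nat_lit 167)) (PT.nd (nat_lit 78) (PT.lf (nat_lit 14364) (nat_lit 6) (nat_lit 189) (nat_lit 0) (nat_lit 218) (nat_lit 216) (nat_lit 166)) (PT.lf (nat_lit 13984) (nat_lit 6) (nat_lit 184) (nat_lit 0) (nat_lit 219) (nat_lit 216) (nat_lit 165))))) (PT.nd (nat_lit 156) (PT.nd (nat_lit 78) (PT.lf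 (nat_lit 13604) (nat_lit 6) (nat_lit 179) (nat_lit 0) (nat_lit 220) (nat_lit 216) (nat_lit 164)) (PT.lf (nat_lit 13224) (nat_lit 6) (nat_lit 174) (nat_lit 0) (nat_lit 221) (nat_lit 216) (nat_lit 163))) (PT.nd (nat_lit 78) (PT.lf (nat_lit 12844) (nat_lit 6) (nat_lit 169) (nat_lit 0) (nat_lit 222) (nat_lit 216) (nat_lit 162)) (PT.nd (nat_lit 57486) (PT.lf (nat_lit 12464) (nat_lit 6) (nat_lit 164) (nat_lit 0) (nat_lit 223) (nat_lit 216) (nat_lit 161)) (PT.lf (nat_lit 11856) (nat_lit 6) (nat_lit 156) (nat_lit 5) (nat_lit 159) (nat_lit 217) (nat_lit 224))))))) (PT.nd (nat_lit 780) (PT.nd (nat_lit 390) (PT.nd (nat_lit 156) (PT.nd (nat_lit 78) (PT.lf (nat_lit 12160) (nat_lit 6) (nat_lit 160) (nat_lit 5) (nat_lit 160) (nat_lit 217) (nat_lit 223)) (PT.lf (nat_lit 12540) (nat_lit 6) (nat_lit 165) (nat_lit 5) (nat_lit 161) (nat_lit 217) (nat_lit 222))) (PT.nd (nat_lit 78) (PT.lf (nat_lit 12920) (nat_lit 6) (nat_lit 170) (nat_lit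 5) (nat_lit 162) (nat_lit 217) (nat_lit 221)) (PT.nd (nat_lit 78) (PT.lf (nat_lit 13300) (nat_lit 6) (nat_lit 175) (nat_lit 5) (nat_lit 163) (nat_lit 217) (nat_lit 220)) (PT.lf (nat_lit 13680) (nat_lit 6) (nat_lit 180) (nat_lit 5) (nat_lit 164) (nat_lit 217) (nat_lit 219))))) (PT.nd (nat_lit 156) (PT.nd (nat_lit 78) (PT.lf (nat_lit 14060) (nat_lit 6) (nat_lit 185) (nat_lit 5) (nat_lit 165) (nat_lit 217) (nat_lit 218)) (PT.lf (nat_lit 14440) (nat_lit 3) (nat_lit 190) (nat_lit 4) (nat_lit 166) (nat_lit 217) (nat_lit 217))) (PT.nd (nat_lit 78) (PT.lf (nat_lit 14820) (nat_lit 6) (nat_lit 195) (nat_lit 4) (nat_lit 167) (nat_lit 217) (nat_lit 216)) (PT.nd (nat_lit 78) (PT.lf (nat_lit 15124) (nat_lit 6) (nat_lit 199) (nat_lit 4) (nat_lit 168) (nat_lit 217) (nat_lit 215)) (PT.lf (nat_lit 15504) (nat_lit 6) (nat_lit 204) (nat_lit 4) (nat_lit 169) (nat_lit 217) (nat_lit 214)))))) (PT.nd (nat_lit 390) (PT.nd (nat_lit 156)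 (PT.nd (nat_lit 78) (PT.lf (nat_lit 15884) (nat_lit 6) (nat_lit 209) (nat_lit 4) (nat_lit 170) (nat_lit 217) (nat_lit 213)) (PT.lf (nat_lit 16340) (nat_lit 6) (nat_lit 215) (nat_lit 4) (nat_lit 171) (nat_lit 217) (nat_lit 212))) (PT.nd (nat_lit 78) (PT.lf (nat_lit 16720) (nat_lit 6) (nat_lit 220) (nat_lit 4) (nat_lit 172) (nat_lit 217) (nat_lit 211)) (PT.nd (nat_lit 78) (PT.lf (nat_lit 17176) (nat_lit 6) (nat_lit 226) (nat_lit 4) (nat_lit 173) (nat_lit 217) (nat_lit 210)) (PT.lf (nat_lit 17632) (nat_lit 6) (nat_lit 232) (nat_lit 4) (nat_lit 174) (nat_lit 217) (nat_lit 209))))) (PT.nd (nat_lit 156) (PT.nd (nat_lit 78) (PT.lf (nat_lit 18088) (nat_lit 6) (nat_lit 238) (nat_lit 4) (nat_lit 175) (nat_lit 217) (nat_lit 208)) (PT.lf (nat_lit 18544) (nat_lit 6) (nat_lit 244) (nat_lit 4) (nat_lit 176) (nat_lit 217) (nat_lit 207))) (PT.nd (nat_lit 78) (PT.lf (nat_lit 19076) (nat_lit 6) (nat_lit 251) (nat_lit 4) (nat_lit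 177) (nat_lit 217) (nat_lit 206)) (PT.nd (nat_lit 78) (PT.lf (nat_lit 19608) (nat_lit 6) (nat_lit 258) (nat_lit 4) (nat_lit 178) (nat_lit 217) (nat_lit 205)) (PT.lf (nat_lit 20216) (nat_lit 6) (nat_lit 266) (nat_lit 4) (nat_lit 179) (nat_lit 217) (nat_lit 204))))))))
noncomputable def pc46 : PT := (PT.nd (nat_lit 2418) (PT.nd (nat_lit 1638) (PT.nd (nat_lit 312) (PT.nd (nat_lit 156) (PT.nd (nat_lit 78) (PT.lf (nat_lit 20748) (nat_lit 6) (nat_lit 273) (nat_lit 4) (nat_lit 180) (nat_lit 217) (nat_lit 203)) (PT.lf (nat_lit 21356) (nat_lit 6) (nat_lit 281) (nat_lit 4) (nat_lit 181) (nat_lit 217) (nat_lit 202))) (PT.nd (nat_lit 78) (PT.lf (nat_lit 21964) (nat_lit 6) (nat_lit 289) (nat_lit 4) (nat_lit 182) (nat_lit 217) (nat_lit 201)) (PT.lf (nat_lit 22800) (nat_lit 6) (nat_lit 300) (nat_lit 4) (nat_lit 183) (nat_lit 217) (nat_lit 200)))) (PT.nd (nat_lit 1092) (PT.nd (nat_lit 78) (PT.lf (nat_lit 22724) (nat_lit 6) (nat_lit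 299) (nat_lit 4) (nat_lit 184) (nat_lit 217) (nat_lit 199)) (PT.lf (nat_lit 22648) (nat_lit 6) (nat_lit 298) (nat_lit 4) (nat_lit 185) (nat_lit 217) (nat_lit 198))) (PT.nd (nat_lit 78) (PT.lf (nat_lit 22648) (nat_lit 6) (nat_lit 298) (nat_lit 2) (nat_lit 198) (nat_lit 217) (nat_lit 185)) (PT.nd (nat_lit 78) (PT.lf (nat_lit 22724) (nat_lit 6) (nat_lit 299) (nat_lit 2) (nat_lit 199) (nat_lit 217) (nat_lit 184)) (PT.lf (nat_lit 22800) (nat_lit 6) (nat_lit 300) (nat_lit 2) (nat_lit 200) (nat_lit 217) (nat_lit 183)))))) (PT.nd (nat_lit 390) (PT.nd (nat_lit 156) (PT.nd (nat_lit 78) (PT.lf (nat_lit 21964) (nat_lit 6) (nat_lit 289) (nat_lit 2) (nat_lit 201) (nat_lit 217) (nat_lit 182)) (PT.lf (nat_lit 21356) (nat_lit 6) (nat_lit 281) (nat_lit 2) (nat_lit 202) (nat_lit 217) (nat_lit 181))) (PT.nd (nat_lit 78) (PT.lf (nat_lit 20748) (nat_lit 6) (nat_lit 273) (nat_lit 2) (nat_lit 203) (nat_lit 217) (nat_lit 180)) (PT.nd (nat_lit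 78) (PT.lf (nat_lit 20216) (nat_lit 6) (nat_lit 266) (nat_lit 2) (nat_lit 204) (nat_lit 217) (nat_lit 179)) (PT.lf (nat_lit 19608) (nat_lit 6) (nat_lit 258) (nat_lit 2) (nat_lit 205) (nat_lit 217) (nat_lit 178))))) (PT.nd (nat_lit 156) (PT.nd (nat_lit 78) (PT.lf (nat_lit 19076) (nat_lit 6) (nat_lit 251) (nat_lit 2) (nat_lit 206) (nat_lit 217) (nat_lit 177)) (PT.lf (nat_lit 18544) (nat_lit 6) (nat_lit 244) (nat_lit 2) (nat_lit 207) (nat_lit 217) (nat_lit 176))) (PT.nd (nat_lit 78) (PT.lf (nat_lit 18088) (nat_lit 6) (nat_lit 238) (nat_lit 2) (nat_lit 208) (nat_lit 217) (nat_lit 175)) (PT.nd (nat_lit 78) (PT.lf (nat_lit 17632) (nat_lit 6) (nat_lit 232) (nat_lit 2) (nat_lit 209) (nat_lit 217) (nat_lit 174)) (PT.lf (nat_lit 17176) (nat_lit 6) (nat_lit 226) (nat_lit 2) (nat_lit 210) (nat_lit 217) (nat_lit 173))))))) (PT.nd (nat_lit 780) (PT.nd (nat_lit 390) (PT.nd (nat_lit 156) (PT.nd (nat_lit 78) (PT.lf (nat_lit 16720)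 (nat_lit 6) (nat_lit 220) (nat_lit 2) (nat_lit 211) (nat_lit 217) (nat_lit 172)) (PT.lf (nat_lit 16340) (nat_lit 6) (nat_lit 215) (nat_lit 2) (nat_lit 212) (nat_lit 217) (nat_lit 171))) (PT.nd (nat_lit 78) (PT.lf (nat_lit 15884) (nat_lit 6) (nat_lit 209) (nat_lit 2) (nat_lit 213) (nat_lit 217) (nat_lit 170)) (PT.nd (nat_lit 78) (PT.lf (nat_lit 15504) (nat_lit 6) (nat_lit 204) (nat_lit 2) (nat_lit 214) (nat_lit 217) (nat_lit 169)) (PT.lf (nat_lit 15124) (nat_lit 6) (nat_lit 199) (nat_lit 2) (nat_lit 215) (nat_lit 217) (nat_lit 168))))) (PT.nd (nat_lit 156) (PT.nd (nat_lit 78) (PT.lf (nat_lit 14820) (nat_lit 6) (nat_lit 195) (nat_lit 2) (nat_lit 216) (nat_lit 217) (nat_lit 167)) (PT.lf (nat_lit 14440) (nat_lit 3) (nat_lit 190) (nat_lit 0) (nat_lit 217) (nat_lit 217) (nat_lit 166))) (PT.nd (nat_lit 78) (PT.lf (nat_lit 14060) (nat_lit 6) (nat_lit 185) (nat_lit 0) (nat_lit 218) (nat_lit 217) (nat_lit 165)) (PT.nd (nat_lit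 78) (PT.lf (nat_lit 13680) (nat_lit 6) (nat_lit 180) (nat_lit 0) (nat_lit 219) (nat_lit 217) (nat_lit 164)) (PT.lf (nat_lit 13300) (nat_lit 6) (nat_lit 175) (nat_lit 0) (nat_lit 220) (nat_lit 217) (nat_lit 163)))))) (PT.nd (nat_lit 57642) (PT.nd (nat_lit 156) (PT.nd (nat_lit 78) (PT.lf (nat_lit 12920) (nat_lit 6) (nat_lit 170) (nat_lit 0) (nat_lit 221) (nat_lit 217) (nat_lit 162)) (PT.lf (nat_lit 12540) (nat_lit 6) (nat_lit 165) (nat_lit 0) (nat_lit 222) (nat_lit 217) (nat_lit 161))) (PT.nd (nat_lit 78) (PT.lf (nat_lit 12160) (nat_lit 6) (nat_lit 160) (nat_lit 0) (nat_lit 223) (nat_lit 217) (nat_lit 160)) (PT.nd (nat_lit 57330) (PT.lf (nat_lit 11856) (nat_lit 6) (nat_lit 156) (nat_lit 0) (nat_lit 224) (nat_lit 217) (nat_lit 159)) (PT.lf (nat_lit 11552) (nat_lit 6) (nat_lit 152) (nat_lit 5) (nat_lit 158) (nat_lit 218) (nat_lit 224))))) (PT.nd (nat_lit 156) (PT.nd (nat_lit 78) (PT.lf (nat_lit 11932) (nat_lit 6) (nat_lit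 157) (nat_lit 5) (nat_lit 159) (nat_lit 218) (nat_lit 223)) (PT.lf (nat_lit 12236) (nat_lit 6) (nat_lit 161) (nat_lit 5) (nat_lit 160) (nat_lit 218) (nat_lit 222))) (PT.nd (nat_lit 78) (PT.lf (nat_lit 12616) (nat_lit 6) (nat_lit 166) (nat_lit 5) (nat_lit 161) (nat_lit 218) (nat_lit 221)) (PT.nd (nat_lit 78) (PT.lf (nat_lit 12996) (nat_lit 6) (nat_lit 171) (nat_lit 5) (nat_lit 162) (nat_lit 218) (nat_lit 220)) (PT.lf (nat_lit 13376) (nat_lit 6) (nat_lit 176) (nat_lit 5) (nat_lit 163) (nat_lit 218) (nat_lit 219))))))))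
noncomputable def pc47 : PT := (PT.nd (nat_lit 3276) (PT.nd (nat_lit 702) (PT.nd (nat_lit 312) (PT.nd (nat_lit 156) (PT.nd (nat_lit 78) (PT.lf (nat_lit 13756) (nat_lit 3) (nat_lit 181) (nat_lit 4) (nat_lit 164) (nat_lit 218) (nat_lit 218)) (PT.lf (nat_lit 14060) (nat_lit 6) (nat_lit 185) (nat_lit 4) (nat_lit 165) (nat_lit 218) (nat_lit 217))) (PT.nd (nat_lit 78) (PT.lf (nat_lit 14364) (nat_lit 6) (nat_lit 189) (nat_lit 4) (nat_lit 166) (nat_lit 218) (nat_lit 216)) (PT.lf (nat_lit 14744) (nat_lit 6) (nat_lit 194) (nat_lit 4) (nat_lit 167) (nat_lit 218) (nat_lit 215)))) (PT.nd (nat_lit 156) (PT.nd (nat_lit 78) (PT.lf (nat_lit 15048) (nat_lit 6) (nat_lit 198) (nat_lit 4) (nat_lit 168) (nat_lit 218) (nat_lit 214)) (PT.lf (nat_lit 15428) (nat_lit 6) (nat_lit 203) (nat_lit 4) (nat_lit 169) (nat_lit 218) (nat_lit 213))) (PT.nd (nat_lit 78) (PT.lf (nat_lit 15808) (nat_lit 6) (nat_lit 208) (nat_lit 4) (nat_lit 170) (nat_lit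 218) (nat_lit 212)) (PT.nd (nat_lit 78) (PT.lf (nat_lit 16264) (nat_lit 6) (nat_lit 214) (nat_lit 4) (nat_lit 171) (nat_lit 218) (nat_lit 211)) (PT.lf (nat_lit 16644) (nat_lit 6) (nat_lit 219) (nat_lit 4) (nat_lit 172) (nat_lit 218) (nat_lit 210)))))) (PT.nd (nat_lit 390) (PT.nd (nat_lit 156) (PT.nd (nat_lit 78) (PT.lf (nat_lit 17100) (nat_lit 6) (nat_lit 225) (nat_lit 4) (nat_lit 173) (nat_lit 218) (nat_lit 209)) (PT.lf (nat_lit 17556) (nat_lit 6) (nat_lit 231) (nat_lit 4) (nat_lit 174) (nat_lit 218) (nat_lit 208))) (PT.nd (nat_lit 78) (PT.lf (nat_lit 18012) (nat_lit 6) (nat_lit 237) (nat_lit 4) (nat_lit 175) (nat_lit 218) (nat_lit 207)) (PT.nd (nat_lit 78) (PT.lf (nat_lit 18468) (nat_lit 6) (nat_lit 243) (nat_lit 4) (nat_lit 176) (nat_lit 218) (nat_lit 206)) (PT.lf (nat_lit 19000) (nat_lit 6) (nat_lit 250) (nat_lit 4) (nat_lit 177) (nat_lit 218) (nat_lit 205))))) (PT.nd (nat_lit 1950) (PT.nd (nat_lit 78) (PT.lf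 (nat_lit 19532) (nat_lit 6) (nat_lit 257) (nat_lit 4) (nat_lit 178) (nat_lit 218) (nat_lit 204)) (PT.lf (nat_lit 20140) (nat_lit 6) (nat_lit 265) (nat_lit 4) (nat_lit 179) (nat_lit 218) (nat_lit 203))) (PT.nd (nat_lit 78) (PT.lf (nat_lit 20140) (nat_lit 6) (nat_lit 265) (nat_lit 2) (nat_lit 203) (nat_lit 218) (nat_lit 179)) (PT.nd (nat_lit 78) (PT.lf (nat_lit 19532) (nat_lit 6) (nat_lit 257) (nat_lit 2) (nat_lit 204) (nat_lit 218) (nat_lit 178)) (PT.lf (nat_lit 19000) (nat_lit 6) (nat_lit 250) (nat_lit 2) (nat_lit 205) (nat_lit 218) (nat_lit 177))))))) (PT.nd (nat_lit 780) (PT.nd (nat_lit 390) (PT.nd (nat_lit 156) (PT.nd (nat_lit 78) (PT.lf (nat_lit 18468) (nat_lit 6) (nat_lit 243) (nat_lit 2) (nat_lit 206) (nat_lit 218) (nat_lit 176)) (PT.lf (nat_lit 18012) (nat_lit 6) (nat_lit 237) (nat_lit 2) (nat_lit 207) (nat_lit 218) (nat_lit 175))) (PT.nd (nat_lit 78) (PT.lf (nat_lit 17556) (nat_lit 6) (nat_lit 231) (nat_lit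 2) (nat_lit 208) (nat_lit 218) (nat_lit 174)) (PT.nd (nat_lit 78) (PT.lf (nat_lit 17100) (nat_lit 6) (nat_lit 225) (nat_lit 2) (nat_lit 209) (nat_lit 218) (nat_lit 173)) (PT.lf (nat_lit 16644) (nat_lit 6) (nat_lit 219) (nat_lit 2) (nat_lit 210) (nat_lit 218) (nat_lit 172))))) (PT.nd (nat_lit 156) (PT.nd (nat_lit 78) (PT.lf (nat_lit 16264) (nat_lit 6) (nat_lit 214) (nat_lit 2) (nat_lit 211) (nat_lit 218) (nat_lit 171)) (PT.lf (nat_lit 15808) (nat_lit 6) (nat_lit 208) (nat_lit 2) (nat_lit 212) (nat_lit 218) (nat_lit 170))) (PT.nd (nat_lit 78) (PT.lf (nat_lit 15428) (nat_lit 6) (nat_lit 203) (nat_lit 2) (nat_lit 213) (nat_lit 218) (nat_lit 169)) (PT.nd (nat_lit 78) (PT.lf (nat_lit 15048) (nat_lit 6) (nat_lit 198) (nat_lit 2) (nat_lit 214) (nat_lit 218) (nat_lit 168)) (PT.lf (nat_lit 14744) (nat_lit 6) (nat_lit 194) (nat_lit 2) (nat_lit 215) (nat_lit 218) (nat_lit 167)))))) (PT.nd (nat_lit 390) (PT.nd (nat_lit 156)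 (PT.nd (nat_lit 78) (PT.lf (nat_lit 14364) (nat_lit 6) (nat_lit 189) (nat_lit 2) (nat_lit 216) (nat_lit 218) (nat_lit 166)) (PT.lf (nat_lit 14060) (nat_lit 6) (nat_lit 185) (nat_lit 2) (nat_lit 217) (nat_lit 218) (nat_lit 165))) (PT.nd (nat_lit 78) (PT.lf (nat_lit 13756) (nat_lit 3) (nat_lit 181) (nat_lit 0) (nat_lit 218) (nat_lit 218) (nat_lit 164)) (PT.nd (nat_lit 78) (PT.lf (nat_lit 13376) (nat_lit 6) (nat_lit 176) (nat_lit 0) (nat_lit 219) (nat_lit 218) (nat_lit 163)) (PT.lf (nat_lit 12996) (nat_lit 6) (nat_lit 171) (nat_lit 0) (nat_lit 220) (nat_lit 218) (nat_lit 162))))) (PT.nd (nat_lit 156) (PT.nd (nat_lit 78) (PT.lf (nat_lit 12616) (nat_lit 6) (nat_lit 166) (nat_lit 0) (nat_lit 221) (nat_lit 218) (nat_lit 161)) (PT.lf (nat_lit 12236) (nat_lit 6) (nat_lit 161) (nat_lit 0) (nat_lit 222) (nat_lit 218) (nat_lit 160))) (PT.nd (nat_lit 78) (PT.lf (nat_lit 11932) (nat_lit 6) (nat_lit 157) (nat_lit 0) (nat_lit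 223) (nat_lit 218) (nat_lit 159)) (PT.nd (nat_lit 57174) (PT.lf (nat_lit 11552) (nat_lit 6) (nat_lit 152) (nat_lit 0) (nat_lit 224) (nat_lit 218) (nat_lit 158)) (PT.lf (nat_lit 11020) (nat_lit 6) (nat_lit 145) (nat_lit 5) (nat_lit 156) (nat_lit 219) (nat_lit 225))))))))
noncomputable def pc48 : PT := (PT.nd (nat_lit 3978) (PT.nd (nat_lit 702) (PT.nd (nat_lit 312) (PT.nd (nat_lit 156) (PT.nd (nat_lit 78) (PT.lf (nat_lit 11324) (nat_lit 6) (nat_lit 149) (nat_lit 5) (nat_lit 157) (nat_lit 219) (nat_lit 224)) (PT.lf (nat_lit 11628) (nat_lit 6) (nat_lit 153) (nat_lit 5) (nat_lit 158) (nat_lit 219) (nat_lit 223))) (PT.nd (nat_lit 78) (PT.lf (nat_lit 12008) (nat_lit 6) (nat_lit 158) (nat_lit 5) (nat_lit 159) (nat_lit 219) (nat_lit 222)) (PT.lf (nat_lit 12312) (nat_lit 6) (nat_lit 162) (nat_lit 5) (nat_lit 160) (nat_lit 219) (nat_lit 221)))) (PT.nd (nat_lit 156) (PT.nd (nat_lit 78) (PT.lf (nat_lit 12692) (nat_lit 6) (nat_lit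 167) (nat_lit 5) (nat_lit 161) (nat_lit 219) (nat_lit 220)) (PT.lf (nat_lit 13072) (nat_lit 3) (nat_lit 172) (nat_lit 4) (nat_lit 162) (nat_lit 219) (nat_lit 219))) (PT.nd (nat_lit 78) (PT.lf (nat_lit 13376) (nat_lit 6) (nat_lit 176) (nat_lit 4) (nat_lit 163) (nat_lit 219) (nat_lit 218)) (PT.nd (nat_lit 78) (PT.lf (nat_lit 13680) (nat_lit 6) (nat_lit 180) (nat_lit 4) (nat_lit 164) (nat_lit 219) (nat_lit 217)) (PT.lf (nat_lit 13984) (nat_lit 6) (nat_lit 184) (nat_lit 4) (nat_lit 165) (nat_lit 219) (nat_lit 216)))))) (PT.nd (nat_lit 390) (PT.nd (nat_lit 156) (PT.nd (nat_lit 78) (PT.lf (nat_lit 14288) (nat_lit 6) (nat_lit 188) (nat_lit 4) (nat_lit 166) (nat_lit 219) (nat_lit 215)) (PT.lf (nat_lit 14668) (nat_lit 6) (nat_lit 193) (nat_lit 4) (nat_lit 167) (nat_lit 219) (nat_lit 214))) (PT.nd (nat_lit 78) (PT.lf (nat_lit 14972) (nat_lit 6) (nat_lit 197) (nat_lit 4) (nat_lit 168) (nat_lit 219) (nat_lit 213)) (PT.nd (nat_lit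 78) (PT.lf (nat_lit 15352) (nat_lit 6) (nat_lit 202) (nat_lit 4) (nat_lit 169) (nat_lit 219) (nat_lit 212)) (PT.lf (nat_lit 15732) (nat_lit 6) (nat_lit 207) (nat_lit 4) (nat_lit 170) (nat_lit 219) (nat_lit 211))))) (PT.nd (nat_lit 156) (PT.nd (nat_lit 78) (PT.lf (nat_lit 16188) (nat_lit 6) (nat_lit 213) (nat_lit 4) (nat_lit 171) (nat_lit 219) (nat_lit 210)) (PT.lf (nat_lit 16568) (nat_lit 6) (nat_lit 218) (nat_lit 4) (nat_lit 172) (nat_lit 219) (nat_lit 209))) (PT.nd (nat_lit 78) (PT.lf (nat_lit 17024) (nat_lit 6) (nat_lit 224) (nat_lit 4) (nat_lit 173) (nat_lit 219) (nat_lit 208)) (PT.nd (nat_lit 2574) (PT.lf (nat_lit 17480) (nat_lit 6) (nat_lit 230) (nat_lit 4) (nat_lit 174) (nat_lit 219) (nat_lit 207)) (PT.lf (nat_lit 17480) (nat_lit 6) (nat_lit 230) (nat_lit 2) (nat_lit 207) (nat_lit 219) (nat_lit 174))))))) (PT.nd (nat_lit 702) (PT.nd (nat_lit 312) (PT.nd (nat_lit 156) (PT.nd (nat_lit 78) (PT.lf (nat_lit 17024)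 (nat_lit 6) (nat_lit 224) (nat_lit 2) (nat_lit 208) (nat_lit 219) (nat_lit 173)) (PT.lf (nat_lit 16568) (nat_lit 6) (nat_lit 218) (nat_lit 2) (nat_lit 209) (nat_lit 219) (nat_lit 172))) (PT.nd (nat_lit 78) (PT.lf (nat_lit 16188) (nat_lit 6) (nat_lit 213) (nat_lit 2) (nat_lit 210) (nat_lit 219) (nat_lit 171)) (PT.lf (nat_lit 15732) (nat_lit 6) (nat_lit 207) (nat_lit 2) (nat_lit 211) (nat_lit 219) (nat_lit 170)))) (PT.nd (nat_lit 156) (PT.nd (nat_lit 78) (PT.lf (nat_lit 15352) (nat_lit 6) (nat_lit 202) (nat_lit 2) (nat_lit 212) (nat_lit 219) (nat_lit 169)) (PT.lf (nat_lit 14972) (nat_lit 6) (nat_lit 197) (nat_lit 2) (nat_lit 213) (nat_lit 219) (nat_lit 168))) (PT.nd (nat_lit 78) (PT.lf (nat_lit 14668) (nat_lit 6) (nat_lit 193) (nat_lit 2) (nat_lit 214) (nat_lit 219) (nat_lit 167)) (PT.nd (nat_lit 78) (PT.lf (nat_lit 14288) (nat_lit 6) (nat_lit 188) (nat_lit 2) (nat_lit 215) (nat_lit 219) (nat_lit 166)) (PT.lf (nat_lit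 13984) (nat_lit 6) (nat_lit 184) (nat_lit 2) (nat_lit 216) (nat_lit 219) (nat_lit 165)))))) (PT.nd (nat_lit 390) (PT.nd (nat_lit 156) (PT.nd (nat_lit 78) (PT.lf (nat_lit 13680) (nat_lit 6) (nat_lit 180) (nat_lit 2) (nat_lit 217) (nat_lit 219) (nat_lit 164)) (PT.lf (nat_lit 13376) (nat_lit 6) (nat_lit 176) (nat_lit 2) (nat_lit 218) (nat_lit 219) (nat_lit 163))) (PT.nd (nat_lit 78) (PT.lf (nat_lit 13072) (nat_lit 3) (nat_lit 172) (nat_lit 0) (nat_lit 219) (nat_lit 219) (nat_lit 162)) (PT.nd (nat_lit 78) (PT.lf (nat_lit 12692) (nat_lit 6) (nat_lit 167) (nat_lit 0) (nat_lit 220) (nat_lit 219) (nat_lit 161)) (PT.lf (nat_lit 12312) (nat_lit 6) (nat_lit 162) (nat_lit 0) (nat_lit 221) (nat_lit 219) (nat_lit 160))))) (PT.nd (nat_lit 156) (PT.nd (nat_lit 78) (PT.lf (nat_lit 12008) (nat_lit 6) (nat_lit 158) (nat_lit 0) (nat_lit 222) (nat_lit 219) (nat_lit 159)) (PT.lf (nat_lit 11628) (nat_lit 6) (nat_lit 153) (nat_lit 0)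 (nat_lit 223) (nat_lit 219) (nat_lit 158))) (PT.nd (nat_lit 78) (PT.lf (nat_lit 11324) (nat_lit 6) (nat_lit 149) (nat_lit 0) (nat_lit 224) (nat_lit 219) (nat_lit 157)) (PT.nd (nat_lit 56940) (PT.lf (nat_lit 11020) (nat_lit 6) (nat_lit 145) (nat_lit 0) (nat_lit 225) (nat_lit 219) (nat_lit 156)) (PT.lf (nat_lit 10488) (nat_lit 6) (nat_lit 138) (nat_lit 5) (nat_lit 154) (nat_lit 220) (nat_lit 226))))))))
noncomputable def pc49 : PT := (PT.nd (nat_lit 4368) (PT.nd (nat_lit 702) (PT.nd (nat_lit 312) (PT.nd (nat_lit 156) (PT.nd (nat_lit 78) (PT.lf (nat_lit 10792) (nat_lit 6) (nat_lit 142) (nat_lit 5) (nat_lit 155) (nat_lit 220) (nat_lit 225)) (PT.lf (nat_lit 11096) (nat_lit 6) (nat_lit 146) (nat_lit 5) (nat_lit 156) (nat_lit 220) (nat_lit 224))) (PT.nd (nat_lit 78) (PT.lf (nat_lit 11400) (nat_lit 6) (nat_lit 150) (nat_lit 5) (nat_lit 157) (nat_lit 220) (nat_lit 223)) (PT.lf (nat_lit 11704) (nat_lit 6) (nat_lit 154) (nat_lit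 5) (nat_lit 158) (nat_lit 220) (nat_lit 222)))) (PT.nd (nat_lit 156) (PT.nd (nat_lit 78) (PT.lf (nat_lit 12084) (nat_lit 6) (nat_lit 159) (nat_lit 5) (nat_lit 159) (nat_lit 220) (nat_lit 221)) (PT.lf (nat_lit 12388) (nat_lit 3) (nat_lit 163) (nat_lit 4) (nat_lit 160) (nat_lit 220) (nat_lit 220))) (PT.nd (nat_lit 78) (PT.lf (nat_lit 12692) (nat_lit 6) (nat_lit 167) (nat_lit 4) (nat_lit 161) (nat_lit 220) (nat_lit 219)) (PT.nd (nat_lit 78) (PT.lf (nat_lit 12996) (nat_lit 6) (nat_lit 171) (nat_lit 4) (nat_lit 162) (nat_lit 220) (nat_lit 218)) (PT.lf (nat_lit 13300) (nat_lit 6) (nat_lit 175) (nat_lit 4) (nat_lit 163) (nat_lit 220) (nat_lit 217)))))) (PT.nd (nat_lit 390) (PT.nd (nat_lit 156) (PT.nd (nat_lit 78) (PT.lf (nat_lit 13604) (nat_lit 6) (nat_lit 179) (nat_lit 4) (nat_lit 164) (nat_lit 220) (nat_lit 216)) (PT.lf (nat_lit 13908) (nat_lit 6) (nat_lit 183) (nat_lit 4) (nat_lit 165) (nat_lit 220) (nat_lit 215)))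 (PT.nd (nat_lit 78) (PT.lf (nat_lit 14212) (nat_lit 6) (nat_lit 187) (nat_lit 4) (nat_lit 166) (nat_lit 220) (nat_lit 214)) (PT.nd (nat_lit 78) (PT.lf (nat_lit 14592) (nat_lit 6) (nat_lit 192) (nat_lit 4) (nat_lit 167) (nat_lit 220) (nat_lit 213)) (PT.lf (nat_lit 14896) (nat_lit 6) (nat_lit 196) (nat_lit 4) (nat_lit 168) (nat_lit 220) (nat_lit 212))))) (PT.nd (nat_lit 156) (PT.nd (nat_lit 78) (PT.lf (nat_lit 15276) (nat_lit 6) (nat_lit 201) (nat_lit 4) (nat_lit 169) (nat_lit 220) (nat_lit 211)) (PT.lf (nat_lit 15656) (nat_lit 6) (nat_lit 206) (nat_lit 4) (nat_lit 170) (nat_lit 220) (nat_lit 210))) (PT.nd (nat_lit 2964) (PT.lf (nat_lit 16112) (nat_lit 6) (nat_lit 212) (nat_lit 4) (nat_lit 171) (nat_lit 220) (nat_lit 209)) (PT.nd (nat_lit 78) (PT.lf (nat_lit 16112) (nat_lit 6) (nat_lit 212) (nat_lit 2) (nat_lit 209) (nat_lit 220) (nat_lit 171)) (PT.lf (nat_lit 15656) (nat_lit 6) (nat_lit 206) (nat_lit 2) (nat_lit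 210) (nat_lit 220) (nat_lit 170))))))) (PT.nd (nat_lit 780) (PT.nd (nat_lit 390) (PT.nd (nat_lit 156) (PT.nd (nat_lit 78) (PT.lf (nat_lit 15276) (nat_lit 6) (nat_lit 201) (nat_lit 2) (nat_lit 211) (nat_lit 220) (nat_lit 169)) (PT.lf (nat_lit 14896) (nat_lit 6) (nat_lit 196) (nat_lit 2) (nat_lit 212) (nat_lit 220) (nat_lit 168))) (PT.nd (nat_lit 78) (PT.lf (nat_lit 14592) (nat_lit 6) (nat_lit 192) (nat_lit 2) (nat_lit 213) (nat_lit 220) (nat_lit 167)) (PT.nd (nat_lit 78) (PT.lf (nat_lit 14212) (nat_lit 6) (nat_lit 187) (nat_lit 2) (nat_lit 214) (nat_lit 220) (nat_lit 166)) (PT.lf (nat_lit 13908) (nat_lit 6) (nat_lit 183) (nat_lit 2) (nat_lit 215) (nat_lit 220) (nat_lit 165))))) (PT.nd (nat_lit 156) (PT.nd (nat_lit 78) (PT.lf (nat_lit 13604) (nat_lit 6) (nat_lit 179) (nat_lit 2) (nat_lit 216) (nat_lit 220) (nat_lit 164)) (PT.lf (nat_lit 13300) (nat_lit 6) (nat_lit 175) (nat_lit 2) (nat_lit 217) (nat_lit 220) (nat_lit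 163))) (PT.nd (nat_lit 78) (PT.lf (nat_lit 12996) (nat_lit 6) (nat_lit 171) (nat_lit 2) (nat_lit 218) (nat_lit 220) (nat_lit 162)) (PT.nd (nat_lit 78) (PT.lf (nat_lit 12692) (nat_lit 6) (nat_lit 167) (nat_lit 2) (nat_lit 219) (nat_lit 220) (nat_lit 161)) (PT.lf (nat_lit 12388) (nat_lit 3) (nat_lit 163) (nat_lit 0) (nat_lit 220) (nat_lit 220) (nat_lit 160)))))) (PT.nd (nat_lit 390) (PT.nd (nat_lit 156) (PT.nd (nat_lit 78) (PT.lf (nat_lit 12084) (nat_lit 6) (nat_lit 159) (nat_lit 0) (nat_lit 221) (nat_lit 220) (nat_lit 159)) (PT.lf (nat_lit 11704) (nat_lit 6) (nat_lit 154) (nat_lit 0) (nat_lit 222) (nat_lit 220) (nat_lit 158))) (PT.nd (nat_lit 78) (PT.lf (nat_lit 11400) (nat_lit 6) (nat_lit 150) (nat_lit 0) (nat_lit 223) (nat_lit 220) (nat_lit 157)) (PT.nd (nat_lit 78) (PT.lf (nat_lit 11096) (nat_lit 6) (nat_lit 146) (nat_lit 0) (nat_lit 224) (nat_lit 220) (nat_lit 156)) (PT.lf (nat_lit 10792) (nat_lit 6) (nat_lit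 142) (nat_lit 0) (nat_lit 225) (nat_lit 220) (nat_lit 155))))) (PT.nd (nat_lit 56862) (PT.nd (nat_lit 56784) (PT.lf (nat_lit 10488) (nat_lit 6) (nat_lit 138) (nat_lit 0) (nat_lit 226) (nat_lit 220) (nat_lit 154)) (PT.lf (nat_lit 10260) (nat_lit 6) (nat_lit 135) (nat_lit 5) (nat_lit 153) (nat_lit 221) (nat_lit 226))) (PT.nd (nat_lit 78) (PT.lf (nat_lit 10564) (nat_lit 6) (nat_lit 139) (nat_lit 5) (nat_lit 154) (nat_lit 221) (nat_lit 225)) (PT.nd (nat_lit 78) (PT.lf (nat_lit 10868) (nat_lit 6) (nat_lit 143) (nat_lit 5) (nat_lit 155) (nat_lit 221) (nat_lit 224)) (PT.lf (nat_lit 11172) (nat_lit 6) (nat_lit 147) (nat_lit 5) (nat_lit 156) (nat_lit 221) (nat_lit 223))))))))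
noncomputable def pc50 : PT := (PT.nd (nat_lit 4914) (PT.nd (nat_lit 702) (PT.nd (nat_lit 312) (PT.nd (nat_lit 156) (PT.nd (nat_lit 78) (PT.lf (nat_lit 11476) (nat_lit 6) (nat_lit 151) (nat_lit 5) (nat_lit 157) (nat_lit 221) (nat_lit 222)) (PT.lf (nat_lit 11780) (nat_lit 3) (nat_lit 155) (nat_lit 4) (nat_lit 158) (nat_lit 221) (nat_lit 221))) (PT.nd (nat_lit 78) (PT.lf (nat_lit 12084) (nat_lit 6) (nat_lit 159) (nat_lit 4) (nat_lit 159) (nat_lit 221) (nat_lit 220)) (PT.lf (nat_lit 12312) (nat_lit 6) (nat_lit 162) (nat_lit 4) (nat_lit 160) (nat_lit 221) (nat_lit 219)))) (PT.nd (nat_lit 156) (PT.nd (nat_lit 78) (PT.lf (nat_lit 12616) (nat_lit 6) (nat_lit 166) (nat_lit 4) (nat_lit 161) (nat_lit 221) (nat_lit 218)) (PT.lf (nat_lit 12920) (nat_lit 6) (nat_lit 170) (nat_lit 4) (nat_lit 162) (nat_lit 221) (nat_lit 217))) (PT.nd (nat_lit 78) (PT.lf (nat_lit 13224) (nat_lit 6) (nat_lit 174) (nat_lit 4) (nat_lit 163) (nat_lit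 221) (nat_lit 216)) (PT.nd (nat_lit 78) (PT.lf (nat_lit 13528) (nat_lit 6) (nat_lit 178) (nat_lit 4) (nat_lit 164) (nat_lit 221) (nat_lit 215)) (PT.lf (nat_lit 13832) (nat_lit 6) (nat_lit 182) (nat_lit 4) (nat_lit 165) (nat_lit 221) (nat_lit 214)))))) (PT.nd (nat_lit 3822) (PT.nd (nat_lit 3588) (PT.nd (nat_lit 78) (PT.lf (nat_lit 14136) (nat_lit 6) (nat_lit 186) (nat_lit 4) (nat_lit 166) (nat_lit 221) (nat_lit 213)) (PT.lf (nat_lit 14516) (nat_lit 6) (nat_lit 191) (nat_lit 4) (nat_lit 167) (nat_lit 221) (nat_lit 212))) (PT.nd (nat_lit 78) (PT.lf (nat_lit 14516) (nat_lit 6) (nat_lit 191) (nat_lit 2) (nat_lit 212) (nat_lit 221) (nat_lit 167)) (PT.nd (nat_lit 78) (PT.lf (nat_lit 14136) (nat_lit 6) (nat_lit 186) (nat_lit 2) (nat_lit 213) (nat_lit 221) (nat_lit 166)) (PT.lf (nat_lit 13832) (nat_lit 6) (nat_lit 182) (nat_lit 2) (nat_lit 214) (nat_lit 221) (nat_lit 165))))) (PT.nd (nat_lit 156) (PT.nd (nat_lit 78) (PT.lf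 (nat_lit 13528) (nat_lit 6) (nat_lit 178) (nat_lit 2) (nat_lit 215) (nat_lit 221) (nat_lit 164)) (PT.lf (nat_lit 13224) (nat_lit 6) (nat_lit 174) (nat_lit 2) (nat_lit 216) (nat_lit 221) (nat_lit 163))) (PT.nd (nat_lit 78) (PT.lf (nat_lit 12920) (nat_lit 6) (nat_lit 170) (nat_lit 2) (nat_lit 217) (nat_lit 221) (nat_lit 162)) (PT.nd (nat_lit 78) (PT.lf (nat_lit 12616) (nat_lit 6) (nat_lit 166) (nat_lit 2) (nat_lit 218) (nat_lit 221) (nat_lit 161)) (PT.lf (nat_lit 12312) (nat_lit 6) (nat_lit 162) (nat_lit 2) (nat_lit 219) (nat_lit 221) (nat_lit 160))))))) (PT.nd (nat_lit 57330) (PT.nd (nat_lit 390) (PT.nd (nat_lit 156) (PT.nd (nat_lit 78) (PT.lf (nat_lit 12084) (nat_lit 6) (nat_lit 159) (nat_lit 2) (nat_lit 220) (nat_lit 221) (nat_lit 159)) (PT.lf (nat_lit 11780) (nat_lit 3) (nat_lit 155) (nat_lit 0) (nat_lit 221) (nat_lit 221) (nat_lit 158))) (PT.nd (nat_lit 78) (PT.lf (nat_lit 11476) (nat_lit 6) (nat_lit 151) (nat_lit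 0) (nat_lit 222) (nat_lit 221) (nat_lit 157)) (PT.nd (nat_lit 78) (PT.lf (nat_lit 11172) (nat_lit 6) (nat_lit 147) (nat_lit 0) (nat_lit 223) (nat_lit 221) (nat_lit 156)) (PT.lf (nat_lit 10868) (nat_lit 6) (nat_lit 143) (nat_lit 0) (nat_lit 224) (nat_lit 221) (nat_lit 155))))) (PT.nd (nat_lit 56706) (PT.nd (nat_lit 78) (PT.lf (nat_lit 10564) (nat_lit 6) (nat_lit 139) (nat_lit 0) (nat_lit 225) (nat_lit 221) (nat_lit 154)) (PT.lf (nat_lit 10260) (nat_lit 6) (nat_lit 135) (nat_lit 0) (nat_lit 226) (nat_lit 221) (nat_lit 153))) (PT.nd (nat_lit 78) (PT.lf (nat_lit 9804) (nat_lit 6) (nat_lit 129) (nat_lit 5) (nat_lit 151) (nat_lit 222) (nat_lit 227)) (PT.nd (nat_lit 78) (PT.lf (nat_lit 10032) (nat_lit 6) (nat_lit 132) (nat_lit 5) (nat_lit 152) (nat_lit 222) (nat_lit 226)) (PT.lf (nat_lit 10336) (nat_lit 6) (nat_lit 136) (nat_lit 5) (nat_lit 153) (nat_lit 222) (nat_lit 225)))))) (PT.nd (nat_lit 390) (PT.nd (nat_lit 156)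 (PT.nd (nat_lit 78) (PT.lf (nat_lit 10640) (nat_lit 6) (nat_lit 140) (nat_lit 5) (nat_lit 154) (nat_lit 222) (nat_lit 224)) (PT.lf (nat_lit 10944) (nat_lit 6) (nat_lit 144) (nat_lit 5) (nat_lit 155) (nat_lit 222) (nat_lit 223))) (PT.nd (nat_lit 78) (PT.lf (nat_lit 11248) (nat_lit 3) (nat_lit 148) (nat_lit 4) (nat_lit 156) (nat_lit 222) (nat_lit 222)) (PT.nd (nat_lit 78) (PT.lf (nat_lit 11476) (nat_lit 6) (nat_lit 151) (nat_lit 4) (nat_lit 157) (nat_lit 222) (nat_lit 221)) (PT.lf (nat_lit 11704) (nat_lit 6) (nat_lit 154) (nat_lit 4) (nat_lit 158) (nat_lit 222) (nat_lit 220))))) (PT.nd (nat_lit 156) (PT.nd (nat_lit 78) (PT.lf (nat_lit 12008) (nat_lit 6) (nat_lit 158) (nat_lit 4) (nat_lit 159) (nat_lit 222) (nat_lit 219)) (PT.lf (nat_lit 12236) (nat_lit 6) (nat_lit 161) (nat_lit 4) (nat_lit 160) (nat_lit 222) (nat_lit 218))) (PT.nd (nat_lit 78) (PT.lf (nat_lit 12540) (nat_lit 6) (nat_lit 165) (nat_lit 4) (nat_lit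 161) (nat_lit 222) (nat_lit 217)) (PT.nd (nat_lit 78) (PT.lf (nat_lit 12844) (nat_lit 6) (nat_lit 169) (nat_lit 4) (nat_lit 162) (nat_lit 222) (nat_lit 216)) (PT.lf (nat_lit 13148) (nat_lit 6) (nat_lit 173) (nat_lit 4) (nat_lit 163) (nat_lit 222) (nat_lit 215))))))))
noncomputable def pc51 : PT := (PT.nd (nat_lit 61620) (PT.nd (nat_lit 4524) (PT.nd (nat_lit 4134) (PT.nd (nat_lit 3978) (PT.nd (nat_lit 3900) (PT.lf (nat_lit 13452) (nat_lit 6) (nat_lit 177) (nat_lit 4) (nat_lit 164) (nat_lit 222) (nat_lit 214)) (PT.lf (nat_lit 13452) (nat_lit 6) (nat_lit 177) (nat_lit 2) (nat_lit 214) (nat_lit 222) (nat_lit 164))) (PT.nd (nat_lit 78) (PT.lf (nat_lit 13148) (nat_lit 6) (nat_lit 173) (nat_lit 2) (nat_lit 215) (nat_lit 222) (nat_lit 163)) (PT.lf (nat_lit 12844) (nat_lit 6) (nat_lit 169) (nat_lit 2) (nat_lit 216) (nat_lit 222) (nat_lit 162)))) (PT.nd (nat_lit 156) (PT.nd (nat_lit 78) (PT.lf (nat_lit 12540) (nat_lit 6)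 (nat_lit 165) (nat_lit 2) (nat_lit 217) (nat_lit 222) (nat_lit 161)) (PT.lf (nat_lit 12236) (nat_lit 6) (nat_lit 161) (nat_lit 2) (nat_lit 218) (nat_lit 222) (nat_lit 160))) (PT.nd (nat_lit 78) (PT.lf (nat_lit 12008) (nat_lit 6) (nat_lit 158) (nat_lit 2) (nat_lit 219) (nat_lit 222) (nat_lit 159)) (PT.nd (nat_lit 78) (PT.lf (nat_lit 11704) (nat_lit 6) (nat_lit 154) (nat_lit 2) (nat_lit 220) (nat_lit 222) (nat_lit 158)) (PT.lf (nat_lit 11476) (nat_lit 6) (nat_lit 151) (nat_lit 2) (nat_lit 221) (nat_lit 222) (nat_lit 157)))))) (PT.nd (nat_lit 390) (PT.nd (nat_lit 156) (PT.nd (nat_lit 78) (PT.lf (nat_lit 11248) (nat_lit 3) (nat_lit 148) (nat_lit 0) (nat_lit 222) (nat_lit 222) (nat_lit 156)) (PT.lf (nat_lit 10944) (nat_lit 6) (nat_lit 144) (nat_lit 0) (nat_lit 223) (nat_lit 222) (nat_lit 155))) (PT.nd (nat_lit 78) (PT.lf (nat_lit 10640) (nat_lit 6) (nat_lit 140) (nat_lit 0) (nat_lit 224) (nat_lit 222) (nat_lit 154))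 (PT.nd (nat_lit 78) (PT.lf (nat_lit 10336) (nat_lit 6) (nat_lit 136) (nat_lit 0) (nat_lit 225) (nat_lit 222) (nat_lit 153)) (PT.lf (nat_lit 10032) (nat_lit 6) (nat_lit 132) (nat_lit 0) (nat_lit 226) (nat_lit 222) (nat_lit 152))))) (PT.nd (nat_lit 56472) (PT.nd (nat_lit 56394) (PT.lf (nat_lit 9804) (nat_lit 6) (nat_lit 129) (nat_lit 0) (nat_lit 227) (nat_lit 222) (nat_lit 151)) (PT.lf (nat_lit 9348) (nat_lit 6) (nat_lit 123) (nat_lit 5) (nat_lit 149) (nat_lit 223) (nat_lit 228))) (PT.nd (nat_lit 78) (PT.lf (nat_lit 9576) (nat_lit 6) (nat_lit 126) (nat_lit 5) (nat_lit 150) (nat_lit 223) (nat_lit 227)) (PT.nd (nat_lit 78) (PT.lf (nat_lit 9880) (nat_lit 6) (nat_lit 130) (nat_lit 5) (nat_lit 151) (nat_lit 223) (nat_lit 226)) (PT.lf (nat_lit 10108) (nat_lit 6) (nat_lit 133) (nat_lit 5) (nat_lit 152) (nat_lit 223) (nat_lit 225))))))) (PT.nd (nat_lit 4836) (PT.nd (nat_lit 390) (PT.nd (nat_lit 156) (PT.nd (nat_lit 78) (PT.lf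 (nat_lit 10412) (nat_lit 6) (nat_lit 137) (nat_lit 5) (nat_lit 153) (nat_lit 223) (nat_lit 224)) (PT.lf (nat_lit 10716) (nat_lit 3) (nat_lit 141) (nat_lit 4) (nat_lit 154) (nat_lit 223) (nat_lit 223))) (PT.nd (nat_lit 78) (PT.lf (nat_lit 10944) (nat_lit 6) (nat_lit 144) (nat_lit 4) (nat_lit 155) (nat_lit 223) (nat_lit 222)) (PT.nd (nat_lit 78) (PT.lf (nat_lit 11172) (nat_lit 6) (nat_lit 147) (nat_lit 4) (nat_lit 156) (nat_lit 223) (nat_lit 221)) (PT.lf (nat_lit 11400) (nat_lit 6) (nat_lit 150) (nat_lit 4) (nat_lit 157) (nat_lit 223) (nat_lit 220))))) (PT.nd (nat_lit 156) (PT.nd (nat_lit 78) (PT.lf (nat_lit 11628) (nat_lit 6) (nat_lit 153) (nat_lit 4) (nat_lit 158) (nat_lit 223) (nat_lit 219)) (PT.lf (nat_lit 11932) (nat_lit 6) (nat_lit 157) (nat_lit 4) (nat_lit 159) (nat_lit 223) (nat_lit 218))) (PT.nd (nat_lit 78) (PT.lf (nat_lit 12160) (nat_lit 6) (nat_lit 160) (nat_lit 4) (nat_lit 160) (nat_lit 223) (nat_lit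 217)) (PT.nd (nat_lit 78) (PT.lf (nat_lit 12464) (nat_lit 6) (nat_lit 164) (nat_lit 4) (nat_lit 161) (nat_lit 223) (nat_lit 216)) (PT.lf (nat_lit 12768) (nat_lit 6) (nat_lit 168) (nat_lit 4) (nat_lit 162) (nat_lit 223) (nat_lit 215)))))) (PT.nd (nat_lit 390) (PT.nd (nat_lit 156) (PT.nd (nat_lit 78) (PT.lf (nat_lit 12768) (nat_lit 6) (nat_lit 168) (nat_lit 2) (nat_lit 215) (nat_lit 223) (nat_lit 162)) (PT.lf (nat_lit 12464) (nat_lit 6) (nat_lit 164) (nat_lit 2) (nat_lit 216) (nat_lit 223) (nat_lit 161))) (PT.nd (nat_lit 78) (PT.lf (nat_lit 12160) (nat_lit 6) (nat_lit 160) (nat_lit 2) (nat_lit 217) (nat_lit 223) (nat_lit 160)) (PT.nd (nat_lit 78) (PT.lf (nat_lit 11932) (nat_lit 6) (nat_lit 157) (nat_lit 2) (nat_lit 218) (nat_lit 223) (nat_lit 159)) (PT.lf (nat_lit 11628) (nat_lit 6) (nat_lit 153) (nat_lit 2) (nat_lit 219) (nat_lit 223) (nat_lit 158))))) (PT.nd (nat_lit 156) (PT.nd (nat_lit 78) (PT.lf (nat_lit 11400)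 (nat_lit 6) (nat_lit 150) (nat_lit 2) (nat_lit 220) (nat_lit 223) (nat_lit 157)) (PT.lf (nat_lit 11172) (nat_lit 6) (nat_lit 147) (nat_lit 2) (nat_lit 221) (nat_lit 223) (nat_lit 156))) (PT.nd (nat_lit 78) (PT.lf (nat_lit 10944) (nat_lit 6) (nat_lit 144) (nat_lit 2) (nat_lit 222) (nat_lit 223) (nat_lit 155)) (PT.nd (nat_lit 78) (PT.lf (nat_lit 10716) (nat_lit 3) (nat_lit 141) (nat_lit 0) (nat_lit 223) (nat_lit 223) (nat_lit 154)) (PT.lf (nat_lit 10412) (nat_lit 6) (nat_lit 137) (nat_lit 0) (nat_lit 224) (nat_lit 223) (nat_lit 153))))))))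
noncomputable def pc52 : PT := (PT.nd (nat_lit 62010) (PT.nd (nat_lit 56784) (PT.nd (nat_lit 56394) (PT.nd (nat_lit 156) (PT.nd (nat_lit 78) (PT.lf (nat_lit 10108) (nat_lit 6) (nat_lit 133) (nat_lit 0) (nat_lit 225) (nat_lit 223) (nat_lit 152)) (PT.lf (nat_lit 9880) (nat_lit 6) (nat_lit 130) (nat_lit 0) (nat_lit 226) (nat_lit 223) (nat_lit 151))) (PT.nd (nat_lit 78) (PT.lf (nat_lit 9576) (nat_lit 6) (nat_lit 126) (nat_lit 0) (nat_lit 227) (nat_lit 223) (nat_lit 150)) (PT.lf (nat_lit 9348) (nat_lit 6) (nat_lit 123) (nat_lit 0) (nat_lit 228) (nat_lit 223) (nat_lit 149)))) (PT.nd (nat_lit 156) (PT.nd (nat_lit 78) (PT.lf (nat_lit 8892) (nat_lit 6) (nat_lit 117) (nat_lit 5) (nat_lit 147) (nat_lit 224) (nat_lit 229)) (PT.lf (nat_lit 9120) (nat_lit 6) (nat_lit 120) (nat_lit 5) (nat_lit 148) (nat_lit 224) (nat_lit 228))) (PT.nd (nat_lit 78) (PT.lf (nat_lit 9424) (nat_lit 6) (nat_lit 124) (nat_lit 5) (nat_lit 149) (nat_lit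 224) (nat_lit 227)) (PT.nd (nat_lit 78) (PT.lf (nat_lit 9652) (nat_lit 6) (nat_lit 127) (nat_lit 5) (nat_lit 150) (nat_lit 224) (nat_lit 226)) (PT.lf (nat_lit 9956) (nat_lit 6) (nat_lit 131) (nat_lit 5) (nat_lit 151) (nat_lit 224) (nat_lit 225)))))) (PT.nd (nat_lit 390) (PT.nd (nat_lit 156) (PT.nd (nat_lit 78) (PT.lf (nat_lit 10184) (nat_lit 3) (nat_lit 134) (nat_lit 4) (nat_lit 152) (nat_lit 224) (nat_lit 224)) (PT.lf (nat_lit 10412) (nat_lit 6) (nat_lit 137) (nat_lit 4) (nat_lit 153) (nat_lit 224) (nat_lit 223))) (PT.nd (nat_lit 78) (PT.lf (nat_lit 10640) (nat_lit 6) (nat_lit 140) (nat_lit 4) (nat_lit 154) (nat_lit 224) (nat_lit 222)) (PT.nd (nat_lit 78) (PT.lf (nat_lit 10868) (nat_lit 6) (nat_lit 143) (nat_lit 4) (nat_lit 155) (nat_lit 224) (nat_lit 221)) (PT.lf (nat_lit 11096) (nat_lit 6) (nat_lit 146) (nat_lit 4) (nat_lit 156) (nat_lit 224) (nat_lit 220))))) (PT.nd (nat_lit 156) (PT.nd (nat_lit 78) (PT.lf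 (nat_lit 11324) (nat_lit 6) (nat_lit 149) (nat_lit 4) (nat_lit 157) (nat_lit 224) (nat_lit 219)) (PT.lf (nat_lit 11552) (nat_lit 6) (nat_lit 152) (nat_lit 4) (nat_lit 158) (nat_lit 224) (nat_lit 218))) (PT.nd (nat_lit 4524) (PT.lf (nat_lit 11856) (nat_lit 6) (nat_lit 156) (nat_lit 4) (nat_lit 159) (nat_lit 224) (nat_lit 217)) (PT.nd (nat_lit 78) (PT.lf (nat_lit 11856) (nat_lit 6) (nat_lit 156) (nat_lit 2) (nat_lit 217) (nat_lit 224) (nat_lit 159)) (PT.lf (nat_lit 11552) (nat_lit 6) (nat_lit 152) (nat_lit 2) (nat_lit 218) (nat_lit 224) (nat_lit 158))))))) (PT.nd (nat_lit 780) (PT.nd (nat_lit 390) (PT.nd (nat_lit 156) (PT.nd (nat_lit 78) (PT.lf (nat_lit 11324) (nat_lit 6) (nat_lit 149) (nat_lit 2) (nat_lit 219) (nat_lit 224) (nat_lit 157)) (PT.lf (nat_lit 11096) (nat_lit 6) (nat_lit 146) (nat_lit 2) (nat_lit 220) (nat_lit 224) (nat_lit 156))) (PT.nd (nat_lit 78) (PT.lf (nat_lit 10868) (nat_lit 6) (nat_lit 143) (nat_lit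 2) (nat_lit 221) (nat_lit 224) (nat_lit 155)) (PT.nd (nat_lit 78) (PT.lf (nat_lit 10640) (nat_lit 6) (nat_lit 140) (nat_lit 2) (nat_lit 222) (nat_lit 224) (nat_lit 154)) (PT.lf (nat_lit 10412) (nat_lit 6) (nat_lit 137) (nat_lit 2) (nat_lit 223) (nat_lit 224) (nat_lit 153))))) (PT.nd (nat_lit 156) (PT.nd (nat_lit 78) (PT.lf (nat_lit 10184) (nat_lit 3) (nat_lit 134) (nat_lit 0) (nat_lit 224) (nat_lit 224) (nat_lit 152)) (PT.lf (nat_lit 9956) (nat_lit 6) (nat_lit 131) (nat_lit 0) (nat_lit 225) (nat_lit 224) (nat_lit 151))) (PT.nd (nat_lit 78) (PT.lf (nat_lit 9652) (nat_lit 6) (nat_lit 127) (nat_lit 0) (nat_lit 226) (nat_lit 224) (nat_lit 150)) (PT.nd (nat_lit 78) (PT.lf (nat_lit 9424) (nat_lit 6) (nat_lit 124) (nat_lit 0) (nat_lit 227) (nat_lit 224) (nat_lit 149)) (PT.lf (nat_lit 9120) (nat_lit 6) (nat_lit 120) (nat_lit 0) (nat_lit 228) (nat_lit 224) (nat_lit 148)))))) (PT.nd (nat_lit 56316) (PT.nd (nat_lit 56082)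 (PT.nd (nat_lit 56004) (PT.lf (nat_lit 8892) (nat_lit 6) (nat_lit 117) (nat_lit 0) (nat_lit 229) (nat_lit 224) (nat_lit 147)) (PT.lf (nat_lit 8664) (nat_lit 6) (nat_lit 114) (nat_lit 5) (nat_lit 146) (nat_lit 225) (nat_lit 229))) (PT.nd (nat_lit 78) (PT.lf (nat_lit 8968) (nat_lit 6) (nat_lit 118) (nat_lit 5) (nat_lit 147) (nat_lit 225) (nat_lit 228)) (PT.nd (nat_lit 78) (PT.lf (nat_lit 9196) (nat_lit 6) (nat_lit 121) (nat_lit 5) (nat_lit 148) (nat_lit 225) (nat_lit 227)) (PT.lf (nat_lit 9500) (nat_lit 6) (nat_lit 125) (nat_lit 5) (nat_lit 149) (nat_lit 225) (nat_lit 226))))) (PT.nd (nat_lit 156) (PT.nd (nat_lit 78) (PT.lf (nat_lit 9728) (nat_lit 3) (nat_lit 128) (nat_lit 4) (nat_lit 150) (nat_lit 225) (nat_lit 225)) (PT.lf (nat_lit 9956) (nat_lit 6) (nat_lit 131) (nat_lit 4) (nat_lit 151) (nat_lit 225) (nat_lit 224))) (PT.nd (nat_lit 78) (PT.lf (nat_lit 10108) (nat_lit 6) (nat_lit 133) (nat_lit 4) (nat_lit 152)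 (nat_lit 225) (nat_lit 223)) (PT.nd (nat_lit 78) (PT.lf (nat_lit 10336) (nat_lit 6) (nat_lit 136) (nat_lit 4) (nat_lit 153) (nat_lit 225) (nat_lit 222)) (PT.lf (nat_lit 10564) (nat_lit 6) (nat_lit 139) (nat_lit 4) (nat_lit 154) (nat_lit 225) (nat_lit 221))))))))
noncomputable def pc53 : PT := (PT.nd (nat_lit 62088) (PT.nd (nat_lit 5538) (PT.nd (nat_lit 5148) (PT.nd (nat_lit 4992) (PT.nd (nat_lit 78) (PT.lf (nat_lit 10792) (nat_lit 6) (nat_lit 142) (nat_lit 4) (nat_lit 155) (nat_lit 225) (nat_lit 220)) (PT.lf (nat_lit 11020) (nat_lit 6) (nat_lit 145) (nat_lit 4) (nat_lit 156) (nat_lit 225) (nat_lit 219))) (PT.nd (nat_lit 78) (PT.lf (nat_lit 11020) (nat_lit 6) (nat_lit 145) (nat_lit 2) (nat_lit 219) (nat_lit 225) (nat_lit 156)) (PT.lf (nat_lit 10792) (nat_lit 6) (nat_lit 142) (nat_lit 2) (nat_lit 220) (nat_lit 225) (nat_lit 155)))) (PT.nd (nat_lit 156) (PT.nd (nat_lit 78) (PT.lf (nat_lit 10564) (nat_lit 6) (nat_lit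 139) (nat_lit 2) (nat_lit 221) (nat_lit 225) (nat_lit 154)) (PT.lf (nat_lit 10336) (nat_lit 6) (nat_lit 136) (nat_lit 2) (nat_lit 222) (nat_lit 225) (nat_lit 153))) (PT.nd (nat_lit 78) (PT.lf (nat_lit 10108) (nat_lit 6) (nat_lit 133) (nat_lit 2) (nat_lit 223) (nat_lit 225) (nat_lit 152)) (PT.nd (nat_lit 78) (PT.lf (nat_lit 9956) (nat_lit 6) (nat_lit 131) (nat_lit 2) (nat_lit 224) (nat_lit 225) (nat_lit 151)) (PT.lf (nat_lit 9728) (nat_lit 3) (nat_lit 128) (nat_lit 0) (nat_lit 225) (nat_lit 225) (nat_lit 150)))))) (PT.nd (nat_lit 56160) (PT.nd (nat_lit 156) (PT.nd (nat_lit 78) (PT.lf (nat_lit 9500) (nat_lit 6) (nat_lit 125) (nat_lit 0) (nat_lit 226) (nat_lit 225) (nat_lit 149)) (PT.lf (nat_lit 9196) (nat_lit 6) (nat_lit 121) (nat_lit 0) (nat_lit 227) (nat_lit 225) (nat_lit 148))) (PT.nd (nat_lit 78) (PT.lf (nat_lit 8968) (nat_lit 6) (nat_lit 118) (nat_lit 0) (nat_lit 228) (nat_lit 225) (nat_lit 147)) (PT.nd (nat_lit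 55848) (PT.lf (nat_lit 8664) (nat_lit 6) (nat_lit 114) (nat_lit 0) (nat_lit 229) (nat_lit 225) (nat_lit 146)) (PT.lf (nat_lit 8284) (nat_lit 6) (nat_lit 109) (nat_lit 5) (nat_lit 144) (nat_lit 226) (nat_lit 230))))) (PT.nd (nat_lit 156) (PT.nd (nat_lit 78) (PT.lf (nat_lit 8512) (nat_lit 6) (nat_lit 112) (nat_lit 5) (nat_lit 145) (nat_lit 226) (nat_lit 229)) (PT.lf (nat_lit 8740) (nat_lit 6) (nat_lit 115) (nat_lit 5) (nat_lit 146) (nat_lit 226) (nat_lit 228))) (PT.nd (nat_lit 78) (PT.lf (nat_lit 9044) (nat_lit 6) (nat_lit 119) (nat_lit 5) (nat_lit 147) (nat_lit 226) (nat_lit 227)) (PT.nd (nat_lit 78) (PT.lf (nat_lit 9272) (nat_lit 3) (nat_lit 122) (nat_lit 4) (nat_lit 148) (nat_lit 226) (nat_lit 226)) (PT.lf (nat_lit 9500) (nat_lit 6) (nat_lit 125) (nat_lit 4) (nat_lit 149) (nat_lit 226) (nat_lit 225))))))) (PT.nd (nat_lit 5850) (PT.nd (nat_lit 5460) (PT.nd (nat_lit 156) (PT.nd (nat_lit 78) (PT.lf (nat_lit 9652)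 (nat_lit 6) (nat_lit 127) (nat_lit 4) (nat_lit 150) (nat_lit 226) (nat_lit 224)) (PT.lf (nat_lit 9880) (nat_lit 6) (nat_lit 130) (nat_lit 4) (nat_lit 151) (nat_lit 226) (nat_lit 223))) (PT.nd (nat_lit 78) (PT.lf (nat_lit 10032) (nat_lit 6) (nat_lit 132) (nat_lit 4) (nat_lit 152) (nat_lit 226) (nat_lit 222)) (PT.nd (nat_lit 78) (PT.lf (nat_lit 10260) (nat_lit 6) (nat_lit 135) (nat_lit 4) (nat_lit 153) (nat_lit 226) (nat_lit 221)) (PT.lf (nat_lit 10488) (nat_lit 6) (nat_lit 138) (nat_lit 4) (nat_lit 154) (nat_lit 226) (nat_lit 220))))) (PT.nd (nat_lit 156) (PT.nd (nat_lit 78) (PT.lf (nat_lit 10488) (nat_lit 6) (nat_lit 138) (nat_lit 2) (nat_lit 220) (nat_lit 226) (nat_lit 154)) (PT.lf (nat_lit 10260) (nat_lit 6) (nat_lit 135) (nat_lit 2) (nat_lit 221) (nat_lit 226) (nat_lit 153))) (PT.nd (nat_lit 78) (PT.lf (nat_lit 10032) (nat_lit 6) (nat_lit 132) (nat_lit 2) (nat_lit 222) (nat_lit 226) (nat_lit 152)) (PT.nd (nat_lit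 78) (PT.lf (nat_lit 9880) (nat_lit 6) (nat_lit 130) (nat_lit 2) (nat_lit 223) (nat_lit 226) (nat_lit 151)) (PT.lf (nat_lit 9652) (nat_lit 6) (nat_lit 127) (nat_lit 2) (nat_lit 224) (nat_lit 226) (nat_lit 150)))))) (PT.nd (nat_lit 390) (PT.nd (nat_lit 156) (PT.nd (nat_lit 78) (PT.lf (nat_lit 9500) (nat_lit 6) (nat_lit 125) (nat_lit 2) (nat_lit 225) (nat_lit 226) (nat_lit 149)) (PT.lf (nat_lit 9272) (nat_lit 3) (nat_lit 122) (nat_lit 0) (nat_lit 226) (nat_lit 226) (nat_lit 148))) (PT.nd (nat_lit 78) (PT.lf (nat_lit 9044) (nat_lit 6) (nat_lit 119) (nat_lit 0) (nat_lit 227) (nat_lit 226) (nat_lit 147)) (PT.nd (nat_lit 78) (PT.lf (nat_lit 8740) (nat_lit 6) (nat_lit 115) (nat_lit 0) (nat_lit 228) (nat_lit 226) (nat_lit 146)) (PT.lf (nat_lit 8512) (nat_lit 6) (nat_lit 112) (nat_lit 0) (nat_lit 229) (nat_lit 226) (nat_lit 145))))) (PT.nd (nat_lit 55692) (PT.nd (nat_lit 55614) (PT.lf (nat_lit 8284) (nat_lit 6) (nat_lit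 109) (nat_lit 0) (nat_lit 230) (nat_lit 226) (nat_lit 144)) (PT.lf (nat_lit 7904) (nat_lit 6) (nat_lit 104) (nat_lit 5) (nat_lit 142) (nat_lit 227) (nat_lit 231))) (PT.nd (nat_lit 78) (PT.lf (nat_lit 8132) (nat_lit 6) (nat_lit 107) (nat_lit 5) (nat_lit 143) (nat_lit 227) (nat_lit 230)) (PT.nd (nat_lit 78) (PT.lf (nat_lit 8360) (nat_lit 6) (nat_lit 110) (nat_lit 5) (nat_lit 144) (nat_lit 227) (nat_lit 229)) (PT.lf (nat_lit 8588) (nat_lit 6) (nat_lit 113) (nat_lit 5) (nat_lit 145) (nat_lit 227) (nat_lit 228))))))))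
noncomputable def pc54 : PT := (PT.nd (nat_lit 62244) (PT.nd (nat_lit 6162) (PT.nd (nat_lit 312) (PT.nd (nat_lit 156) (PT.nd (nat_lit 78) (PT.lf (nat_lit 8816) (nat_lit 3) (nat_lit 116) (nat_lit 4) (nat_lit 146) (nat_lit 227) (nat_lit 227)) (PT.lf (nat_lit 9044) (nat_lit 6) (nat_lit 119) (nat_lit 4) (nat_lit 147) (nat_lit 227) (nat_lit 226))) (PT.nd (nat_lit 78) (PT.lf (nat_lit 9196) (nat_lit 6) (nat_lit 121) (nat_lit 4) (nat_lit 148) (nat_lit 227) (nat_lit 225)) (PT.lf (nat_lit 9424) (nat_lit 6) (nat_lit 124) (nat_lit 4) (nat_lit 149) (nat_lit 227) (nat_lit 224)))) (PT.nd (nat_lit 5616) (PT.nd (nat_lit 78) (PT.lf (nat_lit 9576) (nat_lit 6) (nat_lit 126) (nat_lit 4) (nat_lit 150) (nat_lit 227) (nat_lit 223)) (PT.lf (nat_lit 9804) (nat_lit 6) (nat_lit 129) (nat_lit 4) (nat_lit 151) (nat_lit 227) (nat_lit 222))) (PT.nd (nat_lit 78) (PT.lf (nat_lit 9804) (nat_lit 6) (nat_lit 129) (nat_lit 2) (nat_lit 222) (nat_lit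 227) (nat_lit 151)) (PT.nd (nat_lit 78) (PT.lf (nat_lit 9576) (nat_lit 6) (nat_lit 126) (nat_lit 2) (nat_lit 223) (nat_lit 227) (nat_lit 150)) (PT.lf (nat_lit 9424) (nat_lit 6) (nat_lit 124) (nat_lit 2) (nat_lit 224) (nat_lit 227) (nat_lit 149)))))) (PT.nd (nat_lit 390) (PT.nd (nat_lit 156) (PT.nd (nat_lit 78) (PT.lf (nat_lit 9196) (nat_lit 6) (nat_lit 121) (nat_lit 2) (nat_lit 225) (nat_lit 227) (nat_lit 148)) (PT.lf (nat_lit 9044) (nat_lit 6) (nat_lit 119) (nat_lit 2) (nat_lit 226) (nat_lit 227) (nat_lit 147))) (PT.nd (nat_lit 78) (PT.lf (nat_lit 8816) (nat_lit 3) (nat_lit 116) (nat_lit 0) (nat_lit 227) (nat_lit 227) (nat_lit 146)) (PT.nd (nat_lit 78) (PT.lf (nat_lit 8588) (nat_lit 6) (nat_lit 113) (nat_lit 0) (nat_lit 228) (nat_lit 227) (nat_lit 145)) (PT.lf (nat_lit 8360) (nat_lit 6) (nat_lit 110) (nat_lit 0) (nat_lit 229) (nat_lit 227) (nat_lit 144))))) (PT.nd (nat_lit 55458) (PT.nd (nat_lit 78) (PT.lf (nat_lit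 8132) (nat_lit 6) (nat_lit 107) (nat_lit 0) (nat_lit 230) (nat_lit 227) (nat_lit 143)) (PT.lf (nat_lit 7904) (nat_lit 6) (nat_lit 104) (nat_lit 0) (nat_lit 231) (nat_lit 227) (nat_lit 142))) (PT.nd (nat_lit 78) (PT.lf (nat_lit 7524) (nat_lit 6) (nat_lit 99) (nat_lit 5) (nat_lit 140) (nat_lit 228) (nat_lit 232)) (PT.nd (nat_lit 78) (PT.lf (nat_lit 7752) (nat_lit 6) (nat_lit 102) (nat_lit 5) (nat_lit 141) (nat_lit 228) (nat_lit 231)) (PT.lf (nat_lit 7980) (nat_lit 6) (nat_lit 105) (nat_lit 5) (nat_lit 142) (nat_lit 228) (nat_lit 230))))))) (PT.nd (nat_lit 6474) (PT.nd (nat_lit 390) (PT.nd (nat_lit 156) (PT.nd (nat_lit 78) (PT.lf (nat_lit 8208) (nat_lit 6) (nat_lit 108) (nat_lit 5) (nat_lit 143) (nat_lit 228) (nat_lit 229)) (PT.lf (nat_lit 8436) (nat_lit 3) (nat_lit 111) (nat_lit 4) (nat_lit 144) (nat_lit 228) (nat_lit 228))) (PT.nd (nat_lit 78) (PT.lf (nat_lit 8588) (nat_lit 6) (nat_lit 113) (nat_lit 4) (nat_lit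 145) (nat_lit 228) (nat_lit 227)) (PT.nd (nat_lit 78) (PT.lf (nat_lit 8740) (nat_lit 6) (nat_lit 115) (nat_lit 4) (nat_lit 146) (nat_lit 228) (nat_lit 226)) (PT.lf (nat_lit 8968) (nat_lit 6) (nat_lit 118) (nat_lit 4) (nat_lit 147) (nat_lit 228) (nat_lit 225))))) (PT.nd (nat_lit 5850) (PT.nd (nat_lit 78) (PT.lf (nat_lit 9120) (nat_lit 6) (nat_lit 120) (nat_lit 4) (nat_lit 148) (nat_lit 228) (nat_lit 224)) (PT.lf (nat_lit 9348) (nat_lit 6) (nat_lit 123) (nat_lit 4) (nat_lit 149) (nat_lit 228) (nat_lit 223))) (PT.nd (nat_lit 78) (PT.lf (nat_lit 9348) (nat_lit 6) (nat_lit 123) (nat_lit 2) (nat_lit 223) (nat_lit 228) (nat_lit 149)) (PT.nd (nat_lit 78) (PT.lf (nat_lit 9120) (nat_lit 6) (nat_lit 120) (nat_lit 2) (nat_lit 224) (nat_lit 228) (nat_lit 148)) (PT.lf (nat_lit 8968) (nat_lit 6) (nat_lit 118) (nat_lit 2) (nat_lit 225) (nat_lit 228) (nat_lit 147)))))) (PT.nd (nat_lit 390) (PT.nd (nat_lit 156) (PT.nd (nat_lit 78)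 (PT.lf (nat_lit 8740) (nat_lit 6) (nat_lit 115) (nat_lit 2) (nat_lit 226) (nat_lit 228) (nat_lit 146)) (PT.lf (nat_lit 8588) (nat_lit 6) (nat_lit 113) (nat_lit 2) (nat_lit 227) (nat_lit 228) (nat_lit 145))) (PT.nd (nat_lit 78) (PT.lf (nat_lit 8436) (nat_lit 3) (nat_lit 111) (nat_lit 0) (nat_lit 228) (nat_lit 228) (nat_lit 144)) (PT.nd (nat_lit 78) (PT.lf (nat_lit 8208) (nat_lit 6) (nat_lit 108) (nat_lit 0) (nat_lit 229) (nat_lit 228) (nat_lit 143)) (PT.lf (nat_lit 7980) (nat_lit 6) (nat_lit 105) (nat_lit 0) (nat_lit 230) (nat_lit 228) (nat_lit 142))))) (PT.nd (nat_lit 55224) (PT.nd (nat_lit 78) (PT.lf (nat_lit 7752) (nat_lit 6) (nat_lit 102) (nat_lit 0) (nat_lit 231) (nat_lit 228) (nat_lit 141)) (PT.lf (nat_lit 7524) (nat_lit 6) (nat_lit 99) (nat_lit 0) (nat_lit 232) (nat_lit 228) (nat_lit 140))) (PT.nd (nat_lit 78) (PT.lf (nat_lit 7144) (nat_lit 6) (nat_lit 94) (nat_lit 5) (nat_lit 138) (nat_lit 229) (nat_lit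 233)) (PT.nd (nat_lit 78) (PT.lf (nat_lit 7372) (nat_lit 6) (nat_lit 97) (nat_lit 5) (nat_lit 139) (nat_lit 229) (nat_lit 232)) (PT.lf (nat_lit 7600) (nat_lit 6) (nat_lit 100) (nat_lit 5) (nat_lit 140) (nat_lit 229) (nat_lit 231))))))))
noncomputable def pc55 : PT := (PT.nd (nat_lit 62322) (PT.nd (nat_lit 6630) (PT.nd (nat_lit 312) (PT.nd (nat_lit 156) (PT.nd (nat_lit 78) (PT.lf (nat_lit 7828) (nat_lit 6) (nat_lit 103) (nat_lit 5) (nat_lit 141) (nat_lit 229) (nat_lit 230)) (PT.lf (nat_lit 8056) (nat_lit 3) (nat_lit 106) (nat_lit 4) (nat_lit 142) (nat_lit 229) (nat_lit 229))) (PT.nd (nat_lit 78) (PT.lf (nat_lit 8208) (nat_lit 6) (nat_lit 108) (nat_lit 4) (nat_lit 143) (nat_lit 229) (nat_lit 228)) (PT.lf (nat_lit 8360) (nat_lit 6) (nat_lit 110) (nat_lit 4) (nat_lit 144) (nat_lit 229) (nat_lit 227)))) (PT.nd (nat_lit 156) (PT.nd (nat_lit 78) (PT.lf (nat_lit 8512) (nat_lit 6) (nat_lit 112) (nat_lit 4) (nat_lit 145)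 (nat_lit 229) (nat_lit 226)) (PT.lf (nat_lit 8664) (nat_lit 6) (nat_lit 114) (nat_lit 4) (nat_lit 146) (nat_lit 229) (nat_lit 225))) (PT.nd (nat_lit 6006) (PT.lf (nat_lit 8892) (nat_lit 6) (nat_lit 117) (nat_lit 4) (nat_lit 147) (nat_lit 229) (nat_lit 224)) (PT.nd (nat_lit 78) (PT.lf (nat_lit 8892) (nat_lit 6) (nat_lit 117) (nat_lit 2) (nat_lit 224) (nat_lit 229) (nat_lit 147)) (PT.lf (nat_lit 8664) (nat_lit 6) (nat_lit 114) (nat_lit 2) (nat_lit 225) (nat_lit 229) (nat_lit 146)))))) (PT.nd (nat_lit 390) (PT.nd (nat_lit 156) (PT.nd (nat_lit 78) (PT.lf (nat_lit 8512) (nat_lit 6) (nat_lit 112) (nat_lit 2) (nat_lit 226) (nat_lit 229) (nat_lit 145)) (PT.lf (nat_lit 8360) (nat_lit 6) (nat_lit 110) (nat_lit 2) (nat_lit 227) (nat_lit 229) (nat_lit 144))) (PT.nd (nat_lit 78) (PT.lf (nat_lit 8208) (nat_lit 6) (nat_lit 108) (nat_lit 2) (nat_lit 228) (nat_lit 229) (nat_lit 143)) (PT.nd (nat_lit 78) (PT.lf (nat_lit 8056) (nat_lit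 3) (nat_lit 106) (nat_lit 0) (nat_lit 229) (nat_lit 229) (nat_lit 142)) (PT.lf (nat_lit 7828) (nat_lit 6) (nat_lit 103) (nat_lit 0) (nat_lit 230) (nat_lit 229) (nat_lit 141))))) (PT.nd (nat_lit 156) (PT.nd (nat_lit 78) (PT.lf (nat_lit 7600) (nat_lit 6) (nat_lit 100) (nat_lit 0) (nat_lit 231) (nat_lit 229) (nat_lit 140)) (PT.lf (nat_lit 7372) (nat_lit 6) (nat_lit 97) (nat_lit 0) (nat_lit 232) (nat_lit 229) (nat_lit 139))) (PT.nd (nat_lit 54990) (PT.lf (nat_lit 7144) (nat_lit 6) (nat_lit 94) (nat_lit 0) (nat_lit 233) (nat_lit 229) (nat_lit 138)) (PT.nd (nat_lit 78) (PT.lf (nat_lit 6992) (nat_lit 6) (nat_lit 92) (nat_lit 5) (nat_lit 137) (nat_lit 230) (nat_lit 233)) (PT.lf (nat_lit 7220) (nat_lit 6) (nat_lit 95) (nat_lit 5) (nat_lit 138) (nat_lit 230) (nat_lit 232))))))) (PT.nd (nat_lit 7098) (PT.nd (nat_lit 390) (PT.nd (nat_lit 156) (PT.nd (nat_lit 78) (PT.lf (nat_lit 7448) (nat_lit 6) (nat_lit 98) (nat_lit 5) (nat_lit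 139) (nat_lit 230) (nat_lit 231)) (PT.lf (nat_lit 7676) (nat_lit 3) (nat_lit 101) (nat_lit 4) (nat_lit 140) (nat_lit 230) (nat_lit 230))) (PT.nd (nat_lit 78) (PT.lf (nat_lit 7828) (nat_lit 6) (nat_lit 103) (nat_lit 4) (nat_lit 141) (nat_lit 230) (nat_lit 229)) (PT.nd (nat_lit 78) (PT.lf (nat_lit 7980) (nat_lit 6) (nat_lit 105) (nat_lit 4) (nat_lit 142) (nat_lit 230) (nat_lit 228)) (PT.lf (nat_lit 8132) (nat_lit 6) (nat_lit 107) (nat_lit 4) (nat_lit 143) (nat_lit 230) (nat_lit 227))))) (PT.nd (nat_lit 6474) (PT.nd (nat_lit 6396) (PT.lf (nat_lit 8284) (nat_lit 6) (nat_lit 109) (nat_lit 4) (nat_lit 144) (nat_lit 230) (nat_lit 226)) (PT.lf (nat_lit 8284) (nat_lit 6) (nat_lit 109) (nat_lit 2) (nat_lit 226) (nat_lit 230) (nat_lit 144))) (PT.nd (nat_lit 78) (PT.lf (nat_lit 8132) (nat_lit 6) (nat_lit 107) (nat_lit 2) (nat_lit 227) (nat_lit 230) (nat_lit 143)) (PT.nd (nat_lit 78) (PT.lf (nat_lit 7980) (nat_lit 6) (nat_lit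 105) (nat_lit 2) (nat_lit 228) (nat_lit 230) (nat_lit 142)) (PT.lf (nat_lit 7828) (nat_lit 6) (nat_lit 103) (nat_lit 2) (nat_lit 229) (nat_lit 230) (nat_lit 141)))))) (PT.nd (nat_lit 55146) (PT.nd (nat_lit 156) (PT.nd (nat_lit 78) (PT.lf (nat_lit 7676) (nat_lit 3) (nat_lit 101) (nat_lit 0) (nat_lit 230) (nat_lit 230) (nat_lit 140)) (PT.lf (nat_lit 7448) (nat_lit 6) (nat_lit 98) (nat_lit 0) (nat_lit 231) (nat_lit 230) (nat_lit 139))) (PT.nd (nat_lit 78) (PT.lf (nat_lit 7220) (nat_lit 6) (nat_lit 95) (nat_lit 0) (nat_lit 232) (nat_lit 230) (nat_lit 138)) (PT.nd (nat_lit 54834) (PT.lf (nat_lit 6992) (nat_lit 6) (nat_lit 92) (nat_lit 0) (nat_lit 233) (nat_lit 230) (nat_lit 137)) (PT.lf (nat_lit 6688) (nat_lit 6) (nat_lit 88) (nat_lit 5) (nat_lit 135) (nat_lit 231) (nat_lit 234))))) (PT.nd (nat_lit 156) (PT.nd (nat_lit 78) (PT.lf (nat_lit 6840) (nat_lit 6) (nat_lit 90) (nat_lit 5) (nat_lit 136) (nat_lit 231) (nat_lit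 233)) (PT.lf (nat_lit 7068) (nat_lit 6) (nat_lit 93) (nat_lit 5) (nat_lit 137) (nat_lit 231) (nat_lit 232))) (PT.nd (nat_lit 78) (PT.lf (nat_lit 7296) (nat_lit 3) (nat_lit 96) (nat_lit 4) (nat_lit 138) (nat_lit 231) (nat_lit 231)) (PT.nd (nat_lit 78) (PT.lf (nat_lit 7448) (nat_lit 6) (nat_lit 98) (nat_lit 4) (nat_lit 139) (nat_lit 231) (nat_lit 230)) (PT.lf (nat_lit 7600) (nat_lit 6) (nat_lit 100) (nat_lit 4) (nat_lit 140) (nat_lit 231) (nat_lit 229))))))))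
noncomputable def pc56 : PT := (PT.nd (nat_lit 69342) (PT.nd (nat_lit 7254) (PT.nd (nat_lit 6864) (PT.nd (nat_lit 6708) (PT.nd (nat_lit 78) (PT.lf (nat_lit 7752) (nat_lit 6) (nat_lit 102) (nat_lit 4) (nat_lit 141) (nat_lit 231) (nat_lit 228)) (PT.lf (nat_lit 7904) (nat_lit 6) (nat_lit 104) (nat_lit 4) (nat_lit 142) (nat_lit 231) (nat_lit 227))) (PT.nd (nat_lit 78) (PT.lf (nat_lit 7904) (nat_lit 6) (nat_lit 104) (nat_lit 2) (nat_lit 227) (nat_lit 231) (nat_lit 142)) (PT.lf (nat_lit 7752) (nat_lit 6) (nat_lit 102) (nat_lit 2) (nat_lit 228) (nat_lit 231) (nat_lit 141)))) (PT.nd (nat_lit 156) (PT.nd (nat_lit 78) (PT.lf (nat_lit 7600) (nat_lit 6) (nat_lit 100) (nat_lit 2) (nat_lit 229) (nat_lit 231) (nat_lit 140)) (PT.lf (nat_lit 7448) (nat_lit 6) (nat_lit 98) (nat_lit 2) (nat_lit 230) (nat_lit 231) (nat_lit 139))) (PT.nd (nat_lit 78) (PT.lf (nat_lit 7296) (nat_lit 3) (nat_lit 96) (nat_lit 0) (nat_lit 231) (nat_lit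 231) (nat_lit 138)) (PT.nd (nat_lit 78) (PT.lf (nat_lit 7068) (nat_lit 6) (nat_lit 93) (nat_lit 0) (nat_lit 232) (nat_lit 231) (nat_lit 137)) (PT.lf (nat_lit 6840) (nat_lit 6) (nat_lit 90) (nat_lit 0) (nat_lit 233) (nat_lit 231) (nat_lit 136)))))) (PT.nd (nat_lit 54912) (PT.nd (nat_lit 54678) (PT.nd (nat_lit 54600) (PT.lf (nat_lit 6688) (nat_lit 6) (nat_lit 88) (nat_lit 0) (nat_lit 234) (nat_lit 231) (nat_lit 135)) (PT.lf (nat_lit 6384) (nat_lit 6) (nat_lit 84) (nat_lit 5) (nat_lit 133) (nat_lit 232) (nat_lit 235))) (PT.nd (nat_lit 78) (PT.lf (nat_lit 6536) (nat_lit 6) (nat_lit 86) (nat_lit 5) (nat_lit 134) (nat_lit 232) (nat_lit 234)) (PT.nd (nat_lit 78) (PT.lf (nat_lit 6764) (nat_lit 6) (nat_lit 89) (nat_lit 5) (nat_lit 135) (nat_lit 232) (nat_lit 233)) (PT.lf (nat_lit 6916) (nat_lit 3) (nat_lit 91) (nat_lit 4) (nat_lit 136) (nat_lit 232) (nat_lit 232))))) (PT.nd (nat_lit 156) (PT.nd (nat_lit 78) (PT.lf (nat_lit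 7068) (nat_lit 6) (nat_lit 93) (nat_lit 4) (nat_lit 137) (nat_lit 232) (nat_lit 231)) (PT.lf (nat_lit 7220) (nat_lit 6) (nat_lit 95) (nat_lit 4) (nat_lit 138) (nat_lit 232) (nat_lit 230))) (PT.nd (nat_lit 78) (PT.lf (nat_lit 7372) (nat_lit 6) (nat_lit 97) (nat_lit 4) (nat_lit 139) (nat_lit 232) (nat_lit 229)) (PT.nd (nat_lit 6864) (PT.lf (nat_lit 7524) (nat_lit 6) (nat_lit 99) (nat_lit 4) (nat_lit 140) (nat_lit 232) (nat_lit 228)) (PT.lf (nat_lit 7524) (nat_lit 6) (nat_lit 99) (nat_lit 2) (nat_lit 228) (nat_lit 232) (nat_lit 140))))))) (PT.nd (nat_lit 55068) (PT.nd (nat_lit 390) (PT.nd (nat_lit 156) (PT.nd (nat_lit 78) (PT.lf (nat_lit 7372) (nat_lit 6) (nat_lit 97) (nat_lit 2) (nat_lit 229) (nat_lit 232) (nat_lit 139)) (PT.lf (nat_lit 7220) (nat_lit 6) (nat_lit 95) (nat_lit 2) (nat_lit 230) (nat_lit 232) (nat_lit 138))) (PT.nd (nat_lit 78) (PT.lf (nat_lit 7068) (nat_lit 6) (nat_lit 93) (nat_lit 2) (nat_lit 231)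 (nat_lit 232) (nat_lit 137)) (PT.nd (nat_lit 78) (PT.lf (nat_lit 6916) (nat_lit 3) (nat_lit 91) (nat_lit 0) (nat_lit 232) (nat_lit 232) (nat_lit 136)) (PT.lf (nat_lit 6764) (nat_lit 6) (nat_lit 89) (nat_lit 0) (nat_lit 233) (nat_lit 232) (nat_lit 135))))) (PT.nd (nat_lit 54444) (PT.nd (nat_lit 78) (PT.lf (nat_lit 6536) (nat_lit 6) (nat_lit 86) (nat_lit 0) (nat_lit 234) (nat_lit 232) (nat_lit 134)) (PT.lf (nat_lit 6384) (nat_lit 6) (nat_lit 84) (nat_lit 0) (nat_lit 235) (nat_lit 232) (nat_lit 133))) (PT.nd (nat_lit 78) (PT.lf (nat_lit 6080) (nat_lit 6) (nat_lit 80) (nat_lit 5) (nat_lit 131) (nat_lit 233) (nat_lit 236)) (PT.nd (nat_lit 78) (PT.lf (nat_lit 6232) (nat_lit 6) (nat_lit 82) (nat_lit 5) (nat_lit 132) (nat_lit 233) (nat_lit 235)) (PT.lf (nat_lit 6460) (nat_lit 6) (nat_lit 85) (nat_lit 5) (nat_lit 133) (nat_lit 233) (nat_lit 234)))))) (PT.nd (nat_lit 7410) (PT.nd (nat_lit 156) (PT.nd (nat_lit 78) (PT.lf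 (nat_lit 6612) (nat_lit 3) (nat_lit 87) (nat_lit 4) (nat_lit 134) (nat_lit 233) (nat_lit 233)) (PT.lf (nat_lit 6764) (nat_lit 6) (nat_lit 89) (nat_lit 4) (nat_lit 135) (nat_lit 233) (nat_lit 232))) (PT.nd (nat_lit 78) (PT.lf (nat_lit 6840) (nat_lit 6) (nat_lit 90) (nat_lit 4) (nat_lit 136) (nat_lit 233) (nat_lit 231)) (PT.nd (nat_lit 78) (PT.lf (nat_lit 6992) (nat_lit 6) (nat_lit 92) (nat_lit 4) (nat_lit 137) (nat_lit 233) (nat_lit 230)) (PT.lf (nat_lit 7144) (nat_lit 6) (nat_lit 94) (nat_lit 4) (nat_lit 138) (nat_lit 233) (nat_lit 229))))) (PT.nd (nat_lit 156) (PT.nd (nat_lit 78) (PT.lf (nat_lit 7144) (nat_lit 6) (nat_lit 94) (nat_lit 2) (nat_lit 229) (nat_lit 233) (nat_lit 138)) (PT.lf (nat_lit 6992) (nat_lit 6) (nat_lit 92) (nat_lit 2) (nat_lit 230) (nat_lit 233) (nat_lit 137))) (PT.nd (nat_lit 78) (PT.lf (nat_lit 6840) (nat_lit 6) (nat_lit 90) (nat_lit 2) (nat_lit 231) (nat_lit 233) (nat_lit 136)) (PT.nd (nat_lit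 78) (PT.lf (nat_lit 6764) (nat_lit 6) (nat_lit 89) (nat_lit 2) (nat_lit 232) (nat_lit 233) (nat_lit 135)) (PT.lf (nat_lit 6612) (nat_lit 3) (nat_lit 87) (nat_lit 0) (nat_lit 233) (nat_lit 233) (nat_lit 134))))))))
noncomputable def pc57 : PT := (PT.nd (nat_lit 116766) (PT.nd (nat_lit 54756) (PT.nd (nat_lit 54366) (PT.nd (nat_lit 156) (PT.nd (nat_lit 78) (PT.lf (nat_lit 6460) (nat_lit 6) (nat_lit 85) (nat_lit 0) (nat_lit 234) (nat_lit 233) (nat_lit 133)) (PT.lf (nat_lit 6232) (nat_lit 6) (nat_lit 82) (nat_lit 0) (nat_lit 235) (nat_lit 233) (nat_lit 132))) (PT.nd (nat_lit 54132) (PT.lf (nat_lit 6080) (nat_lit 6) (nat_lit 80) (nat_lit 0) (nat_lit 236) (nat_lit 233) (nat_lit 131)) (PT.lf (nat_lit 5776) (nat_lit 6) (nat_lit 76) (nat_lit 5) (nat_lit 129) (nat_lit 234) (nat_lit 237)))) (PT.nd (nat_lit 156) (PT.nd (nat_lit 78) (PT.lf (nat_lit 5928) (nat_lit 6) (nat_lit 78) (nat_lit 5) (nat_lit 130) (nat_lit 234) (nat_lit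 236)) (PT.lf (nat_lit 6156) (nat_lit 6) (nat_lit 81) (nat_lit 5) (nat_lit 131) (nat_lit 234) (nat_lit 235))) (PT.nd (nat_lit 78) (PT.lf (nat_lit 6308) (nat_lit 3) (nat_lit 83) (nat_lit 4) (nat_lit 132) (nat_lit 234) (nat_lit 234)) (PT.nd (nat_lit 78) (PT.lf (nat_lit 6460) (nat_lit 6) (nat_lit 85) (nat_lit 4) (nat_lit 133) (nat_lit 234) (nat_lit 233)) (PT.lf (nat_lit 6536) (nat_lit 6) (nat_lit 86) (nat_lit 4) (nat_lit 134) (nat_lit 234) (nat_lit 232)))))) (PT.nd (nat_lit 7800) (PT.nd (nat_lit 7566) (PT.nd (nat_lit 7488) (PT.lf (nat_lit 6688) (nat_lit 6) (nat_lit 88) (nat_lit 4) (nat_lit 135) (nat_lit 234) (nat_lit 231)) (PT.lf (nat_lit 6688) (nat_lit 6) (nat_lit 88) (nat_lit 2) (nat_lit 231) (nat_lit 234) (nat_lit 135))) (PT.nd (nat_lit 78) (PT.lf (nat_lit 6536) (nat_lit 6) (nat_lit 86) (nat_lit 2) (nat_lit 232) (nat_lit 234) (nat_lit 134)) (PT.nd (nat_lit 78) (PT.lf (nat_lit 6460) (nat_lit 6) (nat_lit 85) (nat_lit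 2) (nat_lit 233) (nat_lit 234) (nat_lit 133)) (PT.lf (nat_lit 6308) (nat_lit 3) (nat_lit 83) (nat_lit 0) (nat_lit 234) (nat_lit 234) (nat_lit 132))))) (PT.nd (nat_lit 156) (PT.nd (nat_lit 78) (PT.lf (nat_lit 6156) (nat_lit 6) (nat_lit 81) (nat_lit 0) (nat_lit 235) (nat_lit 234) (nat_lit 131)) (PT.lf (nat_lit 5928) (nat_lit 6) (nat_lit 78) (nat_lit 0) (nat_lit 236) (nat_lit 234) (nat_lit 130))) (PT.nd (nat_lit 53898) (PT.lf (nat_lit 5776) (nat_lit 6) (nat_lit 76) (nat_lit 0) (nat_lit 237) (nat_lit 234) (nat_lit 129)) (PT.nd (nat_lit 78) (PT.lf (nat_lit 5472) (nat_lit 6) (nat_lit 72) (nat_lit 5) (nat_lit 127) (nat_lit 235) (nat_lit 238)) (PT.lf (nat_lit 5624) (nat_lit 6) (nat_lit 74) (nat_lit 5) (nat_lit 128) (nat_lit 235) (nat_lit 237))))))) (PT.nd (nat_lit 8424) (PT.nd (nat_lit 8034) (PT.nd (nat_lit 156) (PT.nd (nat_lit 78) (PT.lf (nat_lit 5852) (nat_lit 6) (nat_lit 77) (nat_lit 5) (nat_lit 129) (nat_lit 235) (nat_lit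 236)) (PT.lf (nat_lit 6004) (nat_lit 3) (nat_lit 79) (nat_lit 4) (nat_lit 130) (nat_lit 235) (nat_lit 235))) (PT.nd (nat_lit 78) (PT.lf (nat_lit 6156) (nat_lit 6) (nat_lit 81) (nat_lit 4) (nat_lit 131) (nat_lit 235) (nat_lit 234)) (PT.nd (nat_lit 78) (PT.lf (nat_lit 6232) (nat_lit 6) (nat_lit 82) (nat_lit 4) (nat_lit 132) (nat_lit 235) (nat_lit 233)) (PT.lf (nat_lit 6384) (nat_lit 6) (nat_lit 84) (nat_lit 4) (nat_lit 133) (nat_lit 235) (nat_lit 232))))) (PT.nd (nat_lit 156) (PT.nd (nat_lit 78) (PT.lf (nat_lit 6384) (nat_lit 6) (nat_lit 84) (nat_lit 2) (nat_lit 232) (nat_lit 235) (nat_lit 133)) (PT.lf (nat_lit 6232) (nat_lit 6) (nat_lit 82) (nat_lit 2) (nat_lit 233) (nat_lit 235) (nat_lit 132))) (PT.nd (nat_lit 78) (PT.lf (nat_lit 6156) (nat_lit 6) (nat_lit 81) (nat_lit 2) (nat_lit 234) (nat_lit 235) (nat_lit 131)) (PT.nd (nat_lit 78) (PT.lf (nat_lit 6004) (nat_lit 3) (nat_lit 79) (nat_lit 0) (nat_lit 235) (nat_lit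 235) (nat_lit 130)) (PT.lf (nat_lit 5852) (nat_lit 6) (nat_lit 77) (nat_lit 0) (nat_lit 236) (nat_lit 235) (nat_lit 129)))))) (PT.nd (nat_lit 53976) (PT.nd (nat_lit 53742) (PT.nd (nat_lit 78) (PT.lf (nat_lit 5624) (nat_lit 6) (nat_lit 74) (nat_lit 0) (nat_lit 237) (nat_lit 235) (nat_lit 128)) (PT.lf (nat_lit 5472) (nat_lit 6) (nat_lit 72) (nat_lit 0) (nat_lit 238) (nat_lit 235) (nat_lit 127))) (PT.nd (nat_lit 78) (PT.lf (nat_lit 5168) (nat_lit 6) (nat_lit 68) (nat_lit 5) (nat_lit 125) (nat_lit 236) (nat_lit 239)) (PT.nd (nat_lit 78) (PT.lf (nat_lit 5320) (nat_lit 6) (nat_lit 70) (nat_lit 5) (nat_lit 126) (nat_lit 236) (nat_lit 238)) (PT.lf (nat_lit 5548) (nat_lit 6) (nat_lit 73) (nat_lit 5) (nat_lit 127) (nat_lit 236) (nat_lit 237))))) (PT.nd (nat_lit 156) (PT.nd (nat_lit 78) (PT.lf (nat_lit 5700) (nat_lit 3) (nat_lit 75) (nat_lit 4) (nat_lit 128) (nat_lit 236) (nat_lit 236)) (PT.lf (nat_lit 5852) (nat_lit 6) (nat_lit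 77) (nat_lit 4) (nat_lit 129) (nat_lit 236) (nat_lit 235))) (PT.nd (nat_lit 78) (PT.lf (nat_lit 5928) (nat_lit 6) (nat_lit 78) (nat_lit 4) (nat_lit 130) (nat_lit 236) (nat_lit 234)) (PT.nd (nat_lit 7956) (PT.lf (nat_lit 6080) (nat_lit 6) (nat_lit 80) (nat_lit 4) (nat_lit 131) (nat_lit 236) (nat_lit 233)) (PT.lf (nat_lit 6080) (nat_lit 6) (nat_lit 80) (nat_lit 2) (nat_lit 233) (nat_lit 236) (nat_lit 131))))))))
noncomputable def pc58 : PT := (PT.nd (nat_lit 116298) (PT.nd (nat_lit 54132) (PT.nd (nat_lit 312) (PT.nd (nat_lit 156) (PT.nd (nat_lit 78) (PT.lf (nat_lit 5928) (nat_lit 6) (nat_lit 78) (nat_lit 2) (nat_lit 234) (nat_lit 236) (nat_lit 130)) (PT.lf (nat_lit 5852) (nat_lit 6) (nat_lit 77) (nat_lit 2) (nat_lit 235) (nat_lit 236) (nat_lit 129))) (PT.nd (nat_lit 78) (PT.lf (nat_lit 5700) (nat_lit 3) (nat_lit 75) (nat_lit 0) (nat_lit 236) (nat_lit 236) (nat_lit 128)) (PT.lf (nat_lit 5548) (nat_lit 6) (nat_lit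 73) (nat_lit 0) (nat_lit 237) (nat_lit 236) (nat_lit 127)))) (PT.nd (nat_lit 53586) (PT.nd (nat_lit 78) (PT.lf (nat_lit 5320) (nat_lit 6) (nat_lit 70) (nat_lit 0) (nat_lit 238) (nat_lit 236) (nat_lit 126)) (PT.lf (nat_lit 5168) (nat_lit 6) (nat_lit 68) (nat_lit 0) (nat_lit 239) (nat_lit 236) (nat_lit 125))) (PT.nd (nat_lit 78) (PT.lf (nat_lit 5016) (nat_lit 6) (nat_lit 66) (nat_lit 5) (nat_lit 124) (nat_lit 237) (nat_lit 239)) (PT.nd (nat_lit 78) (PT.lf (nat_lit 5244) (nat_lit 6) (nat_lit 69) (nat_lit 5) (nat_lit 125) (nat_lit 237) (nat_lit 238)) (PT.lf (nat_lit 5396) (nat_lit 3) (nat_lit 71) (nat_lit 4) (nat_lit 126) (nat_lit 237) (nat_lit 237)))))) (PT.nd (nat_lit 8502) (PT.nd (nat_lit 156) (PT.nd (nat_lit 78) (PT.lf (nat_lit 5548) (nat_lit 6) (nat_lit 73) (nat_lit 4) (nat_lit 127) (nat_lit 237) (nat_lit 236)) (PT.lf (nat_lit 5624) (nat_lit 6) (nat_lit 74) (nat_lit 4) (nat_lit 128) (nat_lit 237) (nat_lit 235)))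 (PT.nd (nat_lit 8190) (PT.lf (nat_lit 5776) (nat_lit 6) (nat_lit 76) (nat_lit 4) (nat_lit 129) (nat_lit 237) (nat_lit 234)) (PT.nd (nat_lit 78) (PT.lf (nat_lit 5776) (nat_lit 6) (nat_lit 76) (nat_lit 2) (nat_lit 234) (nat_lit 237) (nat_lit 129)) (PT.lf (nat_lit 5624) (nat_lit 6) (nat_lit 74) (nat_lit 2) (nat_lit 235) (nat_lit 237) (nat_lit 128))))) (PT.nd (nat_lit 156) (PT.nd (nat_lit 78) (PT.lf (nat_lit 5548) (nat_lit 6) (nat_lit 73) (nat_lit 2) (nat_lit 236) (nat_lit 237) (nat_lit 127)) (PT.lf (nat_lit 5396) (nat_lit 3) (nat_lit 71) (nat_lit 0) (nat_lit 237) (nat_lit 237) (nat_lit 126))) (PT.nd (nat_lit 78) (PT.lf (nat_lit 5244) (nat_lit 6) (nat_lit 69) (nat_lit 0) (nat_lit 238) (nat_lit 237) (nat_lit 125)) (PT.nd (nat_lit 53352) (PT.lf (nat_lit 5016) (nat_lit 6) (nat_lit 66) (nat_lit 0) (nat_lit 239) (nat_lit 237) (nat_lit 124)) (PT.lf (nat_lit 4788) (nat_lit 6) (nat_lit 63) (nat_lit 5) (nat_lit 122) (nat_lit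 238) (nat_lit 240))))))) (PT.nd (nat_lit 9126) (PT.nd (nat_lit 8736) (PT.nd (nat_lit 156) (PT.nd (nat_lit 78) (PT.lf (nat_lit 4940) (nat_lit 6) (nat_lit 65) (nat_lit 5) (nat_lit 123) (nat_lit 238) (nat_lit 239)) (PT.lf (nat_lit 5092) (nat_lit 3) (nat_lit 67) (nat_lit 4) (nat_lit 124) (nat_lit 238) (nat_lit 238))) (PT.nd (nat_lit 78) (PT.lf (nat_lit 5244) (nat_lit 6) (nat_lit 69) (nat_lit 4) (nat_lit 125) (nat_lit 238) (nat_lit 237)) (PT.nd (nat_lit 78) (PT.lf (nat_lit 5320) (nat_lit 6) (nat_lit 70) (nat_lit 4) (nat_lit 126) (nat_lit 238) (nat_lit 236)) (PT.lf (nat_lit 5472) (nat_lit 6) (nat_lit 72) (nat_lit 4) (nat_lit 127) (nat_lit 238) (nat_lit 235))))) (PT.nd (nat_lit 156) (PT.nd (nat_lit 78) (PT.lf (nat_lit 5472) (nat_lit 6) (nat_lit 72) (nat_lit 2) (nat_lit 235) (nat_lit 238) (nat_lit 127)) (PT.lf (nat_lit 5320) (nat_lit 6) (nat_lit 70) (nat_lit 2) (nat_lit 236) (nat_lit 238) (nat_lit 126))) (PT.nd (nat_lit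 78) (PT.lf (nat_lit 5244) (nat_lit 6) (nat_lit 69) (nat_lit 2) (nat_lit 237) (nat_lit 238) (nat_lit 125)) (PT.nd (nat_lit 78) (PT.lf (nat_lit 5092) (nat_lit 3) (nat_lit 67) (nat_lit 0) (nat_lit 238) (nat_lit 238) (nat_lit 124)) (PT.lf (nat_lit 4940) (nat_lit 6) (nat_lit 65) (nat_lit 0) (nat_lit 239) (nat_lit 238) (nat_lit 123)))))) (PT.nd (nat_lit 53430) (PT.nd (nat_lit 53196) (PT.nd (nat_lit 53118) (PT.lf (nat_lit 4788) (nat_lit 6) (nat_lit 63) (nat_lit 0) (nat_lit 240) (nat_lit 238) (nat_lit 122)) (PT.lf (nat_lit 4560) (nat_lit 6) (nat_lit 60) (nat_lit 5) (nat_lit 120) (nat_lit 239) (nat_lit 241))) (PT.nd (nat_lit 78) (PT.lf (nat_lit 4712) (nat_lit 6) (nat_lit 62) (nat_lit 5) (nat_lit 121) (nat_lit 239) (nat_lit 240)) (PT.nd (nat_lit 78) (PT.lf (nat_lit 4864) (nat_lit 3) (nat_lit 64) (nat_lit 4) (nat_lit 122) (nat_lit 239) (nat_lit 239)) (PT.lf (nat_lit 4940) (nat_lit 6) (nat_lit 65) (nat_lit 4) (nat_lit 123)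 (nat_lit 239) (nat_lit 238))))) (PT.nd (nat_lit 8736) (PT.nd (nat_lit 78) (PT.lf (nat_lit 5016) (nat_lit 6) (nat_lit 66) (nat_lit 4) (nat_lit 124) (nat_lit 239) (nat_lit 237)) (PT.lf (nat_lit 5168) (nat_lit 6) (nat_lit 68) (nat_lit 4) (nat_lit 125) (nat_lit 239) (nat_lit 236))) (PT.nd (nat_lit 78) (PT.lf (nat_lit 5168) (nat_lit 6) (nat_lit 68) (nat_lit 2) (nat_lit 236) (nat_lit 239) (nat_lit 125)) (PT.nd (nat_lit 78) (PT.lf (nat_lit 5016) (nat_lit 6) (nat_lit 66) (nat_lit 2) (nat_lit 237) (nat_lit 239) (nat_lit 124)) (PT.lf (nat_lit 4940) (nat_lit 6) (nat_lit 65) (nat_lit 2) (nat_lit 238) (nat_lit 239) (nat_lit 123))))))))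
noncomputable def pc59 : PT := (PT.nd (nat_lit 125034) (PT.nd (nat_lit 62478) (PT.nd (nat_lit 53118) (PT.nd (nat_lit 156) (PT.nd (nat_lit 78) (PT.lf (nat_lit 4864) (nat_lit 3) (nat_lit 64) (nat_lit 0) (nat_lit 239) (nat_lit 239) (nat_lit 122)) (PT.lf (nat_lit 4712) (nat_lit 6) (nat_lit 62) (nat_lit 0) (nat_lit 240) (nat_lit 239) (nat_lit 121))) (PT.nd (nat_lit 52884) (PT.lf (nat_lit 4560) (nat_lit 6) (nat_lit 60) (nat_lit 0) (nat_lit 241) (nat_lit 239) (nat_lit 120)) (PT.lf (nat_lit 4332) (nat_lit 6) (nat_lit 57) (nat_lit 5) (nat_lit 118) (nat_lit 240) (nat_lit 242)))) (PT.nd (nat_lit 156) (PT.nd (nat_lit 78) (PT.lf (nat_lit 4484) (nat_lit 6) (nat_lit 59) (nat_lit 5) (nat_lit 119) (nat_lit 240) (nat_lit 241)) (PT.lf (nat_lit 4636) (nat_lit 3) (nat_lit 61) (nat_lit 4) (nat_lit 120) (nat_lit 240) (nat_lit 240))) (PT.nd (nat_lit 78) (PT.lf (nat_lit 4712) (nat_lit 6) (nat_lit 62) (nat_lit 4) (nat_lit 121) (nat_lit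 240) (nat_lit 239)) (PT.nd (nat_lit 9048) (PT.lf (nat_lit 4788) (nat_lit 6) (nat_lit 63) (nat_lit 4) (nat_lit 122) (nat_lit 240) (nat_lit 238)) (PT.lf (nat_lit 4788) (nat_lit 6) (nat_lit 63) (nat_lit 2) (nat_lit 238) (nat_lit 240) (nat_lit 122)))))) (PT.nd (nat_lit 52962) (PT.nd (nat_lit 156) (PT.nd (nat_lit 78) (PT.lf (nat_lit 4712) (nat_lit 6) (nat_lit 62) (nat_lit 2) (nat_lit 239) (nat_lit 240) (nat_lit 121)) (PT.lf (nat_lit 4636) (nat_lit 3) (nat_lit 61) (nat_lit 0) (nat_lit 240) (nat_lit 240) (nat_lit 120))) (PT.nd (nat_lit 78) (PT.lf (nat_lit 4484) (nat_lit 6) (nat_lit 59) (nat_lit 0) (nat_lit 241) (nat_lit 240) (nat_lit 119)) (PT.nd (nat_lit 52650) (PT.lf (nat_lit 4332) (nat_lit 6) (nat_lit 57) (nat_lit 0) (nat_lit 242) (nat_lit 240) (nat_lit 118)) (PT.lf (nat_lit 4104) (nat_lit 6) (nat_lit 54) (nat_lit 5) (nat_lit 116) (nat_lit 241) (nat_lit 243))))) (PT.nd (nat_lit 156) (PT.nd (nat_lit 78) (PT.lf (nat_lit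 4256) (nat_lit 6) (nat_lit 56) (nat_lit 5) (nat_lit 117) (nat_lit 241) (nat_lit 242)) (PT.lf (nat_lit 4408) (nat_lit 3) (nat_lit 58) (nat_lit 4) (nat_lit 118) (nat_lit 241) (nat_lit 241))) (PT.nd (nat_lit 78) (PT.lf (nat_lit 4484) (nat_lit 6) (nat_lit 59) (nat_lit 4) (nat_lit 119) (nat_lit 241) (nat_lit 240)) (PT.nd (nat_lit 9282) (PT.lf (nat_lit 4560) (nat_lit 6) (nat_lit 60) (nat_lit 4) (nat_lit 120) (nat_lit 241) (nat_lit 239)) (PT.lf (nat_lit 4560) (nat_lit 6) (nat_lit 60) (nat_lit 2) (nat_lit 239) (nat_lit 241) (nat_lit 120))))))) (PT.nd (nat_lit 62556) (PT.nd (nat_lit 52728) (PT.nd (nat_lit 156) (PT.nd (nat_lit 78) (PT.lf (nat_lit 4484) (nat_lit 6) (nat_lit 59) (nat_lit 2) (nat_lit 240) (nat_lit 241) (nat_lit 119)) (PT.lf (nat_lit 4408) (nat_lit 3) (nat_lit 58) (nat_lit 0) (nat_lit 241) (nat_lit 241) (nat_lit 118))) (PT.nd (nat_lit 78) (PT.lf (nat_lit 4256) (nat_lit 6) (nat_lit 56) (nat_lit 0) (nat_lit 242)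 (nat_lit 241) (nat_lit 117)) (PT.nd (nat_lit 52416) (PT.lf (nat_lit 4104) (nat_lit 6) (nat_lit 54) (nat_lit 0) (nat_lit 243) (nat_lit 241) (nat_lit 116)) (PT.lf (nat_lit 3876) (nat_lit 6) (nat_lit 51) (nat_lit 5) (nat_lit 114) (nat_lit 242) (nat_lit 244))))) (PT.nd (nat_lit 156) (PT.nd (nat_lit 78) (PT.lf (nat_lit 4028) (nat_lit 6) (nat_lit 53) (nat_lit 5) (nat_lit 115) (nat_lit 242) (nat_lit 243)) (PT.lf (nat_lit 4180) (nat_lit 3) (nat_lit 55) (nat_lit 4) (nat_lit 116) (nat_lit 242) (nat_lit 242))) (PT.nd (nat_lit 78) (PT.lf (nat_lit 4256) (nat_lit 6) (nat_lit 56) (nat_lit 4) (nat_lit 117) (nat_lit 242) (nat_lit 241)) (PT.nd (nat_lit 9516) (PT.lf (nat_lit 4332) (nat_lit 6) (nat_lit 57) (nat_lit 4) (nat_lit 118) (nat_lit 242) (nat_lit 240)) (PT.lf (nat_lit 4332) (nat_lit 6) (nat_lit 57) (nat_lit 2) (nat_lit 240) (nat_lit 242) (nat_lit 118)))))) (PT.nd (nat_lit 52494) (PT.nd (nat_lit 156) (PT.nd (nat_lit 78) (PT.lf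 (nat_lit 4256) (nat_lit 6) (nat_lit 56) (nat_lit 2) (nat_lit 241) (nat_lit 242) (nat_lit 117)) (PT.lf (nat_lit 4180) (nat_lit 3) (nat_lit 55) (nat_lit 0) (nat_lit 242) (nat_lit 242) (nat_lit 116))) (PT.nd (nat_lit 78) (PT.lf (nat_lit 4028) (nat_lit 6) (nat_lit 53) (nat_lit 0) (nat_lit 243) (nat_lit 242) (nat_lit 115)) (PT.nd (nat_lit 52182) (PT.lf (nat_lit 3876) (nat_lit 6) (nat_lit 51) (nat_lit 0) (nat_lit 244) (nat_lit 242) (nat_lit 114)) (PT.lf (nat_lit 3648) (nat_lit 6) (nat_lit 48) (nat_lit 5) (nat_lit 112) (nat_lit 243) (nat_lit 245))))) (PT.nd (nat_lit 156) (PT.nd (nat_lit 78) (PT.lf (nat_lit 3800) (nat_lit 6) (nat_lit 50) (nat_lit 5) (nat_lit 113) (nat_lit 243) (nat_lit 244)) (PT.lf (nat_lit 3952) (nat_lit 3) (nat_lit 52) (nat_lit 4) (nat_lit 114) (nat_lit 243) (nat_lit 243))) (PT.nd (nat_lit 78) (PT.lf (nat_lit 4028) (nat_lit 6) (nat_lit 53) (nat_lit 4) (nat_lit 115) (nat_lit 243) (nat_lit 242)) (PT.nd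 (nat_lit 9750) (PT.lf (nat_lit 4104) (nat_lit 6) (nat_lit 54) (nat_lit 4) (nat_lit 116) (nat_lit 243) (nat_lit 241)) (PT.lf (nat_lit 4104) (nat_lit 6) (nat_lit 54) (nat_lit 2) (nat_lit 241) (nat_lit 243) (nat_lit 116))))))))
noncomputable def pc60 : PT := (PT.nd (nat_lit 125034) (PT.nd (nat_lit 62478) (PT.nd (nat_lit 52182) (PT.nd (nat_lit 156) (PT.nd (nat_lit 78) (PT.lf (nat_lit 4028) (nat_lit 6) (nat_lit 53) (nat_lit 2) (nat_lit 242) (nat_lit 243) (nat_lit 115)) (PT.lf (nat_lit 3952) (nat_lit 3) (nat_lit 52) (nat_lit 0) (nat_lit 243) (nat_lit 243) (nat_lit 114))) (PT.nd (nat_lit 78) (PT.lf (nat_lit 3800) (nat_lit 6) (nat_lit 50) (nat_lit 0) (nat_lit 244) (nat_lit 243) (nat_lit 113)) (PT.lf (nat_lit 3648) (nat_lit 6) (nat_lit 48) (nat_lit 0) (nat_lit 245) (nat_lit 243) (nat_lit 112)))) (PT.nd (nat_lit 156) (PT.nd (nat_lit 78) (PT.lf (nat_lit 3420) (nat_lit 6) (nat_lit 45) (nat_lit 5) (nat_lit 110) (nat_lit 244)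 (nat_lit 246)) (PT.lf (nat_lit 3572) (nat_lit 6) (nat_lit 47) (nat_lit 5) (nat_lit 111) (nat_lit 244) (nat_lit 245))) (PT.nd (nat_lit 78) (PT.lf (nat_lit 3724) (nat_lit 3) (nat_lit 49) (nat_lit 4) (nat_lit 112) (nat_lit 244) (nat_lit 244)) (PT.nd (nat_lit 78) (PT.lf (nat_lit 3800) (nat_lit 6) (nat_lit 50) (nat_lit 4) (nat_lit 113) (nat_lit 244) (nat_lit 243)) (PT.lf (nat_lit 3876) (nat_lit 6) (nat_lit 51) (nat_lit 4) (nat_lit 114) (nat_lit 244) (nat_lit 242)))))) (PT.nd (nat_lit 52026) (PT.nd (nat_lit 156) (PT.nd (nat_lit 78) (PT.lf (nat_lit 3876) (nat_lit 6) (nat_lit 51) (nat_lit 2) (nat_lit 242) (nat_lit 244) (nat_lit 114)) (PT.lf (nat_lit 3800) (nat_lit 6) (nat_lit 50) (nat_lit 2) (nat_lit 243) (nat_lit 244) (nat_lit 113))) (PT.nd (nat_lit 78) (PT.lf (nat_lit 3724) (nat_lit 3) (nat_lit 49) (nat_lit 0) (nat_lit 244) (nat_lit 244) (nat_lit 112)) (PT.nd (nat_lit 78) (PT.lf (nat_lit 3572) (nat_lit 6) (nat_lit 47)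 (nat_lit 0) (nat_lit 245) (nat_lit 244) (nat_lit 111)) (PT.lf (nat_lit 3420) (nat_lit 6) (nat_lit 45) (nat_lit 0) (nat_lit 246) (nat_lit 244) (nat_lit 110))))) (PT.nd (nat_lit 156) (PT.nd (nat_lit 78) (PT.lf (nat_lit 3192) (nat_lit 6) (nat_lit 42) (nat_lit 5) (nat_lit 108) (nat_lit 245) (nat_lit 247)) (PT.lf (nat_lit 3344) (nat_lit 6) (nat_lit 44) (nat_lit 5) (nat_lit 109) (nat_lit 245) (nat_lit 246))) (PT.nd (nat_lit 78) (PT.lf (nat_lit 3496) (nat_lit 3) (nat_lit 46) (nat_lit 4) (nat_lit 110) (nat_lit 245) (nat_lit 245)) (PT.nd (nat_lit 78) (PT.lf (nat_lit 3572) (nat_lit 6) (nat_lit 47) (nat_lit 4) (nat_lit 111) (nat_lit 245) (nat_lit 244)) (PT.lf (nat_lit 3648) (nat_lit 6) (nat_lit 48) (nat_lit 4) (nat_lit 112) (nat_lit 245) (nat_lit 243))))))) (PT.nd (nat_lit 62556) (PT.nd (nat_lit 51792) (PT.nd (nat_lit 156) (PT.nd (nat_lit 78) (PT.lf (nat_lit 3648) (nat_lit 6) (nat_lit 48) (nat_lit 2) (nat_lit 243) (nat_lit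 245) (nat_lit 112)) (PT.lf (nat_lit 3572) (nat_lit 6) (nat_lit 47) (nat_lit 2) (nat_lit 244) (nat_lit 245) (nat_lit 111))) (PT.nd (nat_lit 78) (PT.lf (nat_lit 3496) (nat_lit 3) (nat_lit 46) (nat_lit 0) (nat_lit 245) (nat_lit 245) (nat_lit 110)) (PT.nd (nat_lit 78) (PT.lf (nat_lit 3344) (nat_lit 6) (nat_lit 44) (nat_lit 0) (nat_lit 246) (nat_lit 245) (nat_lit 109)) (PT.lf (nat_lit 3192) (nat_lit 6) (nat_lit 42) (nat_lit 0) (nat_lit 247) (nat_lit 245) (nat_lit 108))))) (PT.nd (nat_lit 156) (PT.nd (nat_lit 78) (PT.lf (nat_lit 2964) (nat_lit 6) (nat_lit 39) (nat_lit 5) (nat_lit 106) (nat_lit 246) (nat_lit 248)) (PT.lf (nat_lit 3116) (nat_lit 6) (nat_lit 41) (nat_lit 5) (nat_lit 107) (nat_lit 246) (nat_lit 247))) (PT.nd (nat_lit 78) (PT.lf (nat_lit 3268) (nat_lit 3) (nat_lit 43) (nat_lit 4) (nat_lit 108) (nat_lit 246) (nat_lit 246)) (PT.nd (nat_lit 78) (PT.lf (nat_lit 3344) (nat_lit 6) (nat_lit 44) (nat_lit 4) (nat_lit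 109) (nat_lit 246) (nat_lit 245)) (PT.lf (nat_lit 3420) (nat_lit 6) (nat_lit 45) (nat_lit 4) (nat_lit 110) (nat_lit 246) (nat_lit 244)))))) (PT.nd (nat_lit 51558) (PT.nd (nat_lit 156) (PT.nd (nat_lit 78) (PT.lf (nat_lit 3420) (nat_lit 6) (nat_lit 45) (nat_lit 2) (nat_lit 244) (nat_lit 246) (nat_lit 110)) (PT.lf (nat_lit 3344) (nat_lit 6) (nat_lit 44) (nat_lit 2) (nat_lit 245) (nat_lit 246) (nat_lit 109))) (PT.nd (nat_lit 78) (PT.lf (nat_lit 3268) (nat_lit 3) (nat_lit 43) (nat_lit 0) (nat_lit 246) (nat_lit 246) (nat_lit 108)) (PT.nd (nat_lit 78) (PT.lf (nat_lit 3116) (nat_lit 6) (nat_lit 41) (nat_lit 0) (nat_lit 247) (nat_lit 246) (nat_lit 107)) (PT.lf (nat_lit 2964) (nat_lit 6) (nat_lit 39) (nat_lit 0) (nat_lit 248) (nat_lit 246) (nat_lit 106))))) (PT.nd (nat_lit 156) (PT.nd (nat_lit 78) (PT.lf (nat_lit 2736) (nat_lit 6) (nat_lit 36) (nat_lit 5) (nat_lit 104) (nat_lit 247) (nat_lit 249)) (PT.lf (nat_lit 2888) (nat_lit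 6) (nat_lit 38) (nat_lit 5) (nat_lit 105) (nat_lit 247) (nat_lit 248))) (PT.nd (nat_lit 78) (PT.lf (nat_lit 3040) (nat_lit 3) (nat_lit 40) (nat_lit 4) (nat_lit 106) (nat_lit 247) (nat_lit 247)) (PT.nd (nat_lit 78) (PT.lf (nat_lit 3116) (nat_lit 6) (nat_lit 41) (nat_lit 4) (nat_lit 107) (nat_lit 247) (nat_lit 246)) (PT.lf (nat_lit 3192) (nat_lit 6) (nat_lit 42) (nat_lit 4) (nat_lit 108) (nat_lit 247) (nat_lit 245))))))))
noncomputable def pc61 : PT := (PT.nd (nat_lit 113958) (PT.nd (nat_lit 51636) (PT.nd (nat_lit 312) (PT.nd (nat_lit 156) (PT.nd (nat_lit 78) (PT.lf (nat_lit 3192) (nat_lit 6) (nat_lit 42) (nat_lit 2) (nat_lit 245) (nat_lit 247) (nat_lit 108)) (PT.lf (nat_lit 3116) (nat_lit 6) (nat_lit 41) (nat_lit 2) (nat_lit 246) (nat_lit 247) (nat_lit 107))) (PT.nd (nat_lit 78) (PT.lf (nat_lit 3040) (nat_lit 3) (nat_lit 40) (nat_lit 0) (nat_lit 247) (nat_lit 247) (nat_lit 106)) (PT.lf (nat_lit 2888) (nat_lit 6)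 (nat_lit 38) (nat_lit 0) (nat_lit 248) (nat_lit 247) (nat_lit 105)))) (PT.nd (nat_lit 51090) (PT.nd (nat_lit 51012) (PT.lf (nat_lit 2736) (nat_lit 6) (nat_lit 36) (nat_lit 0) (nat_lit 249) (nat_lit 247) (nat_lit 104)) (PT.lf (nat_lit 2508) (nat_lit 6) (nat_lit 33) (nat_lit 5) (nat_lit 102) (nat_lit 248) (nat_lit 250))) (PT.nd (nat_lit 78) (PT.lf (nat_lit 2660) (nat_lit 6) (nat_lit 35) (nat_lit 5) (nat_lit 103) (nat_lit 248) (nat_lit 249)) (PT.nd (nat_lit 78) (PT.lf (nat_lit 2812) (nat_lit 3) (nat_lit 37) (nat_lit 4) (nat_lit 104) (nat_lit 248) (nat_lit 248)) (PT.lf (nat_lit 2888) (nat_lit 6) (nat_lit 38) (nat_lit 4) (nat_lit 105) (nat_lit 248) (nat_lit 247)))))) (PT.nd (nat_lit 11232) (PT.nd (nat_lit 10998) (PT.nd (nat_lit 10920) (PT.lf (nat_lit 2964) (nat_lit 6) (nat_lit 39) (nat_lit 4) (nat_lit 106) (nat_lit 248) (nat_lit 246)) (PT.lf (nat_lit 2964) (nat_lit 6) (nat_lit 39) (nat_lit 2) (nat_lit 246) (nat_lit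 248) (nat_lit 106))) (PT.nd (nat_lit 78) (PT.lf (nat_lit 2888) (nat_lit 6) (nat_lit 38) (nat_lit 2) (nat_lit 247) (nat_lit 248) (nat_lit 105)) (PT.nd (nat_lit 78) (PT.lf (nat_lit 2812) (nat_lit 3) (nat_lit 37) (nat_lit 0) (nat_lit 248) (nat_lit 248) (nat_lit 104)) (PT.lf (nat_lit 2660) (nat_lit 6) (nat_lit 35) (nat_lit 0) (nat_lit 249) (nat_lit 248) (nat_lit 103))))) (PT.nd (nat_lit 50856) (PT.nd (nat_lit 50778) (PT.lf (nat_lit 2508) (nat_lit 6) (nat_lit 33) (nat_lit 0) (nat_lit 250) (nat_lit 248) (nat_lit 102)) (PT.lf (nat_lit 2280) (nat_lit 6) (nat_lit 30) (nat_lit 5) (nat_lit 100) (nat_lit 249) (nat_lit 251))) (PT.nd (nat_lit 78) (PT.lf (nat_lit 2432) (nat_lit 6) (nat_lit 32) (nat_lit 5) (nat_lit 101) (nat_lit 249) (nat_lit 250)) (PT.nd (nat_lit 78) (PT.lf (nat_lit 2584) (nat_lit 3) (nat_lit 34) (nat_lit 4) (nat_lit 102) (nat_lit 249) (nat_lit 249)) (PT.lf (nat_lit 2660) (nat_lit 6) (nat_lit 35) (nat_lit 4)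 (nat_lit 103) (nat_lit 249) (nat_lit 248))))))) (PT.nd (nat_lit 62322) (PT.nd (nat_lit 11466) (PT.nd (nat_lit 11232) (PT.nd (nat_lit 11154) (PT.lf (nat_lit 2736) (nat_lit 6) (nat_lit 36) (nat_lit 4) (nat_lit 104) (nat_lit 249) (nat_lit 247)) (PT.lf (nat_lit 2736) (nat_lit 6) (nat_lit 36) (nat_lit 2) (nat_lit 247) (nat_lit 249) (nat_lit 104))) (PT.nd (nat_lit 78) (PT.lf (nat_lit 2660) (nat_lit 6) (nat_lit 35) (nat_lit 2) (nat_lit 248) (nat_lit 249) (nat_lit 103)) (PT.nd (nat_lit 78) (PT.lf (nat_lit 2584) (nat_lit 3) (nat_lit 34) (nat_lit 0) (nat_lit 249) (nat_lit 249) (nat_lit 102)) (PT.lf (nat_lit 2432) (nat_lit 6) (nat_lit 32) (nat_lit 0) (nat_lit 250) (nat_lit 249) (nat_lit 101))))) (PT.nd (nat_lit 50622) (PT.nd (nat_lit 50544) (PT.lf (nat_lit 2280) (nat_lit 6) (nat_lit 30) (nat_lit 0) (nat_lit 251) (nat_lit 249) (nat_lit 100)) (PT.lf (nat_lit 2052) (nat_lit 6) (nat_lit 27) (nat_lit 5) (nat_lit 98) (nat_lit 250)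 (nat_lit 252))) (PT.nd (nat_lit 78) (PT.lf (nat_lit 2204) (nat_lit 6) (nat_lit 29) (nat_lit 5) (nat_lit 99) (nat_lit 250) (nat_lit 251)) (PT.nd (nat_lit 78) (PT.lf (nat_lit 2356) (nat_lit 3) (nat_lit 31) (nat_lit 4) (nat_lit 100) (nat_lit 250) (nat_lit 250)) (PT.lf (nat_lit 2432) (nat_lit 6) (nat_lit 32) (nat_lit 4) (nat_lit 101) (nat_lit 250) (nat_lit 249)))))) (PT.nd (nat_lit 11700) (PT.nd (nat_lit 11466) (PT.nd (nat_lit 11388) (PT.lf (nat_lit 2508) (nat_lit 6) (nat_lit 33) (nat_lit 4) (nat_lit 102) (nat_lit 250) (nat_lit 248)) (PT.lf (nat_lit 2508) (nat_lit 6) (nat_lit 33) (nat_lit 2) (nat_lit 248) (nat_lit 250) (nat_lit 102))) (PT.nd (nat_lit 78) (PT.lf (nat_lit 2432) (nat_lit 6) (nat_lit 32) (nat_lit 2) (nat_lit 249) (nat_lit 250) (nat_lit 101)) (PT.nd (nat_lit 78) (PT.lf (nat_lit 2356) (nat_lit 3) (nat_lit 31) (nat_lit 0) (nat_lit 250) (nat_lit 250) (nat_lit 100)) (PT.lf (nat_lit 2204) (nat_lit 6) (nat_lit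 29) (nat_lit 0) (nat_lit 251) (nat_lit 250) (nat_lit 99))))) (PT.nd (nat_lit 50388) (PT.nd (nat_lit 50310) (PT.lf (nat_lit 2052) (nat_lit 6) (nat_lit 27) (nat_lit 0) (nat_lit 252) (nat_lit 250) (nat_lit 98)) (PT.lf (nat_lit 1824) (nat_lit 6) (nat_lit 24) (nat_lit 5) (nat_lit 96) (nat_lit 251) (nat_lit 253))) (PT.nd (nat_lit 78) (PT.lf (nat_lit 1976) (nat_lit 6) (nat_lit 26) (nat_lit 5) (nat_lit 97) (nat_lit 251) (nat_lit 252)) (PT.nd (nat_lit 78) (PT.lf (nat_lit 2128) (nat_lit 3) (nat_lit 28) (nat_lit 4) (nat_lit 98) (nat_lit 251) (nat_lit 251)) (PT.lf (nat_lit 2204) (nat_lit 6) (nat_lit 29) (nat_lit 4) (nat_lit 99) (nat_lit 251) (nat_lit 250))))))))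
noncomputable def pc62 : PT := (PT.nd (nat_lit 124566) (PT.nd (nat_lit 62244) (PT.nd (nat_lit 11856) (PT.nd (nat_lit 11700) (PT.nd (nat_lit 11622) (PT.lf (nat_lit 2280) (nat_lit 6) (nat_lit 30) (nat_lit 4) (nat_lit 100) (nat_lit 251) (nat_lit 249)) (PT.lf (nat_lit 2280) (nat_lit 6) (nat_lit 30) (nat_lit 2) (nat_lit 249) (nat_lit 251) (nat_lit 100))) (PT.nd (nat_lit 78) (PT.lf (nat_lit 2204) (nat_lit 6) (nat_lit 29) (nat_lit 2) (nat_lit 250) (nat_lit 251) (nat_lit 99)) (PT.lf (nat_lit 2128) (nat_lit 3) (nat_lit 28) (nat_lit 0) (nat_lit 251) (nat_lit 251) (nat_lit 98)))) (PT.nd (nat_lit 50154) (PT.nd (nat_lit 78) (PT.lf (nat_lit 1976) (nat_lit 6) (nat_lit 26) (nat_lit 0) (nat_lit 252) (nat_lit 251) (nat_lit 97)) (PT.lf (nat_lit 1824) (nat_lit 6) (nat_lit 24) (nat_lit 0) (nat_lit 253) (nat_lit 251) (nat_lit 96))) (PT.nd (nat_lit 78) (PT.lf (nat_lit 1596) (nat_lit 6) (nat_lit 21) (nat_lit 5) (nat_lit 94) (nat_lit 252)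 (nat_lit 254)) (PT.nd (nat_lit 78) (PT.lf (nat_lit 1748) (nat_lit 6) (nat_lit 23) (nat_lit 5) (nat_lit 95) (nat_lit 252) (nat_lit 253)) (PT.lf (nat_lit 1900) (nat_lit 3) (nat_lit 25) (nat_lit 4) (nat_lit 96) (nat_lit 252) (nat_lit 252)))))) (PT.nd (nat_lit 12168) (PT.nd (nat_lit 11934) (PT.nd (nat_lit 78) (PT.lf (nat_lit 1976) (nat_lit 6) (nat_lit 26) (nat_lit 4) (nat_lit 97) (nat_lit 252) (nat_lit 251)) (PT.lf (nat_lit 2052) (nat_lit 6) (nat_lit 27) (nat_lit 4) (nat_lit 98) (nat_lit 252) (nat_lit 250))) (PT.nd (nat_lit 78) (PT.lf (nat_lit 2052) (nat_lit 6) (nat_lit 27) (nat_lit 2) (nat_lit 250) (nat_lit 252) (nat_lit 98)) (PT.nd (nat_lit 78) (PT.lf (nat_lit 1976) (nat_lit 6) (nat_lit 26) (nat_lit 2) (nat_lit 251) (nat_lit 252) (nat_lit 97)) (PT.lf (nat_lit 1900) (nat_lit 3) (nat_lit 25) (nat_lit 0) (nat_lit 252) (nat_lit 252) (nat_lit 96))))) (PT.nd (nat_lit 49920) (PT.nd (nat_lit 78) (PT.lf (nat_lit 1748) (nat_lit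 6) (nat_lit 23) (nat_lit 0) (nat_lit 253) (nat_lit 252) (nat_lit 95)) (PT.lf (nat_lit 1596) (nat_lit 6) (nat_lit 21) (nat_lit 0) (nat_lit 254) (nat_lit 252) (nat_lit 94))) (PT.nd (nat_lit 78) (PT.lf (nat_lit 1368) (nat_lit 6) (nat_lit 18) (nat_lit 5) (nat_lit 92) (nat_lit 253) (nat_lit 255)) (PT.nd (nat_lit 78) (PT.lf (nat_lit 1520) (nat_lit 6) (nat_lit 20) (nat_lit 5) (nat_lit 93) (nat_lit 253) (nat_lit 254)) (PT.lf (nat_lit 1672) (nat_lit 3) (nat_lit 22) (nat_lit 4) (nat_lit 94) (nat_lit 253) (nat_lit 253))))))) (PT.nd (nat_lit 62322) (PT.nd (nat_lit 12402) (PT.nd (nat_lit 12168) (PT.nd (nat_lit 78) (PT.lf (nat_lit 1748) (nat_lit 6) (nat_lit 23) (nat_lit 4) (nat_lit 95) (nat_lit 253) (nat_lit 252)) (PT.lf (nat_lit 1824) (nat_lit 6) (nat_lit 24) (nat_lit 4) (nat_lit 96) (nat_lit 253) (nat_lit 251))) (PT.nd (nat_lit 78) (PT.lf (nat_lit 1824) (nat_lit 6) (nat_lit 24) (nat_lit 2) (nat_lit 251) (nat_lit 253) (nat_lit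 96)) (PT.nd (nat_lit 78) (PT.lf (nat_lit 1748) (nat_lit 6) (nat_lit 23) (nat_lit 2) (nat_lit 252) (nat_lit 253) (nat_lit 95)) (PT.lf (nat_lit 1672) (nat_lit 3) (nat_lit 22) (nat_lit 0) (nat_lit 253) (nat_lit 253) (nat_lit 94))))) (PT.nd (nat_lit 49686) (PT.nd (nat_lit 78) (PT.lf (nat_lit 1520) (nat_lit 6) (nat_lit 20) (nat_lit 0) (nat_lit 254) (nat_lit 253) (nat_lit 93)) (PT.lf (nat_lit 1368) (nat_lit 6) (nat_lit 18) (nat_lit 0) (nat_lit 255) (nat_lit 253) (nat_lit 92))) (PT.nd (nat_lit 78) (PT.lf (nat_lit 1140) (nat_lit 6) (nat_lit 15) (nat_lit 5) (nat_lit 90) (nat_lit 254) (nat_lit 256)) (PT.nd (nat_lit 78) (PT.lf (nat_lit 1292) (nat_lit 6) (nat_lit 17) (nat_lit 5) (nat_lit 91) (nat_lit 254) (nat_lit 255)) (PT.lf (nat_lit 1444) (nat_lit 3) (nat_lit 19) (nat_lit 4) (nat_lit 92) (nat_lit 254) (nat_lit 254)))))) (PT.nd (nat_lit 12636) (PT.nd (nat_lit 12402) (PT.nd (nat_lit 78) (PT.lf (nat_lit 1520) (nat_lit 6) (nat_lit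 20) (nat_lit 4) (nat_lit 93) (nat_lit 254) (nat_lit 253)) (PT.lf (nat_lit 1596) (nat_lit 6) (nat_lit 21) (nat_lit 4) (nat_lit 94) (nat_lit 254) (nat_lit 252))) (PT.nd (nat_lit 78) (PT.lf (nat_lit 1596) (nat_lit 6) (nat_lit 21) (nat_lit 2) (nat_lit 252) (nat_lit 254) (nat_lit 94)) (PT.nd (nat_lit 78) (PT.lf (nat_lit 1520) (nat_lit 6) (nat_lit 20) (nat_lit 2) (nat_lit 253) (nat_lit 254) (nat_lit 93)) (PT.lf (nat_lit 1444) (nat_lit 3) (nat_lit 19) (nat_lit 0) (nat_lit 254) (nat_lit 254) (nat_lit 92))))) (PT.nd (nat_lit 49452) (PT.nd (nat_lit 78) (PT.lf (nat_lit 1292) (nat_lit 6) (nat_lit 17) (nat_lit 0) (nat_lit 255) (nat_lit 254) (nat_lit 91)) (PT.lf (nat_lit 1140) (nat_lit 6) (nat_lit 15) (nat_lit 0) (nat_lit 256) (nat_lit 254) (nat_lit 90))) (PT.nd (nat_lit 78) (PT.lf (nat_lit 912) (nat_lit 6) (nat_lit 12) (nat_lit 5) (nat_lit 88) (nat_lit 255) (nat_lit 257)) (PT.nd (nat_lit 78) (PT.lf (nat_lit 1064) (nat_lit 6)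 (nat_lit 14) (nat_lit 5) (nat_lit 89) (nat_lit 255) (nat_lit 256)) (PT.lf (nat_lit 1216) (nat_lit 3) (nat_lit 16) (nat_lit 4) (nat_lit 90) (nat_lit 255) (nat_lit 255))))))))
noncomputable def pc63 : PT := (PT.nd (nat_lit 137748) (PT.nd (nat_lit 62322) (PT.nd (nat_lit 12792) (PT.nd (nat_lit 12636) (PT.nd (nat_lit 78) (PT.lf (nat_lit 1292) (nat_lit 6) (nat_lit 17) (nat_lit 4) (nat_lit 91) (nat_lit 255) (nat_lit 254)) (PT.lf (nat_lit 1368) (nat_lit 6) (nat_lit 18) (nat_lit 4) (nat_lit 92) (nat_lit 255) (nat_lit 253))) (PT.nd (nat_lit 78) (PT.lf (nat_lit 1368) (nat_lit 6) (nat_lit 18) (nat_lit 2) (nat_lit 253) (nat_lit 255) (nat_lit 92)) (PT.lf (nat_lit 1292) (nat_lit 6) (nat_lit 17) (nat_lit 2) (nat_lit 254) (nat_lit 255) (nat_lit 91)))) (PT.nd (nat_lit 156) (PT.nd (nat_lit 78) (PT.lf (nat_lit 1216) (nat_lit 3) (nat_lit 16) (nat_lit 0) (nat_lit 255) (nat_lit 255) (nat_lit 90)) (PT.lf (nat_lit 1064) (nat_lit 6) (nat_lit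 14) (nat_lit 0) (nat_lit 256) (nat_lit 255) (nat_lit 89))) (PT.nd (nat_lit 49218) (PT.lf (nat_lit 912) (nat_lit 6) (nat_lit 12) (nat_lit 0) (nat_lit 257) (nat_lit 255) (nat_lit 88)) (PT.nd (nat_lit 78) (PT.lf (nat_lit 836) (nat_lit 6) (nat_lit 11) (nat_lit 5) (nat_lit 87) (nat_lit 256) (nat_lit 257)) (PT.lf (nat_lit 988) (nat_lit 3) (nat_lit 13) (nat_lit 4) (nat_lit 88) (nat_lit 256) (nat_lit 256)))))) (PT.nd (nat_lit 13104) (PT.nd (nat_lit 12870) (PT.nd (nat_lit 78) (PT.lf (nat_lit 1064) (nat_lit 6) (nat_lit 14) (nat_lit 4) (nat_lit 89) (nat_lit 256) (nat_lit 255)) (PT.lf (nat_lit 1140) (nat_lit 6) (nat_lit 15) (nat_lit 4) (nat_lit 90) (nat_lit 256) (nat_lit 254))) (PT.nd (nat_lit 78) (PT.lf (nat_lit 1140) (nat_lit 6) (nat_lit 15) (nat_lit 2) (nat_lit 254) (nat_lit 256) (nat_lit 90)) (PT.nd (nat_lit 78) (PT.lf (nat_lit 1064) (nat_lit 6) (nat_lit 14) (nat_lit 2) (nat_lit 255) (nat_lit 256) (nat_lit 89)) (PT.lf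 (nat_lit 988) (nat_lit 3) (nat_lit 13) (nat_lit 0) (nat_lit 256) (nat_lit 256) (nat_lit 88))))) (PT.nd (nat_lit 49140) (PT.nd (nat_lit 49062) (PT.lf (nat_lit 836) (nat_lit 6) (nat_lit 11) (nat_lit 0) (nat_lit 257) (nat_lit 256) (nat_lit 87)) (PT.lf (nat_lit 608) (nat_lit 6) (nat_lit 8) (nat_lit 5) (nat_lit 85) (nat_lit 257) (nat_lit 258))) (PT.nd (nat_lit 78) (PT.lf (nat_lit 760) (nat_lit 3) (nat_lit 10) (nat_lit 4) (nat_lit 86) (nat_lit 257) (nat_lit 257)) (PT.nd (nat_lit 78) (PT.lf (nat_lit 836) (nat_lit 6) (nat_lit 11) (nat_lit 4) (nat_lit 87) (nat_lit 257) (nat_lit 256)) (PT.lf (nat_lit 912) (nat_lit 6) (nat_lit 12) (nat_lit 4) (nat_lit 88) (nat_lit 257) (nat_lit 255))))))) (PT.nd (nat_lit 111462) (PT.nd (nat_lit 49140) (PT.nd (nat_lit 156) (PT.nd (nat_lit 78) (PT.lf (nat_lit 912) (nat_lit 6) (nat_lit 12) (nat_lit 2) (nat_lit 255) (nat_lit 257) (nat_lit 88)) (PT.lf (nat_lit 836) (nat_lit 6) (nat_lit 11) (nat_lit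 2) (nat_lit 256) (nat_lit 257) (nat_lit 87))) (PT.nd (nat_lit 78) (PT.lf (nat_lit 760) (nat_lit 3) (nat_lit 10) (nat_lit 0) (nat_lit 257) (nat_lit 257) (nat_lit 86)) (PT.nd (nat_lit 48828) (PT.lf (nat_lit 608) (nat_lit 6) (nat_lit 8) (nat_lit 0) (nat_lit 258) (nat_lit 257) (nat_lit 85)) (PT.lf (nat_lit 380) (nat_lit 6) (nat_lit 5) (nat_lit 5) (nat_lit 83) (nat_lit 258) (nat_lit 259))))) (PT.nd (nat_lit 13494) (PT.nd (nat_lit 78) (PT.lf (nat_lit 532) (nat_lit 3) (nat_lit 7) (nat_lit 4) (nat_lit 84) (nat_lit 258) (nat_lit 258)) (PT.lf (nat_lit 608) (nat_lit 6) (nat_lit 8) (nat_lit 4) (nat_lit 85) (nat_lit 258) (nat_lit 257))) (PT.nd (nat_lit 78) (PT.lf (nat_lit 608) (nat_lit 6) (nat_lit 8) (nat_lit 2) (nat_lit 257) (nat_lit 258) (nat_lit 85)) (PT.nd (nat_lit 78) (PT.lf (nat_lit 532) (nat_lit 3) (nat_lit 7) (nat_lit 0) (nat_lit 258) (nat_lit 258) (nat_lit 84)) (PT.lf (nat_lit 380) (nat_lit 6) (nat_lit 5) (nat_lit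 0) (nat_lit 259) (nat_lit 258) (nat_lit 83)))))) (PT.nd (nat_lit 186966) (PT.nd (nat_lit 13728) (PT.nd (nat_lit 78) (PT.lf (nat_lit 304) (nat_lit 3) (nat_lit 4) (nat_lit 4) (nat_lit 82) (nat_lit 259) (nat_lit 259)) (PT.lf (nat_lit 380) (nat_lit 6) (nat_lit 5) (nat_lit 4) (nat_lit 83) (nat_lit 259) (nat_lit 258))) (PT.nd (nat_lit 78) (PT.lf (nat_lit 380) (nat_lit 6) (nat_lit 5) (nat_lit 2) (nat_lit 258) (nat_lit 259) (nat_lit 83)) (PT.nd (nat_lit 173082) (PT.lf (nat_lit 304) (nat_lit 3) (nat_lit 4) (nat_lit 0) (nat_lit 259) (nat_lit 259) (nat_lit 82)) (PT.lf (nat_lit 76) (nat_lit 6) (nat_lit 1) (nat_lit 5) (nat_lit 75) (nat_lit 262) (nat_lit 263))))) (PT.nd (nat_lit 14586) (PT.nd (nat_lit 14508) (PT.lf (nat_lit 152) (nat_lit 3) (nat_lit 2) (nat_lit 4) (nat_lit 76) (nat_lit 262) (nat_lit 262)) (PT.lf (nat_lit 152) (nat_lit 3) (nat_lit 2) (nat_lit 0) (nat_lit 262) (nat_lit 262) (nat_lit 76))) (PT.nd (nat_lit 47814)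 (PT.lf (nat_lit 76) (nat_lit 6) (nat_lit 1) (nat_lit 0) (nat_lit 263) (nat_lit 262) (nat_lit 75)) (PT.nd (nat_lit 14586) (PT.lf (nat_lit 76) (nat_lit 6) (nat_lit 1) (nat_lit 4) (nat_lit 75) (nat_lit 263) (nat_lit 262)) (PT.lf (nat_lit 76) (nat_lit 6) (nat_lit 1) (nat_lit 2) (nat_lit 262) (nat_lit 263) (nat_lit 75))))))))
noncomputable def xc0 : XT := (XT.nd (nat_lit 311688) (nat_lit 0) (nat_lit 0) (XT.nd (nat_lit 187200) (nat_lit 0) (nat_lit 0) (XT.nd (nat_lit 124722) (nat_lit 0) (nat_lit 0) (XT.nd (nat_lit 62400) (nat_lit 0) (nat_lit 0) (XT.nd (nat_lit 62244) (nat_lit 0) (nat_lit 76) (XT.lf (nat_lit 0) (nat_lit 6211213463) (nat_lit 76) (nat_lit 25596167175) (nat_lit 76) (nat_lit 25536958932) (nat_lit 7) (nat_lit 4) (nat_lit 8) (nat_lit 5) (nat_lit 8) (nat_lit 4) (nat_lit 555) (nat_lit 323) (nat_lit 322)) (XT.nd (nat_lit 78) (nat_lit 0) (nat_lit 0) (XT.lf (nat_lit 0) (nat_lit 618585740) (nat_lit 152) (nat_lit 25423525613)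 (nat_lit 0) (nat_lit 618585740) (nat_lit 8) (nat_lit 5) (nat_lit 10) (nat_lit 4) (nat_lit 8) (nat_lit 4) (nat_lit 552) (nat_lit 324) (nat_lit 324)) (XT.lf (nat_lit 0) (nat_lit 11255436269) (nat_lit 152) (nat_lit 32169806528) (nat_lit 0) (nat_lit 11194451779) (nat_lit 8) (nat_lit 5) (nat_lit 10) (nat_lit 4) (nat_lit 8) (nat_lit 4) (nat_lit 553) (nat_lit 324) (nat_lit 323)))) (XT.nd (nat_lit 62166) (nat_lit 0) (nat_lit 228) (XT.nd (nat_lit 78) (nat_lit 76) (nat_lit 0) (XT.lf (nat_lit 0) (nat_lit 21380176602) (nat_lit 152) (nat_lit 13322606112) (nat_lit 0) (nat_lit 21259983869) (nat_lit 8) (nat_lit 5) (nat_lit 10) (nat_lit 4) (nat_lit 8) (nat_lit 4) (nat_lit 554) (nat_lit 324) (nat_lit 322)) (XT.lf (nat_lit 0) (nat_lit 5824678914) (nat_lit 76) (nat_lit 25851550802) (nat_lit 76) (nat_lit 25673874338) (nat_lit 7) (nat_lit 4) (nat_lit 8) (nat_lit 5) (nat_lit 8) (nat_lit 4) (nat_lit 555) (nat_lit 324) (nat_lit 321)))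 (XT.nd (nat_lit 78) (nat_lit 0) (nat_lit 0) (XT.lf (nat_lit 0) (nat_lit 7244430631) (nat_lit 76) (nat_lit 9085357467) (nat_lit 76) (nat_lit 9085357467) (nat_lit 10) (nat_lit 4) (nat_lit 11) (nat_lit 5) (nat_lit 11) (nat_lit 4) (nat_lit 550) (nat_lit 325) (nat_lit 325)) (XT.lf (nat_lit 0) (nat_lit 34922417657) (nat_lit 76) (nat_lit 8599490613) (nat_lit 76) (nat_lit 8534792167) (nat_lit 10) (nat_lit 4) (nat_lit 11) (nat_lit 5) (nat_lit 11) (nat_lit 4) (nat_lit 551) (nat_lit 325) (nat_lit 324))))) (XT.nd (nat_lit 62166) (nat_lit 0) (nat_lit 228) (XT.nd (nat_lit 156) (nat_lit 76) (nat_lit 0) (XT.nd (nat_lit 78) (nat_lit 0) (nat_lit 0) (XT.lf (nat_lit 0) (nat_lit 1201515274) (nat_lit 152) (nat_lit 51045116484) (nat_lit 0) (nat_lit 1077716759) (nat_lit 8) (nat_lit 5) (nat_lit 10) (nat_lit 4) (nat_lit 8) (nat_lit 4) (nat_lit 552) (nat_lit 325) (nat_lit 323)) (XT.lf (nat_lit 0) (nat_lit 11124177895) (nat_lit 152) (nat_lit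 32560168151) (nat_lit 0) (nat_lit 10941171137) (nat_lit 8) (nat_lit 5) (nat_lit 10) (nat_lit 4) (nat_lit 8) (nat_lit 4) (nat_lit 553) (nat_lit 325) (nat_lit 322))) (XT.nd (nat_lit 78) (nat_lit 76) (nat_lit 0) (XT.lf (nat_lit 0) (nat_lit 21156100590) (nat_lit 152) (nat_lit 13899663236) (nat_lit 0) (nat_lit 20915610101) (nat_lit 8) (nat_lit 5) (nat_lit 10) (nat_lit 4) (nat_lit 8) (nat_lit 4) (nat_lit 554) (nat_lit 325) (nat_lit 321)) (XT.lf (nat_lit 0) (nat_lit 5051272068) (nat_lit 76) (nat_lit 26303332965) (nat_lit 76) (nat_lit 26007033028) (nat_lit 7) (nat_lit 4) (nat_lit 8) (nat_lit 5) (nat_lit 8) (nat_lit 4) (nat_lit 555) (nat_lit 325) (nat_lit 320)))) (XT.nd (nat_lit 156) (nat_lit 76) (nat_lit 0) (XT.nd (nat_lit 78) (nat_lit 0) (nat_lit 0) (XT.lf (nat_lit 0) (nat_lit 5855410872) (nat_lit 152) (nat_lit 12534435630) (nat_lit 0) (nat_lit 5855410872) (nat_lit 11) (nat_lit 5) (nat_lit 13) (nat_lit 4) (nat_lit 11)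 (nat_lit 4) (nat_lit 548) (nat_lit 326) (nat_lit 326)) (XT.lf (nat_lit 0) (nat_lit 22043158711) (nat_lit 152) (nat_lit 5624038023) (nat_lit 0) (nat_lit 21976519311) (nat_lit 11) (nat_lit 5) (nat_lit 13) (nat_lit 4) (nat_lit 11) (nat_lit 4) (nat_lit 549) (nat_lit 326) (nat_lit 325))) (XT.nd (nat_lit 78) (nat_lit 0) (nat_lit 0) (XT.lf (nat_lit 0) (nat_lit 14292793707) (nat_lit 76) (nat_lit 18335880866) (nat_lit 76) (nat_lit 18204543021) (nat_lit 10) (nat_lit 4) (nat_lit 11) (nat_lit 5) (nat_lit 11) (nat_lit 4) (nat_lit 550) (nat_lit 326) (nat_lit 324)) (XT.lf (nat_lit 0) (nat_lit 34535993253) (nat_lit 76) (nat_lit 8860313373) (nat_lit 76) (nat_lit 8666161503) (nat_lit 10) (nat_lit 4) (nat_lit 11) (nat_lit 5) (nat_lit 11) (nat_lit 4) (nat_lit 551) (nat_lit 326) (nat_lit 323)))))) (XT.nd (nat_lit 62322) (nat_lit 0) (nat_lit 0) (XT.nd (nat_lit 62010) (nat_lit 0) (nat_lit 304) (XT.nd (nat_lit 156) (nat_lit 76) (nat_lit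 0) (XT.nd (nat_lit 78) (nat_lit 0) (nat_lit 0) (XT.lf (nat_lit 0) (nat_lit 970716982) (nat_lit 152) (nat_lit 51639485322) (nat_lit 0) (nat_lit 723011778) (nat_lit 8) (nat_lit 5) (nat_lit 10) (nat_lit 4) (nat_lit 8) (nat_lit 4) (nat_lit 552) (nat_lit 326) (nat_lit 322)) (XT.lf (nat_lit 0) (nat_lit 10800561965) (nat_lit 152) (nat_lit 33341232491) (nat_lit 0) (nat_lit 10495373030) (nat_lit 8) (nat_lit 5) (nat_lit 10) (nat_lit 4) (nat_lit 8) (nat_lit 4) (nat_lit 553) (nat_lit 326) (nat_lit 321))) (XT.nd (nat_lit 78) (nat_lit 76) (nat_lit 0) (XT.lf (nat_lit 0) (nat_lit 20742370448) (nat_lit 152) (nat_lit 14861985344) (nat_lit 0) (nat_lit 20381372065) (nat_lit 8) (nat_lit 5) (nat_lit 10) (nat_lit 4) (nat_lit 8) (nat_lit 4) (nat_lit 554) (nat_lit 326) (nat_lit 320)) (XT.lf (nat_lit 0) (nat_lit 3890317132) (nat_lit 76) (nat_lit 26951908424) (nat_lit 76) (nat_lit 26536726111) (nat_lit 7) (nat_lit 4) (nat_lit 8) (nat_lit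 5) (nat_lit 8) (nat_lit 4) (nat_lit 555) (nat_lit 326) (nat_lit 319)))) (XT.nd (nat_lit 156) (nat_lit 0) (nat_lit 0) (XT.nd (nat_lit 78) (nat_lit 152) (nat_lit 0) (XT.lf (nat_lit 0) (nat_lit 14754931949) (nat_lit 76) (nat_lit 4194662744) (nat_lit 76) (nat_lit 4194662744) (nat_lit 13) (nat_lit 4) (nat_lit 14) (nat_lit 5) (nat_lit 14) (nat_lit 4) (nat_lit 546) (nat_lit 327) (nat_lit 327)) (XT.lf (nat_lit 0) (nat_lit 1553882922) (nat_lit 152) (nat_lit 44337600518) (nat_lit 0) (nat_lit 1485244341) (nat_lit 11) (nat_lit 5) (nat_lit 13) (nat_lit 4) (nat_lit 11) (nat_lit 4) (nat_lit 547) (nat_lit 327) (nat_lit 326))) (XT.nd (nat_lit 78) (nat_lit 0) (nat_lit 0) (XT.lf (nat_lit 0) (nat_lit 11680934336) (nat_lit 152) (nat_lit 25266880078) (nat_lit 0) (nat_lit 11545656355) (nat_lit 11) (nat_lit 5) (nat_lit 13) (nat_lit 4) (nat_lit 11) (nat_lit 4) (nat_lit 548) (nat_lit 327) (nat_lit 325)) (XT.lf (nat_lit 0) (nat_lit 21917615002)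 (nat_lit 152) (nat_lit 6014288411) (nat_lit 0) (nat_lit 21717638576) (nat_lit 11) (nat_lit 5) (nat_lit 13) (nat_lit 4) (nat_lit 11) (nat_lit 4) (nat_lit 549) (nat_lit 327) (nat_lit 324))))) (XT.nd (nat_lit 312) (nat_lit 76) (nat_lit 0) (XT.nd (nat_lit 156) (nat_lit 152) (nat_lit 0) (XT.nd (nat_lit 78) (nat_lit 0) (nat_lit 0) (XT.lf (nat_lit 0) (nat_lit 13704419723) (nat_lit 76) (nat_lit 18700185137) (nat_lit 76) (nat_lit 18437394686) (nat_lit 10) (nat_lit 4) (nat_lit 11) (nat_lit 5) (nat_lit 11) (nat_lit 4) (nat_lit 550) (nat_lit 327) (nat_lit 323)) (XT.lf (nat_lit 0) (nat_lit 33762806794) (nat_lit 76) (nat_lit 9317488352) (nat_lit 76) (nat_lit 8993713410) (nat_lit 10) (nat_lit 4) (nat_lit 11) (nat_lit 5) (nat_lit 11) (nat_lit 4) (nat_lit 551) (nat_lit 327) (nat_lit 322))) (XT.nd (nat_lit 78) (nat_lit 0) (nat_lit 0) (XT.lf (nat_lit 0) (nat_lit 544574936) (nat_lit 152) (nat_lit 52630677093) (nat_lit 0) (nat_lit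 172746602) (nat_lit 8) (nat_lit 5) (nat_lit 10) (nat_lit 4) (nat_lit 8) (nat_lit 4) (nat_lit 552) (nat_lit 327) (nat_lit 321)) (XT.lf (nat_lit 0) (nat_lit 10284305708) (nat_lit 152) (nat_lit 34513682030) (nat_lit 0) (nat_lit 9856667926) (nat_lit 8) (nat_lit 5) (nat_lit 10) (nat_lit 4) (nat_lit 8) (nat_lit 4) (nat_lit 553) (nat_lit 327) (nat_lit 320)))) (XT.nd (nat_lit 61698) (nat_lit 0) (nat_lit 456) (XT.nd (nat_lit 78) (nat_lit 76) (nat_lit 0) (XT.lf (nat_lit 0) (nat_lit 20138624665) (nat_lit 152) (nat_lit 16210413299) (nat_lit 0) (nat_lit 19656802953) (nat_lit 8) (nat_lit 5) (nat_lit 10) (nat_lit 4) (nat_lit 8) (nat_lit 4) (nat_lit 554) (nat_lit 327) (nat_lit 319)) (XT.lf (nat_lit 0) (nat_lit 2340799680) (nat_lit 76) (nat_lit 27797843896) (nat_lit 76) (nat_lit 27263416427) (nat_lit 7) (nat_lit 4) (nat_lit 8) (nat_lit 5) (nat_lit 8) (nat_lit 4) (nat_lit 555) (nat_lit 327) (nat_lit 318))) (XT.nd (nat_lit 78) (nat_lit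 76) (nat_lit 0) (XT.lf (nat_lit 0) (nat_lit 8259863201) (nat_lit 152) (nat_lit 5587222333) (nat_lit 0) (nat_lit 8259863201) (nat_lit 14) (nat_lit 5) (nat_lit 16) (nat_lit 4) (nat_lit 14) (nat_lit 4) (nat_lit 544) (nat_lit 328) (nat_lit 328)) (XT.lf (nat_lit 0) (nat_lit 8853698232) (nat_lit 76) (nat_lit 18227589377) (nat_lit 76) (nat_lit 18154770706) (nat_lit 13) (nat_lit 4) (nat_lit 14) (nat_lit 5) (nat_lit 14) (nat_lit 4) (nat_lit 545) (nat_lit 328) (nat_lit 327))))))) (XT.nd (nat_lit 62556) (nat_lit 0) (nat_lit 76) (XT.nd (nat_lit 546) (nat_lit 228) (nat_lit 0) (XT.nd (nat_lit 234) (nat_lit 76) (nat_lit 0) (XT.nd (nat_lit 78) (nat_lit 152) (nat_lit 0) (XT.lf (nat_lit 0) (nat_lit 29313857412) (nat_lit 76) (nat_lit 8560551058) (nat_lit 76) (nat_lit 8417034649) (nat_lit 13) (nat_lit 4) (nat_lit 14) (nat_lit 5) (nat_lit 14) (nat_lit 4) (nat_lit 546) (nat_lit 328) (nat_lit 326)) (XT.nd (nat_lit 78) (nat_lit 0) (nat_lit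 0) (XT.lf (nat_lit 0) (nat_lit 1424572902) (nat_lit 152) (nat_lit 44739558418) (nat_lit 0) (nat_lit 1218597184) (nat_lit 11) (nat_lit 5) (nat_lit 13) (nat_lit 4) (nat_lit 11) (nat_lit 4) (nat_lit 547) (nat_lit 328) (nat_lit 325)) (XT.lf (nat_lit 0) (nat_lit 11455968016) (nat_lit 152) (nat_lit 25861079547) (nat_lit 0) (nat_lit 11185293851) (nat_lit 11) (nat_lit 5) (nat_lit 13) (nat_lit 4) (nat_lit 11) (nat_lit 4) (nat_lit 548) (nat_lit 328) (nat_lit 324)))) (XT.nd (nat_lit 156) (nat_lit 0) (nat_lit 0) (XT.nd (nat_lit 78) (nat_lit 76) (nat_lit 0) (XT.lf (nat_lit 0) (nat_lit 21599778488) (nat_lit 152) (nat_lit 6795130182) (nat_lit 0) (nat_lit 21266290299) (nat_lit 11) (nat_lit 5) (nat_lit 13) (nat_lit 4) (nat_lit 11) (nat_lit 4) (nat_lit 549) (nat_lit 328) (nat_lit 323)) (XT.lf (nat_lit 0) (nat_lit 12723225195) (nat_lit 76) (nat_lit 19263946072) (nat_lit 76) (nat_lit 18869473392) (nat_lit 10) (nat_lit 4) (nat_lit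 11) (nat_lit 5) (nat_lit 11) (nat_lit 4) (nat_lit 550) (nat_lit 328) (nat_lit 322))) (XT.nd (nat_lit 78) (nat_lit 0) (nat_lit 0) (XT.lf (nat_lit 0) (nat_lit 32602182679) (nat_lit 76) (nat_lit 9971415021) (nat_lit 76) (nat_lit 9517734098) (nat_lit 10) (nat_lit 4) (nat_lit 11) (nat_lit 5) (nat_lit 11) (nat_lit 4) (nat_lit 551) (nat_lit 328) (nat_lit 321)) (XT.lf (nat_lit 0) (nat_lit 52723875818) (nat_lit 76) (nat_lit 577813322) (nat_lit 76) (nat_lit 66648668) (nat_lit 10) (nat_lit 4) (nat_lit 11) (nat_lit 5) (nat_lit 11) (nat_lit 4) (nat_lit 552) (nat_lit 328) (nat_lit 320))))) (XT.nd (nat_lit 61698) (nat_lit 0) (nat_lit 456) (XT.nd (nat_lit 156) (nat_lit 76) (nat_lit 0) (XT.nd (nat_lit 78) (nat_lit 0) (nat_lit 0) (XT.lf (nat_lit 0) (nat_lit 9574958025) (nat_lit 152) (nat_lit 36078541239) (nat_lit 0) (nat_lit 9024497732) (nat_lit 8) (nat_lit 5) (nat_lit 10) (nat_lit 4) (nat_lit 8) (nat_lit 4) (nat_lit 553) (nat_lit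 328) (nat_lit 319)) (XT.lf (nat_lit 0) (nat_lit 19344335695) (nat_lit 152) (nat_lit 17946125338) (nat_lit 0) (nat_lit 18741269645) (nat_lit 8) (nat_lit 5) (nat_lit 10) (nat_lit 4) (nat_lit 8) (nat_lit 4) (nat_lit 554) (nat_lit 328) (nat_lit 318))) (XT.nd (nat_lit 61464) (nat_lit 0) (nat_lit 684) (XT.lf (nat_lit 0) (nat_lit 401365764) (nat_lit 76) (nat_lit 28841878548) (nat_lit 76) (nat_lit 28187738947) (nat_lit 7) (nat_lit 4) (nat_lit 8) (nat_lit 5) (nat_lit 8) (nat_lit 4) (nat_lit 555) (nat_lit 328) (nat_lit 317)) (XT.lf (nat_lit 0) (nat_lit 17236893304) (nat_lit 76) (nat_lit 1947309735) (nat_lit 76) (nat_lit 1947309735) (nat_lit 16) (nat_lit 4) (nat_lit 17) (nat_lit 5) (nat_lit 17) (nat_lit 4) (nat_lit 542) (nat_lit 329) (nat_lit 329)))) (XT.nd (nat_lit 156) (nat_lit 76) (nat_lit 0) (XT.nd (nat_lit 78) (nat_lit 0) (nat_lit 0) (XT.lf (nat_lit 0) (nat_lit 6229112658) (nat_lit 152) (nat_lit 30841636958) (nat_lit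 0) (nat_lit 6154109427) (nat_lit 14) (nat_lit 5) (nat_lit 16) (nat_lit 4) (nat_lit 14) (nat_lit 4) (nat_lit 543) (nat_lit 329) (nat_lit 328)) (XT.lf (nat_lit 0) (nat_lit 16496142716) (nat_lit 152) (nat_lit 11372391811) (nat_lit 0) (nat_lit 16348320815) (nat_lit 14) (nat_lit 5) (nat_lit 16) (nat_lit 4) (nat_lit 14) (nat_lit 4) (nat_lit 544) (nat_lit 329) (nat_lit 327))) (XT.nd (nat_lit 78) (nat_lit 0) (nat_lit 0) (XT.lf (nat_lit 0) (nat_lit 8455805065) (nat_lit 76) (nat_lit 18502358612) (nat_lit 76) (nat_lit 18283838972) (nat_lit 13) (nat_lit 4) (nat_lit 14) (nat_lit 5) (nat_lit 14) (nat_lit 4) (nat_lit 545) (nat_lit 329) (nat_lit 326)) (XT.lf (nat_lit 0) (nat_lit 28725666687) (nat_lit 76) (nat_lit 8930860972) (nat_lit 76) (nat_lit 8643702750) (nat_lit 13) (nat_lit 4) (nat_lit 14) (nat_lit 5) (nat_lit 14) (nat_lit 4) (nat_lit 546) (nat_lit 329) (nat_lit 325)))))) (XT.nd (nat_lit 624) (nat_lit 0) (nat_lit 0) (XT.nd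 (nat_lit 312) (nat_lit 152) (nat_lit 0) (XT.nd (nat_lit 156) (nat_lit 76) (nat_lit 0) (XT.nd (nat_lit 78) (nat_lit 0) (nat_lit 0) (XT.lf (nat_lit 0) (nat_lit 1097201293) (nat_lit 152) (nat_lit 45543825442) (nat_lit 0) (nat_lit 753708458) (nat_lit 11) (nat_lit 5) (nat_lit 13) (nat_lit 4) (nat_lit 11) (nat_lit 4) (nat_lit 547) (nat_lit 329) (nat_lit 324)) (XT.lf (nat_lit 0) (nat_lit 11035726212) (nat_lit 152) (nat_lit 26851988872) (nat_lit 0) (nat_lit 10629419352) (nat_lit 11) (nat_lit 5) (nat_lit 13) (nat_lit 4) (nat_lit 11) (nat_lit 4) (nat_lit 548) (nat_lit 329) (nat_lit 323))) (XT.nd (nat_lit 78) (nat_lit 76) (nat_lit 0) (XT.lf (nat_lit 0) (nat_lit 21089371447) (nat_lit 152) (nat_lit 7967245625) (nat_lit 0) (nat_lit 20622080097) (nat_lit 11) (nat_lit 5) (nat_lit 13) (nat_lit 4) (nat_lit 11) (nat_lit 4) (nat_lit 549) (nat_lit 329) (nat_lit 322)) (XT.lf (nat_lit 0) (nat_lit 11348352769) (nat_lit 76) (nat_lit 20027656277)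 (nat_lit 76) (nat_lit 19501156683) (nat_lit 10) (nat_lit 4) (nat_lit 11) (nat_lit 5) (nat_lit 11) (nat_lit 4) (nat_lit 550) (nat_lit 329) (nat_lit 321)))) (XT.nd (nat_lit 156) (nat_lit 152) (nat_lit 0) (XT.nd (nat_lit 78) (nat_lit 0) (nat_lit 0) (XT.lf (nat_lit 0) (nat_lit 31053106771) (nat_lit 76) (nat_lit 10822664774) (nat_lit 76) (nat_lit 10238681450) (nat_lit 10) (nat_lit 4) (nat_lit 11) (nat_lit 5) (nat_lit 11) (nat_lit 4) (nat_lit 551) (nat_lit 329) (nat_lit 320)) (XT.lf (nat_lit 0) (nat_lit 51005670315) (nat_lit 76) (nat_lit 1514052928) (nat_lit 76) (nat_lit 874260156) (nat_lit 10) (nat_lit 4) (nat_lit 11) (nat_lit 5) (nat_lit 11) (nat_lit 4) (nat_lit 552) (nat_lit 329) (nat_lit 319))) (XT.nd (nat_lit 78) (nat_lit 0) (nat_lit 0) (XT.lf (nat_lit 0) (nat_lit 8671899099) (nat_lit 152) (nat_lit 38037177471) (nat_lit 0) (nat_lit 7998135310) (nat_lit 8) (nat_lit 5) (nat_lit 10) (nat_lit 4) (nat_lit 8) (nat_lit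 4) (nat_lit 553) (nat_lit 329) (nat_lit 318)) (XT.lf (nat_lit 0) (nat_lit 18358809500) (nat_lit 152) (nat_lit 20070638105) (nat_lit 0) (nat_lit 17633972161) (nat_lit 8) (nat_lit 5) (nat_lit 10) (nat_lit 4) (nat_lit 8) (nat_lit 4) (nat_lit 554) (nat_lit 329) (nat_lit 317))))) (XT.nd (nat_lit 61542) (nat_lit 0) (nat_lit 380) (XT.nd (nat_lit 61386) (nat_lit 0) (nat_lit 608) (XT.nd (nat_lit 61308) (nat_lit 0) (nat_lit 684) (XT.lf (nat_lit 0) (nat_lit 28173794634) (nat_lit 152) (nat_lit 1892024272) (nat_lit 0) (nat_lit 27399371324) (nat_lit 8) (nat_lit 5) (nat_lit 10) (nat_lit 4) (nat_lit 8) (nat_lit 4) (nat_lit 555) (nat_lit 329) (nat_lit 316)) (XT.lf (nat_lit 0) (nat_lit 8461886076) (nat_lit 152) (nat_lit 3286842697) (nat_lit 0) (nat_lit 8461886076) (nat_lit 17) (nat_lit 5) (nat_lit 19) (nat_lit 4) (nat_lit 17) (nat_lit 4) (nat_lit 540) (nat_lit 330) (nat_lit 330))) (XT.nd (nat_lit 78) (nat_lit 0) (nat_lit 0) (XT.lf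 (nat_lit 0) (nat_lit 13679780538) (nat_lit 76) (nat_lit 13863901472) (nat_lit 76) (nat_lit 13784330545) (nat_lit 16) (nat_lit 4) (nat_lit 17) (nat_lit 5) (nat_lit 17) (nat_lit 4) (nat_lit 541) (nat_lit 330) (nat_lit 329)) (XT.lf (nat_lit 0) (nat_lit 34277846853) (nat_lit 76) (nat_lit 4072466568) (nat_lit 76) (nat_lit 3915642313) (nat_lit 16) (nat_lit 4) (nat_lit 17) (nat_lit 5) (nat_lit 17) (nat_lit 4) (nat_lit 542) (nat_lit 330) (nat_lit 328)))) (XT.nd (nat_lit 156) (nat_lit 76) (nat_lit 0) (XT.nd (nat_lit 78) (nat_lit 0) (nat_lit 0) (XT.lf (nat_lit 0) (nat_lit 6106234545) (nat_lit 152) (nat_lit 31243469660) (nat_lit 0) (nat_lit 5881159316) (nat_lit 14) (nat_lit 5) (nat_lit 16) (nat_lit 4) (nat_lit 14) (nat_lit 4) (nat_lit 543) (nat_lit 330) (nat_lit 327)) (XT.lf (nat_lit 0) (nat_lit 16277549150) (nat_lit 152) (nat_lit 11966406207) (nat_lit 0) (nat_lit 15981776183) (nat_lit 14) (nat_lit 5) (nat_lit 16) (nat_lit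 4) (nat_lit 14) (nat_lit 4) (nat_lit 544) (nat_lit 330) (nat_lit 326))) (XT.nd (nat_lit 78) (nat_lit 0) (nat_lit 0) (XT.lf (nat_lit 0) (nat_lit 7659671059) (nat_lit 76) (nat_lit 18979318501) (nat_lit 76) (nat_lit 18614906952) (nat_lit 13) (nat_lit 4) (nat_lit 14) (nat_lit 5) (nat_lit 14) (nat_lit 4) (nat_lit 545) (nat_lit 330) (nat_lit 325)) (XT.lf (nat_lit 0) (nat_lit 27744777769) (nat_lit 76) (nat_lit 9500578801) (nat_lit 76) (nat_lit 9069527853) (nat_lit 13) (nat_lit 4) (nat_lit 14) (nat_lit 5) (nat_lit 14) (nat_lit 4) (nat_lit 546) (nat_lit 330) (nat_lit 324))))))))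
noncomputable def xc1 : XT := (XT.nd (nat_lit 124410) (nat_lit 0) (nat_lit 0) (XT.nd (nat_lit 62244) (nat_lit 0) (nat_lit 0) (XT.nd (nat_lit 546) (nat_lit 0) (nat_lit 0) (XT.nd (nat_lit 234) (nat_lit 228) (nat_lit 0) (XT.nd (nat_lit 78) (nat_lit 0) (nat_lit 0) (XT.lf (nat_lit 0) (nat_lit 571482041) (nat_lit 152) (nat_lit 46751104348) (nat_lit 0) (nat_lit 90171950) (nat_lit 11) (nat_lit 5) (nat_lit 13) (nat_lit 4) (nat_lit 11) (nat_lit 4) (nat_lit 547) (nat_lit 330) (nat_lit 323)) (XT.nd (nat_lit 78) (nat_lit 0) (nat_lit 0) (XT.lf (nat_lit 0) (nat_lit 10419841723) (nat_lit 152) (nat_lit 28240473896) (nat_lit 0) (nat_lit 9877547141) (nat_lit 11) (nat_lit 5) (nat_lit 13) (nat_lit 4) (nat_lit 11) (nat_lit 4) (nat_lit 548) (nat_lit 330) (nat_lit 322)) (XT.lf (nat_lit 0) (nat_lit 20385947893) (nat_lit 152) (nat_lit 9531658919) (nat_lit 0) (nat_lit 19784445068) (nat_lit 11) (nat_lit 5) (nat_lit 13) (nat_lit 4) (nat_lit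 11) (nat_lit 4) (nat_lit 549) (nat_lit 330) (nat_lit 321)))) (XT.nd (nat_lit 156) (nat_lit 152) (nat_lit 0) (XT.nd (nat_lit 78) (nat_lit 0) (nat_lit 0) (XT.lf (nat_lit 0) (nat_lit 9578601101) (nat_lit 76) (nat_lit 20991983071) (nat_lit 76) (nat_lit 20332996515) (nat_lit 10) (nat_lit 4) (nat_lit 11) (nat_lit 5) (nat_lit 11) (nat_lit 4) (nat_lit 550) (nat_lit 330) (nat_lit 320)) (XT.lf (nat_lit 0) (nat_lit 29114225507) (nat_lit 76) (nat_lit 11871981422) (nat_lit 76) (nat_lit 11157185418) (nat_lit 10) (nat_lit 4) (nat_lit 11) (nat_lit 5) (nat_lit 11) (nat_lit 4) (nat_lit 551) (nat_lit 330) (nat_lit 319))) (XT.nd (nat_lit 78) (nat_lit 152) (nat_lit 0) (XT.lf (nat_lit 0) (nat_lit 48902585561) (nat_lit 76) (nat_lit 2645883996) (nat_lit 76) (nat_lit 1876904063) (nat_lit 10) (nat_lit 4) (nat_lit 11) (nat_lit 5) (nat_lit 11) (nat_lit 4) (nat_lit 552) (nat_lit 330) (nat_lit 318)) (XT.lf (nat_lit 0) (nat_lit 7574339849) (nat_lit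 152) (nat_lit 40391302155) (nat_lit 0) (nat_lit 6776683839) (nat_lit 8) (nat_lit 5) (nat_lit 10) (nat_lit 4) (nat_lit 8) (nat_lit 4) (nat_lit 553) (nat_lit 330) (nat_lit 317))))) (XT.nd (nat_lit 61386) (nat_lit 0) (nat_lit 456) (XT.nd (nat_lit 61230) (nat_lit 0) (nat_lit 684) (XT.nd (nat_lit 78) (nat_lit 0) (nat_lit 0) (XT.lf (nat_lit 0) (nat_lit 17181184940) (nat_lit 152) (nat_lit 22585807968) (nat_lit 0) (nat_lit 16333942959) (nat_lit 8) (nat_lit 5) (nat_lit 10) (nat_lit 4) (nat_lit 8) (nat_lit 4) (nat_lit 554) (nat_lit 330) (nat_lit 316)) (XT.lf (nat_lit 0) (nat_lit 26918436764) (nat_lit 152) (nat_lit 4563548679) (nat_lit 0) (nat_lit 26023053063) (nat_lit 8) (nat_lit 5) (nat_lit 10) (nat_lit 4) (nat_lit 8) (nat_lit 4) (nat_lit 555) (nat_lit 330) (nat_lit 315))) (XT.nd (nat_lit 78) (nat_lit 152) (nat_lit 0) (XT.lf (nat_lit 0) (nat_lit 15833837135) (nat_lit 76) (nat_lit 1755313052) (nat_lit 76) (nat_lit 1755313052)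 (nat_lit 19) (nat_lit 4) (nat_lit 20) (nat_lit 5) (nat_lit 20) (nat_lit 4) (nat_lit 538) (nat_lit 331) (nat_lit 331)) (XT.lf (nat_lit 0) (nat_lit 6628372898) (nat_lit 152) (nat_lit 26368073781) (nat_lit 0) (nat_lit 6546414843) (nat_lit 17) (nat_lit 5) (nat_lit 19) (nat_lit 4) (nat_lit 17) (nat_lit 4) (nat_lit 539) (nat_lit 331) (nat_lit 330)))) (XT.nd (nat_lit 156) (nat_lit 152) (nat_lit 0) (XT.nd (nat_lit 78) (nat_lit 76) (nat_lit 0) (XT.lf (nat_lit 0) (nat_lit 16907076715) (nat_lit 152) (nat_lit 6771565146) (nat_lit 0) (nat_lit 16745547732) (nat_lit 17) (nat_lit 5) (nat_lit 19) (nat_lit 4) (nat_lit 17) (nat_lit 4) (nat_lit 540) (nat_lit 331) (nat_lit 329)) (XT.lf (nat_lit 0) (nat_lit 13282022836) (nat_lit 76) (nat_lit 14145360155) (nat_lit 76) (nat_lit 13906577844) (nat_lit 16) (nat_lit 4) (nat_lit 17) (nat_lit 5) (nat_lit 17) (nat_lit 4) (nat_lit 541) (nat_lit 331) (nat_lit 328))) (XT.nd (nat_lit 78) (nat_lit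 152) (nat_lit 0) (XT.lf (nat_lit 0) (nat_lit 33689856380) (nat_lit 76) (nat_lit 4449339009) (nat_lit 76) (nat_lit 4135553467) (nat_lit 16) (nat_lit 4) (nat_lit 17) (nat_lit 5) (nat_lit 17) (nat_lit 4) (nat_lit 542) (nat_lit 331) (nat_lit 327)) (XT.lf (nat_lit 0) (nat_lit 5785367720) (nat_lit 152) (nat_lit 32047486181) (nat_lit 0) (nat_lit 5410023824) (nat_lit 14) (nat_lit 5) (nat_lit 16) (nat_lit 4) (nat_lit 14) (nat_lit 4) (nat_lit 543) (nat_lit 331) (nat_lit 326)))))) (XT.nd (nat_lit 624) (nat_lit 152) (nat_lit 0) (XT.nd (nat_lit 312) (nat_lit 228) (nat_lit 0) (XT.nd (nat_lit 156) (nat_lit 0) (nat_lit 0) (XT.nd (nat_lit 78) (nat_lit 76) (nat_lit 0) (XT.lf (nat_lit 0) (nat_lit 15863754701) (nat_lit 152) (nat_lit 12957006896) (nat_lit 0) (nat_lit 15419772224) (nat_lit 14) (nat_lit 5) (nat_lit 16) (nat_lit 4) (nat_lit 14) (nat_lit 4) (nat_lit 544) (nat_lit 331) (nat_lit 325)) (XT.lf (nat_lit 0) (nat_lit 6464600562)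 (nat_lit 76) (nat_lit 19658885805) (nat_lit 76) (nat_lit 19148263929) (nat_lit 13) (nat_lit 4) (nat_lit 14) (nat_lit 5) (nat_lit 14) (nat_lit 4) (nat_lit 545) (nat_lit 331) (nat_lit 324))) (XT.nd (nat_lit 78) (nat_lit 0) (nat_lit 0) (XT.lf (nat_lit 0) (nat_lit 26370333571) (nat_lit 76) (nat_lit 10270202358) (nat_lit 76) (nat_lit 9694882036) (nat_lit 13) (nat_lit 4) (nat_lit 14) (nat_lit 5) (nat_lit 14) (nat_lit 4) (nat_lit 546) (nat_lit 331) (nat_lit 323)) (XT.lf (nat_lit 0) (nat_lit 46519715646) (nat_lit 76) (nat_lit 777347914) (nat_lit 76) (nat_lit 139213568) (nat_lit 13) (nat_lit 4) (nat_lit 14) (nat_lit 5) (nat_lit 14) (nat_lit 4) (nat_lit 547) (nat_lit 331) (nat_lit 322)))) (XT.nd (nat_lit 156) (nat_lit 76) (nat_lit 0) (XT.nd (nat_lit 78) (nat_lit 0) (nat_lit 0) (XT.lf (nat_lit 0) (nat_lit 9607776396) (nat_lit 152) (nat_lit 30027747858) (nat_lit 0) (nat_lit 8929020244) (nat_lit 11) (nat_lit 5) (nat_lit 13)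 (nat_lit 4) (nat_lit 11) (nat_lit 4) (nat_lit 548) (nat_lit 331) (nat_lit 321)) (XT.lf (nat_lit 0) (nat_lit 19488893182) (nat_lit 152) (nat_lit 11489737026) (nat_lit 0) (nat_lit 18752653299) (nat_lit 11) (nat_lit 5) (nat_lit 13) (nat_lit 4) (nat_lit 11) (nat_lit 4) (nat_lit 549) (nat_lit 331) (nat_lit 320))) (XT.nd (nat_lit 78) (nat_lit 0) (nat_lit 0) (XT.lf (nat_lit 0) (nat_lit 7412423805) (nat_lit 76) (nat_lit 22157769070) (nat_lit 76) (nat_lit 21365719739) (nat_lit 10) (nat_lit 4) (nat_lit 11) (nat_lit 5) (nat_lit 11) (nat_lit 4) (nat_lit 550) (nat_lit 331) (nat_lit 319)) (XT.lf (nat_lit 0) (nat_lit 26783844722) (nat_lit 76) (nat_lit 13120281841) (nat_lit 76) (nat_lit 12274048580) (nat_lit 10) (nat_lit 4) (nat_lit 11) (nat_lit 5) (nat_lit 11) (nat_lit 4) (nat_lit 551) (nat_lit 331) (nat_lit 318))))) (XT.nd (nat_lit 61230) (nat_lit 0) (nat_lit 684) (XT.nd (nat_lit 156) (nat_lit 0) (nat_lit 0) (XT.nd (nat_lit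 78) (nat_lit 152) (nat_lit 0) (XT.lf (nat_lit 0) (nat_lit 46412783911) (nat_lit 76) (nat_lit 3974295503) (nat_lit 76) (nat_lit 3075456485) (nat_lit 10) (nat_lit 4) (nat_lit 11) (nat_lit 5) (nat_lit 11) (nat_lit 4) (nat_lit 552) (nat_lit 331) (nat_lit 317)) (XT.lf (nat_lit 0) (nat_lit 6281321243) (nat_lit 152) (nat_lit 43142972294) (nat_lit 0) (nat_lit 5359076030) (nat_lit 8) (nat_lit 5) (nat_lit 10) (nat_lit 4) (nat_lit 8) (nat_lit 4) (nat_lit 553) (nat_lit 331) (nat_lit 316))) (XT.nd (nat_lit 78) (nat_lit 0) (nat_lit 0) (XT.lf (nat_lit 0) (nat_lit 15810433023) (nat_lit 152) (nat_lit 25493832650) (nat_lit 0) (nat_lit 14840046091) (nat_lit 8) (nat_lit 5) (nat_lit 10) (nat_lit 4) (nat_lit 8) (nat_lit 4) (nat_lit 554) (nat_lit 331) (nat_lit 315)) (XT.lf (nat_lit 0) (nat_lit 25472215614) (nat_lit 152) (nat_lit 7623373888) (nat_lit 0) (nat_lit 24455089148) (nat_lit 8) (nat_lit 5) (nat_lit 10) (nat_lit 4) (nat_lit 8)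 (nat_lit 4) (nat_lit 555) (nat_lit 331) (nat_lit 314)))) (XT.nd (nat_lit 156) (nat_lit 152) (nat_lit 0) (XT.nd (nat_lit 78) (nat_lit 76) (nat_lit 0) (XT.lf (nat_lit 0) (nat_lit 6974791737) (nat_lit 152) (nat_lit 4576398962) (nat_lit 0) (nat_lit 6974791737) (nat_lit 20) (nat_lit 5) (nat_lit 22) (nat_lit 4) (nat_lit 20) (nat_lit 4) (nat_lit 536) (nat_lit 332) (nat_lit 332)) (XT.lf (nat_lit 0) (nat_lit 10962764465) (nat_lit 76) (nat_lit 13491206403) (nat_lit 76) (nat_lit 13404257102) (nat_lit 19) (nat_lit 4) (nat_lit 20) (nat_lit 5) (nat_lit 20) (nat_lit 4) (nat_lit 537) (nat_lit 332) (nat_lit 331))) (XT.nd (nat_lit 78) (nat_lit 152) (nat_lit 0) (XT.lf (nat_lit 0) (nat_lit 31471807434) (nat_lit 76) (nat_lit 3695708727) (nat_lit 76) (nat_lit 3524342629) (nat_lit 19) (nat_lit 4) (nat_lit 20) (nat_lit 5) (nat_lit 20) (nat_lit 4) (nat_lit 538) (nat_lit 332) (nat_lit 330)) (XT.lf (nat_lit 0) (nat_lit 6512523104) (nat_lit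 152) (nat_lit 26769769678) (nat_lit 0) (nat_lit 6266577324) (nat_lit 17) (nat_lit 5) (nat_lit 19) (nat_lit 4) (nat_lit 17) (nat_lit 4) (nat_lit 539) (nat_lit 332) (nat_lit 329))))))) (XT.nd (nat_lit 1170) (nat_lit 0) (nat_lit 0) (XT.nd (nat_lit 546) (nat_lit 380) (nat_lit 0) (XT.nd (nat_lit 234) (nat_lit 228) (nat_lit 0) (XT.nd (nat_lit 78) (nat_lit 76) (nat_lit 0) (XT.lf (nat_lit 0) (nat_lit 16695446830) (nat_lit 152) (nat_lit 7365377307) (nat_lit 0) (nat_lit 16372247722) (nat_lit 17) (nat_lit 5) (nat_lit 19) (nat_lit 4) (nat_lit 17) (nat_lit 4) (nat_lit 540) (nat_lit 332) (nat_lit 328)) (XT.nd (nat_lit 78) (nat_lit 0) (nat_lit 0) (XT.lf (nat_lit 0) (nat_lit 12486159878) (nat_lit 76) (nat_lit 14628952527) (nat_lit 76) (nat_lit 14230750188) (nat_lit 16) (nat_lit 4) (nat_lit 17) (nat_lit 5) (nat_lit 17) (nat_lit 4) (nat_lit 541) (nat_lit 332) (nat_lit 327)) (XT.lf (nat_lit 0) (nat_lit 32709301411) (nat_lit 76) (nat_lit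 5025566098) (nat_lit 76) (nat_lit 4554545088) (nat_lit 16) (nat_lit 4) (nat_lit 17) (nat_lit 5) (nat_lit 17) (nat_lit 4) (nat_lit 542) (nat_lit 332) (nat_lit 326)))) (XT.nd (nat_lit 156) (nat_lit 76) (nat_lit 0) (XT.nd (nat_lit 78) (nat_lit 0) (nat_lit 0) (XT.lf (nat_lit 0) (nat_lit 5266231812) (nat_lit 152) (nat_lit 33254389059) (nat_lit 0) (nat_lit 4740291280) (nat_lit 14) (nat_lit 5) (nat_lit 16) (nat_lit 4) (nat_lit 14) (nat_lit 4) (nat_lit 543) (nat_lit 332) (nat_lit 325)) (XT.lf (nat_lit 0) (nat_lit 15254397799) (nat_lit 152) (nat_lit 14345059452) (nat_lit 0) (nat_lit 14661817868) (nat_lit 14) (nat_lit 5) (nat_lit 16) (nat_lit 4) (nat_lit 14) (nat_lit 4) (nat_lit 544) (nat_lit 332) (nat_lit 324))) (XT.nd (nat_lit 78) (nat_lit 0) (nat_lit 0) (XT.lf (nat_lit 0) (nat_lit 4869549338) (nat_lit 76) (nat_lit 20541654321) (nat_lit 76) (nat_lit 19884375944) (nat_lit 13) (nat_lit 4) (nat_lit 14) (nat_lit 5) (nat_lit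 14) (nat_lit 4) (nat_lit 545) (nat_lit 332) (nat_lit 323)) (XT.lf (nat_lit 0) (nat_lit 24601133123) (nat_lit 76) (nat_lit 11240404129) (nat_lit 76) (nat_lit 10520311727) (nat_lit 13) (nat_lit 4) (nat_lit 14) (nat_lit 5) (nat_lit 14) (nat_lit 4) (nat_lit 546) (nat_lit 332) (nat_lit 322))))) (XT.nd (nat_lit 312) (nat_lit 152) (nat_lit 0) (XT.nd (nat_lit 156) (nat_lit 76) (nat_lit 0) (XT.nd (nat_lit 78) (nat_lit 152) (nat_lit 0) (XT.lf (nat_lit 0) (nat_lit 44581438281) (nat_lit 76) (nat_lit 1832436340) (nat_lit 76) (nat_lit 1051359448) (nat_lit 13) (nat_lit 4) (nat_lit 14) (nat_lit 5) (nat_lit 14) (nat_lit 4) (nat_lit 547) (nat_lit 332) (nat_lit 321)) (XT.lf (nat_lit 0) (nat_lit 8598820661) (nat_lit 152) (nat_lit 32215372454) (nat_lit 0) (nat_lit 7783009850) (nat_lit 11) (nat_lit 5) (nat_lit 13) (nat_lit 4) (nat_lit 11) (nat_lit 4) (nat_lit 548) (nat_lit 332) (nat_lit 320))) (XT.nd (nat_lit 78) (nat_lit 76) (nat_lit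 0) (XT.lf (nat_lit 0) (nat_lit 18397423482) (nat_lit 152) (nat_lit 13843190889) (nat_lit 0) (nat_lit 17525803224) (nat_lit 11) (nat_lit 5) (nat_lit 13) (nat_lit 4) (nat_lit 11) (nat_lit 4) (nat_lit 549) (nat_lit 332) (nat_lit 319)) (XT.lf (nat_lit 0) (nat_lit 4847928105) (nat_lit 76) (nat_lit 23526032923) (nat_lit 76) (nat_lit 22600228734) (nat_lit 10) (nat_lit 4) (nat_lit 11) (nat_lit 5) (nat_lit 11) (nat_lit 4) (nat_lit 550) (nat_lit 332) (nat_lit 318)))) (XT.nd (nat_lit 156) (nat_lit 152) (nat_lit 0) (XT.nd (nat_lit 78) (nat_lit 0) (nat_lit 0) (XT.lf (nat_lit 0) (nat_lit 24059928158) (nat_lit 76) (nat_lit 14568656781) (nat_lit 76) (nat_lit 13590246836) (nat_lit 10) (nat_lit 4) (nat_lit 11) (nat_lit 5) (nat_lit 11) (nat_lit 4) (nat_lit 551) (nat_lit 332) (nat_lit 317)) (XT.lf (nat_lit 0) (nat_lit 43534089809) (nat_lit 76) (nat_lit 5500448198) (nat_lit 76) (nat_lit 4470964702) (nat_lit 10) (nat_lit 4) (nat_lit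 11) (nat_lit 5) (nat_lit 11) (nat_lit 4) (nat_lit 552) (nat_lit 332) (nat_lit 316))) (XT.nd (nat_lit 78) (nat_lit 0) (nat_lit 0) (XT.lf (nat_lit 0) (nat_lit 4791713458) (nat_lit 152) (nat_lit 46294592259) (nat_lit 0) (nat_lit 3744073198) (nat_lit 8) (nat_lit 5) (nat_lit 10) (nat_lit 4) (nat_lit 8) (nat_lit 4) (nat_lit 553) (nat_lit 332) (nat_lit 315)) (XT.lf (nat_lit 0) (nat_lit 14245356005) (nat_lit 152) (nat_lit 28797253143) (nat_lit 0) (nat_lit 13150976211) (nat_lit 8) (nat_lit 5) (nat_lit 10) (nat_lit 4) (nat_lit 8) (nat_lit 4) (nat_lit 554) (nat_lit 332) (nat_lit 314)))))) (XT.nd (nat_lit 61386) (nat_lit 0) (nat_lit 228) (XT.nd (nat_lit 61074) (nat_lit 0) (nat_lit 684) (XT.nd (nat_lit 60918) (nat_lit 0) (nat_lit 912) (XT.nd (nat_lit 60840) (nat_lit 0) (nat_lit 1064) (XT.lf (nat_lit 0) (nat_lit 23833867495) (nat_lit 152) (nat_lit 11074173533) (nat_lit 0) (nat_lit 22694109513) (nat_lit 8) (nat_lit 5) (nat_lit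 10) (nat_lit 4) (nat_lit 8) (nat_lit 4) (nat_lit 555) (nat_lit 332) (nat_lit 313)) (XT.lf (nat_lit 0) (nat_lit 11476049487) (nat_lit 76) (nat_lit 3139543219) (nat_lit 76) (nat_lit 3139543219) (nat_lit 22) (nat_lit 4) (nat_lit 23) (nat_lit 5) (nat_lit 23) (nat_lit 4) (nat_lit 534) (nat_lit 333) (nat_lit 333))) (XT.nd (nat_lit 78) (nat_lit 0) (nat_lit 0) (XT.lf (nat_lit 0) (nat_lit 3748441382) (nat_lit 152) (nat_lit 28864628772) (nat_lit 0) (nat_lit 3658883602) (nat_lit 20) (nat_lit 5) (nat_lit 22) (nat_lit 4) (nat_lit 20) (nat_lit 4) (nat_lit 535) (nat_lit 333) (nat_lit 332)) (XT.lf (nat_lit 0) (nat_lit 13940415011) (nat_lit 152) (nat_lit 9350604035) (nat_lit 0) (nat_lit 13763907930) (nat_lit 20) (nat_lit 5) (nat_lit 22) (nat_lit 4) (nat_lit 20) (nat_lit 4) (nat_lit 536) (nat_lit 333) (nat_lit 331)))) (XT.nd (nat_lit 156) (nat_lit 152) (nat_lit 0) (XT.nd (nat_lit 78) (nat_lit 0) (nat_lit 0) (XT.lf (nat_lit 0) (nat_lit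 10565154789) (nat_lit 76) (nat_lit 13779974825) (nat_lit 76) (nat_lit 13519050947) (nat_lit 19) (nat_lit 4) (nat_lit 20) (nat_lit 5) (nat_lit 20) (nat_lit 4) (nat_lit 537) (nat_lit 333) (nat_lit 330)) (XT.lf (nat_lit 0) (nat_lit 30884035783) (nat_lit 76) (nat_lit 4079752218) (nat_lit 76) (nat_lit 3736870285) (nat_lit 19) (nat_lit 4) (nat_lit 20) (nat_lit 5) (nat_lit 20) (nat_lit 4) (nat_lit 538) (nat_lit 333) (nat_lit 329))) (XT.nd (nat_lit 78) (nat_lit 0) (nat_lit 0) (XT.lf (nat_lit 0) (nat_lit 6198764231) (nat_lit 152) (nat_lit 27573512467) (nat_lit 0) (nat_lit 5788615822) (nat_lit 17) (nat_lit 5) (nat_lit 19) (nat_lit 4) (nat_lit 17) (nat_lit 4) (nat_lit 539) (nat_lit 333) (nat_lit 328)) (XT.lf (nat_lit 0) (nat_lit 16288697578) (nat_lit 152) (nat_lit 8355640741) (nat_lit 0) (nat_lit 15803545939) (nat_lit 17) (nat_lit 5) (nat_lit 19) (nat_lit 4) (nat_lit 17) (nat_lit 4) (nat_lit 540) (nat_lit 333) (nat_lit 327)))))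 (XT.nd (nat_lit 312) (nat_lit 228) (nat_lit 0) (XT.nd (nat_lit 156) (nat_lit 152) (nat_lit 0) (XT.nd (nat_lit 78) (nat_lit 0) (nat_lit 0) (XT.lf (nat_lit 0) (nat_lit 11291496249) (nat_lit 76) (nat_lit 15315101145) (nat_lit 76) (nat_lit 14757130834) (nat_lit 16) (nat_lit 4) (nat_lit 17) (nat_lit 5) (nat_lit 17) (nat_lit 4) (nat_lit 541) (nat_lit 333) (nat_lit 326)) (XT.lf (nat_lit 0) (nat_lit 31335325150) (nat_lit 76) (nat_lit 5801651334) (nat_lit 76) (nat_lit 5172983285) (nat_lit 16) (nat_lit 4) (nat_lit 17) (nat_lit 5) (nat_lit 17) (nat_lit 4) (nat_lit 542) (nat_lit 333) (nat_lit 325))) (XT.nd (nat_lit 78) (nat_lit 0) (nat_lit 0) (XT.lf (nat_lit 0) (nat_lit 4548373209) (nat_lit 152) (nat_lit 34865232870) (nat_lit 0) (nat_lit 3871376481) (nat_lit 14) (nat_lit 5) (nat_lit 16) (nat_lit 4) (nat_lit 14) (nat_lit 4) (nat_lit 543) (nat_lit 333) (nat_lit 324)) (XT.lf (nat_lit 0) (nat_lit 14448945998) (nat_lit 152) (nat_lit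 16131776736) (nat_lit 0) (nat_lit 13707250824) (nat_lit 14) (nat_lit 5) (nat_lit 16) (nat_lit 4) (nat_lit 14) (nat_lit 4) (nat_lit 544) (nat_lit 333) (nat_lit 323)))) (XT.nd (nat_lit 156) (nat_lit 152) (nat_lit 0) (XT.nd (nat_lit 78) (nat_lit 0) (nat_lit 0) (XT.lf (nat_lit 0) (nat_lit 2873123653) (nat_lit 76) (nat_lit 21628395400) (nat_lit 76) (nat_lit 20823886201) (nat_lit 13) (nat_lit 4) (nat_lit 14) (nat_lit 5) (nat_lit 14) (nat_lit 4) (nat_lit 545) (nat_lit 333) (nat_lit 322)) (XT.lf (nat_lit 0) (nat_lit 22435630521) (nat_lit 76) (nat_lit 12412031863) (nat_lit 76) (nat_lit 11546538173) (nat_lit 13) (nat_lit 4) (nat_lit 14) (nat_lit 5) (nat_lit 14) (nat_lit 4) (nat_lit 546) (nat_lit 333) (nat_lit 321))) (XT.nd (nat_lit 78) (nat_lit 152) (nat_lit 0) (XT.lf (nat_lit 0) (nat_lit 42251783333) (nat_lit 76) (nat_lit 3086478303) (nat_lit 76) (nat_lit 2161776370) (nat_lit 13) (nat_lit 4) (nat_lit 14) (nat_lit 5) (nat_lit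 14) (nat_lit 4) (nat_lit 547) (nat_lit 333) (nat_lit 320)) (XT.lf (nat_lit 0) (nat_lit 7392092905) (nat_lit 152) (nat_lit 34805259200) (nat_lit 0) (nat_lit 6438514591) (nat_lit 11) (nat_lit 5) (nat_lit 13) (nat_lit 4) (nat_lit 11) (nat_lit 4) (nat_lit 548) (nat_lit 333) (nat_lit 319))))))))
noncomputable def xc2 : XT := (XT.nd (nat_lit 123474) (nat_lit 0) (nat_lit 0) (XT.nd (nat_lit 61776) (nat_lit 0) (nat_lit 0) (XT.nd (nat_lit 61152) (nat_lit 0) (nat_lit 684) (XT.nd (nat_lit 234) (nat_lit 152) (nat_lit 0) (XT.nd (nat_lit 78) (nat_lit 76) (nat_lit 0) (XT.lf (nat_lit 0) (nat_lit 17110585081) (nat_lit 152) (nat_lit 16594076924) (nat_lit 0) (nat_lit 16102822837) (nat_lit 11) (nat_lit 5) (nat_lit 13) (nat_lit 4) (nat_lit 11) (nat_lit 4) (nat_lit 549) (nat_lit 333) (nat_lit 318)) (XT.nd (nat_lit 78) (nat_lit 0) (nat_lit 0) (XT.lf (nat_lit 0) (nat_lit 1882873180) (nat_lit 76) (nat_lit 25097970199) (nat_lit 76) (nat_lit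 24037602198) (nat_lit 10) (nat_lit 4) (nat_lit 11) (nat_lit 5) (nat_lit 11) (nat_lit 4) (nat_lit 550) (nat_lit 333) (nat_lit 317)) (XT.lf (nat_lit 0) (nat_lit 20940095695) (nat_lit 76) (nat_lit 16218371812) (nat_lit 76) (nat_lit 15106930261) (nat_lit 10) (nat_lit 4) (nat_lit 11) (nat_lit 5) (nat_lit 11) (nat_lit 4) (nat_lit 551) (nat_lit 333) (nat_lit 316)))) (XT.nd (nat_lit 156) (nat_lit 0) (nat_lit 0) (XT.nd (nat_lit 78) (nat_lit 152) (nat_lit 0) (XT.lf (nat_lit 0) (nat_lit 40263987892) (nat_lit 76) (nat_lit 7225675613) (nat_lit 76) (nat_lit 6064648090) (nat_lit 10) (nat_lit 4) (nat_lit 11) (nat_lit 5) (nat_lit 11) (nat_lit 4) (nat_lit 552) (nat_lit 333) (nat_lit 315)) (XT.lf (nat_lit 0) (nat_lit 3104214895) (nat_lit 152) (nat_lit 49848915893) (nat_lit 0) (nat_lit 1930264174) (nat_lit 8) (nat_lit 5) (nat_lit 10) (nat_lit 4) (nat_lit 8) (nat_lit 4) (nat_lit 553) (nat_lit 333) (nat_lit 314))) (XT.nd (nat_lit 78)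 (nat_lit 0) (nat_lit 0) (XT.lf (nat_lit 0) (nat_lit 12484586342) (nat_lit 152) (nat_lit 32498955930) (nat_lit 0) (nat_lit 11265257433) (nat_lit 8) (nat_lit 5) (nat_lit 10) (nat_lit 4) (nat_lit 8) (nat_lit 4) (nat_lit 554) (nat_lit 333) (nat_lit 313)) (XT.lf (nat_lit 0) (nat_lit 22001960841) (nat_lit 152) (nat_lit 14918962876) (nat_lit 0) (nat_lit 20738575439) (nat_lit 8) (nat_lit 5) (nat_lit 10) (nat_lit 4) (nat_lit 8) (nat_lit 4) (nat_lit 555) (nat_lit 333) (nat_lit 312))))) (XT.nd (nat_lit 312) (nat_lit 228) (nat_lit 0) (XT.nd (nat_lit 156) (nat_lit 152) (nat_lit 0) (XT.nd (nat_lit 78) (nat_lit 76) (nat_lit 0) (XT.lf (nat_lit 0) (nat_lit 4215438356) (nat_lit 152) (nat_lit 8596062194) (nat_lit 0) (nat_lit 4215438356) (nat_lit 23) (nat_lit 5) (nat_lit 25) (nat_lit 4) (nat_lit 23) (nat_lit 4) (nat_lit 532) (nat_lit 334) (nat_lit 334)) (XT.lf (nat_lit 0) (nat_lit 2509088634) (nat_lit 76) (nat_lit 16179156566) (nat_lit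 76) (nat_lit 16084144717) (nat_lit 22) (nat_lit 4) (nat_lit 23) (nat_lit 5) (nat_lit 23) (nat_lit 4) (nat_lit 533) (nat_lit 334) (nat_lit 333))) (XT.nd (nat_lit 78) (nat_lit 152) (nat_lit 0) (XT.lf (nat_lit 0) (nat_lit 22756311820) (nat_lit 76) (nat_lit 6472075514) (nat_lit 76) (nat_lit 6284819151) (nat_lit 22) (nat_lit 4) (nat_lit 23) (nat_lit 5) (nat_lit 23) (nat_lit 4) (nat_lit 534) (nat_lit 334) (nat_lit 332)) (XT.lf (nat_lit 0) (nat_lit 3640271620) (nat_lit 152) (nat_lit 29266175177) (nat_lit 0) (nat_lit 3371520026) (nat_lit 20) (nat_lit 5) (nat_lit 22) (nat_lit 4) (nat_lit 20) (nat_lit 4) (nat_lit 535) (nat_lit 334) (nat_lit 331)))) (XT.nd (nat_lit 156) (nat_lit 152) (nat_lit 0) (XT.nd (nat_lit 78) (nat_lit 76) (nat_lit 0) (XT.lf (nat_lit 0) (nat_lit 13736394527) (nat_lit 152) (nat_lit 9944195207) (nat_lit 0) (nat_lit 13383226136) (nat_lit 20) (nat_lit 5) (nat_lit 22) (nat_lit 4) (nat_lit 20) (nat_lit 4)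 (nat_lit 536) (nat_lit 334) (nat_lit 330)) (XT.lf (nat_lit 0) (nat_lit 9769588012) (nat_lit 76) (nat_lit 14270814690) (nat_lit 76) (nat_lit 13835688243) (nat_lit 19) (nat_lit 4) (nat_lit 20) (nat_lit 5) (nat_lit 20) (nat_lit 4) (nat_lit 537) (nat_lit 334) (nat_lit 329))) (XT.nd (nat_lit 78) (nat_lit 152) (nat_lit 0) (XT.lf (nat_lit 0) (nat_lit 29903845728) (nat_lit 76) (nat_lit 4663092151) (nat_lit 76) (nat_lit 4148394776) (nat_lit 19) (nat_lit 4) (nat_lit 20) (nat_lit 5) (nat_lit 20) (nat_lit 4) (nat_lit 538) (nat_lit 334) (nat_lit 328)) (XT.lf (nat_lit 0) (nat_lit 5686822123) (nat_lit 152) (nat_lit 28780004449) (nat_lit 0) (nat_lit 5112112703) (nat_lit 17) (nat_lit 5) (nat_lit 19) (nat_lit 4) (nat_lit 17) (nat_lit 4) (nat_lit 539) (nat_lit 334) (nat_lit 327)))))) (XT.nd (nat_lit 624) (nat_lit 380) (nat_lit 0) (XT.nd (nat_lit 312) (nat_lit 76) (nat_lit 0) (XT.nd (nat_lit 156) (nat_lit 152) (nat_lit 0) (XT.nd (nat_lit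 78) (nat_lit 76) (nat_lit 0) (XT.lf (nat_lit 0) (nat_lit 15686473548) (nat_lit 152) (nat_lit 9743220728) (nat_lit 0) (nat_lit 15038945457) (nat_lit 17) (nat_lit 5) (nat_lit 19) (nat_lit 4) (nat_lit 17) (nat_lit 4) (nat_lit 540) (nat_lit 334) (nat_lit 326)) (XT.lf (nat_lit 0) (nat_lit 9696988068) (nat_lit 76) (nat_lit 16204405556) (nat_lit 76) (nat_lit 15486179727) (nat_lit 16) (nat_lit 4) (nat_lit 17) (nat_lit 5) (nat_lit 17) (nat_lit 4) (nat_lit 541) (nat_lit 334) (nat_lit 325))) (XT.nd (nat_lit 78) (nat_lit 152) (nat_lit 0) (XT.lf (nat_lit 0) (nat_lit 29566727035) (nat_lit 76) (nat_lit 6778272850) (nat_lit 76) (nat_lit 5991408440) (nat_lit 16) (nat_lit 4) (nat_lit 17) (nat_lit 5) (nat_lit 17) (nat_lit 4) (nat_lit 542) (nat_lit 334) (nat_lit 324)) (XT.lf (nat_lit 0) (nat_lit 3631164655) (nat_lit 152) (nat_lit 36881425146) (nat_lit 0) (nat_lit 2802520180) (nat_lit 14) (nat_lit 5) (nat_lit 16) (nat_lit 4) (nat_lit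 14) (nat_lit 4) (nat_lit 543) (nat_lit 334) (nat_lit 323)))) (XT.nd (nat_lit 156) (nat_lit 0) (nat_lit 0) (XT.nd (nat_lit 78) (nat_lit 76) (nat_lit 0) (XT.lf (nat_lit 0) (nat_lit 13446695503) (nat_lit 152) (nat_lit 18318719958) (nat_lit 0) (nat_lit 12555237003) (nat_lit 14) (nat_lit 5) (nat_lit 16) (nat_lit 4) (nat_lit 14) (nat_lit 4) (nat_lit 544) (nat_lit 334) (nat_lit 322)) (XT.lf (nat_lit 0) (nat_lit 473579056) (nat_lit 76) (nat_lit 22920058622) (nat_lit 76) (nat_lit 21967615631) (nat_lit 13) (nat_lit 4) (nat_lit 14) (nat_lit 5) (nat_lit 14) (nat_lit 4) (nat_lit 545) (nat_lit 334) (nat_lit 321))) (XT.nd (nat_lit 78) (nat_lit 0) (nat_lit 0) (XT.lf (nat_lit 0) (nat_lit 19871933579) (nat_lit 76) (nat_lit 13786109313) (nat_lit 76) (nat_lit 12774458079) (nat_lit 13) (nat_lit 4) (nat_lit 14) (nat_lit 5) (nat_lit 14) (nat_lit 4) (nat_lit 546) (nat_lit 334) (nat_lit 320)) (XT.lf (nat_lit 0) (nat_lit 39528715181) (nat_lit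 76) (nat_lit 4540569567) (nat_lit 76) (nat_lit 3471434602) (nat_lit 13) (nat_lit 4) (nat_lit 14) (nat_lit 5) (nat_lit 14) (nat_lit 4) (nat_lit 547) (nat_lit 334) (nat_lit 319))))) (XT.nd (nat_lit 312) (nat_lit 152) (nat_lit 0) (XT.nd (nat_lit 156) (nat_lit 76) (nat_lit 0) (XT.nd (nat_lit 78) (nat_lit 0) (nat_lit 0) (XT.lf (nat_lit 0) (nat_lit 5986538706) (nat_lit 152) (nat_lit 37799671105) (nat_lit 0) (nat_lit 4894359665) (nat_lit 11) (nat_lit 5) (nat_lit 13) (nat_lit 4) (nat_lit 11) (nat_lit 4) (nat_lit 548) (nat_lit 334) (nat_lit 318)) (XT.lf (nat_lit 0) (nat_lit 15627253556) (nat_lit 152) (nat_lit 19744798817) (nat_lit 0) (nat_lit 14482468758) (nat_lit 11) (nat_lit 5) (nat_lit 13) (nat_lit 4) (nat_lit 11) (nat_lit 4) (nat_lit 549) (nat_lit 334) (nat_lit 317))) (XT.nd (nat_lit 78) (nat_lit 76) (nat_lit 0) (XT.lf (nat_lit 0) (nat_lit 25403900560) (nat_lit 152) (nat_lit 1456347620) (nat_lit 0) (nat_lit 24208042211)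 (nat_lit 11) (nat_lit 5) (nat_lit 13) (nat_lit 4) (nat_lit 11) (nat_lit 4) (nat_lit 550) (nat_lit 334) (nat_lit 316)) (XT.lf (nat_lit 0) (nat_lit 17421621265) (nat_lit 76) (nat_lit 18070868433) (nat_lit 76) (nat_lit 16825424113) (nat_lit 10) (nat_lit 4) (nat_lit 11) (nat_lit 5) (nat_lit 11) (nat_lit 4) (nat_lit 551) (nat_lit 334) (nat_lit 315)))) (XT.nd (nat_lit 156) (nat_lit 0) (nat_lit 0) (XT.nd (nat_lit 78) (nat_lit 152) (nat_lit 0) (XT.lf (nat_lit 0) (nat_lit 36599620788) (nat_lit 76) (nat_lit 9151485227) (nat_lit 76) (nat_lit 7857899187) (nat_lit 10) (nat_lit 4) (nat_lit 11) (nat_lit 5) (nat_lit 11) (nat_lit 4) (nat_lit 552) (nat_lit 334) (nat_lit 314)) (XT.lf (nat_lit 0) (nat_lit 1132567531) (nat_lit 76) (nat_lit 85606411) (nat_lit 152) (nat_lit 53724265406) (nat_lit 8) (nat_lit 5) (nat_lit 9) (nat_lit 5) (nat_lit 10) (nat_lit 4) (nat_lit 553) (nat_lit 334) (nat_lit 313))) (XT.nd (nat_lit 78) (nat_lit 0)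 (nat_lit 0) (XT.lf (nat_lit 0) (nat_lit 10526585498) (nat_lit 152) (nat_lit 36602175509) (nat_lit 0) (nat_lit 9181242040) (nat_lit 8) (nat_lit 5) (nat_lit 10) (nat_lit 4) (nat_lit 8) (nat_lit 4) (nat_lit 554) (nat_lit 334) (nat_lit 312)) (XT.lf (nat_lit 0) (nat_lit 19974894958) (nat_lit 152) (nat_lit 19161101442) (nat_lit 0) (nat_lit 18586778205) (nat_lit 8) (nat_lit 5) (nat_lit 10) (nat_lit 4) (nat_lit 8) (nat_lit 4) (nat_lit 555) (nat_lit 334) (nat_lit 311))))))) (XT.nd (nat_lit 1170) (nat_lit 456) (nat_lit 0) (XT.nd (nat_lit 546) (nat_lit 456) (nat_lit 0) (XT.nd (nat_lit 234) (nat_lit 228) (nat_lit 0) (XT.nd (nat_lit 78) (nat_lit 152) (nat_lit 0) (XT.lf (nat_lit 0) (nat_lit 4917586302) (nat_lit 76) (nat_lit 5710894113) (nat_lit 76) (nat_lit 5710894113) (nat_lit 25) (nat_lit 4) (nat_lit 26) (nat_lit 5) (nat_lit 26) (nat_lit 4) (nat_lit 530) (nat_lit 335) (nat_lit 335)) (XT.nd (nat_lit 78) (nat_lit 152) (nat_lit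 0) (XT.lf (nat_lit 0) (nat_lit 30091636469) (nat_lit 76) (nat_lit 1684340999) (nat_lit 76) (nat_lit 1583542929) (nat_lit 25) (nat_lit 4) (nat_lit 26) (nat_lit 5) (nat_lit 26) (nat_lit 4) (nat_lit 531) (nat_lit 335) (nat_lit 334)) (XT.lf (nat_lit 0) (nat_lit 8429933177) (nat_lit 152) (nat_lit 17389850030) (nat_lit 0) (nat_lit 8237059124) (nat_lit 23) (nat_lit 5) (nat_lit 25) (nat_lit 4) (nat_lit 23) (nat_lit 4) (nat_lit 532) (nat_lit 335) (nat_lit 333)))) (XT.nd (nat_lit 156) (nat_lit 152) (nat_lit 0) (XT.nd (nat_lit 78) (nat_lit 0) (nat_lit 0) (XT.lf (nat_lit 0) (nat_lit 2111640711) (nat_lit 76) (nat_lit 16475912538) (nat_lit 76) (nat_lit 16190793972) (nat_lit 22) (nat_lit 4) (nat_lit 23) (nat_lit 5) (nat_lit 23) (nat_lit 4) (nat_lit 533) (nat_lit 335) (nat_lit 332)) (XT.lf (nat_lit 0) (nat_lit 22168779281) (nat_lit 76) (nat_lit 6863955006) (nat_lit 76) (nat_lit 6489278659) (nat_lit 22) (nat_lit 4) (nat_lit 23)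 (nat_lit 5) (nat_lit 23) (nat_lit 4) (nat_lit 534) (nat_lit 335) (nat_lit 331))) (XT.nd (nat_lit 78) (nat_lit 0) (nat_lit 0) (XT.lf (nat_lit 0) (nat_lit 3334279800) (nat_lit 152) (nat_lit 30069618853) (nat_lit 0) (nat_lit 2886099559) (nat_lit 20) (nat_lit 5) (nat_lit 22) (nat_lit 4) (nat_lit 20) (nat_lit 4) (nat_lit 535) (nat_lit 335) (nat_lit 330)) (XT.lf (nat_lit 0) (nat_lit 13337343753) (nat_lit 152) (nat_lit 10934090114) (nat_lit 0) (nat_lit 12807205458) (nat_lit 20) (nat_lit 5) (nat_lit 22) (nat_lit 4) (nat_lit 20) (nat_lit 4) (nat_lit 536) (nat_lit 335) (nat_lit 329))))) (XT.nd (nat_lit 312) (nat_lit 228) (nat_lit 0) (XT.nd (nat_lit 156) (nat_lit 152) (nat_lit 0) (XT.nd (nat_lit 78) (nat_lit 0) (nat_lit 0) (XT.lf (nat_lit 0) (nat_lit 8575368978) (nat_lit 76) (nat_lit 14964154888) (nat_lit 76) (nat_lit 14354445664) (nat_lit 19) (nat_lit 4) (nat_lit 20) (nat_lit 5) (nat_lit 20) (nat_lit 4) (nat_lit 537) (nat_lit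 335) (nat_lit 328)) (XT.lf (nat_lit 0) (nat_lit 28530380793) (nat_lit 76) (nat_lit 5446238239) (nat_lit 76) (nat_lit 4759275687) (nat_lit 19) (nat_lit 4) (nat_lit 20) (nat_lit 5) (nat_lit 20) (nat_lit 4) (nat_lit 538) (nat_lit 335) (nat_lit 327))) (XT.nd (nat_lit 78) (nat_lit 0) (nat_lit 0) (XT.lf (nat_lit 0) (nat_lit 4976249450) (nat_lit 152) (nat_lit 30390299840) (nat_lit 0) (nat_lit 4236476846) (nat_lit 17) (nat_lit 5) (nat_lit 19) (nat_lit 4) (nat_lit 17) (nat_lit 4) (nat_lit 539) (nat_lit 335) (nat_lit 326)) (XT.lf (nat_lit 0) (nat_lit 14888248524) (nat_lit 152) (nat_lit 11529329715) (nat_lit 0) (nat_lit 14077778181) (nat_lit 17) (nat_lit 5) (nat_lit 19) (nat_lit 4) (nat_lit 17) (nat_lit 4) (nat_lit 540) (nat_lit 335) (nat_lit 325)))) (XT.nd (nat_lit 156) (nat_lit 152) (nat_lit 0) (XT.nd (nat_lit 78) (nat_lit 0) (nat_lit 0) (XT.lf (nat_lit 0) (nat_lit 7701242075) (nat_lit 76) (nat_lit 17297642823) (nat_lit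 76) (nat_lit 16418533900) (nat_lit 16) (nat_lit 4) (nat_lit 17) (nat_lit 5) (nat_lit 17) (nat_lit 4) (nat_lit 541) (nat_lit 335) (nat_lit 324)) (XT.lf (nat_lit 0) (nat_lit 27401961689) (nat_lit 76) (nat_lit 7956284006) (nat_lit 76) (nat_lit 7010535683) (nat_lit 16) (nat_lit 4) (nat_lit 17) (nat_lit 5) (nat_lit 17) (nat_lit 4) (nat_lit 542) (nat_lit 335) (nat_lit 323))) (XT.nd (nat_lit 78) (nat_lit 0) (nat_lit 0) (XT.lf (nat_lit 0) (nat_lit 2513804706) (nat_lit 152) (nat_lit 39304727610) (nat_lit 0) (nat_lit 1532788426) (nat_lit 14) (nat_lit 5) (nat_lit 16) (nat_lit 4) (nat_lit 14) (nat_lit 4) (nat_lit 543) (nat_lit 335) (nat_lit 322)) (XT.lf (nat_lit 0) (nat_lit 12246770564) (nat_lit 152) (nat_lit 20907800039) (nat_lit 0) (nat_lit 11204769793) (nat_lit 14) (nat_lit 5) (nat_lit 16) (nat_lit 4) (nat_lit 14) (nat_lit 4) (nat_lit 544) (nat_lit 335) (nat_lit 321)))))) (XT.nd (nat_lit 624) (nat_lit 152) (nat_lit 0) (XT.nd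 (nat_lit 312) (nat_lit 76) (nat_lit 0) (XT.nd (nat_lit 156) (nat_lit 152) (nat_lit 0) (XT.nd (nat_lit 78) (nat_lit 76) (nat_lit 0) (XT.lf (nat_lit 0) (nat_lit 22109000222) (nat_lit 152) (nat_lit 2285691399) (nat_lit 0) (nat_lit 21007791208) (nat_lit 14) (nat_lit 5) (nat_lit 16) (nat_lit 4) (nat_lit 14) (nat_lit 4) (nat_lit 545) (nat_lit 335) (nat_lit 320)) (XT.lf (nat_lit 0) (nat_lit 16907802172) (nat_lit 76) (nat_lit 15363837128) (nat_lit 76) (nat_lit 14205144384) (nat_lit 13) (nat_lit 4) (nat_lit 14) (nat_lit 5) (nat_lit 14) (nat_lit 4) (nat_lit 546) (nat_lit 335) (nat_lit 319))) (XT.nd (nat_lit 78) (nat_lit 152) (nat_lit 0) (XT.lf (nat_lit 0) (nat_lit 36409854444) (nat_lit 76) (nat_lit 6195980697) (nat_lit 76) (nat_lit 4981478504) (nat_lit 13) (nat_lit 4) (nat_lit 14) (nat_lit 5) (nat_lit 14) (nat_lit 4) (nat_lit 547) (nat_lit 335) (nat_lit 318)) (XT.lf (nat_lit 0) (nat_lit 4380929910) (nat_lit 152) (nat_lit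 41201224644) (nat_lit 0) (nat_lit 3149195811) (nat_lit 11) (nat_lit 5) (nat_lit 13) (nat_lit 4) (nat_lit 11) (nat_lit 4) (nat_lit 548) (nat_lit 335) (nat_lit 317)))) (XT.nd (nat_lit 156) (nat_lit 76) (nat_lit 0) (XT.nd (nat_lit 78) (nat_lit 0) (nat_lit 0) (XT.lf (nat_lit 0) (nat_lit 13946132794) (nat_lit 152) (nat_lit 23298109627) (nat_lit 0) (nat_lit 12663325144) (nat_lit 11) (nat_lit 5) (nat_lit 13) (nat_lit 4) (nat_lit 11) (nat_lit 4) (nat_lit 549) (nat_lit 335) (nat_lit 316)) (XT.lf (nat_lit 0) (nat_lit 23649467208) (nat_lit 152) (nat_lit 5156995586) (nat_lit 0) (nat_lit 22317073587) (nat_lit 11) (nat_lit 5) (nat_lit 13) (nat_lit 4) (nat_lit 11) (nat_lit 4) (nat_lit 550) (nat_lit 335) (nat_lit 315))) (XT.nd (nat_lit 78) (nat_lit 0) (nat_lit 0) (XT.lf (nat_lit 0) (nat_lit 13501430474) (nat_lit 76) (nat_lit 20127765329) (nat_lit 76) (nat_lit 18747229988) (nat_lit 10) (nat_lit 4) (nat_lit 11) (nat_lit 5) (nat_lit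 11) (nat_lit 4) (nat_lit 551) (nat_lit 335) (nat_lit 314)) (XT.lf (nat_lit 0) (nat_lit 32537786624) (nat_lit 76) (nat_lit 11279559787) (nat_lit 76) (nat_lit 9852284913) (nat_lit 10) (nat_lit 4) (nat_lit 11) (nat_lit 5) (nat_lit 11) (nat_lit 4) (nat_lit 552) (nat_lit 335) (nat_lit 313))))) (XT.nd (nat_lit 60606) (nat_lit 0) (nat_lit 1140) (XT.nd (nat_lit 156) (nat_lit 0) (nat_lit 0) (XT.nd (nat_lit 78) (nat_lit 152) (nat_lit 0) (XT.lf (nat_lit 0) (nat_lit 51866072248) (nat_lit 76) (nat_lit 2306190271) (nat_lit 76) (nat_lit 833537208) (nat_lit 10) (nat_lit 4) (nat_lit 11) (nat_lit 5) (nat_lit 11) (nat_lit 4) (nat_lit 553) (nat_lit 335) (nat_lit 312)) (XT.lf (nat_lit 0) (nat_lit 8369642598) (nat_lit 152) (nat_lit 41110497218) (nat_lit 0) (nat_lit 6897109049) (nat_lit 8) (nat_lit 5) (nat_lit 10) (nat_lit 4) (nat_lit 8) (nat_lit 4) (nat_lit 554) (nat_lit 335) (nat_lit 311))) (XT.nd (nat_lit 60372) (nat_lit 0) (nat_lit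 1368) (XT.lf (nat_lit 0) (nat_lit 17750898622) (nat_lit 152) (nat_lit 23804295953) (nat_lit 0) (nat_lit 16236837602) (nat_lit 8) (nat_lit 5) (nat_lit 10) (nat_lit 4) (nat_lit 8) (nat_lit 4) (nat_lit 555) (nat_lit 335) (nat_lit 310)) (XT.lf (nat_lit 0) (nat_lit 521025450) (nat_lit 152) (nat_lit 14648870541) (nat_lit 0) (nat_lit 521025450) (nat_lit 26) (nat_lit 5) (nat_lit 28) (nat_lit 4) (nat_lit 26) (nat_lit 4) (nat_lit 528) (nat_lit 336) (nat_lit 336)))) (XT.nd (nat_lit 156) (nat_lit 152) (nat_lit 0) (XT.nd (nat_lit 78) (nat_lit 76) (nat_lit 0) (XT.lf (nat_lit 0) (nat_lit 11053421765) (nat_lit 152) (nat_lit 10017626918) (nat_lit 0) (nat_lit 10949599752) (nat_lit 26) (nat_lit 5) (nat_lit 28) (nat_lit 4) (nat_lit 26) (nat_lit 4) (nat_lit 529) (nat_lit 336) (nat_lit 335)) (XT.lf (nat_lit 0) (nat_lit 9639472518) (nat_lit 76) (nat_lit 11623416895) (nat_lit 76) (nat_lit 11418796812) (nat_lit 25) (nat_lit 4) (nat_lit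 26) (nat_lit 5) (nat_lit 26) (nat_lit 4) (nat_lit 530) (nat_lit 336) (nat_lit 334))) (XT.nd (nat_lit 78) (nat_lit 152) (nat_lit 0) (XT.lf (nat_lit 0) (nat_lit 29705936301) (nat_lit 76) (nat_lit 1980927585) (nat_lit 76) (nat_lit 1678445298) (nat_lit 25) (nat_lit 4) (nat_lit 26) (nat_lit 5) (nat_lit 26) (nat_lit 4) (nat_lit 531) (nat_lit 336) (nat_lit 333)) (XT.lf (nat_lit 0) (nat_lit 8234227692) (nat_lit 152) (nat_lit 17983199723) (nat_lit 0) (nat_lit 7848311055) (nat_lit 23) (nat_lit 5) (nat_lit 25) (nat_lit 4) (nat_lit 23) (nat_lit 4) (nat_lit 532) (nat_lit 336) (nat_lit 332))))))))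
noncomputable def xc3 : XT := (XT.nd (nat_lit 62556) (nat_lit 0) (nat_lit 0) (XT.nd (nat_lit 1170) (nat_lit 380) (nat_lit 0) (XT.nd (nat_lit 546) (nat_lit 304) (nat_lit 0) (XT.nd (nat_lit 234) (nat_lit 228) (nat_lit 0) (XT.nd (nat_lit 78) (nat_lit 152) (nat_lit 0) (XT.lf (nat_lit 0) (nat_lit 1316397579) (nat_lit 76) (nat_lit 16974671935) (nat_lit 76) (nat_lit 16499197518) (nat_lit 22) (nat_lit 4) (nat_lit 23) (nat_lit 5) (nat_lit 23) (nat_lit 4) (nat_lit 533) (nat_lit 336) (nat_lit 331)) (XT.nd (nat_lit 78) (nat_lit 152) (nat_lit 0) (XT.lf (nat_lit 0) (nat_lit 21188987978) (nat_lit 76) (nat_lit 7455067334) (nat_lit 76) (nat_lit 6892643616) (nat_lit 22) (nat_lit 4) (nat_lit 23) (nat_lit 5) (nat_lit 23) (nat_lit 4) (nat_lit 534) (nat_lit 336) (nat_lit 330)) (XT.lf (nat_lit 0) (nat_lit 2830198549) (nat_lit 152) (nat_lit 31275661837) (nat_lit 0) (nat_lit 2202198049) (nat_lit 20) (nat_lit 5) (nat_lit 22) (nat_lit 4)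 (nat_lit 20) (nat_lit 4) (nat_lit 535) (nat_lit 336) (nat_lit 329)))) (XT.nd (nat_lit 156) (nat_lit 152) (nat_lit 0) (XT.nd (nat_lit 78) (nat_lit 76) (nat_lit 0) (XT.lf (nat_lit 0) (nat_lit 12742914004) (nat_lit 152) (nat_lit 12321153711) (nat_lit 0) (nat_lit 12035342576) (nat_lit 20) (nat_lit 5) (nat_lit 22) (nat_lit 4) (nat_lit 20) (nat_lit 4) (nat_lit 536) (nat_lit 336) (nat_lit 328)) (XT.lf (nat_lit 0) (nat_lit 6981454195) (nat_lit 76) (nat_lit 15860601249) (nat_lit 76) (nat_lit 15075776493) (nat_lit 19) (nat_lit 4) (nat_lit 20) (nat_lit 5) (nat_lit 20) (nat_lit 4) (nat_lit 537) (nat_lit 336) (nat_lit 327))) (XT.nd (nat_lit 78) (nat_lit 152) (nat_lit 0) (XT.lf (nat_lit 0) (nat_lit 26762440864) (nat_lit 76) (nat_lit 6429874785) (nat_lit 76) (nat_lit 5570046798) (nat_lit 19) (nat_lit 4) (nat_lit 20) (nat_lit 5) (nat_lit 20) (nat_lit 4) (nat_lit 538) (nat_lit 336) (nat_lit 326)) (XT.lf (nat_lit 0) (nat_lit 4066425324)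 (nat_lit 152) (nat_lit 32405805694) (nat_lit 0) (nat_lit 3160943132) (nat_lit 17) (nat_lit 5) (nat_lit 19) (nat_lit 4) (nat_lit 17) (nat_lit 4) (nat_lit 539) (nat_lit 336) (nat_lit 325))))) (XT.nd (nat_lit 312) (nat_lit 76) (nat_lit 0) (XT.nd (nat_lit 156) (nat_lit 152) (nat_lit 0) (XT.nd (nat_lit 78) (nat_lit 76) (nat_lit 0) (XT.lf (nat_lit 0) (nat_lit 13893325028) (nat_lit 152) (nat_lit 13715528381) (nat_lit 0) (nat_lit 12919204255) (nat_lit 17) (nat_lit 5) (nat_lit 19) (nat_lit 4) (nat_lit 17) (nat_lit 4) (nat_lit 540) (nat_lit 336) (nat_lit 324)) (XT.lf (nat_lit 0) (nat_lit 5302514416) (nat_lit 76) (nat_lit 18595768202) (nat_lit 76) (nat_lit 17555008030) (nat_lit 16) (nat_lit 4) (nat_lit 17) (nat_lit 5) (nat_lit 17) (nat_lit 4) (nat_lit 541) (nat_lit 336) (nat_lit 323))) (XT.nd (nat_lit 78) (nat_lit 152) (nat_lit 0) (XT.lf (nat_lit 0) (nat_lit 24839137570) (nat_lit 76) (nat_lit 9336714130) (nat_lit 76) (nat_lit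 8231255513) (nat_lit 16) (nat_lit 4) (nat_lit 17) (nat_lit 5) (nat_lit 17) (nat_lit 4) (nat_lit 542) (nat_lit 336) (nat_lit 322)) (XT.lf (nat_lit 0) (nat_lit 1195317028) (nat_lit 152) (nat_lit 42137257710) (nat_lit 0) (nat_lit 61071744) (nat_lit 14) (nat_lit 5) (nat_lit 16) (nat_lit 4) (nat_lit 14) (nat_lit 4) (nat_lit 543) (nat_lit 336) (nat_lit 321)))) (XT.nd (nat_lit 156) (nat_lit 76) (nat_lit 0) (XT.nd (nat_lit 78) (nat_lit 0) (nat_lit 0) (XT.lf (nat_lit 0) (nat_lit 10848122701) (nat_lit 152) (nat_lit 23901279281) (nat_lit 0) (nat_lit 9654669174) (nat_lit 14) (nat_lit 5) (nat_lit 16) (nat_lit 4) (nat_lit 14) (nat_lit 4) (nat_lit 544) (nat_lit 336) (nat_lit 320)) (XT.lf (nat_lit 0) (nat_lit 20632526936) (nat_lit 152) (nat_lit 5435431945) (nat_lit 0) (nat_lit 19381589678) (nat_lit 14) (nat_lit 5) (nat_lit 16) (nat_lit 4) (nat_lit 14) (nat_lit 4) (nat_lit 545) (nat_lit 336) (nat_lit 319))) (XT.nd (nat_lit 78)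 (nat_lit 0) (nat_lit 0) (XT.lf (nat_lit 0) (nat_lit 13540646283) (nat_lit 76) (nat_lit 17146593907) (nat_lit 76) (nat_lit 15839847201) (nat_lit 13) (nat_lit 4) (nat_lit 14) (nat_lit 5) (nat_lit 14) (nat_lit 4) (nat_lit 546) (nat_lit 336) (nat_lit 318)) (XT.lf (nat_lit 0) (nat_lit 32892475905) (nat_lit 76) (nat_lit 8054158169) (nat_lit 76) (nat_lit 6693227533) (nat_lit 13) (nat_lit 4) (nat_lit 14) (nat_lit 5) (nat_lit 14) (nat_lit 4) (nat_lit 547) (nat_lit 336) (nat_lit 317)))))) (XT.nd (nat_lit 60762) (nat_lit 0) (nat_lit 1064) (XT.nd (nat_lit 312) (nat_lit 152) (nat_lit 0) (XT.nd (nat_lit 156) (nat_lit 76) (nat_lit 0) (XT.nd (nat_lit 78) (nat_lit 0) (nat_lit 0) (XT.lf (nat_lit 0) (nat_lit 2573863558) (nat_lit 152) (nat_lit 45012892049) (nat_lit 0) (nat_lit 1201498128) (nat_lit 11) (nat_lit 5) (nat_lit 13) (nat_lit 4) (nat_lit 11) (nat_lit 4) (nat_lit 548) (nat_lit 336) (nat_lit 316)) (XT.lf (nat_lit 0) (nat_lit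 12065753852) (nat_lit 152) (nat_lit 27257114188) (nat_lit 0) (nat_lit 10643802451) (nat_lit 11) (nat_lit 5) (nat_lit 13) (nat_lit 4) (nat_lit 11) (nat_lit 4) (nat_lit 549) (nat_lit 336) (nat_lit 315))) (XT.nd (nat_lit 78) (nat_lit 76) (nat_lit 0) (XT.lf (nat_lit 0) (nat_lit 21697910996) (nat_lit 152) (nat_lit 9259045930) (nat_lit 0) (nat_lit 20227817875) (nat_lit 11) (nat_lit 5) (nat_lit 13) (nat_lit 4) (nat_lit 11) (nat_lit 4) (nat_lit 550) (nat_lit 336) (nat_lit 314)) (XT.lf (nat_lit 0) (nat_lit 9176097912) (nat_lit 76) (nat_lit 22390859790) (nat_lit 76) (nat_lit 20874027135) (nat_lit 10) (nat_lit 4) (nat_lit 11) (nat_lit 5) (nat_lit 11) (nat_lit 4) (nat_lit 551) (nat_lit 336) (nat_lit 313)))) (XT.nd (nat_lit 156) (nat_lit 152) (nat_lit 0) (XT.nd (nat_lit 78) (nat_lit 0) (nat_lit 0) (XT.lf (nat_lit 0) (nat_lit 28074936225) (nat_lit 76) (nat_lit 13611758776) (nat_lit 76) (nat_lit 12049547933) (nat_lit 10) (nat_lit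 4) (nat_lit 11) (nat_lit 5) (nat_lit 11) (nat_lit 4) (nat_lit 552) (nat_lit 336) (nat_lit 312)) (XT.lf (nat_lit 0) (nat_lit 47269709384) (nat_lit 76) (nat_lit 4705481034) (nat_lit 76) (nat_lit 3099213698) (nat_lit 10) (nat_lit 4) (nat_lit 11) (nat_lit 5) (nat_lit 11) (nat_lit 4) (nat_lit 553) (nat_lit 336) (nat_lit 311))) (XT.nd (nat_lit 78) (nat_lit 0) (nat_lit 0) (XT.lf (nat_lit 0) (nat_lit 6011872936) (nat_lit 152) (nat_lit 46027860367) (nat_lit 0) (nat_lit 4410862615) (nat_lit 8) (nat_lit 5) (nat_lit 10) (nat_lit 4) (nat_lit 8) (nat_lit 4) (nat_lit 554) (nat_lit 336) (nat_lit 310)) (XT.lf (nat_lit 0) (nat_lit 15328028535) (nat_lit 152) (nat_lit 28852603570) (nat_lit 0) (nat_lit 13686700282) (nat_lit 8) (nat_lit 5) (nat_lit 10) (nat_lit 4) (nat_lit 8) (nat_lit 4) (nat_lit 555) (nat_lit 336) (nat_lit 309))))) (XT.nd (nat_lit 312) (nat_lit 304) (nat_lit 0) (XT.nd (nat_lit 156) (nat_lit 152) (nat_lit 0) (XT.nd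 (nat_lit 78) (nat_lit 76) (nat_lit 0) (XT.lf (nat_lit 0) (nat_lit 5952752106) (nat_lit 152) (nat_lit 3169845327) (nat_lit 0) (nat_lit 5952752106) (nat_lit 29) (nat_lit 5) (nat_lit 31) (nat_lit 4) (nat_lit 29) (nat_lit 4) (nat_lit 526) (nat_lit 337) (nat_lit 337)) (XT.lf (nat_lit 0) (nat_lit 13291865283) (nat_lit 76) (nat_lit 8787773153) (nat_lit 76) (nat_lit 8677628380) (nat_lit 28) (nat_lit 4) (nat_lit 29) (nat_lit 5) (nat_lit 29) (nat_lit 4) (nat_lit 527) (nat_lit 337) (nat_lit 336))) (XT.nd (nat_lit 78) (nat_lit 0) (nat_lit 0) (XT.lf (nat_lit 0) (nat_lit 1050094965) (nat_lit 152) (nat_lit 29495378792) (nat_lit 0) (nat_lit 839336279) (nat_lit 26) (nat_lit 5) (nat_lit 28) (nat_lit 4) (nat_lit 26) (nat_lit 4) (nat_lit 528) (nat_lit 337) (nat_lit 335)) (XT.lf (nat_lit 0) (nat_lit 10965453589) (nat_lit 152) (nat_lit 10407145899) (nat_lit 0) (nat_lit 10653896833) (nat_lit 26) (nat_lit 5) (nat_lit 28) (nat_lit 4) (nat_lit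 26) (nat_lit 4) (nat_lit 529) (nat_lit 337) (nat_lit 334)))) (XT.nd (nat_lit 156) (nat_lit 228) (nat_lit 0) (XT.nd (nat_lit 78) (nat_lit 0) (nat_lit 0) (XT.lf (nat_lit 0) (nat_lit 9052201263) (nat_lit 76) (nat_lit 12023858996) (nat_lit 76) (nat_lit 11614440036) (nat_lit 25) (nat_lit 4) (nat_lit 26) (nat_lit 5) (nat_lit 26) (nat_lit 4) (nat_lit 530) (nat_lit 337) (nat_lit 333)) (XT.lf (nat_lit 0) (nat_lit 28934198946) (nat_lit 76) (nat_lit 2473561840) (nat_lit 76) (nat_lit 1969131031) (nat_lit 25) (nat_lit 4) (nat_lit 26) (nat_lit 5) (nat_lit 26) (nat_lit 4) (nat_lit 531) (nat_lit 337) (nat_lit 332))) (XT.nd (nat_lit 78) (nat_lit 76) (nat_lit 0) (XT.lf (nat_lit 0) (nat_lit 7843589252) (nat_lit 152) (nat_lit 18972691930) (nat_lit 0) (nat_lit 7264292823) (nat_lit 23) (nat_lit 5) (nat_lit 25) (nat_lit 4) (nat_lit 23) (nat_lit 4) (nat_lit 532) (nat_lit 337) (nat_lit 331)) (XT.lf (nat_lit 0) (nat_lit 122664366) (nat_lit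 76) (nat_lit 17675870566) (nat_lit 76) (nat_lit 17009624835) (nat_lit 22) (nat_lit 4) (nat_lit 23) (nat_lit 5) (nat_lit 23) (nat_lit 4) (nat_lit 533) (nat_lit 337) (nat_lit 330))))))) (XT.nd (nat_lit 1248) (nat_lit 228) (nat_lit 0) (XT.nd (nat_lit 624) (nat_lit 380) (nat_lit 0) (XT.nd (nat_lit 312) (nat_lit 228) (nat_lit 0) (XT.nd (nat_lit 156) (nat_lit 76) (nat_lit 0) (XT.nd (nat_lit 78) (nat_lit 152) (nat_lit 0) (XT.lf (nat_lit 0) (nat_lit 19816081784) (nat_lit 76) (nat_lit 8245929006) (nat_lit 76) (nat_lit 7495266478) (nat_lit 22) (nat_lit 4) (nat_lit 23) (nat_lit 5) (nat_lit 23) (nat_lit 4) (nat_lit 534) (nat_lit 337) (nat_lit 329)) (XT.lf (nat_lit 0) (nat_lit 2127587409) (nat_lit 152) (nat_lit 32885357955) (nat_lit 0) (nat_lit 1319217910) (nat_lit 20) (nat_lit 5) (nat_lit 22) (nat_lit 4) (nat_lit 20) (nat_lit 4) (nat_lit 535) (nat_lit 337) (nat_lit 328))) (XT.nd (nat_lit 78) (nat_lit 76) (nat_lit 0) (XT.lf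 (nat_lit 0) (nat_lit 11952585875) (nat_lit 152) (nat_lit 14106597997) (nat_lit 0) (nat_lit 11066963049) (nat_lit 20) (nat_lit 5) (nat_lit 22) (nat_lit 4) (nat_lit 20) (nat_lit 4) (nat_lit 536) (nat_lit 337) (nat_lit 327)) (XT.lf (nat_lit 0) (nat_lit 4986450921) (nat_lit 76) (nat_lit 16960937076) (nat_lit 76) (nat_lit 16000311019) (nat_lit 19) (nat_lit 4) (nat_lit 20) (nat_lit 5) (nat_lit 20) (nat_lit 4) (nat_lit 537) (nat_lit 337) (nat_lit 326)))) (XT.nd (nat_lit 156) (nat_lit 76) (nat_lit 0) (XT.nd (nat_lit 78) (nat_lit 152) (nat_lit 0) (XT.lf (nat_lit 0) (nat_lit 24598481138) (nat_lit 76) (nat_lit 7614861277) (nat_lit 76) (nat_lit 6581416549) (nat_lit 19) (nat_lit 4) (nat_lit 20) (nat_lit 5) (nat_lit 20) (nat_lit 4) (nat_lit 538) (nat_lit 337) (nat_lit 325)) (XT.lf (nat_lit 0) (nat_lit 2956554753) (nat_lit 152) (nat_lit 34828283132) (nat_lit 0) (nat_lit 1884571776) (nat_lit 17) (nat_lit 5) (nat_lit 19) (nat_lit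 4) (nat_lit 17) (nat_lit 4) (nat_lit 539) (nat_lit 337) (nat_lit 324))) (XT.nd (nat_lit 78) (nat_lit 76) (nat_lit 0) (XT.lf (nat_lit 0) (nat_lit 12700833709) (nat_lit 152) (nat_lit 16303726997) (nat_lit 0) (nat_lit 11562211333) (nat_lit 17) (nat_lit 5) (nat_lit 19) (nat_lit 4) (nat_lit 17) (nat_lit 4) (nat_lit 540) (nat_lit 337) (nat_lit 323)) (XT.lf (nat_lit 0) (nat_lit 2498709113) (nat_lit 76) (nat_lit 20099915976) (nat_lit 76) (nat_lit 18896595154) (nat_lit 16) (nat_lit 4) (nat_lit 17) (nat_lit 5) (nat_lit 17) (nat_lit 4) (nat_lit 541) (nat_lit 337) (nat_lit 322))))) (XT.nd (nat_lit 312) (nat_lit 228) (nat_lit 0) (XT.nd (nat_lit 156) (nat_lit 152) (nat_lit 0) (XT.nd (nat_lit 78) (nat_lit 0) (nat_lit 0) (XT.lf (nat_lit 0) (nat_lit 21876015316) (nat_lit 76) (nat_lit 10920769425) (nat_lit 76) (nat_lit 9654634578) (nat_lit 16) (nat_lit 4) (nat_lit 17) (nat_lit 5) (nat_lit 17) (nat_lit 4) (nat_lit 542) (nat_lit 337)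 (nat_lit 321)) (XT.lf (nat_lit 0) (nat_lit 41520647103) (nat_lit 76) (nat_lit 1623736114) (nat_lit 76) (nat_lit 296616777) (nat_lit 16) (nat_lit 4) (nat_lit 17) (nat_lit 5) (nat_lit 17) (nat_lit 4) (nat_lit 543) (nat_lit 337) (nat_lit 320))) (XT.nd (nat_lit 78) (nat_lit 0) (nat_lit 0) (XT.lf (nat_lit 0) (nat_lit 9249529794) (nat_lit 152) (nat_lit 27301773347) (nat_lit 0) (nat_lit 7903580687) (nat_lit 14) (nat_lit 5) (nat_lit 16) (nat_lit 4) (nat_lit 14) (nat_lit 4) (nat_lit 544) (nat_lit 337) (nat_lit 319)) (XT.lf (nat_lit 0) (nat_lit 18958375368) (nat_lit 152) (nat_lit 8987636014) (nat_lit 0) (nat_lit 17556616813) (nat_lit 14) (nat_lit 5) (nat_lit 16) (nat_lit 4) (nat_lit 14) (nat_lit 4) (nat_lit 545) (nat_lit 337) (nat_lit 318)))) (XT.nd (nat_lit 156) (nat_lit 152) (nat_lit 0) (XT.nd (nat_lit 78) (nat_lit 0) (nat_lit 0) (XT.lf (nat_lit 0) (nat_lit 9767523738) (nat_lit 76) (nat_lit 19135937397) (nat_lit 76) (nat_lit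 17679994912) (nat_lit 13) (nat_lit 4) (nat_lit 14) (nat_lit 5) (nat_lit 14) (nat_lit 4) (nat_lit 546) (nat_lit 337) (nat_lit 317)) (XT.lf (nat_lit 0) (nat_lit 28973506126) (nat_lit 76) (nat_lit 10116725634) (nat_lit 76) (nat_lit 8608177392) (nat_lit 13) (nat_lit 4) (nat_lit 14) (nat_lit 5) (nat_lit 14) (nat_lit 4) (nat_lit 547) (nat_lit 337) (nat_lit 316))) (XT.nd (nat_lit 78) (nat_lit 76) (nat_lit 0) (XT.lf (nat_lit 0) (nat_lit 576887862) (nat_lit 152) (nat_lit 388539430) (nat_lit 76) (nat_lit 47885508199) (nat_lit 12) (nat_lit 5) (nat_lit 14) (nat_lit 5) (nat_lit 13) (nat_lit 4) (nat_lit 548) (nat_lit 337) (nat_lit 315)) (XT.lf (nat_lit 0) (nat_lit 9984473683) (nat_lit 152) (nat_lit 31625271825) (nat_lit 0) (nat_lit 8422136049) (nat_lit 11) (nat_lit 5) (nat_lit 13) (nat_lit 4) (nat_lit 11) (nat_lit 4) (nat_lit 549) (nat_lit 337) (nat_lit 314)))))) (XT.nd (nat_lit 60606) (nat_lit 0) (nat_lit 1140) (XT.nd (nat_lit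 312) (nat_lit 152) (nat_lit 0) (XT.nd (nat_lit 156) (nat_lit 0) (nat_lit 0) (XT.nd (nat_lit 78) (nat_lit 76) (nat_lit 0) (XT.lf (nat_lit 0) (nat_lit 19547526680) (nat_lit 152) (nat_lit 13766082968) (nat_lit 0) (nat_lit 17938449512) (nat_lit 11) (nat_lit 5) (nat_lit 13) (nat_lit 4) (nat_lit 11) (nat_lit 4) (nat_lit 550) (nat_lit 337) (nat_lit 313)) (XT.lf (nat_lit 0) (nat_lit 4441844163) (nat_lit 76) (nat_lit 24862129276) (nat_lit 76) (nat_lit 23207673920) (nat_lit 10) (nat_lit 4) (nat_lit 11) (nat_lit 5) (nat_lit 11) (nat_lit 4) (nat_lit 551) (nat_lit 337) (nat_lit 312))) (XT.nd (nat_lit 78) (nat_lit 0) (nat_lit 0) (XT.lf (nat_lit 0) (nat_lit 23207170011) (nat_lit 76) (nat_lit 16150120037) (nat_lit 76) (nat_lit 14451608187) (nat_lit 10) (nat_lit 4) (nat_lit 11) (nat_lit 5) (nat_lit 11) (nat_lit 4) (nat_lit 552) (nat_lit 337) (nat_lit 311)) (XT.lf (nat_lit 0) (nat_lit 42272319419) (nat_lit 76) (nat_lit 7308979940)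 (nat_lit 76) (nat_lit 5567694796) (nat_lit 10) (nat_lit 4) (nat_lit 11) (nat_lit 5) (nat_lit 11) (nat_lit 4) (nat_lit 553) (nat_lit 337) (nat_lit 310)))) (XT.nd (nat_lit 60138) (nat_lit 0) (nat_lit 1596) (XT.nd (nat_lit 78) (nat_lit 0) (nat_lit 0) (XT.lf (nat_lit 0) (nat_lit 3451216323) (nat_lit 152) (nat_lit 51358561681) (nat_lit 0) (nat_lit 1720330290) (nat_lit 8) (nat_lit 5) (nat_lit 10) (nat_lit 4) (nat_lit 8) (nat_lit 4) (nat_lit 554) (nat_lit 337) (nat_lit 309)) (XT.lf (nat_lit 0) (nat_lit 12704167628) (nat_lit 152) (nat_lit 34310435436) (nat_lit 0) (nat_lit 10934137970) (nat_lit 8) (nat_lit 5) (nat_lit 10) (nat_lit 4) (nat_lit 8) (nat_lit 4) (nat_lit 555) (nat_lit 337) (nat_lit 308))) (XT.nd (nat_lit 78) (nat_lit 152) (nat_lit 0) (XT.lf (nat_lit 0) (nat_lit 6895317638) (nat_lit 76) (nat_lit 3799316969) (nat_lit 76) (nat_lit 3799316969) (nat_lit 31) (nat_lit 4) (nat_lit 32) (nat_lit 5) (nat_lit 32) (nat_lit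 4) (nat_lit 524) (nat_lit 338) (nat_lit 338)) (XT.lf (nat_lit 0) (nat_lit 2075791567) (nat_lit 152) (nat_lit 25525625978) (nat_lit 0) (nat_lit 1962342451) (nat_lit 29) (nat_lit 5) (nat_lit 31) (nat_lit 4) (nat_lit 29) (nat_lit 4) (nat_lit 525) (nat_lit 338) (nat_lit 337))))) (XT.nd (nat_lit 312) (nat_lit 228) (nat_lit 0) (XT.nd (nat_lit 156) (nat_lit 152) (nat_lit 0) (XT.nd (nat_lit 78) (nat_lit 76) (nat_lit 0) (XT.lf (nat_lit 0) (nat_lit 11922848929) (nat_lit 152) (nat_lit 6531478640) (nat_lit 0) (nat_lit 11699255040) (nat_lit 29) (nat_lit 5) (nat_lit 31) (nat_lit 4) (nat_lit 29) (nat_lit 4) (nat_lit 526) (nat_lit 338) (nat_lit 336)) (XT.lf (nat_lit 0) (nat_lit 12906352630) (nat_lit 76) (nat_lit 9093619499) (nat_lit 76) (nat_lit 8763088936) (nat_lit 28) (nat_lit 4) (nat_lit 29) (nat_lit 5) (nat_lit 29) (nat_lit 4) (nat_lit 527) (nat_lit 338) (nat_lit 335))) (XT.nd (nat_lit 78) (nat_lit 0) (nat_lit 0) (XT.lf (nat_lit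 0) (nat_lit 863475503) (nat_lit 152) (nat_lit 30088464614) (nat_lit 0) (nat_lit 441773974) (nat_lit 26) (nat_lit 5) (nat_lit 28) (nat_lit 4) (nat_lit 26) (nat_lit 4) (nat_lit 528) (nat_lit 338) (nat_lit 334)) (XT.lf (nat_lit 0) (nat_lit 10685618359) (nat_lit 152) (nat_lit 11186524218) (nat_lit 0) (nat_lit 10166054626) (nat_lit 26) (nat_lit 5) (nat_lit 28) (nat_lit 4) (nat_lit 26) (nat_lit 4) (nat_lit 529) (nat_lit 338) (nat_lit 333)))) (XT.nd (nat_lit 156) (nat_lit 152) (nat_lit 0) (XT.nd (nat_lit 78) (nat_lit 0) (nat_lit 0) (XT.lf (nat_lit 0) (nat_lit 8072845687) (nat_lit 76) (nat_lit 12623464432) (nat_lit 76) (nat_lit 12008888850) (nat_lit 25) (nat_lit 4) (nat_lit 26) (nat_lit 5) (nat_lit 26) (nat_lit 4) (nat_lit 530) (nat_lit 338) (nat_lit 332)) (XT.lf (nat_lit 0) (nat_lit 27775750070) (nat_lit 76) (nat_lit 3162674221) (nat_lit 76) (nat_lit 2455854126) (nat_lit 25) (nat_lit 4) (nat_lit 26) (nat_lit 5) (nat_lit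 26) (nat_lit 4) (nat_lit 531) (nat_lit 338) (nat_lit 331))) (XT.nd (nat_lit 78) (nat_lit 0) (nat_lit 0) (XT.lf (nat_lit 0) (nat_lit 7257676525) (nat_lit 152) (nat_lit 20359191255) (nat_lit 0) (nat_lit 6484494121) (nat_lit 23) (nat_lit 5) (nat_lit 25) (nat_lit 4) (nat_lit 23) (nat_lit 4) (nat_lit 532) (nat_lit 338) (nat_lit 330)) (XT.lf (nat_lit 0) (nat_lit 17123655459) (nat_lit 152) (nat_lit 1441905252) (nat_lit 0) (nat_lit 16266056258) (nat_lit 23) (nat_lit 5) (nat_lit 25) (nat_lit 4) (nat_lit 23) (nat_lit 4) (nat_lit 533) (nat_lit 338) (nat_lit 329))))))))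
noncomputable def xc4 : XT := (XT.nd (nat_lit 62244) (nat_lit 0) (nat_lit 0) (XT.nd (nat_lit 1170) (nat_lit 380) (nat_lit 0) (XT.nd (nat_lit 546) (nat_lit 304) (nat_lit 0) (XT.nd (nat_lit 234) (nat_lit 228) (nat_lit 0) (XT.nd (nat_lit 78) (nat_lit 152) (nat_lit 0) (XT.lf (nat_lit 0) (nat_lit 18048861071) (nat_lit 76) (nat_lit 9237231064) (nat_lit 76) (nat_lit 8297673808) (nat_lit 22) (nat_lit 4) (nat_lit 23) (nat_lit 5) (nat_lit 23) (nat_lit 4) (nat_lit 534) (nat_lit 338) (nat_lit 328)) (XT.nd (nat_lit 78) (nat_lit 0) (nat_lit 0) (XT.lf (nat_lit 0) (nat_lit 1225832446) (nat_lit 152) (nat_lit 34900113736) (nat_lit 0) (nat_lit 236387608) (nat_lit 20) (nat_lit 5) (nat_lit 22) (nat_lit 4) (nat_lit 20) (nat_lit 4) (nat_lit 535) (nat_lit 338) (nat_lit 327)) (XT.lf (nat_lit 0) (nat_lit 10965668788) (nat_lit 152) (nat_lit 16291983067) (nat_lit 0) (nat_lit 9901220718) (nat_lit 20) (nat_lit 5) (nat_lit 22) (nat_lit 4) (nat_lit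 20) (nat_lit 4) (nat_lit 536) (nat_lit 338) (nat_lit 326)))) (XT.nd (nat_lit 156) (nat_lit 152) (nat_lit 0) (XT.nd (nat_lit 78) (nat_lit 0) (nat_lit 0) (XT.lf (nat_lit 0) (nat_lit 2588615951) (nat_lit 76) (nat_lit 18266123828) (nat_lit 76) (nat_lit 17128857088) (nat_lit 19) (nat_lit 4) (nat_lit 20) (nat_lit 5) (nat_lit 20) (nat_lit 4) (nat_lit 537) (nat_lit 338) (nat_lit 325)) (XT.lf (nat_lit 0) (nat_lit 22036610776) (nat_lit 76) (nat_lit 9002233140) (nat_lit 76) (nat_lit 7794268662) (nat_lit 19) (nat_lit 4) (nat_lit 20) (nat_lit 5) (nat_lit 20) (nat_lit 4) (nat_lit 538) (nat_lit 338) (nat_lit 324))) (XT.nd (nat_lit 78) (nat_lit 0) (nat_lit 0) (XT.lf (nat_lit 0) (nat_lit 1645667947) (nat_lit 152) (nat_lit 37659848883) (nat_lit 0) (nat_lit 406247501) (nat_lit 17) (nat_lit 5) (nat_lit 19) (nat_lit 4) (nat_lit 17) (nat_lit 4) (nat_lit 539) (nat_lit 338) (nat_lit 323)) (XT.lf (nat_lit 0) (nat_lit 11309732586) (nat_lit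 152) (nat_lit 19296187094) (nat_lit 0) (nat_lit 10005613693) (nat_lit 17) (nat_lit 5) (nat_lit 19) (nat_lit 4) (nat_lit 17) (nat_lit 4) (nat_lit 540) (nat_lit 338) (nat_lit 322))))) (XT.nd (nat_lit 312) (nat_lit 76) (nat_lit 0) (XT.nd (nat_lit 156) (nat_lit 152) (nat_lit 0) (XT.nd (nat_lit 78) (nat_lit 76) (nat_lit 0) (XT.lf (nat_lit 0) (nat_lit 21105626866) (nat_lit 152) (nat_lit 698717902) (nat_lit 0) (nat_lit 19738693949) (nat_lit 17) (nat_lit 5) (nat_lit 19) (nat_lit 4) (nat_lit 17) (nat_lit 4) (nat_lit 541) (nat_lit 338) (nat_lit 321)) (XT.lf (nat_lit 0) (nat_lit 18510005792) (nat_lit 76) (nat_lit 12709834015) (nat_lit 76) (nat_lit 11281916608) (nat_lit 16) (nat_lit 4) (nat_lit 17) (nat_lit 5) (nat_lit 17) (nat_lit 4) (nat_lit 542) (nat_lit 338) (nat_lit 320))) (XT.nd (nat_lit 78) (nat_lit 152) (nat_lit 0) (XT.lf (nat_lit 0) (nat_lit 38004466073) (nat_lit 76) (nat_lit 3488121207) (nat_lit 76) (nat_lit 2000995556)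 (nat_lit 16) (nat_lit 4) (nat_lit 17) (nat_lit 5) (nat_lit 17) (nat_lit 4) (nat_lit 543) (nat_lit 338) (nat_lit 319)) (XT.lf (nat_lit 0) (nat_lit 7449595016) (nat_lit 152) (nat_lit 31112253541) (nat_lit 0) (nat_lit 5949974257) (nat_lit 14) (nat_lit 5) (nat_lit 16) (nat_lit 4) (nat_lit 14) (nat_lit 4) (nat_lit 544) (nat_lit 338) (nat_lit 318)))) (XT.nd (nat_lit 156) (nat_lit 0) (nat_lit 0) (XT.nd (nat_lit 78) (nat_lit 76) (nat_lit 0) (XT.lf (nat_lit 0) (nat_lit 17085082665) (nat_lit 152) (nat_lit 12945407474) (nat_lit 0) (nat_lit 15531277976) (nat_lit 14) (nat_lit 5) (nat_lit 16) (nat_lit 4) (nat_lit 14) (nat_lit 4) (nat_lit 545) (nat_lit 338) (nat_lit 317)) (XT.lf (nat_lit 0) (nat_lit 5585137632) (nat_lit 76) (nat_lit 21333605860) (nat_lit 76) (nat_lit 19727195414) (nat_lit 13) (nat_lit 4) (nat_lit 14) (nat_lit 5) (nat_lit 14) (nat_lit 4) (nat_lit 546) (nat_lit 338) (nat_lit 316))) (XT.nd (nat_lit 78) (nat_lit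 0) (nat_lit 0) (XT.lf (nat_lit 0) (nat_lit 24649520765) (nat_lit 76) (nat_lit 12385485334) (nat_lit 76) (nat_lit 10728001338) (nat_lit 13) (nat_lit 4) (nat_lit 14) (nat_lit 5) (nat_lit 14) (nat_lit 4) (nat_lit 547) (nat_lit 338) (nat_lit 315)) (XT.lf (nat_lit 0) (nat_lit 44006761130) (nat_lit 76) (nat_lit 3309033048) (nat_lit 76) (nat_lit 1601963081) (nat_lit 13) (nat_lit 4) (nat_lit 14) (nat_lit 5) (nat_lit 14) (nat_lit 4) (nat_lit 548) (nat_lit 338) (nat_lit 314)))))) (XT.nd (nat_lit 60450) (nat_lit 0) (nat_lit 1292) (XT.nd (nat_lit 312) (nat_lit 152) (nat_lit 0) (XT.nd (nat_lit 156) (nat_lit 76) (nat_lit 0) (XT.nd (nat_lit 78) (nat_lit 0) (nat_lit 0) (XT.lf (nat_lit 0) (nat_lit 7700473691) (nat_lit 152) (nat_lit 36406399374) (nat_lit 0) (nat_lit 5996384674) (nat_lit 11) (nat_lit 5) (nat_lit 13) (nat_lit 4) (nat_lit 11) (nat_lit 4) (nat_lit 549) (nat_lit 338) (nat_lit 313)) (XT.lf (nat_lit 0) (nat_lit 17196435284)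 (nat_lit 152) (nat_lit 18682044886) (nat_lit 0) (nat_lit 15446968079) (nat_lit 11) (nat_lit 5) (nat_lit 13) (nat_lit 4) (nat_lit 11) (nat_lit 4) (nat_lit 550) (nat_lit 338) (nat_lit 312))) (XT.nd (nat_lit 78) (nat_lit 76) (nat_lit 0) (XT.lf (nat_lit 0) (nat_lit 26845047034) (nat_lit 152) (nat_lit 691701288) (nat_lit 0) (nat_lit 25051523336) (nat_lit 11) (nat_lit 5) (nat_lit 13) (nat_lit 4) (nat_lit 11) (nat_lit 4) (nat_lit 551) (nat_lit 338) (nat_lit 311)) (XT.lf (nat_lit 0) (nat_lit 17930234596) (nat_lit 76) (nat_lit 18896861555) (nat_lit 76) (nat_lit 17060564563) (nat_lit 10) (nat_lit 4) (nat_lit 11) (nat_lit 5) (nat_lit 11) (nat_lit 4) (nat_lit 552) (nat_lit 338) (nat_lit 310)))) (XT.nd (nat_lit 156) (nat_lit 76) (nat_lit 0) (XT.nd (nat_lit 78) (nat_lit 76) (nat_lit 0) (XT.lf (nat_lit 0) (nat_lit 36869535702) (nat_lit 76) (nat_lit 10118961891) (nat_lit 76) (nat_lit 8241137428) (nat_lit 10) (nat_lit 4) (nat_lit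 11) (nat_lit 5) (nat_lit 11) (nat_lit 4) (nat_lit 553) (nat_lit 338) (nat_lit 309)) (XT.lf (nat_lit 0) (nat_lit 701810835) (nat_lit 152) (nat_lit 493466398) (nat_lit 76) (nat_lit 55420086971) (nat_lit 9) (nat_lit 5) (nat_lit 11) (nat_lit 5) (nat_lit 10) (nat_lit 4) (nat_lit 554) (nat_lit 338) (nat_lit 308))) (XT.nd (nat_lit 59904) (nat_lit 0) (nat_lit 1824) (XT.lf (nat_lit 0) (nat_lit 9877023205) (nat_lit 152) (nat_lit 40182560530) (nat_lit 0) (nat_lit 7976745516) (nat_lit 8) (nat_lit 5) (nat_lit 10) (nat_lit 4) (nat_lit 8) (nat_lit 4) (nat_lit 555) (nat_lit 338) (nat_lit 307)) (XT.lf (nat_lit 0) (nat_lit 850549941) (nat_lit 152) (nat_lit 12243046879) (nat_lit 0) (nat_lit 850549941) (nat_lit 32) (nat_lit 5) (nat_lit 34) (nat_lit 4) (nat_lit 32) (nat_lit 4) (nat_lit 522) (nat_lit 339) (nat_lit 339))))) (XT.nd (nat_lit 312) (nat_lit 304) (nat_lit 0) (XT.nd (nat_lit 156) (nat_lit 152) (nat_lit 0) (XT.nd (nat_lit 78)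 (nat_lit 76) (nat_lit 0) (XT.lf (nat_lit 0) (nat_lit 11441084405) (nat_lit 152) (nat_lit 5668699611) (nat_lit 0) (nat_lit 11320726238) (nat_lit 32) (nat_lit 5) (nat_lit 34) (nat_lit 4) (nat_lit 32) (nat_lit 4) (nat_lit 523) (nat_lit 339) (nat_lit 338)) (XT.lf (nat_lit 0) (nat_lit 13600828504) (nat_lit 76) (nat_lit 7813571329) (nat_lit 76) (nat_lit 7576360572) (nat_lit 31) (nat_lit 4) (nat_lit 32) (nat_lit 5) (nat_lit 32) (nat_lit 4) (nat_lit 524) (nat_lit 339) (nat_lit 337))) (XT.nd (nat_lit 78) (nat_lit 0) (nat_lit 0) (XT.lf (nat_lit 0) (nat_lit 1997552228) (nat_lit 152) (nat_lit 25914955588) (nat_lit 0) (nat_lit 1657105749) (nat_lit 29) (nat_lit 5) (nat_lit 31) (nat_lit 4) (nat_lit 29) (nat_lit 4) (nat_lit 525) (nat_lit 339) (nat_lit 336)) (XT.lf (nat_lit 0) (nat_lit 11751304348) (nat_lit 152) (nat_lit 7107010178) (nat_lit 0) (nat_lit 11303921196) (nat_lit 29) (nat_lit 5) (nat_lit 31) (nat_lit 4) (nat_lit 29)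 (nat_lit 4) (nat_lit 526) (nat_lit 339) (nat_lit 335)))) (XT.nd (nat_lit 156) (nat_lit 76) (nat_lit 0) (XT.nd (nat_lit 78) (nat_lit 152) (nat_lit 0) (XT.lf (nat_lit 0) (nat_lit 12134990468) (nat_lit 76) (nat_lit 9595434661) (nat_lit 76) (nat_lit 9044229496) (nat_lit 28) (nat_lit 4) (nat_lit 29) (nat_lit 5) (nat_lit 29) (nat_lit 4) (nat_lit 527) (nat_lit 339) (nat_lit 334)) (XT.lf (nat_lit 0) (nat_lit 329521412) (nat_lit 76) (nat_lit 153988265) (nat_lit 152) (nat_lit 30925008743) (nat_lit 26) (nat_lit 5) (nat_lit 27) (nat_lit 5) (nat_lit 28) (nat_lit 4) (nat_lit 528) (nat_lit 339) (nat_lit 333))) (XT.nd (nat_lit 78) (nat_lit 76) (nat_lit 0) (XT.lf (nat_lit 0) (nat_lit 10213671560) (nat_lit 152) (nat_lit 12356442885) (nat_lit 0) (nat_lit 9485646862) (nat_lit 26) (nat_lit 5) (nat_lit 28) (nat_lit 4) (nat_lit 26) (nat_lit 4) (nat_lit 529) (nat_lit 339) (nat_lit 332)) (XT.lf (nat_lit 0) (nat_lit 6700550044) (nat_lit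 76) (nat_lit 13422757130) (nat_lit 76) (nat_lit 12602487918) (nat_lit 25) (nat_lit 4) (nat_lit 26) (nat_lit 5) (nat_lit 26) (nat_lit 4) (nat_lit 530) (nat_lit 339) (nat_lit 331))))))) (XT.nd (nat_lit 1170) (nat_lit 456) (nat_lit 0) (XT.nd (nat_lit 546) (nat_lit 456) (nat_lit 0) (XT.nd (nat_lit 234) (nat_lit 228) (nat_lit 0) (XT.nd (nat_lit 78) (nat_lit 152) (nat_lit 0) (XT.lf (nat_lit 0) (nat_lit 26229577435) (nat_lit 76) (nat_lit 4048866865) (nat_lit 76) (nat_lit 3139039873) (nat_lit 25) (nat_lit 4) (nat_lit 26) (nat_lit 5) (nat_lit 26) (nat_lit 4) (nat_lit 531) (nat_lit 339) (nat_lit 330)) (XT.nd (nat_lit 78) (nat_lit 0) (nat_lit 0) (XT.lf (nat_lit 0) (nat_lit 6475977545) (nat_lit 152) (nat_lit 22143909202) (nat_lit 0) (nat_lit 5508233572) (nat_lit 23) (nat_lit 5) (nat_lit 25) (nat_lit 4) (nat_lit 23) (nat_lit 4) (nat_lit 532) (nat_lit 339) (nat_lit 329)) (XT.lf (nat_lit 0) (nat_lit 16256725780) (nat_lit 152)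 (nat_lit 3397183074) (nat_lit 0) (nat_lit 15207023751) (nat_lit 23) (nat_lit 5) (nat_lit 25) (nat_lit 4) (nat_lit 23) (nat_lit 4) (nat_lit 533) (nat_lit 339) (nat_lit 328)))) (XT.nd (nat_lit 156) (nat_lit 76) (nat_lit 0) (XT.nd (nat_lit 78) (nat_lit 76) (nat_lit 0) (XT.lf (nat_lit 0) (nat_lit 15885781668) (nat_lit 76) (nat_lit 10429839695) (nat_lit 76) (nat_lit 9300566738) (nat_lit 22) (nat_lit 4) (nat_lit 23) (nat_lit 5) (nat_lit 23) (nat_lit 4) (nat_lit 534) (nat_lit 339) (nat_lit 327)) (XT.lf (nat_lit 0) (nat_lit 143387762) (nat_lit 152) (nat_lit 915449126) (nat_lit 76) (nat_lit 35339182199) (nat_lit 21) (nat_lit 5) (nat_lit 23) (nat_lit 5) (nat_lit 22) (nat_lit 4) (nat_lit 535) (nat_lit 339) (nat_lit 326))) (XT.nd (nat_lit 78) (nat_lit 0) (nat_lit 0) (XT.lf (nat_lit 0) (nat_lit 9781300388) (nat_lit 152) (nat_lit 18879218481) (nat_lit 0) (nat_lit 8537096975) (nat_lit 20) (nat_lit 5) (nat_lit 22) (nat_lit 4)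 (nat_lit 20) (nat_lit 4) (nat_lit 536) (nat_lit 339) (nat_lit 325)) (XT.lf (nat_lit 0) (nat_lit 19565214548) (nat_lit 152) (nat_lit 209967154) (nat_lit 0) (nat_lit 18250313396) (nat_lit 20) (nat_lit 5) (nat_lit 22) (nat_lit 4) (nat_lit 20) (nat_lit 4) (nat_lit 537) (nat_lit 339) (nat_lit 324))))) (XT.nd (nat_lit 312) (nat_lit 228) (nat_lit 0) (XT.nd (nat_lit 156) (nat_lit 76) (nat_lit 0) (XT.nd (nat_lit 78) (nat_lit 76) (nat_lit 0) (XT.lf (nat_lit 0) (nat_lit 19074591252) (nat_lit 76) (nat_lit 10593202642) (nat_lit 76) (nat_lit 9209662909) (nat_lit 19) (nat_lit 4) (nat_lit 20) (nat_lit 5) (nat_lit 20) (nat_lit 4) (nat_lit 538) (nat_lit 339) (nat_lit 323)) (XT.lf (nat_lit 0) (nat_lit 156230767) (nat_lit 152) (nat_lit 1133030674) (nat_lit 76) (nat_lit 38470305390) (nat_lit 18) (nat_lit 5) (nat_lit 20) (nat_lit 5) (nat_lit 19) (nat_lit 4) (nat_lit 539) (nat_lit 339) (nat_lit 322))) (XT.nd (nat_lit 78) (nat_lit 0)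 (nat_lit 0) (XT.lf (nat_lit 0) (nat_lit 9718806131) (nat_lit 152) (nat_lit 22695523445) (nat_lit 0) (nat_lit 8248051202) (nat_lit 17) (nat_lit 5) (nat_lit 19) (nat_lit 4) (nat_lit 17) (nat_lit 4) (nat_lit 540) (nat_lit 339) (nat_lit 321)) (XT.lf (nat_lit 0) (nat_lit 19439090724) (nat_lit 152) (nat_lit 4249712605) (nat_lit 0) (nat_lit 17907351304) (nat_lit 17) (nat_lit 5) (nat_lit 19) (nat_lit 4) (nat_lit 17) (nat_lit 4) (nat_lit 541) (nat_lit 339) (nat_lit 320)))) (XT.nd (nat_lit 156) (nat_lit 152) (nat_lit 0) (XT.nd (nat_lit 78) (nat_lit 0) (nat_lit 0) (XT.lf (nat_lit 0) (nat_lit 14738167825) (nat_lit 76) (nat_lit 14705471162) (nat_lit 76) (nat_lit 13114523499) (nat_lit 16) (nat_lit 4) (nat_lit 17) (nat_lit 5) (nat_lit 17) (nat_lit 4) (nat_lit 542) (nat_lit 339) (nat_lit 319)) (XT.lf (nat_lit 0) (nat_lit 34086830526) (nat_lit 76) (nat_lit 5556885054) (nat_lit 76) (nat_lit 3908453660) (nat_lit 16) (nat_lit 4) (nat_lit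 17) (nat_lit 5) (nat_lit 17) (nat_lit 4) (nat_lit 543) (nat_lit 339) (nat_lit 318))) (XT.nd (nat_lit 78) (nat_lit 0) (nat_lit 0) (XT.lf (nat_lit 0) (nat_lit 5446745608) (nat_lit 152) (nat_lit 35336049411) (nat_lit 0) (nat_lit 3792142849) (nat_lit 14) (nat_lit 5) (nat_lit 16) (nat_lit 4) (nat_lit 14) (nat_lit 4) (nat_lit 544) (nat_lit 339) (nat_lit 317)) (XT.lf (nat_lit 0) (nat_lit 15011011970) (nat_lit 152) (nat_lit 17312204572) (nat_lit 0) (nat_lit 13303803454) (nat_lit 14) (nat_lit 5) (nat_lit 16) (nat_lit 4) (nat_lit 14) (nat_lit 4) (nat_lit 545) (nat_lit 339) (nat_lit 316)))))) (XT.nd (nat_lit 624) (nat_lit 152) (nat_lit 0) (XT.nd (nat_lit 312) (nat_lit 76) (nat_lit 0) (XT.nd (nat_lit 156) (nat_lit 152) (nat_lit 0) (XT.nd (nat_lit 78) (nat_lit 0) (nat_lit 0) (XT.lf (nat_lit 0) (nat_lit 989833454) (nat_lit 76) (nat_lit 23741519589) (nat_lit 76) (nat_lit 21983237522) (nat_lit 13) (nat_lit 4) (nat_lit 14) (nat_lit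 5) (nat_lit 14) (nat_lit 4) (nat_lit 546) (nat_lit 339) (nat_lit 315)) (XT.lf (nat_lit 0) (nat_lit 19916741581) (nat_lit 76) (nat_lit 14862419681) (nat_lit 76) (nat_lit 13054551643) (nat_lit 13) (nat_lit 4) (nat_lit 14) (nat_lit 5) (nat_lit 14) (nat_lit 4) (nat_lit 547) (nat_lit 339) (nat_lit 314))) (XT.nd (nat_lit 78) (nat_lit 152) (nat_lit 0) (XT.lf (nat_lit 0) (nat_lit 39140511068) (nat_lit 76) (nat_lit 5852977705) (nat_lit 76) (nat_lit 3996967948) (nat_lit 13) (nat_lit 4) (nat_lit 14) (nat_lit 5) (nat_lit 14) (nat_lit 4) (nat_lit 548) (nat_lit 339) (nat_lit 313)) (XT.lf (nat_lit 0) (nat_lit 5211758149) (nat_lit 152) (nat_lit 41604674520) (nat_lit 0) (nat_lit 3364428739) (nat_lit 11) (nat_lit 5) (nat_lit 13) (nat_lit 4) (nat_lit 11) (nat_lit 4) (nat_lit 549) (nat_lit 339) (nat_lit 312)))) (XT.nd (nat_lit 156) (nat_lit 76) (nat_lit 0) (XT.nd (nat_lit 78) (nat_lit 0) (nat_lit 0) (XT.lf (nat_lit 0) (nat_lit 14642582456)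 (nat_lit 152) (nat_lit 24011227187) (nat_lit 0) (nat_lit 12751196553) (nat_lit 11) (nat_lit 5) (nat_lit 13) (nat_lit 4) (nat_lit 11) (nat_lit 4) (nat_lit 550) (nat_lit 339) (nat_lit 311)) (XT.lf (nat_lit 0) (nat_lit 24227954123) (nat_lit 152) (nat_lit 6147977914) (nat_lit 0) (nat_lit 22293794925) (nat_lit 11) (nat_lit 5) (nat_lit 13) (nat_lit 4) (nat_lit 11) (nat_lit 4) (nat_lit 551) (nat_lit 339) (nat_lit 310))) (XT.nd (nat_lit 78) (nat_lit 0) (nat_lit 0) (XT.lf (nat_lit 0) (nat_lit 12239519064) (nat_lit 76) (nat_lit 21854383398) (nat_lit 76) (nat_lit 19878696730) (nat_lit 10) (nat_lit 4) (nat_lit 11) (nat_lit 5) (nat_lit 11) (nat_lit 4) (nat_lit 552) (nat_lit 339) (nat_lit 309)) (XT.lf (nat_lit 0) (nat_lit 31056637352) (nat_lit 76) (nat_lit 13137882211) (nat_lit 76) (nat_lit 11121877611) (nat_lit 10) (nat_lit 4) (nat_lit 11) (nat_lit 5) (nat_lit 11) (nat_lit 4) (nat_lit 553) (nat_lit 339) (nat_lit 308))))) (XT.nd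 (nat_lit 59982) (nat_lit 0) (nat_lit 1596) (XT.nd (nat_lit 59826) (nat_lit 0) (nat_lit 1976) (XT.nd (nat_lit 78) (nat_lit 152) (nat_lit 0) (XT.lf (nat_lit 0) (nat_lit 50197462276) (nat_lit 76) (nat_lit 4280894640) (nat_lit 76) (nat_lit 2225746417) (nat_lit 10) (nat_lit 4) (nat_lit 11) (nat_lit 5) (nat_lit 11) (nat_lit 4) (nat_lit 554) (nat_lit 339) (nat_lit 307)) (XT.lf (nat_lit 0) (nat_lit 6844124946) (nat_lit 152) (nat_lit 46474109834) (nat_lit 0) (nat_lit 4811938789) (nat_lit 8) (nat_lit 5) (nat_lit 10) (nat_lit 4) (nat_lit 8) (nat_lit 4) (nat_lit 555) (nat_lit 339) (nat_lit 306))) (XT.nd (nat_lit 78) (nat_lit 76) (nat_lit 0) (XT.lf (nat_lit 0) (nat_lit 4901610815) (nat_lit 152) (nat_lit 3618135046) (nat_lit 0) (nat_lit 4901610815) (nat_lit 35) (nat_lit 5) (nat_lit 37) (nat_lit 4) (nat_lit 35) (nat_lit 4) (nat_lit 520) (nat_lit 340) (nat_lit 340)) (XT.lf (nat_lit 0) (nat_lit 11747345999) (nat_lit 76) (nat_lit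 7869380874) (nat_lit 76) (nat_lit 7741692895) (nat_lit 34) (nat_lit 4) (nat_lit 35) (nat_lit 5) (nat_lit 35) (nat_lit 4) (nat_lit 521) (nat_lit 340) (nat_lit 339)))) (XT.nd (nat_lit 156) (nat_lit 228) (nat_lit 0) (XT.nd (nat_lit 78) (nat_lit 0) (nat_lit 0) (XT.lf (nat_lit 0) (nat_lit 1728863693) (nat_lit 152) (nat_lit 24677779808) (nat_lit 0) (nat_lit 1484536613) (nat_lit 32) (nat_lit 5) (nat_lit 34) (nat_lit 4) (nat_lit 32) (nat_lit 4) (nat_lit 522) (nat_lit 340) (nat_lit 338)) (XT.lf (nat_lit 0) (nat_lit 11375445203) (nat_lit 152) (nat_lit 6046488620) (nat_lit 0) (nat_lit 11014265534) (nat_lit 32) (nat_lit 5) (nat_lit 34) (nat_lit 4) (nat_lit 32) (nat_lit 4) (nat_lit 523) (nat_lit 340) (nat_lit 337))) (XT.nd (nat_lit 78) (nat_lit 152) (nat_lit 0) (XT.lf (nat_lit 0) (nat_lit 13031242332) (nat_lit 76) (nat_lit 8221360552) (nat_lit 76) (nat_lit 7746731766) (nat_lit 31) (nat_lit 4) (nat_lit 32) (nat_lit 5) (nat_lit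 32) (nat_lit 4) (nat_lit 524) (nat_lit 340) (nat_lit 336)) (XT.lf (nat_lit 0) (nat_lit 1727556068) (nat_lit 152) (nat_lit 26693954999) (nat_lit 0) (nat_lit 1159814748) (nat_lit 29) (nat_lit 5) (nat_lit 31) (nat_lit 4) (nat_lit 29) (nat_lit 4) (nat_lit 525) (nat_lit 340) (nat_lit 335))))))))
noncomputable def xc5 : XT := (XT.nd (nat_lit 61932) (nat_lit 0) (nat_lit 228) (XT.nd (nat_lit 1170) (nat_lit 684) (nat_lit 0) (XT.nd (nat_lit 546) (nat_lit 456) (nat_lit 0) (XT.nd (nat_lit 234) (nat_lit 380) (nat_lit 0) (XT.nd (nat_lit 78) (nat_lit 76) (nat_lit 0) (XT.lf (nat_lit 0) (nat_lit 11390720575) (nat_lit 152) (nat_lit 8066788159) (nat_lit 0) (nat_lit 10719157243) (nat_lit 29) (nat_lit 5) (nat_lit 31) (nat_lit 4) (nat_lit 29) (nat_lit 4) (nat_lit 526) (nat_lit 340) (nat_lit 334)) (XT.nd (nat_lit 78) (nat_lit 0) (nat_lit 0) (XT.lf (nat_lit 0) (nat_lit 10977104792) (nat_lit 76) (nat_lit 10293657120) (nat_lit 76) (nat_lit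 9521295717) (nat_lit 28) (nat_lit 4) (nat_lit 29) (nat_lit 5) (nat_lit 29) (nat_lit 4) (nat_lit 527) (nat_lit 340) (nat_lit 333)) (XT.lf (nat_lit 0) (nat_lit 30404877092) (nat_lit 76) (nat_lit 947058170) (nat_lit 76) (nat_lit 76834564) (nat_lit 28) (nat_lit 4) (nat_lit 29) (nat_lit 5) (nat_lit 29) (nat_lit 4) (nat_lit 528) (nat_lit 340) (nat_lit 332)))) (XT.nd (nat_lit 156) (nat_lit 152) (nat_lit 0) (XT.nd (nat_lit 78) (nat_lit 76) (nat_lit 0) (XT.lf (nat_lit 0) (nat_lit 9549200810) (nat_lit 152) (nat_lit 13917924159) (nat_lit 0) (nat_lit 8612079008) (nat_lit 26) (nat_lit 5) (nat_lit 28) (nat_lit 4) (nat_lit 26) (nat_lit 4) (nat_lit 529) (nat_lit 340) (nat_lit 331)) (XT.lf (nat_lit 0) (nat_lit 4934115240) (nat_lit 76) (nat_lit 14422435499) (nat_lit 76) (nat_lit 13395755918) (nat_lit 25) (nat_lit 4) (nat_lit 26) (nat_lit 5) (nat_lit 26) (nat_lit 4) (nat_lit 530) (nat_lit 340) (nat_lit 330))) (XT.nd (nat_lit 78)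 (nat_lit 152) (nat_lit 0) (XT.lf (nat_lit 0) (nat_lit 24294330019) (nat_lit 76) (nat_lit 5132914115) (nat_lit 76) (nat_lit 4019285233) (nat_lit 25) (nat_lit 4) (nat_lit 26) (nat_lit 5) (nat_lit 26) (nat_lit 4) (nat_lit 531) (nat_lit 340) (nat_lit 329)) (XT.lf (nat_lit 0) (nat_lit 5497809277) (nat_lit 152) (nat_lit 24328405233) (nat_lit 0) (nat_lit 4334658132) (nat_lit 23) (nat_lit 5) (nat_lit 25) (nat_lit 4) (nat_lit 23) (nat_lit 4) (nat_lit 532) (nat_lit 340) (nat_lit 328))))) (XT.nd (nat_lit 312) (nat_lit 228) (nat_lit 0) (XT.nd (nat_lit 156) (nat_lit 152) (nat_lit 0) (XT.nd (nat_lit 78) (nat_lit 76) (nat_lit 0) (XT.lf (nat_lit 0) (nat_lit 15195809260) (nat_lit 152) (nat_lit 5747271218) (nat_lit 0) (nat_lit 13953087187) (nat_lit 23) (nat_lit 5) (nat_lit 25) (nat_lit 4) (nat_lit 23) (nat_lit 4) (nat_lit 533) (nat_lit 340) (nat_lit 327)) (XT.lf (nat_lit 0) (nat_lit 13324953503) (nat_lit 76) (nat_lit 11824796984)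 (nat_lit 76) (nat_lit 10504821583) (nat_lit 22) (nat_lit 4) (nat_lit 23) (nat_lit 5) (nat_lit 23) (nat_lit 4) (nat_lit 534) (nat_lit 340) (nat_lit 326))) (XT.nd (nat_lit 78) (nat_lit 152) (nat_lit 0) (XT.lf (nat_lit 0) (nat_lit 32763996858) (nat_lit 76) (nat_lit 2534906563) (nat_lit 76) (nat_lit 1139927932) (nat_lit 22) (nat_lit 4) (nat_lit 23) (nat_lit 5) (nat_lit 23) (nat_lit 4) (nat_lit 535) (nat_lit 340) (nat_lit 325)) (XT.lf (nat_lit 0) (nat_lit 8398445790) (nat_lit 152) (nat_lit 21870564932) (nat_lit 0) (nat_lit 6973399865) (nat_lit 20) (nat_lit 5) (nat_lit 22) (nat_lit 4) (nat_lit 20) (nat_lit 4) (nat_lit 536) (nat_lit 340) (nat_lit 324)))) (XT.nd (nat_lit 156) (nat_lit 152) (nat_lit 0) (XT.nd (nat_lit 78) (nat_lit 76) (nat_lit 0) (XT.lf (nat_lit 0) (nat_lit 18104424542) (nat_lit 152) (nat_lit 3357463575) (nat_lit 0) (nat_lit 16610740036) (nat_lit 20) (nat_lit 5) (nat_lit 22) (nat_lit 4) (nat_lit 20) (nat_lit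 4) (nat_lit 537) (nat_lit 340) (nat_lit 323)) (XT.lf (nat_lit 0) (nat_lit 15709834392) (nat_lit 76) (nat_lit 12389159949) (nat_lit 76) (nat_lit 10828836044) (nat_lit 19) (nat_lit 4) (nat_lit 20) (nat_lit 5) (nat_lit 20) (nat_lit 4) (nat_lit 538) (nat_lit 340) (nat_lit 322))) (XT.nd (nat_lit 78) (nat_lit 152) (nat_lit 0) (XT.lf (nat_lit 0) (nat_lit 35113241302) (nat_lit 76) (nat_lit 3162007392) (nat_lit 76) (nat_lit 1536985041) (nat_lit 19) (nat_lit 4) (nat_lit 20) (nat_lit 5) (nat_lit 20) (nat_lit 4) (nat_lit 539) (nat_lit 340) (nat_lit 321)) (XT.lf (nat_lit 0) (nat_lit 7926664217) (nat_lit 152) (nat_lit 26504706343) (nat_lit 0) (nat_lit 6287988124) (nat_lit 17) (nat_lit 5) (nat_lit 19) (nat_lit 4) (nat_lit 17) (nat_lit 4) (nat_lit 540) (nat_lit 340) (nat_lit 320)))))) (XT.nd (nat_lit 624) (nat_lit 380) (nat_lit 0) (XT.nd (nat_lit 312) (nat_lit 76) (nat_lit 0) (XT.nd (nat_lit 156) (nat_lit 152) (nat_lit 0) (XT.nd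 (nat_lit 78) (nat_lit 76) (nat_lit 0) (XT.lf (nat_lit 0) (nat_lit 17573541345) (nat_lit 152) (nat_lit 8206136622) (nat_lit 0) (nat_lit 15875657009) (nat_lit 17) (nat_lit 5) (nat_lit 19) (nat_lit 4) (nat_lit 17) (nat_lit 4) (nat_lit 541) (nat_lit 340) (nat_lit 319)) (XT.lf (nat_lit 0) (nat_lit 10557205634) (nat_lit 76) (nat_lit 16909424626) (nat_lit 76) (nat_lit 15154056559) (nat_lit 16) (nat_lit 4) (nat_lit 17) (nat_lit 5) (nat_lit 17) (nat_lit 4) (nat_lit 542) (nat_lit 340) (nat_lit 318))) (XT.nd (nat_lit 78) (nat_lit 152) (nat_lit 0) (XT.lf (nat_lit 0) (nat_lit 29764317287) (nat_lit 76) (nat_lit 7831835315) (nat_lit 76) (nat_lit 6020657800) (nat_lit 16) (nat_lit 4) (nat_lit 17) (nat_lit 5) (nat_lit 17) (nat_lit 4) (nat_lit 543) (nat_lit 340) (nat_lit 317)) (XT.lf (nat_lit 0) (nat_lit 3239231506) (nat_lit 152) (nat_lit 39976851650) (nat_lit 0) (nat_lit 1428200977) (nat_lit 14) (nat_lit 5) (nat_lit 16) (nat_lit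 4) (nat_lit 14) (nat_lit 4) (nat_lit 544) (nat_lit 340) (nat_lit 316)))) (XT.nd (nat_lit 156) (nat_lit 76) (nat_lit 0) (XT.nd (nat_lit 78) (nat_lit 0) (nat_lit 0) (XT.lf (nat_lit 0) (nat_lit 12734350989) (nat_lit 152) (nat_lit 22091842955) (nat_lit 0) (nat_lit 10872246910) (nat_lit 14) (nat_lit 5) (nat_lit 16) (nat_lit 4) (nat_lit 14) (nat_lit 4) (nat_lit 545) (nat_lit 340) (nat_lit 315)) (XT.lf (nat_lit 0) (nat_lit 22378044284) (nat_lit 152) (nat_lit 3943912517) (nat_lit 0) (nat_lit 20466354234) (nat_lit 14) (nat_lit 5) (nat_lit 16) (nat_lit 4) (nat_lit 14) (nat_lit 4) (nat_lit 546) (nat_lit 340) (nat_lit 314))) (XT.nd (nat_lit 78) (nat_lit 0) (nat_lit 0) (XT.lf (nat_lit 0) (nat_lit 14771033138) (nat_lit 76) (nat_lit 17549692988) (nat_lit 76) (nat_lit 15589861217) (nat_lit 13) (nat_lit 4) (nat_lit 14) (nat_lit 5) (nat_lit 14) (nat_lit 4) (nat_lit 547) (nat_lit 340) (nat_lit 313)) (XT.lf (nat_lit 0) (nat_lit 33865219246)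 (nat_lit 76) (nat_lit 8605309565) (nat_lit 76) (nat_lit 6598738260) (nat_lit 13) (nat_lit 4) (nat_lit 14) (nat_lit 5) (nat_lit 14) (nat_lit 4) (nat_lit 548) (nat_lit 340) (nat_lit 312))))) (XT.nd (nat_lit 312) (nat_lit 152) (nat_lit 0) (XT.nd (nat_lit 156) (nat_lit 76) (nat_lit 0) (XT.nd (nat_lit 78) (nat_lit 0) (nat_lit 0) (XT.lf (nat_lit 0) (nat_lit 2516152450) (nat_lit 152) (nat_lit 47224639444) (nat_lit 0) (nat_lit 523968477) (nat_lit 11) (nat_lit 5) (nat_lit 13) (nat_lit 4) (nat_lit 11) (nat_lit 4) (nat_lit 549) (nat_lit 340) (nat_lit 311)) (XT.lf (nat_lit 0) (nat_lit 11883736674) (nat_lit 152) (nat_lit 29758286436) (nat_lit 0) (nat_lit 9848779406) (nat_lit 11) (nat_lit 5) (nat_lit 13) (nat_lit 4) (nat_lit 11) (nat_lit 4) (nat_lit 550) (nat_lit 340) (nat_lit 310))) (XT.nd (nat_lit 78) (nat_lit 76) (nat_lit 0) (XT.lf (nat_lit 0) (nat_lit 21407710202) (nat_lit 152) (nat_lit 12018429712) (nat_lit 0) (nat_lit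 19331225463) (nat_lit 11) (nat_lit 5) (nat_lit 13) (nat_lit 4) (nat_lit 11) (nat_lit 4) (nat_lit 551) (nat_lit 340) (nat_lit 309)) (XT.lf (nat_lit 0) (nat_lit 6130050946) (nat_lit 76) (nat_lit 25025269805) (nat_lit 76) (nat_lit 22908467135) (nat_lit 10) (nat_lit 4) (nat_lit 11) (nat_lit 5) (nat_lit 11) (nat_lit 4) (nat_lit 552) (nat_lit 340) (nat_lit 308)))) (XT.nd (nat_lit 156) (nat_lit 152) (nat_lit 0) (XT.nd (nat_lit 78) (nat_lit 0) (nat_lit 0) (XT.lf (nat_lit 0) (nat_lit 24828545140) (nat_lit 76) (nat_lit 16368378792) (nat_lit 76) (nat_lit 14212432498) (nat_lit 10) (nat_lit 4) (nat_lit 11) (nat_lit 5) (nat_lit 11) (nat_lit 4) (nat_lit 553) (nat_lit 340) (nat_lit 307)) (XT.lf (nat_lit 0) (nat_lit 43854201039) (nat_lit 76) (nat_lit 7569265175) (nat_lit 76) (nat_lit 5375315363) (nat_lit 10) (nat_lit 4) (nat_lit 11) (nat_lit 5) (nat_lit 11) (nat_lit 4) (nat_lit 554) (nat_lit 340) (nat_lit 306))) (XT.nd (nat_lit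 59592) (nat_lit 0) (nat_lit 2204) (XT.lf (nat_lit 0) (nat_lit 3602822747) (nat_lit 152) (nat_lit 53190580820) (nat_lit 0) (nat_lit 1436952425) (nat_lit 8) (nat_lit 5) (nat_lit 10) (nat_lit 4) (nat_lit 8) (nat_lit 4) (nat_lit 555) (nat_lit 340) (nat_lit 305)) (XT.lf (nat_lit 0) (nat_lit 3931599613) (nat_lit 76) (nat_lit 4497354111) (nat_lit 76) (nat_lit 4497354111) (nat_lit 37) (nat_lit 4) (nat_lit 38) (nat_lit 5) (nat_lit 38) (nat_lit 4) (nat_lit 518) (nat_lit 341) (nat_lit 341))))))) (XT.nd (nat_lit 1248) (nat_lit 836) (nat_lit 0) (XT.nd (nat_lit 624) (nat_lit 532) (nat_lit 0) (XT.nd (nat_lit 312) (nat_lit 228) (nat_lit 0) (XT.nd (nat_lit 156) (nat_lit 228) (nat_lit 0) (XT.nd (nat_lit 78) (nat_lit 0) (nat_lit 0) (XT.lf (nat_lit 0) (nat_lit 332402814) (nat_lit 152) (nat_lit 25810981291) (nat_lit 0) (nat_lit 200884194) (nat_lit 35) (nat_lit 5) (nat_lit 37) (nat_lit 4) (nat_lit 35) (nat_lit 4) (nat_lit 519) (nat_lit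 341) (nat_lit 340)) (XT.lf (nat_lit 0) (nat_lit 9841230402) (nat_lit 152) (nat_lit 7422264908) (nat_lit 0) (nat_lit 9582023802) (nat_lit 35) (nat_lit 5) (nat_lit 37) (nat_lit 4) (nat_lit 35) (nat_lit 4) (nat_lit 520) (nat_lit 341) (nat_lit 339))) (XT.nd (nat_lit 78) (nat_lit 152) (nat_lit 0) (XT.lf (nat_lit 0) (nat_lit 11373478185) (nat_lit 76) (nat_lit 8186877352) (nat_lit 76) (nat_lit 7803701840) (nat_lit 34) (nat_lit 4) (nat_lit 35) (nat_lit 5) (nat_lit 35) (nat_lit 4) (nat_lit 521) (nat_lit 341) (nat_lit 338)) (XT.lf (nat_lit 0) (nat_lit 1567852303) (nat_lit 152) (nat_lit 25253005446) (nat_lit 0) (nat_lit 1078984653) (nat_lit 32) (nat_lit 5) (nat_lit 34) (nat_lit 4) (nat_lit 32) (nat_lit 4) (nat_lit 522) (nat_lit 341) (nat_lit 337)))) (XT.nd (nat_lit 156) (nat_lit 152) (nat_lit 0) (XT.nd (nat_lit 78) (nat_lit 76) (nat_lit 0) (XT.lf (nat_lit 0) (nat_lit 11123751278) (nat_lit 152) (nat_lit 6802396743) (nat_lit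 0) (nat_lit 10521434512) (nat_lit 32) (nat_lit 5) (nat_lit 34) (nat_lit 4) (nat_lit 32) (nat_lit 4) (nat_lit 523) (nat_lit 341) (nat_lit 336)) (XT.lf (nat_lit 0) (nat_lit 12081379066) (nat_lit 76) (nat_lit 8822357928) (nat_lit 76) (nat_lit 8109896389) (nat_lit 31) (nat_lit 4) (nat_lit 32) (nat_lit 5) (nat_lit 32) (nat_lit 4) (nat_lit 524) (nat_lit 341) (nat_lit 335))) (XT.nd (nat_lit 78) (nat_lit 0) (nat_lit 0) (XT.lf (nat_lit 0) (nat_lit 1265567168) (nat_lit 152) (nat_lit 27863304890) (nat_lit 0) (nat_lit 470034923) (nat_lit 29) (nat_lit 5) (nat_lit 31) (nat_lit 4) (nat_lit 29) (nat_lit 4) (nat_lit 525) (nat_lit 341) (nat_lit 334)) (XT.lf (nat_lit 0) (nat_lit 10840782536) (nat_lit 152) (nat_lit 9411651225) (nat_lit 0) (nat_lit 9944452221) (nat_lit 29) (nat_lit 5) (nat_lit 31) (nat_lit 4) (nat_lit 29) (nat_lit 4) (nat_lit 526) (nat_lit 341) (nat_lit 333))))) (XT.nd (nat_lit 312) (nat_lit 228) (nat_lit 0) (XT.nd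 (nat_lit 156) (nat_lit 228) (nat_lit 0) (XT.nd (nat_lit 78) (nat_lit 0) (nat_lit 0) (XT.lf (nat_lit 0) (nat_lit 9431683856) (nat_lit 76) (nat_lit 11188896972) (nat_lit 76) (nat_lit 10194704452) (nat_lit 28) (nat_lit 4) (nat_lit 29) (nat_lit 5) (nat_lit 29) (nat_lit 4) (nat_lit 527) (nat_lit 341) (nat_lit 332)) (XT.lf (nat_lit 0) (nat_lit 28690725615) (nat_lit 76) (nat_lit 1926506124) (nat_lit 76) (nat_lit 837301756) (nat_lit 28) (nat_lit 4) (nat_lit 29) (nat_lit 5) (nat_lit 29) (nat_lit 4) (nat_lit 528) (nat_lit 341) (nat_lit 331))) (XT.nd (nat_lit 78) (nat_lit 76) (nat_lit 0) (XT.lf (nat_lit 0) (nat_lit 8691625504) (nat_lit 152) (nat_lit 15872332442) (nat_lit 0) (nat_lit 7544587755) (nat_lit 26) (nat_lit 5) (nat_lit 28) (nat_lit 4) (nat_lit 26) (nat_lit 4) (nat_lit 529) (nat_lit 341) (nat_lit 330)) (XT.lf (nat_lit 0) (nat_lit 2771997788) (nat_lit 76) (nat_lit 15623373047) (nat_lit 76) (nat_lit 14389385997) (nat_lit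 25) (nat_lit 4) (nat_lit 26) (nat_lit 5) (nat_lit 26) (nat_lit 4) (nat_lit 530) (nat_lit 341) (nat_lit 329)))) (XT.nd (nat_lit 156) (nat_lit 76) (nat_lit 0) (XT.nd (nat_lit 78) (nat_lit 152) (nat_lit 0) (XT.lf (nat_lit 0) (nat_lit 21968316826) (nat_lit 76) (nat_lit 6415763197) (nat_lit 76) (nat_lit 5097359350) (nat_lit 25) (nat_lit 4) (nat_lit 26) (nat_lit 5) (nat_lit 26) (nat_lit 4) (nat_lit 531) (nat_lit 341) (nat_lit 328)) (XT.lf (nat_lit 0) (nat_lit 4322317009) (nat_lit 152) (nat_lit 26914588133) (nat_lit 0) (nat_lit 2962742347) (nat_lit 23) (nat_lit 5) (nat_lit 25) (nat_lit 4) (nat_lit 23) (nat_lit 4) (nat_lit 532) (nat_lit 341) (nat_lit 327))) (XT.nd (nat_lit 78) (nat_lit 76) (nat_lit 0) (XT.lf (nat_lit 0) (nat_lit 13939978884) (nat_lit 152) (nat_lit 8494223157) (nat_lit 0) (nat_lit 12503150893) (nat_lit 23) (nat_lit 5) (nat_lit 25) (nat_lit 4) (nat_lit 23) (nat_lit 4) (nat_lit 533) (nat_lit 341) (nat_lit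 326)) (XT.lf (nat_lit 0) (nat_lit 10364138960) (nat_lit 76) (nat_lit 13423321826) (nat_lit 76) (nat_lit 11911490605) (nat_lit 22) (nat_lit 4) (nat_lit 23) (nat_lit 5) (nat_lit 23) (nat_lit 4) (nat_lit 534) (nat_lit 341) (nat_lit 325)))))) (XT.nd (nat_lit 624) (nat_lit 380) (nat_lit 0) (XT.nd (nat_lit 312) (nat_lit 228) (nat_lit 0) (XT.nd (nat_lit 156) (nat_lit 76) (nat_lit 0) (XT.nd (nat_lit 78) (nat_lit 152) (nat_lit 0) (XT.lf (nat_lit 0) (nat_lit 29648626128) (nat_lit 76) (nat_lit 4210775532) (nat_lit 76) (nat_lit 2626125640) (nat_lit 22) (nat_lit 4) (nat_lit 23) (nat_lit 5) (nat_lit 23) (nat_lit 4) (nat_lit 535) (nat_lit 341) (nat_lit 324)) (XT.lf (nat_lit 0) (nat_lit 6815896675) (nat_lit 152) (nat_lit 25268636216) (nat_lit 0) (nat_lit 5208763053) (nat_lit 20) (nat_lit 5) (nat_lit 22) (nat_lit 4) (nat_lit 20) (nat_lit 4) (nat_lit 536) (nat_lit 341) (nat_lit 323))) (XT.nd (nat_lit 78) (nat_lit 76) (nat_lit 0)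 (XT.lf (nat_lit 0) (nat_lit 16446209981) (nat_lit 152) (nat_lit 6907136772) (nat_lit 0) (nat_lit 14772436960) (nat_lit 20) (nat_lit 5) (nat_lit 22) (nat_lit 4) (nat_lit 20) (nat_lit 4) (nat_lit 537) (nat_lit 341) (nat_lit 322)) (XT.lf (nat_lit 0) (nat_lit 11939400118) (nat_lit 76) (nat_lit 14391674344) (nat_lit 76) (nat_lit 12653202877) (nat_lit 19) (nat_lit 4) (nat_lit 20) (nat_lit 5) (nat_lit 20) (nat_lit 4) (nat_lit 538) (nat_lit 341) (nat_lit 321)))) (XT.nd (nat_lit 156) (nat_lit 76) (nat_lit 0) (XT.nd (nat_lit 78) (nat_lit 152) (nat_lit 0) (XT.lf (nat_lit 0) (nat_lit 31197063708) (nat_lit 76) (nat_lit 5237542195) (nat_lit 76) (nat_lit 3436256703) (nat_lit 19) (nat_lit 4) (nat_lit 20) (nat_lit 5) (nat_lit 20) (nat_lit 4) (nat_lit 539) (nat_lit 341) (nat_lit 320)) (XT.lf (nat_lit 0) (nat_lit 5931740893) (nat_lit 152) (nat_lit 30727064199) (nat_lit 0) (nat_lit 4123711783) (nat_lit 17) (nat_lit 5) (nat_lit 19)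 (nat_lit 4) (nat_lit 17) (nat_lit 4) (nat_lit 540) (nat_lit 341) (nat_lit 319))) (XT.nd (nat_lit 78) (nat_lit 76) (nat_lit 0) (XT.lf (nat_lit 0) (nat_lit 15507348639) (nat_lit 152) (nat_lit 12571447022) (nat_lit 0) (nat_lit 13641835798) (nat_lit 17) (nat_lit 5) (nat_lit 19) (nat_lit 4) (nat_lit 17) (nat_lit 4) (nat_lit 541) (nat_lit 341) (nat_lit 318)) (XT.lf (nat_lit 0) (nat_lit 5963465950) (nat_lit 76) (nat_lit 19323620191) (nat_lit 76) (nat_lit 17402297904) (nat_lit 16) (nat_lit 4) (nat_lit 17) (nat_lit 5) (nat_lit 17) (nat_lit 4) (nat_lit 542) (nat_lit 341) (nat_lit 317))))) (XT.nd (nat_lit 312) (nat_lit 228) (nat_lit 0) (XT.nd (nat_lit 156) (nat_lit 76) (nat_lit 0) (XT.nd (nat_lit 78) (nat_lit 76) (nat_lit 0) (XT.lf (nat_lit 0) (nat_lit 25033149402) (nat_lit 76) (nat_lit 10314959809) (nat_lit 76) (nat_lit 8339453592) (nat_lit 16) (nat_lit 4) (nat_lit 17) (nat_lit 5) (nat_lit 17) (nat_lit 4) (nat_lit 543) (nat_lit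 341) (nat_lit 316)) (XT.lf (nat_lit 0) (nat_lit 839514160) (nat_lit 152) (nat_lit 323898227) (nat_lit 76) (nat_lit 43556078110) (nat_lit 15) (nat_lit 5) (nat_lit 17) (nat_lit 5) (nat_lit 16) (nat_lit 4) (nat_lit 544) (nat_lit 341) (nat_lit 315))) (XT.nd (nat_lit 78) (nat_lit 0) (nat_lit 0) (XT.lf (nat_lit 0) (nat_lit 10253110406) (nat_lit 152) (nat_lit 27288499007) (nat_lit 0) (nat_lit 8234483682) (nat_lit 14) (nat_lit 5) (nat_lit 16) (nat_lit 4) (nat_lit 14) (nat_lit 4) (nat_lit 545) (nat_lit 341) (nat_lit 314)) (XT.lf (nat_lit 0) (nat_lit 19831626135) (nat_lit 152) (nat_lit 9271434951) (nat_lit 0) (nat_lit 17764857692) (nat_lit 14) (nat_lit 5) (nat_lit 16) (nat_lit 4) (nat_lit 14) (nat_lit 4) (nat_lit 546) (nat_lit 341) (nat_lit 313)))) (XT.nd (nat_lit 156) (nat_lit 152) (nat_lit 0) (XT.nd (nat_lit 78) (nat_lit 0) (nat_lit 0) (XT.lf (nat_lit 0) (nat_lit 9207899184) (nat_lit 76) (nat_lit 20449653356) (nat_lit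 76) (nat_lit 18336145378) (nat_lit 13) (nat_lit 4) (nat_lit 14) (nat_lit 5) (nat_lit 14) (nat_lit 4) (nat_lit 547) (nat_lit 341) (nat_lit 312)) (XT.lf (nat_lit 0) (nat_lit 28176276188) (nat_lit 76) (nat_lit 11568433576) (nat_lit 76) (nat_lit 9409547411) (nat_lit 13) (nat_lit 4) (nat_lit 14) (nat_lit 5) (nat_lit 14) (nat_lit 4) (nat_lit 548) (nat_lit 341) (nat_lit 311))) (XT.nd (nat_lit 78) (nat_lit 152) (nat_lit 0) (XT.lf (nat_lit 0) (nat_lit 47465750635) (nat_lit 76) (nat_lit 2545264773) (nat_lit 76) (nat_lit 342322114) (nat_lit 13) (nat_lit 4) (nat_lit 14) (nat_lit 5) (nat_lit 14) (nat_lit 4) (nat_lit 549) (nat_lit 341) (nat_lit 310)) (XT.lf (nat_lit 0) (nat_lit 8917487296) (nat_lit 152) (nat_lit 35928244337) (nat_lit 0) (nat_lit 6737180545) (nat_lit 11) (nat_lit 5) (nat_lit 13) (nat_lit 4) (nat_lit 11) (nat_lit 4) (nat_lit 550) (nat_lit 341) (nat_lit 309))))))))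
noncomputable def xc6 : XT := (XT.nd (nat_lit 61776) (nat_lit 0) (nat_lit 76) (XT.nd (nat_lit 60528) (nat_lit 0) (nat_lit 608) (XT.nd (nat_lit 59904) (nat_lit 0) (nat_lit 1520) (XT.nd (nat_lit 234) (nat_lit 76) (nat_lit 0) (XT.nd (nat_lit 78) (nat_lit 76) (nat_lit 0) (XT.lf (nat_lit 0) (nat_lit 18381850980) (nat_lit 152) (nat_lit 18308186204) (nat_lit 0) (nat_lit 16161226297) (nat_lit 11) (nat_lit 5) (nat_lit 13) (nat_lit 4) (nat_lit 11) (nat_lit 4) (nat_lit 551) (nat_lit 341) (nat_lit 308)) (XT.nd (nat_lit 78) (nat_lit 76) (nat_lit 0) (XT.lf (nat_lit 0) (nat_lit 28012662096) (nat_lit 152) (nat_lit 395634229) (nat_lit 0) (nat_lit 25752893789) (nat_lit 11) (nat_lit 5) (nat_lit 13) (nat_lit 4) (nat_lit 11) (nat_lit 4) (nat_lit 552) (nat_lit 341) (nat_lit 307)) (XT.lf (nat_lit 0) (nat_lit 18179817041) (nat_lit 76) (nat_lit 19813274397) (nat_lit 76) (nat_lit 17515502572) (nat_lit 10) (nat_lit 4) (nat_lit 11) (nat_lit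 5) (nat_lit 11) (nat_lit 4) (nat_lit 553) (nat_lit 341) (nat_lit 306)))) (XT.nd (nat_lit 59514) (nat_lit 0) (nat_lit 2204) (XT.nd (nat_lit 78) (nat_lit 76) (nat_lit 0) (XT.lf (nat_lit 0) (nat_lit 37093658355) (nat_lit 76) (nat_lit 11070349085) (nat_lit 76) (nat_lit 8735680641) (nat_lit 10) (nat_lit 4) (nat_lit 11) (nat_lit 5) (nat_lit 11) (nat_lit 4) (nat_lit 554) (nat_lit 341) (nat_lit 305)) (XT.lf (nat_lit 0) (nat_lit 190816706) (nat_lit 152) (nat_lit 1983132491) (nat_lit 76) (nat_lit 56161798888) (nat_lit 9) (nat_lit 5) (nat_lit 11) (nat_lit 5) (nat_lit 10) (nat_lit 4) (nat_lit 555) (nat_lit 341) (nat_lit 304))) (XT.nd (nat_lit 78) (nat_lit 152) (nat_lit 0) (XT.lf (nat_lit 0) (nat_lit 10516500963) (nat_lit 76) (nat_lit 970271964) (nat_lit 76) (nat_lit 970271964) (nat_lit 40) (nat_lit 4) (nat_lit 41) (nat_lit 5) (nat_lit 41) (nat_lit 4) (nat_lit 516) (nat_lit 342) (nat_lit 342)) (XT.lf (nat_lit 0) (nat_lit 7387648428)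 (nat_lit 152) (nat_lit 10741534992) (nat_lit 0) (nat_lit 7248120325) (nat_lit 38) (nat_lit 5) (nat_lit 40) (nat_lit 4) (nat_lit 38) (nat_lit 4) (nat_lit 517) (nat_lit 342) (nat_lit 341))))) (XT.nd (nat_lit 312) (nat_lit 380) (nat_lit 0) (XT.nd (nat_lit 156) (nat_lit 76) (nat_lit 0) (XT.nd (nat_lit 78) (nat_lit 152) (nat_lit 0) (XT.lf (nat_lit 0) (nat_lit 7679144905) (nat_lit 76) (nat_lit 9225621802) (nat_lit 76) (nat_lit 8950629521) (nat_lit 37) (nat_lit 4) (nat_lit 38) (nat_lit 5) (nat_lit 38) (nat_lit 4) (nat_lit 518) (nat_lit 342) (nat_lit 340)) (XT.lf (nat_lit 0) (nat_lit 160235500) (nat_lit 76) (nat_lit 118949918) (nat_lit 152) (nat_lit 26070744267) (nat_lit 35) (nat_lit 5) (nat_lit 36) (nat_lit 5) (nat_lit 37) (nat_lit 4) (nat_lit 519) (nat_lit 342) (nat_lit 339))) (XT.nd (nat_lit 78) (nat_lit 76) (nat_lit 0) (XT.lf (nat_lit 0) (nat_lit 9696083327) (nat_lit 152) (nat_lit 7980411873) (nat_lit 0) (nat_lit 9177443637)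 (nat_lit 35) (nat_lit 5) (nat_lit 37) (nat_lit 4) (nat_lit 35) (nat_lit 4) (nat_lit 520) (nat_lit 342) (nat_lit 338)) (XT.lf (nat_lit 0) (nat_lit 10625415878) (nat_lit 76) (nat_lit 8694459752) (nat_lit 76) (nat_lit 8055461895) (nat_lit 34) (nat_lit 4) (nat_lit 35) (nat_lit 5) (nat_lit 35) (nat_lit 4) (nat_lit 521) (nat_lit 342) (nat_lit 337)))) (XT.nd (nat_lit 156) (nat_lit 228) (nat_lit 0) (XT.nd (nat_lit 78) (nat_lit 0) (nat_lit 0) (XT.lf (nat_lit 0) (nat_lit 1217925023) (nat_lit 152) (nat_lit 26212273299) (nat_lit 0) (nat_lit 484089638) (nat_lit 32) (nat_lit 5) (nat_lit 34) (nat_lit 4) (nat_lit 32) (nat_lit 4) (nat_lit 522) (nat_lit 342) (nat_lit 336)) (XT.lf (nat_lit 0) (nat_lit 10685782701) (nat_lit 152) (nat_lit 7937084485) (nat_lit 0) (nat_lit 9841802543) (nat_lit 32) (nat_lit 5) (nat_lit 34) (nat_lit 4) (nat_lit 32) (nat_lit 4) (nat_lit 523) (nat_lit 342) (nat_lit 335))) (XT.nd (nat_lit 78) (nat_lit 152)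 (nat_lit 0) (XT.lf (nat_lit 0) (nat_lit 10750408728) (nat_lit 76) (nat_lit 9617088602) (nat_lit 76) (nat_lit 8666171770) (nat_lit 31) (nat_lit 4) (nat_lit 32) (nat_lit 5) (nat_lit 32) (nat_lit 4) (nat_lit 524) (nat_lit 342) (nat_lit 334)) (XT.lf (nat_lit 0) (nat_lit 194176565) (nat_lit 76) (nat_lit 421052700) (nat_lit 152) (nat_lit 29007021739) (nat_lit 29) (nat_lit 5) (nat_lit 30) (nat_lit 5) (nat_lit 31) (nat_lit 4) (nat_lit 525) (nat_lit 342) (nat_lit 333)))))) (XT.nd (nat_lit 624) (nat_lit 456) (nat_lit 0) (XT.nd (nat_lit 312) (nat_lit 228) (nat_lit 0) (XT.nd (nat_lit 156) (nat_lit 152) (nat_lit 0) (XT.nd (nat_lit 78) (nat_lit 76) (nat_lit 0) (XT.lf (nat_lit 0) (nat_lit 10101009704) (nat_lit 152) (nat_lit 11142774499) (nat_lit 0) (nat_lit 8979129205) (nat_lit 29) (nat_lit 5) (nat_lit 31) (nat_lit 4) (nat_lit 29) (nat_lit 4) (nat_lit 526) (nat_lit 342) (nat_lit 332)) (XT.lf (nat_lit 0) (nat_lit 7497377294) (nat_lit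 76) (nat_lit 12281936465) (nat_lit 76) (nat_lit 11065044117) (nat_lit 28) (nat_lit 4) (nat_lit 29) (nat_lit 5) (nat_lit 29) (nat_lit 4) (nat_lit 527) (nat_lit 342) (nat_lit 331))) (XT.nd (nat_lit 78) (nat_lit 152) (nat_lit 0) (XT.lf (nat_lit 0) (nat_lit 26592602993) (nat_lit 76) (nat_lit 3101301056) (nat_lit 76) (nat_lit 1792164195) (nat_lit 28) (nat_lit 4) (nat_lit 29) (nat_lit 5) (nat_lit 29) (nat_lit 4) (nat_lit 528) (nat_lit 342) (nat_lit 330)) (XT.lf (nat_lit 0) (nat_lit 7640196304) (nat_lit 152) (nat_lit 18221375468) (nat_lit 0) (nat_lit 6282240341) (nat_lit 26) (nat_lit 5) (nat_lit 28) (nat_lit 4) (nat_lit 26) (nat_lit 4) (nat_lit 529) (nat_lit 342) (nat_lit 329)))) (XT.nd (nat_lit 156) (nat_lit 152) (nat_lit 0) (XT.nd (nat_lit 78) (nat_lit 0) (nat_lit 0) (XT.lf (nat_lit 0) (nat_lit 212308459) (nat_lit 76) (nat_lit 17026619136) (nat_lit 76) (nat_lit 15584246376) (nat_lit 25) (nat_lit 4) (nat_lit 26) (nat_lit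 5) (nat_lit 26) (nat_lit 4) (nat_lit 530) (nat_lit 342) (nat_lit 328)) (XT.lf (nat_lit 0) (nat_lit 19249505420) (nat_lit 76) (nat_lit 7898535048) (nat_lit 76) (nat_lit 6374204232) (nat_lit 25) (nat_lit 4) (nat_lit 26) (nat_lit 5) (nat_lit 26) (nat_lit 4) (nat_lit 531) (nat_lit 342) (nat_lit 327))) (XT.nd (nat_lit 78) (nat_lit 0) (nat_lit 0) (XT.lf (nat_lit 0) (nat_lit 2948473613) (nat_lit 152) (nat_lit 29904717671) (nat_lit 0) (nat_lit 1391287455) (nat_lit 23) (nat_lit 5) (nat_lit 25) (nat_lit 4) (nat_lit 23) (nat_lit 4) (nat_lit 532) (nat_lit 342) (nat_lit 326)) (XT.lf (nat_lit 0) (nat_lit 12488137324) (nat_lit 152) (nat_lit 11640439142) (nat_lit 0) (nat_lit 10855947935) (nat_lit 23) (nat_lit 5) (nat_lit 25) (nat_lit 4) (nat_lit 23) (nat_lit 4) (nat_lit 533) (nat_lit 342) (nat_lit 325))))) (XT.nd (nat_lit 312) (nat_lit 228) (nat_lit 0) (XT.nd (nat_lit 156) (nat_lit 152) (nat_lit 0) (XT.nd (nat_lit 78) (nat_lit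 0) (nat_lit 0) (XT.lf (nat_lit 0) (nat_lit 7000750920) (nat_lit 76) (nat_lit 15226810990) (nat_lit 76) (nat_lit 13521802931) (nat_lit 22) (nat_lit 4) (nat_lit 23) (nat_lit 5) (nat_lit 23) (nat_lit 4) (nat_lit 534) (nat_lit 342) (nat_lit 324)) (XT.lf (nat_lit 0) (nat_lit 26135183537) (nat_lit 76) (nat_lit 6089356081) (nat_lit 76) (nat_lit 4313650283) (nat_lit 22) (nat_lit 4) (nat_lit 23) (nat_lit 5) (nat_lit 23) (nat_lit 4) (nat_lit 535) (nat_lit 342) (nat_lit 323))) (XT.nd (nat_lit 78) (nat_lit 0) (nat_lit 0) (XT.lf (nat_lit 0) (nat_lit 5032270233) (nat_lit 152) (nat_lit 29076401522) (nat_lit 0) (nat_lit 3241644622) (nat_lit 20) (nat_lit 5) (nat_lit 22) (nat_lit 4) (nat_lit 20) (nat_lit 4) (nat_lit 536) (nat_lit 342) (nat_lit 322)) (XT.lf (nat_lit 0) (nat_lit 14589121942) (nat_lit 152) (nat_lit 10862088402) (nat_lit 0) (nat_lit 12733797885) (nat_lit 20) (nat_lit 5) (nat_lit 22) (nat_lit 4) (nat_lit 20) (nat_lit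 4) (nat_lit 537) (nat_lit 342) (nat_lit 321)))) (XT.nd (nat_lit 156) (nat_lit 152) (nat_lit 0) (XT.nd (nat_lit 78) (nat_lit 0) (nat_lit 0) (XT.lf (nat_lit 0) (nat_lit 7759993876) (nat_lit 76) (nat_lit 16602495598) (nat_lit 76) (nat_lit 14684357516) (nat_lit 19) (nat_lit 4) (nat_lit 20) (nat_lit 5) (nat_lit 20) (nat_lit 4) (nat_lit 538) (nat_lit 342) (nat_lit 320)) (XT.lf (nat_lit 0) (nat_lit 26876159097) (nat_lit 76) (nat_lit 7519257048) (nat_lit 76) (nat_lit 5540134476) (nat_lit 19) (nat_lit 4) (nat_lit 20) (nat_lit 5) (nat_lit 20) (nat_lit 4) (nat_lit 539) (nat_lit 342) (nat_lit 319))) (XT.nd (nat_lit 78) (nat_lit 0) (nat_lit 0) (XT.lf (nat_lit 0) (nat_lit 3732293022) (nat_lit 152) (nat_lit 35366286454) (nat_lit 0) (nat_lit 1753331065) (nat_lit 17) (nat_lit 5) (nat_lit 19) (nat_lit 4) (nat_lit 17) (nat_lit 4) (nat_lit 540) (nat_lit 342) (nat_lit 318)) (XT.lf (nat_lit 0) (nat_lit 13238707192) (nat_lit 152) (nat_lit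 17349458154) (nat_lit 0) (nat_lit 11203935788) (nat_lit 17) (nat_lit 5) (nat_lit 19) (nat_lit 4) (nat_lit 17) (nat_lit 4) (nat_lit 541) (nat_lit 342) (nat_lit 317))))))) (XT.nd (nat_lit 60372) (nat_lit 0) (nat_lit 1216) (XT.nd (nat_lit 546) (nat_lit 228) (nat_lit 0) (XT.nd (nat_lit 234) (nat_lit 228) (nat_lit 0) (XT.nd (nat_lit 78) (nat_lit 0) (nat_lit 0) (XT.lf (nat_lit 0) (nat_lit 952934826) (nat_lit 76) (nat_lit 21950167350) (nat_lit 76) (nat_lit 19861212016) (nat_lit 16) (nat_lit 4) (nat_lit 17) (nat_lit 5) (nat_lit 17) (nat_lit 4) (nat_lit 542) (nat_lit 342) (nat_lit 316)) (XT.nd (nat_lit 78) (nat_lit 0) (nat_lit 0) (XT.lf (nat_lit 0) (nat_lit 19889192840) (nat_lit 76) (nat_lit 13008428258) (nat_lit 76) (nat_lit 10866867167) (nat_lit 16) (nat_lit 4) (nat_lit 17) (nat_lit 5) (nat_lit 17) (nat_lit 4) (nat_lit 543) (nat_lit 342) (nat_lit 315)) (XT.lf (nat_lit 0) (nat_lit 39130573896) (nat_lit 76) (nat_lit 3930330410)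 (nat_lit 76) (nat_lit 1737695769) (nat_lit 16) (nat_lit 4) (nat_lit 17) (nat_lit 5) (nat_lit 17) (nat_lit 4) (nat_lit 544) (nat_lit 342) (nat_lit 314)))) (XT.nd (nat_lit 156) (nat_lit 76) (nat_lit 0) (XT.nd (nat_lit 78) (nat_lit 0) (nat_lit 0) (XT.lf (nat_lit 0) (nat_lit 7565122146) (nat_lit 152) (nat_lit 32906713496) (nat_lit 0) (nat_lit 5388208930) (nat_lit 14) (nat_lit 5) (nat_lit 16) (nat_lit 4) (nat_lit 14) (nat_lit 4) (nat_lit 545) (nat_lit 342) (nat_lit 313)) (XT.lf (nat_lit 0) (nat_lit 17080358685) (nat_lit 152) (nat_lit 15016704179) (nat_lit 0) (nat_lit 14856705935) (nat_lit 14) (nat_lit 5) (nat_lit 16) (nat_lit 4) (nat_lit 14) (nat_lit 4) (nat_lit 546) (nat_lit 342) (nat_lit 312))) (XT.nd (nat_lit 78) (nat_lit 0) (nat_lit 0) (XT.lf (nat_lit 0) (nat_lit 3222478728) (nat_lit 76) (nat_lit 23564834731) (nat_lit 76) (nat_lit 21295803793) (nat_lit 13) (nat_lit 4) (nat_lit 14) (nat_lit 5) (nat_lit 14) (nat_lit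 4) (nat_lit 547) (nat_lit 342) (nat_lit 311)) (XT.lf (nat_lit 0) (nat_lit 22068710971) (nat_lit 76) (nat_lit 14744938877) (nat_lit 76) (nat_lit 12431851446) (nat_lit 13) (nat_lit 4) (nat_lit 14) (nat_lit 5) (nat_lit 14) (nat_lit 4) (nat_lit 548) (nat_lit 342) (nat_lit 310))))) (XT.nd (nat_lit 312) (nat_lit 76) (nat_lit 0) (XT.nd (nat_lit 156) (nat_lit 0) (nat_lit 0) (XT.nd (nat_lit 78) (nat_lit 152) (nat_lit 0) (XT.lf (nat_lit 0) (nat_lit 41239598271) (nat_lit 76) (nat_lit 5781307866) (nat_lit 76) (nat_lit 3425447140) (nat_lit 13) (nat_lit 4) (nat_lit 14) (nat_lit 5) (nat_lit 14) (nat_lit 4) (nat_lit 549) (nat_lit 342) (nat_lit 309)) (XT.lf (nat_lit 0) (nat_lit 5741242454) (nat_lit 152) (nat_lit 42526492115) (nat_lit 0) (nat_lit 3413681098) (nat_lit 11) (nat_lit 5) (nat_lit 13) (nat_lit 4) (nat_lit 11) (nat_lit 4) (nat_lit 550) (nat_lit 342) (nat_lit 308))) (XT.nd (nat_lit 78) (nat_lit 0) (nat_lit 0) (XT.lf (nat_lit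 0) (nat_lit 15147732503) (nat_lit 152) (nat_lit 25022743293) (nat_lit 0) (nat_lit 12781027523) (nat_lit 11) (nat_lit 5) (nat_lit 13) (nat_lit 4) (nat_lit 11) (nat_lit 4) (nat_lit 551) (nat_lit 342) (nat_lit 307)) (XT.lf (nat_lit 0) (nat_lit 24722355624) (nat_lit 152) (nat_lit 7223112980) (nat_lit 0) (nat_lit 22317647126) (nat_lit 11) (nat_lit 5) (nat_lit 13) (nat_lit 4) (nat_lit 11) (nat_lit 4) (nat_lit 552) (nat_lit 342) (nat_lit 306)))) (XT.nd (nat_lit 156) (nat_lit 0) (nat_lit 0) (XT.nd (nat_lit 78) (nat_lit 0) (nat_lit 0) (XT.lf (nat_lit 0) (nat_lit 11104643489) (nat_lit 76) (nat_lit 23475579129) (nat_lit 76) (nat_lit 21033974012) (nat_lit 10) (nat_lit 4) (nat_lit 11) (nat_lit 5) (nat_lit 11) (nat_lit 4) (nat_lit 553) (nat_lit 342) (nat_lit 305)) (XT.lf (nat_lit 0) (nat_lit 29909926951) (nat_lit 76) (nat_lit 14787205570) (nat_lit 76) (nat_lit 12309778492) (nat_lit 10) (nat_lit 4) (nat_lit 11) (nat_lit 5) (nat_lit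 11) (nat_lit 4) (nat_lit 554) (nat_lit 342) (nat_lit 304))) (XT.nd (nat_lit 59280) (nat_lit 0) (nat_lit 2356) (XT.lf (nat_lit 0) (nat_lit 49065415094) (nat_lit 76) (nat_lit 5945695423) (nat_lit 76) (nat_lit 3433489742) (nat_lit 10) (nat_lit 4) (nat_lit 11) (nat_lit 5) (nat_lit 11) (nat_lit 4) (nat_lit 555) (nat_lit 342) (nat_lit 303)) (XT.lf (nat_lit 0) (nat_lit 2107928184) (nat_lit 152) (nat_lit 7794207972) (nat_lit 0) (nat_lit 2107928184) (nat_lit 41) (nat_lit 5) (nat_lit 43) (nat_lit 4) (nat_lit 41) (nat_lit 4) (nat_lit 514) (nat_lit 343) (nat_lit 343)))))) (XT.nd (nat_lit 624) (nat_lit 456) (nat_lit 0) (XT.nd (nat_lit 312) (nat_lit 380) (nat_lit 0) (XT.nd (nat_lit 156) (nat_lit 228) (nat_lit 0) (XT.nd (nat_lit 78) (nat_lit 0) (nat_lit 0) (XT.lf (nat_lit 0) (nat_lit 2384883113) (nat_lit 76) (nat_lit 11112300293) (nat_lit 76) (nat_lit 10964274929) (nat_lit 40) (nat_lit 4) (nat_lit 41) (nat_lit 5) (nat_lit 41)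 (nat_lit 4) (nat_lit 515) (nat_lit 343) (nat_lit 342)) (XT.lf (nat_lit 0) (nat_lit 20854432550) (nat_lit 76) (nat_lit 2177049865) (nat_lit 76) (nat_lit 1885310554) (nat_lit 40) (nat_lit 4) (nat_lit 41) (nat_lit 5) (nat_lit 41) (nat_lit 4) (nat_lit 516) (nat_lit 343) (nat_lit 341))) (XT.nd (nat_lit 78) (nat_lit 76) (nat_lit 0) (XT.lf (nat_lit 0) (nat_lit 7346836180) (nat_lit 152) (nat_lit 11107874395) (nat_lit 0) (nat_lit 6928129953) (nat_lit 38) (nat_lit 5) (nat_lit 40) (nat_lit 4) (nat_lit 38) (nat_lit 4) (nat_lit 517) (nat_lit 343) (nat_lit 340)) (XT.lf (nat_lit 0) (nat_lit 7126821112) (nat_lit 76) (nat_lit 9643572030) (nat_lit 76) (nat_lit 9093347183) (nat_lit 37) (nat_lit 4) (nat_lit 38) (nat_lit 5) (nat_lit 38) (nat_lit 4) (nat_lit 518) (nat_lit 343) (nat_lit 339)))) (XT.nd (nat_lit 156) (nat_lit 228) (nat_lit 0) (XT.nd (nat_lit 78) (nat_lit 76) (nat_lit 0) (XT.lf (nat_lit 0) (nat_lit 49497837) (nat_lit 152)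 (nat_lit 577432215) (nat_lit 76) (nat_lit 25734077982) (nat_lit 36) (nat_lit 5) (nat_lit 38) (nat_lit 5) (nat_lit 37) (nat_lit 4) (nat_lit 519) (nat_lit 343) (nat_lit 338)) (XT.lf (nat_lit 0) (nat_lit 9367653578) (nat_lit 152) (nat_lit 8911198691) (nat_lit 0) (nat_lit 8589127618) (nat_lit 35) (nat_lit 5) (nat_lit 37) (nat_lit 4) (nat_lit 35) (nat_lit 4) (nat_lit 520) (nat_lit 343) (nat_lit 337))) (XT.nd (nat_lit 78) (nat_lit 152) (nat_lit 0) (XT.lf (nat_lit 0) (nat_lit 9502505429) (nat_lit 76) (nat_lit 9392571592) (nat_lit 76) (nat_lit 8497193042) (nat_lit 34) (nat_lit 4) (nat_lit 35) (nat_lit 5) (nat_lit 35) (nat_lit 4) (nat_lit 521) (nat_lit 343) (nat_lit 336)) (XT.lf (nat_lit 0) (nat_lit 375071690) (nat_lit 76) (nat_lit 306652130) (nat_lit 152) (nat_lit 27252717158) (nat_lit 32) (nat_lit 5) (nat_lit 33) (nat_lit 5) (nat_lit 34) (nat_lit 4) (nat_lit 522) (nat_lit 343) (nat_lit 335))))) (XT.nd (nat_lit 312) (nat_lit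 228) (nat_lit 0) (XT.nd (nat_lit 156) (nat_lit 152) (nat_lit 0) (XT.nd (nat_lit 78) (nat_lit 76) (nat_lit 0) (XT.lf (nat_lit 0) (nat_lit 10061156783) (nat_lit 152) (nat_lit 9451543319) (nat_lit 0) (nat_lit 8974775774) (nat_lit 32) (nat_lit 5) (nat_lit 34) (nat_lit 4) (nat_lit 32) (nat_lit 4) (nat_lit 523) (nat_lit 343) (nat_lit 334)) (XT.lf (nat_lit 0) (nat_lit 9037168334) (nat_lit 76) (nat_lit 10606246997) (nat_lit 76) (nat_lit 9416043975) (nat_lit 31) (nat_lit 4) (nat_lit 32) (nat_lit 5) (nat_lit 32) (nat_lit 4) (nat_lit 524) (nat_lit 343) (nat_lit 333))) (XT.nd (nat_lit 78) (nat_lit 152) (nat_lit 0) (XT.lf (nat_lit 0) (nat_lit 27941918859) (nat_lit 76) (nat_lit 1499912264) (nat_lit 76) (nat_lit 208911172) (nat_lit 31) (nat_lit 4) (nat_lit 32) (nat_lit 5) (nat_lit 32) (nat_lit 4) (nat_lit 525) (nat_lit 343) (nat_lit 332)) (XT.lf (nat_lit 0) (nat_lit 9170755675) (nat_lit 152) (nat_lit 13261670612) (nat_lit 0)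 (nat_lit 7822344707) (nat_lit 29) (nat_lit 5) (nat_lit 31) (nat_lit 4) (nat_lit 29) (nat_lit 4) (nat_lit 526) (nat_lit 343) (nat_lit 331)))) (XT.nd (nat_lit 156) (nat_lit 152) (nat_lit 0) (XT.nd (nat_lit 78) (nat_lit 0) (nat_lit 0) (XT.lf (nat_lit 0) (nat_lit 5172494933) (nat_lit 76) (nat_lit 13573730684) (nat_lit 76) (nat_lit 12133075203) (nat_lit 28) (nat_lit 4) (nat_lit 29) (nat_lit 5) (nat_lit 29) (nat_lit 4) (nat_lit 527) (nat_lit 343) (nat_lit 330)) (XT.lf (nat_lit 0) (nat_lit 24108675914) (nat_lit 76) (nat_lit 4472469487) (nat_lit 76) (nat_lit 2942256226) (nat_lit 28) (nat_lit 4) (nat_lit 29) (nat_lit 5) (nat_lit 29) (nat_lit 4) (nat_lit 528) (nat_lit 343) (nat_lit 329))) (XT.nd (nat_lit 78) (nat_lit 0) (nat_lit 0) (XT.lf (nat_lit 0) (nat_lit 6393994486) (nat_lit 152) (nat_lit 20967105799) (nat_lit 0) (nat_lit 4823933746) (nat_lit 26) (nat_lit 5) (nat_lit 28) (nat_lit 4) (nat_lit 26) (nat_lit 4) (nat_lit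 529) (nat_lit 343) (nat_lit 328)) (XT.lf (nat_lit 0) (nat_lit 15912618201) (nat_lit 152) (nat_lit 2693581807) (nat_lit 0) (nat_lit 14260599406) (nat_lit 26) (nat_lit 5) (nat_lit 28) (nat_lit 4) (nat_lit 26) (nat_lit 4) (nat_lit 530) (nat_lit 343) (nat_lit 327))))))))
noncomputable def xc7 : XT := (XT.nd (nat_lit 61464) (nat_lit 0) (nat_lit 228) (XT.nd (nat_lit 1170) (nat_lit 304) (nat_lit 0) (XT.nd (nat_lit 546) (nat_lit 456) (nat_lit 0) (XT.nd (nat_lit 234) (nat_lit 228) (nat_lit 0) (XT.nd (nat_lit 78) (nat_lit 152) (nat_lit 0) (XT.lf (nat_lit 0) (nat_lit 16135520139) (nat_lit 76) (nat_lit 9582525291) (nat_lit 76) (nat_lit 7850935569) (nat_lit 25) (nat_lit 4) (nat_lit 26) (nat_lit 5) (nat_lit 26) (nat_lit 4) (nat_lit 531) (nat_lit 343) (nat_lit 326)) (XT.nd (nat_lit 78) (nat_lit 0) (nat_lit 0) (XT.lf (nat_lit 0) (nat_lit 990150828) (nat_lit 76) (nat_lit 388663890) (nat_lit 152) (nat_lit 32916478767) (nat_lit 23)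 (nat_lit 5) (nat_lit 24) (nat_lit 5) (nat_lit 25) (nat_lit 4) (nat_lit 532) (nat_lit 343) (nat_lit 325)) (XT.lf (nat_lit 0) (nat_lit 10839015981) (nat_lit 152) (nat_lit 15188668294) (nat_lit 0) (nat_lit 9010039009) (nat_lit 23) (nat_lit 5) (nat_lit 25) (nat_lit 4) (nat_lit 23) (nat_lit 4) (nat_lit 533) (nat_lit 343) (nat_lit 324)))) (XT.nd (nat_lit 156) (nat_lit 152) (nat_lit 0) (XT.nd (nat_lit 78) (nat_lit 0) (nat_lit 0) (XT.lf (nat_lit 0) (nat_lit 3231850500) (nat_lit 76) (nat_lit 17236840341) (nat_lit 76) (nat_lit 15337165631) (nat_lit 22) (nat_lit 4) (nat_lit 23) (nat_lit 5) (nat_lit 23) (nat_lit 4) (nat_lit 534) (nat_lit 343) (nat_lit 323)) (XT.lf (nat_lit 0) (nat_lit 22220599086) (nat_lit 76) (nat_lit 8172289690) (nat_lit 76) (nat_lit 6203976398) (nat_lit 22) (nat_lit 4) (nat_lit 23) (nat_lit 5) (nat_lit 23) (nat_lit 4) (nat_lit 535) (nat_lit 343) (nat_lit 322))) (XT.nd (nat_lit 78) (nat_lit 0) (nat_lit 0)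 (XT.lf (nat_lit 0) (nat_lit 3046007955) (nat_lit 152) (nat_lit 33297188024) (nat_lit 0) (nat_lit 1070325730) (nat_lit 20) (nat_lit 5) (nat_lit 22) (nat_lit 4) (nat_lit 20) (nat_lit 4) (nat_lit 536) (nat_lit 343) (nat_lit 321)) (XT.lf (nat_lit 0) (nat_lit 12531537725) (nat_lit 152) (nat_lit 15225774247) (nat_lit 0) (nat_lit 10493041476) (nat_lit 20) (nat_lit 5) (nat_lit 22) (nat_lit 4) (nat_lit 20) (nat_lit 4) (nat_lit 537) (nat_lit 343) (nat_lit 320))))) (XT.nd (nat_lit 312) (nat_lit 228) (nat_lit 0) (XT.nd (nat_lit 156) (nat_lit 152) (nat_lit 0) (XT.nd (nat_lit 78) (nat_lit 0) (nat_lit 0) (XT.lf (nat_lit 0) (nat_lit 3167963757) (nat_lit 76) (nat_lit 19023555496) (nat_lit 76) (nat_lit 16924074757) (nat_lit 19) (nat_lit 4) (nat_lit 20) (nat_lit 5) (nat_lit 20) (nat_lit 4) (nat_lit 538) (nat_lit 343) (nat_lit 319)) (XT.lf (nat_lit 0) (nat_lit 22146751920) (nat_lit 76) (nat_lit 10009145683) (nat_lit 76) (nat_lit 7850456700)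 (nat_lit 19) (nat_lit 4) (nat_lit 20) (nat_lit 5) (nat_lit 20) (nat_lit 4) (nat_lit 539) (nat_lit 343) (nat_lit 318))) (XT.nd (nat_lit 78) (nat_lit 0) (nat_lit 0) (XT.lf (nat_lit 0) (nat_lit 492840363) (nat_lit 76) (nat_lit 841648836) (nat_lit 152) (nat_lit 39592868403) (nat_lit 17) (nat_lit 5) (nat_lit 18) (nat_lit 5) (nat_lit 19) (nat_lit 4) (nat_lit 540) (nat_lit 343) (nat_lit 317)) (XT.lf (nat_lit 0) (nat_lit 10765634699) (nat_lit 152) (nat_lit 22544344979) (nat_lit 0) (nat_lit 8559826775) (nat_lit 17) (nat_lit 5) (nat_lit 19) (nat_lit 4) (nat_lit 17) (nat_lit 4) (nat_lit 541) (nat_lit 343) (nat_lit 316)))) (XT.nd (nat_lit 156) (nat_lit 152) (nat_lit 0) (XT.nd (nat_lit 78) (nat_lit 76) (nat_lit 0) (XT.lf (nat_lit 0) (nat_lit 20355647910) (nat_lit 152) (nat_lit 4391369015) (nat_lit 0) (nat_lit 18097234229) (nat_lit 17) (nat_lit 5) (nat_lit 19) (nat_lit 4) (nat_lit 17) (nat_lit 4) (nat_lit 542) (nat_lit 343)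 (nat_lit 315)) (XT.lf (nat_lit 0) (nat_lit 14327952883) (nat_lit 76) (nat_lit 15914594177) (nat_lit 76) (nat_lit 13605106946) (nat_lit 16) (nat_lit 4) (nat_lit 17) (nat_lit 5) (nat_lit 17) (nat_lit 4) (nat_lit 543) (nat_lit 343) (nat_lit 314))) (XT.nd (nat_lit 78) (nat_lit 152) (nat_lit 0) (XT.lf (nat_lit 0) (nat_lit 33443567666) (nat_lit 76) (nat_lit 6899576064) (nat_lit 76) (nat_lit 4540502861) (nat_lit 16) (nat_lit 4) (nat_lit 17) (nat_lit 5) (nat_lit 17) (nat_lit 4) (nat_lit 544) (nat_lit 343) (nat_lit 313)) (XT.lf (nat_lit 0) (nat_lit 4668037483) (nat_lit 152) (nat_lit 38951395539) (nat_lit 0) (nat_lit 2330935616) (nat_lit 14) (nat_lit 5) (nat_lit 16) (nat_lit 4) (nat_lit 14) (nat_lit 4) (nat_lit 545) (nat_lit 343) (nat_lit 312)))))) (XT.nd (nat_lit 624) (nat_lit 0) (nat_lit 0) (XT.nd (nat_lit 312) (nat_lit 228) (nat_lit 0) (XT.nd (nat_lit 156) (nat_lit 76) (nat_lit 0) (XT.nd (nat_lit 78) (nat_lit 0) (nat_lit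 0) (XT.lf (nat_lit 0) (nat_lit 14121837915) (nat_lit 152) (nat_lit 21184740338) (nat_lit 0) (nat_lit 11739357860) (nat_lit 14) (nat_lit 5) (nat_lit 16) (nat_lit 4) (nat_lit 14) (nat_lit 4) (nat_lit 546) (nat_lit 343) (nat_lit 311)) (XT.lf (nat_lit 0) (nat_lit 23738169547) (nat_lit 152) (nat_lit 3128200875) (nat_lit 0) (nat_lit 21311632999) (nat_lit 14) (nat_lit 5) (nat_lit 16) (nat_lit 4) (nat_lit 14) (nat_lit 4) (nat_lit 547) (nat_lit 343) (nat_lit 310))) (XT.nd (nat_lit 78) (nat_lit 0) (nat_lit 0) (XT.lf (nat_lit 0) (nat_lit 15537186888) (nat_lit 76) (nat_lit 18137601056) (nat_lit 76) (nat_lit 15668291213) (nat_lit 13) (nat_lit 4) (nat_lit 14) (nat_lit 5) (nat_lit 14) (nat_lit 4) (nat_lit 548) (nat_lit 343) (nat_lit 309)) (XT.lf (nat_lit 0) (nat_lit 34592941035) (nat_lit 76) (nat_lit 9231773726) (nat_lit 76) (nat_lit 6720936413) (nat_lit 13) (nat_lit 4) (nat_lit 14) (nat_lit 5) (nat_lit 14) (nat_lit 4) (nat_lit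 549) (nat_lit 343) (nat_lit 308)))) (XT.nd (nat_lit 156) (nat_lit 76) (nat_lit 0) (XT.nd (nat_lit 78) (nat_lit 0) (nat_lit 0) (XT.lf (nat_lit 0) (nat_lit 2226345375) (nat_lit 76) (nat_lit 127103206) (nat_lit 152) (nat_lit 49432913816) (nat_lit 11) (nat_lit 5) (nat_lit 12) (nat_lit 5) (nat_lit 13) (nat_lit 4) (nat_lit 550) (nat_lit 343) (nat_lit 307)) (XT.lf (nat_lit 0) (nat_lit 11702528842) (nat_lit 152) (nat_lit 32167968069) (nat_lit 0) (nat_lit 9187675571) (nat_lit 11) (nat_lit 5) (nat_lit 13) (nat_lit 4) (nat_lit 11) (nat_lit 4) (nat_lit 551) (nat_lit 343) (nat_lit 306))) (XT.nd (nat_lit 78) (nat_lit 76) (nat_lit 0) (XT.lf (nat_lit 0) (nat_lit 21222600512) (nat_lit 152) (nat_lit 14477970437) (nat_lit 0) (nat_lit 18670850621) (nat_lit 11) (nat_lit 5) (nat_lit 13) (nat_lit 4) (nat_lit 11) (nat_lit 4) (nat_lit 552) (nat_lit 343) (nat_lit 305)) (XT.lf (nat_lit 0) (nat_lit 3596842293) (nat_lit 76) (nat_lit 27358493061)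 (nat_lit 76) (nat_lit 24770921210) (nat_lit 10) (nat_lit 4) (nat_lit 11) (nat_lit 5) (nat_lit 11) (nat_lit 4) (nat_lit 553) (nat_lit 343) (nat_lit 304))))) (XT.nd (nat_lit 59358) (nat_lit 0) (nat_lit 2128) (XT.nd (nat_lit 59202) (nat_lit 0) (nat_lit 2508) (XT.nd (nat_lit 78) (nat_lit 0) (nat_lit 0) (XT.lf (nat_lit 0) (nat_lit 22296729783) (nat_lit 76) (nat_lit 18723082368) (nat_lit 76) (nat_lit 16100731915) (nat_lit 10) (nat_lit 4) (nat_lit 11) (nat_lit 5) (nat_lit 11) (nat_lit 4) (nat_lit 554) (nat_lit 343) (nat_lit 303)) (XT.lf (nat_lit 0) (nat_lit 41349891740) (nat_lit 76) (nat_lit 9932992480) (nat_lit 76) (nat_lit 7276876393) (nat_lit 10) (nat_lit 4) (nat_lit 11) (nat_lit 5) (nat_lit 11) (nat_lit 4) (nat_lit 555) (nat_lit 343) (nat_lit 302))) (XT.nd (nat_lit 78) (nat_lit 76) (nat_lit 0) (XT.lf (nat_lit 0) (nat_lit 4777390807) (nat_lit 152) (nat_lit 2030467478) (nat_lit 0) (nat_lit 4777390807) (nat_lit 44) (nat_lit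 5) (nat_lit 46) (nat_lit 4) (nat_lit 44) (nat_lit 4) (nat_lit 512) (nat_lit 344) (nat_lit 344)) (XT.lf (nat_lit 0) (nat_lit 13934231875) (nat_lit 76) (nat_lit 4906761876) (nat_lit 76) (nat_lit 4749721767) (nat_lit 43) (nat_lit 4) (nat_lit 44) (nat_lit 5) (nat_lit 44) (nat_lit 4) (nat_lit 513) (nat_lit 344) (nat_lit 343)))) (XT.nd (nat_lit 156) (nat_lit 152) (nat_lit 0) (XT.nd (nat_lit 78) (nat_lit 76) (nat_lit 0) (XT.lf (nat_lit 0) (nat_lit 4277299039) (nat_lit 152) (nat_lit 15768753335) (nat_lit 0) (nat_lit 3976807548) (nat_lit 41) (nat_lit 5) (nat_lit 43) (nat_lit 4) (nat_lit 41) (nat_lit 4) (nat_lit 514) (nat_lit 344) (nat_lit 342)) (XT.lf (nat_lit 0) (nat_lit 2022387277) (nat_lit 76) (nat_lit 11444381980) (nat_lit 76) (nat_lit 11000176543) (nat_lit 40) (nat_lit 4) (nat_lit 41) (nat_lit 5) (nat_lit 41) (nat_lit 4) (nat_lit 515) (nat_lit 344) (nat_lit 341))) (XT.nd (nat_lit 78) (nat_lit 152) (nat_lit 0) (XT.lf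 (nat_lit 0) (nat_lit 20318568387) (nat_lit 76) (nat_lit 2595035019) (nat_lit 76) (nat_lit 2011301480) (nat_lit 40) (nat_lit 4) (nat_lit 41) (nat_lit 5) (nat_lit 41) (nat_lit 4) (nat_lit 516) (nat_lit 344) (nat_lit 340)) (XT.lf (nat_lit 0) (nat_lit 7125647919) (nat_lit 152) (nat_lit 11840873303) (nat_lit 0) (nat_lit 6427397707) (nat_lit 38) (nat_lit 5) (nat_lit 40) (nat_lit 4) (nat_lit 38) (nat_lit 4) (nat_lit 517) (nat_lit 344) (nat_lit 339))))))) (XT.nd (nat_lit 1248) (nat_lit 760) (nat_lit 0) (XT.nd (nat_lit 624) (nat_lit 608) (nat_lit 0) (XT.nd (nat_lit 312) (nat_lit 228) (nat_lit 0) (XT.nd (nat_lit 156) (nat_lit 228) (nat_lit 0) (XT.nd (nat_lit 78) (nat_lit 0) (nat_lit 0) (XT.lf (nat_lit 0) (nat_lit 6205745236) (nat_lit 76) (nat_lit 10248924105) (nat_lit 76) (nat_lit 9422985914) (nat_lit 37) (nat_lit 4) (nat_lit 38) (nat_lit 5) (nat_lit 38) (nat_lit 4) (nat_lit 518) (nat_lit 344) (nat_lit 338)) (XT.lf (nat_lit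 0) (nat_lit 24694563997) (nat_lit 76) (nat_lit 1316412616) (nat_lit 76) (nat_lit 366505512) (nat_lit 37) (nat_lit 4) (nat_lit 38) (nat_lit 5) (nat_lit 38) (nat_lit 4) (nat_lit 519) (nat_lit 344) (nat_lit 337))) (XT.nd (nat_lit 78) (nat_lit 76) (nat_lit 0) (XT.lf (nat_lit 0) (nat_lit 8855654179) (nat_lit 152) (nat_lit 10215438668) (nat_lit 0) (nat_lit 7816561683) (nat_lit 35) (nat_lit 5) (nat_lit 37) (nat_lit 4) (nat_lit 35) (nat_lit 4) (nat_lit 520) (nat_lit 344) (nat_lit 336)) (XT.lf (nat_lit 0) (nat_lit 8003765656) (nat_lit 76) (nat_lit 10281822873) (nat_lit 76) (nat_lit 9129281261) (nat_lit 34) (nat_lit 4) (nat_lit 35) (nat_lit 5) (nat_lit 35) (nat_lit 4) (nat_lit 521) (nat_lit 344) (nat_lit 335)))) (XT.nd (nat_lit 156) (nat_lit 76) (nat_lit 0) (XT.nd (nat_lit 78) (nat_lit 152) (nat_lit 0) (XT.lf (nat_lit 0) (nat_lit 26646775878) (nat_lit 76) (nat_lit 1287863141) (nat_lit 76) (nat_lit 25176755) (nat_lit 34)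 (nat_lit 4) (nat_lit 35) (nat_lit 5) (nat_lit 35) (nat_lit 4) (nat_lit 522) (nat_lit 344) (nat_lit 334)) (XT.lf (nat_lit 0) (nat_lit 9249327734) (nat_lit 152) (nat_lit 11347096558) (nat_lit 0) (nat_lit 7919596609) (nat_lit 32) (nat_lit 5) (nat_lit 34) (nat_lit 4) (nat_lit 32) (nat_lit 4) (nat_lit 523) (nat_lit 344) (nat_lit 333))) (XT.nd (nat_lit 78) (nat_lit 0) (nat_lit 0) (XT.lf (nat_lit 0) (nat_lit 6940160878) (nat_lit 76) (nat_lit 11790697426) (nat_lit 76) (nat_lit 10360168231) (nat_lit 31) (nat_lit 4) (nat_lit 32) (nat_lit 5) (nat_lit 32) (nat_lit 4) (nat_lit 524) (nat_lit 344) (nat_lit 332)) (XT.lf (nat_lit 0) (nat_lit 25685951218) (nat_lit 76) (nat_lit 2763571304) (nat_lit 76) (nat_lit 1235179904) (nat_lit 31) (nat_lit 4) (nat_lit 32) (nat_lit 5) (nat_lit 32) (nat_lit 4) (nat_lit 525) (nat_lit 344) (nat_lit 331))))) (XT.nd (nat_lit 312) (nat_lit 228) (nat_lit 0) (XT.nd (nat_lit 156) (nat_lit 152) (nat_lit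 0) (XT.nd (nat_lit 78) (nat_lit 76) (nat_lit 0) (XT.lf (nat_lit 0) (nat_lit 8049207605) (nat_lit 152) (nat_lit 15770191028) (nat_lit 0) (nat_lit 6473087946) (nat_lit 29) (nat_lit 5) (nat_lit 31) (nat_lit 4) (nat_lit 29) (nat_lit 4) (nat_lit 526) (nat_lit 344) (nat_lit 330)) (XT.lf (nat_lit 0) (nat_lit 2455005324) (nat_lit 76) (nat_lit 15065408380) (nat_lit 76) (nat_lit 13399730941) (nat_lit 28) (nat_lit 4) (nat_lit 29) (nat_lit 5) (nat_lit 29) (nat_lit 4) (nat_lit 527) (nat_lit 344) (nat_lit 329))) (XT.nd (nat_lit 78) (nat_lit 152) (nat_lit 0) (XT.lf (nat_lit 0) (nat_lit 21236773957) (nat_lit 76) (nat_lit 6041209525) (nat_lit 76) (nat_lit 4288582785) (nat_lit 28) (nat_lit 4) (nat_lit 29) (nat_lit 5) (nat_lit 29) (nat_lit 4) (nat_lit 528) (nat_lit 344) (nat_lit 328)) (XT.lf (nat_lit 0) (nat_lit 4951931135) (nat_lit 152) (nat_lit 24111922617) (nat_lit 0) (nat_lit 3168393721) (nat_lit 26) (nat_lit 5) (nat_lit 28)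 (nat_lit 4) (nat_lit 26) (nat_lit 4) (nat_lit 529) (nat_lit 344) (nat_lit 327)))) (XT.nd (nat_lit 156) (nat_lit 152) (nat_lit 0) (XT.nd (nat_lit 78) (nat_lit 76) (nat_lit 0) (XT.lf (nat_lit 0) (nat_lit 14394761901) (nat_lit 152) (nat_lit 5989871473) (nat_lit 0) (nat_lit 12531653559) (nat_lit 26) (nat_lit 5) (nat_lit 28) (nat_lit 4) (nat_lit 26) (nat_lit 4) (nat_lit 530) (nat_lit 344) (nat_lit 326)) (XT.lf (nat_lit 0) (nat_lit 12623640025) (nat_lit 76) (nat_lit 11469205377) (nat_lit 76) (nat_lit 9528843707) (nat_lit 25) (nat_lit 4) (nat_lit 26) (nat_lit 5) (nat_lit 26) (nat_lit 4) (nat_lit 531) (nat_lit 344) (nat_lit 325))) (XT.nd (nat_lit 78) (nat_lit 152) (nat_lit 0) (XT.lf (nat_lit 0) (nat_lit 31622736300) (nat_lit 76) (nat_lit 2371751999) (nat_lit 76) (nat_lit 356387098) (nat_lit 25) (nat_lit 4) (nat_lit 26) (nat_lit 5) (nat_lit 26) (nat_lit 4) (nat_lit 532) (nat_lit 344) (nat_lit 324)) (XT.lf (nat_lit 0) (nat_lit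 8991173876) (nat_lit 152) (nat_lit 19142011006) (nat_lit 0) (nat_lit 6963811185) (nat_lit 23) (nat_lit 5) (nat_lit 25) (nat_lit 4) (nat_lit 23) (nat_lit 4) (nat_lit 533) (nat_lit 344) (nat_lit 323)))))) (XT.nd (nat_lit 624) (nat_lit 304) (nat_lit 0) (XT.nd (nat_lit 312) (nat_lit 228) (nat_lit 0) (XT.nd (nat_lit 156) (nat_lit 152) (nat_lit 0) (XT.nd (nat_lit 78) (nat_lit 76) (nat_lit 0) (XT.lf (nat_lit 0) (nat_lit 18518402843) (nat_lit 152) (nat_lit 927398465) (nat_lit 0) (nat_lit 16422401571) (nat_lit 23) (nat_lit 5) (nat_lit 25) (nat_lit 4) (nat_lit 23) (nat_lit 4) (nat_lit 534) (nat_lit 344) (nat_lit 322)) (XT.lf (nat_lit 0) (nat_lit 17901452266) (nat_lit 76) (nat_lit 10461396396) (nat_lit 76) (nat_lit 8298755725) (nat_lit 22) (nat_lit 4) (nat_lit 23) (nat_lit 5) (nat_lit 23) (nat_lit 4) (nat_lit 535) (nat_lit 344) (nat_lit 321))) (XT.nd (nat_lit 78) (nat_lit 76) (nat_lit 0) (XT.lf (nat_lit 0) (nat_lit 872657942)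 (nat_lit 152) (nat_lit 455843492) (nat_lit 76) (nat_lit 36153947226) (nat_lit 21) (nat_lit 5) (nat_lit 23) (nat_lit 5) (nat_lit 22) (nat_lit 4) (nat_lit 536) (nat_lit 344) (nat_lit 320)) (XT.lf (nat_lit 0) (nat_lit 10271659441) (nat_lit 152) (nat_lit 20002007237) (nat_lit 0) (nat_lit 8048209789) (nat_lit 20) (nat_lit 5) (nat_lit 22) (nat_lit 4) (nat_lit 20) (nat_lit 4) (nat_lit 537) (nat_lit 344) (nat_lit 319)))) (XT.nd (nat_lit 156) (nat_lit 152) (nat_lit 0) (XT.nd (nat_lit 78) (nat_lit 76) (nat_lit 0) (XT.lf (nat_lit 0) (nat_lit 19833960797) (nat_lit 152) (nat_lit 1804783951) (nat_lit 0) (nat_lit 17551302901) (nat_lit 20) (nat_lit 5) (nat_lit 22) (nat_lit 4) (nat_lit 20) (nat_lit 4) (nat_lit 538) (nat_lit 344) (nat_lit 318)) (XT.lf (nat_lit 0) (nat_lit 17004709687) (nat_lit 76) (nat_lit 12709383731) (nat_lit 76) (nat_lit 10369242105) (nat_lit 19) (nat_lit 4) (nat_lit 20) (nat_lit 5) (nat_lit 20) (nat_lit 4) (nat_lit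 539) (nat_lit 344) (nat_lit 317))) (XT.nd (nat_lit 78) (nat_lit 152) (nat_lit 0) (XT.lf (nat_lit 0) (nat_lit 36152617602) (nat_lit 76) (nat_lit 3625072063) (nat_lit 76) (nat_lit 1229120989) (nat_lit 19) (nat_lit 4) (nat_lit 20) (nat_lit 5) (nat_lit 20) (nat_lit 4) (nat_lit 540) (nat_lit 344) (nat_lit 316)) (XT.lf (nat_lit 0) (nat_lit 8085970221) (nat_lit 152) (nat_lit 28160646718) (nat_lit 0) (nat_lit 5707198373) (nat_lit 17) (nat_lit 5) (nat_lit 19) (nat_lit 4) (nat_lit 17) (nat_lit 4) (nat_lit 541) (nat_lit 344) (nat_lit 315))))) (XT.nd (nat_lit 312) (nat_lit 76) (nat_lit 0) (XT.nd (nat_lit 156) (nat_lit 152) (nat_lit 0) (XT.nd (nat_lit 78) (nat_lit 76) (nat_lit 0) (XT.lf (nat_lit 0) (nat_lit 17612661508) (nat_lit 152) (nat_lit 10134682238) (nat_lit 0) (nat_lit 15182816109) (nat_lit 17) (nat_lit 5) (nat_lit 19) (nat_lit 4) (nat_lit 17) (nat_lit 4) (nat_lit 542) (nat_lit 344) (nat_lit 314)) (XT.lf (nat_lit 0)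 (nat_lit 8344570194) (nat_lit 76) (nat_lit 19035996934) (nat_lit 76) (nat_lit 16556565564) (nat_lit 16) (nat_lit 4) (nat_lit 17) (nat_lit 5) (nat_lit 17) (nat_lit 4) (nat_lit 543) (nat_lit 344) (nat_lit 313))) (XT.nd (nat_lit 78) (nat_lit 152) (nat_lit 0) (XT.lf (nat_lit 0) (nat_lit 27338081800) (nat_lit 76) (nat_lit 10082221282) (nat_lit 76) (nat_lit 7554648192) (nat_lit 16) (nat_lit 4) (nat_lit 17) (nat_lit 5) (nat_lit 17) (nat_lit 4) (nat_lit 544) (nat_lit 344) (nat_lit 312)) (XT.lf (nat_lit 0) (nat_lit 609825087) (nat_lit 76) (nat_lit 958715657) (nat_lit 152) (nat_lit 44478327004) (nat_lit 14) (nat_lit 5) (nat_lit 15) (nat_lit 5) (nat_lit 16) (nat_lit 4) (nat_lit 545) (nat_lit 344) (nat_lit 311)))) (XT.nd (nat_lit 156) (nat_lit 76) (nat_lit 0) (XT.nd (nat_lit 78) (nat_lit 0) (nat_lit 0) (XT.lf (nat_lit 0) (nat_lit 10953478709) (nat_lit 152) (nat_lit 27780932976) (nat_lit 0) (nat_lit 8410089571) (nat_lit 14)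 (nat_lit 5) (nat_lit 16) (nat_lit 4) (nat_lit 14) (nat_lit 4) (nat_lit 546) (nat_lit 344) (nat_lit 310)) (XT.lf (nat_lit 0) (nat_lit 20511900917) (nat_lit 152) (nat_lit 9840666598) (nat_lit 0) (nat_lit 17925738485) (nat_lit 14) (nat_lit 5) (nat_lit 16) (nat_lit 4) (nat_lit 14) (nat_lit 4) (nat_lit 547) (nat_lit 344) (nat_lit 309))) (XT.nd (nat_lit 78) (nat_lit 0) (nat_lit 0) (XT.lf (nat_lit 0) (nat_lit 8575996783) (nat_lit 76) (nat_lit 21749384573) (nat_lit 76) (nat_lit 19121694670) (nat_lit 13) (nat_lit 4) (nat_lit 14) (nat_lit 5) (nat_lit 14) (nat_lit 4) (nat_lit 548) (nat_lit 344) (nat_lit 308)) (XT.lf (nat_lit 0) (nat_lit 27519971170) (nat_lit 76) (nat_lit 12899677322) (nat_lit 76) (nat_lit 10231669487) (nat_lit 13) (nat_lit 4) (nat_lit 14) (nat_lit 5) (nat_lit 14) (nat_lit 4) (nat_lit 549) (nat_lit 344) (nat_lit 307))))))))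
noncomputable def xc8 : XT := (XT.nd (nat_lit 61308) (nat_lit 0) (nat_lit 0) (XT.nd (nat_lit 60060) (nat_lit 0) (nat_lit 988) (XT.nd (nat_lit 59436) (nat_lit 0) (nat_lit 2052) (XT.nd (nat_lit 234) (nat_lit 76) (nat_lit 0) (XT.nd (nat_lit 78) (nat_lit 152) (nat_lit 0) (XT.lf (nat_lit 0) (nat_lit 46811960990) (nat_lit 76) (nat_lit 3895084447) (nat_lit 76) (nat_lit 1187932989) (nat_lit 13) (nat_lit 4) (nat_lit 14) (nat_lit 5) (nat_lit 14) (nat_lit 4) (nat_lit 550) (nat_lit 344) (nat_lit 306)) (XT.nd (nat_lit 78) (nat_lit 0) (nat_lit 0) (XT.lf (nat_lit 0) (nat_lit 8043229625) (nat_lit 152) (nat_lit 39750103930) (nat_lit 0) (nat_lit 5378030618) (nat_lit 11) (nat_lit 5) (nat_lit 13) (nat_lit 4) (nat_lit 11) (nat_lit 4) (nat_lit 551) (nat_lit 344) (nat_lit 305)) (XT.lf (nat_lit 0) (nat_lit 17510338721) (nat_lit 152) (nat_lit 22166545795) (nat_lit 0) (nat_lit 14809317753) (nat_lit 11) (nat_lit 5) (nat_lit 13) (nat_lit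 4) (nat_lit 11) (nat_lit 4) (nat_lit 552) (nat_lit 344) (nat_lit 304)))) (XT.nd (nat_lit 156) (nat_lit 0) (nat_lit 0) (XT.nd (nat_lit 78) (nat_lit 76) (nat_lit 0) (XT.lf (nat_lit 0) (nat_lit 27157078540) (nat_lit 152) (nat_lit 4265259729) (nat_lit 0) (nat_lit 24421278970) (nat_lit 11) (nat_lit 5) (nat_lit 13) (nat_lit 4) (nat_lit 11) (nat_lit 4) (nat_lit 553) (nat_lit 344) (nat_lit 303)) (XT.lf (nat_lit 0) (nat_lit 14247414542) (nat_lit 76) (nat_lit 22881418596) (nat_lit 76) (nat_lit 20111853392) (nat_lit 10) (nat_lit 4) (nat_lit 11) (nat_lit 5) (nat_lit 11) (nat_lit 4) (nat_lit 554) (nat_lit 344) (nat_lit 302))) (XT.nd (nat_lit 58968) (nat_lit 0) (nat_lit 2736) (XT.lf (nat_lit 0) (nat_lit 33201230686) (nat_lit 76) (nat_lit 14141251289) (nat_lit 76) (nat_lit 11338903917) (nat_lit 10) (nat_lit 4) (nat_lit 11) (nat_lit 5) (nat_lit 11) (nat_lit 4) (nat_lit 555) (nat_lit 344) (nat_lit 301)) (XT.lf (nat_lit 0) (nat_lit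 3033417438) (nat_lit 76) (nat_lit 4073833263) (nat_lit 76) (nat_lit 4073833263) (nat_lit 46) (nat_lit 4) (nat_lit 47) (nat_lit 5) (nat_lit 47) (nat_lit 4) (nat_lit 510) (nat_lit 345) (nat_lit 345))))) (XT.nd (nat_lit 312) (nat_lit 304) (nat_lit 0) (XT.nd (nat_lit 156) (nat_lit 228) (nat_lit 0) (XT.nd (nat_lit 78) (nat_lit 0) (nat_lit 0) (XT.lf (nat_lit 0) (nat_lit 656406469) (nat_lit 152) (nat_lit 21612791285) (nat_lit 0) (nat_lit 494655156) (nat_lit 44) (nat_lit 5) (nat_lit 46) (nat_lit 4) (nat_lit 44) (nat_lit 4) (nat_lit 511) (nat_lit 345) (nat_lit 344)) (XT.lf (nat_lit 0) (nat_lit 9628029245) (nat_lit 152) (nat_lit 4235886798) (nat_lit 0) (nat_lit 9309237823) (nat_lit 44) (nat_lit 5) (nat_lit 46) (nat_lit 4) (nat_lit 44) (nat_lit 4) (nat_lit 512) (nat_lit 345) (nat_lit 343))) (XT.nd (nat_lit 78) (nat_lit 152) (nat_lit 0) (XT.lf (nat_lit 0) (nat_lit 13582561522) (nat_lit 76) (nat_lit 5242373484) (nat_lit 76)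 (nat_lit 4771115936) (nat_lit 43) (nat_lit 4) (nat_lit 44) (nat_lit 5) (nat_lit 44) (nat_lit 4) (nat_lit 513) (nat_lit 345) (nat_lit 342)) (XT.lf (nat_lit 0) (nat_lit 4161189245) (nat_lit 152) (nat_lit 16309923084) (nat_lit 0) (nat_lit 3559943699) (nat_lit 41) (nat_lit 5) (nat_lit 43) (nat_lit 4) (nat_lit 41) (nat_lit 4) (nat_lit 514) (nat_lit 345) (nat_lit 341)))) (XT.nd (nat_lit 156) (nat_lit 228) (nat_lit 0) (XT.nd (nat_lit 78) (nat_lit 0) (nat_lit 0) (XT.lf (nat_lit 0) (nat_lit 1297078861) (nat_lit 76) (nat_lit 11960810156) (nat_lit 76) (nat_lit 11220036507) (nat_lit 40) (nat_lit 4) (nat_lit 41) (nat_lit 5) (nat_lit 41) (nat_lit 4) (nat_lit 515) (nat_lit 345) (nat_lit 340)) (XT.lf (nat_lit 0) (nat_lit 19424941206) (nat_lit 76) (nat_lit 3194864621) (nat_lit 76) (nat_lit 2318626794) (nat_lit 40) (nat_lit 4) (nat_lit 41) (nat_lit 5) (nat_lit 41) (nat_lit 4) (nat_lit 516) (nat_lit 345) (nat_lit 339))) (XT.nd (nat_lit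 78) (nat_lit 76) (nat_lit 0) (XT.lf (nat_lit 0) (nat_lit 6723890373) (nat_lit 152) (nat_lit 12941172201) (nat_lit 0) (nat_lit 5745486056) (nat_lit 38) (nat_lit 5) (nat_lit 40) (nat_lit 4) (nat_lit 38) (nat_lit 4) (nat_lit 517) (nat_lit 345) (nat_lit 338)) (XT.lf (nat_lit 0) (nat_lit 4915112454) (nat_lit 76) (nat_lit 11042206976) (nat_lit 76) (nat_lit 9939833746) (nat_lit 37) (nat_lit 4) (nat_lit 38) (nat_lit 5) (nat_lit 38) (nat_lit 4) (nat_lit 518) (nat_lit 345) (nat_lit 337)))))) (XT.nd (nat_lit 624) (nat_lit 456) (nat_lit 0) (XT.nd (nat_lit 312) (nat_lit 380) (nat_lit 0) (XT.nd (nat_lit 156) (nat_lit 76) (nat_lit 0) (XT.nd (nat_lit 78) (nat_lit 152) (nat_lit 0) (XT.lf (nat_lit 0) (nat_lit 23240401333) (nat_lit 76) (nat_lit 2190890299) (nat_lit 76) (nat_lit 968158903) (nat_lit 37) (nat_lit 4) (nat_lit 38) (nat_lit 5) (nat_lit 38) (nat_lit 4) (nat_lit 519) (nat_lit 345) (nat_lit 336)) (XT.lf (nat_lit 0) (nat_lit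 8159637751) (nat_lit 152) (nat_lit 11894271434) (nat_lit 0) (nat_lit 6859070773) (nat_lit 35) (nat_lit 5) (nat_lit 37) (nat_lit 4) (nat_lit 35) (nat_lit 4) (nat_lit 520) (nat_lit 345) (nat_lit 335))) (XT.nd (nat_lit 78) (nat_lit 0) (nat_lit 0) (XT.lf (nat_lit 0) (nat_lit 6127886979) (nat_lit 76) (nat_lit 11362990612) (nat_lit 76) (nat_lit 9952278861) (nat_lit 34) (nat_lit 4) (nat_lit 35) (nat_lit 5) (nat_lit 35) (nat_lit 4) (nat_lit 521) (nat_lit 345) (nat_lit 334)) (XT.lf (nat_lit 0) (nat_lit 24612029389) (nat_lit 76) (nat_lit 2448058532) (nat_lit 76) (nat_lit 930410108) (nat_lit 34) (nat_lit 4) (nat_lit 35) (nat_lit 5) (nat_lit 35) (nat_lit 4) (nat_lit 522) (nat_lit 345) (nat_lit 333)))) (XT.nd (nat_lit 156) (nat_lit 152) (nat_lit 0) (XT.nd (nat_lit 78) (nat_lit 76) (nat_lit 0) (XT.lf (nat_lit 0) (nat_lit 8249586188) (nat_lit 152) (nat_lit 13625400513) (nat_lit 0) (nat_lit 6675343046) (nat_lit 32) (nat_lit 5)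 (nat_lit 34) (nat_lit 4) (nat_lit 32) (nat_lit 4) (nat_lit 523) (nat_lit 345) (nat_lit 332)) (XT.lf (nat_lit 0) (nat_lit 4457554023) (nat_lit 76) (nat_lit 13171474847) (nat_lit 76) (nat_lit 11499369502) (nat_lit 31) (nat_lit 4) (nat_lit 32) (nat_lit 5) (nat_lit 32) (nat_lit 4) (nat_lit 524) (nat_lit 345) (nat_lit 331))) (XT.nd (nat_lit 78) (nat_lit 152) (nat_lit 0) (XT.lf (nat_lit 0) (nat_lit 23049014086) (nat_lit 76) (nat_lit 4221250288) (nat_lit 76) (nat_lit 2454133093) (nat_lit 31) (nat_lit 4) (nat_lit 32) (nat_lit 5) (nat_lit 32) (nat_lit 4) (nat_lit 525) (nat_lit 345) (nat_lit 330)) (XT.lf (nat_lit 0) (nat_lit 6735385501) (nat_lit 152) (nat_lit 18670527658) (nat_lit 0) (nat_lit 4930179959) (nat_lit 29) (nat_lit 5) (nat_lit 31) (nat_lit 4) (nat_lit 29) (nat_lit 4) (nat_lit 526) (nat_lit 345) (nat_lit 329))))) (XT.nd (nat_lit 312) (nat_lit 228) (nat_lit 0) (XT.nd (nat_lit 156) (nat_lit 152) (nat_lit 0) (XT.nd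 (nat_lit 78) (nat_lit 76) (nat_lit 0) (XT.lf (nat_lit 0) (nat_lit 16107126888) (nat_lit 152) (nat_lit 644636507) (nat_lit 0) (nat_lit 14214972045) (nat_lit 29) (nat_lit 5) (nat_lit 31) (nat_lit 4) (nat_lit 29) (nat_lit 4) (nat_lit 527) (nat_lit 345) (nat_lit 328)) (XT.lf (nat_lit 0) (nat_lit 17974387694) (nat_lit 76) (nat_lit 7808891913) (nat_lit 76) (nat_lit 5832320273) (nat_lit 28) (nat_lit 4) (nat_lit 29) (nat_lit 5) (nat_lit 29) (nat_lit 4) (nat_lit 528) (nat_lit 345) (nat_lit 327))) (XT.nd (nat_lit 78) (nat_lit 0) (nat_lit 0) (XT.lf (nat_lit 0) (nat_lit 3312746197) (nat_lit 152) (nat_lit 27658573821) (nat_lit 0) (nat_lit 1314173677) (nat_lit 26) (nat_lit 5) (nat_lit 28) (nat_lit 4) (nat_lit 26) (nat_lit 4) (nat_lit 529) (nat_lit 345) (nat_lit 326)) (XT.lf (nat_lit 0) (nat_lit 12681991575) (nat_lit 152) (nat_lit 9683583694) (nat_lit 0) (nat_lit 10606165727) (nat_lit 26) (nat_lit 5) (nat_lit 28) (nat_lit 4)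 (nat_lit 26) (nat_lit 4) (nat_lit 530) (nat_lit 345) (nat_lit 325)))) (XT.nd (nat_lit 156) (nat_lit 152) (nat_lit 0) (XT.nd (nat_lit 78) (nat_lit 0) (nat_lit 0) (XT.lf (nat_lit 0) (nat_lit 8710796446) (nat_lit 76) (nat_lit 13560223860) (nat_lit 76) (nat_lit 11409394781) (nat_lit 25) (nat_lit 4) (nat_lit 26) (nat_lit 5) (nat_lit 26) (nat_lit 4) (nat_lit 531) (nat_lit 345) (nat_lit 324)) (XT.lf (nat_lit 0) (nat_lit 27568514815) (nat_lit 76) (nat_lit 4533428090) (nat_lit 76) (nat_lit 2309780341) (nat_lit 25) (nat_lit 4) (nat_lit 26) (nat_lit 5) (nat_lit 26) (nat_lit 4) (nat_lit 532) (nat_lit 345) (nat_lit 323))) (XT.nd (nat_lit 78) (nat_lit 0) (nat_lit 0) (XT.lf (nat_lit 0) (nat_lit 6942996388) (nat_lit 152) (nat_lit 23503921656) (nat_lit 0) (nat_lit 4715476497) (nat_lit 23) (nat_lit 5) (nat_lit 25) (nat_lit 4) (nat_lit 23) (nat_lit 4) (nat_lit 533) (nat_lit 345) (nat_lit 322)) (XT.lf (nat_lit 0) (nat_lit 16400924997)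 (nat_lit 152) (nat_lit 5427989902) (nat_lit 0) (nat_lit 14106765707) (nat_lit 23) (nat_lit 5) (nat_lit 25) (nat_lit 4) (nat_lit 23) (nat_lit 4) (nat_lit 534) (nat_lit 345) (nat_lit 321))))))) (XT.nd (nat_lit 1170) (nat_lit 228) (nat_lit 0) (XT.nd (nat_lit 546) (nat_lit 304) (nat_lit 0) (XT.nd (nat_lit 234) (nat_lit 228) (nat_lit 0) (XT.nd (nat_lit 78) (nat_lit 152) (nat_lit 0) (XT.lf (nat_lit 0) (nat_lit 13173969064) (nat_lit 76) (nat_lit 12958676390) (nat_lit 76) (nat_lit 10599818654) (nat_lit 22) (nat_lit 4) (nat_lit 23) (nat_lit 5) (nat_lit 23) (nat_lit 4) (nat_lit 535) (nat_lit 345) (nat_lit 320)) (XT.nd (nat_lit 78) (nat_lit 152) (nat_lit 0) (XT.lf (nat_lit 0) (nat_lit 32174612576) (nat_lit 76) (nat_lit 3901311286) (nat_lit 76) (nat_lit 1479639525) (nat_lit 22) (nat_lit 4) (nat_lit 23) (nat_lit 5) (nat_lit 23) (nat_lit 4) (nat_lit 536) (nat_lit 345) (nat_lit 319)) (XT.lf (nat_lit 0) (nat_lit 7807512440) (nat_lit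 152) (nat_lit 25194960779) (nat_lit 0) (nat_lit 5397166565) (nat_lit 20) (nat_lit 5) (nat_lit 22) (nat_lit 4) (nat_lit 20) (nat_lit 4) (nat_lit 537) (nat_lit 345) (nat_lit 318)))) (XT.nd (nat_lit 156) (nat_lit 152) (nat_lit 0) (XT.nd (nat_lit 78) (nat_lit 76) (nat_lit 0) (XT.lf (nat_lit 0) (nat_lit 17304544118) (nat_lit 152) (nat_lit 7128510636) (nat_lit 0) (nat_lit 14836714511) (nat_lit 20) (nat_lit 5) (nat_lit 22) (nat_lit 4) (nat_lit 20) (nat_lit 4) (nat_lit 538) (nat_lit 345) (nat_lit 317)) (XT.lf (nat_lit 0) (nat_lit 11445539351) (nat_lit 76) (nat_lit 15622330623) (nat_lit 76) (nat_lit 13098691569) (nat_lit 19) (nat_lit 4) (nat_lit 20) (nat_lit 5) (nat_lit 20) (nat_lit 4) (nat_lit 539) (nat_lit 345) (nat_lit 316))) (XT.nd (nat_lit 78) (nat_lit 152) (nat_lit 0) (XT.lf (nat_lit 0) (nat_lit 30467727797) (nat_lit 76) (nat_lit 6601007000) (nat_lit 76) (nat_lit 4023184016) (nat_lit 19) (nat_lit 4) (nat_lit 20) (nat_lit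 5) (nat_lit 20) (nat_lit 4) (nat_lit 540) (nat_lit 345) (nat_lit 315)) (XT.lf (nat_lit 0) (nat_lit 5197372304) (nat_lit 152) (nat_lit 34203270819) (nat_lit 0) (nat_lit 2643557993) (nat_lit 17) (nat_lit 5) (nat_lit 19) (nat_lit 4) (nat_lit 17) (nat_lit 4) (nat_lit 541) (nat_lit 345) (nat_lit 314))))) (XT.nd (nat_lit 312) (nat_lit 228) (nat_lit 0) (XT.nd (nat_lit 156) (nat_lit 0) (nat_lit 0) (XT.nd (nat_lit 78) (nat_lit 76) (nat_lit 0) (XT.lf (nat_lit 0) (nat_lit 14662585996) (nat_lit 152) (nat_lit 16300618459) (nat_lit 0) (nat_lit 12059185713) (nat_lit 17) (nat_lit 5) (nat_lit 19) (nat_lit 4) (nat_lit 17) (nat_lit 4) (nat_lit 542) (nat_lit 345) (nat_lit 313)) (XT.lf (nat_lit 0) (nat_lit 1933816575) (nat_lit 76) (nat_lit 22375363969) (nat_lit 76) (nat_lit 19723821967) (nat_lit 16) (nat_lit 4) (nat_lit 17) (nat_lit 5) (nat_lit 17) (nat_lit 4) (nat_lit 543) (nat_lit 345) (nat_lit 312))) (XT.nd (nat_lit 78) (nat_lit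 0) (nat_lit 0) (XT.lf (nat_lit 0) (nat_lit 20808781407) (nat_lit 76) (nat_lit 13481047017) (nat_lit 76) (nat_lit 10782765480) (nat_lit 16) (nat_lit 4) (nat_lit 17) (nat_lit 5) (nat_lit 17) (nat_lit 4) (nat_lit 544) (nat_lit 345) (nat_lit 311)) (XT.lf (nat_lit 0) (nat_lit 40016354455) (nat_lit 76) (nat_lit 4437086148) (nat_lit 76) (nat_lit 1693426423) (nat_lit 16) (nat_lit 4) (nat_lit 17) (nat_lit 5) (nat_lit 17) (nat_lit 4) (nat_lit 545) (nat_lit 345) (nat_lit 310)))) (XT.nd (nat_lit 156) (nat_lit 76) (nat_lit 0) (XT.nd (nat_lit 78) (nat_lit 0) (nat_lit 0) (XT.lf (nat_lit 0) (nat_lit 7572512597) (nat_lit 152) (nat_lit 34811045756) (nat_lit 0) (nat_lit 4865991997) (nat_lit 14) (nat_lit 5) (nat_lit 16) (nat_lit 4) (nat_lit 14) (nat_lit 4) (nat_lit 546) (nat_lit 345) (nat_lit 309)) (XT.lf (nat_lit 0) (nat_lit 17074712065) (nat_lit 152) (nat_lit 16983665868) (nat_lit 0) (nat_lit 14326663995) (nat_lit 14) (nat_lit 5)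 (nat_lit 16) (nat_lit 4) (nat_lit 14) (nat_lit 4) (nat_lit 547) (nat_lit 345) (nat_lit 308))) (XT.nd (nat_lit 78) (nat_lit 0) (nat_lit 0) (XT.lf (nat_lit 0) (nat_lit 1179058061) (nat_lit 76) (nat_lit 25583445356) (nat_lit 76) (nat_lit 22795079354) (nat_lit 13) (nat_lit 4) (nat_lit 14) (nat_lit 5) (nat_lit 14) (nat_lit 4) (nat_lit 548) (nat_lit 345) (nat_lit 307)) (XT.lf (nat_lit 0) (nat_lit 20014508410) (nat_lit 76) (nat_lit 16788223620) (nat_lit 76) (nat_lit 13960713993) (nat_lit 13) (nat_lit 4) (nat_lit 14) (nat_lit 5) (nat_lit 14) (nat_lit 4) (nat_lit 549) (nat_lit 345) (nat_lit 306)))))) (XT.nd (nat_lit 59358) (nat_lit 0) (nat_lit 2128) (XT.nd (nat_lit 312) (nat_lit 76) (nat_lit 0) (XT.nd (nat_lit 156) (nat_lit 0) (nat_lit 0) (XT.nd (nat_lit 78) (nat_lit 152) (nat_lit 0) (XT.lf (nat_lit 0) (nat_lit 39201135085) (nat_lit 76) (nat_lit 7836529302) (nat_lit 76) (nat_lit 4971016158) (nat_lit 13) (nat_lit 4) (nat_lit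 14) (nat_lit 5) (nat_lit 14) (nat_lit 4) (nat_lit 550) (nat_lit 345) (nat_lit 305)) (XT.lf (nat_lit 0) (nat_lit 4166637406) (nat_lit 152) (nat_lit 47775776045) (nat_lit 0) (nat_lit 1348763849) (nat_lit 11) (nat_lit 5) (nat_lit 13) (nat_lit 4) (nat_lit 11) (nat_lit 4) (nat_lit 551) (nat_lit 345) (nat_lit 304))) (XT.nd (nat_lit 78) (nat_lit 0) (nat_lit 0) (XT.lf (nat_lit 0) (nat_lit 13582326527) (nat_lit 152) (nat_lit 30295557227) (nat_lit 0) (nat_lit 10729674367) (nat_lit 11) (nat_lit 5) (nat_lit 13) (nat_lit 4) (nat_lit 11) (nat_lit 4) (nat_lit 552) (nat_lit 345) (nat_lit 303)) (XT.lf (nat_lit 0) (nat_lit 23179144041) (nat_lit 152) (nat_lit 12494600595) (nat_lit 0) (nat_lit 20292726247) (nat_lit 11) (nat_lit 5) (nat_lit 13) (nat_lit 4) (nat_lit 11) (nat_lit 4) (nat_lit 553) (nat_lit 345) (nat_lit 302)))) (XT.nd (nat_lit 58890) (nat_lit 0) (nat_lit 2812) (XT.nd (nat_lit 78) (nat_lit 0) (nat_lit 0) (XT.lf (nat_lit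 0) (nat_lit 5754947845) (nat_lit 76) (nat_lit 27265847750) (nat_lit 76) (nat_lit 24346647788) (nat_lit 10) (nat_lit 4) (nat_lit 11) (nat_lit 5) (nat_lit 11) (nat_lit 4) (nat_lit 554) (nat_lit 345) (nat_lit 301)) (XT.lf (nat_lit 0) (nat_lit 24612311744) (nat_lit 76) (nat_lit 18574148969) (nat_lit 76) (nat_lit 15623121659) (nat_lit 10) (nat_lit 4) (nat_lit 11) (nat_lit 5) (nat_lit 11) (nat_lit 4) (nat_lit 555) (nat_lit 345) (nat_lit 300))) (XT.nd (nat_lit 78) (nat_lit 152) (nat_lit 0) (XT.lf (nat_lit 0) (nat_lit 7454971282) (nat_lit 76) (nat_lit 1670736312) (nat_lit 76) (nat_lit 1670736312) (nat_lit 49) (nat_lit 4) (nat_lit 50) (nat_lit 5) (nat_lit 50) (nat_lit 4) (nat_lit 508) (nat_lit 346) (nat_lit 346)) (XT.lf (nat_lit 0) (nat_lit 5389477487) (nat_lit 152) (nat_lit 11366027042) (nat_lit 0) (nat_lit 5217875519) (nat_lit 47) (nat_lit 5) (nat_lit 49) (nat_lit 4) (nat_lit 47) (nat_lit 4) (nat_lit 509) (nat_lit 346)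 (nat_lit 345))))) (XT.nd (nat_lit 312) (nat_lit 380) (nat_lit 0) (XT.nd (nat_lit 156) (nat_lit 76) (nat_lit 0) (XT.nd (nat_lit 78) (nat_lit 152) (nat_lit 0) (XT.lf (nat_lit 0) (nat_lit 5893742162) (nat_lit 76) (nat_lit 8404632034) (nat_lit 76) (nat_lit 8066426214) (nat_lit 46) (nat_lit 4) (nat_lit 47) (nat_lit 5) (nat_lit 47) (nat_lit 4) (nat_lit 510) (nat_lit 346) (nat_lit 344)) (XT.lf (nat_lit 0) (nat_lit 643347845) (nat_lit 152) (nat_lit 21967943523) (nat_lit 0) (nat_lit 157952571) (nat_lit 44) (nat_lit 5) (nat_lit 46) (nat_lit 4) (nat_lit 44) (nat_lit 4) (nat_lit 511) (nat_lit 346) (nat_lit 343))) (XT.nd (nat_lit 78) (nat_lit 76) (nat_lit 0) (XT.lf (nat_lit 0) (nat_lit 9529044715) (nat_lit 152) (nat_lit 4760895193) (nat_lit 0) (nat_lit 8891183315) (nat_lit 44) (nat_lit 5) (nat_lit 46) (nat_lit 4) (nat_lit 44) (nat_lit 4) (nat_lit 512) (nat_lit 346) (nat_lit 342)) (XT.lf (nat_lit 0) (nat_lit 12878913530) (nat_lit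 76) (nat_lit 5756849842) (nat_lit 76) (nat_lit 4970963077) (nat_lit 43) (nat_lit 4) (nat_lit 44) (nat_lit 5) (nat_lit 44) (nat_lit 4) (nat_lit 513) (nat_lit 346) (nat_lit 341)))) (XT.nd (nat_lit 156) (nat_lit 152) (nat_lit 0) (XT.nd (nat_lit 78) (nat_lit 76) (nat_lit 0) (XT.lf (nat_lit 0) (nat_lit 3867425532) (nat_lit 152) (nat_lit 17212398058) (nat_lit 0) (nat_lit 2964900571) (nat_lit 41) (nat_lit 5) (nat_lit 43) (nat_lit 4) (nat_lit 41) (nat_lit 4) (nat_lit 514) (nat_lit 346) (nat_lit 340)) (XT.lf (nat_lit 0) (nat_lit 208324101) (nat_lit 76) (nat_lit 12662036071) (nat_lit 76) (nat_lit 11624046931) (nat_lit 40) (nat_lit 4) (nat_lit 41) (nat_lit 5) (nat_lit 41) (nat_lit 4) (nat_lit 515) (nat_lit 346) (nat_lit 339))) (XT.nd (nat_lit 78) (nat_lit 152) (nat_lit 0) (XT.lf (nat_lit 0) (nat_lit 18172770170) (nat_lit 76) (nat_lit 3977062793) (nat_lit 76) (nat_lit 2807555034) (nat_lit 40) (nat_lit 4) (nat_lit 41) (nat_lit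 5) (nat_lit 41) (nat_lit 4) (nat_lit 516) (nat_lit 346) (nat_lit 338)) (XT.lf (nat_lit 0) (nat_lit 6141212493) (nat_lit 152) (nat_lit 14409732515) (nat_lit 0) (nat_lit 4881799154) (nat_lit 38) (nat_lit 5) (nat_lit 40) (nat_lit 4) (nat_lit 38) (nat_lit 4) (nat_lit 517) (nat_lit 346) (nat_lit 337))))))))
noncomputable def xc9 : XT := (XT.nd (nat_lit 2418) (nat_lit 304) (nat_lit 0) (XT.nd (nat_lit 1170) (nat_lit 836) (nat_lit 0) (XT.nd (nat_lit 546) (nat_lit 456) (nat_lit 0) (XT.nd (nat_lit 234) (nat_lit 304) (nat_lit 0) (XT.nd (nat_lit 78) (nat_lit 152) (nat_lit 0) (XT.lf (nat_lit 0) (nat_lit 3253795028) (nat_lit 76) (nat_lit 12024113802) (nat_lit 76) (nat_lit 10644342296) (nat_lit 37) (nat_lit 4) (nat_lit 38) (nat_lit 5) (nat_lit 38) (nat_lit 4) (nat_lit 518) (nat_lit 346) (nat_lit 336)) (XT.nd (nat_lit 78) (nat_lit 152) (nat_lit 0) (XT.lf (nat_lit 0) (nat_lit 21420317031) (nat_lit 76) (nat_lit 3251627041) (nat_lit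 76) (nat_lit 1755002945) (nat_lit 37) (nat_lit 4) (nat_lit 38) (nat_lit 5) (nat_lit 38) (nat_lit 4) (nat_lit 519) (nat_lit 346) (nat_lit 335)) (XT.lf (nat_lit 0) (nat_lit 7278996124) (nat_lit 152) (nat_lit 13949163928) (nat_lit 0) (nat_lit 5715818248) (nat_lit 35) (nat_lit 5) (nat_lit 37) (nat_lit 4) (nat_lit 35) (nat_lit 4) (nat_lit 520) (nat_lit 346) (nat_lit 334)))) (XT.nd (nat_lit 156) (nat_lit 228) (nat_lit 0) (XT.nd (nat_lit 78) (nat_lit 0) (nat_lit 0) (XT.lf (nat_lit 0) (nat_lit 3873230282) (nat_lit 76) (nat_lit 12637019517) (nat_lit 76) (nat_lit 10966904968) (nat_lit 34) (nat_lit 4) (nat_lit 35) (nat_lit 5) (nat_lit 35) (nat_lit 4) (nat_lit 521) (nat_lit 346) (nat_lit 333)) (XT.lf (nat_lit 0) (nat_lit 22203132096) (nat_lit 76) (nat_lit 3798813313) (nat_lit 76) (nat_lit 2024876751) (nat_lit 34) (nat_lit 4) (nat_lit 35) (nat_lit 5) (nat_lit 35) (nat_lit 4) (nat_lit 522) (nat_lit 346) (nat_lit 332))) (XT.nd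 (nat_lit 78) (nat_lit 76) (nat_lit 0) (XT.lf (nat_lit 0) (nat_lit 7061058585) (nat_lit 152) (nat_lit 16288445932) (nat_lit 0) (nat_lit 5240927874) (nat_lit 32) (nat_lit 5) (nat_lit 34) (nat_lit 4) (nat_lit 32) (nat_lit 4) (nat_lit 523) (nat_lit 346) (nat_lit 331)) (XT.lf (nat_lit 0) (nat_lit 1587178501) (nat_lit 76) (nat_lit 14749785765) (nat_lit 76) (nat_lit 12834643205) (nat_lit 31) (nat_lit 4) (nat_lit 32) (nat_lit 5) (nat_lit 32) (nat_lit 4) (nat_lit 524) (nat_lit 346) (nat_lit 330))))) (XT.nd (nat_lit 312) (nat_lit 228) (nat_lit 0) (XT.nd (nat_lit 156) (nat_lit 76) (nat_lit 0) (XT.nd (nat_lit 78) (nat_lit 152) (nat_lit 0) (XT.lf (nat_lit 0) (nat_lit 20028803345) (nat_lit 76) (nat_lit 5874222917) (nat_lit 76) (nat_lit 3866835844) (nat_lit 31) (nat_lit 4) (nat_lit 32) (nat_lit 5) (nat_lit 32) (nat_lit 4) (nat_lit 525) (nat_lit 346) (nat_lit 329)) (XT.lf (nat_lit 0) (nat_lit 5228141364) (nat_lit 152) (nat_lit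 21965214775) (nat_lit 0) (nat_lit 3192272575) (nat_lit 29) (nat_lit 5) (nat_lit 31) (nat_lit 4) (nat_lit 29) (nat_lit 4) (nat_lit 526) (nat_lit 346) (nat_lit 328))) (XT.nd (nat_lit 78) (nat_lit 76) (nat_lit 0) (XT.lf (nat_lit 0) (nat_lit 14526226731) (nat_lit 152) (nat_lit 4086313146) (nat_lit 0) (nat_lit 12405941145) (nat_lit 29) (nat_lit 5) (nat_lit 31) (nat_lit 4) (nat_lit 29) (nat_lit 4) (nat_lit 527) (nat_lit 346) (nat_lit 327)) (XT.lf (nat_lit 0) (nat_lit 14318666495) (nat_lit 76) (nat_lit 9777061229) (nat_lit 76) (nat_lit 7574817587) (nat_lit 28) (nat_lit 4) (nat_lit 29) (nat_lit 5) (nat_lit 29) (nat_lit 4) (nat_lit 528) (nat_lit 346) (nat_lit 326)))) (XT.nd (nat_lit 156) (nat_lit 76) (nat_lit 0) (XT.nd (nat_lit 78) (nat_lit 0) (nat_lit 0) (XT.lf (nat_lit 0) (nat_lit 727184746) (nat_lit 76) (nat_lit 755080926) (nat_lit 152) (nat_lit 30862335799) (nat_lit 26) (nat_lit 5) (nat_lit 27) (nat_lit 5) (nat_lit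 28) (nat_lit 4) (nat_lit 529) (nat_lit 346) (nat_lit 325)) (XT.lf (nat_lit 0) (nat_lit 10772810626) (nat_lit 152) (nat_lit 13777945985) (nat_lit 0) (nat_lit 8482453445) (nat_lit 26) (nat_lit 5) (nat_lit 28) (nat_lit 4) (nat_lit 26) (nat_lit 4) (nat_lit 530) (nat_lit 346) (nat_lit 324))) (XT.nd (nat_lit 78) (nat_lit 0) (nat_lit 0) (XT.lf (nat_lit 0) (nat_lit 4393570412) (nat_lit 76) (nat_lit 15857407843) (nat_lit 76) (nat_lit 13494231991) (nat_lit 25) (nat_lit 4) (nat_lit 26) (nat_lit 5) (nat_lit 26) (nat_lit 4) (nat_lit 531) (nat_lit 346) (nat_lit 323)) (XT.lf (nat_lit 0) (nat_lit 23114028678) (nat_lit 76) (nat_lit 6899211694) (nat_lit 76) (nat_lit 4465338103) (nat_lit 25) (nat_lit 4) (nat_lit 26) (nat_lit 5) (nat_lit 26) (nat_lit 4) (nat_lit 532) (nat_lit 346) (nat_lit 322)))))) (XT.nd (nat_lit 624) (nat_lit 380) (nat_lit 0) (XT.nd (nat_lit 312) (nat_lit 228) (nat_lit 0) (XT.nd (nat_lit 156) (nat_lit 76) (nat_lit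 0) (XT.nd (nat_lit 78) (nat_lit 0) (nat_lit 0) (XT.lf (nat_lit 0) (nat_lit 4692693849) (nat_lit 152) (nat_lit 28278211623) (nat_lit 0) (nat_lit 2263070381) (nat_lit 23) (nat_lit 5) (nat_lit 25) (nat_lit 4) (nat_lit 23) (nat_lit 4) (nat_lit 533) (nat_lit 346) (nat_lit 321)) (XT.lf (nat_lit 0) (nat_lit 14083340556) (nat_lit 152) (nat_lit 10336921409) (nat_lit 0) (nat_lit 11589018643) (nat_lit 23) (nat_lit 5) (nat_lit 25) (nat_lit 4) (nat_lit 23) (nat_lit 4) (nat_lit 534) (nat_lit 346) (nat_lit 320))) (XT.nd (nat_lit 78) (nat_lit 0) (nat_lit 0) (XT.lf (nat_lit 0) (nat_lit 8034018670) (nat_lit 76) (nat_lit 15666311762) (nat_lit 76) (nat_lit 13109175823) (nat_lit 22) (nat_lit 4) (nat_lit 23) (nat_lit 5) (nat_lit 23) (nat_lit 4) (nat_lit 535) (nat_lit 346) (nat_lit 319)) (XT.lf (nat_lit 0) (nat_lit 26905223807) (nat_lit 76) (nat_lit 6673721147) (nat_lit 76) (nat_lit 4055600717) (nat_lit 22) (nat_lit 4) (nat_lit 23) (nat_lit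 5) (nat_lit 23) (nat_lit 4) (nat_lit 536) (nat_lit 346) (nat_lit 318)))) (XT.nd (nat_lit 156) (nat_lit 76) (nat_lit 0) (XT.nd (nat_lit 78) (nat_lit 0) (nat_lit 0) (XT.lf (nat_lit 0) (nat_lit 5136943583) (nat_lit 152) (nat_lit 30809172405) (nat_lit 0) (nat_lit 2537595358) (nat_lit 20) (nat_lit 5) (nat_lit 22) (nat_lit 4) (nat_lit 20) (nat_lit 4) (nat_lit 537) (nat_lit 346) (nat_lit 317)) (XT.lf (nat_lit 0) (nat_lit 14570606641) (nat_lit 152) (nat_lit 12869686478) (nat_lit 0) (nat_lit 11915448968) (nat_lit 20) (nat_lit 5) (nat_lit 22) (nat_lit 4) (nat_lit 20) (nat_lit 4) (nat_lit 538) (nat_lit 346) (nat_lit 316))) (XT.nd (nat_lit 78) (nat_lit 0) (nat_lit 0) (XT.lf (nat_lit 0) (nat_lit 5464383384) (nat_lit 76) (nat_lit 18750531652) (nat_lit 76) (nat_lit 16041190049) (nat_lit 19) (nat_lit 4) (nat_lit 20) (nat_lit 5) (nat_lit 20) (nat_lit 4) (nat_lit 539) (nat_lit 346) (nat_lit 315)) (XT.lf (nat_lit 0) (nat_lit 24364514094)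 (nat_lit 76) (nat_lit 9790361470) (nat_lit 76) (nat_lit 7028414110) (nat_lit 19) (nat_lit 4) (nat_lit 20) (nat_lit 5) (nat_lit 20) (nat_lit 4) (nat_lit 540) (nat_lit 346) (nat_lit 314))))) (XT.nd (nat_lit 312) (nat_lit 152) (nat_lit 0) (XT.nd (nat_lit 156) (nat_lit 76) (nat_lit 0) (XT.nd (nat_lit 78) (nat_lit 0) (nat_lit 0) (XT.lf (nat_lit 0) (nat_lit 1457145752) (nat_lit 76) (nat_lit 646384623) (nat_lit 152) (nat_lit 40037326068) (nat_lit 17) (nat_lit 5) (nat_lit 18) (nat_lit 5) (nat_lit 19) (nat_lit 4) (nat_lit 541) (nat_lit 346) (nat_lit 313)) (XT.lf (nat_lit 0) (nat_lit 11502843637) (nat_lit 152) (nat_lit 22894565390) (nat_lit 0) (nat_lit 8723613654) (nat_lit 17) (nat_lit 5) (nat_lit 19) (nat_lit 4) (nat_lit 17) (nat_lit 4) (nat_lit 542) (nat_lit 346) (nat_lit 312))) (XT.nd (nat_lit 78) (nat_lit 76) (nat_lit 0) (XT.lf (nat_lit 0) (nat_lit 21072900628) (nat_lit 152) (nat_lit 4814099582) (nat_lit 0) (nat_lit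 18246931111) (nat_lit 17) (nat_lit 5) (nat_lit 19) (nat_lit 4) (nat_lit 17) (nat_lit 4) (nat_lit 543) (nat_lit 346) (nat_lit 311)) (XT.lf (nat_lit 0) (nat_lit 13849961273) (nat_lit 76) (nat_lit 17099023116) (nat_lit 76) (nat_lit 14227675412) (nat_lit 16) (nat_lit 4) (nat_lit 17) (nat_lit 5) (nat_lit 17) (nat_lit 4) (nat_lit 544) (nat_lit 346) (nat_lit 310)))) (XT.nd (nat_lit 156) (nat_lit 0) (nat_lit 0) (XT.nd (nat_lit 78) (nat_lit 152) (nat_lit 0) (XT.lf (nat_lit 0) (nat_lit 32945792617) (nat_lit 76) (nat_lit 8111107774) (nat_lit 76) (nat_lit 5195703576) (nat_lit 16) (nat_lit 4) (nat_lit 17) (nat_lit 5) (nat_lit 17) (nat_lit 4) (nat_lit 545) (nat_lit 346) (nat_lit 309)) (XT.lf (nat_lit 0) (nat_lit 3975985338) (nat_lit 152) (nat_lit 42281221494) (nat_lit 0) (nat_lit 1103968355) (nat_lit 14) (nat_lit 5) (nat_lit 16) (nat_lit 4) (nat_lit 14) (nat_lit 4) (nat_lit 546) (nat_lit 346) (nat_lit 308))) (XT.nd (nat_lit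 78) (nat_lit 0) (nat_lit 0) (XT.lf (nat_lit 0) (nat_lit 13423599621) (nat_lit 152) (nat_lit 24563440140) (nat_lit 0) (nat_lit 10511264706) (nat_lit 14) (nat_lit 5) (nat_lit 16) (nat_lit 4) (nat_lit 14) (nat_lit 4) (nat_lit 547) (nat_lit 346) (nat_lit 307)) (XT.lf (nat_lit 0) (nat_lit 23047061821) (nat_lit 152) (nat_lit 6530130224) (nat_lit 0) (nat_lit 20095583282) (nat_lit 14) (nat_lit 5) (nat_lit 16) (nat_lit 4) (nat_lit 14) (nat_lit 4) (nat_lit 548) (nat_lit 346) (nat_lit 306))))))) (XT.nd (nat_lit 59748) (nat_lit 0) (nat_lit 1368) (XT.nd (nat_lit 59124) (nat_lit 0) (nat_lit 2508) (XT.nd (nat_lit 234) (nat_lit 152) (nat_lit 0) (XT.nd (nat_lit 78) (nat_lit 76) (nat_lit 0) (XT.lf (nat_lit 0) (nat_lit 12069994583) (nat_lit 76) (nat_lit 20900810377) (nat_lit 76) (nat_lit 17911328320) (nat_lit 13) (nat_lit 4) (nat_lit 14) (nat_lit 5) (nat_lit 14) (nat_lit 4) (nat_lit 549) (nat_lit 346) (nat_lit 305)) (XT.nd (nat_lit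 78) (nat_lit 76) (nat_lit 0) (XT.lf (nat_lit 0) (nat_lit 31154326944) (nat_lit 76) (nat_lit 12000473882) (nat_lit 76) (nat_lit 8974095205) (nat_lit 13) (nat_lit 4) (nat_lit 14) (nat_lit 5) (nat_lit 14) (nat_lit 4) (nat_lit 550) (nat_lit 346) (nat_lit 304)) (XT.lf (nat_lit 0) (nat_lit 125358675) (nat_lit 152) (nat_lit 2807722525) (nat_lit 76) (nat_lit 50482955538) (nat_lit 12) (nat_lit 5) (nat_lit 14) (nat_lit 5) (nat_lit 13) (nat_lit 4) (nat_lit 551) (nat_lit 346) (nat_lit 303)))) (XT.nd (nat_lit 156) (nat_lit 76) (nat_lit 0) (XT.nd (nat_lit 78) (nat_lit 0) (nat_lit 0) (XT.lf (nat_lit 0) (nat_lit 9435131687) (nat_lit 152) (nat_lit 38872107753) (nat_lit 0) (nat_lit 6428355725) (nat_lit 11) (nat_lit 5) (nat_lit 13) (nat_lit 4) (nat_lit 11) (nat_lit 4) (nat_lit 552) (nat_lit 346) (nat_lit 302)) (XT.lf (nat_lit 0) (nat_lit 18983480943) (nat_lit 152) (nat_lit 21168558338) (nat_lit 0) (nat_lit 15943922813) (nat_lit 11)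 (nat_lit 5) (nat_lit 13) (nat_lit 4) (nat_lit 11) (nat_lit 4) (nat_lit 553) (nat_lit 346) (nat_lit 301))) (XT.nd (nat_lit 78) (nat_lit 76) (nat_lit 0) (XT.lf (nat_lit 0) (nat_lit 28722755857) (nat_lit 152) (nat_lit 3125879772) (nat_lit 0) (nat_lit 25651370379) (nat_lit 11) (nat_lit 5) (nat_lit 13) (nat_lit 4) (nat_lit 11) (nat_lit 4) (nat_lit 554) (nat_lit 346) (nat_lit 300)) (XT.lf (nat_lit 0) (nat_lit 15575630034) (nat_lit 76) (nat_lit 23235558926) (nat_lit 76) (nat_lit 20133273110) (nat_lit 10) (nat_lit 4) (nat_lit 11) (nat_lit 5) (nat_lit 11) (nat_lit 4) (nat_lit 555) (nat_lit 346) (nat_lit 299))))) (XT.nd (nat_lit 312) (nat_lit 304) (nat_lit 0) (XT.nd (nat_lit 156) (nat_lit 228) (nat_lit 0) (XT.nd (nat_lit 78) (nat_lit 0) (nat_lit 0) (XT.lf (nat_lit 0) (nat_lit 426427479) (nat_lit 152) (nat_lit 9577111815) (nat_lit 0) (nat_lit 426427479) (nat_lit 50) (nat_lit 5) (nat_lit 52) (nat_lit 4) (nat_lit 50) (nat_lit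 4) (nat_lit 506) (nat_lit 347) (nat_lit 347)) (XT.lf (nat_lit 0) (nat_lit 9485124365) (nat_lit 152) (nat_lit 2433642164) (nat_lit 0) (nat_lit 9303071837) (nat_lit 50) (nat_lit 5) (nat_lit 52) (nat_lit 4) (nat_lit 50) (nat_lit 4) (nat_lit 507) (nat_lit 347) (nat_lit 346))) (XT.nd (nat_lit 78) (nat_lit 152) (nat_lit 0) (XT.lf (nat_lit 0) (nat_lit 14742044061) (nat_lit 76) (nat_lit 3606103278) (nat_lit 76) (nat_lit 3247300724) (nat_lit 49) (nat_lit 4) (nat_lit 50) (nat_lit 5) (nat_lit 50) (nat_lit 4) (nat_lit 508) (nat_lit 347) (nat_lit 345)) (XT.lf (nat_lit 0) (nat_lit 5391514949) (nat_lit 152) (nat_lit 11710548599) (nat_lit 0) (nat_lit 4876559102) (nat_lit 47) (nat_lit 5) (nat_lit 49) (nat_lit 4) (nat_lit 47) (nat_lit 4) (nat_lit 509) (nat_lit 347) (nat_lit 344)))) (XT.nd (nat_lit 156) (nat_lit 76) (nat_lit 0) (XT.nd (nat_lit 78) (nat_lit 152) (nat_lit 0) (XT.lf (nat_lit 0) (nat_lit 5374312771) (nat_lit 76) (nat_lit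 8837547267) (nat_lit 76) (nat_lit 8160840108) (nat_lit 46) (nat_lit 4) (nat_lit 47) (nat_lit 5) (nat_lit 47) (nat_lit 4) (nat_lit 510) (nat_lit 347) (nat_lit 343)) (XT.lf (nat_lit 0) (nat_lit 97897721) (nat_lit 76) (nat_lit 361040697) (nat_lit 152) (nat_lit 22320988173) (nat_lit 44) (nat_lit 5) (nat_lit 45) (nat_lit 5) (nat_lit 46) (nat_lit 4) (nat_lit 511) (nat_lit 347) (nat_lit 342))) (XT.nd (nat_lit 78) (nat_lit 76) (nat_lit 0) (XT.lf (nat_lit 0) (nat_lit 9257741535) (nat_lit 152) (nat_lit 5636418887) (nat_lit 0) (nat_lit 8300252803) (nat_lit 44) (nat_lit 5) (nat_lit 46) (nat_lit 4) (nat_lit 44) (nat_lit 4) (nat_lit 512) (nat_lit 347) (nat_lit 341)) (XT.lf (nat_lit 0) (nat_lit 11822673062) (nat_lit 76) (nat_lit 6450640493) (nat_lit 76) (nat_lit 5349437814) (nat_lit 43) (nat_lit 4) (nat_lit 44) (nat_lit 5) (nat_lit 44) (nat_lit 4) (nat_lit 513) (nat_lit 347) (nat_lit 340)))))) (XT.nd (nat_lit 624) (nat_lit 456)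 (nat_lit 0) (XT.nd (nat_lit 312) (nat_lit 304) (nat_lit 0) (XT.nd (nat_lit 156) (nat_lit 228) (nat_lit 0) (XT.nd (nat_lit 78) (nat_lit 0) (nat_lit 0) (XT.lf (nat_lit 0) (nat_lit 3395751215) (nat_lit 152) (nat_lit 18476966828) (nat_lit 0) (nat_lit 2191158223) (nat_lit 41) (nat_lit 5) (nat_lit 43) (nat_lit 4) (nat_lit 41) (nat_lit 4) (nat_lit 514) (nat_lit 347) (nat_lit 339)) (XT.lf (nat_lit 0) (nat_lit 12315810154) (nat_lit 152) (nat_lit 1220537258) (nat_lit 0) (nat_lit 10979698543) (nat_lit 41) (nat_lit 5) (nat_lit 43) (nat_lit 4) (nat_lit 41) (nat_lit 4) (nat_lit 515) (nat_lit 347) (nat_lit 338))) (XT.nd (nat_lit 78) (nat_lit 152) (nat_lit 0) (XT.lf (nat_lit 0) (nat_lit 16560961147) (nat_lit 76) (nat_lit 4942313009) (nat_lit 76) (nat_lit 3478513418) (nat_lit 40) (nat_lit 4) (nat_lit 41) (nat_lit 5) (nat_lit 41) (nat_lit 4) (nat_lit 516) (nat_lit 347) (nat_lit 337)) (XT.lf (nat_lit 0) (nat_lit 5377105142) (nat_lit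 152) (nat_lit 16247837454) (nat_lit 0) (nat_lit 3835582323) (nat_lit 38) (nat_lit 5) (nat_lit 40) (nat_lit 4) (nat_lit 38) (nat_lit 4) (nat_lit 517) (nat_lit 347) (nat_lit 336)))) (XT.nd (nat_lit 156) (nat_lit 228) (nat_lit 0) (XT.nd (nat_lit 78) (nat_lit 0) (nat_lit 0) (XT.lf (nat_lit 0) (nat_lit 1220341322) (nat_lit 76) (nat_lit 13195502560) (nat_lit 76) (nat_lit 11537127152) (nat_lit 37) (nat_lit 4) (nat_lit 38) (nat_lit 5) (nat_lit 38) (nat_lit 4) (nat_lit 518) (nat_lit 347) (nat_lit 335)) (XT.lf (nat_lit 0) (nat_lit 19232720727) (nat_lit 76) (nat_lit 4499549697) (nat_lit 76) (nat_lit 2727725172) (nat_lit 37) (nat_lit 4) (nat_lit 38) (nat_lit 5) (nat_lit 38) (nat_lit 4) (nat_lit 519) (nat_lit 347) (nat_lit 334))) (XT.nd (nat_lit 78) (nat_lit 76) (nat_lit 0) (XT.lf (nat_lit 0) (nat_lit 6212959806) (nat_lit 152) (nat_lit 16381911689) (nat_lit 0) (nat_lit 4385805147) (nat_lit 35) (nat_lit 5) (nat_lit 37) (nat_lit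 4) (nat_lit 35) (nat_lit 4) (nat_lit 520) (nat_lit 347) (nat_lit 333)) (XT.lf (nat_lit 0) (nat_lit 1237825476) (nat_lit 76) (nat_lit 14105022817) (nat_lit 76) (nat_lit 12174046146) (nat_lit 34) (nat_lit 4) (nat_lit 35) (nat_lit 5) (nat_lit 35) (nat_lit 4) (nat_lit 521) (nat_lit 347) (nat_lit 332))))) (XT.nd (nat_lit 312) (nat_lit 228) (nat_lit 0) (XT.nd (nat_lit 156) (nat_lit 76) (nat_lit 0) (XT.nd (nat_lit 78) (nat_lit 152) (nat_lit 0) (XT.lf (nat_lit 0) (nat_lit 19417979140) (nat_lit 76) (nat_lit 5341307755) (nat_lit 76) (nat_lit 3309533014) (nat_lit 34) (nat_lit 4) (nat_lit 35) (nat_lit 5) (nat_lit 35) (nat_lit 4) (nat_lit 522) (nat_lit 347) (nat_lit 331)) (XT.lf (nat_lit 0) (nat_lit 5682706406) (nat_lit 152) (nat_lit 19338559751) (nat_lit 0) (nat_lit 3615097721) (nat_lit 32) (nat_lit 5) (nat_lit 34) (nat_lit 4) (nat_lit 32) (nat_lit 4) (nat_lit 523) (nat_lit 347) (nat_lit 330))) (XT.nd (nat_lit 78) (nat_lit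 76) (nat_lit 0) (XT.lf (nat_lit 0) (nat_lit 14869621956) (nat_lit 152) (nat_lit 1640818281) (nat_lit 0) (nat_lit 12709768758) (nat_lit 32) (nat_lit 5) (nat_lit 34) (nat_lit 4) (nat_lit 32) (nat_lit 4) (nat_lit 524) (nat_lit 347) (nat_lit 329)) (XT.lf (nat_lit 0) (nat_lit 16622679974) (nat_lit 76) (nat_lit 7723933536) (nat_lit 76) (nat_lit 5474522557) (nat_lit 31) (nat_lit 4) (nat_lit 32) (nat_lit 5) (nat_lit 32) (nat_lit 4) (nat_lit 525) (nat_lit 347) (nat_lit 328)))) (XT.nd (nat_lit 156) (nat_lit 76) (nat_lit 0) (XT.nd (nat_lit 78) (nat_lit 0) (nat_lit 0) (XT.lf (nat_lit 0) (nat_lit 3526158183) (nat_lit 152) (nat_lit 25657131234) (nat_lit 0) (nat_lit 1257847232) (nat_lit 29) (nat_lit 5) (nat_lit 31) (nat_lit 4) (nat_lit 29) (nat_lit 4) (nat_lit 526) (nat_lit 347) (nat_lit 327)) (XT.lf (nat_lit 0) (nat_lit 12752732852) (nat_lit 152) (nat_lit 7920937877) (nat_lit 0) (nat_lit 10402463846) (nat_lit 29) (nat_lit 5)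 (nat_lit 31) (nat_lit 4) (nat_lit 29) (nat_lit 4) (nat_lit 527) (nat_lit 347) (nat_lit 326))) (XT.nd (nat_lit 78) (nat_lit 0) (nat_lit 0) (XT.lf (nat_lit 0) (nat_lit 10266416040) (nat_lit 76) (nat_lit 11947437231) (nat_lit 76) (nat_lit 9517597297) (nat_lit 28) (nat_lit 4) (nat_lit 29) (nat_lit 5) (nat_lit 29) (nat_lit 4) (nat_lit 528) (nat_lit 347) (nat_lit 325)) (XT.lf (nat_lit 0) (nat_lit 28883259494) (nat_lit 76) (nat_lit 3016023060) (nat_lit 76) (nat_lit 508929798) (nat_lit 28) (nat_lit 4) (nat_lit 29) (nat_lit 5) (nat_lit 29) (nat_lit 4) (nat_lit 529) (nat_lit 347) (nat_lit 324))))))))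
noncomputable def xc10 : XT := (XT.nd (nat_lit 60840) (nat_lit 0) (nat_lit 760) (XT.nd (nat_lit 1170) (nat_lit 456) (nat_lit 0) (XT.nd (nat_lit 546) (nat_lit 456) (nat_lit 0) (XT.nd (nat_lit 234) (nat_lit 228) (nat_lit 0) (XT.nd (nat_lit 78) (nat_lit 76) (nat_lit 0) (XT.lf (nat_lit 0) (nat_lit 8665550840) (nat_lit 152) (nat_lit 18276535945) (nat_lit 0) (nat_lit 6158661042) (nat_lit 26) (nat_lit 5) (nat_lit 28) (nat_lit 4) (nat_lit 26) (nat_lit 4) (nat_lit 530) (nat_lit 347) (nat_lit 323)) (XT.nd (nat_lit 78) (nat_lit 76) (nat_lit 0) (XT.lf (nat_lit 0) (nat_lit 18034143728) (nat_lit 152) (nat_lit 325335594) (nat_lit 0) (nat_lit 15456556191) (nat_lit 26) (nat_lit 5) (nat_lit 28) (nat_lit 4) (nat_lit 26) (nat_lit 4) (nat_lit 531) (nat_lit 347) (nat_lit 322)) (XT.lf (nat_lit 0) (nat_lit 18255385620) (nat_lit 76) (nat_lit 9471169999) (nat_lit 76) (nat_lit 6824943881) (nat_lit 25) (nat_lit 4) (nat_lit 26) (nat_lit 5)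 (nat_lit 26) (nat_lit 4) (nat_lit 532) (nat_lit 347) (nat_lit 321)))) (XT.nd (nat_lit 156) (nat_lit 76) (nat_lit 0) (XT.nd (nat_lit 78) (nat_lit 0) (nat_lit 0) (XT.lf (nat_lit 0) (nat_lit 1838755651) (nat_lit 76) (nat_lit 403422264) (nat_lit 152) (nat_lit 33069508292) (nat_lit 23) (nat_lit 5) (nat_lit 24) (nat_lit 5) (nat_lit 25) (nat_lit 4) (nat_lit 533) (nat_lit 347) (nat_lit 320)) (XT.lf (nat_lit 0) (nat_lit 11563624447) (nat_lit 152) (nat_lit 15658482343) (nat_lit 0) (nat_lit 8866960405) (nat_lit 23) (nat_lit 5) (nat_lit 25) (nat_lit 4) (nat_lit 23) (nat_lit 4) (nat_lit 534) (nat_lit 347) (nat_lit 319))) (XT.nd (nat_lit 78) (nat_lit 0) (nat_lit 0) (XT.lf (nat_lit 0) (nat_lit 2477109865) (nat_lit 76) (nat_lit 18586668406) (nat_lit 76) (nat_lit 15829019874) (nat_lit 22) (nat_lit 4) (nat_lit 23) (nat_lit 5) (nat_lit 23) (nat_lit 4) (nat_lit 535) (nat_lit 347) (nat_lit 318)) (XT.lf (nat_lit 0) (nat_lit 21222646678)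 (nat_lit 76) (nat_lit 9656965644) (nat_lit 76) (nat_lit 6840108868) (nat_lit 22) (nat_lit 4) (nat_lit 23) (nat_lit 5) (nat_lit 23) (nat_lit 4) (nat_lit 536) (nat_lit 347) (nat_lit 317))))) (XT.nd (nat_lit 312) (nat_lit 228) (nat_lit 0) (XT.nd (nat_lit 156) (nat_lit 76) (nat_lit 0) (XT.nd (nat_lit 78) (nat_lit 0) (nat_lit 0) (XT.lf (nat_lit 0) (nat_lit 1719234596) (nat_lit 76) (nat_lit 543610281) (nat_lit 152) (nat_lit 36311162971) (nat_lit 20) (nat_lit 5) (nat_lit 21) (nat_lit 5) (nat_lit 22) (nat_lit 4) (nat_lit 537) (nat_lit 347) (nat_lit 316)) (XT.lf (nat_lit 0) (nat_lit 11629759491) (nat_lit 152) (nat_lit 19033328039) (nat_lit 0) (nat_lit 8784953710) (nat_lit 20) (nat_lit 5) (nat_lit 22) (nat_lit 4) (nat_lit 20) (nat_lit 4) (nat_lit 538) (nat_lit 347) (nat_lit 315))) (XT.nd (nat_lit 78) (nat_lit 76) (nat_lit 0) (XT.lf (nat_lit 0) (nat_lit 21161809889) (nat_lit 152) (nat_lit 925563928) (nat_lit 0) (nat_lit 18264398351)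 (nat_lit 20) (nat_lit 5) (nat_lit 22) (nat_lit 4) (nat_lit 20) (nat_lit 4) (nat_lit 539) (nat_lit 347) (nat_lit 314)) (XT.lf (nat_lit 0) (nat_lit 17837643587) (nat_lit 76) (nat_lit 13195922290) (nat_lit 76) (nat_lit 10247437202) (nat_lit 19) (nat_lit 4) (nat_lit 20) (nat_lit 5) (nat_lit 20) (nat_lit 4) (nat_lit 540) (nat_lit 347) (nat_lit 313)))) (XT.nd (nat_lit 156) (nat_lit 76) (nat_lit 0) (XT.nd (nat_lit 78) (nat_lit 152) (nat_lit 0) (XT.lf (nat_lit 0) (nat_lit 36949166703) (nat_lit 76) (nat_lit 4145115701) (nat_lit 76) (nat_lit 1147044641) (nat_lit 19) (nat_lit 4) (nat_lit 20) (nat_lit 5) (nat_lit 20) (nat_lit 4) (nat_lit 541) (nat_lit 347) (nat_lit 312)) (XT.lf (nat_lit 0) (nat_lit 8130673491) (nat_lit 152) (nat_lit 29922284733) (nat_lit 0) (nat_lit 5173185355) (nat_lit 17) (nat_lit 5) (nat_lit 19) (nat_lit 4) (nat_lit 17) (nat_lit 4) (nat_lit 542) (nat_lit 347) (nat_lit 311))) (XT.nd (nat_lit 78) (nat_lit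 76) (nat_lit 0) (XT.lf (nat_lit 0) (nat_lit 17644469773) (nat_lit 152) (nat_lit 11954666982) (nat_lit 0) (nat_lit 14641603449) (nat_lit 17) (nat_lit 5) (nat_lit 19) (nat_lit 4) (nat_lit 17) (nat_lit 4) (nat_lit 543) (nat_lit 347) (nat_lit 310)) (XT.lf (nat_lit 0) (nat_lit 6455540876) (nat_lit 76) (nat_lit 20939310918) (nat_lit 76) (nat_lit 17892388101) (nat_lit 16) (nat_lit 4) (nat_lit 17) (nat_lit 5) (nat_lit 17) (nat_lit 4) (nat_lit 544) (nat_lit 347) (nat_lit 309)))))) (XT.nd (nat_lit 624) (nat_lit 76) (nat_lit 0) (XT.nd (nat_lit 312) (nat_lit 228) (nat_lit 0) (XT.nd (nat_lit 156) (nat_lit 76) (nat_lit 0) (XT.nd (nat_lit 78) (nat_lit 76) (nat_lit 0) (XT.lf (nat_lit 0) (nat_lit 25442885129) (nat_lit 76) (nat_lit 12005808710) (nat_lit 76) (nat_lit 8916112598) (nat_lit 16) (nat_lit 4) (nat_lit 17) (nat_lit 5) (nat_lit 17) (nat_lit 4) (nat_lit 545) (nat_lit 347) (nat_lit 308)) (XT.lf (nat_lit 0) (nat_lit 215393967)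 (nat_lit 152) (nat_lit 2693973828) (nat_lit 76) (nat_lit 44568466321) (nat_lit 15) (nat_lit 5) (nat_lit 17) (nat_lit 5) (nat_lit 16) (nat_lit 4) (nat_lit 546) (nat_lit 347) (nat_lit 307))) (XT.nd (nat_lit 78) (nat_lit 0) (nat_lit 0) (XT.lf (nat_lit 0) (nat_lit 9555373292) (nat_lit 152) (nat_lit 32586612520) (nat_lit 0) (nat_lit 6476206774) (nat_lit 14) (nat_lit 5) (nat_lit 16) (nat_lit 4) (nat_lit 14) (nat_lit 4) (nat_lit 547) (nat_lit 347) (nat_lit 306)) (XT.lf (nat_lit 0) (nat_lit 19127383720) (nat_lit 152) (nat_lit 14656609733) (nat_lit 0) (nat_lit 16010213683) (nat_lit 14) (nat_lit 5) (nat_lit 16) (nat_lit 4) (nat_lit 14) (nat_lit 4) (nat_lit 548) (nat_lit 347) (nat_lit 305)))) (XT.nd (nat_lit 156) (nat_lit 152) (nat_lit 0) (XT.nd (nat_lit 78) (nat_lit 0) (nat_lit 0) (XT.lf (nat_lit 0) (nat_lit 3679487882) (nat_lit 76) (nat_lit 25241031117) (nat_lit 76) (nat_lit 22086964460) (nat_lit 13) (nat_lit 4) (nat_lit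 14) (nat_lit 5) (nat_lit 14) (nat_lit 4) (nat_lit 549) (nat_lit 347) (nat_lit 304)) (XT.lf (nat_lit 0) (nat_lit 22664505374) (nat_lit 76) (nat_lit 16390556585) (nat_lit 76) (nat_lit 13200667968) (nat_lit 13) (nat_lit 4) (nat_lit 14) (nat_lit 5) (nat_lit 14) (nat_lit 4) (nat_lit 550) (nat_lit 347) (nat_lit 303))) (XT.nd (nat_lit 78) (nat_lit 152) (nat_lit 0) (XT.lf (nat_lit 0) (nat_lit 42023336318) (nat_lit 76) (nat_lit 7372839454) (nat_lit 76) (nat_lit 4148172234) (nat_lit 13) (nat_lit 4) (nat_lit 14) (nat_lit 5) (nat_lit 14) (nat_lit 4) (nat_lit 551) (nat_lit 347) (nat_lit 302)) (XT.lf (nat_lit 0) (nat_lit 5065130437) (nat_lit 152) (nat_lit 47903691446) (nat_lit 0) (nat_lit 1901603395) (nat_lit 11) (nat_lit 5) (nat_lit 13) (nat_lit 4) (nat_lit 11) (nat_lit 4) (nat_lit 552) (nat_lit 347) (nat_lit 301))))) (XT.nd (nat_lit 58734) (nat_lit 0) (nat_lit 2964) (XT.nd (nat_lit 156) (nat_lit 76) (nat_lit 0) (XT.nd (nat_lit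 78) (nat_lit 0) (nat_lit 0) (XT.lf (nat_lit 0) (nat_lit 14566423132) (nat_lit 152) (nat_lit 30294712145) (nat_lit 0) (nat_lit 11371068742) (nat_lit 11) (nat_lit 5) (nat_lit 13) (nat_lit 4) (nat_lit 11) (nat_lit 4) (nat_lit 553) (nat_lit 347) (nat_lit 300)) (XT.lf (nat_lit 0) (nat_lit 24260012065) (nat_lit 152) (nat_lit 12343849224) (nat_lit 0) (nat_lit 21033757336) (nat_lit 11) (nat_lit 5) (nat_lit 13) (nat_lit 4) (nat_lit 11) (nat_lit 4) (nat_lit 554) (nat_lit 347) (nat_lit 299))) (XT.nd (nat_lit 58500) (nat_lit 0) (nat_lit 3268) (XT.lf (nat_lit 0) (nat_lit 6083289425) (nat_lit 76) (nat_lit 28129554236) (nat_lit 76) (nat_lit 24873299179) (nat_lit 10) (nat_lit 4) (nat_lit 11) (nat_lit 5) (nat_lit 11) (nat_lit 4) (nat_lit 555) (nat_lit 347) (nat_lit 298)) (XT.lf (nat_lit 0) (nat_lit 2264011941) (nat_lit 152) (nat_lit 5551165835) (nat_lit 0) (nat_lit 2264011941) (nat_lit 53) (nat_lit 5) (nat_lit 55) (nat_lit 4) (nat_lit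 53) (nat_lit 4) (nat_lit 504) (nat_lit 348) (nat_lit 348)))) (XT.nd (nat_lit 156) (nat_lit 76) (nat_lit 0) (XT.nd (nat_lit 78) (nat_lit 152) (nat_lit 0) (XT.lf (nat_lit 0) (nat_lit 5445641725) (nat_lit 76) (nat_lit 7626175343) (nat_lit 76) (nat_lit 7433035817) (nat_lit 52) (nat_lit 4) (nat_lit 53) (nat_lit 5) (nat_lit 53) (nat_lit 4) (nat_lit 505) (nat_lit 348) (nat_lit 347)) (XT.lf (nat_lit 0) (nat_lit 954151436) (nat_lit 152) (nat_lit 19323784494) (nat_lit 0) (nat_lit 584584806) (nat_lit 50) (nat_lit 5) (nat_lit 52) (nat_lit 4) (nat_lit 50) (nat_lit 4) (nat_lit 506) (nat_lit 348) (nat_lit 346))) (XT.nd (nat_lit 78) (nat_lit 76) (nat_lit 0) (XT.lf (nat_lit 0) (nat_lit 9502714409) (nat_lit 152) (nat_lit 2767825227) (nat_lit 0) (nat_lit 8956397751) (nat_lit 50) (nat_lit 5) (nat_lit 52) (nat_lit 4) (nat_lit 50) (nat_lit 4) (nat_lit 507) (nat_lit 348) (nat_lit 345)) (XT.lf (nat_lit 0) (nat_lit 14238201844) (nat_lit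 76) (nat_lit 4041423917) (nat_lit 76) (nat_lit 3323505292) (nat_lit 49) (nat_lit 4) (nat_lit 50) (nat_lit 5) (nat_lit 50) (nat_lit 4) (nat_lit 508) (nat_lit 348) (nat_lit 344))))))) (XT.nd (nat_lit 1170) (nat_lit 912) (nat_lit 0) (XT.nd (nat_lit 546) (nat_lit 684) (nat_lit 0) (XT.nd (nat_lit 234) (nat_lit 304) (nat_lit 0) (XT.nd (nat_lit 78) (nat_lit 152) (nat_lit 0) (XT.lf (nat_lit 0) (nat_lit 5223989685) (nat_lit 152) (nat_lit 12399892751) (nat_lit 0) (nat_lit 4365229999) (nat_lit 47) (nat_lit 5) (nat_lit 49) (nat_lit 4) (nat_lit 47) (nat_lit 4) (nat_lit 509) (nat_lit 348) (nat_lit 343)) (XT.nd (nat_lit 78) (nat_lit 76) (nat_lit 0) (XT.lf (nat_lit 0) (nat_lit 4508092833) (nat_lit 76) (nat_lit 9446790503) (nat_lit 76) (nat_lit 8430990707) (nat_lit 46) (nat_lit 4) (nat_lit 47) (nat_lit 5) (nat_lit 47) (nat_lit 4) (nat_lit 510) (nat_lit 348) (nat_lit 342)) (XT.lf (nat_lit 0) (nat_lit 112038316) (nat_lit 152) (nat_lit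 940828139) (nat_lit 76) (nat_lit 21742773108) (nat_lit 45) (nat_lit 5) (nat_lit 47) (nat_lit 5) (nat_lit 46) (nat_lit 4) (nat_lit 511) (nat_lit 348) (nat_lit 341)))) (XT.nd (nat_lit 156) (nat_lit 152) (nat_lit 0) (XT.nd (nat_lit 78) (nat_lit 76) (nat_lit 0) (XT.lf (nat_lit 0) (nat_lit 8813882643) (nat_lit 152) (nat_lit 6863222900) (nat_lit 0) (nat_lit 7535929938) (nat_lit 44) (nat_lit 5) (nat_lit 46) (nat_lit 4) (nat_lit 44) (nat_lit 4) (nat_lit 512) (nat_lit 348) (nat_lit 340)) (XT.lf (nat_lit 0) (nat_lit 10412917189) (nat_lit 76) (nat_lit 7324351662) (nat_lit 76) (nat_lit 5906870854) (nat_lit 43) (nat_lit 4) (nat_lit 44) (nat_lit 5) (nat_lit 44) (nat_lit 4) (nat_lit 513) (nat_lit 348) (nat_lit 339))) (XT.nd (nat_lit 78) (nat_lit 0) (nat_lit 0) (XT.lf (nat_lit 0) (nat_lit 2745754149) (nat_lit 152) (nat_lit 20104734355) (nat_lit 0) (nat_lit 1238040571) (nat_lit 41) (nat_lit 5) (nat_lit 43) (nat_lit 4) (nat_lit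 41) (nat_lit 4) (nat_lit 514) (nat_lit 348) (nat_lit 338)) (XT.lf (nat_lit 0) (nat_lit 11587295456) (nat_lit 152) (nat_lit 3003865403) (nat_lit 0) (nat_lit 9951893897) (nat_lit 41) (nat_lit 5) (nat_lit 43) (nat_lit 4) (nat_lit 41) (nat_lit 4) (nat_lit 515) (nat_lit 348) (nat_lit 337))))) (XT.nd (nat_lit 312) (nat_lit 380) (nat_lit 0) (XT.nd (nat_lit 156) (nat_lit 76) (nat_lit 0) (XT.nd (nat_lit 78) (nat_lit 152) (nat_lit 0) (XT.lf (nat_lit 0) (nat_lit 14588105761) (nat_lit 76) (nat_lit 6091458692) (nat_lit 76) (nat_lit 4332088221) (nat_lit 40) (nat_lit 4) (nat_lit 41) (nat_lit 5) (nat_lit 41) (nat_lit 4) (nat_lit 516) (nat_lit 348) (nat_lit 336)) (XT.lf (nat_lit 0) (nat_lit 4430900655) (nat_lit 152) (nat_lit 18457093127) (nat_lit 0) (nat_lit 2605921394) (nat_lit 38) (nat_lit 5) (nat_lit 40) (nat_lit 4) (nat_lit 38) (nat_lit 4) (nat_lit 517) (nat_lit 348) (nat_lit 335))) (XT.nd (nat_lit 78) (nat_lit 76) (nat_lit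 0) (XT.lf (nat_lit 0) (nat_lit 13381781741) (nat_lit 152) (nat_lit 1163862326) (nat_lit 0) (nat_lit 11443353364) (nat_lit 38) (nat_lit 5) (nat_lit 40) (nat_lit 4) (nat_lit 38) (nat_lit 4) (nat_lit 518) (nat_lit 348) (nat_lit 334)) (XT.lf (nat_lit 0) (nat_lit 16675700928) (nat_lit 76) (nat_lit 5935748687) (nat_lit 76) (nat_lit 3887175537) (nat_lit 37) (nat_lit 4) (nat_lit 38) (nat_lit 5) (nat_lit 38) (nat_lit 4) (nat_lit 519) (nat_lit 348) (nat_lit 333)))) (XT.nd (nat_lit 156) (nat_lit 228) (nat_lit 0) (XT.nd (nat_lit 78) (nat_lit 0) (nat_lit 0) (XT.lf (nat_lit 0) (nat_lit 4960597308) (nat_lit 152) (nat_lit 19194640417) (nat_lit 0) (nat_lit 2867869324) (nat_lit 35) (nat_lit 5) (nat_lit 37) (nat_lit 4) (nat_lit 35) (nat_lit 4) (nat_lit 520) (nat_lit 348) (nat_lit 332)) (XT.lf (nat_lit 0) (nat_lit 14004769522) (nat_lit 152) (nat_lit 1745883710) (nat_lit 0) (nat_lit 11811243468) (nat_lit 35) (nat_lit 5) (nat_lit 37)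 (nat_lit 4) (nat_lit 35) (nat_lit 4) (nat_lit 521) (nat_lit 348) (nat_lit 331))) (XT.nd (nat_lit 78) (nat_lit 152) (nat_lit 0) (XT.lf (nat_lit 0) (nat_lit 16254136890) (nat_lit 76) (nat_lit 7076889669) (nat_lit 76) (nat_lit 4785501411) (nat_lit 34) (nat_lit 4) (nat_lit 35) (nat_lit 5) (nat_lit 35) (nat_lit 4) (nat_lit 522) (nat_lit 348) (nat_lit 330)) (XT.lf (nat_lit 0) (nat_lit 4113325265) (nat_lit 152) (nat_lit 22778407115) (nat_lit 0) (nat_lit 1796431957) (nat_lit 32) (nat_lit 5) (nat_lit 34) (nat_lit 4) (nat_lit 32) (nat_lit 4) (nat_lit 523) (nat_lit 348) (nat_lit 329)))))) (XT.nd (nat_lit 624) (nat_lit 456) (nat_lit 0) (XT.nd (nat_lit 312) (nat_lit 228) (nat_lit 0) (XT.nd (nat_lit 156) (nat_lit 152) (nat_lit 0) (XT.nd (nat_lit 78) (nat_lit 76) (nat_lit 0) (XT.lf (nat_lit 0) (nat_lit 13228655184) (nat_lit 152) (nat_lit 5223298068) (nat_lit 0) (nat_lit 10822204096) (nat_lit 32) (nat_lit 5) (nat_lit 34) (nat_lit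 4) (nat_lit 32) (nat_lit 4) (nat_lit 524) (nat_lit 348) (nat_lit 328)) (XT.lf (nat_lit 0) (nat_lit 12827667749) (nat_lit 76) (nat_lit 9771998396) (nat_lit 76) (nat_lit 7278598008) (nat_lit 31) (nat_lit 4) (nat_lit 32) (nat_lit 5) (nat_lit 32) (nat_lit 4) (nat_lit 525) (nat_lit 348) (nat_lit 327))) (XT.nd (nat_lit 78) (nat_lit 0) (nat_lit 0) (XT.lf (nat_lit 0) (nat_lit 744328820) (nat_lit 76) (nat_lit 892196305) (nat_lit 152) (nat_lit 28865883011) (nat_lit 29) (nat_lit 5) (nat_lit 30) (nat_lit 5) (nat_lit 31) (nat_lit 4) (nat_lit 526) (nat_lit 348) (nat_lit 326)) (XT.lf (nat_lit 0) (nat_lit 10785095596) (nat_lit 152) (nat_lit 12151861345) (nat_lit 0) (nat_lit 8202789536) (nat_lit 29) (nat_lit 5) (nat_lit 31) (nat_lit 4) (nat_lit 29) (nat_lit 4) (nat_lit 527) (nat_lit 348) (nat_lit 325)))) (XT.nd (nat_lit 156) (nat_lit 152) (nat_lit 0) (XT.nd (nat_lit 78) (nat_lit 0) (nat_lit 0) (XT.lf (nat_lit 0) (nat_lit 5814095529)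 (nat_lit 76) (nat_lit 14321916366) (nat_lit 76) (nat_lit 11662356979) (nat_lit 28) (nat_lit 4) (nat_lit 29) (nat_lit 5) (nat_lit 29) (nat_lit 4) (nat_lit 528) (nat_lit 348) (nat_lit 324)) (XT.lf (nat_lit 0) (nat_lit 24297741536) (nat_lit 76) (nat_lit 5456976848) (nat_lit 76) (nat_lit 2722414230) (nat_lit 28) (nat_lit 4) (nat_lit 29) (nat_lit 5) (nat_lit 29) (nat_lit 4) (nat_lit 529) (nat_lit 348) (nat_lit 323))) (XT.nd (nat_lit 78) (nat_lit 0) (nat_lit 0) (XT.lf (nat_lit 0) (nat_lit 6358370921) (nat_lit 152) (nat_lit 23183284381) (nat_lit 0) (nat_lit 3632758019) (nat_lit 26) (nat_lit 5) (nat_lit 28) (nat_lit 4) (nat_lit 26) (nat_lit 4) (nat_lit 530) (nat_lit 348) (nat_lit 322)) (XT.lf (nat_lit 0) (nat_lit 15661584145) (nat_lit 152) (nat_lit 5362745839) (nat_lit 0) (nat_lit 12867332662) (nat_lit 26) (nat_lit 5) (nat_lit 28) (nat_lit 4) (nat_lit 26) (nat_lit 4) (nat_lit 531) (nat_lit 348) (nat_lit 321))))) (XT.nd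 (nat_lit 312) (nat_lit 228) (nat_lit 0) (XT.nd (nat_lit 156) (nat_lit 152) (nat_lit 0) (XT.nd (nat_lit 78) (nat_lit 0) (nat_lit 0) (XT.lf (nat_lit 0) (nat_lit 12988340224) (nat_lit 76) (nat_lit 12251550348) (nat_lit 76) (nat_lit 9390659466) (nat_lit 25) (nat_lit 4) (nat_lit 26) (nat_lit 5) (nat_lit 26) (nat_lit 4) (nat_lit 532) (nat_lit 348) (nat_lit 320)) (XT.lf (nat_lit 0) (nat_lit 31744896652) (nat_lit 76) (nat_lit 3287249600) (nat_lit 76) (nat_lit 361660272) (nat_lit 25) (nat_lit 4) (nat_lit 26) (nat_lit 5) (nat_lit 26) (nat_lit 4) (nat_lit 533) (nat_lit 348) (nat_lit 319))) (XT.nd (nat_lit 78) (nat_lit 0) (nat_lit 0) (XT.lf (nat_lit 0) (nat_lit 8839574976) (nat_lit 152) (nat_lit 21397322612) (nat_lit 0) (nat_lit 5938212497) (nat_lit 23) (nat_lit 5) (nat_lit 25) (nat_lit 4) (nat_lit 23) (nat_lit 4) (nat_lit 534) (nat_lit 348) (nat_lit 318)) (XT.lf (nat_lit 0) (nat_lit 18254344834) (nat_lit 152) (nat_lit 3433283822)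 (nat_lit 0) (nat_lit 15293774112) (nat_lit 23) (nat_lit 5) (nat_lit 25) (nat_lit 4) (nat_lit 23) (nat_lit 4) (nat_lit 535) (nat_lit 348) (nat_lit 317)))) (XT.nd (nat_lit 156) (nat_lit 152) (nat_lit 0) (XT.nd (nat_lit 78) (nat_lit 0) (nat_lit 0) (XT.lf (nat_lit 0) (nat_lit 15121915829) (nat_lit 76) (nat_lit 12853651496) (nat_lit 76) (nat_lit 9835597043) (nat_lit 22) (nat_lit 4) (nat_lit 23) (nat_lit 5) (nat_lit 23) (nat_lit 4) (nat_lit 536) (nat_lit 348) (nat_lit 316)) (XT.lf (nat_lit 0) (nat_lit 34063687892) (nat_lit 76) (nat_lit 3839279504) (nat_lit 76) (nat_lit 765415604) (nat_lit 22) (nat_lit 4) (nat_lit 23) (nat_lit 5) (nat_lit 23) (nat_lit 4) (nat_lit 537) (nat_lit 348) (nat_lit 315))) (XT.nd (nat_lit 78) (nat_lit 0) (nat_lit 0) (XT.lf (nat_lit 0) (nat_lit 8479432993) (nat_lit 152) (nat_lit 25624821026) (nat_lit 0) (nat_lit 5442493352) (nat_lit 20) (nat_lit 5) (nat_lit 22) (nat_lit 4) (nat_lit 20) (nat_lit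 4) (nat_lit 538) (nat_lit 348) (nat_lit 314)) (XT.lf (nat_lit 0) (nat_lit 17953492128) (nat_lit 152) (nat_lit 7633247158) (nat_lit 0) (nat_lit 14865478937) (nat_lit 20) (nat_lit 5) (nat_lit 22) (nat_lit 4) (nat_lit 20) (nat_lit 4) (nat_lit 539) (nat_lit 348) (nat_lit 313))))))))
noncomputable def xc11 : XT := (XT.nd (nat_lit 60684) (nat_lit 0) (nat_lit 228) (XT.nd (nat_lit 1170) (nat_lit 0) (nat_lit 0) (XT.nd (nat_lit 546) (nat_lit 380) (nat_lit 0) (XT.nd (nat_lit 234) (nat_lit 76) (nat_lit 0) (XT.nd (nat_lit 78) (nat_lit 152) (nat_lit 0) (XT.lf (nat_lit 0) (nat_lit 10881413186) (nat_lit 76) (nat_lit 16820665191) (nat_lit 76) (nat_lit 13683066028) (nat_lit 19) (nat_lit 4) (nat_lit 20) (nat_lit 5) (nat_lit 20) (nat_lit 4) (nat_lit 540) (nat_lit 348) (nat_lit 312)) (XT.nd (nat_lit 78) (nat_lit 152) (nat_lit 0) (XT.lf (nat_lit 0) (nat_lit 29881236182) (nat_lit 76) (nat_lit 7825822664) (nat_lit 76) (nat_lit 4640081781)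 (nat_lit 19) (nat_lit 4) (nat_lit 20) (nat_lit 5) (nat_lit 20) (nat_lit 4) (nat_lit 541) (nat_lit 348) (nat_lit 311)) (XT.lf (nat_lit 0) (nat_lit 4543129002) (nat_lit 152) (nat_lit 37389917213) (nat_lit 0) (nat_lit 1404798500) (nat_lit 17) (nat_lit 5) (nat_lit 19) (nat_lit 4) (nat_lit 17) (nat_lit 4) (nat_lit 542) (nat_lit 348) (nat_lit 310)))) (XT.nd (nat_lit 156) (nat_lit 76) (nat_lit 0) (XT.nd (nat_lit 78) (nat_lit 0) (nat_lit 0) (XT.lf (nat_lit 0) (nat_lit 14002303236) (nat_lit 152) (nat_lit 19531860683) (nat_lit 0) (nat_lit 10819916241) (nat_lit 17) (nat_lit 5) (nat_lit 19) (nat_lit 4) (nat_lit 17) (nat_lit 4) (nat_lit 543) (nat_lit 348) (nat_lit 309)) (XT.lf (nat_lit 0) (nat_lit 23637599537) (nat_lit 152) (nat_lit 1353993795) (nat_lit 0) (nat_lit 20412439247) (nat_lit 17) (nat_lit 5) (nat_lit 19) (nat_lit 4) (nat_lit 17) (nat_lit 4) (nat_lit 544) (nat_lit 348) (nat_lit 308))) (XT.nd (nat_lit 78) (nat_lit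 0) (nat_lit 0) (XT.lf (nat_lit 0) (nat_lit 17501076052) (nat_lit 76) (nat_lit 16124592091) (nat_lit 76) (nat_lit 12857904331) (nat_lit 16) (nat_lit 4) (nat_lit 17) (nat_lit 5) (nat_lit 17) (nat_lit 4) (nat_lit 545) (nat_lit 348) (nat_lit 307)) (XT.lf (nat_lit 0) (nat_lit 36741966779) (nat_lit 76) (nat_lit 7081615830) (nat_lit 76) (nat_lit 3774610138) (nat_lit 16) (nat_lit 4) (nat_lit 17) (nat_lit 5) (nat_lit 17) (nat_lit 4) (nat_lit 546) (nat_lit 348) (nat_lit 306))))) (XT.nd (nat_lit 312) (nat_lit 152) (nat_lit 0) (XT.nd (nat_lit 156) (nat_lit 76) (nat_lit 0) (XT.nd (nat_lit 78) (nat_lit 0) (nat_lit 0) (XT.lf (nat_lit 0) (nat_lit 5466653076) (nat_lit 152) (nat_lit 41060193544) (nat_lit 0) (nat_lit 2217964420) (nat_lit 14) (nat_lit 5) (nat_lit 16) (nat_lit 4) (nat_lit 14) (nat_lit 4) (nat_lit 547) (nat_lit 348) (nat_lit 305)) (XT.lf (nat_lit 0) (nat_lit 14988710327) (nat_lit 152) (nat_lit 23230488943) (nat_lit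 0) (nat_lit 11703125051) (nat_lit 14) (nat_lit 5) (nat_lit 16) (nat_lit 4) (nat_lit 14) (nat_lit 4) (nat_lit 548) (nat_lit 348) (nat_lit 304))) (XT.nd (nat_lit 78) (nat_lit 76) (nat_lit 0) (XT.lf (nat_lit 0) (nat_lit 24697977888) (nat_lit 152) (nat_lit 5063568266) (nat_lit 0) (nat_lit 21376570651) (nat_lit 14) (nat_lit 5) (nat_lit 16) (nat_lit 4) (nat_lit 14) (nat_lit 4) (nat_lit 549) (nat_lit 348) (nat_lit 303)) (XT.lf (nat_lit 0) (nat_lit 13724252085) (nat_lit 76) (nat_lit 21010613406) (nat_lit 76) (nat_lit 17654427567) (nat_lit 13) (nat_lit 4) (nat_lit 14) (nat_lit 5) (nat_lit 14) (nat_lit 4) (nat_lit 550) (nat_lit 348) (nat_lit 302)))) (XT.nd (nat_lit 156) (nat_lit 76) (nat_lit 0) (XT.nd (nat_lit 78) (nat_lit 76) (nat_lit 0) (XT.lf (nat_lit 0) (nat_lit 32989469240) (nat_lit 76) (nat_lit 12039895958) (nat_lit 76) (nat_lit 8649944485) (nat_lit 13) (nat_lit 4) (nat_lit 14) (nat_lit 5) (nat_lit 14) (nat_lit 4)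 (nat_lit 551) (nat_lit 348) (nat_lit 301)) (XT.lf (nat_lit 0) (nat_lit 519703100) (nat_lit 152) (nat_lit 2367736347) (nat_lit 76) (nat_lit 52123190864) (nat_lit 12) (nat_lit 5) (nat_lit 14) (nat_lit 5) (nat_lit 13) (nat_lit 4) (nat_lit 552) (nat_lit 348) (nat_lit 300))) (XT.nd (nat_lit 78) (nat_lit 0) (nat_lit 0) (XT.lf (nat_lit 0) (nat_lit 9924111045) (nat_lit 152) (nat_lit 39881036324) (nat_lit 0) (nat_lit 6570168336) (nat_lit 11) (nat_lit 5) (nat_lit 13) (nat_lit 4) (nat_lit 11) (nat_lit 4) (nat_lit 553) (nat_lit 348) (nat_lit 299)) (XT.lf (nat_lit 0) (nat_lit 19573344655) (nat_lit 152) (nat_lit 22019314806) (nat_lit 0) (nat_lit 16189401619) (nat_lit 11) (nat_lit 5) (nat_lit 13) (nat_lit 4) (nat_lit 11) (nat_lit 4) (nat_lit 554) (nat_lit 348) (nat_lit 298)))))) (XT.nd (nat_lit 58890) (nat_lit 0) (nat_lit 2204) (XT.nd (nat_lit 58578) (nat_lit 0) (nat_lit 2888) (XT.nd (nat_lit 58422) (nat_lit 0) (nat_lit 3192)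 (XT.nd (nat_lit 58344) (nat_lit 0) (nat_lit 3420) (XT.lf (nat_lit 0) (nat_lit 29424636533) (nat_lit 152) (nat_lit 3797428095) (nat_lit 0) (nat_lit 26011566964) (nat_lit 11) (nat_lit 5) (nat_lit 13) (nat_lit 4) (nat_lit 11) (nat_lit 4) (nat_lit 555) (nat_lit 348) (nat_lit 297)) (XT.lf (nat_lit 0) (nat_lit 3858397587) (nat_lit 152) (nat_lit 2028042773) (nat_lit 0) (nat_lit 3858397587) (nat_lit 56) (nat_lit 5) (nat_lit 58) (nat_lit 4) (nat_lit 56) (nat_lit 4) (nat_lit 502) (nat_lit 349) (nat_lit 349))) (XT.nd (nat_lit 78) (nat_lit 152) (nat_lit 0) (XT.lf (nat_lit 0) (nat_lit 12331353362) (nat_lit 76) (nat_lit 3847298397) (nat_lit 76) (nat_lit 3642396673) (nat_lit 55) (nat_lit 4) (nat_lit 56) (nat_lit 5) (nat_lit 56) (nat_lit 4) (nat_lit 503) (nat_lit 349) (nat_lit 348)) (XT.lf (nat_lit 0) (nat_lit 4643089562) (nat_lit 152) (nat_lit 11266790291) (nat_lit 0) (nat_lit 4251016324) (nat_lit 53) (nat_lit 5) (nat_lit 55)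 (nat_lit 4) (nat_lit 53) (nat_lit 4) (nat_lit 504) (nat_lit 349) (nat_lit 347)))) (XT.nd (nat_lit 156) (nat_lit 76) (nat_lit 0) (XT.nd (nat_lit 78) (nat_lit 152) (nat_lit 0) (XT.lf (nat_lit 0) (nat_lit 5115063775) (nat_lit 76) (nat_lit 7987215981) (nat_lit 76) (nat_lit 7407628639) (nat_lit 52) (nat_lit 4) (nat_lit 53) (nat_lit 5) (nat_lit 53) (nat_lit 4) (nat_lit 505) (nat_lit 349) (nat_lit 346)) (XT.lf (nat_lit 0) (nat_lit 888562749) (nat_lit 152) (nat_lit 19832615248) (nat_lit 0) (nat_lit 149106565) (nat_lit 50) (nat_lit 5) (nat_lit 52) (nat_lit 4) (nat_lit 50) (nat_lit 4) (nat_lit 506) (nat_lit 349) (nat_lit 345))) (XT.nd (nat_lit 78) (nat_lit 76) (nat_lit 0) (XT.lf (nat_lit 0) (nat_lit 9355857339) (nat_lit 152) (nat_lit 3436483357) (nat_lit 0) (nat_lit 8444799188) (nat_lit 50) (nat_lit 5) (nat_lit 52) (nat_lit 4) (nat_lit 50) (nat_lit 4) (nat_lit 507) (nat_lit 349) (nat_lit 344)) (XT.lf (nat_lit 0) (nat_lit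 13397975663) (nat_lit 76) (nat_lit 4647814919) (nat_lit 76) (nat_lit 3570152916) (nat_lit 49) (nat_lit 4) (nat_lit 50) (nat_lit 5) (nat_lit 50) (nat_lit 4) (nat_lit 508) (nat_lit 349) (nat_lit 343))))) (XT.nd (nat_lit 312) (nat_lit 304) (nat_lit 0) (XT.nd (nat_lit 156) (nat_lit 152) (nat_lit 0) (XT.nd (nat_lit 78) (nat_lit 76) (nat_lit 0) (XT.lf (nat_lit 0) (nat_lit 4886755314) (nat_lit 152) (nat_lit 13434661838) (nat_lit 0) (nat_lit 3683441415) (nat_lit 47) (nat_lit 5) (nat_lit 49) (nat_lit 4) (nat_lit 47) (nat_lit 4) (nat_lit 509) (nat_lit 349) (nat_lit 342)) (XT.lf (nat_lit 0) (nat_lit 3294325458) (nat_lit 76) (nat_lit 10232894089) (nat_lit 76) (nat_lit 8877114064) (nat_lit 46) (nat_lit 4) (nat_lit 47) (nat_lit 5) (nat_lit 47) (nat_lit 4) (nat_lit 510) (nat_lit 349) (nat_lit 341))) (XT.nd (nat_lit 78) (nat_lit 152) (nat_lit 0) (XT.lf (nat_lit 0) (nat_lit 20488384781) (nat_lit 76) (nat_lit 1915945807) (nat_lit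 76) (nat_lit 412140418) (nat_lit 46) (nat_lit 4) (nat_lit 47) (nat_lit 5) (nat_lit 47) (nat_lit 4) (nat_lit 511) (nat_lit 349) (nat_lit 340)) (XT.lf (nat_lit 0) (nat_lit 8197080201) (nat_lit 152) (nat_lit 8442379197) (nat_lit 0) (nat_lit 6597546865) (nat_lit 44) (nat_lit 5) (nat_lit 46) (nat_lit 4) (nat_lit 44) (nat_lit 4) (nat_lit 512) (nat_lit 349) (nat_lit 339)))) (XT.nd (nat_lit 156) (nat_lit 76) (nat_lit 0) (XT.nd (nat_lit 78) (nat_lit 152) (nat_lit 0) (XT.lf (nat_lit 0) (nat_lit 8648414086) (nat_lit 76) (nat_lit 8378746786) (nat_lit 76) (nat_lit 6643749272) (nat_lit 43) (nat_lit 4) (nat_lit 44) (nat_lit 5) (nat_lit 44) (nat_lit 4) (nat_lit 513) (nat_lit 349) (nat_lit 338)) (XT.lf (nat_lit 0) (nat_lit 1916866377) (nat_lit 152) (nat_lit 22097122963) (nat_lit 0) (nat_lit 104714792) (nat_lit 41) (nat_lit 5) (nat_lit 43) (nat_lit 4) (nat_lit 41) (nat_lit 4) (nat_lit 514) (nat_lit 349) (nat_lit 337))) (XT.nd (nat_lit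 78) (nat_lit 76) (nat_lit 0) (XT.lf (nat_lit 0) (nat_lit 10682176972) (nat_lit 152) (nat_lit 5147283736) (nat_lit 0) (nat_lit 8746056475) (nat_lit 41) (nat_lit 5) (nat_lit 43) (nat_lit 4) (nat_lit 41) (nat_lit 4) (nat_lit 515) (nat_lit 349) (nat_lit 336)) (XT.lf (nat_lit 0) (nat_lit 12252480158) (nat_lit 76) (nat_lit 7425503951) (nat_lit 76) (nat_lit 5369025285) (nat_lit 40) (nat_lit 4) (nat_lit 41) (nat_lit 5) (nat_lit 41) (nat_lit 4) (nat_lit 516) (nat_lit 349) (nat_lit 335))))))) (XT.nd (nat_lit 1248) (nat_lit 836) (nat_lit 0) (XT.nd (nat_lit 624) (nat_lit 532) (nat_lit 0) (XT.nd (nat_lit 312) (nat_lit 228) (nat_lit 0) (XT.nd (nat_lit 156) (nat_lit 228) (nat_lit 0) (XT.nd (nat_lit 78) (nat_lit 0) (nat_lit 0) (XT.lf (nat_lit 0) (nat_lit 3301772249) (nat_lit 152) (nat_lit 21039429954) (nat_lit 0) (nat_lit 1191741905) (nat_lit 38) (nat_lit 5) (nat_lit 40) (nat_lit 4) (nat_lit 38) (nat_lit 4) (nat_lit 517) (nat_lit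 349) (nat_lit 334)) (XT.lf (nat_lit 0) (nat_lit 12178743640) (nat_lit 152) (nat_lit 3892931891) (nat_lit 0) (nat_lit 9958568522) (nat_lit 38) (nat_lit 5) (nat_lit 40) (nat_lit 4) (nat_lit 38) (nat_lit 4) (nat_lit 518) (nat_lit 349) (nat_lit 333))) (XT.nd (nat_lit 78) (nat_lit 152) (nat_lit 0) (XT.lf (nat_lit 0) (nat_lit 13747023346) (nat_lit 76) (nat_lit 7561478941) (nat_lit 76) (nat_lit 5234367151) (nat_lit 37) (nat_lit 4) (nat_lit 38) (nat_lit 5) (nat_lit 38) (nat_lit 4) (nat_lit 519) (nat_lit 349) (nat_lit 332)) (XT.lf (nat_lit 0) (nat_lit 3520814333) (nat_lit 152) (nat_lit 22389807837) (nat_lit 0) (nat_lit 1160684427) (nat_lit 35) (nat_lit 5) (nat_lit 37) (nat_lit 4) (nat_lit 35) (nat_lit 4) (nat_lit 520) (nat_lit 349) (nat_lit 331)))) (XT.nd (nat_lit 156) (nat_lit 152) (nat_lit 0) (XT.nd (nat_lit 78) (nat_lit 76) (nat_lit 0) (XT.lf (nat_lit 0) (nat_lit 12493319036) (nat_lit 152) (nat_lit 5083600668) (nat_lit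 0) (nat_lit 10035326925) (nat_lit 35) (nat_lit 5) (nat_lit 37) (nat_lit 4) (nat_lit 35) (nat_lit 4) (nat_lit 521) (nat_lit 349) (nat_lit 330)) (XT.lf (nat_lit 0) (nat_lit 12708840825) (nat_lit 76) (nat_lit 9007075584) (nat_lit 76) (nat_lit 6454071625) (nat_lit 34) (nat_lit 4) (nat_lit 35) (nat_lit 5) (nat_lit 35) (nat_lit 4) (nat_lit 522) (nat_lit 349) (nat_lit 329))) (XT.nd (nat_lit 78) (nat_lit 0) (nat_lit 0) (XT.lf (nat_lit 0) (nat_lit 2132697490) (nat_lit 76) (nat_lit 220970471) (nat_lit 152) (nat_lit 26392147350) (nat_lit 32) (nat_lit 5) (nat_lit 33) (nat_lit 5) (nat_lit 34) (nat_lit 4) (nat_lit 523) (nat_lit 349) (nat_lit 328)) (XT.lf (nat_lit 0) (nat_lit 11397373164) (nat_lit 152) (nat_lit 9194362751) (nat_lit 0) (nat_lit 8742221463) (nat_lit 32) (nat_lit 5) (nat_lit 34) (nat_lit 4) (nat_lit 32) (nat_lit 4) (nat_lit 524) (nat_lit 349) (nat_lit 327))))) (XT.nd (nat_lit 312) (nat_lit 228) (nat_lit 0) (XT.nd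 (nat_lit 156) (nat_lit 228) (nat_lit 0) (XT.nd (nat_lit 78) (nat_lit 0) (nat_lit 0) (XT.lf (nat_lit 0) (nat_lit 8640450641) (nat_lit 76) (nat_lit 12020207070) (nat_lit 76) (nat_lit 9280638571) (nat_lit 31) (nat_lit 4) (nat_lit 32) (nat_lit 5) (nat_lit 32) (nat_lit 4) (nat_lit 525) (nat_lit 349) (nat_lit 326)) (XT.lf (nat_lit 0) (nat_lit 26928536754) (nat_lit 76) (nat_lit 3230563979) (nat_lit 76) (nat_lit 409037425) (nat_lit 31) (nat_lit 4) (nat_lit 32) (nat_lit 5) (nat_lit 32) (nat_lit 4) (nat_lit 526) (nat_lit 349) (nat_lit 325))) (XT.nd (nat_lit 78) (nat_lit 76) (nat_lit 0) (XT.lf (nat_lit 0) (nat_lit 8621595668) (nat_lit 152) (nat_lit 16782780471) (nat_lit 0) (nat_lit 5804996171) (nat_lit 29) (nat_lit 5) (nat_lit 31) (nat_lit 4) (nat_lit 29) (nat_lit 4) (nat_lit 527) (nat_lit 349) (nat_lit 324)) (XT.lf (nat_lit 0) (nat_lit 957814584) (nat_lit 76) (nat_lit 16902573421) (nat_lit 76) (nat_lit 14010970693) (nat_lit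 28) (nat_lit 4) (nat_lit 29) (nat_lit 5) (nat_lit 29) (nat_lit 4) (nat_lit 528) (nat_lit 349) (nat_lit 323)))) (XT.nd (nat_lit 156) (nat_lit 76) (nat_lit 0) (XT.nd (nat_lit 78) (nat_lit 152) (nat_lit 0) (XT.lf (nat_lit 0) (nat_lit 19312142681) (nat_lit 76) (nat_lit 8102172400) (nat_lit 76) (nat_lit 5137751002) (nat_lit 28) (nat_lit 4) (nat_lit 29) (nat_lit 5) (nat_lit 29) (nat_lit 4) (nat_lit 529) (nat_lit 349) (nat_lit 322)) (XT.lf (nat_lit 0) (nat_lit 3849254887) (nat_lit 152) (nat_lit 28502478741) (nat_lit 0) (nat_lit 902537278) (nat_lit 26) (nat_lit 5) (nat_lit 28) (nat_lit 4) (nat_lit 26) (nat_lit 4) (nat_lit 530) (nat_lit 349) (nat_lit 321))) (XT.nd (nat_lit 78) (nat_lit 76) (nat_lit 0) (XT.lf (nat_lit 0) (nat_lit 13088992709) (nat_lit 152) (nat_lit 10808796325) (nat_lit 0) (nat_lit 10075635701) (nat_lit 26) (nat_lit 5) (nat_lit 28) (nat_lit 4) (nat_lit 26) (nat_lit 4) (nat_lit 531) (nat_lit 349) (nat_lit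 320)) (XT.lf (nat_lit 0) (nat_lit 7308290217) (nat_lit 76) (nat_lit 15242782199) (nat_lit 76) (nat_lit 12164726746) (nat_lit 25) (nat_lit 4) (nat_lit 26) (nat_lit 5) (nat_lit 26) (nat_lit 4) (nat_lit 532) (nat_lit 349) (nat_lit 319)))))) (XT.nd (nat_lit 624) (nat_lit 380) (nat_lit 0) (XT.nd (nat_lit 312) (nat_lit 228) (nat_lit 0) (XT.nd (nat_lit 156) (nat_lit 76) (nat_lit 0) (XT.nd (nat_lit 78) (nat_lit 152) (nat_lit 0) (XT.lf (nat_lit 0) (nat_lit 25942892822) (nat_lit 76) (nat_lit 6339431325) (nat_lit 76) (nat_lit 3198561847) (nat_lit 25) (nat_lit 4) (nat_lit 26) (nat_lit 5) (nat_lit 26) (nat_lit 4) (nat_lit 533) (nat_lit 349) (nat_lit 318)) (XT.lf (nat_lit 0) (nat_lit 5908811905) (nat_lit 152) (nat_lit 27558456737) (nat_lit 0) (nat_lit 2800215819) (nat_lit 23) (nat_lit 5) (nat_lit 25) (nat_lit 4) (nat_lit 23) (nat_lit 4) (nat_lit 534) (nat_lit 349) (nat_lit 317))) (XT.nd (nat_lit 78) (nat_lit 76) (nat_lit 0)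 (XT.lf (nat_lit 0) (nat_lit 15263802665) (nat_lit 152) (nat_lit 9714045212) (nat_lit 0) (nat_lit 12097722848) (nat_lit 23) (nat_lit 5) (nat_lit 25) (nat_lit 4) (nat_lit 23) (nat_lit 4) (nat_lit 535) (nat_lit 349) (nat_lit 316)) (XT.lf (nat_lit 0) (nat_lit 8597700524) (nat_lit 76) (nat_lit 16266571925) (nat_lit 76) (nat_lit 13044682660) (nat_lit 22) (nat_lit 4) (nat_lit 23) (nat_lit 5) (nat_lit 23) (nat_lit 4) (nat_lit 536) (nat_lit 349) (nat_lit 315)))) (XT.nd (nat_lit 156) (nat_lit 76) (nat_lit 0) (XT.nd (nat_lit 78) (nat_lit 152) (nat_lit 0) (XT.lf (nat_lit 0) (nat_lit 27424468268) (nat_lit 76) (nat_lit 7309751227) (nat_lit 76) (nat_lit 4033678032) (nat_lit 22) (nat_lit 4) (nat_lit 23) (nat_lit 5) (nat_lit 23) (nat_lit 4) (nat_lit 537) (nat_lit 349) (nat_lit 314)) (XT.lf (nat_lit 0) (nat_lit 5116874436) (nat_lit 152) (nat_lit 32649924996) (nat_lit 0) (nat_lit 1885147298) (nat_lit 20) (nat_lit 5) (nat_lit 22)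 (nat_lit 4) (nat_lit 20) (nat_lit 4) (nat_lit 538) (nat_lit 349) (nat_lit 313))) (XT.nd (nat_lit 78) (nat_lit 76) (nat_lit 0) (XT.lf (nat_lit 0) (nat_lit 14534631374) (nat_lit 152) (nat_lit 14771157189) (nat_lit 0) (nat_lit 11253318265) (nat_lit 20) (nat_lit 5) (nat_lit 22) (nat_lit 4) (nat_lit 20) (nat_lit 4) (nat_lit 539) (nat_lit 349) (nat_lit 312)) (XT.lf (nat_lit 0) (nat_lit 3489744630) (nat_lit 76) (nat_lit 20667757425) (nat_lit 76) (nat_lit 17338302596) (nat_lit 19) (nat_lit 4) (nat_lit 20) (nat_lit 5) (nat_lit 20) (nat_lit 4) (nat_lit 540) (nat_lit 349) (nat_lit 311))))) (XT.nd (nat_lit 312) (nat_lit 228) (nat_lit 0) (XT.nd (nat_lit 156) (nat_lit 76) (nat_lit 0) (XT.nd (nat_lit 78) (nat_lit 76) (nat_lit 0) (XT.lf (nat_lit 0) (nat_lit 22381120909) (nat_lit 76) (nat_lit 11727248939) (nat_lit 76) (nat_lit 8351054576) (nat_lit 19) (nat_lit 4) (nat_lit 20) (nat_lit 5) (nat_lit 20) (nat_lit 4) (nat_lit 541) (nat_lit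 349) (nat_lit 310)) (XT.lf (nat_lit 0) (nat_lit 780429734) (nat_lit 152) (nat_lit 1837300190) (nat_lit 76) (nat_lit 40837193138) (nat_lit 18) (nat_lit 5) (nat_lit 20) (nat_lit 5) (nat_lit 19) (nat_lit 4) (nat_lit 542) (nat_lit 349) (nat_lit 309))) (XT.nd (nat_lit 78) (nat_lit 0) (nat_lit 0) (XT.lf (nat_lit 0) (nat_lit 10143218542) (nat_lit 152) (nat_lit 27552301533) (nat_lit 0) (nat_lit 6778530150) (nat_lit 17) (nat_lit 5) (nat_lit 19) (nat_lit 4) (nat_lit 17) (nat_lit 4) (nat_lit 543) (nat_lit 349) (nat_lit 308)) (XT.lf (nat_lit 0) (nat_lit 19727028324) (nat_lit 152) (nat_lit 9477706604) (nat_lit 0) (nat_lit 16320812461) (nat_lit 17) (nat_lit 5) (nat_lit 19) (nat_lit 4) (nat_lit 17) (nat_lit 4) (nat_lit 544) (nat_lit 349) (nat_lit 307)))) (XT.nd (nat_lit 156) (nat_lit 152) (nat_lit 0) (XT.nd (nat_lit 78) (nat_lit 0) (nat_lit 0) (XT.lf (nat_lit 0) (nat_lit 9113425941) (nat_lit 76) (nat_lit 20471056854) (nat_lit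 76) (nat_lit 17024523059) (nat_lit 16) (nat_lit 4) (nat_lit 17) (nat_lit 5) (nat_lit 17) (nat_lit 4) (nat_lit 545) (nat_lit 349) (nat_lit 306)) (XT.lf (nat_lit 0) (nat_lit 28255035612) (nat_lit 76) (nat_lit 11477876318) (nat_lit 76) (nat_lit 7992198899) (nat_lit 16) (nat_lit 4) (nat_lit 17) (nat_lit 5) (nat_lit 17) (nat_lit 4) (nat_lit 546) (nat_lit 349) (nat_lit 305))) (XT.nd (nat_lit 78) (nat_lit 76) (nat_lit 0) (XT.lf (nat_lit 0) (nat_lit 1187015544) (nat_lit 152) (nat_lit 1114039381) (nat_lit 76) (nat_lit 46576221066) (nat_lit 15) (nat_lit 5) (nat_lit 17) (nat_lit 5) (nat_lit 16) (nat_lit 4) (nat_lit 547) (nat_lit 349) (nat_lit 304)) (XT.lf (nat_lit 0) (nat_lit 10627425324) (nat_lit 152) (nat_lit 32259259591) (nat_lit 0) (nat_lit 7170553910) (nat_lit 14) (nat_lit 5) (nat_lit 16) (nat_lit 4) (nat_lit 14) (nat_lit 4) (nat_lit 548) (nat_lit 349) (nat_lit 303))))))))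
noncomputable def xc12 : XT := (XT.nd (nat_lit 60528) (nat_lit 0) (nat_lit 0) (XT.nd (nat_lit 59280) (nat_lit 0) (nat_lit 1672) (XT.nd (nat_lit 58656) (nat_lit 0) (nat_lit 2964) (XT.nd (nat_lit 234) (nat_lit 152) (nat_lit 0) (XT.nd (nat_lit 78) (nat_lit 76) (nat_lit 0) (XT.lf (nat_lit 0) (nat_lit 20289607225) (nat_lit 152) (nat_lit 14186879572) (nat_lit 0) (nat_lit 16797957208) (nat_lit 14) (nat_lit 5) (nat_lit 16) (nat_lit 4) (nat_lit 14) (nat_lit 4) (nat_lit 549) (nat_lit 349) (nat_lit 302)) (XT.nd (nat_lit 78) (nat_lit 0) (nat_lit 0) (XT.lf (nat_lit 0) (nat_lit 4325755205) (nat_lit 76) (nat_lit 25864681288) (nat_lit 76) (nat_lit 22339265637) (nat_lit 13) (nat_lit 4) (nat_lit 14) (nat_lit 5) (nat_lit 14) (nat_lit 4) (nat_lit 550) (nat_lit 349) (nat_lit 301)) (XT.lf (nat_lit 0) (nat_lit 23500085186) (nat_lit 76) (nat_lit 16939594600) (nat_lit 76) (nat_lit 13381396781) (nat_lit 13) (nat_lit 4) (nat_lit 14) (nat_lit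 5) (nat_lit 14) (nat_lit 4) (nat_lit 551) (nat_lit 349) (nat_lit 300)))) (XT.nd (nat_lit 156) (nat_lit 0) (nat_lit 0) (XT.nd (nat_lit 78) (nat_lit 152) (nat_lit 0) (XT.lf (nat_lit 0) (nat_lit 43070517918) (nat_lit 76) (nat_lit 7836687780) (nat_lit 76) (nat_lit 4246662613) (nat_lit 13) (nat_lit 4) (nat_lit 14) (nat_lit 5) (nat_lit 14) (nat_lit 4) (nat_lit 552) (nat_lit 349) (nat_lit 299)) (XT.lf (nat_lit 0) (nat_lit 5052488291) (nat_lit 152) (nat_lit 49935907277) (nat_lit 0) (nat_lit 1537026635) (nat_lit 11) (nat_lit 5) (nat_lit 13) (nat_lit 4) (nat_lit 11) (nat_lit 4) (nat_lit 553) (nat_lit 349) (nat_lit 298))) (XT.nd (nat_lit 78) (nat_lit 0) (nat_lit 0) (XT.lf (nat_lit 0) (nat_lit 14658658482) (nat_lit 152) (nat_lit 32160730809) (nat_lit 0) (nat_lit 11114070294) (nat_lit 11) (nat_lit 5) (nat_lit 13) (nat_lit 4) (nat_lit 11) (nat_lit 4) (nat_lit 554) (nat_lit 349) (nat_lit 297)) (XT.lf (nat_lit 0) (nat_lit 24468141214)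 (nat_lit 152) (nat_lit 14022868420) (nat_lit 0) (nat_lit 20895274840) (nat_lit 11) (nat_lit 5) (nat_lit 13) (nat_lit 4) (nat_lit 11) (nat_lit 4) (nat_lit 555) (nat_lit 349) (nat_lit 296))))) (XT.nd (nat_lit 312) (nat_lit 380) (nat_lit 0) (XT.nd (nat_lit 156) (nat_lit 228) (nat_lit 0) (XT.nd (nat_lit 78) (nat_lit 0) (nat_lit 0) (XT.lf (nat_lit 0) (nat_lit 1072797696) (nat_lit 76) (nat_lit 4176346315) (nat_lit 76) (nat_lit 4176346315) (nat_lit 58) (nat_lit 4) (nat_lit 59) (nat_lit 5) (nat_lit 59) (nat_lit 4) (nat_lit 500) (nat_lit 350) (nat_lit 350)) (XT.lf (nat_lit 0) (nat_lit 18299807750) (nat_lit 76) (nat_lit 543196097) (nat_lit 76) (nat_lit 325815858) (nat_lit 58) (nat_lit 4) (nat_lit 59) (nat_lit 5) (nat_lit 59) (nat_lit 4) (nat_lit 501) (nat_lit 350) (nat_lit 349))) (XT.nd (nat_lit 78) (nat_lit 76) (nat_lit 0) (XT.lf (nat_lit 0) (nat_lit 7846247233) (nat_lit 152) (nat_lit 4215580570) (nat_lit 0) (nat_lit 7430296734)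 (nat_lit 56) (nat_lit 5) (nat_lit 58) (nat_lit 4) (nat_lit 56) (nat_lit 4) (nat_lit 502) (nat_lit 350) (nat_lit 348)) (XT.lf (nat_lit 0) (nat_lit 12010752729) (nat_lit 76) (nat_lit 4215049168) (nat_lit 76) (nat_lit 3600164957) (nat_lit 55) (nat_lit 4) (nat_lit 56) (nat_lit 5) (nat_lit 56) (nat_lit 4) (nat_lit 503) (nat_lit 350) (nat_lit 347)))) (XT.nd (nat_lit 156) (nat_lit 152) (nat_lit 0) (XT.nd (nat_lit 78) (nat_lit 76) (nat_lit 0) (XT.lf (nat_lit 0) (nat_lit 4596313905) (nat_lit 152) (nat_lit 11760309853) (nat_lit 0) (nat_lit 3811824840) (nat_lit 53) (nat_lit 5) (nat_lit 55) (nat_lit 4) (nat_lit 53) (nat_lit 4) (nat_lit 504) (nat_lit 350) (nat_lit 346)) (XT.lf (nat_lit 0) (nat_lit 4453619020) (nat_lit 76) (nat_lit 8516473202) (nat_lit 76) (nat_lit 7549931609) (nat_lit 52) (nat_lit 4) (nat_lit 53) (nat_lit 5) (nat_lit 53) (nat_lit 4) (nat_lit 505) (nat_lit 350) (nat_lit 345))) (XT.nd (nat_lit 78) (nat_lit 0)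 (nat_lit 0) (XT.lf (nat_lit 0) (nat_lit 197487200) (nat_lit 76) (nat_lit 462994976) (nat_lit 152) (nat_lit 20222616113) (nat_lit 50) (nat_lit 5) (nat_lit 51) (nat_lit 5) (nat_lit 52) (nat_lit 4) (nat_lit 506) (nat_lit 350) (nat_lit 344)) (XT.lf (nat_lit 0) (nat_lit 9044424835) (nat_lit 152) (nat_lit 4440200820) (nat_lit 0) (nat_lit 7767829119) (nat_lit 50) (nat_lit 5) (nat_lit 52) (nat_lit 4) (nat_lit 50) (nat_lit 4) (nat_lit 507) (nat_lit 350) (nat_lit 343)))))) (XT.nd (nat_lit 624) (nat_lit 608) (nat_lit 0) (XT.nd (nat_lit 312) (nat_lit 380) (nat_lit 0) (XT.nd (nat_lit 156) (nat_lit 76) (nat_lit 0) (XT.nd (nat_lit 78) (nat_lit 152) (nat_lit 0) (XT.lf (nat_lit 0) (nat_lit 12220631341) (nat_lit 76) (nat_lit 5425806140) (nat_lit 76) (nat_lit 3987459111) (nat_lit 49) (nat_lit 4) (nat_lit 50) (nat_lit 5) (nat_lit 50) (nat_lit 4) (nat_lit 508) (nat_lit 350) (nat_lit 342)) (XT.lf (nat_lit 0) (nat_lit 4379517166) (nat_lit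 152) (nat_lit 14815760027) (nat_lit 0) (nat_lit 2830597615) (nat_lit 47) (nat_lit 5) (nat_lit 49) (nat_lit 4) (nat_lit 47) (nat_lit 4) (nat_lit 509) (nat_lit 350) (nat_lit 341))) (XT.nd (nat_lit 78) (nat_lit 0) (nat_lit 0) (XT.lf (nat_lit 0) (nat_lit 1731950072) (nat_lit 76) (nat_lit 11196544912) (nat_lit 76) (nat_lit 9499599996) (nat_lit 46) (nat_lit 4) (nat_lit 47) (nat_lit 5) (nat_lit 47) (nat_lit 4) (nat_lit 510) (nat_lit 350) (nat_lit 340)) (XT.lf (nat_lit 0) (nat_lit 18776698098) (nat_lit 76) (nat_lit 2953231969) (nat_lit 76) (nat_lit 1112573107) (nat_lit 46) (nat_lit 4) (nat_lit 47) (nat_lit 5) (nat_lit 47) (nat_lit 4) (nat_lit 511) (nat_lit 350) (nat_lit 339)))) (XT.nd (nat_lit 156) (nat_lit 152) (nat_lit 0) (XT.nd (nat_lit 78) (nat_lit 76) (nat_lit 0) (XT.lf (nat_lit 0) (nat_lit 7406795256) (nat_lit 152) (nat_lit 10375267623) (nat_lit 0) (nat_lit 5484283639) (nat_lit 44) (nat_lit 5) (nat_lit 46) (nat_lit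 4) (nat_lit 44) (nat_lit 4) (nat_lit 512) (nat_lit 350) (nat_lit 338)) (XT.lf (nat_lit 0) (nat_lit 6527621953) (nat_lit 76) (nat_lit 9614747181) (nat_lit 76) (nat_lit 7560716945) (nat_lit 43) (nat_lit 4) (nat_lit 44) (nat_lit 5) (nat_lit 44) (nat_lit 4) (nat_lit 513) (nat_lit 350) (nat_lit 337))) (XT.nd (nat_lit 78) (nat_lit 76) (nat_lit 0) (XT.lf (nat_lit 0) (nat_lit 923239620) (nat_lit 152) (nat_lit 307541786) (nat_lit 76) (nat_lit 22923200117) (nat_lit 42) (nat_lit 5) (nat_lit 44) (nat_lit 5) (nat_lit 43) (nat_lit 4) (nat_lit 514) (nat_lit 350) (nat_lit 336)) (XT.lf (nat_lit 0) (nat_lit 9599663823) (nat_lit 152) (nat_lit 7652665147) (nat_lit 0) (nat_lit 7361132631) (nat_lit 41) (nat_lit 5) (nat_lit 43) (nat_lit 4) (nat_lit 41) (nat_lit 4) (nat_lit 515) (nat_lit 350) (nat_lit 335))))) (XT.nd (nat_lit 312) (nat_lit 304) (nat_lit 0) (XT.nd (nat_lit 156) (nat_lit 76) (nat_lit 0) (XT.nd (nat_lit 78) (nat_lit 152)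 (nat_lit 0) (XT.lf (nat_lit 0) (nat_lit 9552043500) (nat_lit 76) (nat_lit 8945614454) (nat_lit 76) (nat_lit 6590230672) (nat_lit 40) (nat_lit 4) (nat_lit 41) (nat_lit 5) (nat_lit 41) (nat_lit 4) (nat_lit 516) (nat_lit 350) (nat_lit 334)) (XT.lf (nat_lit 0) (nat_lit 1576419537) (nat_lit 76) (nat_lit 416315652) (nat_lit 152) (nat_lit 23584790572) (nat_lit 38) (nat_lit 5) (nat_lit 39) (nat_lit 5) (nat_lit 40) (nat_lit 4) (nat_lit 517) (nat_lit 350) (nat_lit 333))) (XT.nd (nat_lit 78) (nat_lit 76) (nat_lit 0) (XT.lf (nat_lit 0) (nat_lit 10793947713) (nat_lit 152) (nat_lit 6993065250) (nat_lit 0) (nat_lit 8290085896) (nat_lit 38) (nat_lit 5) (nat_lit 40) (nat_lit 4) (nat_lit 38) (nat_lit 4) (nat_lit 518) (nat_lit 350) (nat_lit 332)) (XT.lf (nat_lit 0) (nat_lit 10444128942) (nat_lit 76) (nat_lit 9378161001) (nat_lit 76) (nat_lit 6770477171) (nat_lit 37) (nat_lit 4) (nat_lit 38) (nat_lit 5) (nat_lit 38) (nat_lit 4) (nat_lit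 519) (nat_lit 350) (nat_lit 331)))) (XT.nd (nat_lit 156) (nat_lit 152) (nat_lit 0) (XT.nd (nat_lit 78) (nat_lit 0) (nat_lit 0) (XT.lf (nat_lit 0) (nat_lit 1147666871) (nat_lit 76) (nat_lit 751913804) (nat_lit 152) (nat_lit 25225519895) (nat_lit 35) (nat_lit 5) (nat_lit 36) (nat_lit 5) (nat_lit 37) (nat_lit 4) (nat_lit 520) (nat_lit 350) (nat_lit 330)) (XT.lf (nat_lit 0) (nat_lit 10795277412) (nat_lit 152) (nat_lit 8802396285) (nat_lit 0) (nat_lit 8070671486) (nat_lit 35) (nat_lit 5) (nat_lit 37) (nat_lit 4) (nat_lit 35) (nat_lit 4) (nat_lit 521) (nat_lit 350) (nat_lit 329))) (XT.nd (nat_lit 78) (nat_lit 76) (nat_lit 0) (XT.lf (nat_lit 0) (nat_lit 8778993113) (nat_lit 76) (nat_lit 11133552069) (nat_lit 76) (nat_lit 8316701628) (nat_lit 34) (nat_lit 4) (nat_lit 35) (nat_lit 5) (nat_lit 35) (nat_lit 4) (nat_lit 522) (nat_lit 350) (nat_lit 328)) (XT.lf (nat_lit 0) (nat_lit 439356561) (nat_lit 152) (nat_lit 2014514400)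 (nat_lit 76) (nat_lit 26354381424) (nat_lit 33) (nat_lit 5) (nat_lit 35) (nat_lit 5) (nat_lit 34) (nat_lit 4) (nat_lit 523) (nat_lit 350) (nat_lit 327))))))) (XT.nd (nat_lit 1170) (nat_lit 760) (nat_lit 0) (XT.nd (nat_lit 546) (nat_lit 456) (nat_lit 0) (XT.nd (nat_lit 234) (nat_lit 304) (nat_lit 0) (XT.nd (nat_lit 78) (nat_lit 76) (nat_lit 0) (XT.lf (nat_lit 0) (nat_lit 9374175748) (nat_lit 152) (nat_lit 13557482192) (nat_lit 0) (nat_lit 6468003398) (nat_lit 32) (nat_lit 5) (nat_lit 34) (nat_lit 4) (nat_lit 32) (nat_lit 4) (nat_lit 524) (nat_lit 350) (nat_lit 326)) (XT.nd (nat_lit 78) (nat_lit 0) (nat_lit 0) (XT.lf (nat_lit 0) (nat_lit 4057369916) (nat_lit 76) (nat_lit 14470524010) (nat_lit 76) (nat_lit 11482393604) (nat_lit 31) (nat_lit 4) (nat_lit 32) (nat_lit 5) (nat_lit 32) (nat_lit 4) (nat_lit 525) (nat_lit 350) (nat_lit 325)) (XT.lf (nat_lit 0) (nat_lit 22216206852) (nat_lit 76) (nat_lit 5745284768) (nat_lit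 76) (nat_lit 2677583434) (nat_lit 31) (nat_lit 4) (nat_lit 32) (nat_lit 5) (nat_lit 32) (nat_lit 4) (nat_lit 526) (nat_lit 350) (nat_lit 324)))) (XT.nd (nat_lit 156) (nat_lit 152) (nat_lit 0) (XT.nd (nat_lit 78) (nat_lit 0) (nat_lit 0) (XT.lf (nat_lit 0) (nat_lit 6260342631) (nat_lit 152) (nat_lit 21817741691) (nat_lit 0) (nat_lit 3206988591) (nat_lit 29) (nat_lit 5) (nat_lit 31) (nat_lit 4) (nat_lit 29) (nat_lit 4) (nat_lit 527) (nat_lit 350) (nat_lit 323)) (XT.lf (nat_lit 0) (nat_lit 15426391540) (nat_lit 152) (nat_lit 4222631499) (nat_lit 0) (nat_lit 12300218829) (nat_lit 29) (nat_lit 5) (nat_lit 31) (nat_lit 4) (nat_lit 29) (nat_lit 4) (nat_lit 528) (nat_lit 350) (nat_lit 322))) (XT.nd (nat_lit 78) (nat_lit 76) (nat_lit 0) (XT.lf (nat_lit 0) (nat_lit 13922106581) (nat_lit 76) (nat_lit 10953921054) (nat_lit 76) (nat_lit 7757050604) (nat_lit 28) (nat_lit 4) (nat_lit 29) (nat_lit 5) (nat_lit 29) (nat_lit 4) (nat_lit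 529) (nat_lit 350) (nat_lit 321)) (XT.lf (nat_lit 0) (nat_lit 1164788493) (nat_lit 152) (nat_lit 900988387) (nat_lit 76) (nat_lit 31273750134) (nat_lit 27) (nat_lit 5) (nat_lit 29) (nat_lit 5) (nat_lit 28) (nat_lit 4) (nat_lit 530) (nat_lit 350) (nat_lit 320))))) (XT.nd (nat_lit 312) (nat_lit 152) (nat_lit 0) (XT.nd (nat_lit 156) (nat_lit 152) (nat_lit 0) (XT.nd (nat_lit 78) (nat_lit 76) (nat_lit 0) (XT.lf (nat_lit 0) (nat_lit 10314121524) (nat_lit 152) (nat_lit 16668245737) (nat_lit 0) (nat_lit 7079025961) (nat_lit 26) (nat_lit 5) (nat_lit 28) (nat_lit 4) (nat_lit 26) (nat_lit 4) (nat_lit 531) (nat_lit 350) (nat_lit 319)) (XT.lf (nat_lit 0) (nat_lit 1210272449) (nat_lit 76) (nat_lit 18447479251) (nat_lit 76) (nat_lit 15149569663) (nat_lit 25) (nat_lit 4) (nat_lit 26) (nat_lit 5) (nat_lit 26) (nat_lit 4) (nat_lit 532) (nat_lit 350) (nat_lit 318))) (XT.nd (nat_lit 78) (nat_lit 152) (nat_lit 0) (XT.lf (nat_lit 0)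 (nat_lit 19726473284) (nat_lit 76) (nat_lit 9603303012) (nat_lit 76) (nat_lit 6244408933) (nat_lit 25) (nat_lit 4) (nat_lit 26) (nat_lit 5) (nat_lit 26) (nat_lit 4) (nat_lit 533) (nat_lit 350) (nat_lit 317)) (XT.lf (nat_lit 0) (nat_lit 2213451190) (nat_lit 76) (nat_lit 560713101) (nat_lit 152) (nat_lit 33591945049) (nat_lit 23) (nat_lit 5) (nat_lit 24) (nat_lit 5) (nat_lit 25) (nat_lit 4) (nat_lit 534) (nat_lit 350) (nat_lit 316)))) (XT.nd (nat_lit 156) (nat_lit 76) (nat_lit 0) (XT.nd (nat_lit 78) (nat_lit 76) (nat_lit 0) (XT.lf (nat_lit 0) (nat_lit 12065727175) (nat_lit 152) (nat_lit 16418999683) (nat_lit 0) (nat_lit 8691371784) (nat_lit 23) (nat_lit 5) (nat_lit 25) (nat_lit 4) (nat_lit 23) (nat_lit 4) (nat_lit 535) (nat_lit 350) (nat_lit 315)) (XT.lf (nat_lit 0) (nat_lit 1644299992) (nat_lit 76) (nat_lit 19898709093) (nat_lit 76) (nat_lit 16470169773) (nat_lit 22) (nat_lit 4) (nat_lit 23) (nat_lit 5) (nat_lit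 23) (nat_lit 4) (nat_lit 536) (nat_lit 350) (nat_lit 314))) (XT.nd (nat_lit 78) (nat_lit 76) (nat_lit 0) (XT.lf (nat_lit 0) (nat_lit 20359413058) (nat_lit 76) (nat_lit 10997763437) (nat_lit 76) (nat_lit 7516618360) (nat_lit 22) (nat_lit 4) (nat_lit 23) (nat_lit 5) (nat_lit 23) (nat_lit 4) (nat_lit 537) (nat_lit 350) (nat_lit 313)) (XT.lf (nat_lit 0) (nat_lit 1561234922) (nat_lit 152) (nat_lit 362911735) (nat_lit 76) (nat_lit 37838921904) (nat_lit 21) (nat_lit 5) (nat_lit 23) (nat_lit 5) (nat_lit 22) (nat_lit 4) (nat_lit 538) (nat_lit 350) (nat_lit 312)))))) (XT.nd (nat_lit 624) (nat_lit 380) (nat_lit 0) (XT.nd (nat_lit 312) (nat_lit 228) (nat_lit 0) (XT.nd (nat_lit 156) (nat_lit 76) (nat_lit 0) (XT.nd (nat_lit 78) (nat_lit 0) (nat_lit 0) (XT.lf (nat_lit 0) (nat_lit 10902240272) (nat_lit 152) (nat_lit 22345531029) (nat_lit 0) (nat_lit 7424760079) (nat_lit 20) (nat_lit 5) (nat_lit 22) (nat_lit 4) (nat_lit 20) (nat_lit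 4) (nat_lit 539) (nat_lit 350) (nat_lit 311)) (XT.lf (nat_lit 0) (nat_lit 20438495173) (nat_lit 152) (nat_lit 4259057228) (nat_lit 0) (nat_lit 16914275445) (nat_lit 20) (nat_lit 5) (nat_lit 22) (nat_lit 4) (nat_lit 20) (nat_lit 4) (nat_lit 540) (nat_lit 350) (nat_lit 310))) (XT.nd (nat_lit 78) (nat_lit 0) (nat_lit 0) (XT.lf (nat_lit 0) (nat_lit 14442267384) (nat_lit 76) (nat_lit 15852803538) (nat_lit 76) (nat_lit 12283205622) (nat_lit 19) (nat_lit 4) (nat_lit 20) (nat_lit 5) (nat_lit 20) (nat_lit 4) (nat_lit 541) (nat_lit 350) (nat_lit 309)) (XT.lf (nat_lit 0) (nat_lit 33584428725) (nat_lit 76) (nat_lit 6802380378) (nat_lit 76) (nat_lit 3188725969) (nat_lit 19) (nat_lit 4) (nat_lit 20) (nat_lit 5) (nat_lit 20) (nat_lit 4) (nat_lit 542) (nat_lit 350) (nat_lit 308)))) (XT.nd (nat_lit 156) (nat_lit 76) (nat_lit 0) (XT.nd (nat_lit 78) (nat_lit 0) (nat_lit 0) (XT.lf (nat_lit 0) (nat_lit 6063843675) (nat_lit 152) (nat_lit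 36022997685) (nat_lit 0) (nat_lit 2513913866) (nat_lit 17) (nat_lit 5) (nat_lit 19) (nat_lit 4) (nat_lit 17) (nat_lit 4) (nat_lit 543) (nat_lit 350) (nat_lit 307)) (XT.lf (nat_lit 0) (nat_lit 15597666546) (nat_lit 152) (nat_lit 18048666794) (nat_lit 0) (nat_lit 12007418804) (nat_lit 17) (nat_lit 5) (nat_lit 19) (nat_lit 4) (nat_lit 17) (nat_lit 4) (nat_lit 544) (nat_lit 350) (nat_lit 306))) (XT.nd (nat_lit 78) (nat_lit 0) (nat_lit 0) (XT.lf (nat_lit 0) (nat_lit 272605781) (nat_lit 76) (nat_lit 25049000882) (nat_lit 76) (nat_lit 21419609517) (nat_lit 16) (nat_lit 4) (nat_lit 17) (nat_lit 5) (nat_lit 17) (nat_lit 4) (nat_lit 545) (nat_lit 350) (nat_lit 305)) (XT.lf (nat_lit 0) (nat_lit 19317826076) (nat_lit 76) (nat_lit 16104165710) (nat_lit 76) (nat_lit 12436770827) (nat_lit 16) (nat_lit 4) (nat_lit 17) (nat_lit 5) (nat_lit 17) (nat_lit 4) (nat_lit 546) (nat_lit 350) (nat_lit 304))))) (XT.nd (nat_lit 312) (nat_lit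 228) (nat_lit 0) (XT.nd (nat_lit 156) (nat_lit 0) (nat_lit 0) (XT.nd (nat_lit 78) (nat_lit 152) (nat_lit 0) (XT.lf (nat_lit 0) (nat_lit 38744431687) (nat_lit 76) (nat_lit 6986268094) (nat_lit 76) (nat_lit 3281976591) (nat_lit 16) (nat_lit 4) (nat_lit 17) (nat_lit 5) (nat_lit 17) (nat_lit 4) (nat_lit 547) (nat_lit 350) (nat_lit 303)) (XT.lf (nat_lit 0) (nat_lit 6039717881) (nat_lit 152) (nat_lit 41750810895) (nat_lit 0) (nat_lit 2408539761) (nat_lit 14) (nat_lit 5) (nat_lit 16) (nat_lit 4) (nat_lit 14) (nat_lit 4) (nat_lit 548) (nat_lit 350) (nat_lit 302))) (XT.nd (nat_lit 78) (nat_lit 0) (nat_lit 0) (XT.lf (nat_lit 0) (nat_lit 15656185548) (nat_lit 152) (nat_lit 23770217923) (nat_lit 0) (nat_lit 11991241794) (nat_lit 14) (nat_lit 5) (nat_lit 16) (nat_lit 4) (nat_lit 14) (nat_lit 4) (nat_lit 549) (nat_lit 350) (nat_lit 301)) (XT.lf (nat_lit 0) (nat_lit 25471050261) (nat_lit 152) (nat_lit 5431107848) (nat_lit 0)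 (nat_lit 21773324339) (nat_lit 14) (nat_lit 5) (nat_lit 16) (nat_lit 4) (nat_lit 14) (nat_lit 4) (nat_lit 550) (nat_lit 350) (nat_lit 300)))) (XT.nd (nat_lit 156) (nat_lit 152) (nat_lit 0) (XT.nd (nat_lit 78) (nat_lit 0) (nat_lit 0) (XT.lf (nat_lit 0) (nat_lit 13546892462) (nat_lit 76) (nat_lit 22076216670) (nat_lit 76) (nat_lit 18346663400) (nat_lit 13) (nat_lit 4) (nat_lit 14) (nat_lit 5) (nat_lit 14) (nat_lit 4) (nat_lit 551) (nat_lit 350) (nat_lit 299)) (XT.lf (nat_lit 0) (nat_lit 33031655316) (nat_lit 76) (nat_lit 13016321218) (nat_lit 76) (nat_lit 9255867610) (nat_lit 13) (nat_lit 4) (nat_lit 14) (nat_lit 5) (nat_lit 14) (nat_lit 4) (nat_lit 552) (nat_lit 350) (nat_lit 298))) (XT.nd (nat_lit 78) (nat_lit 76) (nat_lit 0) (XT.lf (nat_lit 0) (nat_lit 20644196) (nat_lit 152) (nat_lit 3748546218) (nat_lit 76) (nat_lit 52911263874) (nat_lit 12) (nat_lit 5) (nat_lit 14) (nat_lit 5) (nat_lit 13) (nat_lit 4) (nat_lit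 553) (nat_lit 350) (nat_lit 297)) (XT.lf (nat_lit 0) (nat_lit 9511659159) (nat_lit 152) (nat_lit 42776958665) (nat_lit 0) (nat_lit 5803328606) (nat_lit 11) (nat_lit 5) (nat_lit 13) (nat_lit 4) (nat_lit 11) (nat_lit 4) (nat_lit 554) (nat_lit 350) (nat_lit 296))))))))
noncomputable def xc13 : XT := (XT.nd (nat_lit 60372) (nat_lit 0) (nat_lit 0) (XT.nd (nat_lit 59124) (nat_lit 0) (nat_lit 1368) (XT.nd (nat_lit 58500) (nat_lit 0) (nat_lit 2660) (XT.nd (nat_lit 58188) (nat_lit 0) (nat_lit 3344) (XT.nd (nat_lit 58032) (nat_lit 0) (nat_lit 3648) (XT.lf (nat_lit 0) (nat_lit 19280550488) (nat_lit 152) (nat_lit 24720673286) (nat_lit 0) (nat_lit 15544765386) (nat_lit 11) (nat_lit 5) (nat_lit 13) (nat_lit 4) (nat_lit 11) (nat_lit 4) (nat_lit 555) (nat_lit 350) (nat_lit 295)) (XT.nd (nat_lit 78) (nat_lit 152) (nat_lit 0) (XT.lf (nat_lit 0) (nat_lit 3815992972) (nat_lit 76) (nat_lit 2651988194) (nat_lit 76) (nat_lit 2651988194)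 (nat_lit 61) (nat_lit 4) (nat_lit 62) (nat_lit 5) (nat_lit 62) (nat_lit 4) (nat_lit 498) (nat_lit 351) (nat_lit 351)) (XT.lf (nat_lit 0) (nat_lit 2594169069) (nat_lit 152) (nat_lit 13578754752) (nat_lit 0) (nat_lit 2370267424) (nat_lit 59) (nat_lit 5) (nat_lit 61) (nat_lit 4) (nat_lit 59) (nat_lit 4) (nat_lit 499) (nat_lit 351) (nat_lit 350)))) (XT.nd (nat_lit 156) (nat_lit 228) (nat_lit 0) (XT.nd (nat_lit 78) (nat_lit 0) (nat_lit 0) (XT.lf (nat_lit 0) (nat_lit 1987851820) (nat_lit 76) (nat_lit 8653419528) (nat_lit 76) (nat_lit 8212137644) (nat_lit 58) (nat_lit 4) (nat_lit 59) (nat_lit 5) (nat_lit 59) (nat_lit 4) (nat_lit 500) (nat_lit 351) (nat_lit 349)) (XT.lf (nat_lit 0) (nat_lit 17988915076) (nat_lit 76) (nat_lit 918510617) (nat_lit 76) (nat_lit 266179958) (nat_lit 58) (nat_lit 4) (nat_lit 59) (nat_lit 5) (nat_lit 59) (nat_lit 4) (nat_lit 501) (nat_lit 351) (nat_lit 348))) (XT.nd (nat_lit 78) (nat_lit 76) (nat_lit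 0) (XT.lf (nat_lit 0) (nat_lit 7818766027) (nat_lit 152) (nat_lit 4694205004) (nat_lit 0) (nat_lit 6986501577) (nat_lit 56) (nat_lit 5) (nat_lit 58) (nat_lit 4) (nat_lit 56) (nat_lit 4) (nat_lit 502) (nat_lit 351) (nat_lit 347)) (XT.lf (nat_lit 0) (nat_lit 11369271326) (nat_lit 76) (nat_lit 4745970322) (nat_lit 76) (nat_lit 3720566347) (nat_lit 55) (nat_lit 4) (nat_lit 56) (nat_lit 5) (nat_lit 56) (nat_lit 4) (nat_lit 503) (nat_lit 351) (nat_lit 346))))) (XT.nd (nat_lit 312) (nat_lit 304) (nat_lit 0) (XT.nd (nat_lit 156) (nat_lit 152) (nat_lit 0) (XT.nd (nat_lit 78) (nat_lit 76) (nat_lit 0) (XT.lf (nat_lit 0) (nat_lit 4387656039) (nat_lit 152) (nat_lit 12583321588) (nat_lit 0) (nat_lit 3210065671) (nat_lit 53) (nat_lit 5) (nat_lit 55) (nat_lit 4) (nat_lit 53) (nat_lit 4) (nat_lit 504) (nat_lit 351) (nat_lit 345)) (XT.lf (nat_lit 0) (nat_lit 3460729500) (nat_lit 76) (nat_lit 9214409464) (nat_lit 76) (nat_lit 7860069069)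 (nat_lit 52) (nat_lit 4) (nat_lit 53) (nat_lit 5) (nat_lit 53) (nat_lit 4) (nat_lit 505) (nat_lit 351) (nat_lit 344))) (XT.nd (nat_lit 78) (nat_lit 76) (nat_lit 0) (XT.lf (nat_lit 0) (nat_lit 277797472) (nat_lit 152) (nat_lit 962013492) (nat_lit 76) (nat_lit 19660919541) (nat_lit 51) (nat_lit 5) (nat_lit 53) (nat_lit 5) (nat_lit 52) (nat_lit 4) (nat_lit 506) (nat_lit 351) (nat_lit 343)) (XT.lf (nat_lit 0) (nat_lit 8568144770) (nat_lit 152) (nat_lit 5779854649) (nat_lit 0) (nat_lit 6924896018) (nat_lit 50) (nat_lit 5) (nat_lit 52) (nat_lit 4) (nat_lit 50) (nat_lit 4) (nat_lit 507) (nat_lit 351) (nat_lit 342)))) (XT.nd (nat_lit 156) (nat_lit 76) (nat_lit 0) (XT.nd (nat_lit 78) (nat_lit 152) (nat_lit 0) (XT.lf (nat_lit 0) (nat_lit 10705140128) (nat_lit 76) (nat_lit 6376077377) (nat_lit 76) (nat_lit 4575788516) (nat_lit 49) (nat_lit 4) (nat_lit 50) (nat_lit 5) (nat_lit 50) (nat_lit 4) (nat_lit 508) (nat_lit 351) (nat_lit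 341)) (XT.lf (nat_lit 0) (nat_lit 3701832023) (nat_lit 152) (nat_lit 16544394103) (nat_lit 0) (nat_lit 1805953395) (nat_lit 47) (nat_lit 5) (nat_lit 49) (nat_lit 4) (nat_lit 47) (nat_lit 4) (nat_lit 509) (nat_lit 351) (nat_lit 340))) (XT.nd (nat_lit 78) (nat_lit 76) (nat_lit 0) (XT.lf (nat_lit 0) (nat_lit 12159920591) (nat_lit 152) (nat_lit 176878282) (nat_lit 0) (nat_lit 10120328016) (nat_lit 47) (nat_lit 5) (nat_lit 49) (nat_lit 4) (nat_lit 47) (nat_lit 4) (nat_lit 510) (nat_lit 351) (nat_lit 339)) (XT.lf (nat_lit 0) (nat_lit 16719387095) (nat_lit 76) (nat_lit 4166762675) (nat_lit 76) (nat_lit 1987641997) (nat_lit 46) (nat_lit 4) (nat_lit 47) (nat_lit 5) (nat_lit 47) (nat_lit 4) (nat_lit 511) (nat_lit 351) (nat_lit 338)))))) (XT.nd (nat_lit 624) (nat_lit 608) (nat_lit 0) (XT.nd (nat_lit 312) (nat_lit 304) (nat_lit 0) (XT.nd (nat_lit 156) (nat_lit 152) (nat_lit 0) (XT.nd (nat_lit 78) (nat_lit 76) (nat_lit 0) (XT.lf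 (nat_lit 0) (nat_lit 6442337267) (nat_lit 152) (nat_lit 12663577110) (nat_lit 0) (nat_lit 4195167505) (nat_lit 44) (nat_lit 5) (nat_lit 46) (nat_lit 4) (nat_lit 44) (nat_lit 4) (nat_lit 512) (nat_lit 351) (nat_lit 337)) (XT.lf (nat_lit 0) (nat_lit 4048687672) (nat_lit 76) (nat_lit 11033432848) (nat_lit 76) (nat_lit 8658575105) (nat_lit 43) (nat_lit 4) (nat_lit 44) (nat_lit 5) (nat_lit 44) (nat_lit 4) (nat_lit 513) (nat_lit 351) (nat_lit 336))) (XT.nd (nat_lit 78) (nat_lit 152) (nat_lit 0) (XT.lf (nat_lit 0) (nat_lit 21235971135) (nat_lit 76) (nat_lit 2728427584) (nat_lit 76) (nat_lit 229600929) (nat_lit 43) (nat_lit 4) (nat_lit 44) (nat_lit 5) (nat_lit 44) (nat_lit 4) (nat_lit 514) (nat_lit 351) (nat_lit 335)) (XT.lf (nat_lit 0) (nat_lit 8338810124) (nat_lit 152) (nat_lit 10522198804) (nat_lit 0) (nat_lit 5795912238) (nat_lit 41) (nat_lit 5) (nat_lit 43) (nat_lit 4) (nat_lit 41) (nat_lit 4) (nat_lit 515) (nat_lit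 351) (nat_lit 334)))) (XT.nd (nat_lit 156) (nat_lit 152) (nat_lit 0) (XT.nd (nat_lit 78) (nat_lit 76) (nat_lit 0) (XT.lf (nat_lit 0) (nat_lit 6484436181) (nat_lit 76) (nat_lit 10653118455) (nat_lit 76) (nat_lit 7996771453) (nat_lit 40) (nat_lit 4) (nat_lit 41) (nat_lit 5) (nat_lit 41) (nat_lit 4) (nat_lit 516) (nat_lit 351) (nat_lit 333)) (XT.lf (nat_lit 0) (nat_lit 528757998) (nat_lit 152) (nat_lit 1693113038) (nat_lit 76) (nat_lit 23405044685) (nat_lit 39) (nat_lit 5) (nat_lit 41) (nat_lit 5) (nat_lit 40) (nat_lit 4) (nat_lit 517) (nat_lit 351) (nat_lit 332))) (XT.nd (nat_lit 78) (nat_lit 76) (nat_lit 0) (XT.lf (nat_lit 0) (nat_lit 9226183946) (nat_lit 152) (nat_lit 10466971258) (nat_lit 0) (nat_lit 6436447589) (nat_lit 38) (nat_lit 5) (nat_lit 40) (nat_lit 4) (nat_lit 38) (nat_lit 4) (nat_lit 518) (nat_lit 351) (nat_lit 331)) (XT.lf (nat_lit 0) (nat_lit 6764131691) (nat_lit 76) (nat_lit 11387382258) (nat_lit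 76) (nat_lit 8496847830) (nat_lit 37) (nat_lit 4) (nat_lit 38) (nat_lit 5) (nat_lit 38) (nat_lit 4) (nat_lit 519) (nat_lit 351) (nat_lit 330))))) (XT.nd (nat_lit 312) (nat_lit 380) (nat_lit 0) (XT.nd (nat_lit 156) (nat_lit 76) (nat_lit 0) (XT.nd (nat_lit 78) (nat_lit 76) (nat_lit 0) (XT.lf (nat_lit 0) (nat_lit 128256525) (nat_lit 152) (nat_lit 2728035885) (nat_lit 76) (nat_lit 24327260252) (nat_lit 36) (nat_lit 5) (nat_lit 38) (nat_lit 5) (nat_lit 37) (nat_lit 4) (nat_lit 520) (nat_lit 351) (nat_lit 329)) (XT.lf (nat_lit 0) (nat_lit 8909160927) (nat_lit 152) (nat_lit 12905519992) (nat_lit 0) (nat_lit 5915560461) (nat_lit 35) (nat_lit 5) (nat_lit 37) (nat_lit 4) (nat_lit 35) (nat_lit 4) (nat_lit 521) (nat_lit 351) (nat_lit 328))) (XT.nd (nat_lit 78) (nat_lit 0) (nat_lit 0) (XT.lf (nat_lit 0) (nat_lit 4461159906) (nat_lit 76) (nat_lit 13458177210) (nat_lit 76) (nat_lit 10375018963) (nat_lit 34) (nat_lit 4) (nat_lit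 35) (nat_lit 5) (nat_lit 35) (nat_lit 4) (nat_lit 522) (nat_lit 351) (nat_lit 327)) (XT.lf (nat_lit 0) (nat_lit 22351167348) (nat_lit 76) (nat_lit 4847189456) (nat_lit 76) (nat_lit 1677081908) (nat_lit 34) (nat_lit 4) (nat_lit 35) (nat_lit 5) (nat_lit 35) (nat_lit 4) (nat_lit 523) (nat_lit 351) (nat_lit 326)))) (XT.nd (nat_lit 156) (nat_lit 228) (nat_lit 0) (XT.nd (nat_lit 78) (nat_lit 0) (nat_lit 0) (XT.lf (nat_lit 0) (nat_lit 7157295093) (nat_lit 152) (nat_lit 18316468826) (nat_lit 0) (nat_lit 3997562720) (nat_lit 32) (nat_lit 5) (nat_lit 34) (nat_lit 4) (nat_lit 32) (nat_lit 4) (nat_lit 524) (nat_lit 351) (nat_lit 325)) (XT.lf (nat_lit 0) (nat_lit 16208408443) (nat_lit 152) (nat_lit 907517678) (nat_lit 0) (nat_lit 12969105142) (nat_lit 32) (nat_lit 5) (nat_lit 34) (nat_lit 4) (nat_lit 32) (nat_lit 4) (nat_lit 525) (nat_lit 351) (nat_lit 324))) (XT.nd (nat_lit 78) (nat_lit 152) (nat_lit 0) (XT.lf (nat_lit 0)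 (nat_lit 17107773238) (nat_lit 76) (nat_lit 8462379037) (nat_lit 76) (nat_lit 5145822408) (nat_lit 31) (nat_lit 4) (nat_lit 32) (nat_lit 5) (nat_lit 32) (nat_lit 4) (nat_lit 526) (nat_lit 351) (nat_lit 323)) (XT.lf (nat_lit 0) (nat_lit 3699273255) (nat_lit 152) (nat_lit 27261144485) (nat_lit 0) (nat_lit 406496692) (nat_lit 29) (nat_lit 5) (nat_lit 31) (nat_lit 4) (nat_lit 29) (nat_lit 4) (nat_lit 527) (nat_lit 351) (nat_lit 322))))))) (XT.nd (nat_lit 1248) (nat_lit 532) (nat_lit 0) (XT.nd (nat_lit 624) (nat_lit 380) (nat_lit 0) (XT.nd (nat_lit 312) (nat_lit 228) (nat_lit 0) (XT.nd (nat_lit 156) (nat_lit 152) (nat_lit 0) (XT.nd (nat_lit 78) (nat_lit 76) (nat_lit 0) (XT.lf (nat_lit 0) (nat_lit 12803636407) (nat_lit 152) (nat_lit 9789135703) (nat_lit 0) (nat_lit 9440162105) (nat_lit 29) (nat_lit 5) (nat_lit 31) (nat_lit 4) (nat_lit 29) (nat_lit 4) (nat_lit 528) (nat_lit 351) (nat_lit 321)) (XT.lf (nat_lit 0) (nat_lit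 8122923496) (nat_lit 76) (nat_lit 14014714627) (nat_lit 76) (nat_lit 10582601744) (nat_lit 28) (nat_lit 4) (nat_lit 29) (nat_lit 5) (nat_lit 29) (nat_lit 4) (nat_lit 529) (nat_lit 351) (nat_lit 320))) (XT.nd (nat_lit 78) (nat_lit 152) (nat_lit 0) (XT.lf (nat_lit 0) (nat_lit 26532773415) (nat_lit 76) (nat_lit 5197394403) (nat_lit 76) (nat_lit 1698642121) (nat_lit 28) (nat_lit 4) (nat_lit 29) (nat_lit 5) (nat_lit 29) (nat_lit 4) (nat_lit 530) (nat_lit 351) (nat_lit 319)) (XT.lf (nat_lit 0) (nat_lit 7334545945) (nat_lit 152) (nat_lit 22946213984) (nat_lit 0) (nat_lit 3874885044) (nat_lit 26) (nat_lit 5) (nat_lit 28) (nat_lit 4) (nat_lit 26) (nat_lit 4) (nat_lit 531) (nat_lit 351) (nat_lit 318)))) (XT.nd (nat_lit 156) (nat_lit 152) (nat_lit 0) (XT.nd (nat_lit 78) (nat_lit 76) (nat_lit 0) (XT.lf (nat_lit 0) (nat_lit 16608453257) (nat_lit 152) (nat_lit 5207403896) (nat_lit 0) (nat_lit 13087807866) (nat_lit 26) (nat_lit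 5) (nat_lit 28) (nat_lit 4) (nat_lit 26) (nat_lit 4) (nat_lit 532) (nat_lit 351) (nat_lit 317)) (XT.lf (nat_lit 0) (nat_lit 13090206215) (nat_lit 76) (nat_lit 13081716586) (nat_lit 76) (nat_lit 9501862952) (nat_lit 25) (nat_lit 4) (nat_lit 26) (nat_lit 5) (nat_lit 26) (nat_lit 4) (nat_lit 533) (nat_lit 351) (nat_lit 316))) (XT.nd (nat_lit 78) (nat_lit 152) (nat_lit 0) (XT.lf (nat_lit 0) (nat_lit 31816933107) (nat_lit 76) (nat_lit 4144618566) (nat_lit 76) (nat_lit 507281200) (nat_lit 25) (nat_lit 4) (nat_lit 26) (nat_lit 5) (nat_lit 26) (nat_lit 4) (nat_lit 534) (nat_lit 351) (nat_lit 315)) (XT.lf (nat_lit 0) (nat_lit 8657323928) (nat_lit 152) (nat_lit 23554005934) (nat_lit 0) (nat_lit 5071744498) (nat_lit 23) (nat_lit 5) (nat_lit 25) (nat_lit 4) (nat_lit 23) (nat_lit 4) (nat_lit 535) (nat_lit 351) (nat_lit 314))))) (XT.nd (nat_lit 312) (nat_lit 152) (nat_lit 0) (XT.nd (nat_lit 156) (nat_lit 152) (nat_lit 0) (XT.nd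 (nat_lit 78) (nat_lit 76) (nat_lit 0) (XT.lf (nat_lit 0) (nat_lit 18064093479) (nat_lit 152) (nat_lit 5632268367) (nat_lit 0) (nat_lit 14425908292) (nat_lit 23) (nat_lit 5) (nat_lit 25) (nat_lit 4) (nat_lit 23) (nat_lit 4) (nat_lit 536) (nat_lit 351) (nat_lit 313)) (XT.lf (nat_lit 0) (nat_lit 12862348914) (nat_lit 76) (nat_lit 14906538671) (nat_lit 76) (nat_lit 11217279934) (nat_lit 22) (nat_lit 4) (nat_lit 23) (nat_lit 5) (nat_lit 23) (nat_lit 4) (nat_lit 537) (nat_lit 351) (nat_lit 312))) (XT.nd (nat_lit 78) (nat_lit 152) (nat_lit 0) (XT.lf (nat_lit 0) (nat_lit 31813612850) (nat_lit 76) (nat_lit 5901354890) (nat_lit 76) (nat_lit 2162510181) (nat_lit 22) (nat_lit 4) (nat_lit 23) (nat_lit 5) (nat_lit 23) (nat_lit 4) (nat_lit 538) (nat_lit 351) (nat_lit 311)) (XT.lf (nat_lit 0) (nat_lit 7053144889) (nat_lit 152) (nat_lit 30362987064) (nat_lit 0) (nat_lit 3376459036) (nat_lit 20) (nat_lit 5) (nat_lit 22) (nat_lit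 4) (nat_lit 20) (nat_lit 4) (nat_lit 539) (nat_lit 351) (nat_lit 310)))) (XT.nd (nat_lit 156) (nat_lit 76) (nat_lit 0) (XT.nd (nat_lit 78) (nat_lit 76) (nat_lit 0) (XT.lf (nat_lit 0) (nat_lit 16537875303) (nat_lit 152) (nat_lit 12379746789) (nat_lit 0) (nat_lit 12815811262) (nat_lit 20) (nat_lit 5) (nat_lit 22) (nat_lit 4) (nat_lit 20) (nat_lit 4) (nat_lit 540) (nat_lit 351) (nat_lit 309)) (XT.lf (nat_lit 0) (nat_lit 6057738745) (nat_lit 76) (nat_lit 20206091315) (nat_lit 76) (nat_lit 16439970781) (nat_lit 19) (nat_lit 4) (nat_lit 20) (nat_lit 5) (nat_lit 20) (nat_lit 4) (nat_lit 541) (nat_lit 351) (nat_lit 308))) (XT.nd (nat_lit 78) (nat_lit 76) (nat_lit 0) (XT.lf (nat_lit 0) (nat_lit 25100655977) (nat_lit 76) (nat_lit 11205391499) (nat_lit 76) (nat_lit 7396497670) (nat_lit 19) (nat_lit 4) (nat_lit 20) (nat_lit 5) (nat_lit 20) (nat_lit 4) (nat_lit 542) (nat_lit 351) (nat_lit 307)) (XT.lf (nat_lit 0) (nat_lit 1782281282)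 (nat_lit 152) (nat_lit 232390295) (nat_lit 76) (nat_lit 42718984284) (nat_lit 18) (nat_lit 5) (nat_lit 20) (nat_lit 5) (nat_lit 19) (nat_lit 4) (nat_lit 543) (nat_lit 351) (nat_lit 306)))))) (XT.nd (nat_lit 624) (nat_lit 152) (nat_lit 0) (XT.nd (nat_lit 312) (nat_lit 228) (nat_lit 0) (XT.nd (nat_lit 156) (nat_lit 76) (nat_lit 0) (XT.nd (nat_lit 78) (nat_lit 0) (nat_lit 0) (XT.lf (nat_lit 0) (nat_lit 11245906022) (nat_lit 152) (nat_lit 27074363552) (nat_lit 0) (nat_lit 7468489292) (nat_lit 17) (nat_lit 5) (nat_lit 19) (nat_lit 4) (nat_lit 17) (nat_lit 4) (nat_lit 544) (nat_lit 351) (nat_lit 305)) (XT.lf (nat_lit 0) (nat_lit 20920108228) (nat_lit 152) (nat_lit 8852918968) (nat_lit 0) (nat_lit 17104687980) (nat_lit 17) (nat_lit 5) (nat_lit 19) (nat_lit 4) (nat_lit 17) (nat_lit 4) (nat_lit 545) (nat_lit 351) (nat_lit 304))) (XT.nd (nat_lit 78) (nat_lit 0) (nat_lit 0) (XT.lf (nat_lit 0) (nat_lit 9922528962) (nat_lit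 76) (nat_lit 20964526395) (nat_lit 76) (nat_lit 17112209527) (nat_lit 16) (nat_lit 4) (nat_lit 17) (nat_lit 5) (nat_lit 17) (nat_lit 4) (nat_lit 546) (nat_lit 351) (nat_lit 303)) (XT.lf (nat_lit 0) (nat_lit 29258278341) (nat_lit 76) (nat_lit 11892198921) (nat_lit 76) (nat_lit 8004060092) (nat_lit 16) (nat_lit 4) (nat_lit 17) (nat_lit 5) (nat_lit 17) (nat_lit 4) (nat_lit 547) (nat_lit 351) (nat_lit 302)))) (XT.nd (nat_lit 156) (nat_lit 76) (nat_lit 0) (XT.nd (nat_lit 78) (nat_lit 76) (nat_lit 0) (XT.lf (nat_lit 0) (nat_lit 1260319971) (nat_lit 152) (nat_lit 1364467889) (nat_lit 76) (nat_lit 47721987306) (nat_lit 15) (nat_lit 5) (nat_lit 17) (nat_lit 5) (nat_lit 16) (nat_lit 4) (nat_lit 548) (nat_lit 351) (nat_lit 301)) (XT.lf (nat_lit 0) (nat_lit 10793664237) (nat_lit 152) (nat_lit 33821957110) (nat_lit 0) (nat_lit 6952224369) (nat_lit 14) (nat_lit 5) (nat_lit 16) (nat_lit 4) (nat_lit 14) (nat_lit 4) (nat_lit 549)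 (nat_lit 351) (nat_lit 300))) (XT.nd (nat_lit 78) (nat_lit 76) (nat_lit 0) (XT.lf (nat_lit 0) (nat_lit 20565438901) (nat_lit 152) (nat_lit 15569365129) (nat_lit 0) (nat_lit 16692171684) (nat_lit 14) (nat_lit 5) (nat_lit 16) (nat_lit 4) (nat_lit 14) (nat_lit 4) (nat_lit 550) (nat_lit 351) (nat_lit 299)) (XT.lf (nat_lit 0) (nat_lit 3121194103) (nat_lit 76) (nat_lit 27454250479) (nat_lit 76) (nat_lit 23550082924) (nat_lit 13) (nat_lit 4) (nat_lit 14) (nat_lit 5) (nat_lit 14) (nat_lit 4) (nat_lit 551) (nat_lit 351) (nat_lit 298))))) (XT.nd (nat_lit 58110) (nat_lit 0) (nat_lit 3648) (XT.nd (nat_lit 156) (nat_lit 152) (nat_lit 0) (XT.nd (nat_lit 78) (nat_lit 0) (nat_lit 0) (XT.lf (nat_lit 0) (nat_lit 22522782317) (nat_lit 76) (nat_lit 18436113637) (nat_lit 76) (nat_lit 14501945753) (nat_lit 13) (nat_lit 4) (nat_lit 14) (nat_lit 5) (nat_lit 14) (nat_lit 4) (nat_lit 552) (nat_lit 351) (nat_lit 297)) (XT.lf (nat_lit 0)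 (nat_lit 42342491462) (nat_lit 76) (nat_lit 9229733638) (nat_lit 76) (nat_lit 5266439222) (nat_lit 13) (nat_lit 4) (nat_lit 14) (nat_lit 5) (nat_lit 14) (nat_lit 4) (nat_lit 553) (nat_lit 351) (nat_lit 296))) (XT.nd (nat_lit 78) (nat_lit 0) (nat_lit 0) (XT.lf (nat_lit 0) (nat_lit 4127849308) (nat_lit 152) (nat_lit 53877274688) (nat_lit 0) (nat_lit 252536102) (nat_lit 11) (nat_lit 5) (nat_lit 13) (nat_lit 4) (nat_lit 11) (nat_lit 4) (nat_lit 554) (nat_lit 351) (nat_lit 295)) (XT.lf (nat_lit 0) (nat_lit 13857331508) (nat_lit 152) (nat_lit 35900190291) (nat_lit 0) (nat_lit 9955363400) (nat_lit 11) (nat_lit 5) (nat_lit 13) (nat_lit 4) (nat_lit 11) (nat_lit 4) (nat_lit 555) (nat_lit 351) (nat_lit 294)))) (XT.nd (nat_lit 156) (nat_lit 228) (nat_lit 0) (XT.nd (nat_lit 78) (nat_lit 152) (nat_lit 0) (XT.lf (nat_lit 0) (nat_lit 6209210353) (nat_lit 76) (nat_lit 1309368801) (nat_lit 76) (nat_lit 1309368801) (nat_lit 64) (nat_lit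 4) (nat_lit 65) (nat_lit 5) (nat_lit 65) (nat_lit 4) (nat_lit 496) (nat_lit 352) (nat_lit 352)) (XT.lf (nat_lit 0) (nat_lit 5150606573) (nat_lit 152) (nat_lit 7881388923) (nat_lit 0) (nat_lit 4913069317) (nat_lit 62) (nat_lit 5) (nat_lit 64) (nat_lit 4) (nat_lit 62) (nat_lit 4) (nat_lit 497) (nat_lit 352) (nat_lit 351))) (XT.nd (nat_lit 78) (nat_lit 152) (nat_lit 0) (XT.lf (nat_lit 0) (nat_lit 7479036052) (nat_lit 76) (nat_lit 5615711016) (nat_lit 76) (nat_lit 5147555065) (nat_lit 61) (nat_lit 4) (nat_lit 62) (nat_lit 5) (nat_lit 62) (nat_lit 4) (nat_lit 498) (nat_lit 352) (nat_lit 350)) (XT.lf (nat_lit 0) (nat_lit 2663601716) (nat_lit 152) (nat_lit 13892725572) (nat_lit 0) (nat_lit 1991701137) (nat_lit 59) (nat_lit 5) (nat_lit 61) (nat_lit 4) (nat_lit 59) (nat_lit 4) (nat_lit 499) (nat_lit 352) (nat_lit 349))))))))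
noncomputable def xc14 : XT := (XT.nd (nat_lit 2418) (nat_lit 1292) (nat_lit 0) (XT.nd (nat_lit 1170) (nat_lit 1140) (nat_lit 0) (XT.nd (nat_lit 546) (nat_lit 684) (nat_lit 0) (XT.nd (nat_lit 234) (nat_lit 304) (nat_lit 0) (XT.nd (nat_lit 78) (nat_lit 152) (nat_lit 0) (XT.lf (nat_lit 0) (nat_lit 1514483265) (nat_lit 76) (nat_lit 9114581106) (nat_lit 76) (nat_lit 8231631752) (nat_lit 58) (nat_lit 4) (nat_lit 59) (nat_lit 5) (nat_lit 59) (nat_lit 4) (nat_lit 500) (nat_lit 352) (nat_lit 348)) (XT.nd (nat_lit 78) (nat_lit 152) (nat_lit 0) (XT.lf (nat_lit 0) (nat_lit 17366858075) (nat_lit 76) (nat_lit 1452087364) (nat_lit 76) (nat_lit 364236286) (nat_lit 58) (nat_lit 4) (nat_lit 59) (nat_lit 5) (nat_lit 59) (nat_lit 4) (nat_lit 501) (nat_lit 352) (nat_lit 347)) (XT.lf (nat_lit 0) (nat_lit 7634327541) (nat_lit 152) (nat_lit 5492377065) (nat_lit 0) (nat_lit 6385021920) (nat_lit 56) (nat_lit 5) (nat_lit 58) (nat_lit 4)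 (nat_lit 56) (nat_lit 4) (nat_lit 502) (nat_lit 352) (nat_lit 346)))) (XT.nd (nat_lit 156) (nat_lit 76) (nat_lit 0) (XT.nd (nat_lit 78) (nat_lit 152) (nat_lit 0) (XT.lf (nat_lit 0) (nat_lit 10406348636) (nat_lit 76) (nat_lit 5440525772) (nat_lit 76) (nat_lit 4003706047) (nat_lit 55) (nat_lit 4) (nat_lit 56) (nat_lit 5) (nat_lit 56) (nat_lit 4) (nat_lit 503) (nat_lit 352) (nat_lit 345)) (XT.lf (nat_lit 0) (nat_lit 4016933641) (nat_lit 152) (nat_lit 13736544633) (nat_lit 0) (nat_lit 2445213008) (nat_lit 53) (nat_lit 5) (nat_lit 55) (nat_lit 4) (nat_lit 53) (nat_lit 4) (nat_lit 504) (nat_lit 352) (nat_lit 344))) (XT.nd (nat_lit 78) (nat_lit 0) (nat_lit 0) (XT.lf (nat_lit 0) (nat_lit 2135527640) (nat_lit 76) (nat_lit 10081634614) (nat_lit 76) (nat_lit 8338312013) (nat_lit 52) (nat_lit 4) (nat_lit 53) (nat_lit 5) (nat_lit 53) (nat_lit 4) (nat_lit 505) (nat_lit 352) (nat_lit 343)) (XT.lf (nat_lit 0) (nat_lit 18471633552)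 (nat_lit 76) (nat_lit 2180792016) (nat_lit 76) (nat_lit 270865564) (nat_lit 52) (nat_lit 4) (nat_lit 53) (nat_lit 5) (nat_lit 53) (nat_lit 4) (nat_lit 506) (nat_lit 352) (nat_lit 342))))) (XT.nd (nat_lit 312) (nat_lit 304) (nat_lit 0) (XT.nd (nat_lit 156) (nat_lit 152) (nat_lit 0) (XT.nd (nat_lit 78) (nat_lit 76) (nat_lit 0) (XT.lf (nat_lit 0) (nat_lit 7926600977) (nat_lit 152) (nat_lit 7456615416) (nat_lit 0) (nat_lit 5915263341) (nat_lit 50) (nat_lit 5) (nat_lit 52) (nat_lit 4) (nat_lit 50) (nat_lit 4) (nat_lit 507) (nat_lit 352) (nat_lit 341)) (XT.lf (nat_lit 0) (nat_lit 8850177810) (nat_lit 76) (nat_lit 7499458965) (nat_lit 76) (nat_lit 5335655203) (nat_lit 49) (nat_lit 4) (nat_lit 50) (nat_lit 5) (nat_lit 50) (nat_lit 4) (nat_lit 508) (nat_lit 352) (nat_lit 340))) (XT.nd (nat_lit 78) (nat_lit 0) (nat_lit 0) (XT.lf (nat_lit 0) (nat_lit 2853107732) (nat_lit 152) (nat_lit 18622074522) (nat_lit 0) (nat_lit 608613434)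 (nat_lit 47) (nat_lit 5) (nat_lit 49) (nat_lit 4) (nat_lit 47) (nat_lit 4) (nat_lit 509) (nat_lit 352) (nat_lit 339)) (XT.lf (nat_lit 0) (nat_lit 11239117963) (nat_lit 152) (nat_lit 2396692386) (nat_lit 0) (nat_lit 8855095562) (nat_lit 47) (nat_lit 5) (nat_lit 49) (nat_lit 4) (nat_lit 47) (nat_lit 4) (nat_lit 510) (nat_lit 352) (nat_lit 338)))) (XT.nd (nat_lit 156) (nat_lit 76) (nat_lit 0) (XT.nd (nat_lit 78) (nat_lit 152) (nat_lit 0) (XT.lf (nat_lit 0) (nat_lit 14314654120) (nat_lit 76) (nat_lit 5557598290) (nat_lit 76) (nat_lit 3038111712) (nat_lit 46) (nat_lit 4) (nat_lit 47) (nat_lit 5) (nat_lit 47) (nat_lit 4) (nat_lit 511) (nat_lit 352) (nat_lit 337)) (XT.lf (nat_lit 0) (nat_lit 5302863505) (nat_lit 152) (nat_lit 15309307152) (nat_lit 0) (nat_lit 2729072051) (nat_lit 44) (nat_lit 5) (nat_lit 46) (nat_lit 4) (nat_lit 44) (nat_lit 4) (nat_lit 512) (nat_lit 352) (nat_lit 336))) (XT.nd (nat_lit 78) (nat_lit 0)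 (nat_lit 0) (XT.lf (nat_lit 0) (nat_lit 1209445184) (nat_lit 76) (nat_lit 12636043414) (nat_lit 76) (nat_lit 9938283047) (nat_lit 43) (nat_lit 4) (nat_lit 44) (nat_lit 5) (nat_lit 44) (nat_lit 4) (nat_lit 513) (nat_lit 352) (nat_lit 335)) (XT.lf (nat_lit 0) (nat_lit 18259974053) (nat_lit 76) (nat_lit 4398647471) (nat_lit 76) (nat_lit 1580528937) (nat_lit 43) (nat_lit 4) (nat_lit 44) (nat_lit 5) (nat_lit 44) (nat_lit 4) (nat_lit 514) (nat_lit 352) (nat_lit 334)))))) (XT.nd (nat_lit 624) (nat_lit 532) (nat_lit 0) (XT.nd (nat_lit 312) (nat_lit 228) (nat_lit 0) (XT.nd (nat_lit 156) (nat_lit 152) (nat_lit 0) (XT.nd (nat_lit 78) (nat_lit 76) (nat_lit 0) (XT.lf (nat_lit 0) (nat_lit 6898514157) (nat_lit 152) (nat_lit 13758392066) (nat_lit 0) (nat_lit 4049027629) (nat_lit 41) (nat_lit 5) (nat_lit 43) (nat_lit 4) (nat_lit 41) (nat_lit 4) (nat_lit 515) (nat_lit 352) (nat_lit 333)) (XT.lf (nat_lit 0) (nat_lit 3046977769) (nat_lit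 76) (nat_lit 12549507947) (nat_lit 76) (nat_lit 9589876646) (nat_lit 40) (nat_lit 4) (nat_lit 41) (nat_lit 5) (nat_lit 41) (nat_lit 4) (nat_lit 516) (nat_lit 352) (nat_lit 332))) (XT.nd (nat_lit 78) (nat_lit 152) (nat_lit 0) (XT.lf (nat_lit 0) (nat_lit 20368811303) (nat_lit 76) (nat_lit 4189437803) (nat_lit 76) (nat_lit 1122869828) (nat_lit 40) (nat_lit 4) (nat_lit 41) (nat_lit 5) (nat_lit 41) (nat_lit 4) (nat_lit 517) (nat_lit 352) (nat_lit 331)) (XT.lf (nat_lit 0) (nat_lit 7474082447) (nat_lit 152) (nat_lit 14317685367) (nat_lit 0) (nat_lit 4396033916) (nat_lit 38) (nat_lit 5) (nat_lit 40) (nat_lit 4) (nat_lit 38) (nat_lit 4) (nat_lit 518) (nat_lit 352) (nat_lit 330)))) (XT.nd (nat_lit 156) (nat_lit 152) (nat_lit 0) (XT.nd (nat_lit 78) (nat_lit 0) (nat_lit 0) (XT.lf (nat_lit 0) (nat_lit 2703816062) (nat_lit 76) (nat_lit 13590898342) (nat_lit 76) (nat_lit 10414987607) (nat_lit 37) (nat_lit 4) (nat_lit 38) (nat_lit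 5) (nat_lit 38) (nat_lit 4) (nat_lit 519) (nat_lit 352) (nat_lit 329)) (XT.lf (nat_lit 0) (nat_lit 20267404289) (nat_lit 76) (nat_lit 5125199569) (nat_lit 76) (nat_lit 1854276985) (nat_lit 37) (nat_lit 4) (nat_lit 38) (nat_lit 5) (nat_lit 38) (nat_lit 4) (nat_lit 520) (nat_lit 352) (nat_lit 328))) (XT.nd (nat_lit 78) (nat_lit 0) (nat_lit 0) (XT.lf (nat_lit 0) (nat_lit 6833321518) (nat_lit 152) (nat_lit 17396557044) (nat_lit 0) (nat_lit 3568110743) (nat_lit 35) (nat_lit 5) (nat_lit 37) (nat_lit 4) (nat_lit 35) (nat_lit 4) (nat_lit 521) (nat_lit 352) (nat_lit 327)) (XT.lf (nat_lit 0) (nat_lit 15736938652) (nat_lit 152) (nat_lit 243583861) (nat_lit 0) (nat_lit 12384778577) (nat_lit 35) (nat_lit 5) (nat_lit 37) (nat_lit 4) (nat_lit 35) (nat_lit 4) (nat_lit 522) (nat_lit 352) (nat_lit 326))))) (XT.nd (nat_lit 312) (nat_lit 228) (nat_lit 0) (XT.nd (nat_lit 156) (nat_lit 76) (nat_lit 0) (XT.nd (nat_lit 78) (nat_lit 152)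 (nat_lit 0) (XT.lf (nat_lit 0) (nat_lit 17516164065) (nat_lit 76) (nat_lit 7434379638) (nat_lit 76) (nat_lit 3997802765) (nat_lit 34) (nat_lit 4) (nat_lit 35) (nat_lit 5) (nat_lit 35) (nat_lit 4) (nat_lit 523) (nat_lit 352) (nat_lit 325)) (XT.lf (nat_lit 0) (nat_lit 4744794119) (nat_lit 152) (nat_lit 23475480990) (nat_lit 0) (nat_lit 1328740791) (nat_lit 32) (nat_lit 5) (nat_lit 34) (nat_lit 4) (nat_lit 32) (nat_lit 4) (nat_lit 524) (nat_lit 352) (nat_lit 324))) (XT.nd (nat_lit 78) (nat_lit 76) (nat_lit 0) (XT.lf (nat_lit 0) (nat_lit 13734157075) (nat_lit 152) (nat_lit 6189565823) (nat_lit 0) (nat_lit 10240850419) (nat_lit 32) (nat_lit 5) (nat_lit 34) (nat_lit 4) (nat_lit 32) (nat_lit 4) (nat_lit 525) (nat_lit 352) (nat_lit 323)) (XT.lf (nat_lit 0) (nat_lit 11598772232) (nat_lit 76) (nat_lit 11384220947) (nat_lit 76) (nat_lit 7815911061) (nat_lit 31) (nat_lit 4) (nat_lit 32) (nat_lit 5) (nat_lit 32) (nat_lit 4)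 (nat_lit 526) (nat_lit 352) (nat_lit 322)))) (XT.nd (nat_lit 156) (nat_lit 76) (nat_lit 0) (XT.nd (nat_lit 78) (nat_lit 76) (nat_lit 0) (XT.lf (nat_lit 0) (nat_lit 977865286) (nat_lit 152) (nat_lit 1656062024) (nat_lit 76) (nat_lit 28819789601) (nat_lit 30) (nat_lit 5) (nat_lit 32) (nat_lit 5) (nat_lit 31) (nat_lit 4) (nat_lit 527) (nat_lit 352) (nat_lit 321)) (XT.lf (nat_lit 0) (nat_lit 9980623780) (nat_lit 152) (nat_lit 15765252374) (nat_lit 0) (nat_lit 6376908930) (nat_lit 29) (nat_lit 5) (nat_lit 31) (nat_lit 4) (nat_lit 29) (nat_lit 4) (nat_lit 528) (nat_lit 352) (nat_lit 320))) (XT.nd (nat_lit 78) (nat_lit 0) (nat_lit 0) (XT.lf (nat_lit 0) (nat_lit 1909526178) (nat_lit 76) (nat_lit 17287227599) (nat_lit 76) (nat_lit 13616873350) (nat_lit 28) (nat_lit 4) (nat_lit 29) (nat_lit 5) (nat_lit 29) (nat_lit 4) (nat_lit 529) (nat_lit 352) (nat_lit 319)) (XT.lf (nat_lit 0) (nat_lit 20204478810) (nat_lit 76) (nat_lit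 8527248995) (nat_lit 76) (nat_lit 4792196300) (nat_lit 28) (nat_lit 4) (nat_lit 29) (nat_lit 5) (nat_lit 29) (nat_lit 4) (nat_lit 530) (nat_lit 352) (nat_lit 318))))))) (XT.nd (nat_lit 1170) (nat_lit 456) (nat_lit 0) (XT.nd (nat_lit 546) (nat_lit 380) (nat_lit 0) (XT.nd (nat_lit 234) (nat_lit 228) (nat_lit 0) (XT.nd (nat_lit 78) (nat_lit 76) (nat_lit 0) (XT.lf (nat_lit 0) (nat_lit 4147662460) (nat_lit 152) (nat_lit 29648186667) (nat_lit 0) (nat_lit 460413217) (nat_lit 26) (nat_lit 5) (nat_lit 28) (nat_lit 4) (nat_lit 26) (nat_lit 4) (nat_lit 531) (nat_lit 352) (nat_lit 317)) (XT.nd (nat_lit 78) (nat_lit 76) (nat_lit 0) (XT.lf (nat_lit 0) (nat_lit 13365172699) (nat_lit 152) (nat_lit 12022086604) (nat_lit 0) (nat_lit 9618715213) (nat_lit 26) (nat_lit 5) (nat_lit 28) (nat_lit 4) (nat_lit 26) (nat_lit 4) (nat_lit 532) (nat_lit 352) (nat_lit 316)) (XT.lf (nat_lit 0) (nat_lit 6028292936) (nat_lit 76) (nat_lit 16777711438)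 (nat_lit 76) (nat_lit 12973770221) (nat_lit 25) (nat_lit 4) (nat_lit 26) (nat_lit 5) (nat_lit 26) (nat_lit 4) (nat_lit 533) (nat_lit 352) (nat_lit 315)))) (XT.nd (nat_lit 156) (nat_lit 76) (nat_lit 0) (XT.nd (nat_lit 78) (nat_lit 152) (nat_lit 0) (XT.lf (nat_lit 0) (nat_lit 24646665436) (nat_lit 76) (nat_lit 7894766592) (nat_lit 76) (nat_lit 4035015927) (nat_lit 25) (nat_lit 4) (nat_lit 26) (nat_lit 5) (nat_lit 26) (nat_lit 4) (nat_lit 534) (nat_lit 352) (nat_lit 314)) (XT.lf (nat_lit 0) (nat_lit 5035614708) (nat_lit 152) (nat_lit 31125298437) (nat_lit 0) (nat_lit 1235678208) (nat_lit 23) (nat_lit 5) (nat_lit 25) (nat_lit 4) (nat_lit 23) (nat_lit 4) (nat_lit 535) (nat_lit 352) (nat_lit 313))) (XT.nd (nat_lit 78) (nat_lit 76) (nat_lit 0) (XT.lf (nat_lit 0) (nat_lit 14389271304) (nat_lit 152) (nat_lit 13309848145) (nat_lit 0) (nat_lit 10538261254) (nat_lit 23) (nat_lit 5) (nat_lit 25) (nat_lit 4) (nat_lit 23) (nat_lit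 4) (nat_lit 536) (nat_lit 352) (nat_lit 312)) (XT.lf (nat_lit 0) (nat_lit 4926725001) (nat_lit 76) (nat_lit 19039492363) (nat_lit 76) (nat_lit 15138896342) (nat_lit 22) (nat_lit 4) (nat_lit 23) (nat_lit 5) (nat_lit 23) (nat_lit 4) (nat_lit 537) (nat_lit 352) (nat_lit 311))))) (XT.nd (nat_lit 312) (nat_lit 228) (nat_lit 0) (XT.nd (nat_lit 156) (nat_lit 0) (nat_lit 0) (XT.nd (nat_lit 78) (nat_lit 152) (nat_lit 0) (XT.lf (nat_lit 0) (nat_lit 23775809089) (nat_lit 76) (nat_lit 10085442161) (nat_lit 76) (nat_lit 6136704420) (nat_lit 22) (nat_lit 4) (nat_lit 23) (nat_lit 5) (nat_lit 23) (nat_lit 4) (nat_lit 538) (nat_lit 352) (nat_lit 310)) (XT.lf (nat_lit 0) (nat_lit 2079820745) (nat_lit 76) (nat_lit 912936900) (nat_lit 152) (nat_lit 37926369646) (nat_lit 20) (nat_lit 5) (nat_lit 21) (nat_lit 5) (nat_lit 22) (nat_lit 4) (nat_lit 539) (nat_lit 352) (nat_lit 309))) (XT.nd (nat_lit 78) (nat_lit 0) (nat_lit 0) (XT.lf (nat_lit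 0) (nat_lit 12418688578) (nat_lit 152) (nat_lit 20947517287) (nat_lit 0) (nat_lit 8495527934) (nat_lit 20) (nat_lit 5) (nat_lit 22) (nat_lit 4) (nat_lit 20) (nat_lit 4) (nat_lit 540) (nat_lit 352) (nat_lit 308)) (XT.lf (nat_lit 0) (nat_lit 22037845875) (nat_lit 152) (nat_lit 2725547552) (nat_lit 0) (nat_lit 18071911937) (nat_lit 20) (nat_lit 5) (nat_lit 22) (nat_lit 4) (nat_lit 20) (nat_lit 4) (nat_lit 541) (nat_lit 352) (nat_lit 307)))) (XT.nd (nat_lit 156) (nat_lit 152) (nat_lit 0) (XT.nd (nat_lit 78) (nat_lit 0) (nat_lit 0) (XT.lf (nat_lit 0) (nat_lit 16166772434) (nat_lit 76) (nat_lit 15838491390) (nat_lit 76) (nat_lit 11831029981) (nat_lit 19) (nat_lit 4) (nat_lit 20) (nat_lit 5) (nat_lit 20) (nat_lit 4) (nat_lit 542) (nat_lit 352) (nat_lit 306)) (XT.lf (nat_lit 0) (nat_lit 35491832478) (nat_lit 76) (nat_lit 6712638036) (nat_lit 76) (nat_lit 2664858694) (nat_lit 19) (nat_lit 4) (nat_lit 20) (nat_lit 5) (nat_lit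 20) (nat_lit 4) (nat_lit 543) (nat_lit 352) (nat_lit 305))) (XT.nd (nat_lit 78) (nat_lit 0) (nat_lit 0) (XT.lf (nat_lit 0) (nat_lit 6667944242) (nat_lit 152) (nat_lit 36562683410) (nat_lit 0) (nat_lit 2700057868) (nat_lit 17) (nat_lit 5) (nat_lit 19) (nat_lit 4) (nat_lit 17) (nat_lit 4) (nat_lit 544) (nat_lit 352) (nat_lit 304)) (XT.lf (nat_lit 0) (nat_lit 16296401344) (nat_lit 152) (nat_lit 18432994625) (nat_lit 0) (nat_lit 12291618351) (nat_lit 17) (nat_lit 5) (nat_lit 19) (nat_lit 4) (nat_lit 17) (nat_lit 4) (nat_lit 545) (nat_lit 352) (nat_lit 303)))))) (XT.nd (nat_lit 624) (nat_lit 152) (nat_lit 0) (XT.nd (nat_lit 312) (nat_lit 76) (nat_lit 0) (XT.nd (nat_lit 156) (nat_lit 152) (nat_lit 0) (XT.nd (nat_lit 78) (nat_lit 0) (nat_lit 0) (XT.lf (nat_lit 0) (nat_lit 60934784) (nat_lit 76) (nat_lit 26063205289) (nat_lit 76) (nat_lit 22022600334) (nat_lit 16) (nat_lit 4) (nat_lit 17) (nat_lit 5) (nat_lit 17) (nat_lit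 4) (nat_lit 546) (nat_lit 352) (nat_lit 302)) (XT.lf (nat_lit 0) (nat_lit 19308474231) (nat_lit 76) (nat_lit 17035120671) (nat_lit 76) (nat_lit 12959737114) (nat_lit 16) (nat_lit 4) (nat_lit 17) (nat_lit 5) (nat_lit 17) (nat_lit 4) (nat_lit 547) (nat_lit 352) (nat_lit 301))) (XT.nd (nat_lit 78) (nat_lit 152) (nat_lit 0) (XT.lf (nat_lit 0) (nat_lit 38959589216) (nat_lit 76) (nat_lit 7823390601) (nat_lit 76) (nat_lit 3714241410) (nat_lit 16) (nat_lit 4) (nat_lit 17) (nat_lit 5) (nat_lit 17) (nat_lit 4) (nat_lit 548) (nat_lit 352) (nat_lit 300)) (XT.lf (nat_lit 0) (nat_lit 5697794487) (nat_lit 152) (nat_lit 44350880205) (nat_lit 0) (nat_lit 1676501905) (nat_lit 14) (nat_lit 5) (nat_lit 16) (nat_lit 4) (nat_lit 14) (nat_lit 4) (nat_lit 549) (nat_lit 352) (nat_lit 299)))) (XT.nd (nat_lit 156) (nat_lit 76) (nat_lit 0) (XT.nd (nat_lit 78) (nat_lit 0) (nat_lit 0) (XT.lf (nat_lit 0) (nat_lit 15427734151) (nat_lit 152) (nat_lit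 26182286375) (nat_lit 0) (nat_lit 11375541231) (nat_lit 14) (nat_lit 5) (nat_lit 16) (nat_lit 4) (nat_lit 14) (nat_lit 4) (nat_lit 550) (nat_lit 352) (nat_lit 298)) (XT.lf (nat_lit 0) (nat_lit 25367120502) (nat_lit 152) (nat_lit 7634184483) (nat_lit 0) (nat_lit 21284927254) (nat_lit 14) (nat_lit 5) (nat_lit 16) (nat_lit 4) (nat_lit 14) (nat_lit 4) (nat_lit 551) (nat_lit 352) (nat_lit 297))) (XT.nd (nat_lit 78) (nat_lit 0) (nat_lit 0) (XT.lf (nat_lit 0) (nat_lit 11534716413) (nat_lit 76) (nat_lit 24100800776) (nat_lit 76) (nat_lit 19989480996) (nat_lit 13) (nat_lit 4) (nat_lit 14) (nat_lit 5) (nat_lit 14) (nat_lit 4) (nat_lit 552) (nat_lit 352) (nat_lit 296)) (XT.lf (nat_lit 0) (nat_lit 31276025483) (nat_lit 76) (nat_lit 14933782272) (nat_lit 76) (nat_lit 10794184305) (nat_lit 13) (nat_lit 4) (nat_lit 14) (nat_lit 5) (nat_lit 14) (nat_lit 4) (nat_lit 553) (nat_lit 352) (nat_lit 295))))) (XT.nd (nat_lit 57954) (nat_lit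 0) (nat_lit 3648) (XT.nd (nat_lit 57798) (nat_lit 0) (nat_lit 4104) (XT.nd (nat_lit 78) (nat_lit 152) (nat_lit 0) (XT.lf (nat_lit 0) (nat_lit 51455057172) (nat_lit 76) (nat_lit 5569329750) (nat_lit 76) (nat_lit 1402277233) (nat_lit 13) (nat_lit 4) (nat_lit 14) (nat_lit 5) (nat_lit 14) (nat_lit 4) (nat_lit 554) (nat_lit 352) (nat_lit 294)) (XT.lf (nat_lit 0) (nat_lit 8193745540) (nat_lit 152) (nat_lit 47571187945) (nat_lit 0) (nat_lit 4122184938) (nat_lit 11) (nat_lit 5) (nat_lit 13) (nat_lit 4) (nat_lit 11) (nat_lit 4) (nat_lit 555) (nat_lit 352) (nat_lit 293))) (XT.nd (nat_lit 78) (nat_lit 152) (nat_lit 0) (XT.lf (nat_lit 0) (nat_lit 8295154485) (nat_lit 152) (nat_lit 126717550) (nat_lit 152) (nat_lit 126717550) (nat_lit 67) (nat_lit 4) (nat_lit 69) (nat_lit 5) (nat_lit 69) (nat_lit 4) (nat_lit 494) (nat_lit 353) (nat_lit 353)) (XT.lf (nat_lit 0) (nat_lit 7381112592) (nat_lit 152) (nat_lit 2862956210) (nat_lit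 0) (nat_lit 7129109317) (nat_lit 65) (nat_lit 5) (nat_lit 67) (nat_lit 4) (nat_lit 65) (nat_lit 4) (nat_lit 495) (nat_lit 353) (nat_lit 352)))) (XT.nd (nat_lit 156) (nat_lit 228) (nat_lit 0) (XT.nd (nat_lit 78) (nat_lit 152) (nat_lit 0) (XT.lf (nat_lit 0) (nat_lit 12270137005) (nat_lit 76) (nat_lit 2942363142) (nat_lit 76) (nat_lit 2445696494) (nat_lit 64) (nat_lit 4) (nat_lit 65) (nat_lit 5) (nat_lit 65) (nat_lit 4) (nat_lit 496) (nat_lit 353) (nat_lit 351)) (XT.lf (nat_lit 0) (nat_lit 5238386932) (nat_lit 152) (nat_lit 8185818459) (nat_lit 0) (nat_lit 4525567608) (nat_lit 62) (nat_lit 5) (nat_lit 64) (nat_lit 4) (nat_lit 62) (nat_lit 4) (nat_lit 497) (nat_lit 353) (nat_lit 350))) (XT.nd (nat_lit 78) (nat_lit 152) (nat_lit 0) (XT.lf (nat_lit 0) (nat_lit 7020052730) (nat_lit 76) (nat_lit 6083031335) (nat_lit 76) (nat_lit 5146310365) (nat_lit 61) (nat_lit 4) (nat_lit 62) (nat_lit 5) (nat_lit 62) (nat_lit 4) (nat_lit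 498) (nat_lit 353) (nat_lit 349)) (XT.lf (nat_lit 0) (nat_lit 2578626034) (nat_lit 152) (nat_lit 14520941554) (nat_lit 0) (nat_lit 1458139424) (nat_lit 59) (nat_lit 5) (nat_lit 61) (nat_lit 4) (nat_lit 59) (nat_lit 4) (nat_lit 499) (nat_lit 353) (nat_lit 348))))))))
noncomputable def xc15 : XT := (XT.nd (nat_lit 2418) (nat_lit 1292) (nat_lit 0) (XT.nd (nat_lit 1170) (nat_lit 1140) (nat_lit 0) (XT.nd (nat_lit 546) (nat_lit 684) (nat_lit 0) (XT.nd (nat_lit 234) (nat_lit 304) (nat_lit 0) (XT.nd (nat_lit 78) (nat_lit 152) (nat_lit 0) (XT.lf (nat_lit 0) (nat_lit 725076106) (nat_lit 76) (nat_lit 9736580323) (nat_lit 76) (nat_lit 8411191990) (nat_lit 58) (nat_lit 4) (nat_lit 59) (nat_lit 5) (nat_lit 59) (nat_lit 4) (nat_lit 500) (nat_lit 353) (nat_lit 347)) (XT.nd (nat_lit 78) (nat_lit 152) (nat_lit 0) (XT.lf (nat_lit 0) (nat_lit 16433093200) (nat_lit 76) (nat_lit 2144392569) (nat_lit 76) (nat_lit 620070523) (nat_lit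 58) (nat_lit 4) (nat_lit 59) (nat_lit 5) (nat_lit 59) (nat_lit 4) (nat_lit 501) (nat_lit 353) (nat_lit 346)) (XT.lf (nat_lit 0) (nat_lit 7292770617) (nat_lit 152) (nat_lit 6610794183) (nat_lit 0) (nat_lit 5625332198) (nat_lit 56) (nat_lit 5) (nat_lit 58) (nat_lit 4) (nat_lit 56) (nat_lit 4) (nat_lit 502) (nat_lit 353) (nat_lit 345)))) (XT.nd (nat_lit 156) (nat_lit 76) (nat_lit 0) (XT.nd (nat_lit 78) (nat_lit 152) (nat_lit 0) (XT.lf (nat_lit 0) (nat_lit 9121143269) (nat_lit 76) (nat_lit 6299322409) (nat_lit 76) (nat_lit 4449831462) (nat_lit 55) (nat_lit 4) (nat_lit 56) (nat_lit 5) (nat_lit 56) (nat_lit 4) (nat_lit 503) (nat_lit 353) (nat_lit 344)) (XT.lf (nat_lit 0) (nat_lit 3483822780) (nat_lit 152) (nat_lit 15220986657) (nat_lit 0) (nat_lit 1516598534) (nat_lit 53) (nat_lit 5) (nat_lit 55) (nat_lit 4) (nat_lit 53) (nat_lit 4) (nat_lit 504) (nat_lit 353) (nat_lit 343))) (XT.nd (nat_lit 78) (nat_lit 0) (nat_lit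 0) (XT.lf (nat_lit 0) (nat_lit 476855497) (nat_lit 76) (nat_lit 11118906423) (nat_lit 76) (nat_lit 8985078324) (nat_lit 52) (nat_lit 4) (nat_lit 53) (nat_lit 5) (nat_lit 53) (nat_lit 4) (nat_lit 505) (nat_lit 353) (nat_lit 342)) (XT.lf (nat_lit 0) (nat_lit 16672488777) (nat_lit 76) (nat_lit 3286947991) (nat_lit 76) (nat_lit 991368580) (nat_lit 52) (nat_lit 4) (nat_lit 53) (nat_lit 5) (nat_lit 53) (nat_lit 4) (nat_lit 506) (nat_lit 353) (nat_lit 341))))) (XT.nd (nat_lit 312) (nat_lit 304) (nat_lit 0) (XT.nd (nat_lit 156) (nat_lit 152) (nat_lit 0) (XT.nd (nat_lit 78) (nat_lit 76) (nat_lit 0) (XT.lf (nat_lit 0) (nat_lit 7119232885) (nat_lit 152) (nat_lit 9471948252) (nat_lit 0) (nat_lit 4738048884) (nat_lit 50) (nat_lit 5) (nat_lit 52) (nat_lit 4) (nat_lit 50) (nat_lit 4) (nat_lit 507) (nat_lit 353) (nat_lit 340)) (XT.lf (nat_lit 0) (nat_lit 6654123547) (nat_lit 76) (nat_lit 8796932499) (nat_lit 76) (nat_lit 6267723134)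 (nat_lit 49) (nat_lit 4) (nat_lit 50) (nat_lit 5) (nat_lit 50) (nat_lit 4) (nat_lit 508) (nat_lit 353) (nat_lit 339))) (XT.nd (nat_lit 78) (nat_lit 0) (nat_lit 0) (XT.lf (nat_lit 0) (nat_lit 1062434766) (nat_lit 76) (nat_lit 777643104) (nat_lit 152) (nat_lit 20280448811) (nat_lit 47) (nat_lit 5) (nat_lit 48) (nat_lit 5) (nat_lit 49) (nat_lit 4) (nat_lit 509) (nat_lit 353) (nat_lit 338)) (XT.lf (nat_lit 0) (nat_lit 10148633954) (nat_lit 152) (nat_lit 4963228467) (nat_lit 0) (nat_lit 7418098600) (nat_lit 47) (nat_lit 5) (nat_lit 49) (nat_lit 4) (nat_lit 47) (nat_lit 4) (nat_lit 510) (nat_lit 353) (nat_lit 337)))) (XT.nd (nat_lit 156) (nat_lit 76) (nat_lit 0) (XT.nd (nat_lit 78) (nat_lit 152) (nat_lit 0) (XT.lf (nat_lit 0) (nat_lit 11560397951) (nat_lit 76) (nat_lit 7126954109) (nat_lit 76) (nat_lit 4264900136) (nat_lit 46) (nat_lit 4) (nat_lit 47) (nat_lit 5) (nat_lit 47) (nat_lit 4) (nat_lit 511) (nat_lit 353) (nat_lit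 336)) (XT.lf (nat_lit 0) (nat_lit 3987378312) (nat_lit 152) (nat_lit 18314769552) (nat_lit 0) (nat_lit 1084716222) (nat_lit 44) (nat_lit 5) (nat_lit 46) (nat_lit 4) (nat_lit 44) (nat_lit 4) (nat_lit 512) (nat_lit 353) (nat_lit 335))) (XT.nd (nat_lit 78) (nat_lit 76) (nat_lit 0) (XT.lf (nat_lit 0) (nat_lit 12450546775) (nat_lit 152) (nat_lit 1953703865) (nat_lit 0) (nat_lit 9427526517) (nat_lit 44) (nat_lit 5) (nat_lit 46) (nat_lit 4) (nat_lit 44) (nat_lit 4) (nat_lit 513) (nat_lit 353) (nat_lit 334)) (XT.lf (nat_lit 0) (nat_lit 14925171016) (nat_lit 76) (nat_lit 6252223394) (nat_lit 76) (nat_lit 3112350546) (nat_lit 43) (nat_lit 4) (nat_lit 44) (nat_lit 5) (nat_lit 44) (nat_lit 4) (nat_lit 514) (nat_lit 353) (nat_lit 333)))))) (XT.nd (nat_lit 624) (nat_lit 532) (nat_lit 0) (XT.nd (nat_lit 312) (nat_lit 228) (nat_lit 0) (XT.nd (nat_lit 156) (nat_lit 228) (nat_lit 0) (XT.nd (nat_lit 78) (nat_lit 0) (nat_lit 0) (XT.lf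 (nat_lit 0) (nat_lit 5277517412) (nat_lit 152) (nat_lit 17364072675) (nat_lit 0) (nat_lit 2118952398) (nat_lit 41) (nat_lit 5) (nat_lit 43) (nat_lit 4) (nat_lit 41) (nat_lit 4) (nat_lit 515) (nat_lit 353) (nat_lit 332)) (XT.lf (nat_lit 0) (nat_lit 13880442276) (nat_lit 152) (nat_lit 748439918) (nat_lit 0) (nat_lit 10614940589) (nat_lit 41) (nat_lit 5) (nat_lit 43) (nat_lit 4) (nat_lit 41) (nat_lit 4) (nat_lit 516) (nat_lit 353) (nat_lit 331))) (XT.nd (nat_lit 78) (nat_lit 152) (nat_lit 0) (XT.lf (nat_lit 0) (nat_lit 16429495876) (nat_lit 76) (nat_lit 6340290073) (nat_lit 76) (nat_lit 2970966374) (nat_lit 40) (nat_lit 4) (nat_lit 41) (nat_lit 5) (nat_lit 41) (nat_lit 4) (nat_lit 517) (nat_lit 353) (nat_lit 330)) (XT.lf (nat_lit 0) (nat_lit 5536112253) (nat_lit 152) (nat_lit 18548572278) (nat_lit 0) (nat_lit 2167061992) (nat_lit 38) (nat_lit 5) (nat_lit 40) (nat_lit 4) (nat_lit 38) (nat_lit 4) (nat_lit 518) (nat_lit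 353) (nat_lit 329)))) (XT.nd (nat_lit 156) (nat_lit 152) (nat_lit 0) (XT.nd (nat_lit 78) (nat_lit 76) (nat_lit 0) (XT.lf (nat_lit 0) (nat_lit 14266998324) (nat_lit 152) (nat_lit 1706404988) (nat_lit 0) (nat_lit 10802936214) (nat_lit 38) (nat_lit 5) (nat_lit 40) (nat_lit 4) (nat_lit 38) (nat_lit 4) (nat_lit 519) (nat_lit 353) (nat_lit 328)) (XT.lf (nat_lit 0) (nat_lit 15697890396) (nat_lit 76) (nat_lit 7587164946) (nat_lit 76) (nat_lit 4030858323) (nat_lit 37) (nat_lit 4) (nat_lit 38) (nat_lit 5) (nat_lit 38) (nat_lit 4) (nat_lit 520) (nat_lit 353) (nat_lit 327))) (XT.nd (nat_lit 78) (nat_lit 0) (nat_lit 0) (XT.lf (nat_lit 0) (nat_lit 4565945343) (nat_lit 152) (nat_lit 22279431648) (nat_lit 0) (nat_lit 1026271164) (nat_lit 35) (nat_lit 5) (nat_lit 37) (nat_lit 4) (nat_lit 35) (nat_lit 4) (nat_lit 521) (nat_lit 353) (nat_lit 326)) (XT.lf (nat_lit 0) (nat_lit 13407741451) (nat_lit 152) (nat_lit 5249422949) (nat_lit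 0) (nat_lit 9783650476) (nat_lit 35) (nat_lit 5) (nat_lit 37) (nat_lit 4) (nat_lit 35) (nat_lit 4) (nat_lit 522) (nat_lit 353) (nat_lit 325))))) (XT.nd (nat_lit 312) (nat_lit 228) (nat_lit 0) (XT.nd (nat_lit 156) (nat_lit 76) (nat_lit 0) (XT.nd (nat_lit 78) (nat_lit 152) (nat_lit 0) (XT.lf (nat_lit 0) (nat_lit 12288940014) (nat_lit 76) (nat_lit 10222138799) (nat_lit 76) (nat_lit 6516089768) (nat_lit 34) (nat_lit 4) (nat_lit 35) (nat_lit 5) (nat_lit 35) (nat_lit 4) (nat_lit 523) (nat_lit 353) (nat_lit 324)) (XT.lf (nat_lit 0) (nat_lit 578211446) (nat_lit 76) (nat_lit 1571459196) (nat_lit 152) (nat_lit 27482673191) (nat_lit 32) (nat_lit 5) (nat_lit 33) (nat_lit 5) (nat_lit 34) (nat_lit 4) (nat_lit 524) (nat_lit 353) (nat_lit 323))) (XT.nd (nat_lit 78) (nat_lit 76) (nat_lit 0) (XT.lf (nat_lit 0) (nat_lit 11063975932) (nat_lit 152) (nat_lit 11872563802) (nat_lit 0) (nat_lit 7313613518) (nat_lit 32) (nat_lit 5) (nat_lit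 34) (nat_lit 4) (nat_lit 32) (nat_lit 4) (nat_lit 525) (nat_lit 353) (nat_lit 322)) (XT.lf (nat_lit 0) (nat_lit 5684390145) (nat_lit 76) (nat_lit 14513363563) (nat_lit 76) (nat_lit 10690182479) (nat_lit 31) (nat_lit 4) (nat_lit 32) (nat_lit 5) (nat_lit 32) (nat_lit 4) (nat_lit 526) (nat_lit 353) (nat_lit 321)))) (XT.nd (nat_lit 156) (nat_lit 76) (nat_lit 0) (XT.nd (nat_lit 78) (nat_lit 152) (nat_lit 0) (XT.lf (nat_lit 0) (nat_lit 23778311103) (nat_lit 76) (nat_lit 5830166435) (nat_lit 76) (nat_lit 1936287611) (nat_lit 31) (nat_lit 4) (nat_lit 32) (nat_lit 5) (nat_lit 32) (nat_lit 4) (nat_lit 527) (nat_lit 353) (nat_lit 320)) (XT.lf (nat_lit 0) (nat_lit 6954886948) (nat_lit 152) (nat_lit 22156203362) (nat_lit 0) (nat_lit 3107782672) (nat_lit 29) (nat_lit 5) (nat_lit 31) (nat_lit 4) (nat_lit 29) (nat_lit 4) (nat_lit 528) (nat_lit 353) (nat_lit 319))) (XT.nd (nat_lit 78) (nat_lit 76) (nat_lit 0) (XT.lf (nat_lit 0)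 (nat_lit 16096210207) (nat_lit 152) (nat_lit 4631341771) (nat_lit 0) (nat_lit 12184407485) (nat_lit 29) (nat_lit 5) (nat_lit 31) (nat_lit 4) (nat_lit 29) (nat_lit 4) (nat_lit 529) (nat_lit 353) (nat_lit 318)) (XT.lf (nat_lit 0) (nat_lit 13459887312) (nat_lit 76) (nat_lit 12070012320) (nat_lit 76) (nat_lit 8095395573) (nat_lit 28) (nat_lit 4) (nat_lit 29) (nat_lit 5) (nat_lit 29) (nat_lit 4) (nat_lit 530) (nat_lit 353) (nat_lit 317))))))) (XT.nd (nat_lit 1248) (nat_lit 456) (nat_lit 0) (XT.nd (nat_lit 624) (nat_lit 380) (nat_lit 0) (XT.nd (nat_lit 312) (nat_lit 228) (nat_lit 0) (XT.nd (nat_lit 156) (nat_lit 76) (nat_lit 0) (XT.nd (nat_lit 78) (nat_lit 76) (nat_lit 0) (XT.lf (nat_lit 0) (nat_lit 805277212) (nat_lit 152) (nat_lit 2400888495) (nat_lit 76) (nat_lit 31155529821) (nat_lit 27) (nat_lit 5) (nat_lit 29) (nat_lit 5) (nat_lit 28) (nat_lit 4) (nat_lit 531) (nat_lit 353) (nat_lit 316)) (XT.lf (nat_lit 0) (nat_lit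 9913442213) (nat_lit 152) (nat_lit 19263347025) (nat_lit 0) (nat_lit 5937899029) (nat_lit 26) (nat_lit 5) (nat_lit 28) (nat_lit 4) (nat_lit 26) (nat_lit 4) (nat_lit 532) (nat_lit 353) (nat_lit 315))) (XT.nd (nat_lit 78) (nat_lit 76) (nat_lit 0) (XT.lf (nat_lit 0) (nat_lit 19243166599) (nat_lit 152) (nat_lit 1436841200) (nat_lit 0) (nat_lit 15211813967) (nat_lit 26) (nat_lit 5) (nat_lit 28) (nat_lit 4) (nat_lit 26) (nat_lit 4) (nat_lit 533) (nat_lit 353) (nat_lit 314)) (XT.lf (nat_lit 0) (nat_lit 17047736902) (nat_lit 76) (nat_lit 11864148129) (nat_lit 76) (nat_lit 7778611567) (nat_lit 25) (nat_lit 4) (nat_lit 26) (nat_lit 5) (nat_lit 26) (nat_lit 4) (nat_lit 534) (nat_lit 353) (nat_lit 313)))) (XT.nd (nat_lit 156) (nat_lit 76) (nat_lit 0) (XT.nd (nat_lit 78) (nat_lit 76) (nat_lit 0) (XT.lf (nat_lit 0) (nat_lit 1240956287) (nat_lit 152) (nat_lit 1619001055) (nat_lit 76) (nat_lit 34655485826) (nat_lit 24) (nat_lit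 5) (nat_lit 26) (nat_lit 5) (nat_lit 25) (nat_lit 4) (nat_lit 535) (nat_lit 353) (nat_lit 312)) (XT.lf (nat_lit 0) (nat_lit 10499525536) (nat_lit 152) (nat_lit 21427234121) (nat_lit 0) (nat_lit 6432325662) (nat_lit 23) (nat_lit 5) (nat_lit 25) (nat_lit 4) (nat_lit 23) (nat_lit 4) (nat_lit 536) (nat_lit 353) (nat_lit 311))) (XT.nd (nat_lit 78) (nat_lit 76) (nat_lit 0) (XT.lf (nat_lit 0) (nat_lit 19979048848) (nat_lit 152) (nat_lit 3386985075) (nat_lit 0) (nat_lit 15863707255) (nat_lit 23) (nat_lit 5) (nat_lit 25) (nat_lit 4) (nat_lit 23) (nat_lit 4) (nat_lit 537) (nat_lit 353) (nat_lit 310)) (XT.lf (nat_lit 0) (nat_lit 15295487633) (nat_lit 76) (nat_lit 14495829881) (nat_lit 76) (nat_lit 10333748754) (nat_lit 22) (nat_lit 4) (nat_lit 23) (nat_lit 5) (nat_lit 23) (nat_lit 4) (nat_lit 538) (nat_lit 353) (nat_lit 309))))) (XT.nd (nat_lit 312) (nat_lit 152) (nat_lit 0) (XT.nd (nat_lit 156) (nat_lit 76) (nat_lit 0) (XT.nd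 (nat_lit 78) (nat_lit 152) (nat_lit 0) (XT.lf (nat_lit 0) (nat_lit 34412346354) (nat_lit 76) (nat_lit 5422134306) (nat_lit 76) (nat_lit 1214674991) (nat_lit 22) (nat_lit 4) (nat_lit 23) (nat_lit 5) (nat_lit 23) (nat_lit 4) (nat_lit 539) (nat_lit 353) (nat_lit 308)) (XT.lf (nat_lit 0) (nat_lit 8077335708) (nat_lit 152) (nat_lit 29969855123) (nat_lit 0) (nat_lit 3949650457) (nat_lit 20) (nat_lit 5) (nat_lit 22) (nat_lit 4) (nat_lit 20) (nat_lit 4) (nat_lit 540) (nat_lit 353) (nat_lit 307))) (XT.nd (nat_lit 78) (nat_lit 76) (nat_lit 0) (XT.lf (nat_lit 0) (nat_lit 17649340802) (nat_lit 152) (nat_lit 11842358688) (nat_lit 0) (nat_lit 13480128080) (nat_lit 20) (nat_lit 5) (nat_lit 22) (nat_lit 4) (nat_lit 20) (nat_lit 4) (nat_lit 541) (nat_lit 353) (nat_lit 306)) (XT.lf (nat_lit 0) (nat_lit 6774971789) (nat_lit 76) (nat_lit 20705728389) (nat_lit 76) (nat_lit 16496197735) (nat_lit 19) (nat_lit 4) (nat_lit 20) (nat_lit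 5) (nat_lit 20) (nat_lit 4) (nat_lit 542) (nat_lit 353) (nat_lit 305)))) (XT.nd (nat_lit 156) (nat_lit 76) (nat_lit 0) (XT.nd (nat_lit 78) (nat_lit 76) (nat_lit 0) (XT.lf (nat_lit 0) (nat_lit 26009209415) (nat_lit 76) (nat_lit 11625378939) (nat_lit 76) (nat_lit 7376704661) (nat_lit 19) (nat_lit 4) (nat_lit 20) (nat_lit 5) (nat_lit 20) (nat_lit 4) (nat_lit 543) (nat_lit 353) (nat_lit 304)) (XT.lf (nat_lit 0) (nat_lit 1886824826) (nat_lit 152) (nat_lit 456423398) (nat_lit 76) (nat_lit 43735596587) (nat_lit 18) (nat_lit 5) (nat_lit 20) (nat_lit 5) (nat_lit 19) (nat_lit 4) (nat_lit 544) (nat_lit 353) (nat_lit 303))) (XT.nd (nat_lit 78) (nat_lit 0) (nat_lit 0) (XT.lf (nat_lit 0) (nat_lit 11443825426) (nat_lit 152) (nat_lit 28481311647) (nat_lit 0) (nat_lit 7246180362) (nat_lit 17) (nat_lit 5) (nat_lit 19) (nat_lit 4) (nat_lit 17) (nat_lit 4) (nat_lit 545) (nat_lit 353) (nat_lit 302)) (XT.lf (nat_lit 0) (nat_lit 21227859264)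 (nat_lit 152) (nat_lit 10075059933) (nat_lit 0) (nat_lit 16995435598) (nat_lit 17) (nat_lit 5) (nat_lit 19) (nat_lit 4) (nat_lit 17) (nat_lit 4) (nat_lit 546) (nat_lit 353) (nat_lit 301)))))) (XT.nd (nat_lit 624) (nat_lit 152) (nat_lit 0) (XT.nd (nat_lit 312) (nat_lit 76) (nat_lit 0) (XT.nd (nat_lit 156) (nat_lit 152) (nat_lit 0) (XT.nd (nat_lit 78) (nat_lit 0) (nat_lit 0) (XT.lf (nat_lit 0) (nat_lit 8886325353) (nat_lit 76) (nat_lit 22419527160) (nat_lit 76) (nat_lit 18153337860) (nat_lit 16) (nat_lit 4) (nat_lit 17) (nat_lit 5) (nat_lit 17) (nat_lit 4) (nat_lit 547) (nat_lit 353) (nat_lit 300)) (XT.lf (nat_lit 0) (nat_lit 28454294016) (nat_lit 76) (nat_lit 13249500226) (nat_lit 76) (nat_lit 8950528757) (nat_lit 16) (nat_lit 4) (nat_lit 17) (nat_lit 5) (nat_lit 17) (nat_lit 4) (nat_lit 548) (nat_lit 353) (nat_lit 299))) (XT.nd (nat_lit 78) (nat_lit 76) (nat_lit 0) (XT.lf (nat_lit 0) (nat_lit 435566096) (nat_lit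 152) (nat_lit 3446599640) (nat_lit 76) (nat_lit 48005466373) (nat_lit 15) (nat_lit 5) (nat_lit 17) (nat_lit 5) (nat_lit 16) (nat_lit 4) (nat_lit 549) (nat_lit 353) (nat_lit 298)) (XT.lf (nat_lit 0) (nat_lit 10053446755) (nat_lit 152) (nat_lit 37279145011) (nat_lit 0) (nat_lit 5818787382) (nat_lit 14) (nat_lit 5) (nat_lit 16) (nat_lit 4) (nat_lit 14) (nat_lit 4) (nat_lit 550) (nat_lit 353) (nat_lit 297)))) (XT.nd (nat_lit 156) (nat_lit 0) (nat_lit 0) (XT.nd (nat_lit 78) (nat_lit 76) (nat_lit 0) (XT.lf (nat_lit 0) (nat_lit 19953399606) (nat_lit 152) (nat_lit 18810219432) (nat_lit 0) (nat_lit 15689613701) (nat_lit 14) (nat_lit 5) (nat_lit 16) (nat_lit 4) (nat_lit 14) (nat_lit 4) (nat_lit 551) (nat_lit 353) (nat_lit 296)) (XT.lf (nat_lit 0) (nat_lit 57856380) (nat_lit 76) (nat_lit 30015332364) (nat_lit 76) (nat_lit 25723268271) (nat_lit 13) (nat_lit 4) (nat_lit 14) (nat_lit 5) (nat_lit 14) (nat_lit 4) (nat_lit 552)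 (nat_lit 353) (nat_lit 295))) (XT.nd (nat_lit 78) (nat_lit 0) (nat_lit 0) (XT.lf (nat_lit 0) (nat_lit 19723048872) (nat_lit 76) (nat_lit 20886528902) (nat_lit 76) (nat_lit 16567010260) (nat_lit 13) (nat_lit 4) (nat_lit 14) (nat_lit 5) (nat_lit 14) (nat_lit 4) (nat_lit 553) (nat_lit 353) (nat_lit 294)) (XT.lf (nat_lit 0) (nat_lit 39828180972) (nat_lit 76) (nat_lit 11559178364) (nat_lit 76) (nat_lit 7213004818) (nat_lit 13) (nat_lit 4) (nat_lit 14) (nat_lit 5) (nat_lit 14) (nat_lit 4) (nat_lit 554) (nat_lit 353) (nat_lit 293))))) (XT.nd (nat_lit 57798) (nat_lit 0) (nat_lit 3800) (XT.nd (nat_lit 57642) (nat_lit 0) (nat_lit 4256) (XT.nd (nat_lit 57564) (nat_lit 0) (nat_lit 4408) (XT.lf (nat_lit 0) (nat_lit 305186053) (nat_lit 76) (nat_lit 1998872146) (nat_lit 152) (nat_lit 57764206442) (nat_lit 11) (nat_lit 5) (nat_lit 12) (nat_lit 5) (nat_lit 13) (nat_lit 4) (nat_lit 555) (nat_lit 353) (nat_lit 292)) (XT.lf (nat_lit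 0) (nat_lit 924398123) (nat_lit 152) (nat_lit 6431267834) (nat_lit 0) (nat_lit 924398123) (nat_lit 69) (nat_lit 5) (nat_lit 71) (nat_lit 4) (nat_lit 69) (nat_lit 4) (nat_lit 492) (nat_lit 354) (nat_lit 354))) (XT.nd (nat_lit 78) (nat_lit 0) (nat_lit 0) (XT.lf (nat_lit 0) (nat_lit 1589300801) (nat_lit 152) (nat_lit 7751758804) (nat_lit 152) (nat_lit 7484408530) (nat_lit 67) (nat_lit 4) (nat_lit 69) (nat_lit 5) (nat_lit 69) (nat_lit 4) (nat_lit 493) (nat_lit 354) (nat_lit 353)) (XT.lf (nat_lit 0) (nat_lit 16446568424) (nat_lit 152) (nat_lit 589882321) (nat_lit 152) (nat_lit 62968674) (nat_lit 67) (nat_lit 4) (nat_lit 69) (nat_lit 5) (nat_lit 69) (nat_lit 4) (nat_lit 494) (nat_lit 354) (nat_lit 352)))) (XT.nd (nat_lit 156) (nat_lit 228) (nat_lit 0) (XT.nd (nat_lit 78) (nat_lit 76) (nat_lit 0) (XT.lf (nat_lit 0) (nat_lit 7487946798) (nat_lit 152) (nat_lit 3158098218) (nat_lit 0) (nat_lit 6731716777) (nat_lit 65) (nat_lit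 5) (nat_lit 67) (nat_lit 4) (nat_lit 65) (nat_lit 4) (nat_lit 495) (nat_lit 354) (nat_lit 351)) (XT.lf (nat_lit 0) (nat_lit 11825156335) (nat_lit 76) (nat_lit 3416855891) (nat_lit 76) (nat_lit 2423088614) (nat_lit 64) (nat_lit 4) (nat_lit 65) (nat_lit 5) (nat_lit 65) (nat_lit 4) (nat_lit 496) (nat_lit 354) (nat_lit 350))) (XT.nd (nat_lit 78) (nat_lit 76) (nat_lit 0) (XT.lf (nat_lit 0) (nat_lit 5176487095) (nat_lit 152) (nat_lit 8794943538) (nat_lit 0) (nat_lit 3987762851) (nat_lit 62) (nat_lit 5) (nat_lit 64) (nat_lit 4) (nat_lit 62) (nat_lit 4) (nat_lit 497) (nat_lit 354) (nat_lit 349)) (XT.lf (nat_lit 0) (nat_lit 6254634925) (nat_lit 76) (nat_lit 6706345685) (nat_lit 76) (nat_lit 5300241202) (nat_lit 61) (nat_lit 4) (nat_lit 62) (nat_lit 5) (nat_lit 62) (nat_lit 4) (nat_lit 498) (nat_lit 354) (nat_lit 348))))))))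
noncomputable def xc16 : XT := (XT.nd (nat_lit 2418) (nat_lit 1216) (nat_lit 0) (XT.nd (nat_lit 1170) (nat_lit 1140) (nat_lit 0) (XT.nd (nat_lit 546) (nat_lit 684) (nat_lit 0) (XT.nd (nat_lit 234) (nat_lit 380) (nat_lit 0) (XT.nd (nat_lit 78) (nat_lit 76) (nat_lit 0) (XT.lf (nat_lit 0) (nat_lit 2339167771) (nat_lit 152) (nat_lit 15463951625) (nat_lit 0) (nat_lit 769116064) (nat_lit 59) (nat_lit 5) (nat_lit 61) (nat_lit 4) (nat_lit 59) (nat_lit 4) (nat_lit 499) (nat_lit 354) (nat_lit 347)) (XT.nd (nat_lit 78) (nat_lit 76) (nat_lit 0) (XT.lf (nat_lit 0) (nat_lit 10142564220) (nat_lit 152) (nat_lit 373623587) (nat_lit 0) (nat_lit 8373578801) (nat_lit 59) (nat_lit 5) (nat_lit 61) (nat_lit 4) (nat_lit 59) (nat_lit 4) (nat_lit 500) (nat_lit 354) (nat_lit 346)) (XT.lf (nat_lit 0) (nat_lit 15186804542) (nat_lit 76) (nat_lit 2996031160) (nat_lit 76) (nat_lit 1033906214) (nat_lit 58) (nat_lit 4) (nat_lit 59) (nat_lit 5)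 (nat_lit 59) (nat_lit 4) (nat_lit 501) (nat_lit 354) (nat_lit 345)))) (XT.nd (nat_lit 156) (nat_lit 152) (nat_lit 0) (XT.nd (nat_lit 78) (nat_lit 76) (nat_lit 0) (XT.lf (nat_lit 0) (nat_lit 6793796807) (nat_lit 152) (nat_lit 8050433617) (nat_lit 0) (nat_lit 4706768604) (nat_lit 56) (nat_lit 5) (nat_lit 58) (nat_lit 4) (nat_lit 56) (nat_lit 4) (nat_lit 502) (nat_lit 354) (nat_lit 344)) (XT.lf (nat_lit 0) (nat_lit 7512532232) (nat_lit 76) (nat_lit 7323110639) (nat_lit 76) (nat_lit 5059332410) (nat_lit 55) (nat_lit 4) (nat_lit 56) (nat_lit 5) (nat_lit 56) (nat_lit 4) (nat_lit 503) (nat_lit 354) (nat_lit 343))) (XT.nd (nat_lit 78) (nat_lit 0) (nat_lit 0) (XT.lf (nat_lit 0) (nat_lit 2787857630) (nat_lit 152) (nat_lit 17037944747) (nat_lit 0) (nat_lit 423410837) (nat_lit 53) (nat_lit 5) (nat_lit 55) (nat_lit 4) (nat_lit 53) (nat_lit 4) (nat_lit 504) (nat_lit 354) (nat_lit 342)) (XT.lf (nat_lit 0) (nat_lit 10824974787)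 (nat_lit 152) (nat_lit 1487139265) (nat_lit 0) (nat_lit 8298776681) (nat_lit 53) (nat_lit 5) (nat_lit 55) (nat_lit 4) (nat_lit 53) (nat_lit 4) (nat_lit 505) (nat_lit 354) (nat_lit 341))))) (XT.nd (nat_lit 312) (nat_lit 304) (nat_lit 0) (XT.nd (nat_lit 156) (nat_lit 152) (nat_lit 0) (XT.nd (nat_lit 78) (nat_lit 152) (nat_lit 0) (XT.lf (nat_lit 0) (nat_lit 14542515830) (nat_lit 76) (nat_lit 4562050643) (nat_lit 76) (nat_lit 1878812428) (nat_lit 52) (nat_lit 4) (nat_lit 53) (nat_lit 5) (nat_lit 53) (nat_lit 4) (nat_lit 506) (nat_lit 354) (nat_lit 340)) (XT.lf (nat_lit 0) (nat_lit 6145335025) (nat_lit 152) (nat_lit 11827614127) (nat_lit 0) (nat_lit 3392224014) (nat_lit 50) (nat_lit 5) (nat_lit 52) (nat_lit 4) (nat_lit 50) (nat_lit 4) (nat_lit 507) (nat_lit 354) (nat_lit 339))) (XT.nd (nat_lit 78) (nat_lit 76) (nat_lit 0) (XT.lf (nat_lit 0) (nat_lit 4115058454) (nat_lit 76) (nat_lit 10269631695) (nat_lit 76) (nat_lit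 7372806738) (nat_lit 49) (nat_lit 4) (nat_lit 50) (nat_lit 5) (nat_lit 50) (nat_lit 4) (nat_lit 508) (nat_lit 354) (nat_lit 338)) (XT.lf (nat_lit 0) (nat_lit 678325609) (nat_lit 152) (nat_lit 1659352073) (nat_lit 76) (nat_lit 19824232863) (nat_lit 48) (nat_lit 5) (nat_lit 50) (nat_lit 5) (nat_lit 49) (nat_lit 4) (nat_lit 509) (nat_lit 354) (nat_lit 337)))) (XT.nd (nat_lit 156) (nat_lit 152) (nat_lit 0) (XT.nd (nat_lit 78) (nat_lit 76) (nat_lit 0) (XT.lf (nat_lit 0) (nat_lit 8887515712) (nat_lit 152) (nat_lit 7878729128) (nat_lit 0) (nat_lit 5808081500) (nat_lit 47) (nat_lit 5) (nat_lit 49) (nat_lit 4) (nat_lit 47) (nat_lit 4) (nat_lit 510) (nat_lit 354) (nat_lit 336)) (XT.lf (nat_lit 0) (nat_lit 8454211957) (nat_lit 76) (nat_lit 8876201414) (nat_lit 76) (nat_lit 5669079222) (nat_lit 46) (nat_lit 4) (nat_lit 47) (nat_lit 5) (nat_lit 47) (nat_lit 4) (nat_lit 511) (nat_lit 354) (nat_lit 335))) (XT.nd (nat_lit 78)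 (nat_lit 0) (nat_lit 0) (XT.lf (nat_lit 0) (nat_lit 1747929588) (nat_lit 76) (nat_lit 754051048) (nat_lit 152) (nat_lit 20935787793) (nat_lit 44) (nat_lit 5) (nat_lit 45) (nat_lit 5) (nat_lit 46) (nat_lit 4) (nat_lit 512) (nat_lit 354) (nat_lit 334)) (XT.lf (nat_lit 0) (nat_lit 10892045647) (nat_lit 152) (nat_lit 5451705356) (nat_lit 0) (nat_lit 7541124024) (nat_lit 44) (nat_lit 5) (nat_lit 46) (nat_lit 4) (nat_lit 44) (nat_lit 4) (nat_lit 513) (nat_lit 354) (nat_lit 333)))))) (XT.nd (nat_lit 624) (nat_lit 456) (nat_lit 0) (XT.nd (nat_lit 312) (nat_lit 380) (nat_lit 0) (XT.nd (nat_lit 156) (nat_lit 76) (nat_lit 0) (XT.nd (nat_lit 78) (nat_lit 152) (nat_lit 0) (XT.lf (nat_lit 0) (nat_lit 11228648117) (nat_lit 76) (nat_lit 8290774982) (nat_lit 76) (nat_lit 4826404242) (nat_lit 43) (nat_lit 4) (nat_lit 44) (nat_lit 5) (nat_lit 44) (nat_lit 4) (nat_lit 514) (nat_lit 354) (nat_lit 332)) (XT.lf (nat_lit 0) (nat_lit 3474403483)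 (nat_lit 152) (nat_lit 21342391225) (nat_lit 0) (nat_lit 4000073) (nat_lit 41) (nat_lit 5) (nat_lit 43) (nat_lit 4) (nat_lit 41) (nat_lit 4) (nat_lit 515) (nat_lit 354) (nat_lit 331))) (XT.nd (nat_lit 78) (nat_lit 76) (nat_lit 0) (XT.lf (nat_lit 0) (nat_lit 12013486326) (nat_lit 152) (nat_lit 4853243486) (nat_lit 0) (nat_lit 8439260904) (nat_lit 41) (nat_lit 5) (nat_lit 43) (nat_lit 4) (nat_lit 41) (nat_lit 4) (nat_lit 516) (nat_lit 354) (nat_lit 330)) (XT.lf (nat_lit 0) (nat_lit 12117753699) (nat_lit 76) (nat_lit 8681646652) (nat_lit 76) (nat_lit 5006623159) (nat_lit 40) (nat_lit 4) (nat_lit 41) (nat_lit 5) (nat_lit 41) (nat_lit 4) (nat_lit 517) (nat_lit 354) (nat_lit 329)))) (XT.nd (nat_lit 156) (nat_lit 228) (nat_lit 0) (XT.nd (nat_lit 78) (nat_lit 0) (nat_lit 0) (XT.lf (nat_lit 0) (nat_lit 3155615260) (nat_lit 76) (nat_lit 257439398) (nat_lit 152) (nat_lit 22908364150) (nat_lit 38) (nat_lit 5) (nat_lit 39)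 (nat_lit 5) (nat_lit 40) (nat_lit 4) (nat_lit 518) (nat_lit 354) (nat_lit 328)) (XT.lf (nat_lit 0) (nat_lit 12079567858) (nat_lit 152) (nat_lit 6444047951) (nat_lit 0) (nat_lit 8324327522) (nat_lit 38) (nat_lit 5) (nat_lit 40) (nat_lit 4) (nat_lit 38) (nat_lit 4) (nat_lit 519) (nat_lit 354) (nat_lit 327))) (XT.nd (nat_lit 78) (nat_lit 152) (nat_lit 0) (XT.lf (nat_lit 0) (nat_lit 10744277458) (nat_lit 76) (nat_lit 10245634914) (nat_lit 76) (nat_lit 6400836798) (nat_lit 37) (nat_lit 4) (nat_lit 38) (nat_lit 5) (nat_lit 38) (nat_lit 4) (nat_lit 520) (nat_lit 354) (nat_lit 326)) (XT.lf (nat_lit 0) (nat_lit 375582244) (nat_lit 76) (nat_lit 1746255026) (nat_lit 152) (nat_lit 25828941436) (nat_lit 35) (nat_lit 5) (nat_lit 36) (nat_lit 5) (nat_lit 37) (nat_lit 4) (nat_lit 521) (nat_lit 354) (nat_lit 325))))) (XT.nd (nat_lit 312) (nat_lit 228) (nat_lit 0) (XT.nd (nat_lit 156) (nat_lit 152) (nat_lit 0) (XT.nd (nat_lit 78)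 (nat_lit 76) (nat_lit 0) (XT.lf (nat_lit 0) (nat_lit 10886826895) (nat_lit 152) (nat_lit 10647784687) (nat_lit 0) (nat_lit 6987638338) (nat_lit 35) (nat_lit 5) (nat_lit 37) (nat_lit 4) (nat_lit 35) (nat_lit 4) (nat_lit 522) (nat_lit 354) (nat_lit 324)) (XT.lf (nat_lit 0) (nat_lit 6664927719) (nat_lit 76) (nat_lit 13212902845) (nat_lit 76) (nat_lit 9234143360) (nat_lit 34) (nat_lit 4) (nat_lit 35) (nat_lit 5) (nat_lit 35) (nat_lit 4) (nat_lit 523) (nat_lit 354) (nat_lit 323))) (XT.nd (nat_lit 78) (nat_lit 152) (nat_lit 0) (XT.lf (nat_lit 0) (nat_lit 24482308584) (nat_lit 76) (nat_lit 4646690698) (nat_lit 76) (nat_lit 590677885) (nat_lit 34) (nat_lit 4) (nat_lit 35) (nat_lit 5) (nat_lit 35) (nat_lit 4) (nat_lit 524) (nat_lit 354) (nat_lit 322)) (XT.lf (nat_lit 0) (nat_lit 8195531846) (nat_lit 152) (nat_lit 17961477339) (nat_lit 0) (nat_lit 4184836658) (nat_lit 32) (nat_lit 5) (nat_lit 34) (nat_lit 4) (nat_lit 32)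 (nat_lit 4) (nat_lit 525) (nat_lit 354) (nat_lit 321)))) (XT.nd (nat_lit 156) (nat_lit 152) (nat_lit 0) (XT.nd (nat_lit 78) (nat_lit 76) (nat_lit 0) (XT.lf (nat_lit 0) (nat_lit 17218157429) (nat_lit 152) (nat_lit 628041669) (nat_lit 0) (nat_lit 13136764503) (nat_lit 32) (nat_lit 5) (nat_lit 34) (nat_lit 4) (nat_lit 32) (nat_lit 4) (nat_lit 526) (nat_lit 354) (nat_lit 320)) (XT.lf (nat_lit 0) (nat_lit 17341888553) (nat_lit 76) (nat_lit 9224899285) (nat_lit 76) (nat_lit 5074867777) (nat_lit 31) (nat_lit 4) (nat_lit 32) (nat_lit 5) (nat_lit 32) (nat_lit 4) (nat_lit 527) (nat_lit 354) (nat_lit 319))) (XT.nd (nat_lit 78) (nat_lit 0) (nat_lit 0) (XT.lf (nat_lit 0) (nat_lit 3349971866) (nat_lit 76) (nat_lit 377438366) (nat_lit 152) (nat_lit 28593762795) (nat_lit 29) (nat_lit 5) (nat_lit 30) (nat_lit 5) (nat_lit 31) (nat_lit 4) (nat_lit 528) (nat_lit 354) (nat_lit 318)) (XT.lf (nat_lit 0) (nat_lit 12810298327) (nat_lit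 152) (nat_lit 11552085411) (nat_lit 0) (nat_lit 8653629052) (nat_lit 29) (nat_lit 5) (nat_lit 31) (nat_lit 4) (nat_lit 29) (nat_lit 4) (nat_lit 529) (nat_lit 354) (nat_lit 317))))))) (XT.nd (nat_lit 1170) (nat_lit 456) (nat_lit 0) (XT.nd (nat_lit 546) (nat_lit 304) (nat_lit 0) (XT.nd (nat_lit 234) (nat_lit 228) (nat_lit 0) (XT.nd (nat_lit 78) (nat_lit 152) (nat_lit 0) (XT.lf (nat_lit 0) (nat_lit 6293105590) (nat_lit 76) (nat_lit 15828779996) (nat_lit 76) (nat_lit 11611126232) (nat_lit 28) (nat_lit 4) (nat_lit 29) (nat_lit 5) (nat_lit 29) (nat_lit 4) (nat_lit 530) (nat_lit 354) (nat_lit 316)) (XT.nd (nat_lit 78) (nat_lit 152) (nat_lit 0) (XT.lf (nat_lit 0) (nat_lit 24697009738) (nat_lit 76) (nat_lit 7025540810) (nat_lit 76) (nat_lit 2748678802) (nat_lit 28) (nat_lit 4) (nat_lit 29) (nat_lit 5) (nat_lit 29) (nat_lit 4) (nat_lit 531) (nat_lit 354) (nat_lit 315)) (XT.lf (nat_lit 0) (nat_lit 6250245724) (nat_lit 152)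 (nat_lit 26937512475) (nat_lit 0) (nat_lit 2042143065) (nat_lit 26) (nat_lit 5) (nat_lit 28) (nat_lit 4) (nat_lit 26) (nat_lit 4) (nat_lit 532) (nat_lit 354) (nat_lit 314)))) (XT.nd (nat_lit 156) (nat_lit 152) (nat_lit 0) (XT.nd (nat_lit 78) (nat_lit 76) (nat_lit 0) (XT.lf (nat_lit 0) (nat_lit 15528358799) (nat_lit 152) (nat_lit 9214152289) (nat_lit 0) (nat_lit 11266072210) (nat_lit 26) (nat_lit 5) (nat_lit 28) (nat_lit 4) (nat_lit 26) (nat_lit 4) (nat_lit 533) (nat_lit 354) (nat_lit 313)) (XT.lf (nat_lit 0) (nat_lit 9013507667) (nat_lit 76) (nat_lit 16056231570) (nat_lit 76) (nat_lit 11741339224) (nat_lit 25) (nat_lit 4) (nat_lit 26) (nat_lit 5) (nat_lit 26) (nat_lit 4) (nat_lit 534) (nat_lit 354) (nat_lit 312))) (XT.nd (nat_lit 78) (nat_lit 152) (nat_lit 0) (XT.lf (nat_lit 0) (nat_lit 27775584485) (nat_lit 76) (nat_lit 7114129834) (nat_lit 76) (nat_lit 2748163937) (nat_lit 25) (nat_lit 4) (nat_lit 26) (nat_lit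 5) (nat_lit 26) (nat_lit 4) (nat_lit 535) (nat_lit 354) (nat_lit 311)) (XT.lf (nat_lit 0) (nat_lit 6391457366) (nat_lit 152) (nat_lit 29991519156) (nat_lit 0) (nat_lit 2104513805) (nat_lit 23) (nat_lit 5) (nat_lit 25) (nat_lit 4) (nat_lit 23) (nat_lit 4) (nat_lit 536) (nat_lit 354) (nat_lit 310))))) (XT.nd (nat_lit 312) (nat_lit 76) (nat_lit 0) (XT.nd (nat_lit 156) (nat_lit 152) (nat_lit 0) (XT.nd (nat_lit 78) (nat_lit 76) (nat_lit 0) (XT.lf (nat_lit 0) (nat_lit 15822374802) (nat_lit 152) (nat_lit 12048538024) (nat_lit 0) (nat_lit 11488691707) (nat_lit 23) (nat_lit 5) (nat_lit 25) (nat_lit 4) (nat_lit 23) (nat_lit 4) (nat_lit 537) (nat_lit 354) (nat_lit 309)) (XT.lf (nat_lit 0) (nat_lit 6365238490) (nat_lit 76) (nat_lit 19136371787) (nat_lit 76) (nat_lit 14757310504) (nat_lit 22) (nat_lit 4) (nat_lit 23) (nat_lit 5) (nat_lit 23) (nat_lit 4) (nat_lit 538) (nat_lit 354) (nat_lit 308))) (XT.nd (nat_lit 78) (nat_lit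 152) (nat_lit 0) (XT.lf (nat_lit 0) (nat_lit 25388588176) (nat_lit 76) (nat_lit 10109470681) (nat_lit 76) (nat_lit 5686352905) (nat_lit 22) (nat_lit 4) (nat_lit 23) (nat_lit 5) (nat_lit 23) (nat_lit 4) (nat_lit 539) (nat_lit 354) (nat_lit 307)) (XT.lf (nat_lit 0) (nat_lit 2675891091) (nat_lit 76) (nat_lit 842228200) (nat_lit 152) (nat_lit 38620511705) (nat_lit 20) (nat_lit 5) (nat_lit 21) (nat_lit 5) (nat_lit 22) (nat_lit 4) (nat_lit 540) (nat_lit 354) (nat_lit 306)))) (XT.nd (nat_lit 156) (nat_lit 76) (nat_lit 0) (XT.nd (nat_lit 78) (nat_lit 0) (nat_lit 0) (XT.lf (nat_lit 0) (nat_lit 13036249533) (nat_lit 152) (nat_lit 21418869109) (nat_lit 0) (nat_lit 8660115027) (nat_lit 20) (nat_lit 5) (nat_lit 22) (nat_lit 4) (nat_lit 20) (nat_lit 4) (nat_lit 541) (nat_lit 354) (nat_lit 305)) (XT.lf (nat_lit 0) (nat_lit 22758038262) (nat_lit 152) (nat_lit 3022792879) (nat_lit 0) (nat_lit 18342760133) (nat_lit 20) (nat_lit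 5) (nat_lit 22) (nat_lit 4) (nat_lit 20) (nat_lit 4) (nat_lit 542) (nat_lit 354) (nat_lit 304))) (XT.nd (nat_lit 78) (nat_lit 0) (nat_lit 0) (XT.lf (nat_lit 0) (nat_lit 16063108134) (nat_lit 76) (nat_lit 16775184520) (nat_lit 76) (nat_lit 12321902872) (nat_lit 19) (nat_lit 4) (nat_lit 20) (nat_lit 5) (nat_lit 20) (nat_lit 4) (nat_lit 543) (nat_lit 354) (nat_lit 303)) (XT.lf (nat_lit 0) (nat_lit 35609764524) (nat_lit 76) (nat_lit 7554998830) (nat_lit 76) (nat_lit 3064820562) (nat_lit 19) (nat_lit 4) (nat_lit 20) (nat_lit 5) (nat_lit 20) (nat_lit 4) (nat_lit 544) (nat_lit 354) (nat_lit 302)))))) (XT.nd (nat_lit 624) (nat_lit 76) (nat_lit 0) (XT.nd (nat_lit 312) (nat_lit 152) (nat_lit 0) (XT.nd (nat_lit 156) (nat_lit 76) (nat_lit 0) (XT.nd (nat_lit 78) (nat_lit 0) (nat_lit 0) (XT.lf (nat_lit 0) (nat_lit 6358140358) (nat_lit 152) (nat_lit 39006650118) (nat_lit 0) (nat_lit 1963965379) (nat_lit 17) (nat_lit 5) (nat_lit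 19) (nat_lit 4) (nat_lit 17) (nat_lit 4) (nat_lit 545) (nat_lit 354) (nat_lit 301)) (XT.lf (nat_lit 0) (nat_lit 16100310945) (nat_lit 152) (nat_lit 20684367957) (nat_lit 0) (nat_lit 11672370333) (nat_lit 17) (nat_lit 5) (nat_lit 19) (nat_lit 4) (nat_lit 17) (nat_lit 4) (nat_lit 546) (nat_lit 354) (nat_lit 300))) (XT.nd (nat_lit 78) (nat_lit 76) (nat_lit 0) (XT.lf (nat_lit 0) (nat_lit 26052239466) (nat_lit 152) (nat_lit 1977910723) (nat_lit 0) (nat_lit 21591516685) (nat_lit 17) (nat_lit 5) (nat_lit 19) (nat_lit 4) (nat_lit 17) (nat_lit 4) (nat_lit 547) (nat_lit 354) (nat_lit 299)) (XT.lf (nat_lit 0) (nat_lit 17469969053) (nat_lit 76) (nat_lit 18920584756) (nat_lit 76) (nat_lit 14428034627) (nat_lit 16) (nat_lit 4) (nat_lit 17) (nat_lit 5) (nat_lit 17) (nat_lit 4) (nat_lit 548) (nat_lit 354) (nat_lit 298)))) (XT.nd (nat_lit 156) (nat_lit 0) (nat_lit 0) (XT.nd (nat_lit 78) (nat_lit 152) (nat_lit 0) (XT.lf (nat_lit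 0) (nat_lit 37382732487) (nat_lit 76) (nat_lit 9596957836) (nat_lit 76) (nat_lit 5073507368) (nat_lit 16) (nat_lit 4) (nat_lit 17) (nat_lit 5) (nat_lit 17) (nat_lit 4) (nat_lit 549) (nat_lit 354) (nat_lit 297)) (XT.lf (nat_lit 0) (nat_lit 4437880734) (nat_lit 152) (nat_lit 48869637322) (nat_lit 0) (nat_lit 17054718) (nat_lit 14) (nat_lit 5) (nat_lit 16) (nat_lit 4) (nat_lit 14) (nat_lit 4) (nat_lit 550) (nat_lit 354) (nat_lit 296))) (XT.nd (nat_lit 78) (nat_lit 0) (nat_lit 0) (XT.lf (nat_lit 0) (nat_lit 14299548634) (nat_lit 152) (nat_lit 30477581950) (nat_lit 0) (nat_lit 9850444432) (nat_lit 14) (nat_lit 5) (nat_lit 16) (nat_lit 4) (nat_lit 14) (nat_lit 4) (nat_lit 551) (nat_lit 354) (nat_lit 295)) (XT.lf (nat_lit 0) (nat_lit 24381611766) (nat_lit 152) (nat_lit 11685266392) (nat_lit 0) (nat_lit 19905053014) (nat_lit 14) (nat_lit 5) (nat_lit 16) (nat_lit 4) (nat_lit 14) (nat_lit 4) (nat_lit 552) (nat_lit 354) (nat_lit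 294))))) (XT.nd (nat_lit 57642) (nat_lit 0) (nat_lit 4104) (XT.nd (nat_lit 156) (nat_lit 0) (nat_lit 0) (XT.nd (nat_lit 78) (nat_lit 0) (nat_lit 0) (XT.lf (nat_lit 0) (nat_lit 7673466796) (nat_lit 76) (nat_lit 27093174959) (nat_lit 76) (nat_lit 22589961304) (nat_lit 13) (nat_lit 4) (nat_lit 14) (nat_lit 5) (nat_lit 14) (nat_lit 4) (nat_lit 553) (nat_lit 354) (nat_lit 293)) (XT.lf (nat_lit 0) (nat_lit 27706851722) (nat_lit 76) (nat_lit 17801845764) (nat_lit 76) (nat_lit 13272753562) (nat_lit 13) (nat_lit 4) (nat_lit 14) (nat_lit 5) (nat_lit 14) (nat_lit 4) (nat_lit 554) (nat_lit 354) (nat_lit 292))) (XT.nd (nat_lit 57408) (nat_lit 0) (nat_lit 4560) (XT.lf (nat_lit 0) (nat_lit 48199833570) (nat_lit 76) (nat_lit 8302770214) (nat_lit 76) (nat_lit 3748553210) (nat_lit 13) (nat_lit 4) (nat_lit 14) (nat_lit 5) (nat_lit 14) (nat_lit 4) (nat_lit 555) (nat_lit 354) (nat_lit 291)) (XT.lf (nat_lit 0) (nat_lit 1852189080) (nat_lit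 152) (nat_lit 4318372605) (nat_lit 0) (nat_lit 1852189080) (nat_lit 73) (nat_lit 5) (nat_lit 75) (nat_lit 4) (nat_lit 73) (nat_lit 4) (nat_lit 490) (nat_lit 355) (nat_lit 355)))) (XT.nd (nat_lit 156) (nat_lit 152) (nat_lit 0) (XT.nd (nat_lit 78) (nat_lit 152) (nat_lit 0) (XT.lf (nat_lit 0) (nat_lit 5563653348) (nat_lit 152) (nat_lit 5510114195) (nat_lit 152) (nat_lit 5226482289) (nat_lit 71) (nat_lit 4) (nat_lit 73) (nat_lit 5) (nat_lit 73) (nat_lit 4) (nat_lit 491) (nat_lit 355) (nat_lit 354)) (XT.lf (nat_lit 0) (nat_lit 2048707294) (nat_lit 152) (nat_lit 13007699389) (nat_lit 0) (nat_lit 1505986237) (nat_lit 69) (nat_lit 5) (nat_lit 71) (nat_lit 4) (nat_lit 69) (nat_lit 4) (nat_lit 492) (nat_lit 355) (nat_lit 353))) (XT.nd (nat_lit 78) (nat_lit 0) (nat_lit 0) (XT.lf (nat_lit 0) (nat_lit 1297507489) (nat_lit 152) (nat_lit 8167396389) (nat_lit 152) (nat_lit 7365111959) (nat_lit 67) (nat_lit 4) (nat_lit 69) (nat_lit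 5) (nat_lit 69) (nat_lit 4) (nat_lit 493) (nat_lit 355) (nat_lit 352)) (XT.lf (nat_lit 0) (nat_lit 16015221183) (nat_lit 152) (nat_lit 1072604321) (nat_lit 152) (nat_lit 18316617) (nat_lit 67) (nat_lit 4) (nat_lit 69) (nat_lit 5) (nat_lit 69) (nat_lit 4) (nat_lit 494) (nat_lit 355) (nat_lit 351))))))))
noncomputable def xc17 : XT := (XT.nd (nat_lit 2418) (nat_lit 1444) (nat_lit 0) (XT.nd (nat_lit 1170) (nat_lit 1292) (nat_lit 0) (XT.nd (nat_lit 546) (nat_lit 684) (nat_lit 0) (XT.nd (nat_lit 234) (nat_lit 304) (nat_lit 0) (XT.nd (nat_lit 78) (nat_lit 228) (nat_lit 0) (XT.lf (nat_lit 0) (nat_lit 7449705286) (nat_lit 152) (nat_lit 3748640125) (nat_lit 0) (nat_lit 6188587735) (nat_lit 65) (nat_lit 5) (nat_lit 67) (nat_lit 4) (nat_lit 65) (nat_lit 4) (nat_lit 495) (nat_lit 355) (nat_lit 350)) (XT.nd (nat_lit 78) (nat_lit 152) (nat_lit 0) (XT.lf (nat_lit 0) (nat_lit 11083089876) (nat_lit 76) (nat_lit 4042630455) (nat_lit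 76) (nat_lit 2550894208) (nat_lit 64) (nat_lit 4) (nat_lit 65) (nat_lit 5) (nat_lit 65) (nat_lit 4) (nat_lit 496) (nat_lit 355) (nat_lit 349)) (XT.lf (nat_lit 0) (nat_lit 4964852976) (nat_lit 152) (nat_lit 9709296406) (nat_lit 0) (nat_lit 3299185120) (nat_lit 62) (nat_lit 5) (nat_lit 64) (nat_lit 4) (nat_lit 62) (nat_lit 4) (nat_lit 497) (nat_lit 355) (nat_lit 348)))) (XT.nd (nat_lit 156) (nat_lit 76) (nat_lit 0) (XT.nd (nat_lit 78) (nat_lit 152) (nat_lit 0) (XT.lf (nat_lit 0) (nat_lit 5182113825) (nat_lit 76) (nat_lit 7486198709) (nat_lit 76) (nat_lit 5609482078) (nat_lit 61) (nat_lit 4) (nat_lit 62) (nat_lit 5) (nat_lit 62) (nat_lit 4) (nat_lit 498) (nat_lit 355) (nat_lit 347)) (XT.lf (nat_lit 0) (nat_lit 1868279536) (nat_lit 76) (nat_lit 77482971) (nat_lit 152) (nat_lit 16645841616) (nat_lit 59) (nat_lit 5) (nat_lit 60) (nat_lit 5) (nat_lit 61) (nat_lit 4) (nat_lit 499) (nat_lit 355) (nat_lit 346))) (XT.nd (nat_lit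 78) (nat_lit 76) (nat_lit 0) (XT.lf (nat_lit 0) (nat_lit 9677866499) (nat_lit 152) (nat_lit 1769669966) (nat_lit 0) (nat_lit 7463738279) (nat_lit 59) (nat_lit 5) (nat_lit 61) (nat_lit 4) (nat_lit 59) (nat_lit 4) (nat_lit 500) (nat_lit 355) (nat_lit 345)) (XT.lf (nat_lit 0) (nat_lit 13626903110) (nat_lit 76) (nat_lit 4007747286) (nat_lit 76) (nat_lit 1606104962) (nat_lit 58) (nat_lit 4) (nat_lit 59) (nat_lit 5) (nat_lit 59) (nat_lit 4) (nat_lit 501) (nat_lit 355) (nat_lit 344))))) (XT.nd (nat_lit 312) (nat_lit 304) (nat_lit 0) (XT.nd (nat_lit 156) (nat_lit 152) (nat_lit 0) (XT.nd (nat_lit 78) (nat_lit 76) (nat_lit 0) (XT.lf (nat_lit 0) (nat_lit 6136970114) (nat_lit 152) (nat_lit 9812553305) (nat_lit 0) (nat_lit 3628528511) (nat_lit 56) (nat_lit 5) (nat_lit 58) (nat_lit 4) (nat_lit 56) (nat_lit 4) (nat_lit 502) (nat_lit 355) (nat_lit 343)) (XT.lf (nat_lit 0) (nat_lit 5579109940) (nat_lit 76) (nat_lit 8512785035)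 (nat_lit 76) (nat_lit 5832741464) (nat_lit 55) (nat_lit 4) (nat_lit 56) (nat_lit 5) (nat_lit 56) (nat_lit 4) (nat_lit 503) (nat_lit 355) (nat_lit 342))) (XT.nd (nat_lit 78) (nat_lit 0) (nat_lit 0) (XT.lf (nat_lit 0) (nat_lit 1084689828) (nat_lit 76) (nat_lit 851929507) (nat_lit 152) (nat_lit 18345266295) (nat_lit 53) (nat_lit 5) (nat_lit 54) (nat_lit 5) (nat_lit 55) (nat_lit 4) (nat_lit 504) (nat_lit 355) (nat_lit 341)) (XT.lf (nat_lit 0) (nat_lit 9897354839) (nat_lit 152) (nat_lit 3771920961) (nat_lit 0) (nat_lit 6976579367) (nat_lit 53) (nat_lit 5) (nat_lit 55) (nat_lit 4) (nat_lit 53) (nat_lit 4) (nat_lit 505) (nat_lit 355) (nat_lit 340)))) (XT.nd (nat_lit 156) (nat_lit 76) (nat_lit 0) (XT.nd (nat_lit 78) (nat_lit 152) (nat_lit 0) (XT.lf (nat_lit 0) (nat_lit 12079853570) (nat_lit 76) (nat_lit 6007214139) (nat_lit 76) (nat_lit 2933972543) (nat_lit 52) (nat_lit 4) (nat_lit 53) (nat_lit 5) (nat_lit 53) (nat_lit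 4) (nat_lit 506) (nat_lit 355) (nat_lit 339)) (XT.lf (nat_lit 0) (nat_lit 5004056419) (nat_lit 152) (nat_lit 14525671390) (nat_lit 0) (nat_lit 1876612767) (nat_lit 50) (nat_lit 5) (nat_lit 52) (nat_lit 4) (nat_lit 50) (nat_lit 4) (nat_lit 507) (nat_lit 355) (nat_lit 338))) (XT.nd (nat_lit 78) (nat_lit 0) (nat_lit 0) (XT.lf (nat_lit 0) (nat_lit 1230763933) (nat_lit 76) (nat_lit 11918843376) (nat_lit 76) (nat_lit 8651871621) (nat_lit 49) (nat_lit 4) (nat_lit 50) (nat_lit 5) (nat_lit 50) (nat_lit 4) (nat_lit 508) (nat_lit 355) (nat_lit 337)) (XT.lf (nat_lit 0) (nat_lit 17496433487) (nat_lit 76) (nat_lit 4057028380) (nat_lit 76) (nat_lit 654592447) (nat_lit 49) (nat_lit 4) (nat_lit 50) (nat_lit 5) (nat_lit 50) (nat_lit 4) (nat_lit 509) (nat_lit 355) (nat_lit 336)))))) (XT.nd (nat_lit 624) (nat_lit 608) (nat_lit 0) (XT.nd (nat_lit 312) (nat_lit 304) (nat_lit 0) (XT.nd (nat_lit 156) (nat_lit 152) (nat_lit 0) (XT.nd (nat_lit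 78) (nat_lit 76) (nat_lit 0) (XT.lf (nat_lit 0) (nat_lit 7454661290) (nat_lit 152) (nat_lit 11145741896) (nat_lit 0) (nat_lit 4023637452) (nat_lit 47) (nat_lit 5) (nat_lit 49) (nat_lit 4) (nat_lit 47) (nat_lit 4) (nat_lit 510) (nat_lit 355) (nat_lit 335)) (XT.lf (nat_lit 0) (nat_lit 4993381994) (nat_lit 76) (nat_lit 10806868672) (nat_lit 76) (nat_lit 7251875922) (nat_lit 46) (nat_lit 4) (nat_lit 47) (nat_lit 5) (nat_lit 47) (nat_lit 4) (nat_lit 511) (nat_lit 355) (nat_lit 334))) (XT.nd (nat_lit 78) (nat_lit 76) (nat_lit 0) (XT.lf (nat_lit 0) (nat_lit 869262482) (nat_lit 152) (nat_lit 1910748077) (nat_lit 76) (nat_lit 20713272957) (nat_lit 45) (nat_lit 5) (nat_lit 47) (nat_lit 5) (nat_lit 46) (nat_lit 4) (nat_lit 512) (nat_lit 355) (nat_lit 333)) (XT.lf (nat_lit 0) (nat_lit 9156997489) (nat_lit 152) (nat_lit 9311216424) (nat_lit 0) (nat_lit 5475246512) (nat_lit 44) (nat_lit 5) (nat_lit 46) (nat_lit 4) (nat_lit 44)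 (nat_lit 4) (nat_lit 513) (nat_lit 355) (nat_lit 332)))) (XT.nd (nat_lit 156) (nat_lit 152) (nat_lit 0) (XT.nd (nat_lit 78) (nat_lit 76) (nat_lit 0) (XT.lf (nat_lit 0) (nat_lit 7167175386) (nat_lit 76) (nat_lit 10516083493) (nat_lit 76) (nat_lit 6724187742) (nat_lit 43) (nat_lit 4) (nat_lit 44) (nat_lit 5) (nat_lit 44) (nat_lit 4) (nat_lit 514) (nat_lit 355) (nat_lit 331)) (XT.lf (nat_lit 0) (nat_lit 1518133104) (nat_lit 152) (nat_lit 817022221) (nat_lit 76) (nat_lit 22550671975) (nat_lit 42) (nat_lit 5) (nat_lit 44) (nat_lit 5) (nat_lit 43) (nat_lit 4) (nat_lit 515) (nat_lit 355) (nat_lit 330))) (XT.nd (nat_lit 78) (nat_lit 76) (nat_lit 0) (XT.lf (nat_lit 0) (nat_lit 9964697133) (nat_lit 152) (nat_lit 9330477167) (nat_lit 0) (nat_lit 6078624865) (nat_lit 41) (nat_lit 5) (nat_lit 43) (nat_lit 4) (nat_lit 41) (nat_lit 4) (nat_lit 516) (nat_lit 355) (nat_lit 329)) (XT.lf (nat_lit 0) (nat_lit 7429817233) (nat_lit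 76) (nat_lit 11215553385) (nat_lit 76) (nat_lit 7231618912) (nat_lit 40) (nat_lit 4) (nat_lit 41) (nat_lit 5) (nat_lit 41) (nat_lit 4) (nat_lit 517) (nat_lit 355) (nat_lit 328))))) (XT.nd (nat_lit 312) (nat_lit 380) (nat_lit 0) (XT.nd (nat_lit 156) (nat_lit 76) (nat_lit 0) (XT.nd (nat_lit 78) (nat_lit 76) (nat_lit 0) (XT.lf (nat_lit 0) (nat_lit 1140993535) (nat_lit 152) (nat_lit 1762729444) (nat_lit 76) (nat_lit 23492018315) (nat_lit 39) (nat_lit 5) (nat_lit 41) (nat_lit 5) (nat_lit 40) (nat_lit 4) (nat_lit 518) (nat_lit 355) (nat_lit 327)) (XT.lf (nat_lit 0) (nat_lit 9704520924) (nat_lit 152) (nat_lit 11566013706) (nat_lit 0) (nat_lit 5654821085) (nat_lit 38) (nat_lit 5) (nat_lit 40) (nat_lit 4) (nat_lit 38) (nat_lit 4) (nat_lit 519) (nat_lit 355) (nat_lit 326))) (XT.nd (nat_lit 78) (nat_lit 0) (nat_lit 0) (XT.lf (nat_lit 0) (nat_lit 5402237076) (nat_lit 76) (nat_lit 13102932407) (nat_lit 76) (nat_lit 8966283266)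 (nat_lit 37) (nat_lit 4) (nat_lit 38) (nat_lit 5) (nat_lit 38) (nat_lit 4) (nat_lit 520) (nat_lit 355) (nat_lit 325)) (XT.lf (nat_lit 0) (nat_lit 22883793288) (nat_lit 76) (nat_lit 4685609502) (nat_lit 76) (nat_lit 464543564) (nat_lit 37) (nat_lit 4) (nat_lit 38) (nat_lit 5) (nat_lit 38) (nat_lit 4) (nat_lit 521) (nat_lit 355) (nat_lit 324)))) (XT.nd (nat_lit 156) (nat_lit 152) (nat_lit 0) (XT.nd (nat_lit 78) (nat_lit 76) (nat_lit 0) (XT.lf (nat_lit 0) (nat_lit 8171992243) (nat_lit 152) (nat_lit 16443386092) (nat_lit 0) (nat_lit 3994299046) (nat_lit 35) (nat_lit 5) (nat_lit 37) (nat_lit 4) (nat_lit 35) (nat_lit 4) (nat_lit 522) (nat_lit 355) (nat_lit 323)) (XT.lf (nat_lit 0) (nat_lit 639212994) (nat_lit 76) (nat_lit 16409285066) (nat_lit 76) (nat_lit 12154338541) (nat_lit 34) (nat_lit 4) (nat_lit 35) (nat_lit 5) (nat_lit 35) (nat_lit 4) (nat_lit 523) (nat_lit 355) (nat_lit 322))) (XT.nd (nat_lit 78) (nat_lit 152)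 (nat_lit 0) (XT.lf (nat_lit 0) (nat_lit 18345167172) (nat_lit 76) (nat_lit 7898501324) (nat_lit 76) (nat_lit 3568551568) (nat_lit 34) (nat_lit 4) (nat_lit 35) (nat_lit 5) (nat_lit 35) (nat_lit 4) (nat_lit 524) (nat_lit 355) (nat_lit 321)) (XT.lf (nat_lit 0) (nat_lit 5126318410) (nat_lit 152) (nat_lit 24461626846) (nat_lit 0) (nat_lit 851785957) (nat_lit 32) (nat_lit 5) (nat_lit 34) (nat_lit 4) (nat_lit 32) (nat_lit 4) (nat_lit 525) (nat_lit 355) (nat_lit 320))))))) (XT.nd (nat_lit 1170) (nat_lit 684) (nat_lit 0) (XT.nd (nat_lit 546) (nat_lit 304) (nat_lit 0) (XT.nd (nat_lit 234) (nat_lit 304) (nat_lit 0) (XT.nd (nat_lit 78) (nat_lit 152) (nat_lit 0) (XT.lf (nat_lit 0) (nat_lit 14094079568) (nat_lit 152) (nat_lit 7237507051) (nat_lit 0) (nat_lit 9750908534) (nat_lit 32) (nat_lit 5) (nat_lit 34) (nat_lit 4) (nat_lit 32) (nat_lit 4) (nat_lit 526) (nat_lit 355) (nat_lit 319)) (XT.nd (nat_lit 78) (nat_lit 76) (nat_lit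 0) (XT.lf (nat_lit 0) (nat_lit 10492637699) (nat_lit 76) (nat_lit 12830966656) (nat_lit 76) (nat_lit 8421156222) (nat_lit 31) (nat_lit 4) (nat_lit 32) (nat_lit 5) (nat_lit 32) (nat_lit 4) (nat_lit 527) (nat_lit 355) (nat_lit 318)) (XT.lf (nat_lit 0) (nat_lit 360970502) (nat_lit 152) (nat_lit 3741738759) (nat_lit 76) (nat_lit 28325097435) (nat_lit 30) (nat_lit 5) (nat_lit 32) (nat_lit 5) (nat_lit 31) (nat_lit 4) (nat_lit 528) (nat_lit 355) (nat_lit 317)))) (XT.nd (nat_lit 156) (nat_lit 228) (nat_lit 0) (XT.nd (nat_lit 78) (nat_lit 0) (nat_lit 0) (XT.lf (nat_lit 0) (nat_lit 9317791419) (nat_lit 152) (nat_lit 18896013725) (nat_lit 0) (nat_lit 4912623551) (nat_lit 29) (nat_lit 5) (nat_lit 31) (nat_lit 4) (nat_lit 29) (nat_lit 4) (nat_lit 529) (nat_lit 355) (nat_lit 316)) (XT.lf (nat_lit 0) (nat_lit 18517224649) (nat_lit 152) (nat_lit 1276719372) (nat_lit 0) (nat_lit 14052848538) (nat_lit 29) (nat_lit 5) (nat_lit 31)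 (nat_lit 4) (nat_lit 29) (nat_lit 4) (nat_lit 530) (nat_lit 355) (nat_lit 315))) (XT.nd (nat_lit 78) (nat_lit 152) (nat_lit 0) (XT.lf (nat_lit 0) (nat_lit 16999690803) (nat_lit 76) (nat_lit 11054544484) (nat_lit 76) (nat_lit 6532684642) (nat_lit 28) (nat_lit 4) (nat_lit 29) (nat_lit 5) (nat_lit 29) (nat_lit 4) (nat_lit 531) (nat_lit 355) (nat_lit 314)) (XT.lf (nat_lit 0) (nat_lit 279502942) (nat_lit 76) (nat_lit 2113192738) (nat_lit 152) (nat_lit 32958409097) (nat_lit 26) (nat_lit 5) (nat_lit 27) (nat_lit 5) (nat_lit 28) (nat_lit 4) (nat_lit 532) (nat_lit 355) (nat_lit 313))))) (XT.nd (nat_lit 312) (nat_lit 152) (nat_lit 0) (XT.nd (nat_lit 156) (nat_lit 76) (nat_lit 0) (XT.nd (nat_lit 78) (nat_lit 76) (nat_lit 0) (XT.lf (nat_lit 0) (nat_lit 11600387386) (nat_lit 152) (nat_lit 17428069745) (nat_lit 0) (nat_lit 7103442512) (nat_lit 26) (nat_lit 5) (nat_lit 28) (nat_lit 4) (nat_lit 26) (nat_lit 4) (nat_lit 533) (nat_lit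 355) (nat_lit 312)) (XT.lf (nat_lit 0) (nat_lit 536957529) (nat_lit 76) (nat_lit 20474679899) (nat_lit 76) (nat_lit 15926661475) (nat_lit 25) (nat_lit 4) (nat_lit 26) (nat_lit 5) (nat_lit 26) (nat_lit 4) (nat_lit 534) (nat_lit 355) (nat_lit 311))) (XT.nd (nat_lit 78) (nat_lit 76) (nat_lit 0) (XT.lf (nat_lit 0) (nat_lit 19202762873) (nat_lit 76) (nat_lit 11580692556) (nat_lit 76) (nat_lit 6983088161) (nat_lit 25) (nat_lit 4) (nat_lit 26) (nat_lit 5) (nat_lit 26) (nat_lit 4) (nat_lit 535) (nat_lit 355) (nat_lit 310)) (XT.lf (nat_lit 0) (nat_lit 2089448992) (nat_lit 152) (nat_lit 404164660) (nat_lit 76) (nat_lit 36128255123) (nat_lit 24) (nat_lit 5) (nat_lit 26) (nat_lit 5) (nat_lit 25) (nat_lit 4) (nat_lit 536) (nat_lit 355) (nat_lit 309)))) (XT.nd (nat_lit 156) (nat_lit 76) (nat_lit 0) (XT.nd (nat_lit 78) (nat_lit 0) (nat_lit 0) (XT.lf (nat_lit 0) (nat_lit 11445204485) (nat_lit 152) (nat_lit 21161640342) (nat_lit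 0) (nat_lit 6889393176) (nat_lit 23) (nat_lit 5) (nat_lit 25) (nat_lit 4) (nat_lit 23) (nat_lit 4) (nat_lit 537) (nat_lit 355) (nat_lit 308)) (XT.lf (nat_lit 0) (nat_lit 21017437695) (nat_lit 152) (nat_lit 2963756894) (nat_lit 0) (nat_lit 16417569892) (nat_lit 23) (nat_lit 5) (nat_lit 25) (nat_lit 4) (nat_lit 23) (nat_lit 4) (nat_lit 538) (nat_lit 355) (nat_lit 307))) (XT.nd (nat_lit 78) (nat_lit 0) (nat_lit 0) (XT.lf (nat_lit 0) (nat_lit 15909822746) (nat_lit 76) (nat_lit 15029653138) (nat_lit 76) (nat_lit 10387012041) (nat_lit 22) (nat_lit 4) (nat_lit 23) (nat_lit 5) (nat_lit 23) (nat_lit 4) (nat_lit 539) (nat_lit 355) (nat_lit 306)) (XT.lf (nat_lit 0) (nat_lit 35231437182) (nat_lit 76) (nat_lit 5868279265) (nat_lit 76) (nat_lit 1184110697) (nat_lit 22) (nat_lit 4) (nat_lit 23) (nat_lit 5) (nat_lit 23) (nat_lit 4) (nat_lit 540) (nat_lit 355) (nat_lit 305)))))) (XT.nd (nat_lit 624) (nat_lit 228) (nat_lit 0) (XT.nd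 (nat_lit 312) (nat_lit 228) (nat_lit 0) (XT.nd (nat_lit 156) (nat_lit 76) (nat_lit 0) (XT.nd (nat_lit 78) (nat_lit 0) (nat_lit 0) (XT.lf (nat_lit 0) (nat_lit 8194541213) (nat_lit 152) (nat_lit 31463446640) (nat_lit 0) (nat_lit 3607661116) (nat_lit 20) (nat_lit 5) (nat_lit 22) (nat_lit 4) (nat_lit 20) (nat_lit 4) (nat_lit 541) (nat_lit 355) (nat_lit 304)) (XT.lf (nat_lit 0) (nat_lit 17873178996) (nat_lit 152) (nat_lit 13153826863) (nat_lit 0) (nat_lit 13248295381) (nat_lit 20) (nat_lit 5) (nat_lit 22) (nat_lit 4) (nat_lit 20) (nat_lit 4) (nat_lit 542) (nat_lit 355) (nat_lit 303))) (XT.nd (nat_lit 78) (nat_lit 0) (nat_lit 0) (XT.lf (nat_lit 0) (nat_lit 5644837870) (nat_lit 76) (nat_lit 22166554609) (nat_lit 76) (nat_lit 17504774374) (nat_lit 19) (nat_lit 4) (nat_lit 20) (nat_lit 5) (nat_lit 20) (nat_lit 4) (nat_lit 543) (nat_lit 355) (nat_lit 302)) (XT.lf (nat_lit 0) (nat_lit 25108378880) (nat_lit 76) (nat_lit 12988011437)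 (nat_lit 76) (nat_lit 8290409241) (nat_lit 19) (nat_lit 4) (nat_lit 20) (nat_lit 5) (nat_lit 20) (nat_lit 4) (nat_lit 544) (nat_lit 355) (nat_lit 301)))) (XT.nd (nat_lit 156) (nat_lit 76) (nat_lit 0) (XT.nd (nat_lit 78) (nat_lit 76) (nat_lit 0) (XT.lf (nat_lit 0) (nat_lit 1094415663) (nat_lit 152) (nat_lit 2510717001) (nat_lit 76) (nat_lit 43886549083) (nat_lit 18) (nat_lit 5) (nat_lit 20) (nat_lit 5) (nat_lit 19) (nat_lit 4) (nat_lit 545) (nat_lit 355) (nat_lit 300)) (XT.lf (nat_lit 0) (nat_lit 10736428993) (nat_lit 152) (nat_lit 31777448613) (nat_lit 0) (nat_lit 6109102359) (nat_lit 17) (nat_lit 5) (nat_lit 19) (nat_lit 4) (nat_lit 17) (nat_lit 4) (nat_lit 546) (nat_lit 355) (nat_lit 299))) (XT.nd (nat_lit 78) (nat_lit 76) (nat_lit 0) (XT.lf (nat_lit 0) (nat_lit 20648897384) (nat_lit 152) (nat_lit 13150140735) (nat_lit 0) (nat_lit 15989743403) (nat_lit 17) (nat_lit 5) (nat_lit 19) (nat_lit 4) (nat_lit 17) (nat_lit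 4) (nat_lit 547) (nat_lit 355) (nat_lit 298)) (XT.lf (nat_lit 0) (nat_lit 5997016374) (nat_lit 76) (nat_lit 24841599509) (nat_lit 76) (nat_lit 20151545189) (nat_lit 16) (nat_lit 4) (nat_lit 17) (nat_lit 5) (nat_lit 17) (nat_lit 4) (nat_lit 548) (nat_lit 355) (nat_lit 297))))) (XT.nd (nat_lit 312) (nat_lit 76) (nat_lit 0) (XT.nd (nat_lit 156) (nat_lit 152) (nat_lit 0) (XT.nd (nat_lit 78) (nat_lit 0) (nat_lit 0) (XT.lf (nat_lit 0) (nat_lit 25833689145) (nat_lit 76) (nat_lit 15556136865) (nat_lit 76) (nat_lit 10836082218) (nat_lit 16) (nat_lit 4) (nat_lit 17) (nat_lit 5) (nat_lit 17) (nat_lit 4) (nat_lit 549) (nat_lit 355) (nat_lit 296)) (XT.lf (nat_lit 0) (nat_lit 46115497005) (nat_lit 76) (nat_lit 6067327315) (nat_lit 76) (nat_lit 1318146135) (nat_lit 16) (nat_lit 4) (nat_lit 17) (nat_lit 5) (nat_lit 17) (nat_lit 4) (nat_lit 550) (nat_lit 355) (nat_lit 295))) (XT.nd (nat_lit 78) (nat_lit 0) (nat_lit 0) (XT.lf (nat_lit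 0) (nat_lit 8400627327) (nat_lit 152) (nat_lit 42646466819) (nat_lit 0) (nat_lit 3762317262) (nat_lit 14) (nat_lit 5) (nat_lit 16) (nat_lit 4) (nat_lit 14) (nat_lit 4) (nat_lit 551) (nat_lit 355) (nat_lit 294)) (XT.lf (nat_lit 0) (nat_lit 18446603221) (nat_lit 152) (nat_lit 23926608803) (nat_lit 0) (nat_lit 13781638253) (nat_lit 14) (nat_lit 5) (nat_lit 16) (nat_lit 4) (nat_lit 14) (nat_lit 4) (nat_lit 552) (nat_lit 355) (nat_lit 293)))) (XT.nd (nat_lit 156) (nat_lit 0) (nat_lit 0) (XT.nd (nat_lit 78) (nat_lit 76) (nat_lit 0) (XT.lf (nat_lit 0) (nat_lit 28722835000) (nat_lit 152) (nat_lit 4787959719) (nat_lit 0) (nat_lit 24031991486) (nat_lit 14) (nat_lit 5) (nat_lit 16) (nat_lit 4) (nat_lit 14) (nat_lit 4) (nat_lit 553) (nat_lit 355) (nat_lit 292)) (XT.lf (nat_lit 0) (nat_lit 15080477968) (nat_lit 76) (nat_lit 24302786707) (nat_lit 76) (nat_lit 19586818390) (nat_lit 13) (nat_lit 4) (nat_lit 14) (nat_lit 5) (nat_lit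 14) (nat_lit 4) (nat_lit 554) (nat_lit 355) (nat_lit 291))) (XT.nd (nat_lit 57252) (nat_lit 0) (nat_lit 4864) (XT.lf (nat_lit 0) (nat_lit 35505831223) (nat_lit 76) (nat_lit 14837664728) (nat_lit 76) (nat_lit 10097303399) (nat_lit 13) (nat_lit 4) (nat_lit 14) (nat_lit 5) (nat_lit 14) (nat_lit 4) (nat_lit 555) (nat_lit 355) (nat_lit 290)) (XT.lf (nat_lit 0) (nat_lit 2670904658) (nat_lit 152) (nat_lit 2434345215) (nat_lit 0) (nat_lit 2670904658) (nat_lit 77) (nat_lit 5) (nat_lit 79) (nat_lit 4) (nat_lit 77) (nat_lit 4) (nat_lit 488) (nat_lit 356) (nat_lit 356))))))))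
noncomputable def xc18 : XT := (XT.nd (nat_lit 2418) (nat_lit 1672) (nat_lit 0) (XT.nd (nat_lit 1170) (nat_lit 1292) (nat_lit 0) (XT.nd (nat_lit 546) (nat_lit 760) (nat_lit 0) (XT.nd (nat_lit 234) (nat_lit 456) (nat_lit 0) (XT.nd (nat_lit 78) (nat_lit 304) (nat_lit 0) (XT.lf (nat_lit 0) (nat_lit 9069172034) (nat_lit 152) (nat_lit 3514378823) (nat_lit 152) (nat_lit 3213473734) (nat_lit 75) (nat_lit 4) (nat_lit 77) (nat_lit 5) (nat_lit 77) (nat_lit 4) (nat_lit 489) (nat_lit 356) (nat_lit 355)) (XT.nd (nat_lit 78) (nat_lit 152) (nat_lit 0) (XT.lf (nat_lit 0) (nat_lit 3923019830) (nat_lit 152) (nat_lit 8777440642) (nat_lit 0) (nat_lit 3347247061) (nat_lit 73) (nat_lit 5) (nat_lit 75) (nat_lit 4) (nat_lit 73) (nat_lit 4) (nat_lit 490) (nat_lit 356) (nat_lit 354)) (XT.lf (nat_lit 0) (nat_lit 5280841737) (nat_lit 152) (nat_lit 5937490478) (nat_lit 152) (nat_lit 5086346927) (nat_lit 71) (nat_lit 4) (nat_lit 73) (nat_lit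 5) (nat_lit 73) (nat_lit 4) (nat_lit 491) (nat_lit 356) (nat_lit 353)))) (XT.nd (nat_lit 156) (nat_lit 152) (nat_lit 0) (XT.nd (nat_lit 78) (nat_lit 152) (nat_lit 0) (XT.lf (nat_lit 0) (nat_lit 2105894061) (nat_lit 152) (nat_lit 13443317395) (nat_lit 0) (nat_lit 1019977725) (nat_lit 69) (nat_lit 5) (nat_lit 71) (nat_lit 4) (nat_lit 69) (nat_lit 4) (nat_lit 492) (nat_lit 356) (nat_lit 352)) (XT.lf (nat_lit 0) (nat_lit 713665902) (nat_lit 152) (nat_lit 8731684463) (nat_lit 152) (nat_lit 7393764853) (nat_lit 67) (nat_lit 4) (nat_lit 69) (nat_lit 5) (nat_lit 69) (nat_lit 4) (nat_lit 493) (nat_lit 356) (nat_lit 351))) (XT.nd (nat_lit 78) (nat_lit 152) (nat_lit 0) (XT.lf (nat_lit 0) (nat_lit 15295890343) (nat_lit 152) (nat_lit 1702022895) (nat_lit 152) (nat_lit 119439911) (nat_lit 67) (nat_lit 4) (nat_lit 69) (nat_lit 5) (nat_lit 69) (nat_lit 4) (nat_lit 494) (nat_lit 356) (nat_lit 350)) (XT.lf (nat_lit 0) (nat_lit 7266354640)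 (nat_lit 152) (nat_lit 4635097939) (nat_lit 0) (nat_lit 5499247612) (nat_lit 65) (nat_lit 5) (nat_lit 67) (nat_lit 4) (nat_lit 65) (nat_lit 4) (nat_lit 495) (nat_lit 356) (nat_lit 349))))) (XT.nd (nat_lit 312) (nat_lit 304) (nat_lit 0) (XT.nd (nat_lit 156) (nat_lit 228) (nat_lit 0) (XT.nd (nat_lit 78) (nat_lit 152) (nat_lit 0) (XT.lf (nat_lit 0) (nat_lit 10043289221) (nat_lit 76) (nat_lit 4820233627) (nat_lit 76) (nat_lit 2829224952) (nat_lit 64) (nat_lit 4) (nat_lit 65) (nat_lit 5) (nat_lit 65) (nat_lit 4) (nat_lit 496) (nat_lit 356) (nat_lit 348)) (XT.lf (nat_lit 0) (nat_lit 4603299651) (nat_lit 152) (nat_lit 10929676010) (nat_lit 0) (nat_lit 2459232746) (nat_lit 62) (nat_lit 5) (nat_lit 64) (nat_lit 4) (nat_lit 62) (nat_lit 4) (nat_lit 497) (nat_lit 356) (nat_lit 347))) (XT.nd (nat_lit 78) (nat_lit 152) (nat_lit 0) (XT.lf (nat_lit 0) (nat_lit 3801552275) (nat_lit 76) (nat_lit 8423271833) (nat_lit 76) (nat_lit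 6074303204) (nat_lit 61) (nat_lit 4) (nat_lit 62) (nat_lit 5) (nat_lit 62) (nat_lit 4) (nat_lit 498) (nat_lit 356) (nat_lit 346)) (XT.lf (nat_lit 0) (nat_lit 307086928) (nat_lit 76) (nat_lit 1099311726) (nat_lit 152) (nat_lit 17209181305) (nat_lit 59) (nat_lit 5) (nat_lit 60) (nat_lit 5) (nat_lit 61) (nat_lit 4) (nat_lit 499) (nat_lit 356) (nat_lit 345)))) (XT.nd (nat_lit 156) (nat_lit 228) (nat_lit 0) (XT.nd (nat_lit 78) (nat_lit 76) (nat_lit 0) (XT.lf (nat_lit 0) (nat_lit 9060187345) (nat_lit 152) (nat_lit 3478431724) (nat_lit 0) (nat_lit 6398981649) (nat_lit 59) (nat_lit 5) (nat_lit 61) (nat_lit 4) (nat_lit 59) (nat_lit 4) (nat_lit 500) (nat_lit 356) (nat_lit 344)) (XT.lf (nat_lit 0) (nat_lit 11752025884) (nat_lit 76) (nat_lit 5180424972) (nat_lit 76) (nat_lit 2337166748) (nat_lit 58) (nat_lit 4) (nat_lit 59) (nat_lit 5) (nat_lit 59) (nat_lit 4) (nat_lit 501) (nat_lit 356) (nat_lit 343))) (XT.nd (nat_lit 78)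 (nat_lit 76) (nat_lit 0) (XT.lf (nat_lit 0) (nat_lit 5321716611) (nat_lit 152) (nat_lit 11898692962) (nat_lit 0) (nat_lit 2389669766) (nat_lit 56) (nat_lit 5) (nat_lit 58) (nat_lit 4) (nat_lit 56) (nat_lit 4) (nat_lit 502) (nat_lit 356) (nat_lit 342)) (XT.lf (nat_lit 0) (nat_lit 3319186997) (nat_lit 76) (nat_lit 9869385117) (nat_lit 76) (nat_lit 6770734419) (nat_lit 55) (nat_lit 4) (nat_lit 56) (nat_lit 5) (nat_lit 56) (nat_lit 4) (nat_lit 503) (nat_lit 356) (nat_lit 341)))))) (XT.nd (nat_lit 624) (nat_lit 608) (nat_lit 0) (XT.nd (nat_lit 312) (nat_lit 304) (nat_lit 0) (XT.nd (nat_lit 156) (nat_lit 228) (nat_lit 0) (XT.nd (nat_lit 78) (nat_lit 76) (nat_lit 0) (XT.lf (nat_lit 0) (nat_lit 940205167) (nat_lit 152) (nat_lit 1351785520) (nat_lit 76) (nat_lit 18027137847) (nat_lit 54) (nat_lit 5) (nat_lit 56) (nat_lit 5) (nat_lit 55) (nat_lit 4) (nat_lit 504) (nat_lit 356) (nat_lit 340)) (XT.lf (nat_lit 0) (nat_lit 8807507707)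 (nat_lit 152) (nat_lit 6388791170) (nat_lit 0) (nat_lit 5489602736) (nat_lit 53) (nat_lit 5) (nat_lit 55) (nat_lit 4) (nat_lit 53) (nat_lit 4) (nat_lit 505) (nat_lit 356) (nat_lit 339))) (XT.nd (nat_lit 78) (nat_lit 152) (nat_lit 0) (XT.lf (nat_lit 0) (nat_lit 9282350156) (nat_lit 76) (nat_lit 7623701244) (nat_lit 76) (nat_lit 4157770909) (nat_lit 52) (nat_lit 4) (nat_lit 53) (nat_lit 5) (nat_lit 53) (nat_lit 4) (nat_lit 506) (nat_lit 356) (nat_lit 338)) (XT.lf (nat_lit 0) (nat_lit 3694399834) (nat_lit 152) (nat_lit 17568477566) (nat_lit 0) (nat_lit 189890823) (nat_lit 50) (nat_lit 5) (nat_lit 52) (nat_lit 4) (nat_lit 50) (nat_lit 4) (nat_lit 507) (nat_lit 356) (nat_lit 337)))) (XT.nd (nat_lit 156) (nat_lit 228) (nat_lit 0) (XT.nd (nat_lit 78) (nat_lit 76) (nat_lit 0) (XT.lf (nat_lit 0) (nat_lit 11763965857) (nat_lit 152) (nat_lit 1962228088) (nat_lit 0) (nat_lit 8123992668) (nat_lit 50) (nat_lit 5) (nat_lit 52)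 (nat_lit 4) (nat_lit 50) (nat_lit 4) (nat_lit 508) (nat_lit 356) (nat_lit 336)) (XT.lf (nat_lit 0) (nat_lit 14139457025) (nat_lit 76) (nat_lit 5945639488) (nat_lit 76) (nat_lit 2174147680) (nat_lit 49) (nat_lit 4) (nat_lit 50) (nat_lit 5) (nat_lit 50) (nat_lit 4) (nat_lit 509) (nat_lit 356) (nat_lit 335))) (XT.nd (nat_lit 78) (nat_lit 76) (nat_lit 0) (XT.lf (nat_lit 0) (nat_lit 5848818678) (nat_lit 152) (nat_lit 14767121440) (nat_lit 0) (nat_lit 2063207234) (nat_lit 47) (nat_lit 5) (nat_lit 49) (nat_lit 4) (nat_lit 47) (nat_lit 4) (nat_lit 510) (nat_lit 356) (nat_lit 334)) (XT.lf (nat_lit 0) (nat_lit 1174884036) (nat_lit 76) (nat_lit 12920642874) (nat_lit 76) (nat_lit 9014673262) (nat_lit 46) (nat_lit 4) (nat_lit 47) (nat_lit 5) (nat_lit 47) (nat_lit 4) (nat_lit 511) (nat_lit 356) (nat_lit 333))))) (XT.nd (nat_lit 312) (nat_lit 380) (nat_lit 0) (XT.nd (nat_lit 156) (nat_lit 76) (nat_lit 0) (XT.nd (nat_lit 78) (nat_lit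 152) (nat_lit 0) (XT.lf (nat_lit 0) (nat_lit 17651411581) (nat_lit 76) (nat_lit 4962434877) (nat_lit 76) (nat_lit 939612675) (nat_lit 46) (nat_lit 4) (nat_lit 47) (nat_lit 5) (nat_lit 47) (nat_lit 4) (nat_lit 512) (nat_lit 356) (nat_lit 332)) (XT.lf (nat_lit 0) (nat_lit 7243886242) (nat_lit 152) (nat_lit 13535609458) (nat_lit 0) (nat_lit 3228088845) (nat_lit 44) (nat_lit 5) (nat_lit 46) (nat_lit 4) (nat_lit 44) (nat_lit 4) (nat_lit 513) (nat_lit 356) (nat_lit 331))) (XT.nd (nat_lit 78) (nat_lit 0) (nat_lit 0) (XT.lf (nat_lit 0) (nat_lit 2737203962) (nat_lit 76) (nat_lit 12930093372) (nat_lit 76) (nat_lit 8807359303) (nat_lit 43) (nat_lit 4) (nat_lit 44) (nat_lit 5) (nat_lit 44) (nat_lit 4) (nat_lit 514) (nat_lit 356) (nat_lit 330)) (XT.lf (nat_lit 0) (nat_lit 19536198110) (nat_lit 76) (nat_lit 4822815767) (nat_lit 76) (nat_lit 596259685) (nat_lit 43) (nat_lit 4) (nat_lit 44) (nat_lit 5) (nat_lit 44) (nat_lit 4)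 (nat_lit 515) (nat_lit 356) (nat_lit 329)))) (XT.nd (nat_lit 156) (nat_lit 152) (nat_lit 0) (XT.nd (nat_lit 78) (nat_lit 76) (nat_lit 0) (XT.lf (nat_lit 0) (nat_lit 7732284492) (nat_lit 152) (nat_lit 14184053107) (nat_lit 0) (nat_lit 3530969781) (nat_lit 41) (nat_lit 5) (nat_lit 43) (nat_lit 4) (nat_lit 41) (nat_lit 4) (nat_lit 516) (nat_lit 356) (nat_lit 328)) (XT.lf (nat_lit 0) (nat_lit 2361590220) (nat_lit 76) (nat_lit 13944224365) (nat_lit 76) (nat_lit 9647897805) (nat_lit 40) (nat_lit 4) (nat_lit 41) (nat_lit 5) (nat_lit 41) (nat_lit 4) (nat_lit 517) (nat_lit 356) (nat_lit 327))) (XT.nd (nat_lit 78) (nat_lit 152) (nat_lit 0) (XT.lf (nat_lit 0) (nat_lit 19461689747) (nat_lit 76) (nat_lit 5700708069) (nat_lit 76) (nat_lit 1312136996) (nat_lit 40) (nat_lit 4) (nat_lit 41) (nat_lit 5) (nat_lit 41) (nat_lit 4) (nat_lit 518) (nat_lit 356) (nat_lit 326)) (XT.lf (nat_lit 0) (nat_lit 7139782240) (nat_lit 152) (nat_lit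 17076777756) (nat_lit 0) (nat_lit 2792084325) (nat_lit 38) (nat_lit 5) (nat_lit 40) (nat_lit 4) (nat_lit 38) (nat_lit 4) (nat_lit 519) (nat_lit 356) (nat_lit 325))))))) (XT.nd (nat_lit 1170) (nat_lit 760) (nat_lit 0) (XT.nd (nat_lit 546) (nat_lit 456) (nat_lit 0) (XT.nd (nat_lit 234) (nat_lit 228) (nat_lit 0) (XT.nd (nat_lit 78) (nat_lit 228) (nat_lit 0) (XT.lf (nat_lit 0) (nat_lit 15831855563) (nat_lit 152) (nat_lit 326402502) (nat_lit 0) (nat_lit 11399740851) (nat_lit 38) (nat_lit 5) (nat_lit 40) (nat_lit 4) (nat_lit 38) (nat_lit 4) (nat_lit 520) (nat_lit 356) (nat_lit 324)) (XT.nd (nat_lit 78) (nat_lit 152) (nat_lit 0) (XT.lf (nat_lit 0) (nat_lit 17037301767) (nat_lit 76) (nat_lit 7799520903) (nat_lit 76) (nat_lit 3285448135) (nat_lit 37) (nat_lit 4) (nat_lit 38) (nat_lit 5) (nat_lit 38) (nat_lit 4) (nat_lit 521) (nat_lit 356) (nat_lit 323)) (XT.lf (nat_lit 0) (nat_lit 5260865309) (nat_lit 152) (nat_lit 22641291281)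 (nat_lit 0) (nat_lit 801017061) (nat_lit 35) (nat_lit 5) (nat_lit 37) (nat_lit 4) (nat_lit 35) (nat_lit 4) (nat_lit 522) (nat_lit 356) (nat_lit 322)))) (XT.nd (nat_lit 156) (nat_lit 152) (nat_lit 0) (XT.nd (nat_lit 78) (nat_lit 76) (nat_lit 0) (XT.lf (nat_lit 0) (nat_lit 14076299439) (nat_lit 152) (nat_lit 5680417894) (nat_lit 0) (nat_lit 9541447960) (nat_lit 35) (nat_lit 5) (nat_lit 37) (nat_lit 4) (nat_lit 35) (nat_lit 4) (nat_lit 523) (nat_lit 356) (nat_lit 321)) (XT.lf (nat_lit 0) (nat_lit 11804303579) (nat_lit 76) (nat_lit 11357108660) (nat_lit 76) (nat_lit 6749438510) (nat_lit 34) (nat_lit 4) (nat_lit 35) (nat_lit 5) (nat_lit 35) (nat_lit 4) (nat_lit 524) (nat_lit 356) (nat_lit 320))) (XT.nd (nat_lit 78) (nat_lit 76) (nat_lit 0) (XT.lf (nat_lit 0) (nat_lit 1888296695) (nat_lit 152) (nat_lit 845125596) (nat_lit 76) (nat_lit 27809433315) (nat_lit 33) (nat_lit 5) (nat_lit 35) (nat_lit 5) (nat_lit 34) (nat_lit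 4) (nat_lit 525) (nat_lit 356) (nat_lit 319)) (XT.lf (nat_lit 0) (nat_lit 10768148513) (nat_lit 152) (nat_lit 14260704187) (nat_lit 0) (nat_lit 6159404368) (nat_lit 32) (nat_lit 5) (nat_lit 34) (nat_lit 4) (nat_lit 32) (nat_lit 4) (nat_lit 526) (nat_lit 356) (nat_lit 318))))) (XT.nd (nat_lit 312) (nat_lit 228) (nat_lit 0) (XT.nd (nat_lit 156) (nat_lit 152) (nat_lit 0) (XT.nd (nat_lit 78) (nat_lit 0) (nat_lit 0) (XT.lf (nat_lit 0) (nat_lit 3224573761) (nat_lit 76) (nat_lit 16651519479) (nat_lit 76) (nat_lit 11978076888) (nat_lit 31) (nat_lit 4) (nat_lit 32) (nat_lit 5) (nat_lit 32) (nat_lit 4) (nat_lit 527) (nat_lit 356) (nat_lit 317)) (XT.lf (nat_lit 0) (nat_lit 21319618600) (nat_lit 76) (nat_lit 7977748172) (nat_lit 76) (nat_lit 3241491555) (nat_lit 31) (nat_lit 4) (nat_lit 32) (nat_lit 5) (nat_lit 32) (nat_lit 4) (nat_lit 528) (nat_lit 356) (nat_lit 316))) (XT.nd (nat_lit 78) (nat_lit 0) (nat_lit 0) (XT.lf (nat_lit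 0) (nat_lit 5615637779) (nat_lit 152) (nat_lit 26669543738) (nat_lit 0) (nat_lit 958122142) (nat_lit 29) (nat_lit 5) (nat_lit 31) (nat_lit 4) (nat_lit 29) (nat_lit 4) (nat_lit 529) (nat_lit 356) (nat_lit 315)) (XT.lf (nat_lit 0) (nat_lit 14764914844) (nat_lit 152) (nat_lit 9150342097) (nat_lit 0) (nat_lit 10049915475) (nat_lit 29) (nat_lit 5) (nat_lit 31) (nat_lit 4) (nat_lit 29) (nat_lit 4) (nat_lit 530) (nat_lit 356) (nat_lit 314)))) (XT.nd (nat_lit 156) (nat_lit 152) (nat_lit 0) (XT.nd (nat_lit 78) (nat_lit 0) (nat_lit 0) (XT.lf (nat_lit 0) (nat_lit 8870256138) (nat_lit 76) (nat_lit 15304828939) (nat_lit 76) (nat_lit 10534020123) (nat_lit 28) (nat_lit 4) (nat_lit 29) (nat_lit 5) (nat_lit 29) (nat_lit 4) (nat_lit 531) (nat_lit 356) (nat_lit 313)) (XT.lf (nat_lit 0) (nat_lit 27423709283) (nat_lit 76) (nat_lit 6438401657) (nat_lit 76) (nat_lit 1613408911) (nat_lit 28) (nat_lit 4) (nat_lit 29) (nat_lit 5) (nat_lit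 29) (nat_lit 4) (nat_lit 532) (nat_lit 356) (nat_lit 312))) (XT.nd (nat_lit 78) (nat_lit 0) (nat_lit 0) (XT.lf (nat_lit 0) (nat_lit 7455820152) (nat_lit 152) (nat_lit 26085770778) (nat_lit 0) (nat_lit 2720287625) (nat_lit 26) (nat_lit 5) (nat_lit 28) (nat_lit 4) (nat_lit 26) (nat_lit 4) (nat_lit 533) (nat_lit 356) (nat_lit 311)) (XT.lf (nat_lit 0) (nat_lit 16814676970) (nat_lit 152) (nat_lit 8225614350) (nat_lit 0) (nat_lit 12029558471) (nat_lit 26) (nat_lit 5) (nat_lit 28) (nat_lit 4) (nat_lit 26) (nat_lit 4) (nat_lit 534) (nat_lit 356) (nat_lit 310)))))) (XT.nd (nat_lit 624) (nat_lit 304) (nat_lit 0) (XT.nd (nat_lit 312) (nat_lit 228) (nat_lit 0) (XT.nd (nat_lit 156) (nat_lit 152) (nat_lit 0) (XT.nd (nat_lit 78) (nat_lit 0) (nat_lit 0) (XT.lf (nat_lit 0) (nat_lit 10183017688) (nat_lit 76) (nat_lit 16276079557) (nat_lit 76) (nat_lit 11442819339) (nat_lit 25) (nat_lit 4) (nat_lit 26) (nat_lit 5) (nat_lit 26) (nat_lit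 4) (nat_lit 535) (nat_lit 356) (nat_lit 309)) (XT.lf (nat_lit 0) (nat_lit 29128313171) (nat_lit 76) (nat_lit 7255452422) (nat_lit 76) (nat_lit 2375452670) (nat_lit 25) (nat_lit 4) (nat_lit 26) (nat_lit 5) (nat_lit 26) (nat_lit 4) (nat_lit 536) (nat_lit 356) (nat_lit 308))) (XT.nd (nat_lit 78) (nat_lit 0) (nat_lit 0) (XT.lf (nat_lit 0) (nat_lit 6843713187) (nat_lit 152) (nat_lit 30734254934) (nat_lit 0) (nat_lit 2061792856) (nat_lit 23) (nat_lit 5) (nat_lit 25) (nat_lit 4) (nat_lit 23) (nat_lit 4) (nat_lit 537) (nat_lit 356) (nat_lit 307)) (XT.lf (nat_lit 0) (nat_lit 16371465133) (nat_lit 152) (nat_lit 12625385406) (nat_lit 0) (nat_lit 11546771508) (nat_lit 23) (nat_lit 5) (nat_lit 25) (nat_lit 4) (nat_lit 23) (nat_lit 4) (nat_lit 538) (nat_lit 356) (nat_lit 306)))) (XT.nd (nat_lit 156) (nat_lit 152) (nat_lit 0) (XT.nd (nat_lit 78) (nat_lit 0) (nat_lit 0) (XT.lf (nat_lit 0) (nat_lit 5967767648) (nat_lit 76) (nat_lit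 20186980867) (nat_lit 76) (nat_lit 15320759772) (nat_lit 22) (nat_lit 4) (nat_lit 23) (nat_lit 5) (nat_lit 23) (nat_lit 4) (nat_lit 539) (nat_lit 356) (nat_lit 305)) (XT.lf (nat_lit 0) (nat_lit 25203808070) (nat_lit 76) (nat_lit 11068430561) (nat_lit 76) (nat_lit 6161891534) (nat_lit 22) (nat_lit 4) (nat_lit 23) (nat_lit 5) (nat_lit 23) (nat_lit 4) (nat_lit 540) (nat_lit 356) (nat_lit 304))) (XT.nd (nat_lit 78) (nat_lit 0) (nat_lit 0) (XT.lf (nat_lit 0) (nat_lit 1421355453) (nat_lit 76) (nat_lit 1715116519) (nat_lit 152) (nat_lit 40286238325) (nat_lit 20) (nat_lit 5) (nat_lit 21) (nat_lit 5) (nat_lit 22) (nat_lit 4) (nat_lit 541) (nat_lit 356) (nat_lit 303)) (XT.lf (nat_lit 0) (nat_lit 12756728884) (nat_lit 152) (nat_lit 23759186622) (nat_lit 0) (nat_lit 7918198622) (nat_lit 20) (nat_lit 5) (nat_lit 22) (nat_lit 4) (nat_lit 20) (nat_lit 4) (nat_lit 542) (nat_lit 356) (nat_lit 302))))) (XT.nd (nat_lit 312) (nat_lit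 76) (nat_lit 0) (XT.nd (nat_lit 156) (nat_lit 152) (nat_lit 0) (XT.nd (nat_lit 78) (nat_lit 76) (nat_lit 0) (XT.lf (nat_lit 0) (nat_lit 22600006827) (nat_lit 152) (nat_lit 5152166506) (nat_lit 0) (nat_lit 17725654604) (nat_lit 20) (nat_lit 5) (nat_lit 22) (nat_lit 4) (nat_lit 20) (nat_lit 4) (nat_lit 543) (nat_lit 356) (nat_lit 301)) (XT.lf (nat_lit 0) (nat_lit 14128141745) (nat_lit 76) (nat_lit 18666086569) (nat_lit 76) (nat_lit 13756955744) (nat_lit 19) (nat_lit 4) (nat_lit 20) (nat_lit 5) (nat_lit 20) (nat_lit 4) (nat_lit 544) (nat_lit 356) (nat_lit 300))) (XT.nd (nat_lit 78) (nat_lit 152) (nat_lit 0) (XT.lf (nat_lit 0) (nat_lit 33933434848) (nat_lit 76) (nat_lit 9333511316) (nat_lit 76) (nat_lit 4390614857) (nat_lit 19) (nat_lit 4) (nat_lit 20) (nat_lit 5) (nat_lit 20) (nat_lit 4) (nat_lit 545) (nat_lit 356) (nat_lit 299)) (XT.lf (nat_lit 0) (nat_lit 5131526519) (nat_lit 152) (nat_lit 43363994883) (nat_lit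 0) (nat_lit 300770570) (nat_lit 17) (nat_lit 5) (nat_lit 19) (nat_lit 4) (nat_lit 17) (nat_lit 4) (nat_lit 546) (nat_lit 356) (nat_lit 298)))) (XT.nd (nat_lit 156) (nat_lit 76) (nat_lit 0) (XT.nd (nat_lit 78) (nat_lit 0) (nat_lit 0) (XT.lf (nat_lit 0) (nat_lit 15005684106) (nat_lit 152) (nat_lit 24813531041) (nat_lit 0) (nat_lit 10144027819) (nat_lit 17) (nat_lit 5) (nat_lit 19) (nat_lit 4) (nat_lit 17) (nat_lit 4) (nat_lit 547) (nat_lit 356) (nat_lit 297)) (XT.lf (nat_lit 0) (nat_lit 25100560659) (nat_lit 152) (nat_lit 5858003181) (nat_lit 0) (nat_lit 20208904044) (nat_lit 17) (nat_lit 5) (nat_lit 19) (nat_lit 4) (nat_lit 17) (nat_lit 4) (nat_lit 548) (nat_lit 356) (nat_lit 296))) (XT.nd (nat_lit 78) (nat_lit 0) (nat_lit 0) (XT.lf (nat_lit 0) (nat_lit 13788209409) (nat_lit 76) (nat_lit 21769308238) (nat_lit 76) (nat_lit 16848525091) (nat_lit 16) (nat_lit 4) (nat_lit 17) (nat_lit 5) (nat_lit 17) (nat_lit 4) (nat_lit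 549) (nat_lit 356) (nat_lit 295)) (XT.lf (nat_lit 0) (nat_lit 33998294521) (nat_lit 76) (nat_lit 12316472179) (nat_lit 76) (nat_lit 7367410845) (nat_lit 16) (nat_lit 4) (nat_lit 17) (nat_lit 5) (nat_lit 17) (nat_lit 4) (nat_lit 550) (nat_lit 356) (nat_lit 294))))))))
noncomputable def xc19 : XT := (XT.nd (nat_lit 59436) (nat_lit 0) (nat_lit 532) (XT.nd (nat_lit 58188) (nat_lit 0) (nat_lit 2584) (XT.nd (nat_lit 57564) (nat_lit 0) (nat_lit 3952) (XT.nd (nat_lit 234) (nat_lit 76) (nat_lit 0) (XT.nd (nat_lit 78) (nat_lit 76) (nat_lit 0) (XT.lf (nat_lit 0) (nat_lit 2280185473) (nat_lit 152) (nat_lit 347739373) (nat_lit 76) (nat_lit 52370114828) (nat_lit 15) (nat_lit 5) (nat_lit 17) (nat_lit 5) (nat_lit 16) (nat_lit 4) (nat_lit 551) (nat_lit 356) (nat_lit 293)) (XT.nd (nat_lit 78) (nat_lit 0) (nat_lit 0) (XT.lf (nat_lit 0) (nat_lit 12262421028) (nat_lit 152) (nat_lit 36677996158) (nat_lit 0) (nat_lit 7404973661) (nat_lit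 14) (nat_lit 5) (nat_lit 16) (nat_lit 4) (nat_lit 14) (nat_lit 4) (nat_lit 552) (nat_lit 356) (nat_lit 292)) (XT.lf (nat_lit 0) (nat_lit 22504637124) (nat_lit 152) (nat_lit 17607645257) (nat_lit 0) (nat_lit 17622064955) (nat_lit 14) (nat_lit 5) (nat_lit 16) (nat_lit 4) (nat_lit 14) (nat_lit 4) (nat_lit 553) (nat_lit 356) (nat_lit 291)))) (XT.nd (nat_lit 57174) (nat_lit 0) (nat_lit 5016) (XT.nd (nat_lit 78) (nat_lit 0) (nat_lit 0) (XT.lf (nat_lit 0) (nat_lit 1938026959) (nat_lit 76) (nat_lit 31067681627) (nat_lit 76) (nat_lit 26160716446) (nat_lit 13) (nat_lit 4) (nat_lit 14) (nat_lit 5) (nat_lit 14) (nat_lit 4) (nat_lit 554) (nat_lit 356) (nat_lit 290)) (XT.lf (nat_lit 0) (nat_lit 22297721385) (nat_lit 76) (nat_lit 21635524280) (nat_lit 76) (nat_lit 16704876563) (nat_lit 13) (nat_lit 4) (nat_lit 14) (nat_lit 5) (nat_lit 14) (nat_lit 4) (nat_lit 555) (nat_lit 356) (nat_lit 289))) (XT.nd (nat_lit 78) (nat_lit 152)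 (nat_lit 0) (XT.lf (nat_lit 0) (nat_lit 3394358325) (nat_lit 152) (nat_lit 750973828) (nat_lit 0) (nat_lit 3394358325) (nat_lit 81) (nat_lit 5) (nat_lit 83) (nat_lit 4) (nat_lit 81) (nat_lit 4) (nat_lit 486) (nat_lit 357) (nat_lit 357)) (XT.lf (nat_lit 0) (nat_lit 12164687178) (nat_lit 152) (nat_lit 1734558623) (nat_lit 152) (nat_lit 1415328414) (nat_lit 79) (nat_lit 4) (nat_lit 81) (nat_lit 5) (nat_lit 81) (nat_lit 4) (nat_lit 487) (nat_lit 357) (nat_lit 356))))) (XT.nd (nat_lit 312) (nat_lit 456) (nat_lit 0) (XT.nd (nat_lit 156) (nat_lit 304) (nat_lit 0) (XT.nd (nat_lit 78) (nat_lit 152) (nat_lit 0) (XT.lf (nat_lit 0) (nat_lit 5580131352) (nat_lit 152) (nat_lit 5005033087) (nat_lit 0) (nat_lit 4969294021) (nat_lit 77) (nat_lit 5) (nat_lit 79) (nat_lit 4) (nat_lit 77) (nat_lit 4) (nat_lit 488) (nat_lit 357) (nat_lit 355)) (XT.lf (nat_lit 0) (nat_lit 8795109927) (nat_lit 152) (nat_lit 3954604040) (nat_lit 152)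 (nat_lit 3051625846) (nat_lit 75) (nat_lit 4) (nat_lit 77) (nat_lit 5) (nat_lit 77) (nat_lit 4) (nat_lit 489) (nat_lit 357) (nat_lit 354))) (XT.nd (nat_lit 78) (nat_lit 152) (nat_lit 0) (XT.lf (nat_lit 0) (nat_lit 4003363118) (nat_lit 152) (nat_lit 9199649873) (nat_lit 0) (nat_lit 2851314478) (nat_lit 73) (nat_lit 5) (nat_lit 75) (nat_lit 4) (nat_lit 73) (nat_lit 4) (nat_lit 490) (nat_lit 357) (nat_lit 353)) (XT.lf (nat_lit 0) (nat_lit 4714971399) (nat_lit 152) (nat_lit 6508984574) (nat_lit 152) (nat_lit 5089585660) (nat_lit 71) (nat_lit 4) (nat_lit 73) (nat_lit 5) (nat_lit 73) (nat_lit 4) (nat_lit 491) (nat_lit 357) (nat_lit 352)))) (XT.nd (nat_lit 156) (nat_lit 304) (nat_lit 0) (XT.nd (nat_lit 78) (nat_lit 0) (nat_lit 0) (XT.lf (nat_lit 0) (nat_lit 2020406515) (nat_lit 152) (nat_lit 14169770322) (nat_lit 0) (nat_lit 390346042) (nat_lit 69) (nat_lit 5) (nat_lit 71) (nat_lit 4) (nat_lit 69) (nat_lit 4) (nat_lit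 492) (nat_lit 357) (nat_lit 351)) (XT.lf (nat_lit 0) (nat_lit 9283946280) (nat_lit 152) (nat_lit 159558585) (nat_lit 0) (nat_lit 7409222433) (nat_lit 69) (nat_lit 5) (nat_lit 71) (nat_lit 4) (nat_lit 69) (nat_lit 4) (nat_lit 493) (nat_lit 357) (nat_lit 350))) (XT.nd (nat_lit 78) (nat_lit 152) (nat_lit 0) (XT.lf (nat_lit 0) (nat_lit 14287947364) (nat_lit 152) (nat_lit 2478688021) (nat_lit 152) (nat_lit 366426918) (nat_lit 67) (nat_lit 4) (nat_lit 69) (nat_lit 5) (nat_lit 69) (nat_lit 4) (nat_lit 494) (nat_lit 357) (nat_lit 349)) (XT.lf (nat_lit 0) (nat_lit 6937734652) (nat_lit 152) (nat_lit 5818246234) (nat_lit 0) (nat_lit 4663094072) (nat_lit 65) (nat_lit 5) (nat_lit 67) (nat_lit 4) (nat_lit 65) (nat_lit 4) (nat_lit 495) (nat_lit 357) (nat_lit 348)))))) (XT.nd (nat_lit 624) (nat_lit 608) (nat_lit 0) (XT.nd (nat_lit 312) (nat_lit 380) (nat_lit 0) (XT.nd (nat_lit 156) (nat_lit 152) (nat_lit 0) (XT.nd (nat_lit 78)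 (nat_lit 152) (nat_lit 0) (XT.lf (nat_lit 0) (nat_lit 8704845807) (nat_lit 76) (nat_lit 5750344866) (nat_lit 76) (nat_lit 3258324047) (nat_lit 64) (nat_lit 4) (nat_lit 65) (nat_lit 5) (nat_lit 65) (nat_lit 4) (nat_lit 496) (nat_lit 357) (nat_lit 347)) (XT.lf (nat_lit 0) (nat_lit 4091511200) (nat_lit 152) (nat_lit 12457148702) (nat_lit 0) (nat_lit 1467171789) (nat_lit 62) (nat_lit 5) (nat_lit 64) (nat_lit 4) (nat_lit 62) (nat_lit 4) (nat_lit 497) (nat_lit 357) (nat_lit 346))) (XT.nd (nat_lit 78) (nat_lit 76) (nat_lit 0) (XT.lf (nat_lit 0) (nat_lit 2111743960) (nat_lit 76) (nat_lit 9518383858) (nat_lit 76) (nat_lit 6695110734) (nat_lit 61) (nat_lit 4) (nat_lit 62) (nat_lit 5) (nat_lit 62) (nat_lit 4) (nat_lit 498) (nat_lit 357) (nat_lit 345)) (XT.lf (nat_lit 0) (nat_lit 728145716) (nat_lit 152) (nat_lit 1538276846) (nat_lit 76) (nat_lit 16377535132) (nat_lit 60) (nat_lit 5) (nat_lit 62) (nat_lit 5) (nat_lit 61) (nat_lit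 4) (nat_lit 499) (nat_lit 357) (nat_lit 344)))) (XT.nd (nat_lit 156) (nat_lit 228) (nat_lit 0) (XT.nd (nat_lit 78) (nat_lit 76) (nat_lit 0) (XT.lf (nat_lit 0) (nat_lit 8288987039) (nat_lit 152) (nat_lit 5501401952) (nat_lit 0) (nat_lit 5178378541) (nat_lit 59) (nat_lit 5) (nat_lit 61) (nat_lit 4) (nat_lit 59) (nat_lit 4) (nat_lit 500) (nat_lit 357) (nat_lit 343)) (XT.lf (nat_lit 0) (nat_lit 9560534620) (nat_lit 76) (nat_lit 6515088887) (nat_lit 76) (nat_lit 3227730362) (nat_lit 58) (nat_lit 4) (nat_lit 59) (nat_lit 5) (nat_lit 59) (nat_lit 4) (nat_lit 501) (nat_lit 357) (nat_lit 342))) (XT.nd (nat_lit 78) (nat_lit 76) (nat_lit 0) (XT.lf (nat_lit 0) (nat_lit 4347323942) (nat_lit 152) (nat_lit 14310675429) (nat_lit 0) (nat_lit 989109872) (nat_lit 56) (nat_lit 5) (nat_lit 58) (nat_lit 4) (nat_lit 56) (nat_lit 4) (nat_lit 502) (nat_lit 357) (nat_lit 341)) (XT.lf (nat_lit 0) (nat_lit 730788712) (nat_lit 76) (nat_lit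 11394096264) (nat_lit 76) (nat_lit 7874130880) (nat_lit 55) (nat_lit 4) (nat_lit 56) (nat_lit 5) (nat_lit 56) (nat_lit 4) (nat_lit 503) (nat_lit 357) (nat_lit 340))))) (XT.nd (nat_lit 312) (nat_lit 228) (nat_lit 0) (XT.nd (nat_lit 156) (nat_lit 228) (nat_lit 0) (XT.nd (nat_lit 78) (nat_lit 152) (nat_lit 0) (XT.lf (nat_lit 0) (nat_lit 16263766495) (nat_lit 76) (nat_lit 3887133010) (nat_lit 76) (nat_lit 210127518) (nat_lit 55) (nat_lit 4) (nat_lit 56) (nat_lit 5) (nat_lit 56) (nat_lit 4) (nat_lit 504) (nat_lit 357) (nat_lit 339)) (XT.lf (nat_lit 0) (nat_lit 7554481098) (nat_lit 152) (nat_lit 9340036476) (nat_lit 0) (nat_lit 3836547488) (nat_lit 53) (nat_lit 5) (nat_lit 55) (nat_lit 4) (nat_lit 53) (nat_lit 4) (nat_lit 505) (nat_lit 357) (nat_lit 338))) (XT.nd (nat_lit 78) (nat_lit 152) (nat_lit 0) (XT.lf (nat_lit 0) (nat_lit 6147561166) (nat_lit 76) (nat_lit 9412924422) (nat_lit 76) (nat_lit 5551276866) (nat_lit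 52) (nat_lit 4) (nat_lit 53) (nat_lit 5) (nat_lit 53) (nat_lit 4) (nat_lit 506) (nat_lit 357) (nat_lit 337)) (XT.lf (nat_lit 0) (nat_lit 528947432) (nat_lit 76) (nat_lit 1702640297) (nat_lit 152) (nat_lit 19272417942) (nat_lit 50) (nat_lit 5) (nat_lit 51) (nat_lit 5) (nat_lit 52) (nat_lit 4) (nat_lit 507) (nat_lit 357) (nat_lit 336)))) (XT.nd (nat_lit 156) (nat_lit 152) (nat_lit 0) (XT.nd (nat_lit 78) (nat_lit 76) (nat_lit 0) (XT.lf (nat_lit 0) (nat_lit 10222501485) (nat_lit 152) (nat_lit 5474936317) (nat_lit 0) (nat_lit 6206346303) (nat_lit 50) (nat_lit 5) (nat_lit 52) (nat_lit 4) (nat_lit 50) (nat_lit 4) (nat_lit 508) (nat_lit 357) (nat_lit 335)) (XT.lf (nat_lit 0) (nat_lit 10435545563) (nat_lit 76) (nat_lit 8012011006) (nat_lit 76) (nat_lit 3868167844) (nat_lit 49) (nat_lit 4) (nat_lit 50) (nat_lit 5) (nat_lit 50) (nat_lit 4) (nat_lit 509) (nat_lit 357) (nat_lit 334))) (XT.nd (nat_lit 78) (nat_lit 0) (nat_lit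 0) (XT.lf (nat_lit 0) (nat_lit 3992905995) (nat_lit 76) (nat_lit 76413250) (nat_lit 152) (nat_lit 18670353354) (nat_lit 47) (nat_lit 5) (nat_lit 48) (nat_lit 5) (nat_lit 49) (nat_lit 4) (nat_lit 510) (nat_lit 357) (nat_lit 333)) (XT.lf (nat_lit 0) (nat_lit 12243634771) (nat_lit 152) (nat_lit 2945987539) (nat_lit 0) (nat_lit 7983275313) (nat_lit 47) (nat_lit 5) (nat_lit 49) (nat_lit 4) (nat_lit 47) (nat_lit 4) (nat_lit 511) (nat_lit 357) (nat_lit 332))))))) (XT.nd (nat_lit 1248) (nat_lit 912) (nat_lit 0) (XT.nd (nat_lit 624) (nat_lit 456) (nat_lit 0) (XT.nd (nat_lit 312) (nat_lit 380) (nat_lit 0) (XT.nd (nat_lit 156) (nat_lit 76) (nat_lit 0) (XT.nd (nat_lit 78) (nat_lit 152) (nat_lit 0) (XT.lf (nat_lit 0) (nat_lit 13354041360) (nat_lit 76) (nat_lit 7319291428) (nat_lit 76) (nat_lit 2945482854) (nat_lit 46) (nat_lit 4) (nat_lit 47) (nat_lit 5) (nat_lit 47) (nat_lit 4) (nat_lit 512) (nat_lit 357) (nat_lit 331)) (XT.lf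 (nat_lit 0) (nat_lit 5151040253) (nat_lit 152) (nat_lit 18128575676) (nat_lit 0) (nat_lit 797687488) (nat_lit 44) (nat_lit 5) (nat_lit 46) (nat_lit 4) (nat_lit 44) (nat_lit 4) (nat_lit 513) (nat_lit 357) (nat_lit 330))) (XT.nd (nat_lit 78) (nat_lit 76) (nat_lit 0) (XT.lf (nat_lit 0) (nat_lit 13489628306) (nat_lit 152) (nat_lit 2024838741) (nat_lit 0) (nat_lit 9032453529) (nat_lit 44) (nat_lit 5) (nat_lit 46) (nat_lit 4) (nat_lit 44) (nat_lit 4) (nat_lit 514) (nat_lit 357) (nat_lit 329)) (XT.lf (nat_lit 0) (nat_lit 14619327327) (nat_lit 76) (nat_lit 7484258085) (nat_lit 76) (nat_lit 2926285238) (nat_lit 43) (nat_lit 4) (nat_lit 44) (nat_lit 5) (nat_lit 44) (nat_lit 4) (nat_lit 515) (nat_lit 357) (nat_lit 328)))) (XT.nd (nat_lit 156) (nat_lit 228) (nat_lit 0) (XT.nd (nat_lit 78) (nat_lit 0) (nat_lit 0) (XT.lf (nat_lit 0) (nat_lit 5314297752) (nat_lit 152) (nat_lit 19418212294) (nat_lit 0) (nat_lit 794069546) (nat_lit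 41) (nat_lit 5) (nat_lit 43) (nat_lit 4) (nat_lit 41) (nat_lit 4) (nat_lit 516) (nat_lit 357) (nat_lit 327)) (XT.lf (nat_lit 0) (nat_lit 13808403987) (nat_lit 152) (nat_lit 3031032397) (nat_lit 0) (nat_lit 9195931268) (nat_lit 41) (nat_lit 5) (nat_lit 43) (nat_lit 4) (nat_lit 41) (nat_lit 4) (nat_lit 517) (nat_lit 357) (nat_lit 326))) (XT.nd (nat_lit 78) (nat_lit 152) (nat_lit 0) (XT.lf (nat_lit 0) (nat_lit 13897465109) (nat_lit 76) (nat_lit 8681665740) (nat_lit 76) (nat_lit 3979635241) (nat_lit 40) (nat_lit 4) (nat_lit 41) (nat_lit 5) (nat_lit 41) (nat_lit 4) (nat_lit 518) (nat_lit 357) (nat_lit 325)) (XT.lf (nat_lit 0) (nat_lit 4114036635) (nat_lit 76) (nat_lit 271685746) (nat_lit 152) (nat_lit 22712081195) (nat_lit 38) (nat_lit 5) (nat_lit 39) (nat_lit 5) (nat_lit 40) (nat_lit 4) (nat_lit 519) (nat_lit 357) (nat_lit 324))))) (XT.nd (nat_lit 312) (nat_lit 228) (nat_lit 0) (XT.nd (nat_lit 156) (nat_lit 152) (nat_lit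 0) (XT.nd (nat_lit 78) (nat_lit 76) (nat_lit 0) (XT.lf (nat_lit 0) (nat_lit 13020188340) (nat_lit 152) (nat_lit 6339963016) (nat_lit 0) (nat_lit 8288735333) (nat_lit 38) (nat_lit 5) (nat_lit 40) (nat_lit 4) (nat_lit 38) (nat_lit 4) (nat_lit 520) (nat_lit 357) (nat_lit 323)) (XT.lf (nat_lit 0) (nat_lit 10795947091) (nat_lit 76) (nat_lit 11115818699) (nat_lit 76) (nat_lit 6304794765) (nat_lit 37) (nat_lit 4) (nat_lit 38) (nat_lit 5) (nat_lit 38) (nat_lit 4) (nat_lit 521) (nat_lit 357) (nat_lit 322))) (XT.nd (nat_lit 78) (nat_lit 76) (nat_lit 0) (XT.lf (nat_lit 0) (nat_lit 2180864356) (nat_lit 152) (nat_lit 461122618) (nat_lit 76) (nat_lit 26159934593) (nat_lit 36) (nat_lit 5) (nat_lit 38) (nat_lit 5) (nat_lit 37) (nat_lit 4) (nat_lit 522) (nat_lit 357) (nat_lit 321)) (XT.lf (nat_lit 0) (nat_lit 10913009161) (nat_lit 152) (nat_lit 12392112756) (nat_lit 0) (nat_lit 6094290235) (nat_lit 35) (nat_lit 5) (nat_lit 37)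 (nat_lit 4) (nat_lit 35) (nat_lit 4) (nat_lit 523) (nat_lit 357) (nat_lit 320)))) (XT.nd (nat_lit 156) (nat_lit 152) (nat_lit 0) (XT.nd (nat_lit 78) (nat_lit 0) (nat_lit 0) (XT.lf (nat_lit 0) (nat_lit 4854002489) (nat_lit 76) (nat_lit 15025534790) (nat_lit 76) (nat_lit 10136118126) (nat_lit 34) (nat_lit 4) (nat_lit 35) (nat_lit 5) (nat_lit 35) (nat_lit 4) (nat_lit 524) (nat_lit 357) (nat_lit 319)) (XT.lf (nat_lit 0) (nat_lit 22664525810) (nat_lit 76) (nat_lit 6471641359) (nat_lit 76) (nat_lit 1513586114) (nat_lit 34) (nat_lit 4) (nat_lit 35) (nat_lit 5) (nat_lit 35) (nat_lit 4) (nat_lit 525) (nat_lit 357) (nat_lit 318))) (XT.nd (nat_lit 78) (nat_lit 0) (nat_lit 0) (XT.lf (nat_lit 0) (nat_lit 7237458110) (nat_lit 152) (nat_lit 21703769851) (nat_lit 0) (nat_lit 2359113796) (nat_lit 32) (nat_lit 5) (nat_lit 34) (nat_lit 4) (nat_lit 32) (nat_lit 4) (nat_lit 526) (nat_lit 357) (nat_lit 317)) (XT.lf (nat_lit 0) (nat_lit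 16264197540) (nat_lit 152) (nat_lit 4381454463) (nat_lit 0) (nat_lit 11323039201) (nat_lit 32) (nat_lit 5) (nat_lit 34) (nat_lit 4) (nat_lit 32) (nat_lit 4) (nat_lit 527) (nat_lit 357) (nat_lit 316)))))) (XT.nd (nat_lit 624) (nat_lit 380) (nat_lit 0) (XT.nd (nat_lit 312) (nat_lit 228) (nat_lit 0) (XT.nd (nat_lit 156) (nat_lit 152) (nat_lit 0) (XT.nd (nat_lit 78) (nat_lit 76) (nat_lit 0) (XT.lf (nat_lit 0) (nat_lit 13527332109) (nat_lit 76) (nat_lit 12065484982) (nat_lit 76) (nat_lit 7063342152) (nat_lit 31) (nat_lit 4) (nat_lit 32) (nat_lit 5) (nat_lit 32) (nat_lit 4) (nat_lit 528) (nat_lit 357) (nat_lit 315)) (XT.lf (nat_lit 0) (nat_lit 1746958936) (nat_lit 152) (nat_lit 1515024431) (nat_lit 76) (nat_lit 30103365745) (nat_lit 30) (nat_lit 5) (nat_lit 32) (nat_lit 5) (nat_lit 31) (nat_lit 4) (nat_lit 529) (nat_lit 357) (nat_lit 314))) (XT.nd (nat_lit 78) (nat_lit 76) (nat_lit 0) (XT.lf (nat_lit 0) (nat_lit 10801184273)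 (nat_lit 152) (nat_lit 17457443604) (nat_lit 0) (nat_lit 5831441745) (nat_lit 29) (nat_lit 5) (nat_lit 31) (nat_lit 4) (nat_lit 29) (nat_lit 4) (nat_lit 530) (nat_lit 357) (nat_lit 313)) (XT.lf (nat_lit 0) (nat_lit 301602352) (nat_lit 76) (nat_lit 19780108016) (nat_lit 76) (nat_lit 14756181558) (nat_lit 28) (nat_lit 4) (nat_lit 29) (nat_lit 5) (nat_lit 29) (nat_lit 4) (nat_lit 531) (nat_lit 357) (nat_lit 312)))) (XT.nd (nat_lit 156) (nat_lit 76) (nat_lit 0) (XT.nd (nat_lit 78) (nat_lit 152) (nat_lit 0) (XT.lf (nat_lit 0) (nat_lit 18761633488) (nat_lit 76) (nat_lit 10960304718) (nat_lit 76) (nat_lit 5883772503) (nat_lit 28) (nat_lit 4) (nat_lit 29) (nat_lit 5) (nat_lit 29) (nat_lit 4) (nat_lit 532) (nat_lit 357) (nat_lit 311)) (XT.lf (nat_lit 0) (nat_lit 1184755990) (nat_lit 76) (nat_lit 1924781820) (nat_lit 152) (nat_lit 33288540731) (nat_lit 26) (nat_lit 5) (nat_lit 27) (nat_lit 5) (nat_lit 28) (nat_lit 4) (nat_lit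 533) (nat_lit 357) (nat_lit 310))) (XT.nd (nat_lit 78) (nat_lit 76) (nat_lit 0) (XT.lf (nat_lit 0) (nat_lit 12404036467) (nat_lit 152) (nat_lit 17426307506) (nat_lit 0) (nat_lit 7377636723) (nat_lit 26) (nat_lit 5) (nat_lit 28) (nat_lit 4) (nat_lit 26) (nat_lit 4) (nat_lit 534) (nat_lit 357) (nat_lit 309)) (XT.lf (nat_lit 0) (nat_lit 708467600) (nat_lit 76) (nat_lit 21204393602) (nat_lit 76) (nat_lit 16131254324) (nat_lit 25) (nat_lit 4) (nat_lit 26) (nat_lit 5) (nat_lit 26) (nat_lit 4) (nat_lit 535) (nat_lit 357) (nat_lit 308))))) (XT.nd (nat_lit 312) (nat_lit 228) (nat_lit 0) (XT.nd (nat_lit 156) (nat_lit 76) (nat_lit 0) (XT.nd (nat_lit 78) (nat_lit 76) (nat_lit 0) (XT.lf (nat_lit 0) (nat_lit 19565661046) (nat_lit 76) (nat_lit 12227797953) (nat_lit 76) (nat_lit 7109280486) (nat_lit 25) (nat_lit 4) (nat_lit 26) (nat_lit 5) (nat_lit 26) (nat_lit 4) (nat_lit 536) (nat_lit 357) (nat_lit 307)) (XT.lf (nat_lit 0) (nat_lit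 2053029707) (nat_lit 152) (nat_lit 994923653) (nat_lit 76) (nat_lit 36741171018) (nat_lit 24) (nat_lit 5) (nat_lit 26) (nat_lit 5) (nat_lit 25) (nat_lit 4) (nat_lit 537) (nat_lit 357) (nat_lit 306))) (XT.nd (nat_lit 78) (nat_lit 0) (nat_lit 0) (XT.lf (nat_lit 0) (nat_lit 11498446440) (nat_lit 152) (nat_lit 22752297974) (nat_lit 0) (nat_lit 6444711241) (nat_lit 23) (nat_lit 5) (nat_lit 25) (nat_lit 4) (nat_lit 23) (nat_lit 4) (nat_lit 538) (nat_lit 357) (nat_lit 305)) (XT.lf (nat_lit 0) (nat_lit 21182436133) (nat_lit 152) (nat_lit 4359501717) (nat_lit 0) (nat_lit 16088383002) (nat_lit 23) (nat_lit 5) (nat_lit 25) (nat_lit 4) (nat_lit 23) (nat_lit 4) (nat_lit 539) (nat_lit 357) (nat_lit 304)))) (XT.nd (nat_lit 156) (nat_lit 152) (nat_lit 0) (XT.nd (nat_lit 78) (nat_lit 0) (nat_lit 0) (XT.lf (nat_lit 0) (nat_lit 14706694505) (nat_lit 76) (nat_lit 16508986243) (nat_lit 76) (nat_lit 11375789489) (nat_lit 22) (nat_lit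 4) (nat_lit 23) (nat_lit 5) (nat_lit 23) (nat_lit 4) (nat_lit 540) (nat_lit 357) (nat_lit 303)) (XT.lf (nat_lit 0) (nat_lit 34270498843) (nat_lit 76) (nat_lit 7241644595) (nat_lit 76) (nat_lit 2070444322) (nat_lit 22) (nat_lit 4) (nat_lit 23) (nat_lit 5) (nat_lit 23) (nat_lit 4) (nat_lit 541) (nat_lit 357) (nat_lit 302))) (XT.nd (nat_lit 78) (nat_lit 0) (nat_lit 0) (XT.lf (nat_lit 0) (nat_lit 7404217240) (nat_lit 152) (nat_lit 34848138975) (nat_lit 0) (nat_lit 2347812490) (nat_lit 20) (nat_lit 5) (nat_lit 22) (nat_lit 4) (nat_lit 20) (nat_lit 4) (nat_lit 542) (nat_lit 357) (nat_lit 301)) (XT.lf (nat_lit 0) (nat_lit 17208005955) (nat_lit 152) (nat_lit 16320238761) (nat_lit 0) (nat_lit 12116822602) (nat_lit 20) (nat_lit 5) (nat_lit 22) (nat_lit 4) (nat_lit 20) (nat_lit 4) (nat_lit 543) (nat_lit 357) (nat_lit 300))))))))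
noncomputable def xc20 : XT := (XT.nd (nat_lit 59280) (nat_lit 0) (nat_lit 1140) (XT.nd (nat_lit 58032) (nat_lit 0) (nat_lit 3268) (XT.nd (nat_lit 546) (nat_lit 228) (nat_lit 0) (XT.nd (nat_lit 234) (nat_lit 228) (nat_lit 0) (XT.nd (nat_lit 78) (nat_lit 0) (nat_lit 0) (XT.lf (nat_lit 0) (nat_lit 2659458737) (nat_lit 76) (nat_lit 24594185651) (nat_lit 76) (nat_lit 19469236665) (nat_lit 19) (nat_lit 4) (nat_lit 20) (nat_lit 5) (nat_lit 20) (nat_lit 4) (nat_lit 544) (nat_lit 357) (nat_lit 299)) (XT.nd (nat_lit 78) (nat_lit 0) (nat_lit 0) (XT.lf (nat_lit 0) (nat_lit 22388689494) (nat_lit 76) (nat_lit 15299719201) (nat_lit 76) (nat_lit 10141988046) (nat_lit 19) (nat_lit 4) (nat_lit 20) (nat_lit 5) (nat_lit 20) (nat_lit 4) (nat_lit 545) (nat_lit 357) (nat_lit 298)) (XT.lf (nat_lit 0) (nat_lit 42559887890) (nat_lit 76) (nat_lit 5801526398) (nat_lit 76) (nat_lit 611967895) (nat_lit 19) (nat_lit 4) (nat_lit 20) (nat_lit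 5) (nat_lit 20) (nat_lit 4) (nat_lit 546) (nat_lit 357) (nat_lit 297)))) (XT.nd (nat_lit 156) (nat_lit 76) (nat_lit 0) (XT.nd (nat_lit 78) (nat_lit 0) (nat_lit 0) (XT.lf (nat_lit 0) (nat_lit 9117668668) (nat_lit 152) (nat_lit 36978272953) (nat_lit 0) (nat_lit 4049262026) (nat_lit 17) (nat_lit 5) (nat_lit 19) (nat_lit 4) (nat_lit 17) (nat_lit 4) (nat_lit 547) (nat_lit 357) (nat_lit 296)) (XT.lf (nat_lit 0) (nat_lit 19176433612) (nat_lit 152) (nat_lit 18095177966) (nat_lit 0) (nat_lit 14078900438) (nat_lit 17) (nat_lit 5) (nat_lit 19) (nat_lit 4) (nat_lit 17) (nat_lit 4) (nat_lit 548) (nat_lit 357) (nat_lit 295))) (XT.nd (nat_lit 78) (nat_lit 0) (nat_lit 0) (XT.lf (nat_lit 0) (nat_lit 1235768103) (nat_lit 76) (nat_lit 28241900939) (nat_lit 76) (nat_lit 23116089579) (nat_lit 16) (nat_lit 4) (nat_lit 17) (nat_lit 5) (nat_lit 17) (nat_lit 4) (nat_lit 549) (nat_lit 357) (nat_lit 294)) (XT.lf (nat_lit 0) (nat_lit 21376219480)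 (nat_lit 76) (nat_lit 18823990600) (nat_lit 76) (nat_lit 13670724689) (nat_lit 16) (nat_lit 4) (nat_lit 17) (nat_lit 5) (nat_lit 17) (nat_lit 4) (nat_lit 550) (nat_lit 357) (nat_lit 293))))) (XT.nd (nat_lit 312) (nat_lit 76) (nat_lit 0) (XT.nd (nat_lit 156) (nat_lit 0) (nat_lit 0) (XT.nd (nat_lit 78) (nat_lit 152) (nat_lit 0) (XT.lf (nat_lit 0) (nat_lit 41983645094) (nat_lit 76) (nat_lit 9192377135) (nat_lit 76) (nat_lit 4012456321) (nat_lit 16) (nat_lit 4) (nat_lit 17) (nat_lit 5) (nat_lit 17) (nat_lit 4) (nat_lit 551) (nat_lit 357) (nat_lit 292)) (XT.lf (nat_lit 0) (nat_lit 5823661533) (nat_lit 152) (nat_lit 49950570445) (nat_lit 0) (nat_lit 769487396) (nat_lit 14) (nat_lit 5) (nat_lit 16) (nat_lit 4) (nat_lit 14) (nat_lit 4) (nat_lit 552) (nat_lit 357) (nat_lit 291))) (XT.nd (nat_lit 78) (nat_lit 0) (nat_lit 0) (XT.lf (nat_lit 0) (nat_lit 16032852694) (nat_lit 152) (nat_lit 30946528459) (nat_lit 0) (nat_lit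 10954285546) (nat_lit 14) (nat_lit 5) (nat_lit 16) (nat_lit 4) (nat_lit 14) (nat_lit 4) (nat_lit 553) (nat_lit 357) (nat_lit 290)) (XT.lf (nat_lit 0) (nat_lit 26483231612) (nat_lit 152) (nat_lit 11503051718) (nat_lit 0) (nat_lit 21380981927) (nat_lit 14) (nat_lit 5) (nat_lit 16) (nat_lit 4) (nat_lit 14) (nat_lit 4) (nat_lit 554) (nat_lit 357) (nat_lit 289)))) (XT.nd (nat_lit 57018) (nat_lit 0) (nat_lit 5168) (XT.nd (nat_lit 56940) (nat_lit 0) (nat_lit 5320) (XT.lf (nat_lit 0) (nat_lit 8563962988) (nat_lit 76) (nat_lit 28702288748) (nat_lit 76) (nat_lit 23577046310) (nat_lit 13) (nat_lit 4) (nat_lit 14) (nat_lit 5) (nat_lit 14) (nat_lit 4) (nat_lit 555) (nat_lit 357) (nat_lit 288)) (XT.lf (nat_lit 0) (nat_lit 771968740) (nat_lit 152) (nat_lit 3270317535) (nat_lit 152) (nat_lit 3270317535) (nat_lit 83) (nat_lit 4) (nat_lit 85) (nat_lit 5) (nat_lit 85) (nat_lit 4) (nat_lit 484) (nat_lit 358) (nat_lit 358))) (XT.nd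 (nat_lit 78) (nat_lit 0) (nat_lit 0) (XT.lf (nat_lit 0) (nat_lit 49943136) (nat_lit 76) (nat_lit 141492560) (nat_lit 152) (nat_lit 14660284424) (nat_lit 81) (nat_lit 5) (nat_lit 82) (nat_lit 5) (nat_lit 83) (nat_lit 4) (nat_lit 485) (nat_lit 358) (nat_lit 357)) (XT.lf (nat_lit 0) (nat_lit 7047732193) (nat_lit 152) (nat_lit 1634048798) (nat_lit 0) (nat_lit 6399694869) (nat_lit 81) (nat_lit 5) (nat_lit 83) (nat_lit 4) (nat_lit 81) (nat_lit 4) (nat_lit 486) (nat_lit 358) (nat_lit 356)))))) (XT.nd (nat_lit 624) (nat_lit 836) (nat_lit 0) (XT.nd (nat_lit 312) (nat_lit 456) (nat_lit 0) (XT.nd (nat_lit 156) (nat_lit 304) (nat_lit 0) (XT.nd (nat_lit 78) (nat_lit 152) (nat_lit 0) (XT.lf (nat_lit 0) (nat_lit 11899150933) (nat_lit 152) (nat_lit 2188799106) (nat_lit 152) (nat_lit 1230829541) (nat_lit 79) (nat_lit 4) (nat_lit 81) (nat_lit 5) (nat_lit 81) (nat_lit 4) (nat_lit 487) (nat_lit 358) (nat_lit 355)) (XT.lf (nat_lit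 0) (nat_lit 5684468369) (nat_lit 152) (nat_lit 5414180191) (nat_lit 0) (nat_lit 4462259966) (nat_lit 77) (nat_lit 5) (nat_lit 79) (nat_lit 4) (nat_lit 77) (nat_lit 4) (nat_lit 488) (nat_lit 358) (nat_lit 354))) (XT.nd (nat_lit 78) (nat_lit 152) (nat_lit 0) (XT.lf (nat_lit 0) (nat_lit 8246746242) (nat_lit 152) (nat_lit 4534534047) (nat_lit 152) (nat_lit 3028693738) (nat_lit 75) (nat_lit 4) (nat_lit 77) (nat_lit 5) (nat_lit 77) (nat_lit 4) (nat_lit 489) (nat_lit 358) (nat_lit 353)) (XT.lf (nat_lit 0) (nat_lit 3945478227) (nat_lit 152) (nat_lit 9903741826) (nat_lit 0) (nat_lit 2216147071) (nat_lit 73) (nat_lit 5) (nat_lit 75) (nat_lit 4) (nat_lit 73) (nat_lit 4) (nat_lit 490) (nat_lit 358) (nat_lit 352)))) (XT.nd (nat_lit 156) (nat_lit 152) (nat_lit 0) (XT.nd (nat_lit 78) (nat_lit 152) (nat_lit 0) (XT.lf (nat_lit 0) (nat_lit 3865547883) (nat_lit 152) (nat_lit 7225095847) (nat_lit 152) (nat_lit 5236201318) (nat_lit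 71) (nat_lit 4) (nat_lit 73) (nat_lit 5) (nat_lit 73) (nat_lit 4) (nat_lit 491) (nat_lit 358) (nat_lit 351)) (XT.lf (nat_lit 0) (nat_lit 1404838799) (nat_lit 76) (nat_lit 391090561) (nat_lit 152) (nat_lit 14800361775) (nat_lit 69) (nat_lit 5) (nat_lit 70) (nat_lit 5) (nat_lit 71) (nat_lit 4) (nat_lit 492) (nat_lit 358) (nat_lit 350))) (XT.nd (nat_lit 78) (nat_lit 152) (nat_lit 0) (XT.lf (nat_lit 0) (nat_lit 8988664727) (nat_lit 152) (nat_lit 1306457284) (nat_lit 0) (nat_lit 6575498536) (nat_lit 69) (nat_lit 5) (nat_lit 71) (nat_lit 4) (nat_lit 69) (nat_lit 4) (nat_lit 493) (nat_lit 358) (nat_lit 349)) (XT.lf (nat_lit 0) (nat_lit 12990511517) (nat_lit 152) (nat_lit 3403278338) (nat_lit 152) (nat_lit 759493452) (nat_lit 67) (nat_lit 4) (nat_lit 69) (nat_lit 5) (nat_lit 69) (nat_lit 4) (nat_lit 494) (nat_lit 358) (nat_lit 348))))) (XT.nd (nat_lit 312) (nat_lit 380) (nat_lit 0) (XT.nd (nat_lit 156) (nat_lit 228) (nat_lit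 0) (XT.nd (nat_lit 78) (nat_lit 76) (nat_lit 0) (XT.lf (nat_lit 0) (nat_lit 6463558178) (nat_lit 152) (nat_lit 7299118830) (nat_lit 0) (nat_lit 3679396497) (nat_lit 65) (nat_lit 5) (nat_lit 67) (nat_lit 4) (nat_lit 65) (nat_lit 4) (nat_lit 495) (nat_lit 358) (nat_lit 347)) (XT.lf (nat_lit 0) (nat_lit 7066590121) (nat_lit 76) (nat_lit 6833776891) (nat_lit 76) (nat_lit 3838566434) (nat_lit 64) (nat_lit 4) (nat_lit 65) (nat_lit 5) (nat_lit 65) (nat_lit 4) (nat_lit 496) (nat_lit 358) (nat_lit 346))) (XT.nd (nat_lit 78) (nat_lit 76) (nat_lit 0) (XT.lf (nat_lit 0) (nat_lit 3429040429) (nat_lit 152) (nat_lit 14293049168) (nat_lit 0) (nat_lit 322135400) (nat_lit 62) (nat_lit 5) (nat_lit 64) (nat_lit 4) (nat_lit 62) (nat_lit 4) (nat_lit 497) (nat_lit 358) (nat_lit 345)) (XT.lf (nat_lit 0) (nat_lit 111212349) (nat_lit 76) (nat_lit 10772491677) (nat_lit 76) (nat_lit 7472447121) (nat_lit 61) (nat_lit 4) (nat_lit 62) (nat_lit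 5) (nat_lit 62) (nat_lit 4) (nat_lit 498) (nat_lit 358) (nat_lit 344)))) (XT.nd (nat_lit 156) (nat_lit 228) (nat_lit 0) (XT.nd (nat_lit 78) (nat_lit 152) (nat_lit 0) (XT.lf (nat_lit 0) (nat_lit 14988139822) (nat_lit 76) (nat_lit 3588212478) (nat_lit 76) (nat_lit 100653819) (nat_lit 61) (nat_lit 4) (nat_lit 62) (nat_lit 5) (nat_lit 62) (nat_lit 4) (nat_lit 499) (nat_lit 358) (nat_lit 343)) (XT.lf (nat_lit 0) (nat_lit 7363591717) (nat_lit 152) (nat_lit 7840348296) (nat_lit 0) (nat_lit 3800862409) (nat_lit 59) (nat_lit 5) (nat_lit 61) (nat_lit 4) (nat_lit 59) (nat_lit 4) (nat_lit 500) (nat_lit 358) (nat_lit 342))) (XT.nd (nat_lit 78) (nat_lit 152) (nat_lit 0) (XT.lf (nat_lit 0) (nat_lit 7050514425) (nat_lit 76) (nat_lit 8012905243) (nat_lit 76) (nat_lit 4278573968) (nat_lit 58) (nat_lit 4) (nat_lit 59) (nat_lit 5) (nat_lit 59) (nat_lit 4) (nat_lit 501) (nat_lit 358) (nat_lit 341)) (XT.lf (nat_lit 0) (nat_lit 2632765673)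 (nat_lit 76) (nat_lit 585806149) (nat_lit 152) (nat_lit 16470433241) (nat_lit 56) (nat_lit 5) (nat_lit 57) (nat_lit 5) (nat_lit 58) (nat_lit 4) (nat_lit 502) (nat_lit 358) (nat_lit 340))))))) (XT.nd (nat_lit 1170) (nat_lit 988) (nat_lit 0) (XT.nd (nat_lit 546) (nat_lit 608) (nat_lit 0) (XT.nd (nat_lit 234) (nat_lit 304) (nat_lit 0) (XT.nd (nat_lit 78) (nat_lit 228) (nat_lit 0) (XT.lf (nat_lit 0) (nat_lit 10920939853) (nat_lit 152) (nat_lit 2145644096) (nat_lit 0) (nat_lit 6976584087) (nat_lit 56) (nat_lit 5) (nat_lit 58) (nat_lit 4) (nat_lit 56) (nat_lit 4) (nat_lit 503) (nat_lit 358) (nat_lit 339)) (XT.nd (nat_lit 78) (nat_lit 152) (nat_lit 0) (XT.lf (nat_lit 0) (nat_lit 13223589935) (nat_lit 76) (nat_lit 5640449579) (nat_lit 76) (nat_lit 1543627686) (nat_lit 55) (nat_lit 4) (nat_lit 56) (nat_lit 5) (nat_lit 56) (nat_lit 4) (nat_lit 504) (nat_lit 358) (nat_lit 338)) (XT.lf (nat_lit 0) (nat_lit 6137180134) (nat_lit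 152) (nat_lit 12628235639) (nat_lit 0) (nat_lit 2015969205) (nat_lit 53) (nat_lit 5) (nat_lit 55) (nat_lit 4) (nat_lit 53) (nat_lit 4) (nat_lit 505) (nat_lit 358) (nat_lit 337)))) (XT.nd (nat_lit 156) (nat_lit 152) (nat_lit 0) (XT.nd (nat_lit 78) (nat_lit 76) (nat_lit 0) (XT.lf (nat_lit 0) (nat_lit 2672747466) (nat_lit 76) (nat_lit 11376447072) (nat_lit 76) (nat_lit 7115708040) (nat_lit 52) (nat_lit 4) (nat_lit 53) (nat_lit 5) (nat_lit 53) (nat_lit 4) (nat_lit 506) (nat_lit 358) (nat_lit 336)) (XT.lf (nat_lit 0) (nat_lit 632051376) (nat_lit 152) (nat_lit 3113138915) (nat_lit 76) (nat_lit 17814376114) (nat_lit 51) (nat_lit 5) (nat_lit 53) (nat_lit 5) (nat_lit 52) (nat_lit 4) (nat_lit 507) (nat_lit 358) (nat_lit 335))) (XT.nd (nat_lit 78) (nat_lit 76) (nat_lit 0) (XT.lf (nat_lit 0) (nat_lit 8512036426) (nat_lit 152) (nat_lit 9334446748) (nat_lit 0) (nat_lit 4116189989) (nat_lit 50) (nat_lit 5) (nat_lit 52) (nat_lit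 4) (nat_lit 50) (nat_lit 4) (nat_lit 508) (nat_lit 358) (nat_lit 334)) (XT.lf (nat_lit 0) (nat_lit 6381462675) (nat_lit 76) (nat_lit 10257948502) (nat_lit 76) (nat_lit 5738133153) (nat_lit 49) (nat_lit 4) (nat_lit 50) (nat_lit 5) (nat_lit 50) (nat_lit 4) (nat_lit 509) (nat_lit 358) (nat_lit 333))))) (XT.nd (nat_lit 312) (nat_lit 228) (nat_lit 0) (XT.nd (nat_lit 156) (nat_lit 228) (nat_lit 0) (XT.nd (nat_lit 78) (nat_lit 76) (nat_lit 0) (XT.lf (nat_lit 0) (nat_lit 2138786750) (nat_lit 152) (nat_lit 298436412) (nat_lit 76) (nat_lit 20367720743) (nat_lit 48) (nat_lit 5) (nat_lit 50) (nat_lit 5) (nat_lit 49) (nat_lit 4) (nat_lit 510) (nat_lit 358) (nat_lit 332)) (XT.lf (nat_lit 0) (nat_lit 10228847627) (nat_lit 152) (nat_lit 7401473673) (nat_lit 0) (nat_lit 5610375680) (nat_lit 47) (nat_lit 5) (nat_lit 49) (nat_lit 4) (nat_lit 47) (nat_lit 4) (nat_lit 511) (nat_lit 358) (nat_lit 331))) (XT.nd (nat_lit 78) (nat_lit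 152) (nat_lit 0) (XT.lf (nat_lit 0) (nat_lit 8695447640) (nat_lit 76) (nat_lit 9861417447) (nat_lit 76) (nat_lit 5132800727) (nat_lit 46) (nat_lit 4) (nat_lit 47) (nat_lit 5) (nat_lit 47) (nat_lit 4) (nat_lit 512) (nat_lit 358) (nat_lit 330)) (XT.lf (nat_lit 0) (nat_lit 1040190557) (nat_lit 76) (nat_lit 1854264591) (nat_lit 152) (nat_lit 21257688083) (nat_lit 44) (nat_lit 5) (nat_lit 45) (nat_lit 5) (nat_lit 46) (nat_lit 4) (nat_lit 513) (nat_lit 358) (nat_lit 329)))) (XT.nd (nat_lit 156) (nat_lit 152) (nat_lit 0) (XT.nd (nat_lit 78) (nat_lit 76) (nat_lit 0) (XT.lf (nat_lit 0) (nat_lit 11158411729) (nat_lit 152) (nat_lit 7102686343) (nat_lit 0) (nat_lit 6362901626) (nat_lit 44) (nat_lit 5) (nat_lit 46) (nat_lit 4) (nat_lit 44) (nat_lit 4) (nat_lit 514) (nat_lit 358) (nat_lit 328)) (XT.lf (nat_lit 0) (nat_lit 9329226601) (nat_lit 76) (nat_lit 10337137980) (nat_lit 76) (nat_lit 5443765673) (nat_lit 43) (nat_lit 4)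 (nat_lit 44) (nat_lit 5) (nat_lit 44) (nat_lit 4) (nat_lit 515) (nat_lit 358) (nat_lit 327))) (XT.nd (nat_lit 78) (nat_lit 0) (nat_lit 0) (XT.lf (nat_lit 0) (nat_lit 552602868) (nat_lit 76) (nat_lit 2176947389) (nat_lit 152) (nat_lit 22881507025) (nat_lit 41) (nat_lit 5) (nat_lit 42) (nat_lit 5) (nat_lit 43) (nat_lit 4) (nat_lit 516) (nat_lit 358) (nat_lit 326)) (XT.lf (nat_lit 0) (nat_lit 11147659655) (nat_lit 152) (nat_lit 8759455456) (nat_lit 0) (nat_lit 6215010461) (nat_lit 41) (nat_lit 5) (nat_lit 43) (nat_lit 4) (nat_lit 41) (nat_lit 4) (nat_lit 517) (nat_lit 358) (nat_lit 325)))))) (XT.nd (nat_lit 624) (nat_lit 456) (nat_lit 0) (XT.nd (nat_lit 312) (nat_lit 228) (nat_lit 0) (XT.nd (nat_lit 156) (nat_lit 152) (nat_lit 0) (XT.nd (nat_lit 78) (nat_lit 76) (nat_lit 0) (XT.lf (nat_lit 0) (nat_lit 7946997789) (nat_lit 76) (nat_lit 11860722508) (nat_lit 76) (nat_lit 6841124014) (nat_lit 40) (nat_lit 4) (nat_lit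 41) (nat_lit 5) (nat_lit 41) (nat_lit 4) (nat_lit 518) (nat_lit 358) (nat_lit 324)) (XT.lf (nat_lit 0) (nat_lit 1487083009) (nat_lit 152) (nat_lit 2085236783) (nat_lit 76) (nat_lit 23619177151) (nat_lit 39) (nat_lit 5) (nat_lit 41) (nat_lit 5) (nat_lit 40) (nat_lit 4) (nat_lit 519) (nat_lit 358) (nat_lit 323))) (XT.nd (nat_lit 78) (nat_lit 76) (nat_lit 0) (XT.lf (nat_lit 0) (nat_lit 10015781408) (nat_lit 152) (nat_lit 12749116135) (nat_lit 0) (nat_lit 4980855828) (nat_lit 38) (nat_lit 5) (nat_lit 40) (nat_lit 4) (nat_lit 38) (nat_lit 4) (nat_lit 520) (nat_lit 358) (nat_lit 322)) (XT.lf (nat_lit 0) (nat_lit 4154275650) (nat_lit 76) (nat_lit 14637400626) (nat_lit 76) (nat_lit 9525221718) (nat_lit 37) (nat_lit 4) (nat_lit 38) (nat_lit 5) (nat_lit 38) (nat_lit 4) (nat_lit 521) (nat_lit 358) (nat_lit 321)))) (XT.nd (nat_lit 156) (nat_lit 76) (nat_lit 0) (XT.nd (nat_lit 78) (nat_lit 152) (nat_lit 0) (XT.lf (nat_lit 0)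 (nat_lit 21619243546) (nat_lit 76) (nat_lit 6236189278) (nat_lit 76) (nat_lit 1049007139) (nat_lit 37) (nat_lit 4) (nat_lit 38) (nat_lit 5) (nat_lit 38) (nat_lit 4) (nat_lit 522) (nat_lit 358) (nat_lit 320)) (XT.lf (nat_lit 0) (nat_lit 7549718678) (nat_lit 152) (nat_lit 19514209529) (nat_lit 0) (nat_lit 2442921775) (nat_lit 35) (nat_lit 5) (nat_lit 37) (nat_lit 4) (nat_lit 35) (nat_lit 4) (nat_lit 523) (nat_lit 358) (nat_lit 319))) (XT.nd (nat_lit 78) (nat_lit 76) (nat_lit 0) (XT.lf (nat_lit 0) (nat_lit 16419321004) (nat_lit 152) (nat_lit 2462794733) (nat_lit 0) (nat_lit 11243885520) (nat_lit 35) (nat_lit 5) (nat_lit 37) (nat_lit 4) (nat_lit 35) (nat_lit 4) (nat_lit 524) (nat_lit 358) (nat_lit 318)) (XT.lf (nat_lit 0) (nat_lit 15199712975) (nat_lit 76) (nat_lit 10402339124) (nat_lit 76) (nat_lit 5160264241) (nat_lit 34) (nat_lit 4) (nat_lit 35) (nat_lit 5) (nat_lit 35) (nat_lit 4) (nat_lit 525) (nat_lit 358) (nat_lit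 317))))) (XT.nd (nat_lit 312) (nat_lit 228) (nat_lit 0) (XT.nd (nat_lit 156) (nat_lit 76) (nat_lit 0) (XT.nd (nat_lit 78) (nat_lit 0) (nat_lit 0) (XT.lf (nat_lit 0) (nat_lit 1828944543) (nat_lit 76) (nat_lit 1686187413) (nat_lit 152) (nat_lit 27903228945) (nat_lit 32) (nat_lit 5) (nat_lit 33) (nat_lit 5) (nat_lit 34) (nat_lit 4) (nat_lit 526) (nat_lit 358) (nat_lit 316)) (XT.lf (nat_lit 0) (nat_lit 12476916389) (nat_lit 152) (nat_lit 12348018044) (nat_lit 0) (nat_lit 7263724784) (nat_lit 32) (nat_lit 5) (nat_lit 34) (nat_lit 4) (nat_lit 32) (nat_lit 4) (nat_lit 527) (nat_lit 358) (nat_lit 315))) (XT.nd (nat_lit 78) (nat_lit 0) (nat_lit 0) (XT.lf (nat_lit 0) (nat_lit 5306044766) (nat_lit 76) (nat_lit 16373136596) (nat_lit 76) (nat_lit 11100736748) (nat_lit 31) (nat_lit 4) (nat_lit 32) (nat_lit 5) (nat_lit 32) (nat_lit 4) (nat_lit 528) (nat_lit 358) (nat_lit 314)) (XT.lf (nat_lit 0) (nat_lit 23553305843) (nat_lit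 76) (nat_lit 7633802552) (nat_lit 76) (nat_lit 2303918972) (nat_lit 31) (nat_lit 4) (nat_lit 32) (nat_lit 5) (nat_lit 32) (nat_lit 4) (nat_lit 529) (nat_lit 358) (nat_lit 313)))) (XT.nd (nat_lit 156) (nat_lit 76) (nat_lit 0) (XT.nd (nat_lit 78) (nat_lit 0) (nat_lit 0) (XT.lf (nat_lit 0) (nat_lit 6622569484) (nat_lit 152) (nat_lit 26205282526) (nat_lit 0) (nat_lit 1393741303) (nat_lit 29) (nat_lit 5) (nat_lit 31) (nat_lit 4) (nat_lit 29) (nat_lit 4) (nat_lit 530) (nat_lit 358) (nat_lit 312)) (XT.lf (nat_lit 0) (nat_lit 15854296398) (nat_lit 152) (nat_lit 8543720927) (nat_lit 0) (nat_lit 10572862459) (nat_lit 29) (nat_lit 5) (nat_lit 31) (nat_lit 4) (nat_lit 29) (nat_lit 4) (nat_lit 531) (nat_lit 358) (nat_lit 311))) (XT.nd (nat_lit 78) (nat_lit 0) (nat_lit 0) (XT.lf (nat_lit 0) (nat_lit 9655572428) (nat_lit 76) (nat_lit 15709754860) (nat_lit 76) (nat_lit 10377247371) (nat_lit 28) (nat_lit 4) (nat_lit 29) (nat_lit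 5) (nat_lit 29) (nat_lit 4) (nat_lit 532) (nat_lit 358) (nat_lit 310)) (XT.lf (nat_lit 0) (nat_lit 28397222303) (nat_lit 76) (nat_lit 6761195028) (nat_lit 76) (nat_lit 1379101567) (nat_lit 28) (nat_lit 4) (nat_lit 29) (nat_lit 5) (nat_lit 29) (nat_lit 4) (nat_lit 533) (nat_lit 358) (nat_lit 309))))))))
noncomputable def xc21 : XT := (XT.nd (nat_lit 59124) (nat_lit 0) (nat_lit 1748) (XT.nd (nat_lit 1170) (nat_lit 228) (nat_lit 0) (XT.nd (nat_lit 546) (nat_lit 380) (nat_lit 0) (XT.nd (nat_lit 234) (nat_lit 228) (nat_lit 0) (XT.nd (nat_lit 78) (nat_lit 76) (nat_lit 0) (XT.lf (nat_lit 0) (nat_lit 7770700399) (nat_lit 152) (nat_lit 27083639355) (nat_lit 0) (nat_lit 2498627409) (nat_lit 26) (nat_lit 5) (nat_lit 28) (nat_lit 4) (nat_lit 26) (nat_lit 4) (nat_lit 534) (nat_lit 358) (nat_lit 308)) (XT.nd (nat_lit 78) (nat_lit 76) (nat_lit 0) (XT.lf (nat_lit 0) (nat_lit 17229491251) (nat_lit 152) (nat_lit 9049071851) (nat_lit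 0) (nat_lit 11912040072) (nat_lit 26) (nat_lit 5) (nat_lit 28) (nat_lit 4) (nat_lit 26) (nat_lit 4) (nat_lit 535) (nat_lit 358) (nat_lit 307)) (XT.lf (nat_lit 0) (nat_lit 9542491362) (nat_lit 76) (nat_lit 17436094351) (nat_lit 76) (nat_lit 12074586679) (nat_lit 25) (nat_lit 4) (nat_lit 26) (nat_lit 5) (nat_lit 26) (nat_lit 4) (nat_lit 536) (nat_lit 358) (nat_lit 306)))) (XT.nd (nat_lit 156) (nat_lit 76) (nat_lit 0) (XT.nd (nat_lit 78) (nat_lit 152) (nat_lit 0) (XT.lf (nat_lit 0) (nat_lit 28708717998) (nat_lit 76) (nat_lit 8318485232) (nat_lit 76) (nat_lit 2914204265) (nat_lit 25) (nat_lit 4) (nat_lit 26) (nat_lit 5) (nat_lit 26) (nat_lit 4) (nat_lit 537) (nat_lit 358) (nat_lit 305)) (XT.lf (nat_lit 0) (nat_lit 6394123637) (nat_lit 152) (nat_lit 33353343357) (nat_lit 0) (nat_lit 1106930980) (nat_lit 23) (nat_lit 5) (nat_lit 25) (nat_lit 4) (nat_lit 23) (nat_lit 4) (nat_lit 538) (nat_lit 358) (nat_lit 304))) (XT.nd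 (nat_lit 78) (nat_lit 76) (nat_lit 0) (XT.lf (nat_lit 0) (nat_lit 16037406674) (nat_lit 152) (nat_lit 15042007447) (nat_lit 0) (nat_lit 10711070393) (nat_lit 23) (nat_lit 5) (nat_lit 25) (nat_lit 4) (nat_lit 23) (nat_lit 4) (nat_lit 539) (nat_lit 358) (nat_lit 303)) (XT.lf (nat_lit 0) (nat_lit 3730924250) (nat_lit 76) (nat_lit 22194700195) (nat_lit 76) (nat_lit 16830360396) (nat_lit 22) (nat_lit 4) (nat_lit 23) (nat_lit 5) (nat_lit 23) (nat_lit 4) (nat_lit 540) (nat_lit 358) (nat_lit 302))))) (XT.nd (nat_lit 312) (nat_lit 228) (nat_lit 0) (XT.nd (nat_lit 156) (nat_lit 76) (nat_lit 0) (XT.nd (nat_lit 78) (nat_lit 76) (nat_lit 0) (XT.lf (nat_lit 0) (nat_lit 23216416243) (nat_lit 76) (nat_lit 12966548177) (nat_lit 76) (nat_lit 7565311758) (nat_lit 22) (nat_lit 4) (nat_lit 23) (nat_lit 5) (nat_lit 23) (nat_lit 4) (nat_lit 541) (nat_lit 358) (nat_lit 301)) (XT.lf (nat_lit 0) (nat_lit 1861226899) (nat_lit 152) (nat_lit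 1658767772) (nat_lit 76) (nat_lit 41252107607) (nat_lit 21) (nat_lit 5) (nat_lit 23) (nat_lit 5) (nat_lit 22) (nat_lit 4) (nat_lit 542) (nat_lit 358) (nat_lit 300))) (XT.nd (nat_lit 78) (nat_lit 0) (nat_lit 0) (XT.lf (nat_lit 0) (nat_lit 11576416771) (nat_lit 152) (nat_lit 27979288524) (nat_lit 0) (nat_lit 6263953682) (nat_lit 20) (nat_lit 5) (nat_lit 22) (nat_lit 4) (nat_lit 20) (nat_lit 4) (nat_lit 543) (nat_lit 358) (nat_lit 299)) (XT.lf (nat_lit 0) (nat_lit 21559268477) (nat_lit 152) (nat_lit 9126064739) (nat_lit 0) (nat_lit 16214023219) (nat_lit 20) (nat_lit 5) (nat_lit 22) (nat_lit 4) (nat_lit 20) (nat_lit 4) (nat_lit 544) (nat_lit 358) (nat_lit 298)))) (XT.nd (nat_lit 156) (nat_lit 152) (nat_lit 0) (XT.nd (nat_lit 78) (nat_lit 0) (nat_lit 0) (XT.lf (nat_lit 0) (nat_lit 10347692496) (nat_lit 76) (nat_lit 21520020964) (nat_lit 76) (nat_lit 16142948357) (nat_lit 19) (nat_lit 4) (nat_lit 20) (nat_lit 5) (nat_lit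 20) (nat_lit 4) (nat_lit 545) (nat_lit 358) (nat_lit 297)) (XT.lf (nat_lit 0) (nat_lit 30447194836) (nat_lit 76) (nat_lit 12057749362) (nat_lit 76) (nat_lit 6649776418) (nat_lit 19) (nat_lit 4) (nat_lit 20) (nat_lit 5) (nat_lit 20) (nat_lit 4) (nat_lit 546) (nat_lit 358) (nat_lit 296))) (XT.nd (nat_lit 78) (nat_lit 0) (nat_lit 0) (XT.lf (nat_lit 0) (nat_lit 656602429) (nat_lit 76) (nat_lit 2345651610) (nat_lit 152) (nat_lit 47331892083) (nat_lit 17) (nat_lit 5) (nat_lit 18) (nat_lit 5) (nat_lit 19) (nat_lit 4) (nat_lit 547) (nat_lit 358) (nat_lit 295)) (XT.lf (nat_lit 0) (nat_lit 13003411333) (nat_lit 152) (nat_lit 30842224048) (nat_lit 0) (nat_lit 7695547445) (nat_lit 17) (nat_lit 5) (nat_lit 19) (nat_lit 4) (nat_lit 17) (nat_lit 4) (nat_lit 548) (nat_lit 358) (nat_lit 294)))))) (XT.nd (nat_lit 57330) (nat_lit 0) (nat_lit 4484) (XT.nd (nat_lit 312) (nat_lit 152) (nat_lit 0) (XT.nd (nat_lit 156) (nat_lit 0) (nat_lit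 0) (XT.nd (nat_lit 78) (nat_lit 76) (nat_lit 0) (XT.lf (nat_lit 0) (nat_lit 23258729150) (nat_lit 152) (nat_lit 11603667195) (nat_lit 0) (nat_lit 17923410712) (nat_lit 17) (nat_lit 5) (nat_lit 19) (nat_lit 4) (nat_lit 17) (nat_lit 4) (nat_lit 549) (nat_lit 358) (nat_lit 293)) (XT.lf (nat_lit 0) (nat_lit 8238242883) (nat_lit 76) (nat_lit 25595568758) (nat_lit 76) (nat_lit 20233595417) (nat_lit 16) (nat_lit 4) (nat_lit 17) (nat_lit 5) (nat_lit 17) (nat_lit 4) (nat_lit 550) (nat_lit 358) (nat_lit 292))) (XT.nd (nat_lit 78) (nat_lit 0) (nat_lit 0) (XT.lf (nat_lit 0) (nat_lit 28780032022) (nat_lit 76) (nat_lit 15996876134) (nat_lit 76) (nat_lit 10609024246) (nat_lit 16) (nat_lit 4) (nat_lit 17) (nat_lit 5) (nat_lit 17) (nat_lit 4) (nat_lit 551) (nat_lit 358) (nat_lit 291)) (XT.lf (nat_lit 0) (nat_lit 49808713629) (nat_lit 76) (nat_lit 6175105552) (nat_lit 76) (nat_lit 762128861) (nat_lit 16) (nat_lit 4) (nat_lit 17)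 (nat_lit 5) (nat_lit 17) (nat_lit 4) (nat_lit 552) (nat_lit 358) (nat_lit 290)))) (XT.nd (nat_lit 156) (nat_lit 0) (nat_lit 0) (XT.nd (nat_lit 78) (nat_lit 0) (nat_lit 0) (XT.lf (nat_lit 0) (nat_lit 9301826753) (nat_lit 152) (nat_lit 44816264662) (nat_lit 0) (nat_lit 4022827042) (nat_lit 14) (nat_lit 5) (nat_lit 16) (nat_lit 4) (nat_lit 14) (nat_lit 4) (nat_lit 553) (nat_lit 358) (nat_lit 289)) (XT.lf (nat_lit 0) (nat_lit 19721076503) (nat_lit 152) (nat_lit 25435290433) (nat_lit 0) (nat_lit 14419084038) (nat_lit 14) (nat_lit 5) (nat_lit 16) (nat_lit 4) (nat_lit 14) (nat_lit 4) (nat_lit 554) (nat_lit 358) (nat_lit 288))) (XT.nd (nat_lit 56784) (nat_lit 0) (nat_lit 5548) (XT.lf (nat_lit 0) (nat_lit 30391552082) (nat_lit 152) (nat_lit 5596071541) (nat_lit 0) (nat_lit 25067236556) (nat_lit 14) (nat_lit 5) (nat_lit 16) (nat_lit 4) (nat_lit 14) (nat_lit 4) (nat_lit 555) (nat_lit 358) (nat_lit 287)) (XT.lf (nat_lit 0)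 (nat_lit 2153781424) (nat_lit 152) (nat_lit 2470337605) (nat_lit 152) (nat_lit 2470337605) (nat_lit 87) (nat_lit 4) (nat_lit 89) (nat_lit 5) (nat_lit 89) (nat_lit 4) (nat_lit 482) (nat_lit 359) (nat_lit 359))))) (XT.nd (nat_lit 312) (nat_lit 608) (nat_lit 0) (XT.nd (nat_lit 156) (nat_lit 152) (nat_lit 0) (XT.nd (nat_lit 78) (nat_lit 152) (nat_lit 0) (XT.lf (nat_lit 0) (nat_lit 1649933800) (nat_lit 152) (nat_lit 11454918509) (nat_lit 0) (nat_lit 1301102332) (nat_lit 85) (nat_lit 5) (nat_lit 87) (nat_lit 4) (nat_lit 85) (nat_lit 4) (nat_lit 483) (nat_lit 359) (nat_lit 358)) (XT.lf (nat_lit 0) (nat_lit 1413423992) (nat_lit 152) (nat_lit 6950683278) (nat_lit 152) (nat_lit 6263180481) (nat_lit 83) (nat_lit 4) (nat_lit 85) (nat_lit 5) (nat_lit 85) (nat_lit 4) (nat_lit 484) (nat_lit 359) (nat_lit 357))) (XT.nd (nat_lit 78) (nat_lit 76) (nat_lit 0) (XT.lf (nat_lit 0) (nat_lit 395050377) (nat_lit 228) (nat_lit 214357646)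 (nat_lit 76) (nat_lit 14246366144) (nat_lit 82) (nat_lit 5) (nat_lit 85) (nat_lit 5) (nat_lit 83) (nat_lit 4) (nat_lit 485) (nat_lit 359) (nat_lit 356)) (XT.lf (nat_lit 0) (nat_lit 7176967823) (nat_lit 152) (nat_lit 2030467650) (nat_lit 0) (nat_lit 5880326929) (nat_lit 81) (nat_lit 5) (nat_lit 83) (nat_lit 4) (nat_lit 81) (nat_lit 4) (nat_lit 486) (nat_lit 359) (nat_lit 355)))) (XT.nd (nat_lit 156) (nat_lit 304) (nat_lit 0) (XT.nd (nat_lit 78) (nat_lit 152) (nat_lit 0) (XT.lf (nat_lit 0) (nat_lit 11367846421) (nat_lit 152) (nat_lit 2778446773) (nat_lit 152) (nat_lit 1180900790) (nat_lit 79) (nat_lit 4) (nat_lit 81) (nat_lit 5) (nat_lit 81) (nat_lit 4) (nat_lit 487) (nat_lit 359) (nat_lit 354)) (XT.lf (nat_lit 0) (nat_lit 5654911536) (nat_lit 152) (nat_lit 6096489250) (nat_lit 0) (nat_lit 3820264113) (nat_lit 77) (nat_lit 5) (nat_lit 79) (nat_lit 4) (nat_lit 77) (nat_lit 4) (nat_lit 488) (nat_lit 359) (nat_lit 353)))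 (XT.nd (nat_lit 78) (nat_lit 152) (nat_lit 0) (XT.lf (nat_lit 0) (nat_lit 7423601827) (nat_lit 152) (nat_lit 5254675579) (nat_lit 152) (nat_lit 3144657373) (nat_lit 75) (nat_lit 4) (nat_lit 77) (nat_lit 5) (nat_lit 77) (nat_lit 4) (nat_lit 489) (nat_lit 359) (nat_lit 352)) (XT.lf (nat_lit 0) (nat_lit 3749314577) (nat_lit 152) (nat_lit 10890331727) (nat_lit 0) (nat_lit 1441189840) (nat_lit 73) (nat_lit 5) (nat_lit 75) (nat_lit 4) (nat_lit 73) (nat_lit 4) (nat_lit 490) (nat_lit 359) (nat_lit 351))))))) (XT.nd (nat_lit 1248) (nat_lit 1216) (nat_lit 0) (XT.nd (nat_lit 624) (nat_lit 684) (nat_lit 0) (XT.nd (nat_lit 312) (nat_lit 380) (nat_lit 0) (XT.nd (nat_lit 156) (nat_lit 152) (nat_lit 0) (XT.nd (nat_lit 78) (nat_lit 152) (nat_lit 0) (XT.lf (nat_lit 0) (nat_lit 2731828975) (nat_lit 152) (nat_lit 8086450025) (nat_lit 152) (nat_lit 5526322012) (nat_lit 71) (nat_lit 4) (nat_lit 73) (nat_lit 5) (nat_lit 73) (nat_lit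 4) (nat_lit 491) (nat_lit 359) (nat_lit 350)) (XT.lf (nat_lit 0) (nat_lit 105722701) (nat_lit 76) (nat_lit 1328028080) (nat_lit 152) (nat_lit 15182712419) (nat_lit 69) (nat_lit 5) (nat_lit 70) (nat_lit 5) (nat_lit 71) (nat_lit 4) (nat_lit 492) (nat_lit 359) (nat_lit 349))) (XT.nd (nat_lit 78) (nat_lit 152) (nat_lit 0) (XT.lf (nat_lit 0) (nat_lit 8552387502) (nat_lit 152) (nat_lit 2741958532) (nat_lit 0) (nat_lit 5598670374) (nat_lit 69) (nat_lit 5) (nat_lit 71) (nat_lit 4) (nat_lit 69) (nat_lit 4) (nat_lit 493) (nat_lit 359) (nat_lit 348)) (XT.lf (nat_lit 0) (nat_lit 11402449121) (nat_lit 152) (nat_lit 4476601741) (nat_lit 152) (nat_lit 1298982968) (nat_lit 67) (nat_lit 4) (nat_lit 69) (nat_lit 5) (nat_lit 69) (nat_lit 4) (nat_lit 494) (nat_lit 359) (nat_lit 347)))) (XT.nd (nat_lit 156) (nat_lit 152) (nat_lit 0) (XT.nd (nat_lit 78) (nat_lit 76) (nat_lit 0) (XT.lf (nat_lit 0) (nat_lit 5843410889) (nat_lit 152) (nat_lit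 9079009692) (nat_lit 0) (nat_lit 2547295343) (nat_lit 65) (nat_lit 5) (nat_lit 67) (nat_lit 4) (nat_lit 65) (nat_lit 4) (nat_lit 495) (nat_lit 359) (nat_lit 346)) (XT.lf (nat_lit 0) (nat_lit 5127090675) (nat_lit 76) (nat_lit 8071476391) (nat_lit 76) (nat_lit 4570459121) (nat_lit 64) (nat_lit 4) (nat_lit 65) (nat_lit 5) (nat_lit 65) (nat_lit 4) (nat_lit 496) (nat_lit 359) (nat_lit 345))) (XT.nd (nat_lit 78) (nat_lit 0) (nat_lit 0) (XT.lf (nat_lit 0) (nat_lit 1628567000) (nat_lit 76) (nat_lit 996318704) (nat_lit 152) (nat_lit 15452240112) (nat_lit 62) (nat_lit 5) (nat_lit 63) (nat_lit 5) (nat_lit 64) (nat_lit 4) (nat_lit 497) (nat_lit 359) (nat_lit 344)) (XT.lf (nat_lit 0) (nat_lit 10006065476) (nat_lit 152) (nat_lit 2158825731) (nat_lit 0) (nat_lit 6226365954) (nat_lit 62) (nat_lit 5) (nat_lit 64) (nat_lit 4) (nat_lit 62) (nat_lit 4) (nat_lit 498) (nat_lit 359) (nat_lit 343))))) (XT.nd (nat_lit 312) (nat_lit 304)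 (nat_lit 0) (XT.nd (nat_lit 156) (nat_lit 152) (nat_lit 0) (XT.nd (nat_lit 78) (nat_lit 152) (nat_lit 0) (XT.lf (nat_lit 0) (nat_lit 12554396819) (nat_lit 76) (nat_lit 5060984005) (nat_lit 76) (nat_lit 1099231955) (nat_lit 61) (nat_lit 4) (nat_lit 62) (nat_lit 5) (nat_lit 62) (nat_lit 4) (nat_lit 499) (nat_lit 359) (nat_lit 342)) (XT.lf (nat_lit 0) (nat_lit 6283192780) (nat_lit 152) (nat_lit 10497314493) (nat_lit 0) (nat_lit 2265229599) (nat_lit 59) (nat_lit 5) (nat_lit 61) (nat_lit 4) (nat_lit 59) (nat_lit 4) (nat_lit 500) (nat_lit 359) (nat_lit 341))) (XT.nd (nat_lit 78) (nat_lit 76) (nat_lit 0) (XT.lf (nat_lit 0) (nat_lit 4219772076) (nat_lit 76) (nat_lit 9675182810) (nat_lit 76) (nat_lit 5490615778) (nat_lit 58) (nat_lit 4) (nat_lit 59) (nat_lit 5) (nat_lit 59) (nat_lit 4) (nat_lit 501) (nat_lit 359) (nat_lit 340)) (XT.lf (nat_lit 0) (nat_lit 1944066007) (nat_lit 152) (nat_lit 399864349) (nat_lit 76) (nat_lit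 17391585290) (nat_lit 57) (nat_lit 5) (nat_lit 59) (nat_lit 5) (nat_lit 58) (nat_lit 4) (nat_lit 502) (nat_lit 359) (nat_lit 339)))) (XT.nd (nat_lit 156) (nat_lit 152) (nat_lit 0) (XT.nd (nat_lit 78) (nat_lit 76) (nat_lit 0) (XT.lf (nat_lit 0) (nat_lit 9564859200) (nat_lit 152) (nat_lit 5334600690) (nat_lit 0) (nat_lit 5192666526) (nat_lit 56) (nat_lit 5) (nat_lit 58) (nat_lit 4) (nat_lit 56) (nat_lit 4) (nat_lit 503) (nat_lit 359) (nat_lit 338)) (XT.lf (nat_lit 0) (nat_lit 9853651098) (nat_lit 76) (nat_lit 7562966646) (nat_lit 76) (nat_lit 3042748607) (nat_lit 55) (nat_lit 4) (nat_lit 56) (nat_lit 5) (nat_lit 56) (nat_lit 4) (nat_lit 504) (nat_lit 359) (nat_lit 337))) (XT.nd (nat_lit 78) (nat_lit 0) (nat_lit 0) (XT.lf (nat_lit 0) (nat_lit 4554366397) (nat_lit 152) (nat_lit 16256261841) (nat_lit 0) (nat_lit 26277091) (nat_lit 53) (nat_lit 5) (nat_lit 55) (nat_lit 4) (nat_lit 53) (nat_lit 4) (nat_lit 505) (nat_lit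 359) (nat_lit 336)) (XT.lf (nat_lit 0) (nat_lit 12381865368) (nat_lit 152) (nat_lit 1122781632) (nat_lit 0) (nat_lit 7718311884) (nat_lit 53) (nat_lit 5) (nat_lit 55) (nat_lit 4) (nat_lit 53) (nat_lit 4) (nat_lit 506) (nat_lit 359) (nat_lit 335)))))) (XT.nd (nat_lit 624) (nat_lit 532) (nat_lit 0) (XT.nd (nat_lit 312) (nat_lit 304) (nat_lit 0) (XT.nd (nat_lit 156) (nat_lit 152) (nat_lit 0) (XT.nd (nat_lit 78) (nat_lit 152) (nat_lit 0) (XT.lf (nat_lit 0) (nat_lit 14520718210) (nat_lit 76) (nat_lit 5947119724) (nat_lit 76) (nat_lit 1152047620) (nat_lit 52) (nat_lit 4) (nat_lit 53) (nat_lit 5) (nat_lit 53) (nat_lit 4) (nat_lit 507) (nat_lit 359) (nat_lit 334)) (XT.lf (nat_lit 0) (nat_lit 6631076098) (nat_lit 152) (nat_lit 13544131769) (nat_lit 0) (nat_lit 1851697376) (nat_lit 50) (nat_lit 5) (nat_lit 52) (nat_lit 4) (nat_lit 50) (nat_lit 4) (nat_lit 508) (nat_lit 359) (nat_lit 333))) (XT.nd (nat_lit 78) (nat_lit 76)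 (nat_lit 0) (XT.lf (nat_lit 0) (nat_lit 1973665957) (nat_lit 76) (nat_lit 12685414446) (nat_lit 76) (nat_lit 7785677557) (nat_lit 49) (nat_lit 4) (nat_lit 50) (nat_lit 5) (nat_lit 50) (nat_lit 4) (nat_lit 509) (nat_lit 359) (nat_lit 332)) (XT.lf (nat_lit 0) (nat_lit 74231595) (nat_lit 152) (nat_lit 4865899340) (nat_lit 76) (nat_lit 17934326450) (nat_lit 48) (nat_lit 5) (nat_lit 50) (nat_lit 5) (nat_lit 49) (nat_lit 4) (nat_lit 510) (nat_lit 359) (nat_lit 331)))) (XT.nd (nat_lit 156) (nat_lit 152) (nat_lit 0) (XT.nd (nat_lit 78) (nat_lit 76) (nat_lit 0) (XT.lf (nat_lit 0) (nat_lit 8038111282) (nat_lit 152) (nat_lit 12218393726) (nat_lit 0) (nat_lit 3057491286) (nat_lit 47) (nat_lit 5) (nat_lit 49) (nat_lit 4) (nat_lit 47) (nat_lit 4) (nat_lit 511) (nat_lit 359) (nat_lit 330)) (XT.lf (nat_lit 0) (nat_lit 3671559806) (nat_lit 76) (nat_lit 12591034210) (nat_lit 76) (nat_lit 7503477542) (nat_lit 46) (nat_lit 4) (nat_lit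 47) (nat_lit 5) (nat_lit 47) (nat_lit 4) (nat_lit 512) (nat_lit 359) (nat_lit 329))) (XT.nd (nat_lit 78) (nat_lit 76) (nat_lit 0) (XT.lf (nat_lit 0) (nat_lit 504828251) (nat_lit 152) (nat_lit 4166577330) (nat_lit 76) (nat_lit 19559783726) (nat_lit 45) (nat_lit 5) (nat_lit 47) (nat_lit 5) (nat_lit 46) (nat_lit 4) (nat_lit 513) (nat_lit 359) (nat_lit 328)) (XT.lf (nat_lit 0) (nat_lit 8645298940) (nat_lit 152) (nat_lit 12554188507) (nat_lit 0) (nat_lit 3507263259) (nat_lit 44) (nat_lit 5) (nat_lit 46) (nat_lit 4) (nat_lit 44) (nat_lit 4) (nat_lit 514) (nat_lit 359) (nat_lit 327))))) (XT.nd (nat_lit 312) (nat_lit 228) (nat_lit 0) (XT.nd (nat_lit 156) (nat_lit 152) (nat_lit 0) (XT.nd (nat_lit 78) (nat_lit 76) (nat_lit 0) (XT.lf (nat_lit 0) (nat_lit 3661273516) (nat_lit 76) (nat_lit 13383948260) (nat_lit 76) (nat_lit 8150900730) (nat_lit 43) (nat_lit 4) (nat_lit 44) (nat_lit 5) (nat_lit 44) (nat_lit 4) (nat_lit 515)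 (nat_lit 359) (nat_lit 326)) (XT.lf (nat_lit 0) (nat_lit 16410085) (nat_lit 152) (nat_lit 5291979570) (nat_lit 76) (nat_lit 20391205816) (nat_lit 42) (nat_lit 5) (nat_lit 44) (nat_lit 5) (nat_lit 43) (nat_lit 4) (nat_lit 516) (nat_lit 359) (nat_lit 325))) (XT.nd (nat_lit 78) (nat_lit 76) (nat_lit 0) (XT.lf (nat_lit 0) (nat_lit 8298555619) (nat_lit 152) (nat_lit 14874767505) (nat_lit 0) (nat_lit 3041419868) (nat_lit 41) (nat_lit 5) (nat_lit 43) (nat_lit 4) (nat_lit 41) (nat_lit 4) (nat_lit 517) (nat_lit 359) (nat_lit 324)) (XT.lf (nat_lit 0) (nat_lit 1605088350) (nat_lit 76) (nat_lit 15240656192) (nat_lit 76) (nat_lit 9899103644) (nat_lit 40) (nat_lit 4) (nat_lit 41) (nat_lit 5) (nat_lit 41) (nat_lit 4) (nat_lit 518) (nat_lit 359) (nat_lit 323)))) (XT.nd (nat_lit 156) (nat_lit 76) (nat_lit 0) (XT.nd (nat_lit 78) (nat_lit 152) (nat_lit 0) (XT.lf (nat_lit 0) (nat_lit 18677531723) (nat_lit 76) (nat_lit 7017729332)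 (nat_lit 76) (nat_lit 1594218729) (nat_lit 40) (nat_lit 4) (nat_lit 41) (nat_lit 5) (nat_lit 41) (nat_lit 4) (nat_lit 519) (nat_lit 359) (nat_lit 322)) (XT.lf (nat_lit 0) (nat_lit 6816009557) (nat_lit 152) (nat_lit 19559462090) (nat_lit 0) (nat_lit 1473211955) (nat_lit 38) (nat_lit 5) (nat_lit 40) (nat_lit 4) (nat_lit 38) (nat_lit 4) (nat_lit 520) (nat_lit 359) (nat_lit 321))) (XT.nd (nat_lit 78) (nat_lit 76) (nat_lit 0) (XT.lf (nat_lit 0) (nat_lit 15501642081) (nat_lit 152) (nat_lit 2837053040) (nat_lit 0) (nat_lit 10083841247) (nat_lit 38) (nat_lit 5) (nat_lit 40) (nat_lit 4) (nat_lit 38) (nat_lit 4) (nat_lit 521) (nat_lit 359) (nat_lit 320)) (XT.lf (nat_lit 0) (nat_lit 14472513669) (nat_lit 76) (nat_lit 10015256643) (nat_lit 76) (nat_lit 4524637138) (nat_lit 37) (nat_lit 4) (nat_lit 38) (nat_lit 5) (nat_lit 38) (nat_lit 4) (nat_lit 522) (nat_lit 359) (nat_lit 319))))))))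
noncomputable def xc22 : XT := (XT.nd (nat_lit 2418) (nat_lit 76) (nat_lit 0) (XT.nd (nat_lit 1170) (nat_lit 760) (nat_lit 0) (XT.nd (nat_lit 546) (nat_lit 456) (nat_lit 0) (XT.nd (nat_lit 234) (nat_lit 228) (nat_lit 0) (XT.nd (nat_lit 78) (nat_lit 76) (nat_lit 0) (XT.lf (nat_lit 0) (nat_lit 2553343970) (nat_lit 76) (nat_lit 1444026085) (nat_lit 152) (nat_lit 25622786179) (nat_lit 35) (nat_lit 5) (nat_lit 36) (nat_lit 5) (nat_lit 37) (nat_lit 4) (nat_lit 523) (nat_lit 359) (nat_lit 318)) (XT.nd (nat_lit 78) (nat_lit 76) (nat_lit 0) (XT.lf (nat_lit 0) (nat_lit 12804289431) (nat_lit 152) (nat_lit 10098585906) (nat_lit 0) (nat_lit 7338312903) (nat_lit 35) (nat_lit 5) (nat_lit 37) (nat_lit 4) (nat_lit 35) (nat_lit 4) (nat_lit 524) (nat_lit 359) (nat_lit 317)) (XT.lf (nat_lit 0) (nat_lit 7315836946) (nat_lit 76) (nat_lit 14548018272) (nat_lit 76) (nat_lit 9017343298) (nat_lit 34) (nat_lit 4) (nat_lit 35) (nat_lit 5)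 (nat_lit 35) (nat_lit 4) (nat_lit 525) (nat_lit 359) (nat_lit 316)))) (XT.nd (nat_lit 156) (nat_lit 76) (nat_lit 0) (XT.nd (nat_lit 78) (nat_lit 152) (nat_lit 0) (XT.lf (nat_lit 0) (nat_lit 25270267859) (nat_lit 76) (nat_lit 5931713747) (nat_lit 76) (nat_lit 338224748) (nat_lit 34) (nat_lit 4) (nat_lit 35) (nat_lit 5) (nat_lit 35) (nat_lit 4) (nat_lit 526) (nat_lit 359) (nat_lit 315)) (XT.lf (nat_lit 0) (nat_lit 8479943937) (nat_lit 152) (nat_lit 20745001106) (nat_lit 0) (nat_lit 2990163851) (nat_lit 32) (nat_lit 5) (nat_lit 34) (nat_lit 4) (nat_lit 32) (nat_lit 4) (nat_lit 527) (nat_lit 359) (nat_lit 314))) (XT.nd (nat_lit 78) (nat_lit 76) (nat_lit 0) (XT.lf (nat_lit 0) (nat_lit 17585255869) (nat_lit 152) (nat_lit 3286028665) (nat_lit 0) (nat_lit 12037992051) (nat_lit 32) (nat_lit 5) (nat_lit 34) (nat_lit 4) (nat_lit 32) (nat_lit 4) (nat_lit 528) (nat_lit 359) (nat_lit 313)) (XT.lf (nat_lit 0) (nat_lit 14805181226)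 (nat_lit 76) (nat_lit 12210304500) (nat_lit 76) (nat_lit 6607231234) (nat_lit 31) (nat_lit 4) (nat_lit 32) (nat_lit 5) (nat_lit 32) (nat_lit 4) (nat_lit 529) (nat_lit 359) (nat_lit 312))))) (XT.nd (nat_lit 312) (nat_lit 228) (nat_lit 0) (XT.nd (nat_lit 156) (nat_lit 76) (nat_lit 0) (XT.nd (nat_lit 78) (nat_lit 76) (nat_lit 0) (XT.lf (nat_lit 0) (nat_lit 2267779344) (nat_lit 152) (nat_lit 1053665126) (nat_lit 76) (nat_lit 31037143139) (nat_lit 30) (nat_lit 5) (nat_lit 32) (nat_lit 5) (nat_lit 31) (nat_lit 4) (nat_lit 530) (nat_lit 359) (nat_lit 311)) (XT.lf (nat_lit 0) (nat_lit 11412583070) (nat_lit 152) (nat_lit 17828872084) (nat_lit 0) (nat_lit 5869026806) (nat_lit 29) (nat_lit 5) (nat_lit 31) (nat_lit 4) (nat_lit 29) (nat_lit 4) (nat_lit 531) (nat_lit 359) (nat_lit 310))) (XT.nd (nat_lit 78) (nat_lit 0) (nat_lit 0) (XT.lf (nat_lit 0) (nat_lit 97569352) (nat_lit 76) (nat_lit 20690902087) (nat_lit 76) (nat_lit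 15097759851) (nat_lit 28) (nat_lit 4) (nat_lit 29) (nat_lit 5) (nat_lit 29) (nat_lit 4) (nat_lit 532) (nat_lit 359) (nat_lit 309)) (XT.lf (nat_lit 0) (nat_lit 18753724854) (nat_lit 76) (nat_lit 11785009805) (nat_lit 76) (nat_lit 6143725849) (nat_lit 28) (nat_lit 4) (nat_lit 29) (nat_lit 5) (nat_lit 29) (nat_lit 4) (nat_lit 533) (nat_lit 359) (nat_lit 308)))) (XT.nd (nat_lit 156) (nat_lit 76) (nat_lit 0) (XT.nd (nat_lit 78) (nat_lit 0) (nat_lit 0) (XT.lf (nat_lit 0) (nat_lit 272514158) (nat_lit 76) (nat_lit 2663711284) (nat_lit 152) (nat_lit 34567942281) (nat_lit 26) (nat_lit 5) (nat_lit 27) (nat_lit 5) (nat_lit 28) (nat_lit 4) (nat_lit 534) (nat_lit 359) (nat_lit 307)) (XT.lf (nat_lit 0) (nat_lit 12327446352) (nat_lit 152) (nat_lit 19255347682) (nat_lit 0) (nat_lit 6761036957) (nat_lit 26) (nat_lit 5) (nat_lit 28) (nat_lit 4) (nat_lit 26) (nat_lit 4) (nat_lit 535) (nat_lit 359) (nat_lit 306))) (XT.nd (nat_lit 78)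 (nat_lit 76) (nat_lit 0) (XT.lf (nat_lit 0) (nat_lit 21944070106) (nat_lit 152) (nat_lit 931416964) (nat_lit 0) (nat_lit 16334887415) (nat_lit 26) (nat_lit 5) (nat_lit 28) (nat_lit 4) (nat_lit 26) (nat_lit 4) (nat_lit 536) (nat_lit 359) (nat_lit 305)) (XT.lf (nat_lit 0) (nat_lit 18135646803) (nat_lit 76) (nat_lit 13807578483) (nat_lit 76) (nat_lit 8156868322) (nat_lit 25) (nat_lit 4) (nat_lit 26) (nat_lit 5) (nat_lit 26) (nat_lit 4) (nat_lit 537) (nat_lit 359) (nat_lit 304)))))) (XT.nd (nat_lit 624) (nat_lit 380) (nat_lit 0) (XT.nd (nat_lit 312) (nat_lit 152) (nat_lit 0) (XT.nd (nat_lit 156) (nat_lit 76) (nat_lit 0) (XT.nd (nat_lit 78) (nat_lit 76) (nat_lit 0) (XT.lf (nat_lit 0) (nat_lit 1131154460) (nat_lit 152) (nat_lit 3394784538) (nat_lit 76) (nat_lit 36492335353) (nat_lit 24) (nat_lit 5) (nat_lit 26) (nat_lit 5) (nat_lit 25) (nat_lit 4) (nat_lit 538) (nat_lit 359) (nat_lit 303)) (XT.lf (nat_lit 0) (nat_lit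 10657798648) (nat_lit 152) (nat_lit 26205536409) (nat_lit 0) (nat_lit 5094525137) (nat_lit 23) (nat_lit 5) (nat_lit 25) (nat_lit 4) (nat_lit 23) (nat_lit 4) (nat_lit 539) (nat_lit 359) (nat_lit 302))) (XT.nd (nat_lit 78) (nat_lit 76) (nat_lit 0) (XT.lf (nat_lit 0) (nat_lit 20471782565) (nat_lit 152) (nat_lit 7582192671) (nat_lit 0) (nat_lit 14871612434) (nat_lit 23) (nat_lit 5) (nat_lit 25) (nat_lit 4) (nat_lit 23) (nat_lit 4) (nat_lit 540) (nat_lit 359) (nat_lit 301)) (XT.lf (nat_lit 0) (nat_lit 11676367418) (nat_lit 76) (nat_lit 18940436683) (nat_lit 76) (nat_lit 13304444591) (nat_lit 22) (nat_lit 4) (nat_lit 23) (nat_lit 5) (nat_lit 23) (nat_lit 4) (nat_lit 541) (nat_lit 359) (nat_lit 300)))) (XT.nd (nat_lit 156) (nat_lit 0) (nat_lit 0) (XT.nd (nat_lit 78) (nat_lit 152) (nat_lit 0) (XT.lf (nat_lit 0) (nat_lit 31518263527) (nat_lit 76) (nat_lit 9549617906) (nat_lit 76) (nat_lit 3878847211) (nat_lit 22) (nat_lit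 4) (nat_lit 23) (nat_lit 5) (nat_lit 23) (nat_lit 4) (nat_lit 542) (nat_lit 359) (nat_lit 299)) (XT.lf (nat_lit 0) (nat_lit 5700318471) (nat_lit 152) (nat_lit 40139503314) (nat_lit 0) (nat_lit 161933686) (nat_lit 20) (nat_lit 5) (nat_lit 22) (nat_lit 4) (nat_lit 20) (nat_lit 4) (nat_lit 543) (nat_lit 359) (nat_lit 298))) (XT.nd (nat_lit 78) (nat_lit 0) (nat_lit 0) (XT.lf (nat_lit 0) (nat_lit 15647031938) (nat_lit 152) (nat_lit 21358685447) (nat_lit 0) (nat_lit 10076819805) (nat_lit 20) (nat_lit 5) (nat_lit 22) (nat_lit 4) (nat_lit 20) (nat_lit 4) (nat_lit 544) (nat_lit 359) (nat_lit 297)) (XT.lf (nat_lit 0) (nat_lit 25820922903) (nat_lit 152) (nat_lit 2157145970) (nat_lit 0) (nat_lit 20219810433) (nat_lit 20) (nat_lit 5) (nat_lit 22) (nat_lit 4) (nat_lit 20) (nat_lit 4) (nat_lit 545) (nat_lit 359) (nat_lit 296))))) (XT.nd (nat_lit 312) (nat_lit 152) (nat_lit 0) (XT.nd (nat_lit 156) (nat_lit 152) (nat_lit 0) (XT.nd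 (nat_lit 78) (nat_lit 0) (nat_lit 0) (XT.lf (nat_lit 0) (nat_lit 17829817113) (nat_lit 76) (nat_lit 18572455170) (nat_lit 76) (nat_lit 12941342371) (nat_lit 19) (nat_lit 4) (nat_lit 20) (nat_lit 5) (nat_lit 20) (nat_lit 4) (nat_lit 546) (nat_lit 359) (nat_lit 295)) (XT.lf (nat_lit 0) (nat_lit 38323420236) (nat_lit 76) (nat_lit 8930970754) (nat_lit 76) (nat_lit 3270731423) (nat_lit 19) (nat_lit 4) (nat_lit 20) (nat_lit 5) (nat_lit 20) (nat_lit 4) (nat_lit 547) (nat_lit 359) (nat_lit 294))) (XT.nd (nat_lit 78) (nat_lit 0) (nat_lit 0) (XT.lf (nat_lit 0) (nat_lit 6576099917) (nat_lit 152) (nat_lit 44110279621) (nat_lit 0) (nat_lit 1053267376) (nat_lit 17) (nat_lit 5) (nat_lit 19) (nat_lit 4) (nat_lit 17) (nat_lit 4) (nat_lit 548) (nat_lit 359) (nat_lit 293)) (XT.lf (nat_lit 0) (nat_lit 16798370498) (nat_lit 152) (nat_lit 24938009109) (nat_lit 0) (nat_lit 11248883053) (nat_lit 17) (nat_lit 5) (nat_lit 19) (nat_lit 4)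 (nat_lit 17) (nat_lit 4) (nat_lit 549) (nat_lit 359) (nat_lit 292)))) (XT.nd (nat_lit 156) (nat_lit 76) (nat_lit 0) (XT.nd (nat_lit 78) (nat_lit 76) (nat_lit 0) (XT.lf (nat_lit 0) (nat_lit 27262177262) (nat_lit 152) (nat_lit 5321212492) (nat_lit 0) (nat_lit 21686811271) (nat_lit 17) (nat_lit 5) (nat_lit 19) (nat_lit 4) (nat_lit 17) (nat_lit 4) (nat_lit 550) (nat_lit 359) (nat_lit 291)) (XT.lf (nat_lit 0) (nat_lit 15050949352) (nat_lit 76) (nat_lit 23070392924) (nat_lit 76) (nat_lit 17469902130) (nat_lit 16) (nat_lit 4) (nat_lit 17) (nat_lit 5) (nat_lit 17) (nat_lit 4) (nat_lit 551) (nat_lit 359) (nat_lit 290))) (XT.nd (nat_lit 78) (nat_lit 76) (nat_lit 0) (XT.lf (nat_lit 0) (nat_lit 36017762286) (nat_lit 76) (nat_lit 13279653391) (nat_lit 76) (nat_lit 7654769586) (nat_lit 16) (nat_lit 4) (nat_lit 17) (nat_lit 5) (nat_lit 17) (nat_lit 4) (nat_lit 552) (nat_lit 359) (nat_lit 289)) (XT.lf (nat_lit 0) (nat_lit 2345535628)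 (nat_lit 152) (nat_lit 887129016) (nat_lit 76) (nat_lit 55122423325) (nat_lit 15) (nat_lit 5) (nat_lit 17) (nat_lit 5) (nat_lit 16) (nat_lit 4) (nat_lit 553) (nat_lit 359) (nat_lit 288))))))) (XT.nd (nat_lit 57720) (nat_lit 0) (nat_lit 2736) (XT.nd (nat_lit 57096) (nat_lit 0) (nat_lit 4256) (XT.nd (nat_lit 56784) (nat_lit 0) (nat_lit 5244) (XT.nd (nat_lit 78) (nat_lit 0) (nat_lit 0) (XT.lf (nat_lit 0) (nat_lit 12694705078) (nat_lit 152) (nat_lit 39908680874) (nat_lit 0) (nat_lit 7188337024) (nat_lit 14) (nat_lit 5) (nat_lit 16) (nat_lit 4) (nat_lit 14) (nat_lit 4) (nat_lit 554) (nat_lit 359) (nat_lit 287)) (XT.nd (nat_lit 56628) (nat_lit 0) (nat_lit 5852) (XT.lf (nat_lit 0) (nat_lit 23335838431) (nat_lit 152) (nat_lit 20128376595) (nat_lit 0) (nat_lit 17807797501) (nat_lit 14) (nat_lit 5) (nat_lit 16) (nat_lit 4) (nat_lit 14) (nat_lit 4) (nat_lit 555) (nat_lit 359) (nat_lit 286)) (XT.lf (nat_lit 0) (nat_lit 3399989136)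 (nat_lit 152) (nat_lit 1742516529) (nat_lit 152) (nat_lit 1742516529) (nat_lit 91) (nat_lit 4) (nat_lit 93) (nat_lit 5) (nat_lit 93) (nat_lit 4) (nat_lit 480) (nat_lit 360) (nat_lit 360)))) (XT.nd (nat_lit 156) (nat_lit 304) (nat_lit 0) (XT.nd (nat_lit 78) (nat_lit 152) (nat_lit 0) (XT.lf (nat_lit 0) (nat_lit 2965583135) (nat_lit 152) (nat_lit 8416964229) (nat_lit 0) (nat_lit 2595507830) (nat_lit 89) (nat_lit 5) (nat_lit 91) (nat_lit 4) (nat_lit 89) (nat_lit 4) (nat_lit 481) (nat_lit 360) (nat_lit 359)) (XT.lf (nat_lit 0) (nat_lit 4181161084) (nat_lit 152) (nat_lit 5369576243) (nat_lit 152) (nat_lit 4640204525) (nat_lit 87) (nat_lit 4) (nat_lit 89) (nat_lit 5) (nat_lit 89) (nat_lit 4) (nat_lit 482) (nat_lit 360) (nat_lit 358))) (XT.nd (nat_lit 78) (nat_lit 152) (nat_lit 0) (XT.lf (nat_lit 0) (nat_lit 1871104600) (nat_lit 152) (nat_lit 11714690909) (nat_lit 0) (nat_lit 824305390) (nat_lit 85) (nat_lit 5) (nat_lit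 87) (nat_lit 4) (nat_lit 85) (nat_lit 4) (nat_lit 483) (nat_lit 360) (nat_lit 357)) (XT.lf (nat_lit 0) (nat_lit 1021769487) (nat_lit 152) (nat_lit 7493683396) (nat_lit 152) (nat_lit 6118077071) (nat_lit 83) (nat_lit 4) (nat_lit 85) (nat_lit 5) (nat_lit 85) (nat_lit 4) (nat_lit 484) (nat_lit 360) (nat_lit 356))))) (XT.nd (nat_lit 312) (nat_lit 532) (nat_lit 0) (XT.nd (nat_lit 156) (nat_lit 304) (nat_lit 0) (XT.nd (nat_lit 78) (nat_lit 76) (nat_lit 0) (XT.lf (nat_lit 0) (nat_lit 471355608) (nat_lit 228) (nat_lit 737984647) (nat_lit 76) (nat_lit 13654614394) (nat_lit 82) (nat_lit 5) (nat_lit 85) (nat_lit 5) (nat_lit 83) (nat_lit 4) (nat_lit 485) (nat_lit 360) (nat_lit 355)) (XT.lf (nat_lit 0) (nat_lit 7176536463) (nat_lit 152) (nat_lit 2691550598) (nat_lit 0) (nat_lit 5230159012) (nat_lit 81) (nat_lit 5) (nat_lit 83) (nat_lit 4) (nat_lit 81) (nat_lit 4) (nat_lit 486) (nat_lit 360) (nat_lit 354))) (XT.nd (nat_lit 78)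 (nat_lit 152) (nat_lit 0) (XT.lf (nat_lit 0) (nat_lit 10570309396) (nat_lit 152) (nat_lit 3504016850) (nat_lit 152) (nat_lit 1265498535) (nat_lit 79) (nat_lit 4) (nat_lit 81) (nat_lit 5) (nat_lit 81) (nat_lit 4) (nat_lit 487) (nat_lit 360) (nat_lit 353)) (XT.lf (nat_lit 0) (nat_lit 5491435027) (nat_lit 152) (nat_lit 7052556455) (nat_lit 0) (nat_lit 3042745493) (nat_lit 77) (nat_lit 5) (nat_lit 79) (nat_lit 4) (nat_lit 77) (nat_lit 4) (nat_lit 488) (nat_lit 360) (nat_lit 352)))) (XT.nd (nat_lit 156) (nat_lit 228) (nat_lit 0) (XT.nd (nat_lit 78) (nat_lit 152) (nat_lit 0) (XT.lf (nat_lit 0) (nat_lit 6324957427) (nat_lit 152) (nat_lit 6115657886) (nat_lit 152) (nat_lit 3399618078) (nat_lit 75) (nat_lit 4) (nat_lit 77) (nat_lit 5) (nat_lit 77) (nat_lit 4) (nat_lit 489) (nat_lit 360) (nat_lit 351)) (XT.lf (nat_lit 0) (nat_lit 3414700764) (nat_lit 152) (nat_lit 12160281643) (nat_lit 0) (nat_lit 525765637) (nat_lit 73)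 (nat_lit 5) (nat_lit 75) (nat_lit 4) (nat_lit 73) (nat_lit 4) (nat_lit 490) (nat_lit 360) (nat_lit 350))) (XT.nd (nat_lit 78) (nat_lit 76) (nat_lit 0) (XT.lf (nat_lit 0) (nat_lit 1312824046) (nat_lit 152) (nat_lit 9093799747) (nat_lit 152) (nat_lit 5960201246) (nat_lit 71) (nat_lit 4) (nat_lit 73) (nat_lit 5) (nat_lit 73) (nat_lit 4) (nat_lit 491) (nat_lit 360) (nat_lit 349)) (XT.lf (nat_lit 0) (nat_lit 943990477) (nat_lit 228) (nat_lit 1454835087) (nat_lit 76) (nat_lit 14241918049) (nat_lit 70) (nat_lit 5) (nat_lit 73) (nat_lit 5) (nat_lit 71) (nat_lit 4) (nat_lit 492) (nat_lit 360) (nat_lit 348)))))) (XT.nd (nat_lit 624) (nat_lit 684) (nat_lit 0) (XT.nd (nat_lit 312) (nat_lit 380) (nat_lit 0) (XT.nd (nat_lit 156) (nat_lit 228) (nat_lit 0) (XT.nd (nat_lit 78) (nat_lit 152) (nat_lit 0) (XT.lf (nat_lit 0) (nat_lit 7974733390) (nat_lit 152) (nat_lit 4467316648) (nat_lit 0) (nat_lit 4477884407) (nat_lit 69) (nat_lit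 5) (nat_lit 71) (nat_lit 4) (nat_lit 69) (nat_lit 4) (nat_lit 493) (nat_lit 360) (nat_lit 347)) (XT.lf (nat_lit 0) (nat_lit 9522372550) (nat_lit 152) (nat_lit 5699596085) (nat_lit 152) (nat_lit 1985366864) (nat_lit 67) (nat_lit 4) (nat_lit 69) (nat_lit 5) (nat_lit 69) (nat_lit 4) (nat_lit 494) (nat_lit 360) (nat_lit 346))) (XT.nd (nat_lit 78) (nat_lit 76) (nat_lit 0) (XT.lf (nat_lit 0) (nat_lit 5076750908) (nat_lit 152) (nat_lit 11159474065) (nat_lit 0) (nat_lit 1265801397) (nat_lit 65) (nat_lit 5) (nat_lit 67) (nat_lit 4) (nat_lit 65) (nat_lit 4) (nat_lit 495) (nat_lit 360) (nat_lit 345)) (XT.lf (nat_lit 0) (nat_lit 2884652763) (nat_lit 76) (nat_lit 9464524849) (nat_lit 76) (nat_lit 5454641626) (nat_lit 64) (nat_lit 4) (nat_lit 65) (nat_lit 5) (nat_lit 65) (nat_lit 4) (nat_lit 496) (nat_lit 360) (nat_lit 344)))) (XT.nd (nat_lit 156) (nat_lit 228) (nat_lit 0) (XT.nd (nat_lit 78) (nat_lit 76) (nat_lit 0) (XT.lf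 (nat_lit 0) (nat_lit 1681184891) (nat_lit 152) (nat_lit 790217419) (nat_lit 76) (nat_lit 15643075372) (nat_lit 63) (nat_lit 5) (nat_lit 65) (nat_lit 5) (nat_lit 64) (nat_lit 4) (nat_lit 497) (nat_lit 360) (nat_lit 343)) (XT.lf (nat_lit 0) (nat_lit 8979353982) (nat_lit 152) (nat_lit 4735049183) (nat_lit 0) (nat_lit 4716696843) (nat_lit 62) (nat_lit 5) (nat_lit 64) (nat_lit 4) (nat_lit 62) (nat_lit 4) (nat_lit 498) (nat_lit 360) (nat_lit 342))) (XT.nd (nat_lit 78) (nat_lit 152) (nat_lit 0) (XT.lf (nat_lit 0) (nat_lit 9809678112) (nat_lit 76) (nat_lit 6693376874) (nat_lit 76) (nat_lit 2253969709) (nat_lit 61) (nat_lit 4) (nat_lit 62) (nat_lit 5) (nat_lit 62) (nat_lit 4) (nat_lit 499) (nat_lit 360) (nat_lit 341)) (XT.lf (nat_lit 0) (nat_lit 5046846190) (nat_lit 152) (nat_lit 13474622166) (nat_lit 0) (nat_lit 570138294) (nat_lit 59) (nat_lit 5) (nat_lit 61) (nat_lit 4) (nat_lit 59) (nat_lit 4) (nat_lit 500) (nat_lit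 360) (nat_lit 340))))) (XT.nd (nat_lit 312) (nat_lit 380) (nat_lit 0) (XT.nd (nat_lit 156) (nat_lit 152) (nat_lit 0) (XT.nd (nat_lit 78) (nat_lit 76) (nat_lit 0) (XT.lf (nat_lit 0) (nat_lit 1065834110) (nat_lit 76) (nat_lit 11503374066) (nat_lit 76) (nat_lit 6864914857) (nat_lit 58) (nat_lit 4) (nat_lit 59) (nat_lit 5) (nat_lit 59) (nat_lit 4) (nat_lit 501) (nat_lit 360) (nat_lit 339)) (XT.lf (nat_lit 0) (nat_lit 537547994) (nat_lit 152) (nat_lit 3704276888) (nat_lit 76) (nat_lit 15544411097) (nat_lit 57) (nat_lit 5) (nat_lit 59) (nat_lit 5) (nat_lit 58) (nat_lit 4) (nat_lit 502) (nat_lit 360) (nat_lit 338))) (XT.nd (nat_lit 78) (nat_lit 76) (nat_lit 0) (XT.lf (nat_lit 0) (nat_lit 8048433305) (nat_lit 152) (nat_lit 8853127856) (nat_lit 0) (nat_lit 3244583360) (nat_lit 56) (nat_lit 5) (nat_lit 58) (nat_lit 4) (nat_lit 56) (nat_lit 4) (nat_lit 503) (nat_lit 360) (nat_lit 337)) (XT.lf (nat_lit 0) (nat_lit 6151005377)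 (nat_lit 76) (nat_lit 9656364081) (nat_lit 76) (nat_lit 4708800190) (nat_lit 55) (nat_lit 4) (nat_lit 56) (nat_lit 5) (nat_lit 56) (nat_lit 4) (nat_lit 504) (nat_lit 360) (nat_lit 336)))) (XT.nd (nat_lit 156) (nat_lit 228) (nat_lit 0) (XT.nd (nat_lit 78) (nat_lit 0) (nat_lit 0) (XT.lf (nat_lit 0) (nat_lit 648837511) (nat_lit 76) (nat_lit 2176743526) (nat_lit 152) (nat_lit 18071465867) (nat_lit 53) (nat_lit 5) (nat_lit 54) (nat_lit 5) (nat_lit 55) (nat_lit 4) (nat_lit 505) (nat_lit 360) (nat_lit 335)) (XT.lf (nat_lit 0) (nat_lit 10575045768) (nat_lit 152) (nat_lit 5205793312) (nat_lit 0) (nat_lit 5504602882) (nat_lit 53) (nat_lit 5) (nat_lit 55) (nat_lit 4) (nat_lit 53) (nat_lit 4) (nat_lit 506) (nat_lit 360) (nat_lit 334))) (XT.nd (nat_lit 78) (nat_lit 152) (nat_lit 0) (XT.lf (nat_lit 0) (nat_lit 10245556199) (nat_lit 76) (nat_lit 8318920013) (nat_lit 76) (nat_lit 3120789147) (nat_lit 52) (nat_lit 4) (nat_lit 53)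 (nat_lit 5) (nat_lit 53) (nat_lit 4) (nat_lit 507) (nat_lit 360) (nat_lit 333)) (XT.lf (nat_lit 0) (nat_lit 3982917870) (nat_lit 76) (nat_lit 600834666) (nat_lit 152) (nat_lit 17512610669) (nat_lit 50) (nat_lit 5) (nat_lit 51) (nat_lit 5) (nat_lit 52) (nat_lit 4) (nat_lit 508) (nat_lit 360) (nat_lit 332))))))))
noncomputable def xc23 : XT := (XT.nd (nat_lit 2418) (nat_lit 684) (nat_lit 0) (XT.nd (nat_lit 1170) (nat_lit 988) (nat_lit 0) (XT.nd (nat_lit 546) (nat_lit 608) (nat_lit 0) (XT.nd (nat_lit 234) (nat_lit 228) (nat_lit 0) (XT.nd (nat_lit 78) (nat_lit 228) (nat_lit 0) (XT.lf (nat_lit 0) (nat_lit 12531669353) (nat_lit 152) (nat_lit 2737220016) (nat_lit 0) (nat_lit 7247729600) (nat_lit 50) (nat_lit 5) (nat_lit 52) (nat_lit 4) (nat_lit 50) (nat_lit 4) (nat_lit 509) (nat_lit 360) (nat_lit 331)) (XT.nd (nat_lit 78) (nat_lit 152) (nat_lit 0) (XT.lf (nat_lit 0) (nat_lit 13136177959) (nat_lit 76) (nat_lit 7604999765)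 (nat_lit 76) (nat_lit 2207610895) (nat_lit 49) (nat_lit 4) (nat_lit 50) (nat_lit 5) (nat_lit 50) (nat_lit 4) (nat_lit 510) (nat_lit 360) (nat_lit 330)) (XT.lf (nat_lit 0) (nat_lit 5669511499) (nat_lit 152) (nat_lit 17400956659) (nat_lit 0) (nat_lit 322391457) (nat_lit 47) (nat_lit 5) (nat_lit 49) (nat_lit 4) (nat_lit 47) (nat_lit 4) (nat_lit 511) (nat_lit 360) (nat_lit 329)))) (XT.nd (nat_lit 156) (nat_lit 152) (nat_lit 0) (XT.nd (nat_lit 78) (nat_lit 76) (nat_lit 0) (XT.lf (nat_lit 0) (nat_lit 13805067903) (nat_lit 152) (nat_lit 1688409292) (nat_lit 0) (nat_lit 8354125849) (nat_lit 47) (nat_lit 5) (nat_lit 49) (nat_lit 4) (nat_lit 47) (nat_lit 4) (nat_lit 512) (nat_lit 360) (nat_lit 328)) (XT.lf (nat_lit 0) (nat_lit 14571414059) (nat_lit 76) (nat_lit 7647642310) (nat_lit 76) (nat_lit 2095902186) (nat_lit 46) (nat_lit 4) (nat_lit 47) (nat_lit 5) (nat_lit 47) (nat_lit 4) (nat_lit 513) (nat_lit 360) (nat_lit 327)))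 (XT.nd (nat_lit 78) (nat_lit 0) (nat_lit 0) (XT.lf (nat_lit 0) (nat_lit 5948094014) (nat_lit 152) (nat_lit 18384108681) (nat_lit 0) (nat_lit 463043210) (nat_lit 44) (nat_lit 5) (nat_lit 46) (nat_lit 4) (nat_lit 44) (nat_lit 4) (nat_lit 514) (nat_lit 360) (nat_lit 326)) (XT.lf (nat_lit 0) (nat_lit 14260835864) (nat_lit 152) (nat_lit 2342857058) (nat_lit 0) (nat_lit 8683540546) (nat_lit 44) (nat_lit 5) (nat_lit 46) (nat_lit 4) (nat_lit 44) (nat_lit 4) (nat_lit 515) (nat_lit 360) (nat_lit 325))))) (XT.nd (nat_lit 312) (nat_lit 304) (nat_lit 0) (XT.nd (nat_lit 156) (nat_lit 76) (nat_lit 0) (XT.nd (nat_lit 78) (nat_lit 152) (nat_lit 0) (XT.lf (nat_lit 0) (nat_lit 14255265325) (nat_lit 76) (nat_lit 8602265975) (nat_lit 76) (nat_lit 2935412877) (nat_lit 43) (nat_lit 4) (nat_lit 44) (nat_lit 5) (nat_lit 44) (nat_lit 4) (nat_lit 516) (nat_lit 360) (nat_lit 324)) (XT.lf (nat_lit 0) (nat_lit 4927680561) (nat_lit 76) (nat_lit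 334133704) (nat_lit 152) (nat_lit 21051390213) (nat_lit 41) (nat_lit 5) (nat_lit 42) (nat_lit 5) (nat_lit 43) (nat_lit 4) (nat_lit 517) (nat_lit 360) (nat_lit 323))) (XT.nd (nat_lit 78) (nat_lit 76) (nat_lit 0) (XT.lf (nat_lit 0) (nat_lit 13739964721) (nat_lit 152) (nat_lit 5033625660) (nat_lit 0) (nat_lit 8071790744) (nat_lit 41) (nat_lit 5) (nat_lit 43) (nat_lit 4) (nat_lit 41) (nat_lit 4) (nat_lit 518) (nat_lit 360) (nat_lit 322)) (XT.lf (nat_lit 0) (nat_lit 11839769156) (nat_lit 76) (nat_lit 10650482818) (nat_lit 76) (nat_lit 4902737914) (nat_lit 40) (nat_lit 4) (nat_lit 41) (nat_lit 5) (nat_lit 41) (nat_lit 4) (nat_lit 519) (nat_lit 360) (nat_lit 321)))) (XT.nd (nat_lit 156) (nat_lit 152) (nat_lit 0) (XT.nd (nat_lit 78) (nat_lit 0) (nat_lit 0) (XT.lf (nat_lit 0) (nat_lit 1158223702) (nat_lit 76) (nat_lit 2281787102) (nat_lit 152) (nat_lit 24517098500) (nat_lit 38) (nat_lit 5) (nat_lit 39) (nat_lit 5) (nat_lit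 40) (nat_lit 4) (nat_lit 520) (nat_lit 360) (nat_lit 320)) (XT.lf (nat_lit 0) (nat_lit 12054846379) (nat_lit 152) (nat_lit 10151550245) (nat_lit 0) (nat_lit 6326689618) (nat_lit 38) (nat_lit 5) (nat_lit 40) (nat_lit 4) (nat_lit 38) (nat_lit 4) (nat_lit 521) (nat_lit 360) (nat_lit 319))) (XT.nd (nat_lit 78) (nat_lit 76) (nat_lit 0) (XT.lf (nat_lit 0) (nat_lit 6916387057) (nat_lit 76) (nat_lit 14004513620) (nat_lit 76) (nat_lit 8205659121) (nat_lit 37) (nat_lit 4) (nat_lit 38) (nat_lit 5) (nat_lit 38) (nat_lit 4) (nat_lit 522) (nat_lit 360) (nat_lit 318)) (XT.lf (nat_lit 0) (nat_lit 316214086) (nat_lit 152) (nat_lit 5225578484) (nat_lit 76) (nat_lit 24195736700) (nat_lit 36) (nat_lit 5) (nat_lit 38) (nat_lit 5) (nat_lit 37) (nat_lit 4) (nat_lit 523) (nat_lit 360) (nat_lit 317)))))) (XT.nd (nat_lit 624) (nat_lit 456) (nat_lit 0) (XT.nd (nat_lit 312) (nat_lit 228) (nat_lit 0) (XT.nd (nat_lit 156) (nat_lit 228) (nat_lit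 0) (XT.nd (nat_lit 78) (nat_lit 0) (nat_lit 0) (XT.lf (nat_lit 0) (nat_lit 8984624153) (nat_lit 152) (nat_lit 18154762151) (nat_lit 0) (nat_lit 3223330484) (nat_lit 35) (nat_lit 5) (nat_lit 37) (nat_lit 4) (nat_lit 35) (nat_lit 4) (nat_lit 524) (nat_lit 360) (nat_lit 316)) (XT.lf (nat_lit 0) (nat_lit 17927864992) (nat_lit 152) (nat_lit 974594752) (nat_lit 0) (nat_lit 12103757298) (nat_lit 35) (nat_lit 5) (nat_lit 37) (nat_lit 4) (nat_lit 35) (nat_lit 4) (nat_lit 525) (nat_lit 360) (nat_lit 315))) (XT.nd (nat_lit 78) (nat_lit 152) (nat_lit 0) (XT.lf (nat_lit 0) (nat_lit 16869839720) (nat_lit 76) (nat_lit 10341065081) (nat_lit 76) (nat_lit 4455972897) (nat_lit 34) (nat_lit 4) (nat_lit 35) (nat_lit 5) (nat_lit 35) (nat_lit 4) (nat_lit 526) (nat_lit 360) (nat_lit 314)) (XT.lf (nat_lit 0) (nat_lit 2753248932) (nat_lit 76) (nat_lit 1531258141) (nat_lit 152) (nat_lit 28063202067) (nat_lit 32) (nat_lit 5) (nat_lit 33)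 (nat_lit 5) (nat_lit 34) (nat_lit 4) (nat_lit 527) (nat_lit 360) (nat_lit 313)))) (XT.nd (nat_lit 156) (nat_lit 152) (nat_lit 0) (XT.nd (nat_lit 78) (nat_lit 76) (nat_lit 0) (XT.lf (nat_lit 0) (nat_lit 13330489816) (nat_lit 152) (nat_lit 12209652187) (nat_lit 0) (nat_lit 7503514905) (nat_lit 32) (nat_lit 5) (nat_lit 34) (nat_lit 4) (nat_lit 32) (nat_lit 4) (nat_lit 528) (nat_lit 360) (nat_lit 312)) (XT.lf (nat_lit 0) (nat_lit 5615947698) (nat_lit 76) (nat_lit 17013128956) (nat_lit 76) (nat_lit 11131970116) (nat_lit 31) (nat_lit 4) (nat_lit 32) (nat_lit 5) (nat_lit 32) (nat_lit 4) (nat_lit 529) (nat_lit 360) (nat_lit 311))) (XT.nd (nat_lit 78) (nat_lit 152) (nat_lit 0) (XT.lf (nat_lit 0) (nat_lit 24053140148) (nat_lit 76) (nat_lit 8189747583) (nat_lit 76) (nat_lit 2255982985) (nat_lit 31) (nat_lit 4) (nat_lit 32) (nat_lit 5) (nat_lit 32) (nat_lit 4) (nat_lit 530) (nat_lit 360) (nat_lit 310)) (XT.lf (nat_lit 0) (nat_lit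 6749790091) (nat_lit 152) (nat_lit 27567849706) (nat_lit 0) (nat_lit 939267617) (nat_lit 29) (nat_lit 5) (nat_lit 31) (nat_lit 4) (nat_lit 29) (nat_lit 4) (nat_lit 531) (nat_lit 360) (nat_lit 309))))) (XT.nd (nat_lit 312) (nat_lit 228) (nat_lit 0) (XT.nd (nat_lit 156) (nat_lit 152) (nat_lit 0) (XT.nd (nat_lit 78) (nat_lit 76) (nat_lit 0) (XT.lf (nat_lit 0) (nat_lit 16082735566) (nat_lit 152) (nat_lit 9727138267) (nat_lit 0) (nat_lit 10224071372) (nat_lit 29) (nat_lit 5) (nat_lit 31) (nat_lit 4) (nat_lit 29) (nat_lit 4) (nat_lit 532) (nat_lit 360) (nat_lit 308)) (XT.lf (nat_lit 0) (nat_lit 8652423863) (nat_lit 76) (nat_lit 17043631381) (nat_lit 76) (nat_lit 11138227653) (nat_lit 28) (nat_lit 4) (nat_lit 29) (nat_lit 5) (nat_lit 29) (nat_lit 4) (nat_lit 533) (nat_lit 360) (nat_lit 307))) (XT.nd (nat_lit 78) (nat_lit 152) (nat_lit 0) (XT.lf (nat_lit 0) (nat_lit 27619178765) (nat_lit 76) (nat_lit 7994872946) (nat_lit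 76) (nat_lit 2044091029) (nat_lit 28) (nat_lit 4) (nat_lit 29) (nat_lit 5) (nat_lit 29) (nat_lit 4) (nat_lit 534) (nat_lit 360) (nat_lit 306)) (XT.lf (nat_lit 0) (nat_lit 7195632943) (nat_lit 152) (nat_lit 29933102749) (nat_lit 0) (nat_lit 1375401478) (nat_lit 26) (nat_lit 5) (nat_lit 28) (nat_lit 4) (nat_lit 26) (nat_lit 4) (nat_lit 535) (nat_lit 360) (nat_lit 305)))) (XT.nd (nat_lit 156) (nat_lit 152) (nat_lit 0) (XT.nd (nat_lit 78) (nat_lit 76) (nat_lit 0) (XT.lf (nat_lit 0) (nat_lit 16772700925) (nat_lit 152) (nat_lit 11688224575) (nat_lit 0) (nat_lit 10910941989) (nat_lit 26) (nat_lit 5) (nat_lit 28) (nat_lit 4) (nat_lit 26) (nat_lit 4) (nat_lit 536) (nat_lit 360) (nat_lit 304)) (XT.lf (nat_lit 0) (nat_lit 7086480110) (nat_lit 76) (nat_lit 19540760983) (nat_lit 76) (nat_lit 13638684115) (nat_lit 25) (nat_lit 4) (nat_lit 26) (nat_lit 5) (nat_lit 26) (nat_lit 4) (nat_lit 537) (nat_lit 360) (nat_lit 303))) (XT.nd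 (nat_lit 78) (nat_lit 152) (nat_lit 0) (XT.lf (nat_lit 0) (nat_lit 26509747972) (nat_lit 76) (nat_lit 10308525888) (nat_lit 76) (nat_lit 4367305396) (nat_lit 25) (nat_lit 4) (nat_lit 26) (nat_lit 5) (nat_lit 26) (nat_lit 4) (nat_lit 538) (nat_lit 360) (nat_lit 302)) (XT.lf (nat_lit 0) (nat_lit 4265014283) (nat_lit 76) (nat_lit 781408521) (nat_lit 152) (nat_lit 37085945999) (nat_lit 23) (nat_lit 5) (nat_lit 24) (nat_lit 5) (nat_lit 25) (nat_lit 4) (nat_lit 539) (nat_lit 360) (nat_lit 301))))))) (XT.nd (nat_lit 57642) (nat_lit 0) (nat_lit 4180) (XT.nd (nat_lit 624) (nat_lit 380) (nat_lit 0) (XT.nd (nat_lit 312) (nat_lit 228) (nat_lit 0) (XT.nd (nat_lit 156) (nat_lit 76) (nat_lit 0) (XT.nd (nat_lit 78) (nat_lit 0) (nat_lit 0) (XT.lf (nat_lit 0) (nat_lit 14815642987) (nat_lit 152) (nat_lit 19311047162) (nat_lit 0) (nat_lit 8974749172) (nat_lit 23) (nat_lit 5) (nat_lit 25) (nat_lit 4) (nat_lit 23) (nat_lit 4) (nat_lit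 540) (nat_lit 360) (nat_lit 300)) (XT.lf (nat_lit 0) (nat_lit 24812256799) (nat_lit 152) (nat_lit 352711520) (nat_lit 0) (nat_lit 18936584381) (nat_lit 23) (nat_lit 5) (nat_lit 25) (nat_lit 4) (nat_lit 23) (nat_lit 4) (nat_lit 541) (nat_lit 360) (nat_lit 299))) (XT.nd (nat_lit 78) (nat_lit 0) (nat_lit 0) (XT.lf (nat_lit 0) (nat_lit 19410498048) (nat_lit 76) (nat_lit 15813575301) (nat_lit 76) (nat_lit 9904137249) (nat_lit 22) (nat_lit 4) (nat_lit 23) (nat_lit 5) (nat_lit 23) (nat_lit 4) (nat_lit 542) (nat_lit 360) (nat_lit 298)) (XT.lf (nat_lit 0) (nat_lit 39632587752) (nat_lit 76) (nat_lit 6248655489) (nat_lit 76) (nat_lit 306435269) (nat_lit 22) (nat_lit 4) (nat_lit 23) (nat_lit 5) (nat_lit 23) (nat_lit 4) (nat_lit 543) (nat_lit 360) (nat_lit 297)))) (XT.nd (nat_lit 156) (nat_lit 76) (nat_lit 0) (XT.nd (nat_lit 78) (nat_lit 0) (nat_lit 0) (XT.lf (nat_lit 0) (nat_lit 9486204397) (nat_lit 152) (nat_lit 34100987702)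 (nat_lit 0) (nat_lit 3686158214) (nat_lit 20) (nat_lit 5) (nat_lit 22) (nat_lit 4) (nat_lit 20) (nat_lit 4) (nat_lit 544) (nat_lit 360) (nat_lit 296)) (XT.lf (nat_lit 0) (nat_lit 19626031607) (nat_lit 152) (nat_lit 14967697747) (nat_lit 0) (nat_lit 13795985096) (nat_lit 20) (nat_lit 5) (nat_lit 22) (nat_lit 4) (nat_lit 20) (nat_lit 4) (nat_lit 545) (nat_lit 360) (nat_lit 295))) (XT.nd (nat_lit 78) (nat_lit 0) (nat_lit 0) (XT.lf (nat_lit 0) (nat_lit 4696729828) (nat_lit 76) (nat_lit 25351336283) (nat_lit 76) (nat_lit 19492163240) (nat_lit 19) (nat_lit 4) (nat_lit 20) (nat_lit 5) (nat_lit 20) (nat_lit 4) (nat_lit 546) (nat_lit 360) (nat_lit 294)) (XT.lf (nat_lit 0) (nat_lit 25124720903) (nat_lit 76) (nat_lit 15742724855) (nat_lit 76) (nat_lit 9855273625) (nat_lit 19) (nat_lit 4) (nat_lit 20) (nat_lit 5) (nat_lit 20) (nat_lit 4) (nat_lit 547) (nat_lit 360) (nat_lit 293))))) (XT.nd (nat_lit 312) (nat_lit 152) (nat_lit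 0) (XT.nd (nat_lit 156) (nat_lit 76) (nat_lit 0) (XT.nd (nat_lit 78) (nat_lit 76) (nat_lit 0) (XT.lf (nat_lit 0) (nat_lit 4179014) (nat_lit 152) (nat_lit 5906422380) (nat_lit 76) (nat_lit 46032017432) (nat_lit 18) (nat_lit 5) (nat_lit 20) (nat_lit 5) (nat_lit 19) (nat_lit 4) (nat_lit 548) (nat_lit 360) (nat_lit 292)) (XT.lf (nat_lit 0) (nat_lit 10079069152) (nat_lit 152) (nat_lit 38803023291) (nat_lit 0) (nat_lit 4310563635) (nat_lit 17) (nat_lit 5) (nat_lit 19) (nat_lit 4) (nat_lit 17) (nat_lit 4) (nat_lit 549) (nat_lit 360) (nat_lit 291))) (XT.nd (nat_lit 78) (nat_lit 76) (nat_lit 0) (XT.lf (nat_lit 0) (nat_lit 20511725727) (nat_lit 152) (nat_lit 19248707907) (nat_lit 0) (nat_lit 14718095407) (nat_lit 17) (nat_lit 5) (nat_lit 19) (nat_lit 4) (nat_lit 17) (nat_lit 4) (nat_lit 550) (nat_lit 360) (nat_lit 290)) (XT.lf (nat_lit 0) (nat_lit 784400796) (nat_lit 76) (nat_lit 30419108248) (nat_lit 76) (nat_lit 24601084916)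 (nat_lit 16) (nat_lit 4) (nat_lit 17) (nat_lit 5) (nat_lit 17) (nat_lit 4) (nat_lit 551) (nat_lit 360) (nat_lit 289)))) (XT.nd (nat_lit 156) (nat_lit 152) (nat_lit 0) (XT.nd (nat_lit 78) (nat_lit 0) (nat_lit 0) (XT.lf (nat_lit 0) (nat_lit 21691147059) (nat_lit 76) (nat_lit 20658495948) (nat_lit 76) (nat_lit 14816790080) (nat_lit 16) (nat_lit 4) (nat_lit 17) (nat_lit 5) (nat_lit 17) (nat_lit 4) (nat_lit 552) (nat_lit 360) (nat_lit 288)) (XT.lf (nat_lit 0) (nat_lit 43106711880) (nat_lit 76) (nat_lit 10664442252) (nat_lit 76) (nat_lit 4799743630) (nat_lit 16) (nat_lit 4) (nat_lit 17) (nat_lit 5) (nat_lit 17) (nat_lit 4) (nat_lit 553) (nat_lit 360) (nat_lit 287))) (XT.nd (nat_lit 78) (nat_lit 0) (nat_lit 0) (XT.lf (nat_lit 0) (nat_lit 5077193640) (nat_lit 76) (nat_lit 323897652) (nat_lit 152) (nat_lit 54615085542) (nat_lit 14) (nat_lit 5) (nat_lit 15) (nat_lit 5) (nat_lit 16) (nat_lit 4) (nat_lit 554) (nat_lit 360)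 (nat_lit 286)) (XT.lf (nat_lit 0) (nat_lit 16010623544) (nat_lit 152) (nat_lit 35212764066) (nat_lit 0) (nat_lit 10274026885) (nat_lit 14) (nat_lit 5) (nat_lit 16) (nat_lit 4) (nat_lit 14) (nat_lit 4) (nat_lit 555) (nat_lit 360) (nat_lit 285)))))) (XT.nd (nat_lit 624) (nat_lit 988) (nat_lit 0) (XT.nd (nat_lit 312) (nat_lit 532) (nat_lit 0) (XT.nd (nat_lit 156) (nat_lit 304) (nat_lit 0) (XT.nd (nat_lit 78) (nat_lit 228) (nat_lit 0) (XT.lf (nat_lit 0) (nat_lit 4528904663) (nat_lit 152) (nat_lit 1077493814) (nat_lit 152) (nat_lit 1077493814) (nat_lit 96) (nat_lit 4) (nat_lit 98) (nat_lit 5) (nat_lit 98) (nat_lit 4) (nat_lit 478) (nat_lit 361) (nat_lit 361)) (XT.lf (nat_lit 0) (nat_lit 4156322310) (nat_lit 228) (nat_lit 5647170318) (nat_lit 0) (nat_lit 3763709419) (nat_lit 93) (nat_lit 5) (nat_lit 96) (nat_lit 4) (nat_lit 93) (nat_lit 4) (nat_lit 479) (nat_lit 361) (nat_lit 360))) (XT.nd (nat_lit 78) (nat_lit 152)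 (nat_lit 0) (XT.lf (nat_lit 0) (nat_lit 6677587374) (nat_lit 152) (nat_lit 3934113278) (nat_lit 152) (nat_lit 3160322823) (nat_lit 91) (nat_lit 4) (nat_lit 93) (nat_lit 5) (nat_lit 93) (nat_lit 4) (nat_lit 480) (nat_lit 361) (nat_lit 359)) (XT.lf (nat_lit 0) (nat_lit 3212047897) (nat_lit 152) (nat_lit 8668552706) (nat_lit 0) (nat_lit 2101498616) (nat_lit 89) (nat_lit 5) (nat_lit 91) (nat_lit 4) (nat_lit 89) (nat_lit 4) (nat_lit 481) (nat_lit 361) (nat_lit 358)))) (XT.nd (nat_lit 156) (nat_lit 228) (nat_lit 0) (XT.nd (nat_lit 78) (nat_lit 152) (nat_lit 0) (XT.lf (nat_lit 0) (nat_lit 3801845343) (nat_lit 152) (nat_lit 5927282389) (nat_lit 152) (nat_lit 4467901639) (nat_lit 87) (nat_lit 4) (nat_lit 89) (nat_lit 5) (nat_lit 89) (nat_lit 4) (nat_lit 482) (nat_lit 361) (nat_lit 357)) (XT.lf (nat_lit 0) (nat_lit 1964807987) (nat_lit 152) (nat_lit 12234462695) (nat_lit 0) (nat_lit 219126357) (nat_lit 85) (nat_lit 5) (nat_lit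 87) (nat_lit 4) (nat_lit 85) (nat_lit 4) (nat_lit 483) (nat_lit 361) (nat_lit 356))) (XT.nd (nat_lit 78) (nat_lit 76) (nat_lit 0) (XT.lf (nat_lit 0) (nat_lit 368631744) (nat_lit 152) (nat_lit 8170109892) (nat_lit 152) (nat_lit 6105198054) (nat_lit 83) (nat_lit 4) (nat_lit 85) (nat_lit 5) (nat_lit 85) (nat_lit 4) (nat_lit 484) (nat_lit 361) (nat_lit 355)) (XT.lf (nat_lit 0) (nat_lit 419937983) (nat_lit 228) (nat_lit 1522369973) (nat_lit 76) (nat_lit 12933975164) (nat_lit 82) (nat_lit 5) (nat_lit 85) (nat_lit 5) (nat_lit 83) (nat_lit 4) (nat_lit 485) (nat_lit 361) (nat_lit 354))))) (XT.nd (nat_lit 312) (nat_lit 456) (nat_lit 0) (XT.nd (nat_lit 156) (nat_lit 304) (nat_lit 0) (XT.nd (nat_lit 78) (nat_lit 152) (nat_lit 0) (XT.lf (nat_lit 0) (nat_lit 7046437737) (nat_lit 152) (nat_lit 3617875287) (nat_lit 0) (nat_lit 4448623010) (nat_lit 81) (nat_lit 5) (nat_lit 83) (nat_lit 4) (nat_lit 81) (nat_lit 4) (nat_lit 486)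 (nat_lit 361) (nat_lit 353)) (XT.lf (nat_lit 0) (nat_lit 9505842980) (nat_lit 152) (nat_lit 4366143329) (nat_lit 152) (nat_lit 1484696696) (nat_lit 79) (nat_lit 4) (nat_lit 81) (nat_lit 5) (nat_lit 81) (nat_lit 4) (nat_lit 487) (nat_lit 361) (nat_lit 352))) (XT.nd (nat_lit 78) (nat_lit 152) (nat_lit 0) (XT.lf (nat_lit 0) (nat_lit 5193895999) (nat_lit 152) (nat_lit 8283217206) (nat_lit 0) (nat_lit 2129024722) (nat_lit 77) (nat_lit 5) (nat_lit 79) (nat_lit 4) (nat_lit 77) (nat_lit 4) (nat_lit 488) (nat_lit 361) (nat_lit 351)) (XT.lf (nat_lit 0) (nat_lit 4949853064) (nat_lit 152) (nat_lit 7118233284) (nat_lit 152) (nat_lit 3793798634) (nat_lit 75) (nat_lit 4) (nat_lit 77) (nat_lit 5) (nat_lit 77) (nat_lit 4) (nat_lit 489) (nat_lit 361) (nat_lit 350)))) (XT.nd (nat_lit 156) (nat_lit 304) (nat_lit 0) (XT.nd (nat_lit 78) (nat_lit 0) (nat_lit 0) (XT.lf (nat_lit 0) (nat_lit 2405057678) (nat_lit 76) (nat_lit 541491879)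 (nat_lit 152) (nat_lit 13178414511) (nat_lit 73) (nat_lit 5) (nat_lit 74) (nat_lit 5) (nat_lit 75) (nat_lit 4) (nat_lit 490) (nat_lit 361) (nat_lit 349)) (XT.lf (nat_lit 0) (nat_lit 9859093352) (nat_lit 152) (nat_lit 385043684) (nat_lit 0) (nat_lit 6149286266) (nat_lit 73) (nat_lit 5) (nat_lit 75) (nat_lit 4) (nat_lit 73) (nat_lit 4) (nat_lit 491) (nat_lit 361) (nat_lit 348))) (XT.nd (nat_lit 78) (nat_lit 76) (nat_lit 0) (XT.lf (nat_lit 0) (nat_lit 315766034) (nat_lit 228) (nat_lit 3299420729) (nat_lit 76) (nat_lit 13054280460) (nat_lit 70) (nat_lit 5) (nat_lit 73) (nat_lit 5) (nat_lit 71) (nat_lit 4) (nat_lit 492) (nat_lit 361) (nat_lit 347)) (XT.lf (nat_lit 0) (nat_lit 7255197645) (nat_lit 152) (nat_lit 6484039229) (nat_lit 0) (nat_lit 3212161309) (nat_lit 69) (nat_lit 5) (nat_lit 71) (nat_lit 4) (nat_lit 69) (nat_lit 4) (nat_lit 493) (nat_lit 361) (nat_lit 346))))))))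
noncomputable def xc24 : XT := (XT.nd (nat_lit 2418) (nat_lit 1596) (nat_lit 0) (XT.nd (nat_lit 1170) (nat_lit 1216) (nat_lit 0) (XT.nd (nat_lit 546) (nat_lit 608) (nat_lit 0) (XT.nd (nat_lit 234) (nat_lit 380) (nat_lit 0) (XT.nd (nat_lit 78) (nat_lit 228) (nat_lit 0) (XT.lf (nat_lit 0) (nat_lit 7348639016) (nat_lit 152) (nat_lit 7073330006) (nat_lit 152) (nat_lit 2819244895) (nat_lit 67) (nat_lit 4) (nat_lit 69) (nat_lit 5) (nat_lit 69) (nat_lit 4) (nat_lit 494) (nat_lit 361) (nat_lit 345)) (XT.nd (nat_lit 78) (nat_lit 76) (nat_lit 0) (XT.lf (nat_lit 0) (nat_lit 3995024900) (nat_lit 76) (nat_lit 169512900) (nat_lit 152) (nat_lit 13374446393) (nat_lit 65) (nat_lit 5) (nat_lit 66) (nat_lit 5) (nat_lit 67) (nat_lit 4) (nat_lit 495) (nat_lit 361) (nat_lit 344)) (XT.lf (nat_lit 0) (nat_lit 337316973) (nat_lit 76) (nat_lit 11014139493) (nat_lit 76) (nat_lit 6491886535) (nat_lit 64) (nat_lit 4) (nat_lit 65) (nat_lit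 5) (nat_lit 65) (nat_lit 4) (nat_lit 496) (nat_lit 361) (nat_lit 343)))) (XT.nd (nat_lit 156) (nat_lit 228) (nat_lit 0) (XT.nd (nat_lit 78) (nat_lit 76) (nat_lit 0) (XT.lf (nat_lit 0) (nat_lit 604843364) (nat_lit 152) (nat_lit 3481935032) (nat_lit 76) (nat_lit 14069302938) (nat_lit 63) (nat_lit 5) (nat_lit 65) (nat_lit 5) (nat_lit 64) (nat_lit 4) (nat_lit 497) (nat_lit 361) (nat_lit 342)) (XT.lf (nat_lit 0) (nat_lit 7801603374) (nat_lit 152) (nat_lit 7621879229) (nat_lit 0) (nat_lit 3052263968) (nat_lit 62) (nat_lit 5) (nat_lit 64) (nat_lit 4) (nat_lit 62) (nat_lit 4) (nat_lit 498) (nat_lit 361) (nat_lit 341))) (XT.nd (nat_lit 78) (nat_lit 152) (nat_lit 0) (XT.lf (nat_lit 0) (nat_lit 6751585404) (nat_lit 76) (nat_lit 8486817449) (nat_lit 76) (nat_lit 3565876074) (nat_lit 61) (nat_lit 4) (nat_lit 62) (nat_lit 5) (nat_lit 62) (nat_lit 4) (nat_lit 499) (nat_lit 361) (nat_lit 340)) (XT.lf (nat_lit 0) (nat_lit 2354594000)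 (nat_lit 76) (nat_lit 1311484436) (nat_lit 152) (nat_lit 15475995200) (nat_lit 59) (nat_lit 5) (nat_lit 60) (nat_lit 5) (nat_lit 61) (nat_lit 4) (nat_lit 500) (nat_lit 361) (nat_lit 339))))) (XT.nd (nat_lit 312) (nat_lit 304) (nat_lit 0) (XT.nd (nat_lit 156) (nat_lit 228) (nat_lit 0) (XT.nd (nat_lit 78) (nat_lit 76) (nat_lit 0) (XT.lf (nat_lit 0) (nat_lit 11108226492) (nat_lit 152) (nat_lit 2366948427) (nat_lit 0) (nat_lit 6011822085) (nat_lit 59) (nat_lit 5) (nat_lit 61) (nat_lit 4) (nat_lit 59) (nat_lit 4) (nat_lit 501) (nat_lit 361) (nat_lit 338)) (XT.lf (nat_lit 0) (nat_lit 12496859651) (nat_lit 76) (nat_lit 6296839141) (nat_lit 76) (nat_lit 1047968608) (nat_lit 58) (nat_lit 4) (nat_lit 59) (nat_lit 5) (nat_lit 59) (nat_lit 4) (nat_lit 502) (nat_lit 361) (nat_lit 337))) (XT.nd (nat_lit 78) (nat_lit 76) (nat_lit 0) (XT.lf (nat_lit 0) (nat_lit 6370337135) (nat_lit 152) (nat_lit 12704300036) (nat_lit 0) (nat_lit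 1130632380) (nat_lit 56) (nat_lit 5) (nat_lit 58) (nat_lit 4) (nat_lit 56) (nat_lit 4) (nat_lit 503) (nat_lit 361) (nat_lit 336)) (XT.lf (nat_lit 0) (nat_lit 2112417450) (nat_lit 76) (nat_lit 11922471067) (nat_lit 76) (nat_lit 6543238209) (nat_lit 55) (nat_lit 4) (nat_lit 56) (nat_lit 5) (nat_lit 56) (nat_lit 4) (nat_lit 504) (nat_lit 361) (nat_lit 335)))) (XT.nd (nat_lit 156) (nat_lit 152) (nat_lit 0) (XT.nd (nat_lit 78) (nat_lit 76) (nat_lit 0) (XT.lf (nat_lit 0) (nat_lit 965178846) (nat_lit 152) (nat_lit 3555383977) (nat_lit 76) (nat_lit 16440823467) (nat_lit 54) (nat_lit 5) (nat_lit 56) (nat_lit 5) (nat_lit 55) (nat_lit 4) (nat_lit 505) (nat_lit 361) (nat_lit 334)) (XT.lf (nat_lit 0) (nat_lit 8601464881) (nat_lit 152) (nat_lit 9632010183) (nat_lit 0) (nat_lit 3119702109) (nat_lit 53) (nat_lit 5) (nat_lit 55) (nat_lit 4) (nat_lit 53) (nat_lit 4) (nat_lit 506) (nat_lit 361) (nat_lit 333))) (XT.nd (nat_lit 78)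 (nat_lit 76) (nat_lit 0) (XT.lf (nat_lit 0) (nat_lit 5623588358) (nat_lit 76) (nat_lit 10869046085) (nat_lit 76) (nat_lit 5263314401) (nat_lit 52) (nat_lit 4) (nat_lit 53) (nat_lit 5) (nat_lit 53) (nat_lit 4) (nat_lit 507) (nat_lit 361) (nat_lit 332)) (XT.lf (nat_lit 0) (nat_lit 2390953043) (nat_lit 152) (nat_lit 872455173) (nat_lit 76) (nat_lit 18907019234) (nat_lit 51) (nat_lit 5) (nat_lit 53) (nat_lit 5) (nat_lit 52) (nat_lit 4) (nat_lit 508) (nat_lit 361) (nat_lit 331)))))) (XT.nd (nat_lit 624) (nat_lit 608) (nat_lit 0) (XT.nd (nat_lit 312) (nat_lit 304) (nat_lit 0) (XT.nd (nat_lit 156) (nat_lit 152) (nat_lit 0) (XT.nd (nat_lit 78) (nat_lit 76) (nat_lit 0) (XT.lf (nat_lit 0) (nat_lit 10250909430) (nat_lit 152) (nat_lit 7764263229) (nat_lit 0) (nat_lit 4578149778) (nat_lit 50) (nat_lit 5) (nat_lit 52) (nat_lit 4) (nat_lit 50) (nat_lit 4) (nat_lit 509) (nat_lit 361) (nat_lit 330)) (XT.lf (nat_lit 0) (nat_lit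 7904457933) (nat_lit 76) (nat_lit 10453506293) (nat_lit 76) (nat_lit 4670601868) (nat_lit 49) (nat_lit 4) (nat_lit 50) (nat_lit 5) (nat_lit 50) (nat_lit 4) (nat_lit 510) (nat_lit 361) (nat_lit 329))) (XT.nd (nat_lit 78) (nat_lit 0) (nat_lit 0) (XT.lf (nat_lit 0) (nat_lit 497437153) (nat_lit 76) (nat_lit 2649005335) (nat_lit 152) (nat_lit 20330149448) (nat_lit 47) (nat_lit 5) (nat_lit 48) (nat_lit 5) (nat_lit 49) (nat_lit 4) (nat_lit 511) (nat_lit 361) (nat_lit 328)) (XT.lf (nat_lit 0) (nat_lit 11204464108) (nat_lit 152) (nat_lit 7343823954) (nat_lit 0) (nat_lit 5385373710) (nat_lit 47) (nat_lit 5) (nat_lit 49) (nat_lit 4) (nat_lit 47) (nat_lit 4) (nat_lit 512) (nat_lit 361) (nat_lit 327)))) (XT.nd (nat_lit 156) (nat_lit 76) (nat_lit 0) (XT.nd (nat_lit 78) (nat_lit 152) (nat_lit 0) (XT.lf (nat_lit 0) (nat_lit 8701771829) (nat_lit 76) (nat_lit 10809703860) (nat_lit 76) (nat_lit 4892751257) (nat_lit 46) (nat_lit 4)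 (nat_lit 47) (nat_lit 5) (nat_lit 47) (nat_lit 4) (nat_lit 513) (nat_lit 361) (nat_lit 326)) (XT.lf (nat_lit 0) (nat_lit 264025661) (nat_lit 76) (nat_lit 2827595083) (nat_lit 152) (nat_lit 21797126459) (nat_lit 44) (nat_lit 5) (nat_lit 45) (nat_lit 5) (nat_lit 46) (nat_lit 4) (nat_lit 514) (nat_lit 361) (nat_lit 325))) (XT.nd (nat_lit 78) (nat_lit 76) (nat_lit 0) (XT.lf (nat_lit 0) (nat_lit 11326709607) (nat_lit 152) (nat_lit 8656061937) (nat_lit 0) (nat_lit 5400293136) (nat_lit 44) (nat_lit 5) (nat_lit 46) (nat_lit 4) (nat_lit 44) (nat_lit 4) (nat_lit 515) (nat_lit 361) (nat_lit 324)) (XT.lf (nat_lit 0) (nat_lit 7717620862) (nat_lit 76) (nat_lit 12093938000) (nat_lit 76) (nat_lit 6080572228) (nat_lit 43) (nat_lit 4) (nat_lit 44) (nat_lit 5) (nat_lit 44) (nat_lit 4) (nat_lit 516) (nat_lit 361) (nat_lit 323))))) (XT.nd (nat_lit 312) (nat_lit 380) (nat_lit 0) (XT.nd (nat_lit 156) (nat_lit 76) (nat_lit 0) (XT.nd (nat_lit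 78) (nat_lit 76) (nat_lit 0) (XT.lf (nat_lit 0) (nat_lit 2081682850) (nat_lit 152) (nat_lit 1871966381) (nat_lit 76) (nat_lit 22462539816) (nat_lit 42) (nat_lit 5) (nat_lit 44) (nat_lit 5) (nat_lit 43) (nat_lit 4) (nat_lit 517) (nat_lit 361) (nat_lit 322)) (XT.lf (nat_lit 0) (nat_lit 10457576395) (nat_lit 152) (nat_lit 12036029080) (nat_lit 0) (nat_lit 4457828216) (nat_lit 41) (nat_lit 5) (nat_lit 43) (nat_lit 4) (nat_lit 41) (nat_lit 4) (nat_lit 518) (nat_lit 361) (nat_lit 321))) (XT.nd (nat_lit 78) (nat_lit 0) (nat_lit 0) (XT.lf (nat_lit 0) (nat_lit 4602014339) (nat_lit 76) (nat_lit 14488771123) (nat_lit 76) (nat_lit 8411769616) (nat_lit 40) (nat_lit 4) (nat_lit 41) (nat_lit 5) (nat_lit 41) (nat_lit 4) (nat_lit 519) (nat_lit 361) (nat_lit 320)) (XT.lf (nat_lit 0) (nat_lit 21796741999) (nat_lit 76) (nat_lit 6212345252) (nat_lit 76) (nat_lit 60340515) (nat_lit 40) (nat_lit 4) (nat_lit 41) (nat_lit 5) (nat_lit 41)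 (nat_lit 4) (nat_lit 520) (nat_lit 361) (nat_lit 319)))) (XT.nd (nat_lit 156) (nat_lit 228) (nat_lit 0) (XT.nd (nat_lit 78) (nat_lit 0) (nat_lit 0) (XT.lf (nat_lit 0) (nat_lit 8408343968) (nat_lit 152) (nat_lit 17876672153) (nat_lit 0) (nat_lit 2364826096) (nat_lit 38) (nat_lit 5) (nat_lit 40) (nat_lit 4) (nat_lit 38) (nat_lit 4) (nat_lit 521) (nat_lit 361) (nat_lit 318)) (XT.lf (nat_lit 0) (nat_lit 17161855645) (nat_lit 152) (nat_lit 1035137465) (nat_lit 0) (nat_lit 11049699191) (nat_lit 38) (nat_lit 5) (nat_lit 40) (nat_lit 4) (nat_lit 38) (nat_lit 4) (nat_lit 522) (nat_lit 361) (nat_lit 317))) (XT.nd (nat_lit 78) (nat_lit 152) (nat_lit 0) (XT.lf (nat_lit 0) (nat_lit 16452475610) (nat_lit 76) (nat_lit 9792873661) (nat_lit 76) (nat_lit 3614077808) (nat_lit 37) (nat_lit 4) (nat_lit 38) (nat_lit 5) (nat_lit 38) (nat_lit 4) (nat_lit 523) (nat_lit 361) (nat_lit 316)) (XT.lf (nat_lit 0) (nat_lit 3841175377) (nat_lit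 76) (nat_lit 1126642196) (nat_lit 152) (nat_lit 25522550624) (nat_lit 35) (nat_lit 5) (nat_lit 36) (nat_lit 5) (nat_lit 37) (nat_lit 4) (nat_lit 524) (nat_lit 361) (nat_lit 315))))))) (XT.nd (nat_lit 1170) (nat_lit 836) (nat_lit 0) (XT.nd (nat_lit 546) (nat_lit 380) (nat_lit 0) (XT.nd (nat_lit 234) (nat_lit 304) (nat_lit 0) (XT.nd (nat_lit 78) (nat_lit 76) (nat_lit 0) (XT.lf (nat_lit 0) (nat_lit 13855567614) (nat_lit 152) (nat_lit 9547027607) (nat_lit 0) (nat_lit 7732938174) (nat_lit 35) (nat_lit 5) (nat_lit 37) (nat_lit 4) (nat_lit 35) (nat_lit 4) (nat_lit 525) (nat_lit 361) (nat_lit 314)) (XT.nd (nat_lit 78) (nat_lit 0) (nat_lit 0) (XT.lf (nat_lit 0) (nat_lit 8038837386) (nat_lit 76) (nat_lit 14971521016) (nat_lit 76) (nat_lit 8789683333) (nat_lit 34) (nat_lit 4) (nat_lit 35) (nat_lit 5) (nat_lit 35) (nat_lit 4) (nat_lit 526) (nat_lit 361) (nat_lit 313)) (XT.lf (nat_lit 0) (nat_lit 26174622502) (nat_lit 76) (nat_lit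 6274453091) (nat_lit 76) (nat_lit 35131676) (nat_lit 34) (nat_lit 4) (nat_lit 35) (nat_lit 5) (nat_lit 35) (nat_lit 4) (nat_lit 527) (nat_lit 361) (nat_lit 312)))) (XT.nd (nat_lit 156) (nat_lit 152) (nat_lit 0) (XT.nd (nat_lit 78) (nat_lit 0) (nat_lit 0) (XT.lf (nat_lit 0) (nat_lit 8860160499) (nat_lit 152) (nat_lit 21576163186) (nat_lit 0) (nat_lit 2748382963) (nat_lit 32) (nat_lit 5) (nat_lit 34) (nat_lit 4) (nat_lit 32) (nat_lit 4) (nat_lit 528) (nat_lit 361) (nat_lit 311)) (XT.lf (nat_lit 0) (nat_lit 18062714399) (nat_lit 152) (nat_lit 3943932183) (nat_lit 0) (nat_lit 11898331107) (nat_lit 32) (nat_lit 5) (nat_lit 34) (nat_lit 4) (nat_lit 32) (nat_lit 4) (nat_lit 529) (nat_lit 361) (nat_lit 310))) (XT.nd (nat_lit 78) (nat_lit 76) (nat_lit 0) (XT.lf (nat_lit 0) (nat_lit 14331808154) (nat_lit 76) (nat_lit 13264429571) (nat_lit 76) (nat_lit 7048972728) (nat_lit 31) (nat_lit 4) (nat_lit 32) (nat_lit 5) (nat_lit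 32) (nat_lit 4) (nat_lit 530) (nat_lit 361) (nat_lit 309)) (XT.lf (nat_lit 0) (nat_lit 1926307501) (nat_lit 152) (nat_lit 2354638586) (nat_lit 76) (nat_lit 31127404072) (nat_lit 30) (nat_lit 5) (nat_lit 32) (nat_lit 5) (nat_lit 31) (nat_lit 4) (nat_lit 531) (nat_lit 361) (nat_lit 308))))) (XT.nd (nat_lit 312) (nat_lit 152) (nat_lit 0) (XT.nd (nat_lit 156) (nat_lit 152) (nat_lit 0) (XT.nd (nat_lit 78) (nat_lit 0) (nat_lit 0) (XT.lf (nat_lit 0) (nat_lit 11154007098) (nat_lit 152) (nat_lit 20009836673) (nat_lit 0) (nat_lit 5024701725) (nat_lit 29) (nat_lit 5) (nat_lit 31) (nat_lit 4) (nat_lit 29) (nat_lit 4) (nat_lit 532) (nat_lit 361) (nat_lit 307)) (XT.lf (nat_lit 0) (nat_lit 20644560647) (nat_lit 152) (nat_lit 1878128606) (nat_lit 0) (nat_lit 14469877085) (nat_lit 29) (nat_lit 5) (nat_lit 31) (nat_lit 4) (nat_lit 29) (nat_lit 4) (nat_lit 533) (nat_lit 361) (nat_lit 306))) (XT.nd (nat_lit 78) (nat_lit 76) (nat_lit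 0) (XT.lf (nat_lit 0) (nat_lit 16973008390) (nat_lit 76) (nat_lit 13531943087) (nat_lit 76) (nat_lit 7313203032) (nat_lit 28) (nat_lit 4) (nat_lit 29) (nat_lit 5) (nat_lit 29) (nat_lit 4) (nat_lit 534) (nat_lit 361) (nat_lit 305)) (XT.lf (nat_lit 0) (nat_lit 1894904460) (nat_lit 152) (nat_lit 2414857295) (nat_lit 76) (nat_lit 34359939908) (nat_lit 27) (nat_lit 5) (nat_lit 29) (nat_lit 5) (nat_lit 28) (nat_lit 4) (nat_lit 535) (nat_lit 361) (nat_lit 304)))) (XT.nd (nat_lit 156) (nat_lit 76) (nat_lit 0) (XT.nd (nat_lit 78) (nat_lit 0) (nat_lit 0) (XT.lf (nat_lit 0) (nat_lit 11368231235) (nat_lit 152) (nat_lit 22923539000) (nat_lit 0) (nat_lit 5248774128) (nat_lit 26) (nat_lit 5) (nat_lit 28) (nat_lit 4) (nat_lit 26) (nat_lit 4) (nat_lit 536) (nat_lit 361) (nat_lit 303)) (XT.lf (nat_lit 0) (nat_lit 21117366713) (nat_lit 152) (nat_lit 4361631669) (nat_lit 0) (nat_lit 14958765982) (nat_lit 26) (nat_lit 5) (nat_lit 28)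 (nat_lit 4) (nat_lit 26) (nat_lit 4) (nat_lit 537) (nat_lit 361) (nat_lit 302))) (XT.nd (nat_lit 78) (nat_lit 0) (nat_lit 0) (XT.lf (nat_lit 0) (nat_lit 14901047101) (nat_lit 76) (nat_lit 16327682891) (nat_lit 76) (nat_lit 10131078642) (nat_lit 25) (nat_lit 4) (nat_lit 26) (nat_lit 5) (nat_lit 26) (nat_lit 4) (nat_lit 538) (nat_lit 361) (nat_lit 301)) (XT.lf (nat_lit 0) (nat_lit 34685596322) (nat_lit 76) (nat_lit 6929139992) (nat_lit 76) (nat_lit 695639124) (nat_lit 25) (nat_lit 4) (nat_lit 26) (nat_lit 5) (nat_lit 26) (nat_lit 4) (nat_lit 539) (nat_lit 361) (nat_lit 300)))))) (XT.nd (nat_lit 624) (nat_lit 380) (nat_lit 0) (XT.nd (nat_lit 312) (nat_lit 228) (nat_lit 0) (XT.nd (nat_lit 156) (nat_lit 76) (nat_lit 0) (XT.nd (nat_lit 78) (nat_lit 0) (nat_lit 0) (XT.lf (nat_lit 0) (nat_lit 8916399527) (nat_lit 152) (nat_lit 31538691507) (nat_lit 0) (nat_lit 2829678334) (nat_lit 23) (nat_lit 5) (nat_lit 25) (nat_lit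 4) (nat_lit 23) (nat_lit 4) (nat_lit 540) (nat_lit 361) (nat_lit 299)) (XT.lf (nat_lit 0) (nat_lit 18877899419) (nat_lit 152) (nat_lit 12650624275) (nat_lit 0) (nat_lit 12757412593) (nat_lit 23) (nat_lit 5) (nat_lit 25) (nat_lit 4) (nat_lit 23) (nat_lit 4) (nat_lit 541) (nat_lit 361) (nat_lit 298))) (XT.nd (nat_lit 78) (nat_lit 0) (nat_lit 0) (XT.lf (nat_lit 0) (nat_lit 6798253212) (nat_lit 76) (nat_lit 22336134961) (nat_lit 76) (nat_lit 16182865965) (nat_lit 22) (nat_lit 4) (nat_lit 23) (nat_lit 5) (nat_lit 23) (nat_lit 4) (nat_lit 542) (nat_lit 361) (nat_lit 297)) (XT.lf (nat_lit 0) (nat_lit 26952789998) (nat_lit 76) (nat_lit 12805020469) (nat_lit 76) (nat_lit 6619924125) (nat_lit 22) (nat_lit 4) (nat_lit 23) (nat_lit 5) (nat_lit 23) (nat_lit 4) (nat_lit 543) (nat_lit 361) (nat_lit 296)))) (XT.nd (nat_lit 156) (nat_lit 76) (nat_lit 0) (XT.nd (nat_lit 78) (nat_lit 0) (nat_lit 0) (XT.lf (nat_lit 0) (nat_lit 77930980)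 (nat_lit 76) (nat_lit 3022525995) (nat_lit 152) (nat_lit 44370633928) (nat_lit 20) (nat_lit 5) (nat_lit 21) (nat_lit 5) (nat_lit 22) (nat_lit 4) (nat_lit 544) (nat_lit 361) (nat_lit 295)) (XT.lf (nat_lit 0) (nat_lit 13178158210) (nat_lit 152) (nat_lit 28297077272) (nat_lit 0) (nat_lit 7114083443) (nat_lit 20) (nat_lit 5) (nat_lit 22) (nat_lit 4) (nat_lit 20) (nat_lit 4) (nat_lit 545) (nat_lit 361) (nat_lit 294))) (XT.nd (nat_lit 78) (nat_lit 76) (nat_lit 0) (XT.lf (nat_lit 0) (nat_lit 23522936517) (nat_lit 152) (nat_lit 8788631532) (nat_lit 0) (nat_lit 17430583564) (nat_lit 20) (nat_lit 5) (nat_lit 22) (nat_lit 4) (nat_lit 20) (nat_lit 4) (nat_lit 546) (nat_lit 361) (nat_lit 293)) (XT.lf (nat_lit 0) (nat_lit 11400747525) (nat_lit 76) (nat_lit 22823620090) (nat_lit 76) (nat_lit 16703812586) (nat_lit 19) (nat_lit 4) (nat_lit 20) (nat_lit 5) (nat_lit 20) (nat_lit 4) (nat_lit 547) (nat_lit 361) (nat_lit 292))))) (XT.nd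 (nat_lit 312) (nat_lit 228) (nat_lit 0) (XT.nd (nat_lit 156) (nat_lit 0) (nat_lit 0) (XT.nd (nat_lit 78) (nat_lit 152) (nat_lit 0) (XT.lf (nat_lit 0) (nat_lit 32250419620) (nat_lit 76) (nat_lit 13022524773) (nat_lit 76) (nat_lit 6876062367) (nat_lit 19) (nat_lit 4) (nat_lit 20) (nat_lit 5) (nat_lit 20) (nat_lit 4) (nat_lit 548) (nat_lit 361) (nat_lit 291)) (XT.lf (nat_lit 0) (nat_lit 168083548) (nat_lit 76) (nat_lit 2955278274) (nat_lit 152) (nat_lit 50283954470) (nat_lit 17) (nat_lit 5) (nat_lit 18) (nat_lit 5) (nat_lit 19) (nat_lit 4) (nat_lit 549) (nat_lit 361) (nat_lit 290))) (XT.nd (nat_lit 78) (nat_lit 0) (nat_lit 0) (XT.lf (nat_lit 0) (nat_lit 13497367551) (nat_lit 152) (nat_lit 33717170810) (nat_lit 0) (nat_lit 7480410507) (nat_lit 17) (nat_lit 5) (nat_lit 19) (nat_lit 4) (nat_lit 17) (nat_lit 4) (nat_lit 550) (nat_lit 361) (nat_lit 289)) (XT.lf (nat_lit 0) (nat_lit 24152248687) (nat_lit 152) (nat_lit 13758263145)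 (nat_lit 0) (nat_lit 18111609107) (nat_lit 17) (nat_lit 5) (nat_lit 19) (nat_lit 4) (nat_lit 17) (nat_lit 4) (nat_lit 551) (nat_lit 361) (nat_lit 288)))) (XT.nd (nat_lit 156) (nat_lit 152) (nat_lit 0) (XT.nd (nat_lit 78) (nat_lit 0) (nat_lit 0) (XT.lf (nat_lit 0) (nat_lit 6816349545) (nat_lit 76) (nat_lit 28318080754) (nat_lit 76) (nat_lit 22254448420) (nat_lit 16) (nat_lit 4) (nat_lit 17) (nat_lit 5) (nat_lit 17) (nat_lit 4) (nat_lit 552) (nat_lit 361) (nat_lit 287)) (XT.lf (nat_lit 0) (nat_lit 28175295766) (nat_lit 76) (nat_lit 18352424864) (nat_lit 76) (nat_lit 12266469469) (nat_lit 16) (nat_lit 4) (nat_lit 17) (nat_lit 5) (nat_lit 17) (nat_lit 4) (nat_lit 553) (nat_lit 361) (nat_lit 286))) (XT.nd (nat_lit 78) (nat_lit 152) (nat_lit 0) (XT.lf (nat_lit 0) (nat_lit 50063422261) (nat_lit 76) (nat_lit 8143767789) (nat_lit 76) (nat_lit 2036139518) (nat_lit 16) (nat_lit 4) (nat_lit 17) (nat_lit 5) (nat_lit 17) (nat_lit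 4) (nat_lit 554) (nat_lit 361) (nat_lit 285)) (XT.lf (nat_lit 0) (nat_lit 8409506748) (nat_lit 152) (nat_lit 50862414487) (nat_lit 0) (nat_lit 2459341799) (nat_lit 14) (nat_lit 5) (nat_lit 16) (nat_lit 4) (nat_lit 14) (nat_lit 4) (nat_lit 555) (nat_lit 361) (nat_lit 284))))))))
noncomputable def xc25 : XT := (XT.nd (nat_lit 2418) (nat_lit 2052) (nat_lit 0) (XT.nd (nat_lit 1170) (nat_lit 1520) (nat_lit 0) (XT.nd (nat_lit 546) (nat_lit 1064) (nat_lit 0) (XT.nd (nat_lit 234) (nat_lit 684) (nat_lit 0) (XT.nd (nat_lit 78) (nat_lit 380) (nat_lit 0) (XT.lf (nat_lit 0) (nat_lit 5556932859) (nat_lit 152) (nat_lit 466880800) (nat_lit 152) (nat_lit 466880800) (nat_lit 101) (nat_lit 4) (nat_lit 103) (nat_lit 5) (nat_lit 103) (nat_lit 4) (nat_lit 476) (nat_lit 362) (nat_lit 362)) (XT.nd (nat_lit 78) (nat_lit 152) (nat_lit 0) (XT.lf (nat_lit 0) (nat_lit 5239433190) (nat_lit 228) (nat_lit 3110266948) (nat_lit 0) (nat_lit 4822910174)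 (nat_lit 98) (nat_lit 5) (nat_lit 101) (nat_lit 4) (nat_lit 98) (nat_lit 4) (nat_lit 477) (nat_lit 362) (nat_lit 361)) (XT.lf (nat_lit 0) (nat_lit 8939332524) (nat_lit 152) (nat_lit 2625648986) (nat_lit 152) (nat_lit 1804734692) (nat_lit 96) (nat_lit 4) (nat_lit 98) (nat_lit 5) (nat_lit 98) (nat_lit 4) (nat_lit 478) (nat_lit 362) (nat_lit 360)))) (XT.nd (nat_lit 156) (nat_lit 304) (nat_lit 0) (XT.nd (nat_lit 78) (nat_lit 152) (nat_lit 0) (XT.lf (nat_lit 0) (nat_lit 4429277030) (nat_lit 228) (nat_lit 5890775618) (nat_lit 0) (nat_lit 3251095298) (nat_lit 93) (nat_lit 5) (nat_lit 96) (nat_lit 4) (nat_lit 93) (nat_lit 4) (nat_lit 479) (nat_lit 362) (nat_lit 359)) (XT.lf (nat_lit 0) (nat_lit 6310307735) (nat_lit 152) (nat_lit 4507955885) (nat_lit 152) (nat_lit 2959698847) (nat_lit 91) (nat_lit 4) (nat_lit 93) (nat_lit 5) (nat_lit 93) (nat_lit 4) (nat_lit 480) (nat_lit 362) (nat_lit 358))) (XT.nd (nat_lit 78) (nat_lit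 152) (nat_lit 0) (XT.lf (nat_lit 0) (nat_lit 3335117475) (nat_lit 152) (nat_lit 9171949495) (nat_lit 0) (nat_lit 1483123834) (nat_lit 89) (nat_lit 5) (nat_lit 91) (nat_lit 4) (nat_lit 89) (nat_lit 4) (nat_lit 481) (nat_lit 362) (nat_lit 357)) (XT.lf (nat_lit 0) (nat_lit 3169284185) (nat_lit 152) (nat_lit 6614280966) (nat_lit 152) (nat_lit 4423615997) (nat_lit 87) (nat_lit 4) (nat_lit 89) (nat_lit 5) (nat_lit 89) (nat_lit 4) (nat_lit 482) (nat_lit 362) (nat_lit 356))))) (XT.nd (nat_lit 312) (nat_lit 608) (nat_lit 0) (XT.nd (nat_lit 156) (nat_lit 304) (nat_lit 0) (XT.nd (nat_lit 78) (nat_lit 0) (nat_lit 0) (XT.lf (nat_lit 0) (nat_lit 1410962151) (nat_lit 76) (nat_lit 525212349) (nat_lit 152) (nat_lit 12494524350) (nat_lit 85) (nat_lit 5) (nat_lit 86) (nat_lit 5) (nat_lit 87) (nat_lit 4) (nat_lit 483) (nat_lit 362) (nat_lit 355)) (XT.lf (nat_lit 0) (nat_lit 8439247745) (nat_lit 152) (nat_lit 535894588) (nat_lit 0)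 (nat_lit 5683226101) (nat_lit 85) (nat_lit 5) (nat_lit 87) (nat_lit 4) (nat_lit 85) (nat_lit 4) (nat_lit 484) (nat_lit 362) (nat_lit 354))) (XT.nd (nat_lit 78) (nat_lit 76) (nat_lit 0) (XT.lf (nat_lit 0) (nat_lit 240752571) (nat_lit 228) (nat_lit 2568199011) (nat_lit 76) (nat_lit 12083818767) (nat_lit 82) (nat_lit 5) (nat_lit 85) (nat_lit 5) (nat_lit 83) (nat_lit 4) (nat_lit 485) (nat_lit 362) (nat_lit 353)) (XT.lf (nat_lit 0) (nat_lit 6786557966) (nat_lit 152) (nat_lit 4810251127) (nat_lit 0) (nat_lit 3535036028) (nat_lit 81) (nat_lit 5) (nat_lit 83) (nat_lit 4) (nat_lit 81) (nat_lit 4) (nat_lit 486) (nat_lit 362) (nat_lit 352)))) (XT.nd (nat_lit 156) (nat_lit 304) (nat_lit 0) (XT.nd (nat_lit 78) (nat_lit 152) (nat_lit 0) (XT.lf (nat_lit 0) (nat_lit 8173517057) (nat_lit 152) (nat_lit 5365579526) (nat_lit 152) (nat_lit 1838686806) (nat_lit 79) (nat_lit 4) (nat_lit 81) (nat_lit 5) (nat_lit 81) (nat_lit 4) (nat_lit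 487) (nat_lit 362) (nat_lit 351)) (XT.lf (nat_lit 0) (nat_lit 4762034465) (nat_lit 152) (nat_lit 9789546838) (nat_lit 0) (nat_lit 1078303403) (nat_lit 77) (nat_lit 5) (nat_lit 79) (nat_lit 4) (nat_lit 77) (nat_lit 4) (nat_lit 488) (nat_lit 362) (nat_lit 350))) (XT.nd (nat_lit 78) (nat_lit 152) (nat_lit 0) (XT.lf (nat_lit 0) (nat_lit 3297087189) (nat_lit 152) (nat_lit 8263277808) (nat_lit 152) (nat_lit 4327543470) (nat_lit 75) (nat_lit 4) (nat_lit 77) (nat_lit 5) (nat_lit 77) (nat_lit 4) (nat_lit 489) (nat_lit 362) (nat_lit 349)) (XT.lf (nat_lit 0) (nat_lit 581557575) (nat_lit 76) (nat_lit 1764233205) (nat_lit 152) (nat_lit 13807674432) (nat_lit 73) (nat_lit 5) (nat_lit 74) (nat_lit 5) (nat_lit 75) (nat_lit 4) (nat_lit 490) (nat_lit 362) (nat_lit 348)))))) (XT.nd (nat_lit 624) (nat_lit 684) (nat_lit 0) (XT.nd (nat_lit 312) (nat_lit 380) (nat_lit 0) (XT.nd (nat_lit 156) (nat_lit 304) (nat_lit 0) (XT.nd (nat_lit 78)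 (nat_lit 152) (nat_lit 0) (XT.lf (nat_lit 0) (nat_lit 9186819267) (nat_lit 152) (nat_lit 2339689454) (nat_lit 0) (nat_lit 4897562018) (nat_lit 73) (nat_lit 5) (nat_lit 75) (nat_lit 4) (nat_lit 73) (nat_lit 4) (nat_lit 491) (nat_lit 362) (nat_lit 347)) (XT.lf (nat_lit 0) (nat_lit 11266411350) (nat_lit 152) (nat_lit 4974652040) (nat_lit 152) (nat_lit 461493145) (nat_lit 71) (nat_lit 4) (nat_lit 73) (nat_lit 5) (nat_lit 73) (nat_lit 4) (nat_lit 492) (nat_lit 362) (nat_lit 346))) (XT.nd (nat_lit 78) (nat_lit 152) (nat_lit 0) (XT.lf (nat_lit 0) (nat_lit 6393151547) (nat_lit 152) (nat_lit 8793888459) (nat_lit 0) (nat_lit 1800395107) (nat_lit 69) (nat_lit 5) (nat_lit 71) (nat_lit 4) (nat_lit 69) (nat_lit 4) (nat_lit 493) (nat_lit 362) (nat_lit 345)) (XT.lf (nat_lit 0) (nat_lit 4879349142) (nat_lit 152) (nat_lit 8599003854) (nat_lit 152) (nat_lit 3801345691) (nat_lit 67) (nat_lit 4) (nat_lit 69) (nat_lit 5) (nat_lit 69)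 (nat_lit 4) (nat_lit 494) (nat_lit 362) (nat_lit 344)))) (XT.nd (nat_lit 156) (nat_lit 228) (nat_lit 0) (XT.nd (nat_lit 78) (nat_lit 0) (nat_lit 0) (XT.lf (nat_lit 0) (nat_lit 1333437962) (nat_lit 76) (nat_lit 1784803337) (nat_lit 152) (nat_lit 14462012381) (nat_lit 65) (nat_lit 5) (nat_lit 66) (nat_lit 5) (nat_lit 67) (nat_lit 4) (nat_lit 495) (nat_lit 362) (nat_lit 343)) (XT.lf (nat_lit 0) (nat_lit 10228728146) (nat_lit 152) (nat_lit 2468024006) (nat_lit 0) (nat_lit 5190153970) (nat_lit 65) (nat_lit 5) (nat_lit 67) (nat_lit 4) (nat_lit 65) (nat_lit 4) (nat_lit 496) (nat_lit 362) (nat_lit 342))) (XT.nd (nat_lit 78) (nat_lit 152) (nat_lit 0) (XT.lf (nat_lit 0) (nat_lit 11715457538) (nat_lit 76) (nat_lit 5853714681) (nat_lit 76) (nat_lit 633087977) (nat_lit 64) (nat_lit 4) (nat_lit 65) (nat_lit 5) (nat_lit 65) (nat_lit 4) (nat_lit 497) (nat_lit 362) (nat_lit 341)) (XT.lf (nat_lit 0) (nat_lit 6471784553) (nat_lit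 152) (nat_lit 10821838342) (nat_lit 0) (nat_lit 1231612970) (nat_lit 62) (nat_lit 5) (nat_lit 64) (nat_lit 4) (nat_lit 62) (nat_lit 4) (nat_lit 498) (nat_lit 362) (nat_lit 340))))) (XT.nd (nat_lit 312) (nat_lit 380) (nat_lit 0) (XT.nd (nat_lit 156) (nat_lit 152) (nat_lit 0) (XT.nd (nat_lit 78) (nat_lit 76) (nat_lit 0) (XT.lf (nat_lit 0) (nat_lit 3377446574) (nat_lit 76) (nat_lit 10442872812) (nat_lit 76) (nat_lit 5036097377) (nat_lit 61) (nat_lit 4) (nat_lit 62) (nat_lit 5) (nat_lit 62) (nat_lit 4) (nat_lit 499) (nat_lit 362) (nat_lit 339)) (XT.lf (nat_lit 0) (nat_lit 2146129755) (nat_lit 152) (nat_lit 1211883343) (nat_lit 76) (nat_lit 15838975422) (nat_lit 60) (nat_lit 5) (nat_lit 62) (nat_lit 5) (nat_lit 61) (nat_lit 4) (nat_lit 500) (nat_lit 362) (nat_lit 338))) (XT.nd (nat_lit 78) (nat_lit 76) (nat_lit 0) (XT.lf (nat_lit 0) (nat_lit 9500915519) (nat_lit 152) (nat_lit 6101505046) (nat_lit 0) (nat_lit 3942112745)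 (nat_lit 59) (nat_lit 5) (nat_lit 61) (nat_lit 4) (nat_lit 59) (nat_lit 4) (nat_lit 501) (nat_lit 362) (nat_lit 337)) (XT.lf (nat_lit 0) (nat_lit 8580562335) (nat_lit 76) (nat_lit 8514110744) (nat_lit 76) (nat_lit 2807282606) (nat_lit 58) (nat_lit 4) (nat_lit 59) (nat_lit 5) (nat_lit 59) (nat_lit 4) (nat_lit 502) (nat_lit 362) (nat_lit 336)))) (XT.nd (nat_lit 156) (nat_lit 228) (nat_lit 0) (XT.nd (nat_lit 78) (nat_lit 0) (nat_lit 0) (XT.lf (nat_lit 0) (nat_lit 3366447655) (nat_lit 76) (nat_lit 1173941379) (nat_lit 152) (nat_lit 15728825595) (nat_lit 56) (nat_lit 5) (nat_lit 57) (nat_lit 5) (nat_lit 58) (nat_lit 4) (nat_lit 503) (nat_lit 362) (nat_lit 335)) (XT.lf (nat_lit 0) (nat_lit 12119404884) (nat_lit 152) (nat_lit 2221430716) (nat_lit 0) (nat_lit 6303802760) (nat_lit 56) (nat_lit 5) (nat_lit 58) (nat_lit 4) (nat_lit 56) (nat_lit 4) (nat_lit 504) (nat_lit 362) (nat_lit 334))) (XT.nd (nat_lit 78) (nat_lit 152)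 (nat_lit 0) (XT.lf (nat_lit 0) (nat_lit 12933278507) (nat_lit 76) (nat_lit 7022139600) (nat_lit 76) (nat_lit 1075018856) (nat_lit 55) (nat_lit 4) (nat_lit 56) (nat_lit 5) (nat_lit 56) (nat_lit 4) (nat_lit 505) (nat_lit 362) (nat_lit 333)) (XT.lf (nat_lit 0) (nat_lit 6459398218) (nat_lit 152) (nat_lit 14405299811) (nat_lit 0) (nat_lit 561525671) (nat_lit 53) (nat_lit 5) (nat_lit 55) (nat_lit 4) (nat_lit 53) (nat_lit 4) (nat_lit 506) (nat_lit 362) (nat_lit 332))))))) (XT.nd (nat_lit 1170) (nat_lit 912) (nat_lit 0) (XT.nd (nat_lit 546) (nat_lit 608) (nat_lit 0) (XT.nd (nat_lit 234) (nat_lit 304) (nat_lit 0) (XT.nd (nat_lit 78) (nat_lit 152) (nat_lit 0) (XT.lf (nat_lit 0) (nat_lit 650776075) (nat_lit 76) (nat_lit 13599726206) (nat_lit 76) (nat_lit 7581495491) (nat_lit 52) (nat_lit 4) (nat_lit 53) (nat_lit 5) (nat_lit 53) (nat_lit 4) (nat_lit 507) (nat_lit 362) (nat_lit 331)) (XT.nd (nat_lit 78) (nat_lit 76) (nat_lit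 0) (XT.lf (nat_lit 0) (nat_lit 65778519) (nat_lit 152) (nat_lit 6001552909) (nat_lit 76) (nat_lit 16181380760) (nat_lit 51) (nat_lit 5) (nat_lit 53) (nat_lit 5) (nat_lit 52) (nat_lit 4) (nat_lit 508) (nat_lit 362) (nat_lit 330)) (XT.lf (nat_lit 0) (nat_lit 7795835654) (nat_lit 152) (nat_lit 13150369576) (nat_lit 0) (nat_lit 1729299323) (nat_lit 50) (nat_lit 5) (nat_lit 52) (nat_lit 4) (nat_lit 50) (nat_lit 4) (nat_lit 509) (nat_lit 362) (nat_lit 329)))) (XT.nd (nat_lit 156) (nat_lit 152) (nat_lit 0) (XT.nd (nat_lit 78) (nat_lit 76) (nat_lit 0) (XT.lf (nat_lit 0) (nat_lit 2309576153) (nat_lit 76) (nat_lit 13488889101) (nat_lit 76) (nat_lit 7315416097) (nat_lit 49) (nat_lit 4) (nat_lit 50) (nat_lit 5) (nat_lit 50) (nat_lit 4) (nat_lit 510) (nat_lit 362) (nat_lit 328)) (XT.lf (nat_lit 0) (nat_lit 497843137) (nat_lit 152) (nat_lit 5266673446) (nat_lit 76) (nat_lit 17799815531) (nat_lit 48) (nat_lit 5) (nat_lit 50)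 (nat_lit 5) (nat_lit 49) (nat_lit 4) (nat_lit 511) (nat_lit 362) (nat_lit 327))) (XT.nd (nat_lit 78) (nat_lit 76) (nat_lit 0) (XT.lf (nat_lit 0) (nat_lit 8423216982) (nat_lit 152) (nat_lit 13371271161) (nat_lit 0) (nat_lit 2230893596) (nat_lit 47) (nat_lit 5) (nat_lit 49) (nat_lit 4) (nat_lit 47) (nat_lit 4) (nat_lit 512) (nat_lit 362) (nat_lit 326)) (XT.lf (nat_lit 0) (nat_lit 2455654247) (nat_lit 76) (nat_lit 14165450972) (nat_lit 76) (nat_lit 7878115738) (nat_lit 46) (nat_lit 4) (nat_lit 47) (nat_lit 5) (nat_lit 47) (nat_lit 4) (nat_lit 513) (nat_lit 362) (nat_lit 325))))) (XT.nd (nat_lit 312) (nat_lit 380) (nat_lit 0) (XT.nd (nat_lit 156) (nat_lit 76) (nat_lit 0) (XT.nd (nat_lit 78) (nat_lit 76) (nat_lit 0) (XT.lf (nat_lit 0) (nat_lit 112918731) (nat_lit 152) (nat_lit 6150354723) (nat_lit 76) (nat_lit 18722876783) (nat_lit 45) (nat_lit 5) (nat_lit 47) (nat_lit 5) (nat_lit 46) (nat_lit 4) (nat_lit 514) (nat_lit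 362) (nat_lit 324)) (XT.lf (nat_lit 0) (nat_lit 8205084806) (nat_lit 152) (nat_lit 15355302145) (nat_lit 0) (nat_lit 1924368760) (nat_lit 44) (nat_lit 5) (nat_lit 46) (nat_lit 4) (nat_lit 44) (nat_lit 4) (nat_lit 515) (nat_lit 362) (nat_lit 323))) (XT.nd (nat_lit 78) (nat_lit 0) (nat_lit 0) (XT.lf (nat_lit 0) (nat_lit 789135718) (nat_lit 76) (nat_lit 15786622415) (nat_lit 76) (nat_lit 9421489572) (nat_lit 43) (nat_lit 4) (nat_lit 44) (nat_lit 5) (nat_lit 44) (nat_lit 4) (nat_lit 516) (nat_lit 362) (nat_lit 322)) (XT.lf (nat_lit 0) (nat_lit 17543635214) (nat_lit 76) (nat_lit 7713393220) (nat_lit 76) (nat_lit 1266302322) (nat_lit 43) (nat_lit 4) (nat_lit 44) (nat_lit 5) (nat_lit 44) (nat_lit 4) (nat_lit 517) (nat_lit 362) (nat_lit 321)))) (XT.nd (nat_lit 156) (nat_lit 228) (nat_lit 0) (XT.nd (nat_lit 78) (nat_lit 0) (nat_lit 0) (XT.lf (nat_lit 0) (nat_lit 6980282366) (nat_lit 152) (nat_lit 19439561568) (nat_lit 0)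 (nat_lit 643717487) (nat_lit 41) (nat_lit 5) (nat_lit 43) (nat_lit 4) (nat_lit 41) (nat_lit 4) (nat_lit 518) (nat_lit 362) (nat_lit 320)) (XT.lf (nat_lit 0) (nat_lit 15523133223) (nat_lit 152) (nat_lit 2982695492) (nat_lit 0) (nat_lit 9111565112) (nat_lit 41) (nat_lit 5) (nat_lit 43) (nat_lit 4) (nat_lit 41) (nat_lit 4) (nat_lit 519) (nat_lit 362) (nat_lit 319))) (XT.nd (nat_lit 78) (nat_lit 152) (nat_lit 0) (XT.lf (nat_lit 0) (nat_lit 14062191048) (nat_lit 76) (nat_lit 10304354597) (nat_lit 76) (nat_lit 3819967815) (nat_lit 40) (nat_lit 4) (nat_lit 41) (nat_lit 5) (nat_lit 41) (nat_lit 4) (nat_lit 520) (nat_lit 362) (nat_lit 318)) (XT.lf (nat_lit 0) (nat_lit 2735508350) (nat_lit 76) (nat_lit 1841138383) (nat_lit 152) (nat_lit 24195728636) (nat_lit 38) (nat_lit 5) (nat_lit 39) (nat_lit 5) (nat_lit 40) (nat_lit 4) (nat_lit 521) (nat_lit 362) (nat_lit 317)))))) (XT.nd (nat_lit 624) (nat_lit 456) (nat_lit 0) (XT.nd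 (nat_lit 312) (nat_lit 228) (nat_lit 0) (XT.nd (nat_lit 156) (nat_lit 152) (nat_lit 0) (XT.nd (nat_lit 78) (nat_lit 76) (nat_lit 0) (XT.lf (nat_lit 0) (nat_lit 13267743680) (nat_lit 152) (nat_lit 9266409903) (nat_lit 0) (nat_lit 6836944553) (nat_lit 38) (nat_lit 5) (nat_lit 40) (nat_lit 4) (nat_lit 38) (nat_lit 4) (nat_lit 522) (nat_lit 362) (nat_lit 316)) (XT.lf (nat_lit 0) (nat_lit 7969479341) (nat_lit 76) (nat_lit 14256800059) (nat_lit 76) (nat_lit 7761302486) (nat_lit 37) (nat_lit 4) (nat_lit 38) (nat_lit 5) (nat_lit 38) (nat_lit 4) (nat_lit 523) (nat_lit 362) (nat_lit 315))) (XT.nd (nat_lit 78) (nat_lit 76) (nat_lit 0) (XT.lf (nat_lit 0) (nat_lit 821200736) (nat_lit 152) (nat_lit 4891274103) (nat_lit 76) (nat_lit 24909653940) (nat_lit 36) (nat_lit 5) (nat_lit 38) (nat_lit 5) (nat_lit 37) (nat_lit 4) (nat_lit 524) (nat_lit 362) (nat_lit 314)) (XT.lf (nat_lit 0) (nat_lit 9573080467) (nat_lit 152) (nat_lit 18551710423)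 (nat_lit 0) (nat_lit 3146579410) (nat_lit 35) (nat_lit 5) (nat_lit 37) (nat_lit 4) (nat_lit 35) (nat_lit 4) (nat_lit 525) (nat_lit 362) (nat_lit 313)))) (XT.nd (nat_lit 156) (nat_lit 152) (nat_lit 0) (XT.nd (nat_lit 78) (nat_lit 76) (nat_lit 0) (XT.lf (nat_lit 0) (nat_lit 18608499923) (nat_lit 152) (nat_lit 1206444931) (nat_lit 0) (nat_lit 12124515135) (nat_lit 35) (nat_lit 5) (nat_lit 37) (nat_lit 4) (nat_lit 35) (nat_lit 4) (nat_lit 526) (nat_lit 362) (nat_lit 312)) (XT.lf (nat_lit 0) (nat_lit 16822417644) (nat_lit 76) (nat_lit 11171303596) (nat_lit 76) (nat_lit 4631509360) (nat_lit 34) (nat_lit 4) (nat_lit 35) (nat_lit 5) (nat_lit 35) (nat_lit 4) (nat_lit 527) (nat_lit 362) (nat_lit 311))) (XT.nd (nat_lit 78) (nat_lit 0) (nat_lit 0) (XT.lf (nat_lit 0) (nat_lit 1916268693) (nat_lit 76) (nat_lit 2275971138) (nat_lit 152) (nat_lit 29139652881) (nat_lit 32) (nat_lit 5) (nat_lit 33) (nat_lit 5) (nat_lit 34) (nat_lit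 4) (nat_lit 528) (nat_lit 362) (nat_lit 310)) (XT.lf (nat_lit 0) (nat_lit 13332091420) (nat_lit 152) (nat_lit 13842856267) (nat_lit 0) (nat_lit 6879097320) (nat_lit 32) (nat_lit 5) (nat_lit 34) (nat_lit 4) (nat_lit 32) (nat_lit 4) (nat_lit 529) (nat_lit 362) (nat_lit 309))))) (XT.nd (nat_lit 312) (nat_lit 228) (nat_lit 0) (XT.nd (nat_lit 156) (nat_lit 152) (nat_lit 0) (XT.nd (nat_lit 78) (nat_lit 0) (nat_lit 0) (XT.lf (nat_lit 0) (nat_lit 4155332257) (nat_lit 76) (nat_lit 18572824748) (nat_lit 76) (nat_lit 12070244677) (nat_lit 31) (nat_lit 4) (nat_lit 32) (nat_lit 5) (nat_lit 32) (nat_lit 4) (nat_lit 530) (nat_lit 362) (nat_lit 308)) (XT.lf (nat_lit 0) (nat_lit 22818489728) (nat_lit 76) (nat_lit 9647758580) (nat_lit 76) (nat_lit 3097036790) (nat_lit 31) (nat_lit 4) (nat_lit 32) (nat_lit 5) (nat_lit 32) (nat_lit 4) (nat_lit 531) (nat_lit 362) (nat_lit 307))) (XT.nd (nat_lit 78) (nat_lit 0) (nat_lit 0) (XT.lf (nat_lit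 0) (nat_lit 5584658080) (nat_lit 76) (nat_lit 416385961) (nat_lit 152) (nat_lit 30349031271) (nat_lit 29) (nat_lit 5) (nat_lit 30) (nat_lit 5) (nat_lit 31) (nat_lit 4) (nat_lit 532) (nat_lit 362) (nat_lit 306)) (XT.lf (nat_lit 0) (nat_lit 15449154509) (nat_lit 152) (nat_lit 12706419337) (nat_lit 0) (nat_lit 8999795759) (nat_lit 29) (nat_lit 5) (nat_lit 31) (nat_lit 4) (nat_lit 29) (nat_lit 4) (nat_lit 533) (nat_lit 362) (nat_lit 305)))) (XT.nd (nat_lit 156) (nat_lit 152) (nat_lit 0) (XT.nd (nat_lit 78) (nat_lit 0) (nat_lit 0) (XT.lf (nat_lit 0) (nat_lit 5853252799) (nat_lit 76) (nat_lit 19312081750) (nat_lit 76) (nat_lit 12819949706) (nat_lit 28) (nat_lit 4) (nat_lit 29) (nat_lit 5) (nat_lit 29) (nat_lit 4) (nat_lit 534) (nat_lit 362) (nat_lit 304)) (XT.lf (nat_lit 0) (nat_lit 25080475399) (nat_lit 76) (nat_lit 10145840642) (nat_lit 76) (nat_lit 3612181127) (nat_lit 28) (nat_lit 4) (nat_lit 29) (nat_lit 5) (nat_lit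 29) (nat_lit 4) (nat_lit 535) (nat_lit 362) (nat_lit 303))) (XT.nd (nat_lit 78) (nat_lit 0) (nat_lit 0) (XT.lf (nat_lit 0) (nat_lit 5062744984) (nat_lit 76) (nat_lit 669630597) (nat_lit 152) (nat_lit 33983983805) (nat_lit 26) (nat_lit 5) (nat_lit 27) (nat_lit 5) (nat_lit 28) (nat_lit 4) (nat_lit 536) (nat_lit 362) (nat_lit 302)) (XT.lf (nat_lit 0) (nat_lit 15438875026) (nat_lit 152) (nat_lit 16157614448) (nat_lit 0) (nat_lit 9018369132) (nat_lit 26) (nat_lit 5) (nat_lit 28) (nat_lit 4) (nat_lit 26) (nat_lit 4) (nat_lit 537) (nat_lit 362) (nat_lit 301))))))))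
noncomputable def xc26 : XT := (XT.nd (nat_lit 58500) (nat_lit 0) (nat_lit 2128) (XT.nd (nat_lit 1170) (nat_lit 152) (nat_lit 0) (XT.nd (nat_lit 546) (nat_lit 380) (nat_lit 0) (XT.nd (nat_lit 234) (nat_lit 152) (nat_lit 0) (XT.nd (nat_lit 78) (nat_lit 76) (nat_lit 0) (XT.lf (nat_lit 0) (nat_lit 2798666117) (nat_lit 76) (nat_lit 22600091907) (nat_lit 76) (nat_lit 16142689394) (nat_lit 25) (nat_lit 4) (nat_lit 26) (nat_lit 5) (nat_lit 26) (nat_lit 4) (nat_lit 538) (nat_lit 362) (nat_lit 300)) (XT.nd (nat_lit 78) (nat_lit 76) (nat_lit 0) (XT.lf (nat_lit 0) (nat_lit 22513666776) (nat_lit 76) (nat_lit 13236307871) (nat_lit 76) (nat_lit 6743083396) (nat_lit 25) (nat_lit 4) (nat_lit 26) (nat_lit 5) (nat_lit 26) (nat_lit 4) (nat_lit 539) (nat_lit 362) (nat_lit 299)) (XT.lf (nat_lit 0) (nat_lit 2811924621) (nat_lit 152) (nat_lit 819796095) (nat_lit 76) (nat_lit 39842726473) (nat_lit 24) (nat_lit 5) (nat_lit 26) (nat_lit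 5) (nat_lit 25) (nat_lit 4) (nat_lit 540) (nat_lit 362) (nat_lit 298)))) (XT.nd (nat_lit 156) (nat_lit 76) (nat_lit 0) (XT.nd (nat_lit 78) (nat_lit 0) (nat_lit 0) (XT.lf (nat_lit 0) (nat_lit 12696306215) (nat_lit 152) (nat_lit 25455964580) (nat_lit 0) (nat_lit 6325656981) (nat_lit 23) (nat_lit 5) (nat_lit 25) (nat_lit 4) (nat_lit 23) (nat_lit 4) (nat_lit 541) (nat_lit 362) (nat_lit 297)) (XT.lf (nat_lit 0) (nat_lit 22854347763) (nat_lit 152) (nat_lit 6205980215) (nat_lit 0) (nat_lit 16451871181) (nat_lit 23) (nat_lit 5) (nat_lit 25) (nat_lit 4) (nat_lit 23) (nat_lit 4) (nat_lit 542) (nat_lit 362) (nat_lit 296))) (XT.nd (nat_lit 78) (nat_lit 0) (nat_lit 0) (XT.lf (nat_lit 0) (nat_lit 13759460040) (nat_lit 76) (nat_lit 19624702417) (nat_lit 76) (nat_lit 13191325497) (nat_lit 22) (nat_lit 4) (nat_lit 23) (nat_lit 5) (nat_lit 23) (nat_lit 4) (nat_lit 543) (nat_lit 362) (nat_lit 295)) (XT.lf (nat_lit 0) (nat_lit 34321819554)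 (nat_lit 76) (nat_lit 9906145265) (nat_lit 76) (nat_lit 3442768016) (nat_lit 22) (nat_lit 4) (nat_lit 23) (nat_lit 5) (nat_lit 23) (nat_lit 4) (nat_lit 544) (nat_lit 362) (nat_lit 294))))) (XT.nd (nat_lit 312) (nat_lit 152) (nat_lit 0) (XT.nd (nat_lit 156) (nat_lit 76) (nat_lit 0) (XT.nd (nat_lit 78) (nat_lit 0) (nat_lit 0) (XT.lf (nat_lit 0) (nat_lit 6471668647) (nat_lit 152) (nat_lit 42156931574) (nat_lit 0) (nat_lit 168266918) (nat_lit 20) (nat_lit 5) (nat_lit 22) (nat_lit 4) (nat_lit 20) (nat_lit 4) (nat_lit 545) (nat_lit 362) (nat_lit 293)) (XT.lf (nat_lit 0) (nat_lit 16785273793) (nat_lit 152) (nat_lit 22710943816) (nat_lit 0) (nat_lit 10454417514) (nat_lit 20) (nat_lit 5) (nat_lit 22) (nat_lit 4) (nat_lit 20) (nat_lit 4) (nat_lit 546) (nat_lit 362) (nat_lit 292))) (XT.nd (nat_lit 78) (nat_lit 76) (nat_lit 0) (XT.lf (nat_lit 0) (nat_lit 27346848726) (nat_lit 152) (nat_lit 2804673222) (nat_lit 0) (nat_lit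 20989337544) (nat_lit 20) (nat_lit 5) (nat_lit 22) (nat_lit 4) (nat_lit 20) (nat_lit 4) (nat_lit 547) (nat_lit 362) (nat_lit 291)) (XT.lf (nat_lit 0) (nat_lit 17929136058) (nat_lit 76) (nat_lit 20408831773) (nat_lit 76) (nat_lit 14025442045) (nat_lit 19) (nat_lit 4) (nat_lit 20) (nat_lit 5) (nat_lit 20) (nat_lit 4) (nat_lit 548) (nat_lit 362) (nat_lit 290)))) (XT.nd (nat_lit 156) (nat_lit 0) (nat_lit 0) (XT.nd (nat_lit 78) (nat_lit 152) (nat_lit 0) (XT.lf (nat_lit 0) (nat_lit 39224112895) (nat_lit 76) (nat_lit 10403980206) (nat_lit 76) (nat_lit 3995465675) (nat_lit 19) (nat_lit 4) (nat_lit 20) (nat_lit 5) (nat_lit 20) (nat_lit 4) (nat_lit 549) (nat_lit 362) (nat_lit 289)) (XT.lf (nat_lit 0) (nat_lit 6180077198) (nat_lit 76) (nat_lit 33215777) (nat_lit 152) (nat_lit 48706347060) (nat_lit 17) (nat_lit 5) (nat_lit 18) (nat_lit 5) (nat_lit 19) (nat_lit 4) (nat_lit 550) (nat_lit 362) (nat_lit 288))) (XT.nd (nat_lit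 78) (nat_lit 0) (nat_lit 0) (XT.lf (nat_lit 0) (nat_lit 16839347984) (nat_lit 152) (nat_lit 28837515062) (nat_lit 0) (nat_lit 10570813927) (nat_lit 17) (nat_lit 5) (nat_lit 19) (nat_lit 4) (nat_lit 17) (nat_lit 4) (nat_lit 551) (nat_lit 362) (nat_lit 287)) (XT.lf (nat_lit 0) (nat_lit 27728330135) (nat_lit 152) (nat_lit 8451427668) (nat_lit 0) (nat_lit 21437473016) (nat_lit 17) (nat_lit 5) (nat_lit 19) (nat_lit 4) (nat_lit 17) (nat_lit 4) (nat_lit 552) (nat_lit 362) (nat_lit 286)))))) (XT.nd (nat_lit 56706) (nat_lit 0) (nat_lit 5016) (XT.nd (nat_lit 56394) (nat_lit 0) (nat_lit 6156) (XT.nd (nat_lit 156) (nat_lit 76) (nat_lit 0) (XT.nd (nat_lit 78) (nat_lit 0) (nat_lit 0) (XT.lf (nat_lit 0) (nat_lit 12684349057) (nat_lit 76) (nat_lit 26327015447) (nat_lit 76) (nat_lit 20014485452) (nat_lit 16) (nat_lit 4) (nat_lit 17) (nat_lit 5) (nat_lit 17) (nat_lit 4) (nat_lit 553) (nat_lit 362) (nat_lit 285)) (XT.lf (nat_lit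 0) (nat_lit 34519107091) (nat_lit 76) (nat_lit 16145126027) (nat_lit 76) (nat_lit 9811554406) (nat_lit 16) (nat_lit 4) (nat_lit 17) (nat_lit 5) (nat_lit 17) (nat_lit 4) (nat_lit 554) (nat_lit 362) (nat_lit 284))) (XT.nd (nat_lit 56160) (nat_lit 0) (nat_lit 6688) (XT.lf (nat_lit 0) (nat_lit 630908471) (nat_lit 152) (nat_lit 5073256187) (nat_lit 76) (nat_lit 56266445957) (nat_lit 15) (nat_lit 5) (nat_lit 17) (nat_lit 5) (nat_lit 16) (nat_lit 4) (nat_lit 555) (nat_lit 362) (nat_lit 283)) (XT.lf (nat_lit 0) (nat_lit 97811271) (nat_lit 228) (nat_lit 6109352717) (nat_lit 0) (nat_lit 97811271) (nat_lit 103) (nat_lit 5) (nat_lit 106) (nat_lit 4) (nat_lit 103) (nat_lit 4) (nat_lit 474) (nat_lit 363) (nat_lit 363)))) (XT.nd (nat_lit 156) (nat_lit 380) (nat_lit 0) (XT.nd (nat_lit 78) (nat_lit 152) (nat_lit 0) (XT.lf (nat_lit 0) (nat_lit 6230415688) (nat_lit 228) (nat_lit 774621573) (nat_lit 0) (nat_lit 5788526420) (nat_lit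 103) (nat_lit 5) (nat_lit 106) (nat_lit 4) (nat_lit 103) (nat_lit 4) (nat_lit 475) (nat_lit 363) (nat_lit 362)) (XT.lf (nat_lit 0) (nat_lit 10999210283) (nat_lit 152) (nat_lit 1427486381) (nat_lit 152) (nat_lit 556578407) (nat_lit 101) (nat_lit 4) (nat_lit 103) (nat_lit 5) (nat_lit 103) (nat_lit 4) (nat_lit 476) (nat_lit 363) (nat_lit 361))) (XT.nd (nat_lit 78) (nat_lit 152) (nat_lit 0) (XT.lf (nat_lit 0) (nat_lit 5540156730) (nat_lit 228) (nat_lit 3346081680) (nat_lit 0) (nat_lit 4290223730) (nat_lit 98) (nat_lit 5) (nat_lit 101) (nat_lit 4) (nat_lit 98) (nat_lit 4) (nat_lit 477) (nat_lit 363) (nat_lit 360)) (XT.lf (nat_lit 0) (nat_lit 8583798594) (nat_lit 152) (nat_lit 3217130021) (nat_lit 152) (nat_lit 1574584130) (nat_lit 96) (nat_lit 4) (nat_lit 98) (nat_lit 5) (nat_lit 98) (nat_lit 4) (nat_lit 478) (nat_lit 363) (nat_lit 359))))) (XT.nd (nat_lit 312) (nat_lit 456) (nat_lit 0) (XT.nd (nat_lit 156) (nat_lit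 304) (nat_lit 0) (XT.nd (nat_lit 78) (nat_lit 152) (nat_lit 0) (XT.lf (nat_lit 0) (nat_lit 4582812084) (nat_lit 228) (nat_lit 6378199078) (nat_lit 0) (nat_lit 2618032030) (nat_lit 93) (nat_lit 5) (nat_lit 96) (nat_lit 4) (nat_lit 93) (nat_lit 4) (nat_lit 479) (nat_lit 363) (nat_lit 358)) (XT.lf (nat_lit 0) (nat_lit 5697818432) (nat_lit 152) (nat_lit 5207062293) (nat_lit 152) (nat_lit 2882985827) (nat_lit 91) (nat_lit 4) (nat_lit 93) (nat_lit 5) (nat_lit 93) (nat_lit 4) (nat_lit 480) (nat_lit 363) (nat_lit 357))) (XT.nd (nat_lit 78) (nat_lit 152) (nat_lit 0) (XT.lf (nat_lit 0) (nat_lit 3334899404) (nat_lit 152) (nat_lit 9927594457) (nat_lit 0) (nat_lit 739843158) (nat_lit 89) (nat_lit 5) (nat_lit 91) (nat_lit 4) (nat_lit 89) (nat_lit 4) (nat_lit 481) (nat_lit 363) (nat_lit 356)) (XT.lf (nat_lit 0) (nat_lit 2282924887) (nat_lit 152) (nat_lit 7431172263) (nat_lit 152) (nat_lit 4507308901) (nat_lit 87) (nat_lit 4)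 (nat_lit 89) (nat_lit 5) (nat_lit 89) (nat_lit 4) (nat_lit 482) (nat_lit 363) (nat_lit 355)))) (XT.nd (nat_lit 156) (nat_lit 304) (nat_lit 0) (XT.nd (nat_lit 78) (nat_lit 0) (nat_lit 0) (XT.lf (nat_lit 0) (nat_lit 377501692) (nat_lit 76) (nat_lit 1406042772) (nat_lit 152) (nat_lit 12663521655) (nat_lit 85) (nat_lit 5) (nat_lit 86) (nat_lit 5) (nat_lit 87) (nat_lit 4) (nat_lit 483) (nat_lit 363) (nat_lit 354)) (XT.lf (nat_lit 0) (nat_lit 8217696038) (nat_lit 152) (nat_lit 1690951990) (nat_lit 0) (nat_lit 4768156415) (nat_lit 85) (nat_lit 5) (nat_lit 87) (nat_lit 4) (nat_lit 85) (nat_lit 4) (nat_lit 484) (nat_lit 363) (nat_lit 353))) (XT.nd (nat_lit 78) (nat_lit 152) (nat_lit 0) (XT.lf (nat_lit 0) (nat_lit 11036375078) (nat_lit 152) (nat_lit 3809358319) (nat_lit 152) (nat_lit 67677832) (nat_lit 83) (nat_lit 4) (nat_lit 85) (nat_lit 5) (nat_lit 85) (nat_lit 4) (nat_lit 485) (nat_lit 363) (nat_lit 352)) (XT.lf (nat_lit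 0) (nat_lit 6396670071) (nat_lit 152) (nat_lit 6269720001) (nat_lit 0) (nat_lit 2488599787) (nat_lit 81) (nat_lit 5) (nat_lit 83) (nat_lit 4) (nat_lit 81) (nat_lit 4) (nat_lit 486) (nat_lit 363) (nat_lit 351))))))) (XT.nd (nat_lit 1170) (nat_lit 1216) (nat_lit 0) (XT.nd (nat_lit 546) (nat_lit 760) (nat_lit 0) (XT.nd (nat_lit 234) (nat_lit 456) (nat_lit 0) (XT.nd (nat_lit 78) (nat_lit 304) (nat_lit 0) (XT.lf (nat_lit 0) (nat_lit 6572167459) (nat_lit 152) (nat_lit 6503198734) (nat_lit 152) (nat_lit 2327778176) (nat_lit 79) (nat_lit 4) (nat_lit 81) (nat_lit 5) (nat_lit 81) (nat_lit 4) (nat_lit 487) (nat_lit 363) (nat_lit 350)) (XT.nd (nat_lit 78) (nat_lit 152) (nat_lit 0) (XT.lf (nat_lit 0) (nat_lit 4084022319) (nat_lit 76) (nat_lit 112532483) (nat_lit 152) (nat_lit 11461410807) (nat_lit 77) (nat_lit 5) (nat_lit 78) (nat_lit 5) (nat_lit 79) (nat_lit 4) (nat_lit 488) (nat_lit 363) (nat_lit 349)) (XT.lf (nat_lit 0)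 (nat_lit 1365215639) (nat_lit 152) (nat_lit 9551791982) (nat_lit 152) (nat_lit 5001318967) (nat_lit 75) (nat_lit 4) (nat_lit 77) (nat_lit 5) (nat_lit 77) (nat_lit 4) (nat_lit 489) (nat_lit 363) (nat_lit 348)))) (XT.nd (nat_lit 156) (nat_lit 304) (nat_lit 0) (XT.nd (nat_lit 78) (nat_lit 76) (nat_lit 0) (XT.lf (nat_lit 0) (nat_lit 1621416836) (nat_lit 228) (nat_lit 1496534092) (nat_lit 76) (nat_lit 13068039929) (nat_lit 74) (nat_lit 5) (nat_lit 77) (nat_lit 5) (nat_lit 75) (nat_lit 4) (nat_lit 490) (nat_lit 363) (nat_lit 347)) (XT.lf (nat_lit 0) (nat_lit 8376594449) (nat_lit 152) (nat_lit 4578439130) (nat_lit 0) (nat_lit 3504139142) (nat_lit 73) (nat_lit 5) (nat_lit 75) (nat_lit 4) (nat_lit 73) (nat_lit 4) (nat_lit 491) (nat_lit 363) (nat_lit 346))) (XT.nd (nat_lit 78) (nat_lit 152) (nat_lit 0) (XT.lf (nat_lit 0) (nat_lit 8873128778) (nat_lit 152) (nat_lit 6478373087) (nat_lit 152) (nat_lit 1388537542) (nat_lit 71)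 (nat_lit 4) (nat_lit 73) (nat_lit 5) (nat_lit 73) (nat_lit 4) (nat_lit 492) (nat_lit 363) (nat_lit 345)) (XT.lf (nat_lit 0) (nat_lit 5387841852) (nat_lit 152) (nat_lit 11398882652) (nat_lit 0) (nat_lit 241352220) (nat_lit 69) (nat_lit 5) (nat_lit 71) (nat_lit 4) (nat_lit 69) (nat_lit 4) (nat_lit 493) (nat_lit 363) (nat_lit 344))))) (XT.nd (nat_lit 312) (nat_lit 380) (nat_lit 0) (XT.nd (nat_lit 156) (nat_lit 152) (nat_lit 0) (XT.nd (nat_lit 78) (nat_lit 76) (nat_lit 0) (XT.lf (nat_lit 0) (nat_lit 2112345296) (nat_lit 152) (nat_lit 10277950742) (nat_lit 152) (nat_lit 4932527398) (nat_lit 67) (nat_lit 4) (nat_lit 69) (nat_lit 5) (nat_lit 69) (nat_lit 4) (nat_lit 494) (nat_lit 363) (nat_lit 343)) (XT.lf (nat_lit 0) (nat_lit 1940222746) (nat_lit 228) (nat_lit 1599910695) (nat_lit 76) (nat_lit 14085639184) (nat_lit 66) (nat_lit 5) (nat_lit 69) (nat_lit 5) (nat_lit 67) (nat_lit 4) (nat_lit 495) (nat_lit 363) (nat_lit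 342))) (XT.nd (nat_lit 78) (nat_lit 76) (nat_lit 0) (XT.lf (nat_lit 0) (nat_lit 8962012905) (nat_lit 152) (nat_lit 5570358850) (nat_lit 0) (nat_lit 3402714872) (nat_lit 65) (nat_lit 5) (nat_lit 67) (nat_lit 4) (nat_lit 65) (nat_lit 4) (nat_lit 496) (nat_lit 363) (nat_lit 341)) (XT.lf (nat_lit 0) (nat_lit 8444256847) (nat_lit 76) (nat_lit 7772403230) (nat_lit 76) (nat_lit 2036355171) (nat_lit 64) (nat_lit 4) (nat_lit 65) (nat_lit 5) (nat_lit 65) (nat_lit 4) (nat_lit 497) (nat_lit 363) (nat_lit 340)))) (XT.nd (nat_lit 156) (nat_lit 228) (nat_lit 0) (XT.nd (nat_lit 78) (nat_lit 0) (nat_lit 0) (XT.lf (nat_lit 0) (nat_lit 4234346838) (nat_lit 76) (nat_lit 761710730) (nat_lit 152) (nat_lit 13583333901) (nat_lit 62) (nat_lit 5) (nat_lit 63) (nat_lit 5) (nat_lit 64) (nat_lit 4) (nat_lit 498) (nat_lit 363) (nat_lit 339)) (XT.lf (nat_lit 0) (nat_lit 12250600059) (nat_lit 152) (nat_lit 309526470) (nat_lit 0) (nat_lit 6353266195)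 (nat_lit 62) (nat_lit 5) (nat_lit 64) (nat_lit 4) (nat_lit 62) (nat_lit 4) (nat_lit 499) (nat_lit 363) (nat_lit 338))) (XT.nd (nat_lit 78) (nat_lit 76) (nat_lit 0) (XT.lf (nat_lit 0) (nat_lit 493954383) (nat_lit 152) (nat_lit 5051646574) (nat_lit 76) (nat_lit 13710549864) (nat_lit 60) (nat_lit 5) (nat_lit 62) (nat_lit 5) (nat_lit 61) (nat_lit 4) (nat_lit 500) (nat_lit 363) (nat_lit 337)) (XT.lf (nat_lit 0) (nat_lit 7735625362) (nat_lit 152) (nat_lit 10161897213) (nat_lit 0) (nat_lit 1709567014) (nat_lit 59) (nat_lit 5) (nat_lit 61) (nat_lit 4) (nat_lit 59) (nat_lit 4) (nat_lit 501) (nat_lit 363) (nat_lit 336)))))) (XT.nd (nat_lit 624) (nat_lit 532) (nat_lit 0) (XT.nd (nat_lit 312) (nat_lit 380) (nat_lit 0) (XT.nd (nat_lit 156) (nat_lit 152) (nat_lit 0) (XT.nd (nat_lit 78) (nat_lit 76) (nat_lit 0) (XT.lf (nat_lit 0) (nat_lit 4335073317) (nat_lit 76) (nat_lit 10901005296) (nat_lit 76) (nat_lit 4731233002) (nat_lit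 58) (nat_lit 4) (nat_lit 59) (nat_lit 5) (nat_lit 59) (nat_lit 4) (nat_lit 502) (nat_lit 363) (nat_lit 335)) (XT.lf (nat_lit 0) (nat_lit 2569168357) (nat_lit 152) (nat_lit 1093888631) (nat_lit 76) (nat_lit 16674613291) (nat_lit 57) (nat_lit 5) (nat_lit 59) (nat_lit 5) (nat_lit 58) (nat_lit 4) (nat_lit 503) (nat_lit 363) (nat_lit 334))) (XT.nd (nat_lit 78) (nat_lit 76) (nat_lit 0) (XT.lf (nat_lit 0) (nat_lit 10061052898) (nat_lit 152) (nat_lit 6850655616) (nat_lit 0) (nat_lit 3803999912) (nat_lit 56) (nat_lit 5) (nat_lit 58) (nat_lit 4) (nat_lit 56) (nat_lit 4) (nat_lit 504) (nat_lit 363) (nat_lit 333)) (XT.lf (nat_lit 0) (nat_lit 8110552834) (nat_lit 76) (nat_lit 9689305922) (nat_lit 76) (nat_lit 3304564957) (nat_lit 55) (nat_lit 4) (nat_lit 56) (nat_lit 5) (nat_lit 56) (nat_lit 4) (nat_lit 505) (nat_lit 363) (nat_lit 332)))) (XT.nd (nat_lit 156) (nat_lit 228) (nat_lit 0) (XT.nd (nat_lit 78) (nat_lit 0) (nat_lit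 0) (XT.lf (nat_lit 0) (nat_lit 1952877766) (nat_lit 76) (nat_lit 2215392009) (nat_lit 152) (nat_lit 17335736728) (nat_lit 53) (nat_lit 5) (nat_lit 54) (nat_lit 5) (nat_lit 55) (nat_lit 4) (nat_lit 506) (nat_lit 363) (nat_lit 331)) (XT.lf (nat_lit 0) (nat_lit 11881080938) (nat_lit 152) (nat_lit 4585956302) (nat_lit 0) (nat_lit 5445092545) (nat_lit 53) (nat_lit 5) (nat_lit 55) (nat_lit 4) (nat_lit 53) (nat_lit 4) (nat_lit 507) (nat_lit 363) (nat_lit 330))) (XT.nd (nat_lit 78) (nat_lit 152) (nat_lit 0) (XT.lf (nat_lit 0) (nat_lit 10821296935) (nat_lit 76) (nat_lit 9029929832) (nat_lit 76) (nat_lit 2480492323) (nat_lit 52) (nat_lit 4) (nat_lit 53) (nat_lit 5) (nat_lit 53) (nat_lit 4) (nat_lit 508) (nat_lit 363) (nat_lit 329)) (XT.lf (nat_lit 0) (nat_lit 3849851071) (nat_lit 76) (nat_lit 1327209693) (nat_lit 152) (nat_lit 17585793619) (nat_lit 50) (nat_lit 5) (nat_lit 51) (nat_lit 5) (nat_lit 52) (nat_lit 4) (nat_lit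 509) (nat_lit 363) (nat_lit 328))))) (XT.nd (nat_lit 312) (nat_lit 304) (nat_lit 0) (XT.nd (nat_lit 156) (nat_lit 152) (nat_lit 0) (XT.nd (nat_lit 78) (nat_lit 76) (nat_lit 0) (XT.lf (nat_lit 0) (nat_lit 13095562649) (nat_lit 152) (nat_lit 3582065972) (nat_lit 0) (nat_lit 6526126769) (nat_lit 50) (nat_lit 5) (nat_lit 52) (nat_lit 4) (nat_lit 50) (nat_lit 4) (nat_lit 510) (nat_lit 363) (nat_lit 327)) (XT.lf (nat_lit 0) (nat_lit 12244003475) (nat_lit 76) (nat_lit 9041548339) (nat_lit 76) (nat_lit 2371314389) (nat_lit 49) (nat_lit 4) (nat_lit 50) (nat_lit 5) (nat_lit 50) (nat_lit 4) (nat_lit 511) (nat_lit 363) (nat_lit 326))) (XT.nd (nat_lit 78) (nat_lit 0) (nat_lit 0) (XT.lf (nat_lit 0) (nat_lit 4335595739) (nat_lit 76) (nat_lit 1134203222) (nat_lit 152) (nat_lit 18652717047) (nat_lit 47) (nat_lit 5) (nat_lit 48) (nat_lit 5) (nat_lit 49) (nat_lit 4) (nat_lit 512) (nat_lit 363) (nat_lit 325)) (XT.lf (nat_lit 0) (nat_lit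 13585527022) (nat_lit 152) (nat_lit 4090977974) (nat_lit 0) (nat_lit 6922315369) (nat_lit 47) (nat_lit 5) (nat_lit 49) (nat_lit 4) (nat_lit 47) (nat_lit 4) (nat_lit 513) (nat_lit 363) (nat_lit 324)))) (XT.nd (nat_lit 156) (nat_lit 76) (nat_lit 0) (XT.nd (nat_lit 78) (nat_lit 152) (nat_lit 0) (XT.lf (nat_lit 0) (nat_lit 12115839203) (nat_lit 76) (nat_lit 9862665701) (nat_lit 76) (nat_lit 3109896268) (nat_lit 46) (nat_lit 4) (nat_lit 47) (nat_lit 5) (nat_lit 47) (nat_lit 4) (nat_lit 514) (nat_lit 363) (nat_lit 323)) (XT.lf (nat_lit 0) (nat_lit 3128320030) (nat_lit 76) (nat_lit 1782043892) (nat_lit 152) (nat_lit 20681517592) (nat_lit 44) (nat_lit 5) (nat_lit 45) (nat_lit 5) (nat_lit 46) (nat_lit 4) (nat_lit 515) (nat_lit 363) (nat_lit 322))) (XT.nd (nat_lit 78) (nat_lit 76) (nat_lit 0) (XT.lf (nat_lit 0) (nat_lit 13210132090) (nat_lit 152) (nat_lit 6408698459) (nat_lit 0) (nat_lit 6487670409) (nat_lit 44) (nat_lit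 5) (nat_lit 46) (nat_lit 4) (nat_lit 44) (nat_lit 4) (nat_lit 516) (nat_lit 363) (nat_lit 321)) (XT.lf (nat_lit 0) (nat_lit 10127844474) (nat_lit 76) (nat_lit 11655014370) (nat_lit 76) (nat_lit 4852981761) (nat_lit 43) (nat_lit 4) (nat_lit 44) (nat_lit 5) (nat_lit 44) (nat_lit 4) (nat_lit 517) (nat_lit 363) (nat_lit 320))))))))
noncomputable def xc27 : XT := (XT.nd (nat_lit 2418) (nat_lit 228) (nat_lit 0) (XT.nd (nat_lit 1170) (nat_lit 836) (nat_lit 0) (XT.nd (nat_lit 546) (nat_lit 532) (nat_lit 0) (XT.nd (nat_lit 234) (nat_lit 228) (nat_lit 0) (XT.nd (nat_lit 78) (nat_lit 152) (nat_lit 0) (XT.lf (nat_lit 0) (nat_lit 3339110554) (nat_lit 152) (nat_lit 100891510) (nat_lit 76) (nat_lit 23740838241) (nat_lit 42) (nat_lit 5) (nat_lit 44) (nat_lit 5) (nat_lit 43) (nat_lit 4) (nat_lit 518) (nat_lit 363) (nat_lit 319)) (XT.nd (nat_lit 78) (nat_lit 76) (nat_lit 0) (XT.lf (nat_lit 0) (nat_lit 11803117572) (nat_lit 152)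 (nat_lit 10882540202) (nat_lit 0) (nat_lit 5051380516) (nat_lit 41) (nat_lit 5) (nat_lit 43) (nat_lit 4) (nat_lit 41) (nat_lit 4) (nat_lit 519) (nat_lit 363) (nat_lit 318)) (XT.lf (nat_lit 0) (nat_lit 5917279638) (nat_lit 76) (nat_lit 14607483175) (nat_lit 76) (nat_lit 7785048381) (nat_lit 40) (nat_lit 4) (nat_lit 41) (nat_lit 5) (nat_lit 41) (nat_lit 4) (nat_lit 520) (nat_lit 363) (nat_lit 317)))) (XT.nd (nat_lit 156) (nat_lit 76) (nat_lit 0) (XT.nd (nat_lit 78) (nat_lit 76) (nat_lit 0) (XT.lf (nat_lit 0) (nat_lit 619190624) (nat_lit 152) (nat_lit 5634116407) (nat_lit 76) (nat_lit 22645602213) (nat_lit 39) (nat_lit 5) (nat_lit 41) (nat_lit 5) (nat_lit 40) (nat_lit 4) (nat_lit 521) (nat_lit 363) (nat_lit 316)) (XT.lf (nat_lit 0) (nat_lit 9168677618) (nat_lit 152) (nat_lit 17919586253) (nat_lit 0) (nat_lit 2413616672) (nat_lit 38) (nat_lit 5) (nat_lit 40) (nat_lit 4) (nat_lit 38) (nat_lit 4) (nat_lit 522) (nat_lit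 363) (nat_lit 315))) (XT.nd (nat_lit 78) (nat_lit 76) (nat_lit 0) (XT.lf (nat_lit 0) (nat_lit 18008456161) (nat_lit 152) (nat_lit 922889885) (nat_lit 0) (nat_lit 11190581190) (nat_lit 38) (nat_lit 5) (nat_lit 40) (nat_lit 4) (nat_lit 38) (nat_lit 4) (nat_lit 523) (nat_lit 363) (nat_lit 314)) (XT.lf (nat_lit 0) (nat_lit 16745551406) (nat_lit 76) (nat_lit 10445773464) (nat_lit 76) (nat_lit 3566914003) (nat_lit 37) (nat_lit 4) (nat_lit 38) (nat_lit 5) (nat_lit 38) (nat_lit 4) (nat_lit 524) (nat_lit 363) (nat_lit 313))))) (XT.nd (nat_lit 312) (nat_lit 304) (nat_lit 0) (XT.nd (nat_lit 156) (nat_lit 76) (nat_lit 0) (XT.nd (nat_lit 78) (nat_lit 0) (nat_lit 0) (XT.lf (nat_lit 0) (nat_lit 3400579136) (nat_lit 76) (nat_lit 1692350341) (nat_lit 152) (nat_lit 26320428933) (nat_lit 35) (nat_lit 5) (nat_lit 36) (nat_lit 5) (nat_lit 37) (nat_lit 4) (nat_lit 525) (nat_lit 363) (nat_lit 312)) (XT.lf (nat_lit 0) (nat_lit 14071210046)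 (nat_lit 152) (nat_lit 10732539887) (nat_lit 0) (nat_lit 7279412536) (nat_lit 35) (nat_lit 5) (nat_lit 37) (nat_lit 4) (nat_lit 35) (nat_lit 4) (nat_lit 526) (nat_lit 363) (nat_lit 311))) (XT.nd (nat_lit 78) (nat_lit 0) (nat_lit 0) (XT.lf (nat_lit 0) (nat_lit 7026237710) (nat_lit 76) (nat_lit 16296346214) (nat_lit 76) (nat_lit 9450364774) (nat_lit 34) (nat_lit 4) (nat_lit 35) (nat_lit 5) (nat_lit 35) (nat_lit 4) (nat_lit 527) (nat_lit 363) (nat_lit 310)) (XT.lf (nat_lit 0) (nat_lit 25379135735) (nat_lit 76) (nat_lit 7501010475) (nat_lit 76) (nat_lit 602423278) (nat_lit 34) (nat_lit 4) (nat_lit 35) (nat_lit 5) (nat_lit 35) (nat_lit 4) (nat_lit 528) (nat_lit 363) (nat_lit 309)))) (XT.nd (nat_lit 156) (nat_lit 152) (nat_lit 0) (XT.nd (nat_lit 78) (nat_lit 0) (nat_lit 0) (XT.lf (nat_lit 0) (nat_lit 8379090237) (nat_lit 152) (nat_lit 24199061465) (nat_lit 0) (nat_lit 1631846793) (nat_lit 32) (nat_lit 5) (nat_lit 34)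 (nat_lit 4) (nat_lit 32) (nat_lit 4) (nat_lit 529) (nat_lit 363) (nat_lit 308)) (XT.lf (nat_lit 0) (nat_lit 17696731423) (nat_lit 152) (nat_lit 6358630394) (nat_lit 0) (nat_lit 10901346259) (nat_lit 32) (nat_lit 5) (nat_lit 34) (nat_lit 4) (nat_lit 32) (nat_lit 4) (nat_lit 530) (nat_lit 363) (nat_lit 307))) (XT.nd (nat_lit 78) (nat_lit 76) (nat_lit 0) (XT.lf (nat_lit 0) (nat_lit 12102057594) (nat_lit 76) (nat_lit 15232335822) (nat_lit 76) (nat_lit 8390211125) (nat_lit 31) (nat_lit 4) (nat_lit 32) (nat_lit 5) (nat_lit 32) (nat_lit 4) (nat_lit 531) (nat_lit 363) (nat_lit 306)) (XT.lf (nat_lit 0) (nat_lit 720128765) (nat_lit 152) (nat_lit 5425641492) (nat_lit 76) (nat_lit 30369881989) (nat_lit 30) (nat_lit 5) (nat_lit 32) (nat_lit 5) (nat_lit 31) (nat_lit 4) (nat_lit 532) (nat_lit 363) (nat_lit 305)))))) (XT.nd (nat_lit 624) (nat_lit 456) (nat_lit 0) (XT.nd (nat_lit 312) (nat_lit 228) (nat_lit 0) (XT.nd (nat_lit 156)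 (nat_lit 76) (nat_lit 0) (XT.nd (nat_lit 78) (nat_lit 0) (nat_lit 0) (XT.lf (nat_lit 0) (nat_lit 10022124766) (nat_lit 152) (nat_lit 24010749896) (nat_lit 0) (nat_lit 3292455466) (nat_lit 29) (nat_lit 5) (nat_lit 31) (nat_lit 4) (nat_lit 29) (nat_lit 4) (nat_lit 533) (nat_lit 363) (nat_lit 304)) (XT.lf (nat_lit 0) (nat_lit 19645805879) (nat_lit 152) (nat_lit 5637604908) (nat_lit 0) (nat_lit 12874609108) (nat_lit 29) (nat_lit 5) (nat_lit 31) (nat_lit 4) (nat_lit 29) (nat_lit 4) (nat_lit 534) (nat_lit 363) (nat_lit 303))) (XT.nd (nat_lit 78) (nat_lit 0) (nat_lit 0) (XT.lf (nat_lit 0) (nat_lit 13405818108) (nat_lit 76) (nat_lit 16209831836) (nat_lit 76) (nat_lit 9398317133) (nat_lit 28) (nat_lit 4) (nat_lit 29) (nat_lit 5) (nat_lit 29) (nat_lit 4) (nat_lit 535) (nat_lit 363) (nat_lit 302)) (XT.lf (nat_lit 0) (nat_lit 32994994248) (nat_lit 76) (nat_lit 6875834923) (nat_lit 76) (nat_lit 25176596) (nat_lit 28) (nat_lit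 4) (nat_lit 29) (nat_lit 5) (nat_lit 29) (nat_lit 4) (nat_lit 536) (nat_lit 363) (nat_lit 301)))) (XT.nd (nat_lit 156) (nat_lit 76) (nat_lit 0) (XT.nd (nat_lit 78) (nat_lit 0) (nat_lit 0) (XT.lf (nat_lit 0) (nat_lit 9518684663) (nat_lit 152) (nat_lit 28450058148) (nat_lit 0) (nat_lit 2830663454) (nat_lit 26) (nat_lit 5) (nat_lit 28) (nat_lit 4) (nat_lit 26) (nat_lit 4) (nat_lit 537) (nat_lit 363) (nat_lit 300)) (XT.lf (nat_lit 0) (nat_lit 19417544015) (nat_lit 152) (nat_lit 9616581056) (nat_lit 0) (nat_lit 12693700845) (nat_lit 26) (nat_lit 5) (nat_lit 28) (nat_lit 4) (nat_lit 26) (nat_lit 4) (nat_lit 538) (nat_lit 363) (nat_lit 299))) (XT.nd (nat_lit 78) (nat_lit 0) (nat_lit 0) (XT.lf (nat_lit 0) (nat_lit 9839507909) (nat_lit 76) (nat_lit 19801196115) (nat_lit 76) (nat_lit 13042574342) (nat_lit 25) (nat_lit 4) (nat_lit 26) (nat_lit 5) (nat_lit 26) (nat_lit 4) (nat_lit 539) (nat_lit 363) (nat_lit 298)) (XT.lf (nat_lit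 0) (nat_lit 29943330962) (nat_lit 76) (nat_lit 10257767446) (nat_lit 76) (nat_lit 3465380040) (nat_lit 25) (nat_lit 4) (nat_lit 26) (nat_lit 5) (nat_lit 26) (nat_lit 4) (nat_lit 540) (nat_lit 363) (nat_lit 297))))) (XT.nd (nat_lit 312) (nat_lit 228) (nat_lit 0) (XT.nd (nat_lit 156) (nat_lit 76) (nat_lit 0) (XT.nd (nat_lit 78) (nat_lit 0) (nat_lit 0) (XT.lf (nat_lit 0) (nat_lit 5894094618) (nat_lit 76) (nat_lit 371552767) (nat_lit 152) (nat_lit 38411940393) (nat_lit 23) (nat_lit 5) (nat_lit 24) (nat_lit 5) (nat_lit 25) (nat_lit 4) (nat_lit 541) (nat_lit 363) (nat_lit 296)) (XT.lf (nat_lit 0) (nat_lit 16387983130) (nat_lit 152) (nat_lit 19594242752) (nat_lit 0) (nat_lit 9730704564) (nat_lit 23) (nat_lit 5) (nat_lit 25) (nat_lit 4) (nat_lit 23) (nat_lit 4) (nat_lit 542) (nat_lit 363) (nat_lit 295))) (XT.nd (nat_lit 78) (nat_lit 0) (nat_lit 0) (XT.lf (nat_lit 0) (nat_lit 41069723) (nat_lit 76) (nat_lit 26713660278)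 (nat_lit 76) (nat_lit 20026381384) (nat_lit 22) (nat_lit 4) (nat_lit 23) (nat_lit 5) (nat_lit 23) (nat_lit 4) (nat_lit 543) (nat_lit 363) (nat_lit 294)) (XT.lf (nat_lit 0) (nat_lit 20541608749) (nat_lit 76) (nat_lit 17026039782) (nat_lit 76) (nat_lit 10309634356) (nat_lit 22) (nat_lit 4) (nat_lit 23) (nat_lit 5) (nat_lit 23) (nat_lit 4) (nat_lit 544) (nat_lit 363) (nat_lit 293)))) (XT.nd (nat_lit 156) (nat_lit 76) (nat_lit 0) (XT.nd (nat_lit 78) (nat_lit 152) (nat_lit 0) (XT.lf (nat_lit 0) (nat_lit 41535323566) (nat_lit 76) (nat_lit 7108762916) (nat_lit 76) (nat_lit 364079304) (nat_lit 22) (nat_lit 4) (nat_lit 23) (nat_lit 5) (nat_lit 23) (nat_lit 4) (nat_lit 545) (nat_lit 363) (nat_lit 292)) (XT.lf (nat_lit 0) (nat_lit 9784042820) (nat_lit 152) (nat_lit 37174022265) (nat_lit 0) (nat_lit 3209151399) (nat_lit 20) (nat_lit 5) (nat_lit 22) (nat_lit 4) (nat_lit 20) (nat_lit 4) (nat_lit 546) (nat_lit 363) (nat_lit 291)))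 (XT.nd (nat_lit 78) (nat_lit 76) (nat_lit 0) (XT.lf (nat_lit 0) (nat_lit 20316234058) (nat_lit 152) (nat_lit 17326624308) (nat_lit 0) (nat_lit 13715464092) (nat_lit 20) (nat_lit 5) (nat_lit 22) (nat_lit 4) (nat_lit 20) (nat_lit 4) (nat_lit 547) (nat_lit 363) (nat_lit 290)) (XT.lf (nat_lit 0) (nat_lit 3059874215) (nat_lit 76) (nat_lit 28076018648) (nat_lit 76) (nat_lit 21450123878) (nat_lit 19) (nat_lit 4) (nat_lit 20) (nat_lit 5) (nat_lit 20) (nat_lit 4) (nat_lit 548) (nat_lit 363) (nat_lit 289))))))) (XT.nd (nat_lit 57174) (nat_lit 0) (nat_lit 3724) (XT.nd (nat_lit 56550) (nat_lit 0) (nat_lit 5700) (XT.nd (nat_lit 312) (nat_lit 76) (nat_lit 0) (XT.nd (nat_lit 156) (nat_lit 152) (nat_lit 0) (XT.nd (nat_lit 78) (nat_lit 0) (nat_lit 0) (XT.lf (nat_lit 0) (nat_lit 24298253524) (nat_lit 76) (nat_lit 18099523609) (nat_lit 76) (nat_lit 11449235828) (nat_lit 19) (nat_lit 4) (nat_lit 20) (nat_lit 5) (nat_lit 20) (nat_lit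 4) (nat_lit 549) (nat_lit 363) (nat_lit 288)) (XT.lf (nat_lit 0) (nat_lit 46062237627) (nat_lit 76) (nat_lit 7879620858) (nat_lit 76) (nat_lit 1205650541) (nat_lit 19) (nat_lit 4) (nat_lit 20) (nat_lit 5) (nat_lit 20) (nat_lit 4) (nat_lit 550) (nat_lit 363) (nat_lit 287))) (XT.nd (nat_lit 78) (nat_lit 0) (nat_lit 0) (XT.lf (nat_lit 0) (nat_lit 9250876883) (nat_lit 152) (nat_lit 44481837481) (nat_lit 0) (nat_lit 2748970989) (nat_lit 17) (nat_lit 5) (nat_lit 19) (nat_lit 4) (nat_lit 17) (nat_lit 4) (nat_lit 551) (nat_lit 363) (nat_lit 286)) (XT.lf (nat_lit 0) (nat_lit 20112988605) (nat_lit 152) (nat_lit 24149646948) (nat_lit 0) (nat_lit 13589409836) (nat_lit 17) (nat_lit 5) (nat_lit 19) (nat_lit 4) (nat_lit 17) (nat_lit 4) (nat_lit 552) (nat_lit 363) (nat_lit 285)))) (XT.nd (nat_lit 156) (nat_lit 0) (nat_lit 0) (XT.nd (nat_lit 78) (nat_lit 76) (nat_lit 0) (XT.lf (nat_lit 0) (nat_lit 31248005458) (nat_lit 152) (nat_lit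 3313714609) (nat_lit 0) (nat_lit 24703385061) (nat_lit 17) (nat_lit 5) (nat_lit 19) (nat_lit 4) (nat_lit 17) (nat_lit 4) (nat_lit 553) (nat_lit 363) (nat_lit 284)) (XT.lf (nat_lit 0) (nat_lit 18403279967) (nat_lit 76) (nat_lit 24439280684) (nat_lit 76) (nat_lit 17874231524) (nat_lit 16) (nat_lit 4) (nat_lit 17) (nat_lit 5) (nat_lit 17) (nat_lit 4) (nat_lit 554) (nat_lit 363) (nat_lit 283))) (XT.nd (nat_lit 56004) (nat_lit 0) (nat_lit 6992) (XT.lf (nat_lit 0) (nat_lit 40737593351) (nat_lit 76) (nat_lit 14029921336) (nat_lit 76) (nat_lit 7445038425) (nat_lit 16) (nat_lit 4) (nat_lit 17) (nat_lit 5) (nat_lit 17) (nat_lit 4) (nat_lit 555) (nat_lit 363) (nat_lit 282)) (XT.lf (nat_lit 0) (nat_lit 626620584) (nat_lit 228) (nat_lit 4872796710) (nat_lit 0) (nat_lit 626620584) (nat_lit 108) (nat_lit 5) (nat_lit 111) (nat_lit 4) (nat_lit 108) (nat_lit 4) (nat_lit 472) (nat_lit 364) (nat_lit 364))))) (XT.nd (nat_lit 312) (nat_lit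 760) (nat_lit 0) (XT.nd (nat_lit 156) (nat_lit 152) (nat_lit 0) (XT.nd (nat_lit 78) (nat_lit 228) (nat_lit 0) (XT.lf (nat_lit 0) (nat_lit 1415813207) (nat_lit 152) (nat_lit 5740993494) (nat_lit 152) (nat_lit 5272193170) (nat_lit 106) (nat_lit 4) (nat_lit 108) (nat_lit 5) (nat_lit 108) (nat_lit 4) (nat_lit 473) (nat_lit 364) (nat_lit 363)) (XT.lf (nat_lit 0) (nat_lit 274234390) (nat_lit 152) (nat_lit 316002388) (nat_lit 228) (nat_lit 12021531293) (nat_lit 103) (nat_lit 5) (nat_lit 105) (nat_lit 5) (nat_lit 106) (nat_lit 4) (nat_lit 474) (nat_lit 364) (nat_lit 362))) (XT.nd (nat_lit 78) (nat_lit 152) (nat_lit 0) (XT.lf (nat_lit 0) (nat_lit 6560274531) (nat_lit 228) (nat_lit 1002830305) (nat_lit 0) (nat_lit 5234220612) (nat_lit 103) (nat_lit 5) (nat_lit 106) (nat_lit 4) (nat_lit 103) (nat_lit 4) (nat_lit 475) (nat_lit 364) (nat_lit 361)) (XT.lf (nat_lit 0) (nat_lit 10655143793) (nat_lit 152) (nat_lit 2038184158) (nat_lit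 152) (nat_lit 295607222) (nat_lit 101) (nat_lit 4) (nat_lit 103) (nat_lit 5) (nat_lit 103) (nat_lit 4) (nat_lit 476) (nat_lit 364) (nat_lit 360)))) (XT.nd (nat_lit 156) (nat_lit 380) (nat_lit 0) (XT.nd (nat_lit 78) (nat_lit 152) (nat_lit 0) (XT.lf (nat_lit 0) (nat_lit 5725343562) (nat_lit 228) (nat_lit 3817917197) (nat_lit 0) (nat_lit 3640908403) (nat_lit 98) (nat_lit 5) (nat_lit 101) (nat_lit 4) (nat_lit 98) (nat_lit 4) (nat_lit 477) (nat_lit 364) (nat_lit 359)) (XT.lf (nat_lit 0) (nat_lit 7990896877) (nat_lit 152) (nat_lit 3929947562) (nat_lit 152) (nat_lit 1464334839) (nat_lit 96) (nat_lit 4) (nat_lit 98) (nat_lit 5) (nat_lit 98) (nat_lit 4) (nat_lit 478) (nat_lit 364) (nat_lit 358))) (XT.nd (nat_lit 78) (nat_lit 152) (nat_lit 0) (XT.lf (nat_lit 0) (nat_lit 4617061627) (nat_lit 228) (nat_lit 7109866602) (nat_lit 0) (nat_lit 1863966455) (nat_lit 93) (nat_lit 5) (nat_lit 96) (nat_lit 4) (nat_lit 93) (nat_lit 4)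 (nat_lit 479) (nat_lit 364) (nat_lit 357)) (XT.lf (nat_lit 0) (nat_lit 4839584281) (nat_lit 152) (nat_lit 6032043373) (nat_lit 152) (nat_lit 2930116733) (nat_lit 91) (nat_lit 4) (nat_lit 93) (nat_lit 5) (nat_lit 93) (nat_lit 4) (nat_lit 480) (nat_lit 364) (nat_lit 356)))))) (XT.nd (nat_lit 624) (nat_lit 912) (nat_lit 0) (XT.nd (nat_lit 312) (nat_lit 608) (nat_lit 0) (XT.nd (nat_lit 156) (nat_lit 152) (nat_lit 0) (XT.nd (nat_lit 78) (nat_lit 152) (nat_lit 0) (XT.lf (nat_lit 0) (nat_lit 3081098037) (nat_lit 76) (nat_lit 131560093) (nat_lit 152) (nat_lit 10805852407) (nat_lit 89) (nat_lit 5) (nat_lit 90) (nat_lit 5) (nat_lit 91) (nat_lit 4) (nat_lit 481) (nat_lit 364) (nat_lit 355)) (XT.lf (nat_lit 0) (nat_lit 1141992959) (nat_lit 152) (nat_lit 8378670069) (nat_lit 152) (nat_lit 4719053482) (nat_lit 87) (nat_lit 4) (nat_lit 89) (nat_lit 5) (nat_lit 89) (nat_lit 4) (nat_lit 482) (nat_lit 364) (nat_lit 354))) (XT.nd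 (nat_lit 78) (nat_lit 76) (nat_lit 0) (XT.lf (nat_lit 0) (nat_lit 1513433076) (nat_lit 228) (nat_lit 897279683) (nat_lit 76) (nat_lit 12056600933) (nat_lit 86) (nat_lit 5) (nat_lit 89) (nat_lit 5) (nat_lit 87) (nat_lit 4) (nat_lit 483) (nat_lit 364) (nat_lit 353)) (XT.lf (nat_lit 0) (nat_lit 7870349414) (nat_lit 152) (nat_lit 3104743069) (nat_lit 0) (nat_lit 3724277649) (nat_lit 85) (nat_lit 5) (nat_lit 87) (nat_lit 4) (nat_lit 85) (nat_lit 4) (nat_lit 484) (nat_lit 364) (nat_lit 352)))) (XT.nd (nat_lit 156) (nat_lit 304) (nat_lit 0) (XT.nd (nat_lit 78) (nat_lit 152) (nat_lit 0) (XT.lf (nat_lit 0) (nat_lit 9485143793) (nat_lit 152) (nat_lit 4941347346) (nat_lit 152) (nat_lit 511643675) (nat_lit 83) (nat_lit 4) (nat_lit 85) (nat_lit 5) (nat_lit 85) (nat_lit 4) (nat_lit 485) (nat_lit 364) (nat_lit 351)) (XT.lf (nat_lit 0) (nat_lit 5876433374) (nat_lit 152) (nat_lit 7997557171) (nat_lit 0) (nat_lit 1308399924) (nat_lit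 81) (nat_lit 5) (nat_lit 83) (nat_lit 4) (nat_lit 81) (nat_lit 4) (nat_lit 486) (nat_lit 364) (nat_lit 350))) (XT.nd (nat_lit 78) (nat_lit 152) (nat_lit 0) (XT.lf (nat_lit 0) (nat_lit 4700394949) (nat_lit 152) (nat_lit 7779994990) (nat_lit 152) (nat_lit 2952398168) (nat_lit 79) (nat_lit 4) (nat_lit 81) (nat_lit 5) (nat_lit 81) (nat_lit 4) (nat_lit 487) (nat_lit 364) (nat_lit 349)) (XT.lf (nat_lit 0) (nat_lit 2041262638) (nat_lit 76) (nat_lit 1466551516) (nat_lit 152) (nat_lit 12182265481) (nat_lit 77) (nat_lit 5) (nat_lit 78) (nat_lit 5) (nat_lit 79) (nat_lit 4) (nat_lit 488) (nat_lit 364) (nat_lit 348))))) (XT.nd (nat_lit 312) (nat_lit 456) (nat_lit 0) (XT.nd (nat_lit 156) (nat_lit 228) (nat_lit 0) (XT.nd (nat_lit 78) (nat_lit 228) (nat_lit 0) (XT.lf (nat_lit 0) (nat_lit 10145598268) (nat_lit 152) (nat_lit 830912835) (nat_lit 0) (nat_lit 4976410433) (nat_lit 77) (nat_lit 5) (nat_lit 79) (nat_lit 4) (nat_lit 77)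 (nat_lit 4) (nat_lit 489) (nat_lit 364) (nat_lit 347)) (XT.lf (nat_lit 0) (nat_lit 766451637) (nat_lit 228) (nat_lit 3843909706) (nat_lit 76) (nat_lit 11612398377) (nat_lit 74) (nat_lit 5) (nat_lit 77) (nat_lit 5) (nat_lit 75) (nat_lit 4) (nat_lit 490) (nat_lit 364) (nat_lit 346))) (XT.nd (nat_lit 78) (nat_lit 152) (nat_lit 0) (XT.lf (nat_lit 0) (nat_lit 7427710934) (nat_lit 152) (nat_lit 7103248903) (nat_lit 0) (nat_lit 1967800084) (nat_lit 73) (nat_lit 5) (nat_lit 75) (nat_lit 4) (nat_lit 73) (nat_lit 4) (nat_lit 491) (nat_lit 364) (nat_lit 345)) (XT.lf (nat_lit 0) (nat_lit 6191296178) (nat_lit 152) (nat_lit 8130852454) (nat_lit 152) (nat_lit 2459892829) (nat_lit 71) (nat_lit 4) (nat_lit 73) (nat_lit 5) (nat_lit 73) (nat_lit 4) (nat_lit 492) (nat_lit 364) (nat_lit 344)))) (XT.nd (nat_lit 156) (nat_lit 304) (nat_lit 0) (XT.nd (nat_lit 78) (nat_lit 0) (nat_lit 0) (XT.lf (nat_lit 0) (nat_lit 2757253456) (nat_lit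 76) (nat_lit 1495512457) (nat_lit 152) (nat_lit 12820161340) (nat_lit 69) (nat_lit 5) (nat_lit 70) (nat_lit 5) (nat_lit 71) (nat_lit 4) (nat_lit 493) (nat_lit 364) (nat_lit 343)) (XT.lf (nat_lit 0) (nat_lit 11166025447) (nat_lit 152) (nat_lit 936158894) (nat_lit 0) (nat_lit 5268166164) (nat_lit 69) (nat_lit 5) (nat_lit 71) (nat_lit 4) (nat_lit 69) (nat_lit 4) (nat_lit 494) (nat_lit 364) (nat_lit 342))) (XT.nd (nat_lit 78) (nat_lit 76) (nat_lit 0) (XT.lf (nat_lit 0) (nat_lit 629514845) (nat_lit 228) (nat_lit 4807458249) (nat_lit 76) (nat_lit 12238605845) (nat_lit 66) (nat_lit 5) (nat_lit 69) (nat_lit 5) (nat_lit 67) (nat_lit 4) (nat_lit 495) (nat_lit 364) (nat_lit 341)) (XT.lf (nat_lit 0) (nat_lit 7546961406) (nat_lit 152) (nat_lit 8978980605) (nat_lit 0) (nat_lit 1462081879) (nat_lit 65) (nat_lit 5) (nat_lit 67) (nat_lit 4) (nat_lit 65) (nat_lit 4) (nat_lit 496) (nat_lit 364) (nat_lit 340))))))))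
noncomputable def xc28 : XT := (XT.nd (nat_lit 2418) (nat_lit 1444) (nat_lit 0) (XT.nd (nat_lit 1170) (nat_lit 1064) (nat_lit 0) (XT.nd (nat_lit 546) (nat_lit 608) (nat_lit 0) (XT.nd (nat_lit 234) (nat_lit 380) (nat_lit 0) (XT.nd (nat_lit 78) (nat_lit 152) (nat_lit 0) (XT.lf (nat_lit 0) (nat_lit 4863793631) (nat_lit 76) (nat_lit 9850628299) (nat_lit 76) (nat_lit 3594146804) (nat_lit 64) (nat_lit 4) (nat_lit 65) (nat_lit 5) (nat_lit 65) (nat_lit 4) (nat_lit 497) (nat_lit 364) (nat_lit 339)) (XT.nd (nat_lit 78) (nat_lit 0) (nat_lit 0) (XT.lf (nat_lit 0) (nat_lit 437184463) (nat_lit 76) (nat_lit 2942258793) (nat_lit 152) (nat_lit 15258628141) (nat_lit 62) (nat_lit 5) (nat_lit 63) (nat_lit 5) (nat_lit 64) (nat_lit 4) (nat_lit 498) (nat_lit 364) (nat_lit 338)) (XT.lf (nat_lit 0) (nat_lit 10560399517) (nat_lit 152) (nat_lit 4246527075) (nat_lit 0) (nat_lit 4167354216) (nat_lit 62) (nat_lit 5) (nat_lit 64) (nat_lit 4)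 (nat_lit 62) (nat_lit 4) (nat_lit 499) (nat_lit 364) (nat_lit 337)))) (XT.nd (nat_lit 156) (nat_lit 152) (nat_lit 0) (XT.nd (nat_lit 78) (nat_lit 152) (nat_lit 0) (XT.lf (nat_lit 0) (nat_lit 10093019685) (nat_lit 76) (nat_lit 7886198181) (nat_lit 76) (nat_lit 1340686754) (nat_lit 61) (nat_lit 4) (nat_lit 62) (nat_lit 5) (nat_lit 62) (nat_lit 4) (nat_lit 500) (nat_lit 364) (nat_lit 336)) (XT.lf (nat_lit 0) (nat_lit 5116102572) (nat_lit 76) (nat_lit 701453764) (nat_lit 152) (nat_lit 13856961884) (nat_lit 59) (nat_lit 5) (nat_lit 60) (nat_lit 5) (nat_lit 61) (nat_lit 4) (nat_lit 501) (nat_lit 364) (nat_lit 335))) (XT.nd (nat_lit 78) (nat_lit 152) (nat_lit 0) (XT.lf (nat_lit 0) (nat_lit 13218630289) (nat_lit 152) (nat_lit 238569062) (nat_lit 0) (nat_lit 6580522777) (nat_lit 59) (nat_lit 5) (nat_lit 61) (nat_lit 4) (nat_lit 59) (nat_lit 4) (nat_lit 502) (nat_lit 364) (nat_lit 334)) (XT.lf (nat_lit 0) (nat_lit 468763728)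 (nat_lit 152) (nat_lit 5821981320) (nat_lit 76) (nat_lit 14119536937) (nat_lit 57) (nat_lit 5) (nat_lit 59) (nat_lit 5) (nat_lit 58) (nat_lit 4) (nat_lit 503) (nat_lit 364) (nat_lit 333))))) (XT.nd (nat_lit 312) (nat_lit 304) (nat_lit 0) (XT.nd (nat_lit 156) (nat_lit 152) (nat_lit 0) (XT.nd (nat_lit 78) (nat_lit 76) (nat_lit 0) (XT.lf (nat_lit 0) (nat_lit 7837728149) (nat_lit 152) (nat_lit 11820523074) (nat_lit 0) (nat_lit 1133756975) (nat_lit 56) (nat_lit 5) (nat_lit 58) (nat_lit 4) (nat_lit 56) (nat_lit 4) (nat_lit 504) (nat_lit 364) (nat_lit 332)) (XT.lf (nat_lit 0) (nat_lit 2943357675) (nat_lit 76) (nat_lit 12534138737) (nat_lit 76) (nat_lit 5706198651) (nat_lit 55) (nat_lit 4) (nat_lit 56) (nat_lit 5) (nat_lit 56) (nat_lit 4) (nat_lit 505) (nat_lit 364) (nat_lit 331))) (XT.nd (nat_lit 78) (nat_lit 76) (nat_lit 0) (XT.lf (nat_lit 0) (nat_lit 1745396312) (nat_lit 152) (nat_lit 3405143738) (nat_lit 76) (nat_lit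 16435473932) (nat_lit 54) (nat_lit 5) (nat_lit 56) (nat_lit 5) (nat_lit 55) (nat_lit 4) (nat_lit 506) (nat_lit 364) (nat_lit 330)) (XT.lf (nat_lit 0) (nat_lit 9347015113) (nat_lit 152) (nat_lit 10162812973) (nat_lit 0) (nat_lit 2487645361) (nat_lit 53) (nat_lit 5) (nat_lit 55) (nat_lit 4) (nat_lit 53) (nat_lit 4) (nat_lit 507) (nat_lit 364) (nat_lit 329)))) (XT.nd (nat_lit 156) (nat_lit 152) (nat_lit 0) (XT.nd (nat_lit 78) (nat_lit 76) (nat_lit 0) (XT.lf (nat_lit 0) (nat_lit 5037794854) (nat_lit 76) (nat_lit 12175942761) (nat_lit 76) (nat_lit 5206428236) (nat_lit 52) (nat_lit 4) (nat_lit 53) (nat_lit 5) (nat_lit 53) (nat_lit 4) (nat_lit 508) (nat_lit 364) (nat_lit 328)) (XT.lf (nat_lit 0) (nat_lit 2419513169) (nat_lit 152) (nat_lit 2164839463) (nat_lit 76) (nat_lit 18270279125) (nat_lit 51) (nat_lit 5) (nat_lit 53) (nat_lit 5) (nat_lit 52) (nat_lit 4) (nat_lit 509) (nat_lit 364) (nat_lit 327))) (XT.nd (nat_lit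 78) (nat_lit 76) (nat_lit 0) (XT.lf (nat_lit 0) (nat_lit 10237534738) (nat_lit 152) (nat_lit 9794617100) (nat_lit 0) (nat_lit 3266395700) (nat_lit 50) (nat_lit 5) (nat_lit 52) (nat_lit 4) (nat_lit 50) (nat_lit 4) (nat_lit 510) (nat_lit 364) (nat_lit 326)) (XT.lf (nat_lit 0) (nat_lit 5814849067) (nat_lit 76) (nat_lit 12504527648) (nat_lit 76) (nat_lit 5435526405) (nat_lit 49) (nat_lit 4) (nat_lit 50) (nat_lit 5) (nat_lit 50) (nat_lit 4) (nat_lit 511) (nat_lit 364) (nat_lit 325)))))) (XT.nd (nat_lit 624) (nat_lit 456) (nat_lit 0) (XT.nd (nat_lit 312) (nat_lit 304) (nat_lit 0) (XT.nd (nat_lit 156) (nat_lit 152) (nat_lit 0) (XT.nd (nat_lit 78) (nat_lit 76) (nat_lit 0) (XT.lf (nat_lit 0) (nat_lit 2377386019) (nat_lit 152) (nat_lit 2337919472) (nat_lit 76) (nat_lit 19508771264) (nat_lit 48) (nat_lit 5) (nat_lit 50) (nat_lit 5) (nat_lit 49) (nat_lit 4) (nat_lit 512) (nat_lit 364) (nat_lit 324)) (XT.lf (nat_lit 0) (nat_lit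 10389278274) (nat_lit 152) (nat_lit 10969850258) (nat_lit 0) (nat_lit 3344367978) (nat_lit 47) (nat_lit 5) (nat_lit 49) (nat_lit 4) (nat_lit 47) (nat_lit 4) (nat_lit 513) (nat_lit 364) (nat_lit 323))) (XT.nd (nat_lit 78) (nat_lit 76) (nat_lit 0) (XT.lf (nat_lit 0) (nat_lit 5009728083) (nat_lit 76) (nat_lit 13659302950) (nat_lit 76) (nat_lit 6527443352) (nat_lit 46) (nat_lit 4) (nat_lit 47) (nat_lit 5) (nat_lit 47) (nat_lit 4) (nat_lit 514) (nat_lit 364) (nat_lit 322)) (XT.lf (nat_lit 0) (nat_lit 1484542101) (nat_lit 152) (nat_lit 4202655928) (nat_lit 76) (nat_lit 20015991444) (nat_lit 45) (nat_lit 5) (nat_lit 47) (nat_lit 5) (nat_lit 46) (nat_lit 4) (nat_lit 515) (nat_lit 364) (nat_lit 321)))) (XT.nd (nat_lit 156) (nat_lit 152) (nat_lit 0) (XT.nd (nat_lit 78) (nat_lit 76) (nat_lit 0) (XT.lf (nat_lit 0) (nat_lit 9660316997) (nat_lit 152) (nat_lit 13986559524) (nat_lit 0) (nat_lit 2574652483) (nat_lit 44) (nat_lit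 5) (nat_lit 46) (nat_lit 4) (nat_lit 44) (nat_lit 4) (nat_lit 516) (nat_lit 364) (nat_lit 320)) (XT.lf (nat_lit 0) (nat_lit 2311391546) (nat_lit 76) (nat_lit 15802977730) (nat_lit 76) (nat_lit 8640059888) (nat_lit 43) (nat_lit 4) (nat_lit 44) (nat_lit 5) (nat_lit 44) (nat_lit 4) (nat_lit 517) (nat_lit 364) (nat_lit 319))) (XT.nd (nat_lit 78) (nat_lit 152) (nat_lit 0) (XT.lf (nat_lit 0) (nat_lit 19211993396) (nat_lit 76) (nat_lit 7663815788) (nat_lit 76) (nat_lit 425894715) (nat_lit 43) (nat_lit 4) (nat_lit 44) (nat_lit 5) (nat_lit 44) (nat_lit 4) (nat_lit 518) (nat_lit 364) (nat_lit 318)) (XT.lf (nat_lit 0) (nat_lit 7883250633) (nat_lit 152) (nat_lit 19194224441) (nat_lit 0) (nat_lit 785445056) (nat_lit 41) (nat_lit 5) (nat_lit 43) (nat_lit 4) (nat_lit 41) (nat_lit 4) (nat_lit 519) (nat_lit 364) (nat_lit 317))))) (XT.nd (nat_lit 312) (nat_lit 228) (nat_lit 0) (XT.nd (nat_lit 156) (nat_lit 152) (nat_lit 0) (XT.nd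 (nat_lit 78) (nat_lit 76) (nat_lit 0) (XT.lf (nat_lit 0) (nat_lit 16505808266) (nat_lit 152) (nat_lit 2593493537) (nat_lit 0) (nat_lit 9339364109) (nat_lit 41) (nat_lit 5) (nat_lit 43) (nat_lit 4) (nat_lit 41) (nat_lit 4) (nat_lit 520) (nat_lit 364) (nat_lit 316)) (XT.lf (nat_lit 0) (nat_lit 14625854988) (nat_lit 76) (nat_lit 10818595445) (nat_lit 76) (nat_lit 3585511888) (nat_lit 40) (nat_lit 4) (nat_lit 41) (nat_lit 5) (nat_lit 41) (nat_lit 4) (nat_lit 521) (nat_lit 364) (nat_lit 315))) (XT.nd (nat_lit 78) (nat_lit 0) (nat_lit 0) (XT.lf (nat_lit 0) (nat_lit 2614466709) (nat_lit 76) (nat_lit 2268414429) (nat_lit 152) (nat_lit 24755618501) (nat_lit 38) (nat_lit 5) (nat_lit 39) (nat_lit 5) (nat_lit 40) (nat_lit 4) (nat_lit 522) (nat_lit 364) (nat_lit 314)) (XT.lf (nat_lit 0) (nat_lit 13659932287) (nat_lit 152) (nat_lit 10086773535) (nat_lit 0) (nat_lit 6513722552) (nat_lit 38) (nat_lit 5) (nat_lit 40) (nat_lit 4)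 (nat_lit 38) (nat_lit 4) (nat_lit 523) (nat_lit 364) (nat_lit 313)))) (XT.nd (nat_lit 156) (nat_lit 76) (nat_lit 0) (XT.nd (nat_lit 78) (nat_lit 76) (nat_lit 0) (XT.lf (nat_lit 0) (nat_lit 7318842637) (nat_lit 76) (nat_lit 15393612964) (nat_lit 76) (nat_lit 8188194986) (nat_lit 37) (nat_lit 4) (nat_lit 38) (nat_lit 5) (nat_lit 38) (nat_lit 4) (nat_lit 524) (nat_lit 364) (nat_lit 312)) (XT.lf (nat_lit 0) (nat_lit 489424650) (nat_lit 152) (nat_lit 6269369669) (nat_lit 76) (nat_lit 24800480736) (nat_lit 36) (nat_lit 5) (nat_lit 38) (nat_lit 5) (nat_lit 37) (nat_lit 4) (nat_lit 525) (nat_lit 364) (nat_lit 311))) (XT.nd (nat_lit 78) (nat_lit 0) (nat_lit 0) (XT.lf (nat_lit 0) (nat_lit 9317249928) (nat_lit 152) (nat_lit 20704637924) (nat_lit 0) (nat_lit 2211705115) (nat_lit 35) (nat_lit 5) (nat_lit 37) (nat_lit 4) (nat_lit 35) (nat_lit 4) (nat_lit 526) (nat_lit 364) (nat_lit 310)) (XT.lf (nat_lit 0) (nat_lit 18462558493)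 (nat_lit 152) (nat_lit 3159594932) (nat_lit 0) (nat_lit 11304407923) (nat_lit 35) (nat_lit 5) (nat_lit 37) (nat_lit 4) (nat_lit 35) (nat_lit 4) (nat_lit 527) (nat_lit 364) (nat_lit 309))))))) (XT.nd (nat_lit 1170) (nat_lit 532) (nat_lit 0) (XT.nd (nat_lit 546) (nat_lit 456) (nat_lit 0) (XT.nd (nat_lit 234) (nat_lit 228) (nat_lit 0) (XT.nd (nat_lit 78) (nat_lit 152) (nat_lit 0) (XT.lf (nat_lit 0) (nat_lit 15054544805) (nat_lit 76) (nat_lit 12896467447) (nat_lit 76) (nat_lit 5687243326) (nat_lit 34) (nat_lit 4) (nat_lit 35) (nat_lit 5) (nat_lit 35) (nat_lit 4) (nat_lit 528) (nat_lit 364) (nat_lit 308)) (XT.nd (nat_lit 78) (nat_lit 76) (nat_lit 0) (XT.lf (nat_lit 0) (nat_lit 3243717006) (nat_lit 152) (nat_lit 674064568) (nat_lit 76) (nat_lit 30453862826) (nat_lit 33) (nat_lit 5) (nat_lit 35) (nat_lit 5) (nat_lit 34) (nat_lit 4) (nat_lit 529) (nat_lit 364) (nat_lit 307)) (XT.lf (nat_lit 0) (nat_lit 12479664168) (nat_lit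 152) (nat_lit 17255604609) (nat_lit 0) (nat_lit 5385536195) (nat_lit 32) (nat_lit 5) (nat_lit 34) (nat_lit 4) (nat_lit 32) (nat_lit 4) (nat_lit 530) (nat_lit 364) (nat_lit 306)))) (XT.nd (nat_lit 156) (nat_lit 152) (nat_lit 0) (XT.nd (nat_lit 78) (nat_lit 0) (nat_lit 0) (XT.lf (nat_lit 0) (nat_lit 914503226) (nat_lit 76) (nat_lit 21059009470) (nat_lit 76) (nat_lit 13919503309) (nat_lit 31) (nat_lit 4) (nat_lit 32) (nat_lit 5) (nat_lit 32) (nat_lit 4) (nat_lit 531) (nat_lit 364) (nat_lit 305)) (XT.lf (nat_lit 0) (nat_lit 19838166139) (nat_lit 76) (nat_lit 12015374643) (nat_lit 76) (nat_lit 4831811989) (nat_lit 31) (nat_lit 4) (nat_lit 32) (nat_lit 5) (nat_lit 32) (nat_lit 4) (nat_lit 532) (nat_lit 364) (nat_lit 304))) (XT.nd (nat_lit 78) (nat_lit 0) (nat_lit 0) (XT.lf (nat_lit 0) (nat_lit 1674766751) (nat_lit 76) (nat_lit 2710012903) (nat_lit 152) (nat_lit 33117035252) (nat_lit 29) (nat_lit 5) (nat_lit 30) (nat_lit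 5) (nat_lit 31) (nat_lit 4) (nat_lit 533) (nat_lit 364) (nat_lit 303)) (XT.lf (nat_lit 0) (nat_lit 13947231941) (nat_lit 152) (nat_lit 17498055879) (nat_lit 0) (nat_lit 6891053864) (nat_lit 29) (nat_lit 5) (nat_lit 31) (nat_lit 4) (nat_lit 29) (nat_lit 4) (nat_lit 534) (nat_lit 364) (nat_lit 302))))) (XT.nd (nat_lit 312) (nat_lit 228) (nat_lit 0) (XT.nd (nat_lit 156) (nat_lit 152) (nat_lit 0) (XT.nd (nat_lit 78) (nat_lit 0) (nat_lit 0) (XT.lf (nat_lit 0) (nat_lit 1239806157) (nat_lit 76) (nat_lit 22526168791) (nat_lit 76) (nat_lit 15430847091) (nat_lit 28) (nat_lit 4) (nat_lit 29) (nat_lit 5) (nat_lit 29) (nat_lit 4) (nat_lit 535) (nat_lit 364) (nat_lit 301)) (XT.lf (nat_lit 0) (nat_lit 20761492250) (nat_lit 76) (nat_lit 13225854036) (nat_lit 76) (nat_lit 6092528817) (nat_lit 28) (nat_lit 4) (nat_lit 29) (nat_lit 5) (nat_lit 29) (nat_lit 4) (nat_lit 536) (nat_lit 364) (nat_lit 300))) (XT.nd (nat_lit 78) (nat_lit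 76) (nat_lit 0) (XT.lf (nat_lit 0) (nat_lit 3389844171) (nat_lit 152) (nat_lit 288838170) (nat_lit 76) (nat_lit 37311739609) (nat_lit 27) (nat_lit 5) (nat_lit 29) (nat_lit 5) (nat_lit 28) (nat_lit 4) (nat_lit 537) (nat_lit 364) (nat_lit 299)) (XT.lf (nat_lit 0) (nat_lit 13217354657) (nat_lit 152) (nat_lit 22482431906) (nat_lit 0) (nat_lit 6221195629) (nat_lit 26) (nat_lit 5) (nat_lit 28) (nat_lit 4) (nat_lit 26) (nat_lit 4) (nat_lit 538) (nat_lit 364) (nat_lit 298)))) (XT.nd (nat_lit 156) (nat_lit 152) (nat_lit 0) (XT.nd (nat_lit 78) (nat_lit 76) (nat_lit 0) (XT.lf (nat_lit 0) (nat_lit 23313768834) (nat_lit 152) (nat_lit 3282624132) (nat_lit 0) (nat_lit 16283844173) (nat_lit 26) (nat_lit 5) (nat_lit 28) (nat_lit 4) (nat_lit 26) (nat_lit 4) (nat_lit 539) (nat_lit 364) (nat_lit 297)) (XT.lf (nat_lit 0) (nat_lit 16692221479) (nat_lit 76) (nat_lit 17117921648) (nat_lit 76) (nat_lit 10055214818) (nat_lit 25) (nat_lit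 4) (nat_lit 26) (nat_lit 5) (nat_lit 26) (nat_lit 4) (nat_lit 540) (nat_lit 364) (nat_lit 296))) (XT.nd (nat_lit 78) (nat_lit 152) (nat_lit 0) (XT.lf (nat_lit 0) (nat_lit 37208163253) (nat_lit 76) (nat_lit 7383645761) (nat_lit 76) (nat_lit 289111583) (nat_lit 25) (nat_lit 4) (nat_lit 26) (nat_lit 5) (nat_lit 26) (nat_lit 4) (nat_lit 541) (nat_lit 364) (nat_lit 295)) (XT.lf (nat_lit 0) (nat_lit 9664295085) (nat_lit 152) (nat_lit 33510891288) (nat_lit 0) (nat_lit 2746397496) (nat_lit 23) (nat_lit 5) (nat_lit 25) (nat_lit 4) (nat_lit 23) (nat_lit 4) (nat_lit 542) (nat_lit 364) (nat_lit 294)))))) (XT.nd (nat_lit 624) (nat_lit 228) (nat_lit 0) (XT.nd (nat_lit 312) (nat_lit 152) (nat_lit 0) (XT.nd (nat_lit 156) (nat_lit 76) (nat_lit 0) (XT.nd (nat_lit 78) (nat_lit 76) (nat_lit 0) (XT.lf (nat_lit 0) (nat_lit 20000357593) (nat_lit 152) (nat_lit 13936994377) (nat_lit 0) (nat_lit 13053333472) (nat_lit 23) (nat_lit 5) (nat_lit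 25) (nat_lit 4) (nat_lit 23) (nat_lit 4) (nat_lit 543) (nat_lit 364) (nat_lit 293)) (XT.lf (nat_lit 0) (nat_lit 6226151241) (nat_lit 76) (nat_lit 24420503380) (nat_lit 76) (nat_lit 17445201072) (nat_lit 22) (nat_lit 4) (nat_lit 23) (nat_lit 5) (nat_lit 23) (nat_lit 4) (nat_lit 544) (nat_lit 364) (nat_lit 292))) (XT.nd (nat_lit 78) (nat_lit 76) (nat_lit 0) (XT.lf (nat_lit 0) (nat_lit 27161594318) (nat_lit 76) (nat_lit 14532387280) (nat_lit 76) (nat_lit 7529630422) (nat_lit 22) (nat_lit 4) (nat_lit 23) (nat_lit 5) (nat_lit 23) (nat_lit 4) (nat_lit 545) (nat_lit 364) (nat_lit 291)) (XT.lf (nat_lit 0) (nat_lit 2573102097) (nat_lit 152) (nat_lit 1806014503) (nat_lit 76) (nat_lit 46011169062) (nat_lit 21) (nat_lit 5) (nat_lit 23) (nat_lit 5) (nat_lit 22) (nat_lit 4) (nat_lit 546) (nat_lit 364) (nat_lit 290)))) (XT.nd (nat_lit 156) (nat_lit 76) (nat_lit 0) (XT.nd (nat_lit 78) (nat_lit 0) (nat_lit 0) (XT.lf (nat_lit 0)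 (nat_lit 13016789397) (nat_lit 152) (nat_lit 32400264465) (nat_lit 0) (nat_lit 6166992982) (nat_lit 20) (nat_lit 5) (nat_lit 22) (nat_lit 4) (nat_lit 20) (nat_lit 4) (nat_lit 547) (nat_lit 364) (nat_lit 289)) (XT.lf (nat_lit 0) (nat_lit 23779337869) (nat_lit 152) (nat_lit 12128968215) (nat_lit 0) (nat_lit 16905148442) (nat_lit 20) (nat_lit 5) (nat_lit 22) (nat_lit 4) (nat_lit 20) (nat_lit 4) (nat_lit 548) (nat_lit 364) (nat_lit 288))) (XT.nd (nat_lit 78) (nat_lit 0) (nat_lit 0) (XT.lf (nat_lit 0) (nat_lit 8813071786) (nat_lit 76) (nat_lit 26081820453) (nat_lit 76) (nat_lit 19183948490) (nat_lit 19) (nat_lit 4) (nat_lit 20) (nat_lit 5) (nat_lit 20) (nat_lit 4) (nat_lit 549) (nat_lit 364) (nat_lit 287)) (XT.lf (nat_lit 0) (nat_lit 30523707290) (nat_lit 76) (nat_lit 15888646450) (nat_lit 76) (nat_lit 8967781733) (nat_lit 19) (nat_lit 4) (nat_lit 20) (nat_lit 5) (nat_lit 20) (nat_lit 4) (nat_lit 550) (nat_lit 364)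 (nat_lit 286))))) (XT.nd (nat_lit 312) (nat_lit 0) (nat_lit 0) (XT.nd (nat_lit 156) (nat_lit 76) (nat_lit 0) (XT.nd (nat_lit 78) (nat_lit 76) (nat_lit 0) (XT.lf (nat_lit 0) (nat_lit 1471544934) (nat_lit 152) (nat_lit 3955951562) (nat_lit 76) (nat_lit 51294113850) (nat_lit 18) (nat_lit 5) (nat_lit 20) (nat_lit 5) (nat_lit 19) (nat_lit 4) (nat_lit 551) (nat_lit 364) (nat_lit 285)) (XT.lf (nat_lit 0) (nat_lit 12216228608) (nat_lit 152) (nat_lit 40425036718) (nat_lit 0) (nat_lit 5454227973) (nat_lit 17) (nat_lit 5) (nat_lit 19) (nat_lit 4) (nat_lit 17) (nat_lit 4) (nat_lit 552) (nat_lit 364) (nat_lit 284))) (XT.nd (nat_lit 78) (nat_lit 76) (nat_lit 0) (XT.lf (nat_lit 0) (nat_lit 23325917505) (nat_lit 152) (nat_lit 19639907339) (nat_lit 0) (nat_lit 16543488107) (nat_lit 17) (nat_lit 5) (nat_lit 19) (nat_lit 4) (nat_lit 17) (nat_lit 4) (nat_lit 553) (nat_lit 364) (nat_lit 283)) (XT.lf (nat_lit 0) (nat_lit 1701859097)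 (nat_lit 76) (nat_lit 33033479078) (nat_lit 76) (nat_lit 26231215929) (nat_lit 16) (nat_lit 4) (nat_lit 17) (nat_lit 5) (nat_lit 17) (nat_lit 4) (nat_lit 554) (nat_lit 364) (nat_lit 282)))) (XT.nd (nat_lit 55926) (nat_lit 0) (nat_lit 6992) (XT.nd (nat_lit 55848) (nat_lit 0) (nat_lit 7372) (XT.lf (nat_lit 0) (nat_lit 23987332780) (nat_lit 76) (nat_lit 22648615928) (nat_lit 76) (nat_lit 15827096709) (nat_lit 16) (nat_lit 4) (nat_lit 17) (nat_lit 5) (nat_lit 17) (nat_lit 4) (nat_lit 555) (nat_lit 364) (nat_lit 281)) (XT.lf (nat_lit 0) (nat_lit 1121088189) (nat_lit 228) (nat_lit 3711961808) (nat_lit 0) (nat_lit 1121088189) (nat_lit 113) (nat_lit 5) (nat_lit 116) (nat_lit 4) (nat_lit 113) (nat_lit 4) (nat_lit 470) (nat_lit 365) (nat_lit 365))) (XT.nd (nat_lit 78) (nat_lit 228) (nat_lit 0) (XT.lf (nat_lit 0) (nat_lit 3471480977) (nat_lit 152) (nat_lit 4552207350) (nat_lit 152) (nat_lit 4054857086) (nat_lit 111) (nat_lit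 4) (nat_lit 113) (nat_lit 5) (nat_lit 113) (nat_lit 4) (nat_lit 471) (nat_lit 365) (nat_lit 364)) (XT.lf (nat_lit 0) (nat_lit 1673995474) (nat_lit 228) (nat_lit 9857614469) (nat_lit 0) (nat_lit 722330816) (nat_lit 108) (nat_lit 5) (nat_lit 111) (nat_lit 4) (nat_lit 108) (nat_lit 4) (nat_lit 472) (nat_lit 365) (nat_lit 363))))))))
noncomputable def xc29 : XT := (XT.nd (nat_lit 2418) (nat_lit 2204) (nat_lit 0) (XT.nd (nat_lit 1170) (nat_lit 1596) (nat_lit 0) (XT.nd (nat_lit 546) (nat_lit 1064) (nat_lit 0) (XT.nd (nat_lit 234) (nat_lit 760) (nat_lit 0) (XT.nd (nat_lit 78) (nat_lit 228) (nat_lit 0) (XT.lf (nat_lit 0) (nat_lit 1190639920) (nat_lit 152) (nat_lit 6324455584) (nat_lit 152) (nat_lit 4917644980) (nat_lit 106) (nat_lit 4) (nat_lit 108) (nat_lit 5) (nat_lit 108) (nat_lit 4) (nat_lit 473) (nat_lit 365) (nat_lit 362)) (XT.nd (nat_lit 78) (nat_lit 152) (nat_lit 0) (XT.lf (nat_lit 0) (nat_lit 875059017) (nat_lit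 228) (nat_lit 72330065) (nat_lit 76) (nat_lit 11669903133) (nat_lit 105) (nat_lit 5) (nat_lit 108) (nat_lit 5) (nat_lit 106) (nat_lit 4) (nat_lit 474) (nat_lit 365) (nat_lit 361)) (XT.lf (nat_lit 0) (nat_lit 6778391177) (nat_lit 228) (nat_lit 1459447175) (nat_lit 0) (nat_lit 4567013917) (nat_lit 103) (nat_lit 5) (nat_lit 106) (nat_lit 4) (nat_lit 103) (nat_lit 4) (nat_lit 475) (nat_lit 365) (nat_lit 360)))) (XT.nd (nat_lit 156) (nat_lit 380) (nat_lit 0) (XT.nd (nat_lit 78) (nat_lit 228) (nat_lit 0) (XT.lf (nat_lit 0) (nat_lit 10081365608) (nat_lit 152) (nat_lit 2766388551) (nat_lit 152) (nat_lit 150620014) (nat_lit 101) (nat_lit 4) (nat_lit 103) (nat_lit 5) (nat_lit 103) (nat_lit 4) (nat_lit 476) (nat_lit 365) (nat_lit 359)) (XT.lf (nat_lit 0) (nat_lit 5795155499) (nat_lit 228) (nat_lit 4526185781) (nat_lit 0) (nat_lit 2874396831) (nat_lit 98) (nat_lit 5) (nat_lit 101) (nat_lit 4) (nat_lit 98) (nat_lit 4) (nat_lit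 477) (nat_lit 365) (nat_lit 358))) (XT.nd (nat_lit 78) (nat_lit 228) (nat_lit 0) (XT.lf (nat_lit 0) (nat_lit 7160109302) (nat_lit 152) (nat_lit 4764724459) (nat_lit 152) (nat_lit 1473890486) (nat_lit 96) (nat_lit 4) (nat_lit 98) (nat_lit 5) (nat_lit 98) (nat_lit 4) (nat_lit 478) (nat_lit 365) (nat_lit 357)) (XT.lf (nat_lit 0) (nat_lit 4532055588) (nat_lit 228) (nat_lit 8086417510) (nat_lit 0) (nat_lit 988239680) (nat_lit 93) (nat_lit 5) (nat_lit 96) (nat_lit 4) (nat_lit 93) (nat_lit 4) (nat_lit 479) (nat_lit 365) (nat_lit 356))))) (XT.nd (nat_lit 312) (nat_lit 532) (nat_lit 0) (XT.nd (nat_lit 156) (nat_lit 228) (nat_lit 0) (XT.nd (nat_lit 78) (nat_lit 152) (nat_lit 0) (XT.lf (nat_lit 0) (nat_lit 3734855367) (nat_lit 152) (nat_lit 6983619983) (nat_lit 152) (nat_lit 3101132746) (nat_lit 91) (nat_lit 4) (nat_lit 93) (nat_lit 5) (nat_lit 93) (nat_lit 4) (nat_lit 480) (nat_lit 365) (nat_lit 355)) (XT.lf (nat_lit 0)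 (nat_lit 1828996721) (nat_lit 76) (nat_lit 1146516122) (nat_lit 152) (nat_lit 11062995868) (nat_lit 89) (nat_lit 5) (nat_lit 90) (nat_lit 5) (nat_lit 91) (nat_lit 4) (nat_lit 481) (nat_lit 365) (nat_lit 354))) (XT.nd (nat_lit 78) (nat_lit 228) (nat_lit 0) (XT.lf (nat_lit 0) (nat_lit 9205540259) (nat_lit 152) (nat_lit 249542149) (nat_lit 0) (nat_lit 4806972724) (nat_lit 89) (nat_lit 5) (nat_lit 91) (nat_lit 4) (nat_lit 89) (nat_lit 4) (nat_lit 482) (nat_lit 365) (nat_lit 353)) (XT.lf (nat_lit 0) (nat_lit 1122930786) (nat_lit 228) (nat_lit 2419923126) (nat_lit 76) (nat_lit 10948685554) (nat_lit 86) (nat_lit 5) (nat_lit 89) (nat_lit 5) (nat_lit 87) (nat_lit 4) (nat_lit 483) (nat_lit 365) (nat_lit 352)))) (XT.nd (nat_lit 156) (nat_lit 304) (nat_lit 0) (XT.nd (nat_lit 78) (nat_lit 152) (nat_lit 0) (XT.lf (nat_lit 0) (nat_lit 7396904364) (nat_lit 152) (nat_lit 4778503176) (nat_lit 0) (nat_lit 2550677678) (nat_lit 85)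 (nat_lit 5) (nat_lit 87) (nat_lit 4) (nat_lit 85) (nat_lit 4) (nat_lit 484) (nat_lit 365) (nat_lit 351)) (XT.lf (nat_lit 0) (nat_lit 7671953169) (nat_lit 152) (nat_lit 6208338908) (nat_lit 152) (nat_lit 1086741440) (nat_lit 83) (nat_lit 4) (nat_lit 85) (nat_lit 5) (nat_lit 85) (nat_lit 4) (nat_lit 485) (nat_lit 365) (nat_lit 350))) (XT.nd (nat_lit 78) (nat_lit 152) (nat_lit 0) (XT.lf (nat_lit 0) (nat_lit 5218731901) (nat_lit 76) (nat_lit 6726051) (nat_lit 152) (nat_lit 9988611003) (nat_lit 81) (nat_lit 5) (nat_lit 82) (nat_lit 5) (nat_lit 83) (nat_lit 4) (nat_lit 486) (nat_lit 365) (nat_lit 349)) (XT.lf (nat_lit 0) (nat_lit 2556563996) (nat_lit 152) (nat_lit 9197083940) (nat_lit 152) (nat_lit 3713092566) (nat_lit 79) (nat_lit 4) (nat_lit 81) (nat_lit 5) (nat_lit 81) (nat_lit 4) (nat_lit 487) (nat_lit 365) (nat_lit 348)))))) (XT.nd (nat_lit 624) (nat_lit 684) (nat_lit 0) (XT.nd (nat_lit 312) (nat_lit 456) (nat_lit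 0) (XT.nd (nat_lit 156) (nat_lit 304) (nat_lit 0) (XT.nd (nat_lit 78) (nat_lit 76) (nat_lit 0) (XT.lf (nat_lit 0) (nat_lit 2687319463) (nat_lit 228) (nat_lit 273396237) (nat_lit 76) (nat_lit 12765775885) (nat_lit 78) (nat_lit 5) (nat_lit 81) (nat_lit 5) (nat_lit 79) (nat_lit 4) (nat_lit 488) (nat_lit 365) (nat_lit 347)) (XT.lf (nat_lit 0) (nat_lit 9253150602) (nat_lit 152) (nat_lit 3277611127) (nat_lit 0) (nat_lit 3460731181) (nat_lit 77) (nat_lit 5) (nat_lit 79) (nat_lit 4) (nat_lit 77) (nat_lit 4) (nat_lit 489) (nat_lit 365) (nat_lit 346))) (XT.nd (nat_lit 78) (nat_lit 152) (nat_lit 0) (XT.lf (nat_lit 0) (nat_lit 9787726458) (nat_lit 152) (nat_lit 6246249968) (nat_lit 152) (nat_lit 229928902) (nat_lit 75) (nat_lit 4) (nat_lit 77) (nat_lit 5) (nat_lit 77) (nat_lit 4) (nat_lit 490) (nat_lit 365) (nat_lit 345)) (XT.lf (nat_lit 0) (nat_lit 6339339600) (nat_lit 152) (nat_lit 9916324915) (nat_lit 0) (nat_lit 287202411)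 (nat_lit 73) (nat_lit 5) (nat_lit 75) (nat_lit 4) (nat_lit 73) (nat_lit 4) (nat_lit 491) (nat_lit 365) (nat_lit 344)))) (XT.nd (nat_lit 156) (nat_lit 228) (nat_lit 0) (XT.nd (nat_lit 78) (nat_lit 76) (nat_lit 0) (XT.lf (nat_lit 0) (nat_lit 3218570201) (nat_lit 152) (nat_lit 9933534056) (nat_lit 152) (nat_lit 3676495143) (nat_lit 71) (nat_lit 4) (nat_lit 73) (nat_lit 5) (nat_lit 73) (nat_lit 4) (nat_lit 492) (nat_lit 365) (nat_lit 343)) (XT.lf (nat_lit 0) (nat_lit 2980360481) (nat_lit 228) (nat_lit 405840848) (nat_lit 76) (nat_lit 13736021707) (nat_lit 70) (nat_lit 5) (nat_lit 73) (nat_lit 5) (nat_lit 71) (nat_lit 4) (nat_lit 493) (nat_lit 365) (nat_lit 342))) (XT.nd (nat_lit 78) (nat_lit 152) (nat_lit 0) (XT.lf (nat_lit 0) (nat_lit 9818501390) (nat_lit 152) (nat_lit 4240346436) (nat_lit 0) (nat_lit 3363052699) (nat_lit 69) (nat_lit 5) (nat_lit 71) (nat_lit 4) (nat_lit 69) (nat_lit 4) (nat_lit 494) (nat_lit 365)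 (nat_lit 341)) (XT.lf (nat_lit 0) (nat_lit 9403713476) (nat_lit 152) (nat_lit 7481822469) (nat_lit 152) (nat_lit 844321251) (nat_lit 67) (nat_lit 4) (nat_lit 69) (nat_lit 5) (nat_lit 69) (nat_lit 4) (nat_lit 495) (nat_lit 365) (nat_lit 340))))) (XT.nd (nat_lit 312) (nat_lit 304) (nat_lit 0) (XT.nd (nat_lit 156) (nat_lit 152) (nat_lit 0) (XT.nd (nat_lit 78) (nat_lit 76) (nat_lit 0) (XT.lf (nat_lit 0) (nat_lit 5342499980) (nat_lit 76) (nat_lit 646047421) (nat_lit 152) (nat_lit 12057030461) (nat_lit 65) (nat_lit 5) (nat_lit 66) (nat_lit 5) (nat_lit 67) (nat_lit 4) (nat_lit 496) (nat_lit 365) (nat_lit 339)) (XT.lf (nat_lit 0) (nat_lit 970939329) (nat_lit 76) (nat_lit 12090205811) (nat_lit 76) (nat_lit 5307824052) (nat_lit 64) (nat_lit 4) (nat_lit 65) (nat_lit 5) (nat_lit 65) (nat_lit 4) (nat_lit 497) (nat_lit 365) (nat_lit 338))) (XT.nd (nat_lit 78) (nat_lit 76) (nat_lit 0) (XT.lf (nat_lit 0) (nat_lit 1643818920) (nat_lit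 152) (nat_lit 3607180664) (nat_lit 76) (nat_lit 13449628641) (nat_lit 63) (nat_lit 5) (nat_lit 65) (nat_lit 5) (nat_lit 64) (nat_lit 4) (nat_lit 498) (nat_lit 365) (nat_lit 337)) (XT.lf (nat_lit 0) (nat_lit 8715774805) (nat_lit 152) (nat_lit 8502901485) (nat_lit 0) (nat_lit 1821431910) (nat_lit 62) (nat_lit 5) (nat_lit 64) (nat_lit 4) (nat_lit 62) (nat_lit 4) (nat_lit 499) (nat_lit 365) (nat_lit 336)))) (XT.nd (nat_lit 156) (nat_lit 76) (nat_lit 0) (XT.nd (nat_lit 78) (nat_lit 152) (nat_lit 0) (XT.lf (nat_lit 0) (nat_lit 5653762363) (nat_lit 76) (nat_lit 10388553383) (nat_lit 76) (nat_lit 3346185123) (nat_lit 61) (nat_lit 4) (nat_lit 62) (nat_lit 5) (nat_lit 62) (nat_lit 4) (nat_lit 500) (nat_lit 365) (nat_lit 335)) (XT.lf (nat_lit 0) (nat_lit 439978851) (nat_lit 76) (nat_lit 3316701472) (nat_lit 152) (nat_lit 15989848358) (nat_lit 59) (nat_lit 5) (nat_lit 60) (nat_lit 5) (nat_lit 61) (nat_lit 4) (nat_lit 501)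 (nat_lit 365) (nat_lit 334))) (XT.nd (nat_lit 78) (nat_lit 76) (nat_lit 0) (XT.lf (nat_lit 0) (nat_lit 11083134218) (nat_lit 152) (nat_lit 5057946266) (nat_lit 0) (nat_lit 3970891199) (nat_lit 59) (nat_lit 5) (nat_lit 61) (nat_lit 4) (nat_lit 59) (nat_lit 4) (nat_lit 502) (nat_lit 365) (nat_lit 333)) (XT.lf (nat_lit 0) (nat_lit 9582304544) (nat_lit 76) (nat_lit 9074506576) (nat_lit 76) (nat_lit 1830744938) (nat_lit 58) (nat_lit 4) (nat_lit 59) (nat_lit 5) (nat_lit 59) (nat_lit 4) (nat_lit 503) (nat_lit 365) (nat_lit 332))))))) (XT.nd (nat_lit 1248) (nat_lit 912) (nat_lit 0) (XT.nd (nat_lit 624) (nat_lit 684) (nat_lit 0) (XT.nd (nat_lit 312) (nat_lit 228) (nat_lit 0) (XT.nd (nat_lit 156) (nat_lit 228) (nat_lit 0) (XT.nd (nat_lit 78) (nat_lit 0) (nat_lit 0) (XT.lf (nat_lit 0) (nat_lit 3720968488) (nat_lit 76) (nat_lit 1743276884) (nat_lit 152) (nat_lit 15408856253) (nat_lit 56) (nat_lit 5) (nat_lit 57) (nat_lit 5)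 (nat_lit 58) (nat_lit 4) (nat_lit 504) (nat_lit 365) (nat_lit 331)) (XT.lf (nat_lit 0) (nat_lit 13011033366) (nat_lit 152) (nat_lit 2522616970) (nat_lit 0) (nat_lit 5733927997) (nat_lit 56) (nat_lit 5) (nat_lit 58) (nat_lit 4) (nat_lit 56) (nat_lit 4) (nat_lit 505) (nat_lit 365) (nat_lit 330))) (XT.nd (nat_lit 78) (nat_lit 152) (nat_lit 0) (XT.lf (nat_lit 0) (nat_lit 12589547635) (nat_lit 76) (nat_lit 8238493027) (nat_lit 76) (nat_lit 844535068) (nat_lit 55) (nat_lit 4) (nat_lit 56) (nat_lit 5) (nat_lit 56) (nat_lit 4) (nat_lit 506) (nat_lit 365) (nat_lit 329)) (XT.lf (nat_lit 0) (nat_lit 5984372381) (nat_lit 76) (nat_lit 661824395) (nat_lit 152) (nat_lit 15441903370) (nat_lit 53) (nat_lit 5) (nat_lit 54) (nat_lit 5) (nat_lit 55) (nat_lit 4) (nat_lit 507) (nat_lit 365) (nat_lit 328)))) (XT.nd (nat_lit 156) (nat_lit 152) (nat_lit 0) (XT.nd (nat_lit 78) (nat_lit 76) (nat_lit 0) (XT.lf (nat_lit 0) (nat_lit 14411695355)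 (nat_lit 152) (nat_lit 1086120350) (nat_lit 0) (nat_lit 7016013949) (nat_lit 53) (nat_lit 5) (nat_lit 55) (nat_lit 4) (nat_lit 53) (nat_lit 4) (nat_lit 508) (nat_lit 365) (nat_lit 327)) (XT.lf (nat_lit 0) (nat_lit 14478529466) (nat_lit 76) (nat_lit 7985839727) (nat_lit 76) (nat_lit 486336308) (nat_lit 52) (nat_lit 4) (nat_lit 53) (nat_lit 5) (nat_lit 53) (nat_lit 4) (nat_lit 509) (nat_lit 365) (nat_lit 326))) (XT.nd (nat_lit 78) (nat_lit 0) (nat_lit 0) (XT.lf (nat_lit 0) (nat_lit 7018622757) (nat_lit 76) (nat_lit 182817758) (nat_lit 152) (nat_lit 16197513420) (nat_lit 50) (nat_lit 5) (nat_lit 51) (nat_lit 5) (nat_lit 52) (nat_lit 4) (nat_lit 510) (nat_lit 365) (nat_lit 325)) (XT.lf (nat_lit 0) (nat_lit 15180632917) (nat_lit 152) (nat_lit 971068846) (nat_lit 0) (nat_lit 7706687584) (nat_lit 50) (nat_lit 5) (nat_lit 52) (nat_lit 4) (nat_lit 50) (nat_lit 4) (nat_lit 511) (nat_lit 365) (nat_lit 324))))) (XT.nd (nat_lit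 312) (nat_lit 380) (nat_lit 0) (XT.nd (nat_lit 156) (nat_lit 76) (nat_lit 0) (XT.nd (nat_lit 78) (nat_lit 152) (nat_lit 0) (XT.lf (nat_lit 0) (nat_lit 15017295162) (nat_lit 76) (nat_lit 8439389341) (nat_lit 76) (nat_lit 873199494) (nat_lit 49) (nat_lit 4) (nat_lit 50) (nat_lit 5) (nat_lit 50) (nat_lit 4) (nat_lit 512) (nat_lit 365) (nat_lit 323)) (XT.lf (nat_lit 0) (nat_lit 6574847207) (nat_lit 76) (nat_lit 435298031) (nat_lit 152) (nat_lit 17803778246) (nat_lit 47) (nat_lit 5) (nat_lit 48) (nat_lit 5) (nat_lit 49) (nat_lit 4) (nat_lit 513) (nat_lit 365) (nat_lit 322))) (XT.nd (nat_lit 78) (nat_lit 76) (nat_lit 0) (XT.lf (nat_lit 0) (nat_lit 15193948496) (nat_lit 152) (nat_lit 2439064641) (nat_lit 0) (nat_lit 7676767013) (nat_lit 47) (nat_lit 5) (nat_lit 49) (nat_lit 4) (nat_lit 47) (nat_lit 4) (nat_lit 514) (nat_lit 365) (nat_lit 321)) (XT.lf (nat_lit 0) (nat_lit 13933039471) (nat_lit 76) (nat_lit 9742522156)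 (nat_lit 76) (nat_lit 2143382617) (nat_lit 46) (nat_lit 4) (nat_lit 47) (nat_lit 5) (nat_lit 47) (nat_lit 4) (nat_lit 515) (nat_lit 365) (nat_lit 320)))) (XT.nd (nat_lit 156) (nat_lit 228) (nat_lit 0) (XT.nd (nat_lit 78) (nat_lit 0) (nat_lit 0) (XT.lf (nat_lit 0) (nat_lit 4360646874) (nat_lit 76) (nat_lit 1570071027) (nat_lit 152) (nat_lit 20411489244) (nat_lit 44) (nat_lit 5) (nat_lit 45) (nat_lit 5) (nat_lit 46) (nat_lit 4) (nat_lit 516) (nat_lit 365) (nat_lit 319)) (XT.lf (nat_lit 0) (nat_lit 14305189336) (nat_lit 152) (nat_lit 5797178265) (nat_lit 0) (nat_lit 6775127400) (nat_lit 44) (nat_lit 5) (nat_lit 46) (nat_lit 4) (nat_lit 44) (nat_lit 4) (nat_lit 517) (nat_lit 365) (nat_lit 318))) (XT.nd (nat_lit 78) (nat_lit 152) (nat_lit 0) (XT.lf (nat_lit 0) (nat_lit 10905309591) (nat_lit 76) (nat_lit 12062650545) (nat_lit 76) (nat_lit 4459769938) (nat_lit 43) (nat_lit 4) (nat_lit 44) (nat_lit 5) (nat_lit 44) (nat_lit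 4) (nat_lit 518) (nat_lit 365) (nat_lit 317)) (XT.lf (nat_lit 0) (nat_lit 32877047) (nat_lit 76) (nat_lit 3763406397) (nat_lit 152) (nat_lit 24197780615) (nat_lit 41) (nat_lit 5) (nat_lit 42) (nat_lit 5) (nat_lit 43) (nat_lit 4) (nat_lit 519) (nat_lit 365) (nat_lit 316)))))) (XT.nd (nat_lit 624) (nat_lit 456) (nat_lit 0) (XT.nd (nat_lit 312) (nat_lit 228) (nat_lit 0) (XT.nd (nat_lit 156) (nat_lit 152) (nat_lit 0) (XT.nd (nat_lit 78) (nat_lit 76) (nat_lit 0) (XT.lf (nat_lit 0) (nat_lit 12341687149) (nat_lit 152) (nat_lit 11405465863) (nat_lit 0) (nat_lit 4824971686) (nat_lit 41) (nat_lit 5) (nat_lit 43) (nat_lit 4) (nat_lit 41) (nat_lit 4) (nat_lit 520) (nat_lit 365) (nat_lit 315)) (XT.lf (nat_lit 0) (nat_lit 5558117155) (nat_lit 76) (nat_lit 15595263281) (nat_lit 76) (nat_lit 8013849373) (nat_lit 40) (nat_lit 4) (nat_lit 41) (nat_lit 5) (nat_lit 41) (nat_lit 4) (nat_lit 521) (nat_lit 365) (nat_lit 314))) (XT.nd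 (nat_lit 78) (nat_lit 76) (nat_lit 0) (XT.lf (nat_lit 0) (nat_lit 476058811) (nat_lit 152) (nat_lit 6677828546) (nat_lit 76) (nat_lit 22625103957) (nat_lit 39) (nat_lit 5) (nat_lit 41) (nat_lit 5) (nat_lit 40) (nat_lit 4) (nat_lit 522) (nat_lit 365) (nat_lit 313)) (XT.lf (nat_lit 0) (nat_lit 9100300587) (nat_lit 152) (nat_lit 19685692131) (nat_lit 0) (nat_lit 1619511826) (nat_lit 38) (nat_lit 5) (nat_lit 40) (nat_lit 4) (nat_lit 38) (nat_lit 4) (nat_lit 523) (nat_lit 365) (nat_lit 312)))) (XT.nd (nat_lit 156) (nat_lit 152) (nat_lit 0) (XT.nd (nat_lit 78) (nat_lit 76) (nat_lit 0) (XT.lf (nat_lit 0) (nat_lit 18043897793) (nat_lit 152) (nat_lit 2499471655) (nat_lit 0) (nat_lit 10505625301) (nat_lit 38) (nat_lit 5) (nat_lit 40) (nat_lit 4) (nat_lit 38) (nat_lit 4) (nat_lit 524) (nat_lit 365) (nat_lit 311)) (XT.lf (nat_lit 0) (nat_lit 15350960991) (nat_lit 76) (nat_lit 11976382402) (nat_lit 76) (nat_lit 4382300462)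 (nat_lit 37) (nat_lit 4) (nat_lit 38) (nat_lit 5) (nat_lit 38) (nat_lit 4) (nat_lit 525) (nat_lit 365) (nat_lit 310))) (XT.nd (nat_lit 78) (nat_lit 0) (nat_lit 0) (XT.lf (nat_lit 0) (nat_lit 1228297792) (nat_lit 76) (nat_lit 3144393666) (nat_lit 152) (nat_lit 28017284696) (nat_lit 35) (nat_lit 5) (nat_lit 36) (nat_lit 5) (nat_lit 37) (nat_lit 4) (nat_lit 526) (nat_lit 365) (nat_lit 309)) (XT.lf (nat_lit 0) (nat_lit 13450371451) (nat_lit 152) (nat_lit 13660805071) (nat_lit 0) (nat_lit 5973797056) (nat_lit 35) (nat_lit 5) (nat_lit 37) (nat_lit 4) (nat_lit 35) (nat_lit 4) (nat_lit 527) (nat_lit 365) (nat_lit 308))))) (XT.nd (nat_lit 312) (nat_lit 228) (nat_lit 0) (XT.nd (nat_lit 156) (nat_lit 152) (nat_lit 0) (XT.nd (nat_lit 78) (nat_lit 0) (nat_lit 0) (XT.lf (nat_lit 0) (nat_lit 4270673827) (nat_lit 76) (nat_lit 18528176881) (nat_lit 76) (nat_lit 11002016515) (nat_lit 34) (nat_lit 4) (nat_lit 35) (nat_lit 5) (nat_lit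 35) (nat_lit 4) (nat_lit 528) (nat_lit 365) (nat_lit 307)) (XT.lf (nat_lit 0) (nat_lit 22874943486) (nat_lit 76) (nat_lit 9617823574) (nat_lit 76) (nat_lit 2043521488) (nat_lit 34) (nat_lit 4) (nat_lit 35) (nat_lit 5) (nat_lit 35) (nat_lit 4) (nat_lit 529) (nat_lit 365) (nat_lit 306))) (XT.nd (nat_lit 78) (nat_lit 0) (nat_lit 0) (XT.lf (nat_lit 0) (nat_lit 6662134444) (nat_lit 76) (nat_lit 373912877) (nat_lit 152) (nat_lit 28255878914) (nat_lit 32) (nat_lit 5) (nat_lit 33) (nat_lit 5) (nat_lit 34) (nat_lit 4) (nat_lit 530) (nat_lit 365) (nat_lit 305)) (XT.lf (nat_lit 0) (nat_lit 16482295420) (nat_lit 152) (nat_lit 10544100629) (nat_lit 0) (nat_lit 9039169393) (nat_lit 32) (nat_lit 5) (nat_lit 34) (nat_lit 4) (nat_lit 32) (nat_lit 4) (nat_lit 531) (nat_lit 365) (nat_lit 304)))) (XT.nd (nat_lit 156) (nat_lit 152) (nat_lit 0) (XT.nd (nat_lit 78) (nat_lit 0) (nat_lit 0) (XT.lf (nat_lit 0) (nat_lit 8100236204) (nat_lit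 76) (nat_lit 18123856206) (nat_lit 76) (nat_lit 10637956884) (nat_lit 31) (nat_lit 4) (nat_lit 32) (nat_lit 5) (nat_lit 32) (nat_lit 4) (nat_lit 532) (nat_lit 365) (nat_lit 303)) (XT.lf (nat_lit 0) (nat_lit 27383114892) (nat_lit 76) (nat_lit 8912803311) (nat_lit 76) (nat_lit 1385376519) (nat_lit 31) (nat_lit 4) (nat_lit 32) (nat_lit 5) (nat_lit 32) (nat_lit 4) (nat_lit 533) (nat_lit 365) (nat_lit 302))) (XT.nd (nat_lit 78) (nat_lit 0) (nat_lit 0) (XT.lf (nat_lit 0) (nat_lit 8008368352) (nat_lit 152) (nat_lit 29852681659) (nat_lit 0) (nat_lit 661043376) (nat_lit 29) (nat_lit 5) (nat_lit 31) (nat_lit 4) (nat_lit 29) (nat_lit 4) (nat_lit 534) (nat_lit 365) (nat_lit 301)) (XT.lf (nat_lit 0) (nat_lit 17782034451) (nat_lit 152) (nat_lit 11205185779) (nat_lit 0) (nat_lit 10396705957) (nat_lit 29) (nat_lit 5) (nat_lit 31) (nat_lit 4) (nat_lit 29) (nat_lit 4) (nat_lit 535) (nat_lit 365) (nat_lit 300))))))))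
noncomputable def xc30 : XT := (XT.nd (nat_lit 58032) (nat_lit 0) (nat_lit 2736) (XT.nd (nat_lit 1170) (nat_lit 228) (nat_lit 0) (XT.nd (nat_lit 546) (nat_lit 380) (nat_lit 0) (XT.nd (nat_lit 234) (nat_lit 152) (nat_lit 0) (XT.nd (nat_lit 78) (nat_lit 152) (nat_lit 0) (XT.lf (nat_lit 0) (nat_lit 8027970827) (nat_lit 76) (nat_lit 19832757005) (nat_lit 76) (nat_lit 12410531892) (nat_lit 28) (nat_lit 4) (nat_lit 29) (nat_lit 5) (nat_lit 29) (nat_lit 4) (nat_lit 536) (nat_lit 365) (nat_lit 299)) (XT.nd (nat_lit 78) (nat_lit 152) (nat_lit 0) (XT.lf (nat_lit 0) (nat_lit 27938677294) (nat_lit 76) (nat_lit 10351564754) (nat_lit 76) (nat_lit 2893517680) (nat_lit 28) (nat_lit 4) (nat_lit 29) (nat_lit 5) (nat_lit 29) (nat_lit 4) (nat_lit 537) (nat_lit 365) (nat_lit 298)) (XT.lf (nat_lit 0) (nat_lit 6252014550) (nat_lit 76) (nat_lit 518842704) (nat_lit 152) (nat_lit 35350885222) (nat_lit 26) (nat_lit 5) (nat_lit 27) (nat_lit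 5) (nat_lit 28) (nat_lit 4) (nat_lit 538) (nat_lit 365) (nat_lit 297)))) (XT.nd (nat_lit 156) (nat_lit 76) (nat_lit 0) (XT.nd (nat_lit 78) (nat_lit 76) (nat_lit 0) (XT.lf (nat_lit 0) (nat_lit 16831058306) (nat_lit 152) (nat_lit 16727337527) (nat_lit 0) (nat_lit 9523688102) (nat_lit 26) (nat_lit 5) (nat_lit 28) (nat_lit 4) (nat_lit 26) (nat_lit 4) (nat_lit 539) (nat_lit 365) (nat_lit 296)) (XT.lf (nat_lit 0) (nat_lit 2918138929) (nat_lit 76) (nat_lit 24246572556) (nat_lit 76) (nat_lit 16907375004) (nat_lit 25) (nat_lit 4) (nat_lit 26) (nat_lit 5) (nat_lit 26) (nat_lit 4) (nat_lit 540) (nat_lit 365) (nat_lit 295))) (XT.nd (nat_lit 78) (nat_lit 76) (nat_lit 0) (XT.lf (nat_lit 0) (nat_lit 23374087503) (nat_lit 76) (nat_lit 14542279969) (nat_lit 76) (nat_lit 7172182079) (nat_lit 25) (nat_lit 4) (nat_lit 26) (nat_lit 5) (nat_lit 26) (nat_lit 4) (nat_lit 541) (nat_lit 365) (nat_lit 294)) (XT.lf (nat_lit 0) (nat_lit 2739622456)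 (nat_lit 152) (nat_lit 1838664630) (nat_lit 76) (nat_lit 41558188238) (nat_lit 24) (nat_lit 5) (nat_lit 26) (nat_lit 5) (nat_lit 25) (nat_lit 4) (nat_lit 542) (nat_lit 365) (nat_lit 293))))) (XT.nd (nat_lit 312) (nat_lit 228) (nat_lit 0) (XT.nd (nat_lit 156) (nat_lit 76) (nat_lit 0) (XT.nd (nat_lit 78) (nat_lit 0) (nat_lit 0) (XT.lf (nat_lit 0) (nat_lit 12984063713) (nat_lit 152) (nat_lit 28453037776) (nat_lit 0) (nat_lit 5771224150) (nat_lit 23) (nat_lit 5) (nat_lit 25) (nat_lit 4) (nat_lit 23) (nat_lit 4) (nat_lit 543) (nat_lit 365) (nat_lit 292)) (XT.lf (nat_lit 0) (nat_lit 23541960337) (nat_lit 152) (nat_lit 8468521441) (nat_lit 0) (nat_lit 16301666223) (nat_lit 23) (nat_lit 5) (nat_lit 25) (nat_lit 4) (nat_lit 23) (nat_lit 4) (nat_lit 544) (nat_lit 365) (nat_lit 291))) (XT.nd (nat_lit 78) (nat_lit 0) (nat_lit 0) (XT.lf (nat_lit 0) (nat_lit 12241806949) (nat_lit 76) (nat_lit 22236192563) (nat_lit 76) (nat_lit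 14969243547) (nat_lit 22) (nat_lit 4) (nat_lit 23) (nat_lit 5) (nat_lit 23) (nat_lit 4) (nat_lit 545) (nat_lit 365) (nat_lit 290)) (XT.lf (nat_lit 0) (nat_lit 33635540373) (nat_lit 76) (nat_lit 12136391988) (nat_lit 76) (nat_lit 4843564425) (nat_lit 22) (nat_lit 4) (nat_lit 23) (nat_lit 5) (nat_lit 23) (nat_lit 4) (nat_lit 546) (nat_lit 365) (nat_lit 289)))) (XT.nd (nat_lit 156) (nat_lit 76) (nat_lit 0) (XT.nd (nat_lit 78) (nat_lit 0) (nat_lit 0) (XT.lf (nat_lit 0) (nat_lit 3762675330) (nat_lit 76) (nat_lit 1695761958) (nat_lit 152) (nat_lit 46359303577) (nat_lit 20) (nat_lit 5) (nat_lit 21) (nat_lit 5) (nat_lit 22) (nat_lit 4) (nat_lit 547) (nat_lit 365) (nat_lit 288)) (XT.lf (nat_lit 0) (nat_lit 16177794816) (nat_lit 152) (nat_lit 27821345387) (nat_lit 0) (nat_lit 9049304158) (nat_lit 20) (nat_lit 5) (nat_lit 22) (nat_lit 4) (nat_lit 20) (nat_lit 4) (nat_lit 548) (nat_lit 365) (nat_lit 287))) (XT.nd (nat_lit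 78) (nat_lit 76) (nat_lit 0) (XT.lf (nat_lit 0) (nat_lit 27182525517) (nat_lit 152) (nat_lit 7103587734) (nat_lit 0) (nat_lit 20031042106) (nat_lit 20) (nat_lit 5) (nat_lit 22) (nat_lit 4) (nat_lit 20) (nat_lit 4) (nat_lit 549) (nat_lit 365) (nat_lit 286)) (XT.lf (nat_lit 0) (nat_lit 14413877687) (nat_lit 76) (nat_lit 24190621797) (nat_lit 76) (nat_lit 17016815323) (nat_lit 19) (nat_lit 4) (nat_lit 20) (nat_lit 5) (nat_lit 20) (nat_lit 4) (nat_lit 550) (nat_lit 365) (nat_lit 285)))))) (XT.nd (nat_lit 56238) (nat_lit 0) (nat_lit 6080) (XT.nd (nat_lit 312) (nat_lit 76) (nat_lit 0) (XT.nd (nat_lit 156) (nat_lit 0) (nat_lit 0) (XT.nd (nat_lit 78) (nat_lit 152) (nat_lit 0) (XT.lf (nat_lit 0) (nat_lit 36620402729) (nat_lit 76) (nat_lit 13769525969) (nat_lit 76) (nat_lit 6574046620) (nat_lit 19) (nat_lit 4) (nat_lit 20) (nat_lit 5) (nat_lit 20) (nat_lit 4) (nat_lit 551) (nat_lit 365) (nat_lit 284)) (XT.lf (nat_lit 0)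 (nat_lit 1025925586) (nat_lit 76) (nat_lit 3034392916) (nat_lit 152) (nat_lit 54286593714) (nat_lit 17) (nat_lit 5) (nat_lit 18) (nat_lit 5) (nat_lit 19) (nat_lit 4) (nat_lit 552) (nat_lit 365) (nat_lit 283))) (XT.nd (nat_lit 78) (nat_lit 0) (nat_lit 0) (XT.lf (nat_lit 0) (nat_lit 15116248711) (nat_lit 152) (nat_lit 36556012074) (nat_lit 0) (nat_lit 8090083916) (nat_lit 17) (nat_lit 5) (nat_lit 19) (nat_lit 4) (nat_lit 17) (nat_lit 4) (nat_lit 553) (nat_lit 365) (nat_lit 282)) (XT.lf (nat_lit 0) (nat_lit 26485436044) (nat_lit 152) (nat_lit 15295341700) (nat_lit 0) (nat_lit 19440015180) (nat_lit 17) (nat_lit 5) (nat_lit 19) (nat_lit 4) (nat_lit 17) (nat_lit 4) (nat_lit 554) (nat_lit 365) (nat_lit 281)))) (XT.nd (nat_lit 55770) (nat_lit 0) (nat_lit 7372) (XT.nd (nat_lit 55692) (nat_lit 0) (nat_lit 7828) (XT.lf (nat_lit 0) (nat_lit 6638307506) (nat_lit 76) (nat_lit 31574150270) (nat_lit 76) (nat_lit 24510034193) (nat_lit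 16) (nat_lit 4) (nat_lit 17) (nat_lit 5) (nat_lit 17) (nat_lit 4) (nat_lit 555) (nat_lit 365) (nat_lit 280)) (XT.lf (nat_lit 0) (nat_lit 1586783476) (nat_lit 228) (nat_lit 2615443767) (nat_lit 0) (nat_lit 1586783476) (nat_lit 119) (nat_lit 5) (nat_lit 122) (nat_lit 4) (nat_lit 119) (nat_lit 4) (nat_lit 468) (nat_lit 366) (nat_lit 366))) (XT.nd (nat_lit 78) (nat_lit 228) (nat_lit 0) (XT.lf (nat_lit 0) (nat_lit 5400512941) (nat_lit 228) (nat_lit 3434500939) (nat_lit 228) (nat_lit 2906862044) (nat_lit 116) (nat_lit 4) (nat_lit 119) (nat_lit 5) (nat_lit 119) (nat_lit 4) (nat_lit 469) (nat_lit 366) (nat_lit 365)) (XT.lf (nat_lit 0) (nat_lit 2693730018) (nat_lit 228) (nat_lit 7532260688) (nat_lit 0) (nat_lit 1684108983) (nat_lit 113) (nat_lit 5) (nat_lit 116) (nat_lit 4) (nat_lit 113) (nat_lit 4) (nat_lit 470) (nat_lit 366) (nat_lit 364))))) (XT.nd (nat_lit 312) (nat_lit 684) (nat_lit 0) (XT.nd (nat_lit 156) (nat_lit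 228) (nat_lit 0) (XT.nd (nat_lit 78) (nat_lit 228) (nat_lit 0) (XT.lf (nat_lit 0) (nat_lit 3253712843) (nat_lit 152) (nat_lit 5160487131) (nat_lit 152) (nat_lit 3668001762) (nat_lit 111) (nat_lit 4) (nat_lit 113) (nat_lit 5) (nat_lit 113) (nat_lit 4) (nat_lit 471) (nat_lit 366) (nat_lit 363)) (XT.lf (nat_lit 0) (nat_lit 1984961380) (nat_lit 228) (nat_lit 10193775493) (nat_lit 0) (nat_lit 80800512) (nat_lit 108) (nat_lit 5) (nat_lit 111) (nat_lit 4) (nat_lit 108) (nat_lit 4) (nat_lit 472) (nat_lit 366) (nat_lit 362))) (XT.nd (nat_lit 78) (nat_lit 76) (nat_lit 0) (XT.lf (nat_lit 0) (nat_lit 740096591) (nat_lit 152) (nat_lit 7023089260) (nat_lit 152) (nat_lit 4677039125) (nat_lit 106) (nat_lit 4) (nat_lit 108) (nat_lit 5) (nat_lit 108) (nat_lit 4) (nat_lit 473) (nat_lit 366) (nat_lit 361)) (XT.lf (nat_lit 0) (nat_lit 1052551018) (nat_lit 228) (nat_lit 638390273) (nat_lit 76) (nat_lit 10935520103) (nat_lit 105) (nat_lit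 5) (nat_lit 108) (nat_lit 5) (nat_lit 106) (nat_lit 4) (nat_lit 474) (nat_lit 366) (nat_lit 360)))) (XT.nd (nat_lit 156) (nat_lit 380) (nat_lit 0) (XT.nd (nat_lit 78) (nat_lit 152) (nat_lit 0) (XT.lf (nat_lit 0) (nat_lit 6884956212) (nat_lit 228) (nat_lit 2144871168) (nat_lit 0) (nat_lit 3786323341) (nat_lit 103) (nat_lit 5) (nat_lit 106) (nat_lit 4) (nat_lit 103) (nat_lit 4) (nat_lit 475) (nat_lit 366) (nat_lit 359)) (XT.lf (nat_lit 0) (nat_lit 9277374367) (nat_lit 152) (nat_lit 3612735855) (nat_lit 152) (nat_lit 121490093) (nat_lit 101) (nat_lit 4) (nat_lit 103) (nat_lit 5) (nat_lit 103) (nat_lit 4) (nat_lit 476) (nat_lit 366) (nat_lit 358))) (XT.nd (nat_lit 78) (nat_lit 152) (nat_lit 0) (XT.lf (nat_lit 0) (nat_lit 5749653544) (nat_lit 228) (nat_lit 5471506308) (nat_lit 0) (nat_lit 1990019247) (nat_lit 98) (nat_lit 5) (nat_lit 101) (nat_lit 4) (nat_lit 98) (nat_lit 4) (nat_lit 477) (nat_lit 366) (nat_lit 357))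 (XT.lf (nat_lit 0) (nat_lit 6090709939) (nat_lit 152) (nat_lit 5722190129) (nat_lit 152) (nat_lit 1603259419) (nat_lit 96) (nat_lit 4) (nat_lit 98) (nat_lit 5) (nat_lit 98) (nat_lit 4) (nat_lit 478) (nat_lit 366) (nat_lit 356))))))) (XT.nd (nat_lit 1170) (nat_lit 1368) (nat_lit 0) (XT.nd (nat_lit 546) (nat_lit 988) (nat_lit 0) (XT.nd (nat_lit 234) (nat_lit 456) (nat_lit 0) (XT.nd (nat_lit 78) (nat_lit 304) (nat_lit 0) (XT.lf (nat_lit 0) (nat_lit 4317706088) (nat_lit 152) (nat_lit 10110791) (nat_lit 228) (nat_lit 9298691500) (nat_lit 93) (nat_lit 5) (nat_lit 95) (nat_lit 5) (nat_lit 96) (nat_lit 4) (nat_lit 479) (nat_lit 366) (nat_lit 355)) (XT.nd (nat_lit 78) (nat_lit 152) (nat_lit 0) (XT.lf (nat_lit 0) (nat_lit 2382666393) (nat_lit 152) (nat_lit 8062623595) (nat_lit 152) (nat_lit 3396183298) (nat_lit 91) (nat_lit 4) (nat_lit 93) (nat_lit 5) (nat_lit 93) (nat_lit 4) (nat_lit 480) (nat_lit 366) (nat_lit 354)) (XT.lf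 (nat_lit 0) (nat_lit 324815508) (nat_lit 76) (nat_lit 2291187454) (nat_lit 152) (nat_lit 11446563654) (nat_lit 89) (nat_lit 5) (nat_lit 90) (nat_lit 5) (nat_lit 91) (nat_lit 4) (nat_lit 481) (nat_lit 366) (nat_lit 353)))) (XT.nd (nat_lit 156) (nat_lit 228) (nat_lit 0) (XT.nd (nat_lit 78) (nat_lit 228) (nat_lit 0) (XT.lf (nat_lit 0) (nat_lit 8779450816) (nat_lit 152) (nat_lit 1870571773) (nat_lit 0) (nat_lit 3638088924) (nat_lit 89) (nat_lit 5) (nat_lit 91) (nat_lit 4) (nat_lit 89) (nat_lit 4) (nat_lit 482) (nat_lit 366) (nat_lit 352)) (XT.lf (nat_lit 0) (nat_lit 608067603) (nat_lit 228) (nat_lit 4199125519) (nat_lit 76) (nat_lit 9712680353) (nat_lit 86) (nat_lit 5) (nat_lit 89) (nat_lit 5) (nat_lit 87) (nat_lit 4) (nat_lit 483) (nat_lit 366) (nat_lit 351))) (XT.nd (nat_lit 78) (nat_lit 152) (nat_lit 0) (XT.lf (nat_lit 0) (nat_lit 6796947199) (nat_lit 152) (nat_lit 6713694819) (nat_lit 0) (nat_lit 1246331024) (nat_lit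 85) (nat_lit 5) (nat_lit 87) (nat_lit 4) (nat_lit 85) (nat_lit 4) (nat_lit 484) (nat_lit 366) (nat_lit 350)) (XT.lf (nat_lit 0) (nat_lit 5595218865) (nat_lit 152) (nat_lit 7611440087) (nat_lit 152) (nat_lit 1793473638) (nat_lit 83) (nat_lit 4) (nat_lit 85) (nat_lit 5) (nat_lit 85) (nat_lit 4) (nat_lit 485) (nat_lit 366) (nat_lit 349))))) (XT.nd (nat_lit 312) (nat_lit 532) (nat_lit 0) (XT.nd (nat_lit 156) (nat_lit 152) (nat_lit 0) (XT.nd (nat_lit 78) (nat_lit 152) (nat_lit 0) (XT.lf (nat_lit 0) (nat_lit 2970729325) (nat_lit 76) (nat_lit 1486541190) (nat_lit 152) (nat_lit 10792359614) (nat_lit 81) (nat_lit 5) (nat_lit 82) (nat_lit 5) (nat_lit 83) (nat_lit 4) (nat_lit 486) (nat_lit 366) (nat_lit 348)) (XT.lf (nat_lit 0) (nat_lit 138801351) (nat_lit 152) (nat_lit 10755703818) (nat_lit 152) (nat_lit 4610526054) (nat_lit 79) (nat_lit 4) (nat_lit 81) (nat_lit 5) (nat_lit 81) (nat_lit 4) (nat_lit 487) (nat_lit 366) (nat_lit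 347))) (XT.nd (nat_lit 78) (nat_lit 76) (nat_lit 0) (XT.lf (nat_lit 0) (nat_lit 1753978409) (nat_lit 228) (nat_lit 2822138847) (nat_lit 76) (nat_lit 11190527276) (nat_lit 78) (nat_lit 5) (nat_lit 81) (nat_lit 5) (nat_lit 79) (nat_lit 4) (nat_lit 488) (nat_lit 366) (nat_lit 346)) (XT.lf (nat_lit 0) (nat_lit 8225761526) (nat_lit 152) (nat_lit 6003657402) (nat_lit 0) (nat_lit 1805049181) (nat_lit 77) (nat_lit 5) (nat_lit 79) (nat_lit 4) (nat_lit 77) (nat_lit 4) (nat_lit 489) (nat_lit 366) (nat_lit 345)))) (XT.nd (nat_lit 156) (nat_lit 228) (nat_lit 0) (XT.nd (nat_lit 78) (nat_lit 152) (nat_lit 0) (XT.lf (nat_lit 0) (nat_lit 6906969400) (nat_lit 152) (nat_lit 8020193614) (nat_lit 152) (nat_lit 1382101031) (nat_lit 75) (nat_lit 4) (nat_lit 77) (nat_lit 5) (nat_lit 77) (nat_lit 4) (nat_lit 490) (nat_lit 366) (nat_lit 344)) (XT.lf (nat_lit 0) (nat_lit 3555864966) (nat_lit 76) (nat_lit 1569753912) (nat_lit 152) (nat_lit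 11465460718) (nat_lit 73) (nat_lit 5) (nat_lit 74) (nat_lit 5) (nat_lit 75) (nat_lit 4) (nat_lit 491) (nat_lit 366) (nat_lit 343))) (XT.nd (nat_lit 78) (nat_lit 228) (nat_lit 0) (XT.lf (nat_lit 0) (nat_lit 11840804380) (nat_lit 152) (nat_lit 46716921) (nat_lit 0) (nat_lit 4992218864) (nat_lit 73) (nat_lit 5) (nat_lit 75) (nat_lit 4) (nat_lit 73) (nat_lit 4) (nat_lit 492) (nat_lit 366) (nat_lit 342)) (XT.lf (nat_lit 0) (nat_lit 1592549239) (nat_lit 228) (nat_lit 3808850085) (nat_lit 76) (nat_lit 11773916756) (nat_lit 70) (nat_lit 5) (nat_lit 73) (nat_lit 5) (nat_lit 71) (nat_lit 4) (nat_lit 493) (nat_lit 366) (nat_lit 341)))))) (XT.nd (nat_lit 624) (nat_lit 608) (nat_lit 0) (XT.nd (nat_lit 312) (nat_lit 380) (nat_lit 0) (XT.nd (nat_lit 156) (nat_lit 152) (nat_lit 0) (XT.nd (nat_lit 78) (nat_lit 152) (nat_lit 0) (XT.lf (nat_lit 0) (nat_lit 8326241265) (nat_lit 152) (nat_lit 7844323948) (nat_lit 0) (nat_lit 1307562482)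 (nat_lit 69) (nat_lit 5) (nat_lit 71) (nat_lit 4) (nat_lit 69) (nat_lit 4) (nat_lit 494) (nat_lit 366) (nat_lit 340)) (XT.lf (nat_lit 0) (nat_lit 5630129426) (nat_lit 152) (nat_lit 9676984621) (nat_lit 152) (nat_lit 2481555812) (nat_lit 67) (nat_lit 4) (nat_lit 69) (nat_lit 5) (nat_lit 69) (nat_lit 4) (nat_lit 495) (nat_lit 366) (nat_lit 339))) (XT.nd (nat_lit 78) (nat_lit 0) (nat_lit 0) (XT.lf (nat_lit 0) (nat_lit 1351949452) (nat_lit 76) (nat_lit 2943114699) (nat_lit 152) (nat_lit 13812445031) (nat_lit 65) (nat_lit 5) (nat_lit 66) (nat_lit 5) (nat_lit 67) (nat_lit 4) (nat_lit 496) (nat_lit 366) (nat_lit 338)) (XT.lf (nat_lit 0) (nat_lit 11286507925) (nat_lit 152) (nat_lit 3174528244) (nat_lit 0) (nat_lit 3972299548) (nat_lit 65) (nat_lit 5) (nat_lit 67) (nat_lit 4) (nat_lit 65) (nat_lit 4) (nat_lit 497) (nat_lit 366) (nat_lit 337)))) (XT.nd (nat_lit 156) (nat_lit 152) (nat_lit 0) (XT.nd (nat_lit 78) (nat_lit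 152) (nat_lit 0) (XT.lf (nat_lit 0) (nat_lit 10806222333) (nat_lit 76) (nat_lit 7716457407) (nat_lit 76) (nat_lit 245208921) (nat_lit 64) (nat_lit 4) (nat_lit 65) (nat_lit 5) (nat_lit 65) (nat_lit 4) (nat_lit 498) (nat_lit 366) (nat_lit 336)) (XT.lf (nat_lit 0) (nat_lit 6021630742) (nat_lit 76) (nat_lit 700214260) (nat_lit 152) (nat_lit 12388885490) (nat_lit 62) (nat_lit 5) (nat_lit 63) (nat_lit 5) (nat_lit 64) (nat_lit 4) (nat_lit 499) (nat_lit 366) (nat_lit 335))) (XT.nd (nat_lit 78) (nat_lit 76) (nat_lit 0) (XT.lf (nat_lit 0) (nat_lit 887841289) (nat_lit 76) (nat_lit 13059841060) (nat_lit 76) (nat_lit 5514462441) (nat_lit 61) (nat_lit 4) (nat_lit 62) (nat_lit 5) (nat_lit 62) (nat_lit 4) (nat_lit 500) (nat_lit 366) (nat_lit 334)) (XT.lf (nat_lit 0) (nat_lit 1578365746) (nat_lit 152) (nat_lit 4480824256) (nat_lit 76) (nat_lit 13763178819) (nat_lit 60) (nat_lit 5) (nat_lit 62) (nat_lit 5) (nat_lit 61) (nat_lit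 4) (nat_lit 501) (nat_lit 366) (nat_lit 333))))) (XT.nd (nat_lit 312) (nat_lit 304) (nat_lit 0) (XT.nd (nat_lit 156) (nat_lit 152) (nat_lit 0) (XT.nd (nat_lit 78) (nat_lit 76) (nat_lit 0) (XT.lf (nat_lit 0) (nat_lit 8786053054) (nat_lit 152) (nat_lit 10211862294) (nat_lit 0) (nat_lit 1193459948) (nat_lit 59) (nat_lit 5) (nat_lit 61) (nat_lit 4) (nat_lit 59) (nat_lit 4) (nat_lit 502) (nat_lit 366) (nat_lit 332)) (XT.lf (nat_lit 0) (nat_lit 4233157756) (nat_lit 76) (nat_lit 12028512626) (nat_lit 76) (nat_lit 4308231540) (nat_lit 58) (nat_lit 4) (nat_lit 59) (nat_lit 5) (nat_lit 59) (nat_lit 4) (nat_lit 503) (nat_lit 366) (nat_lit 331))) (XT.nd (nat_lit 78) (nat_lit 76) (nat_lit 0) (XT.lf (nat_lit 0) (nat_lit 2952731306) (nat_lit 152) (nat_lit 1850205445) (nat_lit 76) (nat_lit 16155696790) (nat_lit 57) (nat_lit 5) (nat_lit 59) (nat_lit 5) (nat_lit 58) (nat_lit 4) (nat_lit 504) (nat_lit 366) (nat_lit 330)) (XT.lf (nat_lit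 0) (nat_lit 10405255645) (nat_lit 152) (nat_lit 8278056579) (nat_lit 0) (nat_lit 2672626358) (nat_lit 56) (nat_lit 5) (nat_lit 58) (nat_lit 4) (nat_lit 56) (nat_lit 4) (nat_lit 505) (nat_lit 366) (nat_lit 329)))) (XT.nd (nat_lit 156) (nat_lit 152) (nat_lit 0) (XT.nd (nat_lit 78) (nat_lit 76) (nat_lit 0) (XT.lf (nat_lit 0) (nat_lit 6629497452) (nat_lit 76) (nat_lit 11490295718) (nat_lit 76) (nat_lit 3644217314) (nat_lit 55) (nat_lit 4) (nat_lit 56) (nat_lit 5) (nat_lit 56) (nat_lit 4) (nat_lit 506) (nat_lit 366) (nat_lit 328)) (XT.lf (nat_lit 0) (nat_lit 3798475164) (nat_lit 152) (nat_lit 245318592) (nat_lit 76) (nat_lit 18139629036) (nat_lit 54) (nat_lit 5) (nat_lit 56) (nat_lit 5) (nat_lit 55) (nat_lit 4) (nat_lit 507) (nat_lit 366) (nat_lit 327))) (XT.nd (nat_lit 78) (nat_lit 76) (nat_lit 0) (XT.lf (nat_lit 0) (nat_lit 11483952088) (nat_lit 152) (nat_lit 7471959685) (nat_lit 0) (nat_lit 3655641554) (nat_lit 53)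 (nat_lit 5) (nat_lit 55) (nat_lit 4) (nat_lit 53) (nat_lit 4) (nat_lit 508) (nat_lit 366) (nat_lit 326)) (XT.lf (nat_lit 0) (nat_lit 7878061507) (nat_lit 76) (nat_lit 11551346586) (nat_lit 76) (nat_lit 3622237982) (nat_lit 52) (nat_lit 4) (nat_lit 53) (nat_lit 5) (nat_lit 53) (nat_lit 4) (nat_lit 509) (nat_lit 366) (nat_lit 325))))))))
noncomputable def xc31 : XT := (XT.nd (nat_lit 2418) (nat_lit 684) (nat_lit 0) (XT.nd (nat_lit 1170) (nat_lit 912) (nat_lit 0) (XT.nd (nat_lit 546) (nat_lit 532) (nat_lit 0) (XT.nd (nat_lit 234) (nat_lit 304) (nat_lit 0) (XT.nd (nat_lit 78) (nat_lit 76) (nat_lit 0) (XT.lf (nat_lit 0) (nat_lit 127019288) (nat_lit 76) (nat_lit 3889724601) (nat_lit 152) (nat_lit 19487354919) (nat_lit 50) (nat_lit 5) (nat_lit 51) (nat_lit 5) (nat_lit 52) (nat_lit 4) (nat_lit 510) (nat_lit 366) (nat_lit 324)) (XT.nd (nat_lit 78) (nat_lit 76) (nat_lit 0) (XT.lf (nat_lit 0) (nat_lit 11916617476) (nat_lit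 152) (nat_lit 8018099223) (nat_lit 0) (nat_lit 4031197420) (nat_lit 50) (nat_lit 5) (nat_lit 52) (nat_lit 4) (nat_lit 50) (nat_lit 4) (nat_lit 511) (nat_lit 366) (nat_lit 323)) (XT.lf (nat_lit 0) (nat_lit 7744942277) (nat_lit 76) (nat_lit 12335407122) (nat_lit 76) (nat_lit 4360429286) (nat_lit 49) (nat_lit 4) (nat_lit 50) (nat_lit 5) (nat_lit 50) (nat_lit 4) (nat_lit 512) (nat_lit 366) (nat_lit 322)))) (XT.nd (nat_lit 156) (nat_lit 152) (nat_lit 0) (XT.nd (nat_lit 78) (nat_lit 76) (nat_lit 0) (XT.lf (nat_lit 0) (nat_lit 3485374562) (nat_lit 152) (nat_lit 986616774) (nat_lit 76) (nat_lit 20457000460) (nat_lit 48) (nat_lit 5) (nat_lit 50) (nat_lit 5) (nat_lit 49) (nat_lit 4) (nat_lit 513) (nat_lit 366) (nat_lit 321)) (XT.lf (nat_lit 0) (nat_lit 11578267746) (nat_lit 152) (nat_lit 10180112350) (nat_lit 0) (nat_lit 3669195966) (nat_lit 47) (nat_lit 5) (nat_lit 49) (nat_lit 4) (nat_lit 47) (nat_lit 4) (nat_lit 514)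 (nat_lit 366) (nat_lit 320))) (XT.nd (nat_lit 78) (nat_lit 76) (nat_lit 0) (XT.lf (nat_lit 0) (nat_lit 5955259689) (nat_lit 76) (nat_lit 13986828620) (nat_lit 76) (nat_lit 5998185912) (nat_lit 46) (nat_lit 4) (nat_lit 47) (nat_lit 5) (nat_lit 47) (nat_lit 4) (nat_lit 515) (nat_lit 366) (nat_lit 319)) (XT.lf (nat_lit 0) (nat_lit 2068135900) (nat_lit 152) (nat_lit 3867580158) (nat_lit 76) (nat_lit 20531422971) (nat_lit 45) (nat_lit 5) (nat_lit 47) (nat_lit 5) (nat_lit 46) (nat_lit 4) (nat_lit 516) (nat_lit 366) (nat_lit 318))))) (XT.nd (nat_lit 312) (nat_lit 228) (nat_lit 0) (XT.nd (nat_lit 156) (nat_lit 152) (nat_lit 0) (XT.nd (nat_lit 78) (nat_lit 76) (nat_lit 0) (XT.lf (nat_lit 0) (nat_lit 10321310520) (nat_lit 152) (nat_lit 14267230711) (nat_lit 0) (nat_lit 2417524824) (nat_lit 44) (nat_lit 5) (nat_lit 46) (nat_lit 4) (nat_lit 44) (nat_lit 4) (nat_lit 517) (nat_lit 366) (nat_lit 317)) (XT.lf (nat_lit 0) (nat_lit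 2186357583) (nat_lit 76) (nat_lit 16674068446) (nat_lit 76) (nat_lit 8699585012) (nat_lit 43) (nat_lit 4) (nat_lit 44) (nat_lit 5) (nat_lit 44) (nat_lit 4) (nat_lit 518) (nat_lit 366) (nat_lit 316))) (XT.nd (nat_lit 78) (nat_lit 152) (nat_lit 0) (XT.lf (nat_lit 0) (nat_lit 19267699625) (nat_lit 76) (nat_lit 8452038292) (nat_lit 76) (nat_lit 408916277) (nat_lit 43) (nat_lit 4) (nat_lit 44) (nat_lit 5) (nat_lit 44) (nat_lit 4) (nat_lit 519) (nat_lit 366) (nat_lit 315)) (XT.lf (nat_lit 0) (nat_lit 7971880398) (nat_lit 152) (nat_lit 20641804560) (nat_lit 0) (nat_lit 98325627) (nat_lit 41) (nat_lit 5) (nat_lit 43) (nat_lit 4) (nat_lit 41) (nat_lit 4) (nat_lit 520) (nat_lit 366) (nat_lit 314)))) (XT.nd (nat_lit 156) (nat_lit 152) (nat_lit 0) (XT.nd (nat_lit 78) (nat_lit 76) (nat_lit 0) (XT.lf (nat_lit 0) (nat_lit 16691520191) (nat_lit 152) (nat_lit 3863205942) (nat_lit 0) (nat_lit 8755151394) (nat_lit 41) (nat_lit 5)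 (nat_lit 43) (nat_lit 4) (nat_lit 41) (nat_lit 4) (nat_lit 521) (nat_lit 366) (nat_lit 313)) (XT.lf (nat_lit 0) (nat_lit 13531986292) (nat_lit 76) (nat_lit 12194714684) (nat_lit 76) (nat_lit 4197361397) (nat_lit 40) (nat_lit 4) (nat_lit 41) (nat_lit 5) (nat_lit 41) (nat_lit 4) (nat_lit 522) (nat_lit 366) (nat_lit 312))) (XT.nd (nat_lit 78) (nat_lit 0) (nat_lit 0) (XT.lf (nat_lit 0) (nat_lit 793943384) (nat_lit 76) (nat_lit 3565911253) (nat_lit 152) (nat_lit 26196399545) (nat_lit 38) (nat_lit 5) (nat_lit 39) (nat_lit 5) (nat_lit 40) (nat_lit 4) (nat_lit 523) (nat_lit 366) (nat_lit 311)) (XT.lf (nat_lit 0) (nat_lit 13231724689) (nat_lit 152) (nat_lit 12616160870) (nat_lit 0) (nat_lit 5354010844) (nat_lit 38) (nat_lit 5) (nat_lit 40) (nat_lit 4) (nat_lit 38) (nat_lit 4) (nat_lit 524) (nat_lit 366) (nat_lit 310)))))) (XT.nd (nat_lit 624) (nat_lit 456) (nat_lit 0) (XT.nd (nat_lit 312) (nat_lit 228) (nat_lit 0) (XT.nd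 (nat_lit 156) (nat_lit 152) (nat_lit 0) (XT.nd (nat_lit 78) (nat_lit 0) (nat_lit 0) (XT.lf (nat_lit 0) (nat_lit 4959310461) (nat_lit 76) (nat_lit 17419610254) (nat_lit 76) (nat_lit 9487712478) (nat_lit 37) (nat_lit 4) (nat_lit 38) (nat_lit 5) (nat_lit 38) (nat_lit 4) (nat_lit 525) (nat_lit 366) (nat_lit 309)) (XT.lf (nat_lit 0) (nat_lit 23175570390) (nat_lit 76) (nat_lit 8679307628) (nat_lit 76) (nat_lit 694804095) (nat_lit 37) (nat_lit 4) (nat_lit 38) (nat_lit 5) (nat_lit 38) (nat_lit 4) (nat_lit 526) (nat_lit 366) (nat_lit 308))) (XT.nd (nat_lit 78) (nat_lit 0) (nat_lit 0) (XT.lf (nat_lit 0) (nat_lit 8214102723) (nat_lit 152) (nat_lit 24623675723) (nat_lit 0) (nat_lit 412571574) (nat_lit 35) (nat_lit 5) (nat_lit 37) (nat_lit 4) (nat_lit 35) (nat_lit 4) (nat_lit 527) (nat_lit 366) (nat_lit 307)) (XT.lf (nat_lit 0) (nat_lit 17486273984) (nat_lit 152) (nat_lit 6845657981) (nat_lit 0) (nat_lit 9636601115) (nat_lit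 35) (nat_lit 5) (nat_lit 37) (nat_lit 4) (nat_lit 35) (nat_lit 4) (nat_lit 528) (nat_lit 366) (nat_lit 306)))) (XT.nd (nat_lit 156) (nat_lit 76) (nat_lit 0) (XT.nd (nat_lit 78) (nat_lit 76) (nat_lit 0) (XT.lf (nat_lit 0) (nat_lit 11552932233) (nat_lit 76) (nat_lit 15525247531) (nat_lit 76) (nat_lit 7628835129) (nat_lit 34) (nat_lit 4) (nat_lit 35) (nat_lit 5) (nat_lit 35) (nat_lit 4) (nat_lit 529) (nat_lit 366) (nat_lit 305)) (XT.lf (nat_lit 0) (nat_lit 1461467269) (nat_lit 152) (nat_lit 4975012033) (nat_lit 76) (nat_lit 29030731801) (nat_lit 33) (nat_lit 5) (nat_lit 35) (nat_lit 5) (nat_lit 34) (nat_lit 4) (nat_lit 530) (nat_lit 366) (nat_lit 304))) (XT.nd (nat_lit 78) (nat_lit 0) (nat_lit 0) (XT.lf (nat_lit 0) (nat_lit 10765991029) (nat_lit 152) (nat_lit 22466369732) (nat_lit 0) (nat_lit 3012741433) (nat_lit 32) (nat_lit 5) (nat_lit 34) (nat_lit 4) (nat_lit 32) (nat_lit 4) (nat_lit 531) (nat_lit 366) (nat_lit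 303)) (XT.lf (nat_lit 0) (nat_lit 20396729714) (nat_lit 152) (nat_lit 4046235584) (nat_lit 0) (nat_lit 12601952648) (nat_lit 32) (nat_lit 5) (nat_lit 34) (nat_lit 4) (nat_lit 32) (nat_lit 4) (nat_lit 532) (nat_lit 366) (nat_lit 302))))) (XT.nd (nat_lit 312) (nat_lit 228) (nat_lit 0) (XT.nd (nat_lit 156) (nat_lit 76) (nat_lit 0) (XT.nd (nat_lit 78) (nat_lit 76) (nat_lit 0) (XT.lf (nat_lit 0) (nat_lit 15090625590) (nat_lit 76) (nat_lit 15305404348) (nat_lit 76) (nat_lit 7470309349) (nat_lit 31) (nat_lit 4) (nat_lit 32) (nat_lit 5) (nat_lit 32) (nat_lit 4) (nat_lit 533) (nat_lit 366) (nat_lit 301)) (XT.lf (nat_lit 0) (nat_lit 1920078224) (nat_lit 152) (nat_lit 3976479826) (nat_lit 76) (nat_lit 32815997690) (nat_lit 30) (nat_lit 5) (nat_lit 32) (nat_lit 5) (nat_lit 31) (nat_lit 4) (nat_lit 534) (nat_lit 366) (nat_lit 300))) (XT.nd (nat_lit 78) (nat_lit 0) (nat_lit 0) (XT.lf (nat_lit 0) (nat_lit 11565498579) (nat_lit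 152) (nat_lit 24129027375) (nat_lit 0) (nat_lit 3883710093) (nat_lit 29) (nat_lit 5) (nat_lit 31) (nat_lit 4) (nat_lit 29) (nat_lit 4) (nat_lit 535) (nat_lit 366) (nat_lit 299)) (XT.lf (nat_lit 0) (nat_lit 21535766530) (nat_lit 152) (nat_lit 5114899863) (nat_lit 0) (nat_lit 13818156083) (nat_lit 29) (nat_lit 5) (nat_lit 31) (nat_lit 4) (nat_lit 29) (nat_lit 4) (nat_lit 536) (nat_lit 366) (nat_lit 298)))) (XT.nd (nat_lit 156) (nat_lit 76) (nat_lit 0) (XT.nd (nat_lit 78) (nat_lit 76) (nat_lit 0) (XT.lf (nat_lit 0) (nat_lit 14632247113) (nat_lit 76) (nat_lit 17251948547) (nat_lit 76) (nat_lit 9499559498) (nat_lit 28) (nat_lit 4) (nat_lit 29) (nat_lit 5) (nat_lit 29) (nat_lit 4) (nat_lit 537) (nat_lit 366) (nat_lit 297)) (XT.lf (nat_lit 0) (nat_lit 203289521) (nat_lit 152) (nat_lit 7373476953) (nat_lit 76) (nat_lit 34749589597) (nat_lit 27) (nat_lit 5) (nat_lit 29) (nat_lit 5) (nat_lit 28) (nat_lit 4) (nat_lit 538)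 (nat_lit 366) (nat_lit 296))) (XT.nd (nat_lit 78) (nat_lit 0) (nat_lit 0) (XT.lf (nat_lit 0) (nat_lit 10092324565) (nat_lit 152) (nat_lit 30698384324) (nat_lit 0) (nat_lit 2501123738) (nat_lit 26) (nat_lit 5) (nat_lit 28) (nat_lit 4) (nat_lit 26) (nat_lit 4) (nat_lit 539) (nat_lit 366) (nat_lit 295)) (XT.lf (nat_lit 0) (nat_lit 20368493598) (nat_lit 152) (nat_lit 11168673785) (nat_lit 0) (nat_lit 12746392433) (nat_lit 26) (nat_lit 5) (nat_lit 28) (nat_lit 4) (nat_lit 26) (nat_lit 4) (nat_lit 540) (nat_lit 366) (nat_lit 294))))))) (XT.nd (nat_lit 56706) (nat_lit 0) (nat_lit 5472) (XT.nd (nat_lit 624) (nat_lit 228) (nat_lit 0) (XT.nd (nat_lit 312) (nat_lit 228) (nat_lit 0) (XT.nd (nat_lit 156) (nat_lit 152) (nat_lit 0) (XT.nd (nat_lit 78) (nat_lit 0) (nat_lit 0) (XT.lf (nat_lit 0) (nat_lit 9006750456) (nat_lit 76) (nat_lit 21974766501) (nat_lit 76) (nat_lit 14322665008) (nat_lit 25) (nat_lit 4) (nat_lit 26) (nat_lit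 5) (nat_lit 26) (nat_lit 4) (nat_lit 541) (nat_lit 366) (nat_lit 293)) (XT.lf (nat_lit 0) (nat_lit 29901589118) (nat_lit 76) (nat_lit 12066700570) (nat_lit 76) (nat_lit 4385472545) (nat_lit 25) (nat_lit 4) (nat_lit 26) (nat_lit 5) (nat_lit 26) (nat_lit 4) (nat_lit 542) (nat_lit 366) (nat_lit 292))) (XT.nd (nat_lit 78) (nat_lit 0) (nat_lit 0) (XT.lf (nat_lit 0) (nat_lit 3895656769) (nat_lit 76) (nat_lit 1821172285) (nat_lit 152) (nat_lit 41716879749) (nat_lit 23) (nat_lit 5) (nat_lit 24) (nat_lit 5) (nat_lit 25) (nat_lit 4) (nat_lit 543) (nat_lit 366) (nat_lit 291)) (XT.lf (nat_lit 0) (nat_lit 16229500203) (nat_lit 152) (nat_lit 23591500009) (nat_lit 0) (nat_lit 8717887813) (nat_lit 23) (nat_lit 5) (nat_lit 25) (nat_lit 4) (nat_lit 23) (nat_lit 4) (nat_lit 544) (nat_lit 366) (nat_lit 290)))) (XT.nd (nat_lit 156) (nat_lit 152) (nat_lit 0) (XT.nd (nat_lit 78) (nat_lit 76) (nat_lit 0) (XT.lf (nat_lit 0) (nat_lit 27020951747)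 (nat_lit 152) (nat_lit 3173908250) (nat_lit 0) (nat_lit 19483460810) (nat_lit 23) (nat_lit 5) (nat_lit 25) (nat_lit 4) (nat_lit 23) (nat_lit 4) (nat_lit 545) (nat_lit 366) (nat_lit 289)) (XT.lf (nat_lit 0) (nat_lit 18103331279) (nat_lit 76) (nat_lit 20153795903) (nat_lit 76) (nat_lit 12591180164) (nat_lit 22) (nat_lit 4) (nat_lit 23) (nat_lit 5) (nat_lit 23) (nat_lit 4) (nat_lit 546) (nat_lit 366) (nat_lit 288))) (XT.nd (nat_lit 78) (nat_lit 152) (nat_lit 0) (XT.lf (nat_lit 0) (nat_lit 39978849420) (nat_lit 76) (nat_lit 9831083323) (nat_lit 76) (nat_lit 2244074571) (nat_lit 22) (nat_lit 4) (nat_lit 23) (nat_lit 5) (nat_lit 23) (nat_lit 4) (nat_lit 547) (nat_lit 366) (nat_lit 287)) (XT.lf (nat_lit 0) (nat_lit 8295208197) (nat_lit 152) (nat_lit 44090678253) (nat_lit 0) (nat_lit 906187529) (nat_lit 20) (nat_lit 5) (nat_lit 22) (nat_lit 4) (nat_lit 20) (nat_lit 4) (nat_lit 548) (nat_lit 366) (nat_lit 286))))) (XT.nd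 (nat_lit 312) (nat_lit 152) (nat_lit 0) (XT.nd (nat_lit 156) (nat_lit 76) (nat_lit 0) (XT.nd (nat_lit 78) (nat_lit 0) (nat_lit 0) (XT.lf (nat_lit 0) (nat_lit 19274592265) (nat_lit 152) (nat_lit 23423704654) (nat_lit 0) (nat_lit 11863248535) (nat_lit 20) (nat_lit 5) (nat_lit 22) (nat_lit 4) (nat_lit 20) (nat_lit 4) (nat_lit 549) (nat_lit 366) (nat_lit 285)) (XT.lf (nat_lit 0) (nat_lit 30533402840) (nat_lit 152) (nat_lit 2236810809) (nat_lit 0) (nat_lit 23100386235) (nat_lit 20) (nat_lit 5) (nat_lit 22) (nat_lit 4) (nat_lit 20) (nat_lit 4) (nat_lit 550) (nat_lit 366) (nat_lit 284))) (XT.nd (nat_lit 78) (nat_lit 0) (nat_lit 0) (XT.lf (nat_lit 0) (nat_lit 19876375785) (nat_lit 76) (nat_lit 22396165816) (nat_lit 76) (nat_lit 14942107585) (nat_lit 19) (nat_lit 4) (nat_lit 20) (nat_lit 5) (nat_lit 20) (nat_lit 4) (nat_lit 551) (nat_lit 366) (nat_lit 283)) (XT.lf (nat_lit 0) (nat_lit 42602589342) (nat_lit 76) (nat_lit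 11735840258) (nat_lit 76) (nat_lit 4261353263) (nat_lit 19) (nat_lit 4) (nat_lit 20) (nat_lit 5) (nat_lit 20) (nat_lit 4) (nat_lit 552) (nat_lit 366) (nat_lit 282)))) (XT.nd (nat_lit 156) (nat_lit 0) (nat_lit 0) (XT.nd (nat_lit 78) (nat_lit 0) (nat_lit 0) (XT.lf (nat_lit 0) (nat_lit 5940904338) (nat_lit 76) (nat_lit 677433141) (nat_lit 152) (nat_lit 53405888636) (nat_lit 17) (nat_lit 5) (nat_lit 18) (nat_lit 5) (nat_lit 19) (nat_lit 4) (nat_lit 553) (nat_lit 366) (nat_lit 281)) (XT.lf (nat_lit 0) (nat_lit 17957834244) (nat_lit 152) (nat_lit 32862631407) (nat_lit 0) (nat_lit 10663099472) (nat_lit 17) (nat_lit 5) (nat_lit 19) (nat_lit 4) (nat_lit 17) (nat_lit 4) (nat_lit 554) (nat_lit 366) (nat_lit 280))) (XT.nd (nat_lit 55536) (nat_lit 0) (nat_lit 8208) (XT.lf (nat_lit 0) (nat_lit 29598540943) (nat_lit 152) (nat_lit 11103657262) (nat_lit 0) (nat_lit 22285655479) (nat_lit 17) (nat_lit 5) (nat_lit 19) (nat_lit 4)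 (nat_lit 17) (nat_lit 4) (nat_lit 555) (nat_lit 366) (nat_lit 279)) (XT.lf (nat_lit 0) (nat_lit 2028753745) (nat_lit 228) (nat_lit 1572905722) (nat_lit 0) (nat_lit 2028753745) (nat_lit 125) (nat_lit 5) (nat_lit 128) (nat_lit 4) (nat_lit 125) (nat_lit 4) (nat_lit 466) (nat_lit 367) (nat_lit 367)))))) (XT.nd (nat_lit 624) (nat_lit 1216) (nat_lit 0) (XT.nd (nat_lit 312) (nat_lit 608) (nat_lit 0) (XT.nd (nat_lit 156) (nat_lit 456) (nat_lit 0) (XT.nd (nat_lit 78) (nat_lit 228) (nat_lit 0) (XT.lf (nat_lit 0) (nat_lit 7224216916) (nat_lit 228) (nat_lit 2377021247) (nat_lit 228) (nat_lit 1817249143) (nat_lit 122) (nat_lit 4) (nat_lit 125) (nat_lit 5) (nat_lit 125) (nat_lit 4) (nat_lit 467) (nat_lit 367) (nat_lit 366)) (XT.lf (nat_lit 0) (nat_lit 3657644868) (nat_lit 228) (nat_lit 5335622275) (nat_lit 0) (nat_lit 2586537912) (nat_lit 119) (nat_lit 5) (nat_lit 122) (nat_lit 4) (nat_lit 119) (nat_lit 4) (nat_lit 468) (nat_lit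 367) (nat_lit 365))) (XT.nd (nat_lit 78) (nat_lit 228) (nat_lit 0) (XT.lf (nat_lit 0) (nat_lit 5189985842) (nat_lit 228) (nat_lit 4069421901) (nat_lit 228) (nat_lit 2486044173) (nat_lit 116) (nat_lit 4) (nat_lit 119) (nat_lit 5) (nat_lit 119) (nat_lit 4) (nat_lit 469) (nat_lit 367) (nat_lit 364)) (XT.lf (nat_lit 0) (nat_lit 3039164464) (nat_lit 228) (nat_lit 7857366563) (nat_lit 0) (nat_lit 1019040200) (nat_lit 113) (nat_lit 5) (nat_lit 116) (nat_lit 4) (nat_lit 113) (nat_lit 4) (nat_lit 470) (nat_lit 367) (nat_lit 363)))) (XT.nd (nat_lit 156) (nat_lit 228) (nat_lit 0) (XT.nd (nat_lit 78) (nat_lit 228) (nat_lit 0) (XT.lf (nat_lit 0) (nat_lit 2817986294) (nat_lit 152) (nat_lit 5880227937) (nat_lit 152) (nat_lit 3391303348) (nat_lit 111) (nat_lit 4) (nat_lit 113) (nat_lit 5) (nat_lit 113) (nat_lit 4) (nat_lit 471) (nat_lit 367) (nat_lit 362)) (XT.lf (nat_lit 0) (nat_lit 1507715325) (nat_lit 152) (nat_lit 685282634)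 (nat_lit 228) (nat_lit 10075674948) (nat_lit 108) (nat_lit 5) (nat_lit 110) (nat_lit 5) (nat_lit 111) (nat_lit 4) (nat_lit 472) (nat_lit 367) (nat_lit 361))) (XT.nd (nat_lit 78) (nat_lit 76) (nat_lit 0) (XT.lf (nat_lit 0) (nat_lit 63789544) (nat_lit 152) (nat_lit 7837504980) (nat_lit 152) (nat_lit 4550165367) (nat_lit 106) (nat_lit 4) (nat_lit 108) (nat_lit 5) (nat_lit 108) (nat_lit 4) (nat_lit 473) (nat_lit 367) (nat_lit 360)) (XT.lf (nat_lit 0) (nat_lit 1120231763) (nat_lit 228) (nat_lit 1429792148) (nat_lit 76) (nat_lit 10089338791) (nat_lit 105) (nat_lit 5) (nat_lit 108) (nat_lit 5) (nat_lit 106) (nat_lit 4) (nat_lit 474) (nat_lit 367) (nat_lit 359))))) (XT.nd (nat_lit 312) (nat_lit 532) (nat_lit 0) (XT.nd (nat_lit 156) (nat_lit 380) (nat_lit 0) (XT.nd (nat_lit 78) (nat_lit 152) (nat_lit 0) (XT.lf (nat_lit 0) (nat_lit 6880062752) (nat_lit 228) (nat_lit 3059701199) (nat_lit 0) (nat_lit 2891466726) (nat_lit 103)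 (nat_lit 5) (nat_lit 106) (nat_lit 4) (nat_lit 103) (nat_lit 4) (nat_lit 475) (nat_lit 367) (nat_lit 358)) (XT.lf (nat_lit 0) (nat_lit 8242467556) (nat_lit 152) (nat_lit 4577965597) (nat_lit 152) (nat_lit 208192008) (nat_lit 101) (nat_lit 4) (nat_lit 103) (nat_lit 5) (nat_lit 103) (nat_lit 4) (nat_lit 476) (nat_lit 367) (nat_lit 357))) (XT.nd (nat_lit 78) (nat_lit 152) (nat_lit 0) (XT.lf (nat_lit 0) (nat_lit 5588797936) (nat_lit 228) (nat_lit 6654704786) (nat_lit 0) (nat_lit 987002892) (nat_lit 98) (nat_lit 5) (nat_lit 101) (nat_lit 4) (nat_lit 98) (nat_lit 4) (nat_lit 477) (nat_lit 367) (nat_lit 356)) (XT.lf (nat_lit 0) (nat_lit 4781764361) (nat_lit 152) (nat_lit 6803181192) (nat_lit 152) (nat_lit 1852554680) (nat_lit 96) (nat_lit 4) (nat_lit 98) (nat_lit 5) (nat_lit 98) (nat_lit 4) (nat_lit 478) (nat_lit 367) (nat_lit 355)))) (XT.nd (nat_lit 156) (nat_lit 152) (nat_lit 0) (XT.nd (nat_lit 78) (nat_lit 152) (nat_lit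 0) (XT.lf (nat_lit 0) (nat_lit 2861085575) (nat_lit 152) (nat_lit 1153881624) (nat_lit 228) (nat_lit 9635007581) (nat_lit 93) (nat_lit 5) (nat_lit 95) (nat_lit 5) (nat_lit 96) (nat_lit 4) (nat_lit 479) (nat_lit 367) (nat_lit 354)) (XT.lf (nat_lit 0) (nat_lit 781835836) (nat_lit 152) (nat_lit 9269997030) (nat_lit 152) (nat_lit 3815526200) (nat_lit 91) (nat_lit 4) (nat_lit 93) (nat_lit 5) (nat_lit 93) (nat_lit 4) (nat_lit 480) (nat_lit 367) (nat_lit 353))) (XT.nd (nat_lit 78) (nat_lit 76) (nat_lit 0) (XT.lf (nat_lit 0) (nat_lit 2147586919) (nat_lit 228) (nat_lit 1404801626) (nat_lit 76) (nat_lit 10537903552) (nat_lit 90) (nat_lit 5) (nat_lit 93) (nat_lit 5) (nat_lit 91) (nat_lit 4) (nat_lit 481) (nat_lit 367) (nat_lit 352)) (XT.lf (nat_lit 0) (nat_lit 8231044854) (nat_lit 152) (nat_lit 3744796741) (nat_lit 0) (nat_lit 2342396154) (nat_lit 89) (nat_lit 5) (nat_lit 91) (nat_lit 4) (nat_lit 89) (nat_lit 4) (nat_lit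 482) (nat_lit 367) (nat_lit 351))))))))
noncomputable def xc32 : XT := (XT.nd (nat_lit 2418) (nat_lit 1976) (nat_lit 0) (XT.nd (nat_lit 1170) (nat_lit 1216) (nat_lit 0) (XT.nd (nat_lit 546) (nat_lit 912) (nat_lit 0) (XT.nd (nat_lit 234) (nat_lit 456) (nat_lit 0) (XT.nd (nat_lit 78) (nat_lit 304) (nat_lit 0) (XT.lf (nat_lit 0) (nat_lit 8315579808) (nat_lit 152) (nat_lit 6204515988) (nat_lit 152) (nat_lit 32235383) (nat_lit 87) (nat_lit 4) (nat_lit 89) (nat_lit 5) (nat_lit 89) (nat_lit 4) (nat_lit 483) (nat_lit 367) (nat_lit 350)) (XT.nd (nat_lit 78) (nat_lit 152) (nat_lit 0) (XT.lf (nat_lit 0) (nat_lit 5878134016) (nat_lit 76) (nat_lit 193681454) (nat_lit 152) (nat_lit 8720189274) (nat_lit 85) (nat_lit 5) (nat_lit 86) (nat_lit 5) (nat_lit 87) (nat_lit 4) (nat_lit 484) (nat_lit 367) (nat_lit 349)) (XT.lf (nat_lit 0) (nat_lit 3253126258) (nat_lit 152) (nat_lit 9151876892) (nat_lit 152) (nat_lit 2632457802) (nat_lit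 83) (nat_lit 4) (nat_lit 85) (nat_lit 5) (nat_lit 85) (nat_lit 4) (nat_lit 485) (nat_lit 367) (nat_lit 348)))) (XT.nd (nat_lit 156) (nat_lit 304) (nat_lit 0) (XT.nd (nat_lit 78) (nat_lit 0) (nat_lit 0) (XT.lf (nat_lit 0) (nat_lit 452073571) (nat_lit 76) (nat_lit 3106298810) (nat_lit 152) (nat_lit 11731117509) (nat_lit 81) (nat_lit 5) (nat_lit 82) (nat_lit 5) (nat_lit 83) (nat_lit 4) (nat_lit 486) (nat_lit 367) (nat_lit 347)) (XT.lf (nat_lit 0) (nat_lit 9926771207) (nat_lit 152) (nat_lit 2505148231) (nat_lit 0) (nat_lit 3115037481) (nat_lit 81) (nat_lit 5) (nat_lit 83) (nat_lit 4) (nat_lit 81) (nat_lit 4) (nat_lit 487) (nat_lit 367) (nat_lit 346))) (XT.nd (nat_lit 78) (nat_lit 76) (nat_lit 0) (XT.lf (nat_lit 0) (nat_lit 687353588) (nat_lit 228) (nat_lit 5647024635) (nat_lit 76) (nat_lit 9476783999) (nat_lit 78) (nat_lit 5) (nat_lit 81) (nat_lit 5) (nat_lit 79) (nat_lit 4) (nat_lit 488) (nat_lit 367) (nat_lit 345))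 (XT.lf (nat_lit 0) (nat_lit 7062533322) (nat_lit 152) (nat_lit 9011433643) (nat_lit 0) (nat_lit 7917723) (nat_lit 77) (nat_lit 5) (nat_lit 79) (nat_lit 4) (nat_lit 77) (nat_lit 4) (nat_lit 489) (nat_lit 367) (nat_lit 344))))) (XT.nd (nat_lit 312) (nat_lit 380) (nat_lit 0) (XT.nd (nat_lit 156) (nat_lit 228) (nat_lit 0) (XT.nd (nat_lit 78) (nat_lit 152) (nat_lit 0) (XT.lf (nat_lit 0) (nat_lit 3741801335) (nat_lit 152) (nat_lit 9941481986) (nat_lit 152) (nat_lit 2675817612) (nat_lit 75) (nat_lit 4) (nat_lit 77) (nat_lit 5) (nat_lit 77) (nat_lit 4) (nat_lit 490) (nat_lit 367) (nat_lit 343)) (XT.lf (nat_lit 0) (nat_lit 191964610) (nat_lit 76) (nat_lit 3582681058) (nat_lit 152) (nat_lit 12869119666) (nat_lit 73) (nat_lit 5) (nat_lit 74) (nat_lit 5) (nat_lit 75) (nat_lit 4) (nat_lit 491) (nat_lit 367) (nat_lit 342))) (XT.nd (nat_lit 78) (nat_lit 228) (nat_lit 0) (XT.lf (nat_lit 0) (nat_lit 10420432309) (nat_lit 152) (nat_lit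 3539760270) (nat_lit 0) (nat_lit 2974315989) (nat_lit 73) (nat_lit 5) (nat_lit 75) (nat_lit 4) (nat_lit 73) (nat_lit 4) (nat_lit 492) (nat_lit 367) (nat_lit 341)) (XT.lf (nat_lit 0) (nat_lit 61615132) (nat_lit 228) (nat_lit 7508551704) (nat_lit 76) (nat_lit 9662881074) (nat_lit 70) (nat_lit 5) (nat_lit 73) (nat_lit 5) (nat_lit 71) (nat_lit 4) (nat_lit 493) (nat_lit 367) (nat_lit 340)))) (XT.nd (nat_lit 156) (nat_lit 152) (nat_lit 0) (XT.nd (nat_lit 78) (nat_lit 152) (nat_lit 0) (XT.lf (nat_lit 0) (nat_lit 5778751358) (nat_lit 76) (nat_lit 918014310) (nat_lit 152) (nat_lit 10842050741) (nat_lit 69) (nat_lit 5) (nat_lit 70) (nat_lit 5) (nat_lit 71) (nat_lit 4) (nat_lit 494) (nat_lit 367) (nat_lit 339)) (XT.lf (nat_lit 0) (nat_lit 1550428101) (nat_lit 152) (nat_lit 12030734518) (nat_lit 152) (nat_lit 4271090851) (nat_lit 67) (nat_lit 4) (nat_lit 69) (nat_lit 5) (nat_lit 69) (nat_lit 4) (nat_lit 495) (nat_lit 367)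 (nat_lit 338))) (XT.nd (nat_lit 78) (nat_lit 76) (nat_lit 0) (XT.lf (nat_lit 0) (nat_lit 2479067779) (nat_lit 228) (nat_lit 2893739927) (nat_lit 76) (nat_lit 12800643185) (nat_lit 66) (nat_lit 5) (nat_lit 69) (nat_lit 5) (nat_lit 67) (nat_lit 4) (nat_lit 496) (nat_lit 367) (nat_lit 337)) (XT.lf (nat_lit 0) (nat_lit 9370213814) (nat_lit 152) (nat_lit 7614285350) (nat_lit 0) (nat_lit 1517787763) (nat_lit 65) (nat_lit 5) (nat_lit 67) (nat_lit 4) (nat_lit 65) (nat_lit 4) (nat_lit 497) (nat_lit 367) (nat_lit 336)))))) (XT.nd (nat_lit 624) (nat_lit 532) (nat_lit 0) (XT.nd (nat_lit 312) (nat_lit 380) (nat_lit 0) (XT.nd (nat_lit 156) (nat_lit 76) (nat_lit 0) (XT.nd (nat_lit 78) (nat_lit 152) (nat_lit 0) (XT.lf (nat_lit 0) (nat_lit 6185699855) (nat_lit 76) (nat_lit 10329385871) (nat_lit 76) (nat_lit 2324493694) (nat_lit 64) (nat_lit 4) (nat_lit 65) (nat_lit 5) (nat_lit 65) (nat_lit 4) (nat_lit 498) (nat_lit 367) (nat_lit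 335)) (XT.lf (nat_lit 0) (nat_lit 1163967527) (nat_lit 76) (nat_lit 3425631028) (nat_lit 152) (nat_lit 14596228916) (nat_lit 62) (nat_lit 5) (nat_lit 63) (nat_lit 5) (nat_lit 64) (nat_lit 4) (nat_lit 499) (nat_lit 367) (nat_lit 334))) (XT.nd (nat_lit 78) (nat_lit 76) (nat_lit 0) (XT.lf (nat_lit 0) (nat_lit 11733946010) (nat_lit 152) (nat_lit 4126776979) (nat_lit 0) (nat_lit 3678963983) (nat_lit 62) (nat_lit 5) (nat_lit 64) (nat_lit 4) (nat_lit 62) (nat_lit 4) (nat_lit 500) (nat_lit 367) (nat_lit 333)) (XT.lf (nat_lit 0) (nat_lit 10170891801) (nat_lit 76) (nat_lit 8961265822) (nat_lit 76) (nat_lit 770819618) (nat_lit 61) (nat_lit 4) (nat_lit 62) (nat_lit 5) (nat_lit 62) (nat_lit 4) (nat_lit 501) (nat_lit 367) (nat_lit 332)))) (XT.nd (nat_lit 156) (nat_lit 228) (nat_lit 0) (XT.nd (nat_lit 78) (nat_lit 0) (nat_lit 0) (XT.lf (nat_lit 0) (nat_lit 4553467823) (nat_lit 76) (nat_lit 1789109835) (nat_lit 152) (nat_lit 13932908754)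 (nat_lit 59) (nat_lit 5) (nat_lit 60) (nat_lit 5) (nat_lit 61) (nat_lit 4) (nat_lit 502) (nat_lit 367) (nat_lit 331)) (XT.lf (nat_lit 0) (nat_lit 13715023419) (nat_lit 152) (nat_lit 1430608207) (nat_lit 0) (nat_lit 5511477008) (nat_lit 59) (nat_lit 5) (nat_lit 61) (nat_lit 4) (nat_lit 59) (nat_lit 4) (nat_lit 503) (nat_lit 367) (nat_lit 330))) (XT.nd (nat_lit 78) (nat_lit 76) (nat_lit 0) (XT.lf (nat_lit 0) (nat_lit 310862636) (nat_lit 152) (nat_lit 7692853425) (nat_lit 76) (nat_lit 13044666490) (nat_lit 57) (nat_lit 5) (nat_lit 59) (nat_lit 5) (nat_lit 58) (nat_lit 4) (nat_lit 504) (nat_lit 367) (nat_lit 329)) (XT.lf (nat_lit 0) (nat_lit 7058567544) (nat_lit 76) (nat_lit 576567782) (nat_lit 152) (nat_lit 13814400227) (nat_lit 56) (nat_lit 5) (nat_lit 57) (nat_lit 5) (nat_lit 58) (nat_lit 4) (nat_lit 505) (nat_lit 367) (nat_lit 328))))) (XT.nd (nat_lit 312) (nat_lit 228) (nat_lit 0) (XT.nd (nat_lit 156) (nat_lit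 152) (nat_lit 0) (XT.nd (nat_lit 78) (nat_lit 76) (nat_lit 0) (XT.lf (nat_lit 0) (nat_lit 313136967) (nat_lit 76) (nat_lit 14926414586) (nat_lit 76) (nat_lit 6621359940) (nat_lit 55) (nat_lit 4) (nat_lit 56) (nat_lit 5) (nat_lit 56) (nat_lit 4) (nat_lit 506) (nat_lit 367) (nat_lit 327)) (XT.lf (nat_lit 0) (nat_lit 835596439) (nat_lit 152) (nat_lit 6715730546) (nat_lit 76) (nat_lit 14731170661) (nat_lit 54) (nat_lit 5) (nat_lit 56) (nat_lit 5) (nat_lit 55) (nat_lit 4) (nat_lit 507) (nat_lit 367) (nat_lit 326))) (XT.nd (nat_lit 78) (nat_lit 76) (nat_lit 0) (XT.lf (nat_lit 0) (nat_lit 8379523225) (nat_lit 152) (nat_lit 14223608533) (nat_lit 0) (nat_lit 111743292) (nat_lit 53) (nat_lit 5) (nat_lit 55) (nat_lit 4) (nat_lit 53) (nat_lit 4) (nat_lit 508) (nat_lit 367) (nat_lit 325)) (XT.lf (nat_lit 0) (nat_lit 907053356) (nat_lit 76) (nat_lit 15308421039) (nat_lit 76) (nat_lit 6942778902) (nat_lit 52) (nat_lit 4) (nat_lit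 53) (nat_lit 5) (nat_lit 53) (nat_lit 4) (nat_lit 509) (nat_lit 367) (nat_lit 324)))) (XT.nd (nat_lit 156) (nat_lit 76) (nat_lit 0) (XT.nd (nat_lit 78) (nat_lit 76) (nat_lit 0) (XT.lf (nat_lit 0) (nat_lit 717310336) (nat_lit 152) (nat_lit 7004514002) (nat_lit 76) (nat_lit 15891150249) (nat_lit 51) (nat_lit 5) (nat_lit 53) (nat_lit 5) (nat_lit 52) (nat_lit 4) (nat_lit 510) (nat_lit 367) (nat_lit 323)) (XT.lf (nat_lit 0) (nat_lit 8468582453) (nat_lit 152) (nat_lit 15445868312) (nat_lit 0) (nat_lit 164797502) (nat_lit 50) (nat_lit 5) (nat_lit 52) (nat_lit 4) (nat_lit 50) (nat_lit 4) (nat_lit 511) (nat_lit 367) (nat_lit 322))) (XT.nd (nat_lit 78) (nat_lit 0) (nat_lit 0) (XT.lf (nat_lit 0) (nat_lit 86751081) (nat_lit 76) (nat_lit 16430770057) (nat_lit 76) (nat_lit 8040035806) (nat_lit 49) (nat_lit 4) (nat_lit 50) (nat_lit 5) (nat_lit 50) (nat_lit 4) (nat_lit 512) (nat_lit 367) (nat_lit 321)) (XT.lf (nat_lit 0) (nat_lit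 16239190016) (nat_lit 76) (nat_lit 8641989495) (nat_lit 76) (nat_lit 166838446) (nat_lit 49) (nat_lit 4) (nat_lit 50) (nat_lit 5) (nat_lit 50) (nat_lit 4) (nat_lit 513) (nat_lit 367) (nat_lit 320))))))) (XT.nd (nat_lit 1170) (nat_lit 912) (nat_lit 0) (XT.nd (nat_lit 546) (nat_lit 532) (nat_lit 0) (XT.nd (nat_lit 234) (nat_lit 304) (nat_lit 0) (XT.nd (nat_lit 78) (nat_lit 76) (nat_lit 0) (XT.lf (nat_lit 0) (nat_lit 7228048176) (nat_lit 76) (nat_lit 547891370) (nat_lit 152) (nat_lit 17775312200) (nat_lit 47) (nat_lit 5) (nat_lit 48) (nat_lit 5) (nat_lit 49) (nat_lit 4) (nat_lit 514) (nat_lit 367) (nat_lit 319)) (XT.nd (nat_lit 78) (nat_lit 76) (nat_lit 0) (XT.lf (nat_lit 0) (nat_lit 16037339817) (nat_lit 152) (nat_lit 2377469406) (nat_lit 0) (nat_lit 7652213572) (nat_lit 47) (nat_lit 5) (nat_lit 49) (nat_lit 4) (nat_lit 47) (nat_lit 4) (nat_lit 515) (nat_lit 367) (nat_lit 318)) (XT.lf (nat_lit 0) (nat_lit 14162473144)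 (nat_lit 76) (nat_lit 10447018289) (nat_lit 76) (nat_lit 1986888814) (nat_lit 46) (nat_lit 4) (nat_lit 47) (nat_lit 5) (nat_lit 47) (nat_lit 4) (nat_lit 516) (nat_lit 367) (nat_lit 317)))) (XT.nd (nat_lit 156) (nat_lit 152) (nat_lit 0) (XT.nd (nat_lit 78) (nat_lit 0) (nat_lit 0) (XT.lf (nat_lit 0) (nat_lit 3967966489) (nat_lit 76) (nat_lit 2190119537) (nat_lit 152) (nat_lit 20982203611) (nat_lit 44) (nat_lit 5) (nat_lit 45) (nat_lit 5) (nat_lit 46) (nat_lit 4) (nat_lit 517) (nat_lit 367) (nat_lit 316)) (XT.lf (nat_lit 0) (nat_lit 14616449259) (nat_lit 152) (nat_lit 6816813180) (nat_lit 0) (nat_lit 6263395002) (nat_lit 44) (nat_lit 5) (nat_lit 46) (nat_lit 4) (nat_lit 44) (nat_lit 4) (nat_lit 518) (nat_lit 367) (nat_lit 315))) (XT.nd (nat_lit 78) (nat_lit 76) (nat_lit 0) (XT.lf (nat_lit 0) (nat_lit 10053143210) (nat_lit 76) (nat_lit 13317502375) (nat_lit 76) (nat_lit 4897808718) (nat_lit 43) (nat_lit 4) (nat_lit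 44) (nat_lit 5) (nat_lit 44) (nat_lit 4) (nat_lit 519) (nat_lit 367) (nat_lit 314)) (XT.lf (nat_lit 0) (nat_lit 3454495908) (nat_lit 152) (nat_lit 1471765408) (nat_lit 76) (nat_lit 23930326700) (nat_lit 42) (nat_lit 5) (nat_lit 44) (nat_lit 5) (nat_lit 43) (nat_lit 4) (nat_lit 520) (nat_lit 367) (nat_lit 313))))) (XT.nd (nat_lit 312) (nat_lit 228) (nat_lit 0) (XT.nd (nat_lit 156) (nat_lit 152) (nat_lit 0) (XT.nd (nat_lit 78) (nat_lit 76) (nat_lit 0) (XT.lf (nat_lit 0) (nat_lit 12074709070) (nat_lit 152) (nat_lit 13606278215) (nat_lit 0) (nat_lit 3776450694) (nat_lit 41) (nat_lit 5) (nat_lit 43) (nat_lit 4) (nat_lit 41) (nat_lit 4) (nat_lit 521) (nat_lit 367) (nat_lit 312)) (XT.lf (nat_lit 0) (nat_lit 3521439558) (nat_lit 76) (nat_lit 17455814585) (nat_lit 76) (nat_lit 9098347966) (nat_lit 40) (nat_lit 4) (nat_lit 41) (nat_lit 5) (nat_lit 41) (nat_lit 4) (nat_lit 522) (nat_lit 367) (nat_lit 311))) (XT.nd (nat_lit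 78) (nat_lit 152) (nat_lit 0) (XT.lf (nat_lit 0) (nat_lit 21296910555) (nat_lit 76) (nat_lit 8914211987) (nat_lit 76) (nat_lit 499261637) (nat_lit 40) (nat_lit 4) (nat_lit 41) (nat_lit 5) (nat_lit 41) (nat_lit 4) (nat_lit 523) (nat_lit 367) (nat_lit 310)) (XT.lf (nat_lit 0) (nat_lit 8178489111) (nat_lit 76) (nat_lit 23111336) (nat_lit 152) (nat_lit 23159992637) (nat_lit 38) (nat_lit 5) (nat_lit 39) (nat_lit 5) (nat_lit 40) (nat_lit 4) (nat_lit 524) (nat_lit 367) (nat_lit 309)))) (XT.nd (nat_lit 156) (nat_lit 152) (nat_lit 0) (XT.nd (nat_lit 78) (nat_lit 76) (nat_lit 0) (XT.lf (nat_lit 0) (nat_lit 17265602705) (nat_lit 152) (nat_lit 5774264864) (nat_lit 0) (nat_lit 8988958309) (nat_lit 38) (nat_lit 5) (nat_lit 40) (nat_lit 4) (nat_lit 38) (nat_lit 4) (nat_lit 525) (nat_lit 367) (nat_lit 308)) (XT.lf (nat_lit 0) (nat_lit 12257682560) (nat_lit 76) (nat_lit 14392328419) (nat_lit 76) (nat_lit 6064610473) (nat_lit 37)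 (nat_lit 4) (nat_lit 38) (nat_lit 5) (nat_lit 38) (nat_lit 4) (nat_lit 526) (nat_lit 367) (nat_lit 307))) (XT.nd (nat_lit 78) (nat_lit 76) (nat_lit 0) (XT.lf (nat_lit 0) (nat_lit 2827813885) (nat_lit 152) (nat_lit 2636841729) (nat_lit 76) (nat_lit 27955820458) (nat_lit 36) (nat_lit 5) (nat_lit 38) (nat_lit 5) (nat_lit 37) (nat_lit 4) (nat_lit 527) (nat_lit 367) (nat_lit 306)) (XT.lf (nat_lit 0) (nat_lit 11987119386) (nat_lit 152) (nat_lit 18347850808) (nat_lit 0) (nat_lit 3807075078) (nat_lit 35) (nat_lit 5) (nat_lit 37) (nat_lit 4) (nat_lit 35) (nat_lit 4) (nat_lit 528) (nat_lit 367) (nat_lit 305)))))) (XT.nd (nat_lit 624) (nat_lit 456) (nat_lit 0) (XT.nd (nat_lit 312) (nat_lit 228) (nat_lit 0) (XT.nd (nat_lit 156) (nat_lit 152) (nat_lit 0) (XT.nd (nat_lit 78) (nat_lit 76) (nat_lit 0) (XT.lf (nat_lit 0) (nat_lit 21434739467) (nat_lit 152) (nat_lit 240799383) (nat_lit 0) (nat_lit 13209316971) (nat_lit 35) (nat_lit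 5) (nat_lit 37) (nat_lit 4) (nat_lit 35) (nat_lit 4) (nat_lit 529) (nat_lit 367) (nat_lit 304)) (XT.lf (nat_lit 0) (nat_lit 18642981592) (nat_lit 76) (nat_lit 12636518524) (nat_lit 76) (nat_lit 4367039535) (nat_lit 34) (nat_lit 4) (nat_lit 35) (nat_lit 5) (nat_lit 35) (nat_lit 4) (nat_lit 530) (nat_lit 367) (nat_lit 303))) (XT.nd (nat_lit 78) (nat_lit 0) (nat_lit 0) (XT.lf (nat_lit 0) (nat_lit 1518567130) (nat_lit 76) (nat_lit 3324201053) (nat_lit 152) (nat_lit 31588320049) (nat_lit 32) (nat_lit 5) (nat_lit 33) (nat_lit 5) (nat_lit 34) (nat_lit 4) (nat_lit 531) (nat_lit 367) (nat_lit 302)) (XT.lf (nat_lit 0) (nat_lit 14409325548) (nat_lit 152) (nat_lit 16524644256) (nat_lit 0) (nat_lit 6298859767) (nat_lit 32) (nat_lit 5) (nat_lit 34) (nat_lit 4) (nat_lit 32) (nat_lit 4) (nat_lit 532) (nat_lit 367) (nat_lit 301)))) (XT.nd (nat_lit 156) (nat_lit 152) (nat_lit 0) (XT.nd (nat_lit 78) (nat_lit 0) (nat_lit 0) (XT.lf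 (nat_lit 0) (nat_lit 2300290086) (nat_lit 76) (nat_lit 21954098740) (nat_lit 76) (nat_lit 13804489335) (nat_lit 31) (nat_lit 4) (nat_lit 32) (nat_lit 5) (nat_lit 32) (nat_lit 4) (nat_lit 533) (nat_lit 367) (nat_lit 300)) (XT.lf (nat_lit 0) (nat_lit 21903399310) (nat_lit 76) (nat_lit 12595401105) (nat_lit 76) (nat_lit 4407788182) (nat_lit 31) (nat_lit 4) (nat_lit 32) (nat_lit 5) (nat_lit 32) (nat_lit 4) (nat_lit 534) (nat_lit 367) (nat_lit 299))) (XT.nd (nat_lit 78) (nat_lit 0) (nat_lit 0) (XT.lf (nat_lit 0) (nat_lit 2183932179) (nat_lit 76) (nat_lit 2943379013) (nat_lit 152) (nat_lit 34652118935) (nat_lit 29) (nat_lit 5) (nat_lit 30) (nat_lit 5) (nat_lit 31) (nat_lit 4) (nat_lit 535) (nat_lit 367) (nat_lit 298)) (XT.lf (nat_lit 0) (nat_lit 15038940279) (nat_lit 152) (nat_lit 18613634614) (nat_lit 0) (nat_lit 7019200955) (nat_lit 29) (nat_lit 5) (nat_lit 31) (nat_lit 4) (nat_lit 29) (nat_lit 4) (nat_lit 536) (nat_lit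 367) (nat_lit 297))))) (XT.nd (nat_lit 312) (nat_lit 228) (nat_lit 0) (XT.nd (nat_lit 156) (nat_lit 152) (nat_lit 0) (XT.nd (nat_lit 78) (nat_lit 0) (nat_lit 0) (XT.lf (nat_lit 0) (nat_lit 804897039) (nat_lit 76) (nat_lit 24420093962) (nat_lit 76) (nat_lit 16366589004) (nat_lit 28) (nat_lit 4) (nat_lit 29) (nat_lit 5) (nat_lit 29) (nat_lit 4) (nat_lit 537) (nat_lit 367) (nat_lit 296)) (XT.lf (nat_lit 0) (nat_lit 21069364363) (nat_lit 76) (nat_lit 14776019240) (nat_lit 76) (nat_lit 6689732115) (nat_lit 28) (nat_lit 4) (nat_lit 29) (nat_lit 5) (nat_lit 29) (nat_lit 4) (nat_lit 538) (nat_lit 367) (nat_lit 295))) (XT.nd (nat_lit 78) (nat_lit 76) (nat_lit 0) (XT.lf (nat_lit 0) (nat_lit 3155430146) (nat_lit 152) (nat_lit 1712591277) (nat_lit 76) (nat_lit 38639732543) (nat_lit 27) (nat_lit 5) (nat_lit 29) (nat_lit 5) (nat_lit 28) (nat_lit 4) (nat_lit 539) (nat_lit 367) (nat_lit 294)) (XT.lf (nat_lit 0) (nat_lit 13339272499)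 (nat_lit 152) (nat_lit 25735370933) (nat_lit 0) (nat_lit 5427607633) (nat_lit 26) (nat_lit 5) (nat_lit 28) (nat_lit 4) (nat_lit 26) (nat_lit 4) (nat_lit 540) (nat_lit 367) (nat_lit 293)))) (XT.nd (nat_lit 156) (nat_lit 152) (nat_lit 0) (XT.nd (nat_lit 78) (nat_lit 76) (nat_lit 0) (XT.lf (nat_lit 0) (nat_lit 23837973841) (nat_lit 152) (nat_lit 5791146697) (nat_lit 0) (nat_lit 15897182442) (nat_lit 26) (nat_lit 5) (nat_lit 28) (nat_lit 4) (nat_lit 26) (nat_lit 4) (nat_lit 541) (nat_lit 367) (nat_lit 292)) (XT.lf (nat_lit 0) (nat_lit 14933534513) (nat_lit 76) (nat_lit 19806972799) (nat_lit 76) (nat_lit 11837903215) (nat_lit 25) (nat_lit 4) (nat_lit 26) (nat_lit 5) (nat_lit 26) (nat_lit 4) (nat_lit 542) (nat_lit 367) (nat_lit 291))) (XT.nd (nat_lit 78) (nat_lit 152) (nat_lit 0) (XT.lf (nat_lit 0) (nat_lit 36290463533) (nat_lit 76) (nat_lit 9684005765) (nat_lit 76) (nat_lit 1687481630) (nat_lit 25) (nat_lit 4) (nat_lit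 26) (nat_lit 5) (nat_lit 26) (nat_lit 4) (nat_lit 543) (nat_lit 367) (nat_lit 290)) (XT.lf (nat_lit 0) (nat_lit 8643035117) (nat_lit 152) (nat_lit 39277493352) (nat_lit 0) (nat_lit 853540906) (nat_lit 23) (nat_lit 5) (nat_lit 25) (nat_lit 4) (nat_lit 23) (nat_lit 4) (nat_lit 544) (nat_lit 367) (nat_lit 289))))))))
noncomputable def xc33 : XT := (XT.nd (nat_lit 57720) (nat_lit 0) (nat_lit 2356) (XT.nd (nat_lit 56472) (nat_lit 0) (nat_lit 5320) (XT.nd (nat_lit 546) (nat_lit 152) (nat_lit 0) (XT.nd (nat_lit 234) (nat_lit 228) (nat_lit 0) (XT.nd (nat_lit 78) (nat_lit 76) (nat_lit 0) (XT.lf (nat_lit 0) (nat_lit 19408358607) (nat_lit 152) (nat_lit 18912187888) (nat_lit 0) (nat_lit 11593739593) (nat_lit 23) (nat_lit 5) (nat_lit 25) (nat_lit 4) (nat_lit 23) (nat_lit 4) (nat_lit 545) (nat_lit 367) (nat_lit 288)) (XT.nd (nat_lit 78) (nat_lit 0) (nat_lit 0) (XT.lf (nat_lit 0) (nat_lit 2000055331) (nat_lit 76) (nat_lit 28464317130)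 (nat_lit 76) (nat_lit 20625305103) (nat_lit 22) (nat_lit 4) (nat_lit 23) (nat_lit 5) (nat_lit 23) (nat_lit 4) (nat_lit 546) (nat_lit 367) (nat_lit 287)) (XT.lf (nat_lit 0) (nat_lit 23825307757) (nat_lit 76) (nat_lit 18166758883) (nat_lit 76) (nat_lit 10304064320) (nat_lit 22) (nat_lit 4) (nat_lit 23) (nat_lit 5) (nat_lit 23) (nat_lit 4) (nat_lit 547) (nat_lit 367) (nat_lit 286)))) (XT.nd (nat_lit 156) (nat_lit 76) (nat_lit 0) (XT.nd (nat_lit 78) (nat_lit 76) (nat_lit 0) (XT.lf (nat_lit 0) (nat_lit 270454831) (nat_lit 152) (nat_lit 7336664008) (nat_lit 76) (nat_lit 45933064483) (nat_lit 21) (nat_lit 5) (nat_lit 23) (nat_lit 5) (nat_lit 22) (nat_lit 4) (nat_lit 548) (nat_lit 367) (nat_lit 285)) (XT.lf (nat_lit 0) (nat_lit 11079465999) (nat_lit 152) (nat_lit 40333514043) (nat_lit 0) (nat_lit 3401786021) (nat_lit 20) (nat_lit 5) (nat_lit 22) (nat_lit 4) (nat_lit 20) (nat_lit 4) (nat_lit 549) (nat_lit 367) (nat_lit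 284))) (XT.nd (nat_lit 78) (nat_lit 76) (nat_lit 0) (XT.lf (nat_lit 0) (nat_lit 22314384942) (nat_lit 152) (nat_lit 19194489039) (nat_lit 0) (nat_lit 14615663337) (nat_lit 20) (nat_lit 5) (nat_lit 22) (nat_lit 4) (nat_lit 20) (nat_lit 4) (nat_lit 550) (nat_lit 367) (nat_lit 283)) (XT.lf (nat_lit 0) (nat_lit 2533806969) (nat_lit 76) (nat_lit 31329813594) (nat_lit 76) (nat_lit 23610663226) (nat_lit 19) (nat_lit 4) (nat_lit 20) (nat_lit 5) (nat_lit 20) (nat_lit 4) (nat_lit 551) (nat_lit 367) (nat_lit 282))))) (XT.nd (nat_lit 55614) (nat_lit 0) (nat_lit 7980) (XT.nd (nat_lit 156) (nat_lit 152) (nat_lit 0) (XT.nd (nat_lit 78) (nat_lit 0) (nat_lit 0) (XT.lf (nat_lit 0) (nat_lit 25214001556) (nat_lit 76) (nat_lit 20692544489) (nat_lit 76) (nat_lit 12953560370) (nat_lit 19) (nat_lit 4) (nat_lit 20) (nat_lit 5) (nat_lit 20) (nat_lit 4) (nat_lit 552) (nat_lit 367) (nat_lit 281)) (XT.lf (nat_lit 0) (nat_lit 48483904398) (nat_lit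 76) (nat_lit 9781598669) (nat_lit 76) (nat_lit 2023358480) (nat_lit 19) (nat_lit 4) (nat_lit 20) (nat_lit 5) (nat_lit 20) (nat_lit 4) (nat_lit 553) (nat_lit 367) (nat_lit 280))) (XT.nd (nat_lit 78) (nat_lit 0) (nat_lit 0) (XT.lf (nat_lit 0) (nat_lit 9128722162) (nat_lit 152) (nat_lit 51048569484) (nat_lit 0) (nat_lit 1578299442) (nat_lit 17) (nat_lit 5) (nat_lit 19) (nat_lit 4) (nat_lit 17) (nat_lit 4) (nat_lit 554) (nat_lit 367) (nat_lit 279)) (XT.lf (nat_lit 0) (nat_lit 20747580744) (nat_lit 152) (nat_lit 29333418419) (nat_lit 0) (nat_lit 13179535993) (nat_lit 17) (nat_lit 5) (nat_lit 19) (nat_lit 4) (nat_lit 17) (nat_lit 4) (nat_lit 555) (nat_lit 367) (nat_lit 278)))) (XT.nd (nat_lit 156) (nat_lit 456) (nat_lit 0) (XT.nd (nat_lit 78) (nat_lit 228) (nat_lit 0) (XT.lf (nat_lit 0) (nat_lit 2451588649) (nat_lit 228) (nat_lit 574947422) (nat_lit 0) (nat_lit 2451588649) (nat_lit 131) (nat_lit 5) (nat_lit 134) (nat_lit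 4) (nat_lit 131) (nat_lit 4) (nat_lit 464) (nat_lit 368) (nat_lit 368)) (XT.lf (nat_lit 0) (nat_lit 8961934942) (nat_lit 228) (nat_lit 1369923454) (nat_lit 228) (nat_lit 776061229) (nat_lit 128) (nat_lit 4) (nat_lit 131) (nat_lit 5) (nat_lit 131) (nat_lit 4) (nat_lit 465) (nat_lit 368) (nat_lit 367))) (XT.nd (nat_lit 78) (nat_lit 228) (nat_lit 0) (XT.lf (nat_lit 0) (nat_lit 4575944059) (nat_lit 228) (nat_lit 3247021564) (nat_lit 0) (nat_lit 3439606689) (nat_lit 125) (nat_lit 5) (nat_lit 128) (nat_lit 4) (nat_lit 125) (nat_lit 4) (nat_lit 466) (nat_lit 368) (nat_lit 366)) (XT.lf (nat_lit 0) (nat_lit 7020774653) (nat_lit 228) (nat_lit 3040508839) (nat_lit 228) (nat_lit 1360703407) (nat_lit 122) (nat_lit 4) (nat_lit 125) (nat_lit 5) (nat_lit 125) (nat_lit 4) (nat_lit 467) (nat_lit 368) (nat_lit 365)))))) (XT.nd (nat_lit 624) (nat_lit 1216) (nat_lit 0) (XT.nd (nat_lit 312) (nat_lit 608) (nat_lit 0) (XT.nd (nat_lit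 156) (nat_lit 380) (nat_lit 0) (XT.nd (nat_lit 78) (nat_lit 228) (nat_lit 0) (XT.lf (nat_lit 0) (nat_lit 4039194638) (nat_lit 228) (nat_lit 5649918016) (nat_lit 0) (nat_lit 1896044806) (nat_lit 119) (nat_lit 5) (nat_lit 122) (nat_lit 4) (nat_lit 119) (nat_lit 4) (nat_lit 468) (nat_lit 368) (nat_lit 364)) (XT.lf (nat_lit 0) (nat_lit 4768747689) (nat_lit 228) (nat_lit 4812179716) (nat_lit 228) (nat_lit 2171679621) (nat_lit 116) (nat_lit 4) (nat_lit 119) (nat_lit 5) (nat_lit 119) (nat_lit 4) (nat_lit 469) (nat_lit 368) (nat_lit 363))) (XT.nd (nat_lit 78) (nat_lit 152) (nat_lit 0) (XT.lf (nat_lit 0) (nat_lit 3278781552) (nat_lit 228) (nat_lit 8399525316) (nat_lit 0) (nat_lit 246388903) (nat_lit 113) (nat_lit 5) (nat_lit 116) (nat_lit 4) (nat_lit 113) (nat_lit 4) (nat_lit 470) (nat_lit 368) (nat_lit 362)) (XT.lf (nat_lit 0) (nat_lit 2163920597) (nat_lit 152) (nat_lit 6712058666) (nat_lit 152) (nat_lit 3224520070) (nat_lit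 111) (nat_lit 4) (nat_lit 113) (nat_lit 5) (nat_lit 113) (nat_lit 4) (nat_lit 471) (nat_lit 368) (nat_lit 361)))) (XT.nd (nat_lit 156) (nat_lit 380) (nat_lit 0) (XT.nd (nat_lit 78) (nat_lit 0) (nat_lit 0) (XT.lf (nat_lit 0) (nat_lit 726544607) (nat_lit 152) (nat_lit 1567037890) (nat_lit 228) (nat_lit 9987913947) (nat_lit 108) (nat_lit 5) (nat_lit 110) (nat_lit 5) (nat_lit 111) (nat_lit 4) (nat_lit 472) (nat_lit 368) (nat_lit 360)) (XT.lf (nat_lit 0) (nat_lit 7937605950) (nat_lit 228) (nat_lit 822502752) (nat_lit 0) (nat_lit 3706104426) (nat_lit 108) (nat_lit 5) (nat_lit 111) (nat_lit 4) (nat_lit 108) (nat_lit 4) (nat_lit 473) (nat_lit 368) (nat_lit 359))) (XT.nd (nat_lit 78) (nat_lit 152) (nat_lit 0) (XT.lf (nat_lit 0) (nat_lit 1078160391) (nat_lit 228) (nat_lit 2447227207) (nat_lit 76) (nat_lit 9130619815) (nat_lit 105) (nat_lit 5) (nat_lit 108) (nat_lit 5) (nat_lit 106) (nat_lit 4) (nat_lit 474) (nat_lit 368)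 (nat_lit 358)) (XT.lf (nat_lit 0) (nat_lit 6763706521) (nat_lit 228) (nat_lit 4204736634) (nat_lit 0) (nat_lit 1881662159) (nat_lit 103) (nat_lit 5) (nat_lit 106) (nat_lit 4) (nat_lit 103) (nat_lit 4) (nat_lit 475) (nat_lit 368) (nat_lit 357))))) (XT.nd (nat_lit 312) (nat_lit 456) (nat_lit 0) (XT.nd (nat_lit 156) (nat_lit 380) (nat_lit 0) (XT.nd (nat_lit 78) (nat_lit 228) (nat_lit 0) (XT.lf (nat_lit 0) (nat_lit 6975740885) (nat_lit 152) (nat_lit 5662921182) (nat_lit 152) (nat_lit 410801516) (nat_lit 101) (nat_lit 4) (nat_lit 103) (nat_lit 5) (nat_lit 103) (nat_lit 4) (nat_lit 476) (nat_lit 368) (nat_lit 356)) (XT.lf (nat_lit 0) (nat_lit 5175550895) (nat_lit 152) (nat_lit 138225939) (nat_lit 228) (nat_lit 7939917851) (nat_lit 98) (nat_lit 5) (nat_lit 100) (nat_lit 5) (nat_lit 101) (nat_lit 4) (nat_lit 477) (nat_lit 368) (nat_lit 355))) (XT.nd (nat_lit 78) (nat_lit 228) (nat_lit 0) (XT.lf (nat_lit 0) (nat_lit 3232128829)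 (nat_lit 152) (nat_lit 8008642204) (nat_lit 152) (nat_lit 2221994100) (nat_lit 96) (nat_lit 4) (nat_lit 98) (nat_lit 5) (nat_lit 98) (nat_lit 4) (nat_lit 478) (nat_lit 368) (nat_lit 354)) (XT.lf (nat_lit 0) (nat_lit 1159140235) (nat_lit 152) (nat_lit 2424404323) (nat_lit 228) (nat_lit 10093878586) (nat_lit 93) (nat_lit 5) (nat_lit 95) (nat_lit 5) (nat_lit 96) (nat_lit 4) (nat_lit 479) (nat_lit 368) (nat_lit 353)))) (XT.nd (nat_lit 156) (nat_lit 228) (nat_lit 0) (XT.nd (nat_lit 78) (nat_lit 228) (nat_lit 0) (XT.lf (nat_lit 0) (nat_lit 9548036405) (nat_lit 228) (nat_lit 1048174363) (nat_lit 0) (nat_lit 3300768999) (nat_lit 93) (nat_lit 5) (nat_lit 96) (nat_lit 4) (nat_lit 93) (nat_lit 4) (nat_lit 480) (nat_lit 368) (nat_lit 352)) (XT.lf (nat_lit 0) (nat_lit 1561643685) (nat_lit 228) (nat_lit 3378035812) (nat_lit 76) (nat_lit 9182276233) (nat_lit 90) (nat_lit 5) (nat_lit 93) (nat_lit 5) (nat_lit 91) (nat_lit 4) (nat_lit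 481) (nat_lit 368) (nat_lit 351))) (XT.nd (nat_lit 78) (nat_lit 152) (nat_lit 0) (XT.lf (nat_lit 0) (nat_lit 7559843184) (nat_lit 152) (nat_lit 5873854725) (nat_lit 0) (nat_lit 918762254) (nat_lit 89) (nat_lit 5) (nat_lit 91) (nat_lit 4) (nat_lit 89) (nat_lit 4) (nat_lit 482) (nat_lit 368) (nat_lit 350)) (XT.lf (nat_lit 0) (nat_lit 6047272968) (nat_lit 152) (nat_lit 7728956635) (nat_lit 152) (nat_lit 812504923) (nat_lit 87) (nat_lit 4) (nat_lit 89) (nat_lit 5) (nat_lit 89) (nat_lit 4) (nat_lit 483) (nat_lit 368) (nat_lit 349))))))) (XT.nd (nat_lit 1170) (nat_lit 1216) (nat_lit 0) (XT.nd (nat_lit 546) (nat_lit 836) (nat_lit 0) (XT.nd (nat_lit 234) (nat_lit 532) (nat_lit 0) (XT.nd (nat_lit 78) (nat_lit 228) (nat_lit 0) (XT.lf (nat_lit 0) (nat_lit 3438246892) (nat_lit 76) (nat_lit 1794289501) (nat_lit 152) (nat_lit 9598324713) (nat_lit 85) (nat_lit 5) (nat_lit 86) (nat_lit 5) (nat_lit 87) (nat_lit 4) (nat_lit 484)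 (nat_lit 368) (nat_lit 348)) (XT.nd (nat_lit 78) (nat_lit 76) (nat_lit 0) (XT.lf (nat_lit 0) (nat_lit 643628860) (nat_lit 152) (nat_lit 10830995337) (nat_lit 152) (nat_lit 3604427027) (nat_lit 83) (nat_lit 4) (nat_lit 85) (nat_lit 5) (nat_lit 85) (nat_lit 4) (nat_lit 485) (nat_lit 368) (nat_lit 347)) (XT.lf (nat_lit 0) (nat_lit 2550466197) (nat_lit 228) (nat_lit 2293785301) (nat_lit 76) (nat_lit 10488756926) (nat_lit 82) (nat_lit 5) (nat_lit 85) (nat_lit 5) (nat_lit 83) (nat_lit 4) (nat_lit 486) (nat_lit 368) (nat_lit 346)))) (XT.nd (nat_lit 156) (nat_lit 304) (nat_lit 0) (XT.nd (nat_lit 78) (nat_lit 152) (nat_lit 0) (XT.lf (nat_lit 0) (nat_lit 8829029096) (nat_lit 152) (nat_lit 5419354863) (nat_lit 0) (nat_lit 1344787407) (nat_lit 81) (nat_lit 5) (nat_lit 83) (nat_lit 4) (nat_lit 81) (nat_lit 4) (nat_lit 487) (nat_lit 368) (nat_lit 345)) (XT.lf (nat_lit 0) (nat_lit 7104376393) (nat_lit 152) (nat_lit 8231849734)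 (nat_lit 152) (nat_lit 523706399) (nat_lit 79) (nat_lit 4) (nat_lit 81) (nat_lit 5) (nat_lit 81) (nat_lit 4) (nat_lit 488) (nat_lit 368) (nat_lit 344))) (XT.nd (nat_lit 78) (nat_lit 152) (nat_lit 0) (XT.lf (nat_lit 0) (nat_lit 3810704304) (nat_lit 76) (nat_lit 1970688738) (nat_lit 152) (nat_lit 10351822729) (nat_lit 77) (nat_lit 5) (nat_lit 78) (nat_lit 5) (nat_lit 79) (nat_lit 4) (nat_lit 489) (nat_lit 368) (nat_lit 343)) (XT.lf (nat_lit 0) (nat_lit 289456579) (nat_lit 152) (nat_lit 12011793880) (nat_lit 152) (nat_lit 4112209076) (nat_lit 75) (nat_lit 4) (nat_lit 77) (nat_lit 5) (nat_lit 77) (nat_lit 4) (nat_lit 490) (nat_lit 368) (nat_lit 342))))) (XT.nd (nat_lit 312) (nat_lit 380) (nat_lit 0) (XT.nd (nat_lit 156) (nat_lit 304) (nat_lit 0) (XT.nd (nat_lit 78) (nat_lit 76) (nat_lit 0) (XT.lf (nat_lit 0) (nat_lit 2315733404) (nat_lit 228) (nat_lit 3397579705) (nat_lit 76) (nat_lit 10986742252) (nat_lit 74) (nat_lit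 5) (nat_lit 77) (nat_lit 5) (nat_lit 75) (nat_lit 4) (nat_lit 491) (nat_lit 368) (nat_lit 341)) (XT.lf (nat_lit 0) (nat_lit 8858808078) (nat_lit 152) (nat_lit 7326417917) (nat_lit 0) (nat_lit 808654638) (nat_lit 73) (nat_lit 5) (nat_lit 75) (nat_lit 4) (nat_lit 73) (nat_lit 4) (nat_lit 492) (nat_lit 368) (nat_lit 340))) (XT.nd (nat_lit 78) (nat_lit 152) (nat_lit 0) (XT.lf (nat_lit 0) (nat_lit 5770994508) (nat_lit 152) (nat_lit 9878102894) (nat_lit 152) (nat_lit 1645896927) (nat_lit 71) (nat_lit 4) (nat_lit 73) (nat_lit 5) (nat_lit 73) (nat_lit 4) (nat_lit 493) (nat_lit 368) (nat_lit 339)) (XT.lf (nat_lit 0) (nat_lit 1607365679) (nat_lit 76) (nat_lit 3326782928) (nat_lit 152) (nat_lit 12669706158) (nat_lit 69) (nat_lit 5) (nat_lit 70) (nat_lit 5) (nat_lit 71) (nat_lit 4) (nat_lit 494) (nat_lit 368) (nat_lit 338)))) (XT.nd (nat_lit 156) (nat_lit 152) (nat_lit 0) (XT.nd (nat_lit 78) (nat_lit 228) (nat_lit 0) (XT.lf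 (nat_lit 0) (nat_lit 11733463325) (nat_lit 152) (nat_lit 2783557042) (nat_lit 0) (nat_lit 3402824528) (nat_lit 69) (nat_lit 5) (nat_lit 71) (nat_lit 4) (nat_lit 69) (nat_lit 4) (nat_lit 495) (nat_lit 368) (nat_lit 337)) (XT.lf (nat_lit 0) (nat_lit 526614762) (nat_lit 228) (nat_lit 7423362141) (nat_lit 76) (nat_lit 10293854404) (nat_lit 66) (nat_lit 5) (nat_lit 69) (nat_lit 5) (nat_lit 67) (nat_lit 4) (nat_lit 496) (nat_lit 368) (nat_lit 336))) (XT.nd (nat_lit 78) (nat_lit 76) (nat_lit 0) (XT.lf (nat_lit 0) (nat_lit 6193935180) (nat_lit 76) (nat_lit 1118067479) (nat_lit 152) (nat_lit 11263837981) (nat_lit 65) (nat_lit 5) (nat_lit 66) (nat_lit 5) (nat_lit 67) (nat_lit 4) (nat_lit 497) (nat_lit 368) (nat_lit 335)) (XT.lf (nat_lit 0) (nat_lit 1244442125) (nat_lit 76) (nat_lit 13108667463) (nat_lit 76) (nat_lit 4563137031) (nat_lit 64) (nat_lit 4) (nat_lit 65) (nat_lit 5) (nat_lit 65) (nat_lit 4) (nat_lit 498) (nat_lit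 368) (nat_lit 334)))))) (XT.nd (nat_lit 624) (nat_lit 608) (nat_lit 0) (XT.nd (nat_lit 312) (nat_lit 304) (nat_lit 0) (XT.nd (nat_lit 156) (nat_lit 152) (nat_lit 0) (XT.nd (nat_lit 78) (nat_lit 76) (nat_lit 0) (XT.lf (nat_lit 0) (nat_lit 2337973574) (nat_lit 152) (nat_lit 3943158021) (nat_lit 76) (nat_lit 12983709125) (nat_lit 63) (nat_lit 5) (nat_lit 65) (nat_lit 5) (nat_lit 64) (nat_lit 4) (nat_lit 499) (nat_lit 368) (nat_lit 333)) (XT.lf (nat_lit 0) (nat_lit 9370435851) (nat_lit 152) (nat_lit 9452809333) (nat_lit 0) (nat_lit 798812083) (nat_lit 62) (nat_lit 5) (nat_lit 64) (nat_lit 4) (nat_lit 62) (nat_lit 4) (nat_lit 500) (nat_lit 368) (nat_lit 332))) (XT.nd (nat_lit 78) (nat_lit 76) (nat_lit 0) (XT.lf (nat_lit 0) (nat_lit 4651635774) (nat_lit 76) (nat_lit 12019884225) (nat_lit 76) (nat_lit 3316741838) (nat_lit 61) (nat_lit 4) (nat_lit 62) (nat_lit 5) (nat_lit 62) (nat_lit 4) (nat_lit 501) (nat_lit 368) (nat_lit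 331)) (XT.lf (nat_lit 0) (nat_lit 3758529301) (nat_lit 152) (nat_lit 1201015884) (nat_lit 76) (nat_lit 15404594646) (nat_lit 60) (nat_lit 5) (nat_lit 62) (nat_lit 5) (nat_lit 61) (nat_lit 4) (nat_lit 502) (nat_lit 368) (nat_lit 330)))) (XT.nd (nat_lit 156) (nat_lit 152) (nat_lit 0) (XT.nd (nat_lit 78) (nat_lit 76) (nat_lit 0) (XT.lf (nat_lit 0) (nat_lit 11044644693) (nat_lit 152) (nat_lit 7353042900) (nat_lit 0) (nat_lit 2350664809) (nat_lit 59) (nat_lit 5) (nat_lit 61) (nat_lit 4) (nat_lit 59) (nat_lit 4) (nat_lit 503) (nat_lit 368) (nat_lit 329)) (XT.lf (nat_lit 0) (nat_lit 7233570530) (nat_lit 76) (nat_lit 11360013468) (nat_lit 76) (nat_lit 2549180995) (nat_lit 58) (nat_lit 4) (nat_lit 59) (nat_lit 5) (nat_lit 59) (nat_lit 4) (nat_lit 504) (nat_lit 368) (nat_lit 328))) (XT.nd (nat_lit 78) (nat_lit 0) (nat_lit 0) (XT.lf (nat_lit 0) (nat_lit 658671378) (nat_lit 76) (nat_lit 4061995108) (nat_lit 152) (nat_lit 16827112103)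 (nat_lit 56) (nat_lit 5) (nat_lit 57) (nat_lit 5) (nat_lit 58) (nat_lit 4) (nat_lit 505) (nat_lit 368) (nat_lit 327)) (XT.lf (nat_lit 0) (nat_lit 12245983875) (nat_lit 152) (nat_lit 6240847862) (nat_lit 0) (nat_lit 3474696145) (nat_lit 56) (nat_lit 5) (nat_lit 58) (nat_lit 4) (nat_lit 56) (nat_lit 4) (nat_lit 506) (nat_lit 368) (nat_lit 326))))) (XT.nd (nat_lit 312) (nat_lit 304) (nat_lit 0) (XT.nd (nat_lit 156) (nat_lit 76) (nat_lit 0) (XT.nd (nat_lit 78) (nat_lit 152) (nat_lit 0) (XT.lf (nat_lit 0) (nat_lit 8814591862) (nat_lit 76) (nat_lit 11223488850) (nat_lit 76) (nat_lit 2348379107) (nat_lit 55) (nat_lit 4) (nat_lit 56) (nat_lit 5) (nat_lit 56) (nat_lit 4) (nat_lit 507) (nat_lit 368) (nat_lit 325)) (XT.lf (nat_lit 0) (nat_lit 1440376155) (nat_lit 76) (nat_lit 3690798213) (nat_lit 152) (nat_lit 17691646389) (nat_lit 53) (nat_lit 5) (nat_lit 54) (nat_lit 5) (nat_lit 55) (nat_lit 4) (nat_lit 508) (nat_lit 368)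 (nat_lit 324))) (XT.nd (nat_lit 78) (nat_lit 76) (nat_lit 0) (XT.lf (nat_lit 0) (nat_lit 12881670663) (nat_lit 152) (nat_lit 6314907124) (nat_lit 0) (nat_lit 4072185208) (nat_lit 53) (nat_lit 5) (nat_lit 55) (nat_lit 4) (nat_lit 53) (nat_lit 4) (nat_lit 509) (nat_lit 368) (nat_lit 323)) (XT.lf (nat_lit 0) (nat_lit 9187954919) (nat_lit 76) (nat_lit 11720276372) (nat_lit 76) (nat_lit 2818546405) (nat_lit 52) (nat_lit 4) (nat_lit 53) (nat_lit 5) (nat_lit 53) (nat_lit 4) (nat_lit 510) (nat_lit 368) (nat_lit 322)))) (XT.nd (nat_lit 156) (nat_lit 152) (nat_lit 0) (XT.nd (nat_lit 78) (nat_lit 0) (nat_lit 0) (XT.lf (nat_lit 0) (nat_lit 898283567) (nat_lit 76) (nat_lit 3973426440) (nat_lit 152) (nat_lit 19325634962) (nat_lit 50) (nat_lit 5) (nat_lit 51) (nat_lit 5) (nat_lit 52) (nat_lit 4) (nat_lit 511) (nat_lit 368) (nat_lit 321)) (XT.lf (nat_lit 0) (nat_lit 12841641124) (nat_lit 152) (nat_lit 7808564308) (nat_lit 0) (nat_lit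 4027818747) (nat_lit 50) (nat_lit 5) (nat_lit 52) (nat_lit 4) (nat_lit 50) (nat_lit 4) (nat_lit 512) (nat_lit 368) (nat_lit 320))) (XT.nd (nat_lit 78) (nat_lit 76) (nat_lit 0) (XT.lf (nat_lit 0) (nat_lit 8110615235) (nat_lit 76) (nat_lit 12978567100) (nat_lit 76) (nat_lit 4082786667) (nat_lit 49) (nat_lit 4) (nat_lit 50) (nat_lit 5) (nat_lit 50) (nat_lit 4) (nat_lit 513) (nat_lit 368) (nat_lit 319)) (XT.lf (nat_lit 0) (nat_lit 3828134276) (nat_lit 152) (nat_lit 1204238778) (nat_lit 76) (nat_lit 20647207432) (nat_lit 48) (nat_lit 5) (nat_lit 50) (nat_lit 5) (nat_lit 49) (nat_lit 4) (nat_lit 514) (nat_lit 368) (nat_lit 318))))))))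
noncomputable def xc34 : XT := (XT.nd (nat_lit 2418) (nat_lit 456) (nat_lit 0) (XT.nd (nat_lit 1170) (nat_lit 912) (nat_lit 0) (XT.nd (nat_lit 546) (nat_lit 456) (nat_lit 0) (XT.nd (nat_lit 234) (nat_lit 304) (nat_lit 0) (XT.nd (nat_lit 78) (nat_lit 152) (nat_lit 0) (XT.lf (nat_lit 0) (nat_lit 11995758152) (nat_lit 152) (nat_lit 10995585386) (nat_lit 0) (nat_lit 3206821561) (nat_lit 47) (nat_lit 5) (nat_lit 49) (nat_lit 4) (nat_lit 47) (nat_lit 4) (nat_lit 515) (nat_lit 368) (nat_lit 317)) (XT.nd (nat_lit 78) (nat_lit 76) (nat_lit 0) (XT.lf (nat_lit 0) (nat_lit 5297184956) (nat_lit 76) (nat_lit 15147889096) (nat_lit 76) (nat_lit 6286133834) (nat_lit 46) (nat_lit 4) (nat_lit 47) (nat_lit 5) (nat_lit 47) (nat_lit 4) (nat_lit 516) (nat_lit 368) (nat_lit 316)) (XT.lf (nat_lit 0) (nat_lit 1866995843) (nat_lit 152) (nat_lit 5142451436) (nat_lit 76) (nat_lit 20269182223) (nat_lit 45) (nat_lit 5) (nat_lit 47) (nat_lit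 5) (nat_lit 46) (nat_lit 4) (nat_lit 517) (nat_lit 368) (nat_lit 315)))) (XT.nd (nat_lit 156) (nat_lit 152) (nat_lit 0) (XT.nd (nat_lit 78) (nat_lit 76) (nat_lit 0) (XT.lf (nat_lit 0) (nat_lit 10190561173) (nat_lit 152) (nat_lit 16196843004) (nat_lit 0) (nat_lit 1451637307) (nat_lit 44) (nat_lit 5) (nat_lit 46) (nat_lit 4) (nat_lit 44) (nat_lit 4) (nat_lit 518) (nat_lit 368) (nat_lit 314)) (XT.lf (nat_lit 0) (nat_lit 412920067) (nat_lit 76) (nat_lit 18402707363) (nat_lit 76) (nat_lit 9599085052) (nat_lit 43) (nat_lit 4) (nat_lit 44) (nat_lit 5) (nat_lit 44) (nat_lit 4) (nat_lit 519) (nat_lit 368) (nat_lit 313))) (XT.nd (nat_lit 78) (nat_lit 152) (nat_lit 0) (XT.lf (nat_lit 0) (nat_lit 17708111904) (nat_lit 76) (nat_lit 10081634737) (nat_lit 76) (nat_lit 1215198401) (nat_lit 43) (nat_lit 4) (nat_lit 44) (nat_lit 5) (nat_lit 44) (nat_lit 4) (nat_lit 520) (nat_lit 368) (nat_lit 312)) (XT.lf (nat_lit 0) (nat_lit 5809212485)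 (nat_lit 76) (nat_lit 1450212791) (nat_lit 152) (nat_lit 22351799452) (nat_lit 41) (nat_lit 5) (nat_lit 42) (nat_lit 5) (nat_lit 43) (nat_lit 4) (nat_lit 521) (nat_lit 368) (nat_lit 311))))) (XT.nd (nat_lit 312) (nat_lit 228) (nat_lit 0) (XT.nd (nat_lit 156) (nat_lit 152) (nat_lit 0) (XT.nd (nat_lit 78) (nat_lit 76) (nat_lit 0) (XT.lf (nat_lit 0) (nat_lit 16078832008) (nat_lit 152) (nat_lit 6799101794) (nat_lit 0) (nat_lit 7353949416) (nat_lit 41) (nat_lit 5) (nat_lit 43) (nat_lit 4) (nat_lit 41) (nat_lit 4) (nat_lit 522) (nat_lit 368) (nat_lit 310)) (XT.lf (nat_lit 0) (nat_lit 10771708642) (nat_lit 76) (nat_lit 14439349083) (nat_lit 76) (nat_lit 5658657044) (nat_lit 40) (nat_lit 4) (nat_lit 41) (nat_lit 5) (nat_lit 41) (nat_lit 4) (nat_lit 523) (nat_lit 368) (nat_lit 309))) (XT.nd (nat_lit 78) (nat_lit 76) (nat_lit 0) (XT.lf (nat_lit 0) (nat_lit 3029964455) (nat_lit 152) (nat_lit 2684048123) (nat_lit 76) (nat_lit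 25811786713) (nat_lit 39) (nat_lit 5) (nat_lit 41) (nat_lit 5) (nat_lit 40) (nat_lit 4) (nat_lit 524) (nat_lit 368) (nat_lit 308)) (XT.lf (nat_lit 0) (nat_lit 11978416019) (nat_lit 152) (nat_lit 16868289789) (nat_lit 0) (nat_lit 3349792984) (nat_lit 38) (nat_lit 5) (nat_lit 40) (nat_lit 4) (nat_lit 38) (nat_lit 4) (nat_lit 525) (nat_lit 368) (nat_lit 307)))) (XT.nd (nat_lit 156) (nat_lit 152) (nat_lit 0) (XT.nd (nat_lit 78) (nat_lit 0) (nat_lit 0) (XT.lf (nat_lit 0) (nat_lit 875492639) (nat_lit 76) (nat_lit 20344645745) (nat_lit 76) (nat_lit 11666436739) (nat_lit 37) (nat_lit 4) (nat_lit 38) (nat_lit 5) (nat_lit 38) (nat_lit 4) (nat_lit 526) (nat_lit 368) (nat_lit 306)) (XT.lf (nat_lit 0) (nat_lit 19364589948) (nat_lit 76) (nat_lit 11478005197) (nat_lit 76) (nat_lit 2751654471) (nat_lit 37) (nat_lit 4) (nat_lit 38) (nat_lit 5) (nat_lit 38) (nat_lit 4) (nat_lit 527) (nat_lit 368) (nat_lit 305))) (XT.nd (nat_lit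 78) (nat_lit 0) (nat_lit 0) (XT.lf (nat_lit 0) (nat_lit 3970653536) (nat_lit 76) (nat_lit 2307052767) (nat_lit 152) (nat_lit 28044415379) (nat_lit 35) (nat_lit 5) (nat_lit 36) (nat_lit 5) (nat_lit 37) (nat_lit 4) (nat_lit 528) (nat_lit 368) (nat_lit 304)) (XT.lf (nat_lit 0) (nat_lit 15670885651) (nat_lit 152) (nat_lit 12286414161) (nat_lit 0) (nat_lit 7109265799) (nat_lit 35) (nat_lit 5) (nat_lit 37) (nat_lit 4) (nat_lit 35) (nat_lit 4) (nat_lit 529) (nat_lit 368) (nat_lit 303)))))) (XT.nd (nat_lit 624) (nat_lit 456) (nat_lit 0) (XT.nd (nat_lit 312) (nat_lit 228) (nat_lit 0) (XT.nd (nat_lit 156) (nat_lit 152) (nat_lit 0) (XT.nd (nat_lit 78) (nat_lit 0) (nat_lit 0) (XT.lf (nat_lit 0) (nat_lit 6294090378) (nat_lit 76) (nat_lit 19071526622) (nat_lit 76) (nat_lit 10467133475) (nat_lit 34) (nat_lit 4) (nat_lit 35) (nat_lit 5) (nat_lit 35) (nat_lit 4) (nat_lit 530) (nat_lit 368) (nat_lit 302)) (XT.lf (nat_lit 0) (nat_lit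 25558630161) (nat_lit 76) (nat_lit 9853688891) (nat_lit 76) (nat_lit 1207768274) (nat_lit 34) (nat_lit 4) (nat_lit 35) (nat_lit 5) (nat_lit 35) (nat_lit 4) (nat_lit 531) (nat_lit 368) (nat_lit 301))) (XT.nd (nat_lit 78) (nat_lit 0) (nat_lit 0) (XT.lf (nat_lit 0) (nat_lit 7921756715) (nat_lit 76) (nat_lit 259521740) (nat_lit 152) (nat_lit 29246931002) (nat_lit 32) (nat_lit 5) (nat_lit 33) (nat_lit 5) (nat_lit 34) (nat_lit 4) (nat_lit 532) (nat_lit 368) (nat_lit 300)) (XT.lf (nat_lit 0) (nat_lit 17971358155) (nat_lit 152) (nat_lit 10784436211) (nat_lit 0) (nat_lit 9500113326) (nat_lit 32) (nat_lit 5) (nat_lit 34) (nat_lit 4) (nat_lit 32) (nat_lit 4) (nat_lit 533) (nat_lit 368) (nat_lit 299)))) (XT.nd (nat_lit 156) (nat_lit 152) (nat_lit 0) (XT.nd (nat_lit 78) (nat_lit 0) (nat_lit 0) (XT.lf (nat_lit 0) (nat_lit 8544109423) (nat_lit 76) (nat_lit 19535862116) (nat_lit 76) (nat_lit 11027720668) (nat_lit 31) (nat_lit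 4) (nat_lit 32) (nat_lit 5) (nat_lit 32) (nat_lit 4) (nat_lit 534) (nat_lit 368) (nat_lit 298)) (XT.lf (nat_lit 0) (nat_lit 28555463070) (nat_lit 76) (nat_lit 9986020822) (nat_lit 76) (nat_lit 1442057413) (nat_lit 31) (nat_lit 4) (nat_lit 32) (nat_lit 5) (nat_lit 32) (nat_lit 4) (nat_lit 535) (nat_lit 368) (nat_lit 297))) (XT.nd (nat_lit 78) (nat_lit 0) (nat_lit 0) (XT.lf (nat_lit 0) (nat_lit 8245510413) (nat_lit 76) (nat_lit 42298663) (nat_lit 152) (nat_lit 32594791000) (nat_lit 29) (nat_lit 5) (nat_lit 30) (nat_lit 5) (nat_lit 31) (nat_lit 4) (nat_lit 536) (nat_lit 368) (nat_lit 296)) (XT.lf (nat_lit 0) (nat_lit 18437112675) (nat_lit 152) (nat_lit 13290939323) (nat_lit 0) (nat_lit 10075454767) (nat_lit 29) (nat_lit 5) (nat_lit 31) (nat_lit 4) (nat_lit 29) (nat_lit 4) (nat_lit 537) (nat_lit 368) (nat_lit 295))))) (XT.nd (nat_lit 312) (nat_lit 228) (nat_lit 0) (XT.nd (nat_lit 156) (nat_lit 152) (nat_lit 0) (XT.nd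 (nat_lit 78) (nat_lit 0) (nat_lit 0) (XT.lf (nat_lit 0) (nat_lit 6652490394) (nat_lit 76) (nat_lit 22246397981) (nat_lit 76) (nat_lit 13852912725) (nat_lit 28) (nat_lit 4) (nat_lit 29) (nat_lit 5) (nat_lit 29) (nat_lit 4) (nat_lit 538) (nat_lit 368) (nat_lit 294)) (XT.lf (nat_lit 0) (nat_lit 27355276792) (nat_lit 76) (nat_lit 12397650498) (nat_lit 76) (nat_lit 3973264904) (nat_lit 28) (nat_lit 4) (nat_lit 29) (nat_lit 5) (nat_lit 29) (nat_lit 4) (nat_lit 539) (nat_lit 368) (nat_lit 293))) (XT.nd (nat_lit 78) (nat_lit 0) (nat_lit 0) (XT.lf (nat_lit 0) (nat_lit 3855703605) (nat_lit 76) (nat_lit 2208379905) (nat_lit 152) (nat_lit 38664472491) (nat_lit 26) (nat_lit 5) (nat_lit 27) (nat_lit 5) (nat_lit 28) (nat_lit 4) (nat_lit 540) (nat_lit 368) (nat_lit 292)) (XT.lf (nat_lit 0) (nat_lit 16514620998) (nat_lit 152) (nat_lit 20961230798) (nat_lit 0) (nat_lit 8278201139) (nat_lit 26) (nat_lit 5) (nat_lit 28) (nat_lit 4)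 (nat_lit 26) (nat_lit 4) (nat_lit 541) (nat_lit 368) (nat_lit 291)))) (XT.nd (nat_lit 156) (nat_lit 152) (nat_lit 0) (XT.nd (nat_lit 78) (nat_lit 76) (nat_lit 0) (XT.lf (nat_lit 0) (nat_lit 27247453177) (nat_lit 152) (nat_lit 580219677) (nat_lit 0) (nat_lit 18983578767) (nat_lit 26) (nat_lit 5) (nat_lit 28) (nat_lit 4) (nat_lit 26) (nat_lit 4) (nat_lit 542) (nat_lit 368) (nat_lit 290)) (XT.lf (nat_lit 0) (nat_lit 20713411172) (nat_lit 76) (nat_lit 17736428758) (nat_lit 76) (nat_lit 9445899446) (nat_lit 25) (nat_lit 4) (nat_lit 26) (nat_lit 5) (nat_lit 26) (nat_lit 4) (nat_lit 543) (nat_lit 368) (nat_lit 289))) (XT.nd (nat_lit 78) (nat_lit 76) (nat_lit 0) (XT.lf (nat_lit 0) (nat_lit 910892429) (nat_lit 152) (nat_lit 6467296227) (nat_lit 76) (nat_lit 41635660203) (nat_lit 24) (nat_lit 5) (nat_lit 26) (nat_lit 5) (nat_lit 25) (nat_lit 4) (nat_lit 544) (nat_lit 368) (nat_lit 288)) (XT.lf (nat_lit 0) (nat_lit 11515892577)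 (nat_lit 152) (nat_lit 35225665607) (nat_lit 0) (nat_lit 3417317178) (nat_lit 23) (nat_lit 5) (nat_lit 25) (nat_lit 4) (nat_lit 23) (nat_lit 4) (nat_lit 545) (nat_lit 368) (nat_lit 287))))))) (XT.nd (nat_lit 56316) (nat_lit 0) (nat_lit 5472) (XT.nd (nat_lit 546) (nat_lit 152) (nat_lit 0) (XT.nd (nat_lit 234) (nat_lit 228) (nat_lit 0) (XT.nd (nat_lit 78) (nat_lit 76) (nat_lit 0) (XT.lf (nat_lit 0) (nat_lit 22528052478) (nat_lit 152) (nat_lit 14401735520) (nat_lit 0) (nat_lit 14405794543) (nat_lit 23) (nat_lit 5) (nat_lit 25) (nat_lit 4) (nat_lit 23) (nat_lit 4) (nat_lit 546) (nat_lit 368) (nat_lit 286)) (XT.nd (nat_lit 78) (nat_lit 0) (nat_lit 0) (XT.lf (nat_lit 0) (nat_lit 7088092466) (nat_lit 76) (nat_lit 26802080724) (nat_lit 76) (nat_lit 18656830035) (nat_lit 22) (nat_lit 4) (nat_lit 23) (nat_lit 5) (nat_lit 23) (nat_lit 4) (nat_lit 547) (nat_lit 368) (nat_lit 285)) (XT.lf (nat_lit 0) (nat_lit 29421654830) (nat_lit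 76) (nat_lit 16268882115) (nat_lit 76) (nat_lit 8101308364) (nat_lit 22) (nat_lit 4) (nat_lit 23) (nat_lit 5) (nat_lit 23) (nat_lit 4) (nat_lit 548) (nat_lit 368) (nat_lit 284)))) (XT.nd (nat_lit 156) (nat_lit 76) (nat_lit 0) (XT.nd (nat_lit 78) (nat_lit 76) (nat_lit 0) (XT.lf (nat_lit 0) (nat_lit 2669696728) (nat_lit 152) (nat_lit 2769762266) (nat_lit 76) (nat_lit 49635188128) (nat_lit 21) (nat_lit 5) (nat_lit 23) (nat_lit 5) (nat_lit 22) (nat_lit 4) (nat_lit 549) (nat_lit 368) (nat_lit 283)) (XT.lf (nat_lit 0) (nat_lit 13801709115) (nat_lit 152) (nat_lit 36755241062) (nat_lit 0) (nat_lit 5830555472) (nat_lit 20) (nat_lit 5) (nat_lit 22) (nat_lit 4) (nat_lit 20) (nat_lit 4) (nat_lit 550) (nat_lit 368) (nat_lit 282))) (XT.nd (nat_lit 78) (nat_lit 76) (nat_lit 0) (XT.lf (nat_lit 0) (nat_lit 25304068078) (nat_lit 152) (nat_lit 15121509727) (nat_lit 0) (nat_lit 17313080684) (nat_lit 20) (nat_lit 5) (nat_lit 22) (nat_lit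 4) (nat_lit 20) (nat_lit 4) (nat_lit 551) (nat_lit 368) (nat_lit 281)) (XT.lf (nat_lit 0) (nat_lit 7213058553) (nat_lit 76) (nat_lit 29963391205) (nat_lit 76) (nat_lit 21953147741) (nat_lit 19) (nat_lit 4) (nat_lit 20) (nat_lit 5) (nat_lit 20) (nat_lit 4) (nat_lit 552) (nat_lit 368) (nat_lit 280))))) (XT.nd (nat_lit 55458) (nat_lit 0) (nat_lit 8208) (XT.nd (nat_lit 156) (nat_lit 76) (nat_lit 0) (XT.nd (nat_lit 78) (nat_lit 76) (nat_lit 0) (XT.lf (nat_lit 0) (nat_lit 30439584103) (nat_lit 76) (nat_lit 19074178303) (nat_lit 76) (nat_lit 11045239626) (nat_lit 19) (nat_lit 4) (nat_lit 20) (nat_lit 5) (nat_lit 20) (nat_lit 4) (nat_lit 553) (nat_lit 368) (nat_lit 279)) (XT.lf (nat_lit 0) (nat_lit 143119164) (nat_lit 152) (nat_lit 7756557464) (nat_lit 76) (nat_lit 54132849861) (nat_lit 18) (nat_lit 5) (nat_lit 20) (nat_lit 5) (nat_lit 19) (nat_lit 4) (nat_lit 554) (nat_lit 368) (nat_lit 278))) (XT.nd (nat_lit 55224) (nat_lit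 0) (nat_lit 8892) (XT.lf (nat_lit 0) (nat_lit 11588031859) (nat_lit 152) (nat_lit 48196442170) (nat_lit 0) (nat_lit 3758214967) (nat_lit 17) (nat_lit 5) (nat_lit 19) (nat_lit 4) (nat_lit 17) (nat_lit 4) (nat_lit 555) (nat_lit 368) (nat_lit 277)) (XT.lf (nat_lit 0) (nat_lit 394713989) (nat_lit 228) (nat_lit 2468558081) (nat_lit 228) (nat_lit 2468558081) (nat_lit 134) (nat_lit 4) (nat_lit 137) (nat_lit 5) (nat_lit 137) (nat_lit 4) (nat_lit 462) (nat_lit 369) (nat_lit 369)))) (XT.nd (nat_lit 156) (nat_lit 456) (nat_lit 0) (XT.nd (nat_lit 78) (nat_lit 152) (nat_lit 0) (XT.lf (nat_lit 0) (nat_lit 221375720) (nat_lit 304) (nat_lit 180635721) (nat_lit 76) (nat_lit 10407677097) (nat_lit 133) (nat_lit 5) (nat_lit 137) (nat_lit 5) (nat_lit 134) (nat_lit 4) (nat_lit 463) (nat_lit 369) (nat_lit 368)) (XT.lf (nat_lit 0) (nat_lit 5457922877) (nat_lit 228) (nat_lit 1247654129) (nat_lit 0) (nat_lit 4252382561) (nat_lit 131) (nat_lit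 5) (nat_lit 134) (nat_lit 4) (nat_lit 131) (nat_lit 4) (nat_lit 464) (nat_lit 369) (nat_lit 367))) (XT.nd (nat_lit 78) (nat_lit 228) (nat_lit 0) (XT.lf (nat_lit 0) (nat_lit 8765429197) (nat_lit 228) (nat_lit 2064011561) (nat_lit 228) (nat_lit 281905979) (nat_lit 128) (nat_lit 4) (nat_lit 131) (nat_lit 5) (nat_lit 131) (nat_lit 4) (nat_lit 465) (nat_lit 369) (nat_lit 366)) (XT.lf (nat_lit 0) (nat_lit 4995369400) (nat_lit 228) (nat_lit 3550740359) (nat_lit 0) (nat_lit 2721701743) (nat_lit 125) (nat_lit 5) (nat_lit 128) (nat_lit 4) (nat_lit 125) (nat_lit 4) (nat_lit 466) (nat_lit 369) (nat_lit 365)))))) (XT.nd (nat_lit 624) (nat_lit 1216) (nat_lit 0) (XT.nd (nat_lit 312) (nat_lit 608) (nat_lit 0) (XT.nd (nat_lit 156) (nat_lit 456) (nat_lit 0) (XT.nd (nat_lit 78) (nat_lit 228) (nat_lit 0) (XT.lf (nat_lit 0) (nat_lit 6613712361) (nat_lit 228) (nat_lit 3808291667) (nat_lit 228) (nat_lit 1006985116) (nat_lit 122) (nat_lit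 4) (nat_lit 125) (nat_lit 5) (nat_lit 125) (nat_lit 4) (nat_lit 467) (nat_lit 369) (nat_lit 364)) (XT.lf (nat_lit 0) (nat_lit 4318549655) (nat_lit 228) (nat_lit 6174049383) (nat_lit 0) (nat_lit 1101484293) (nat_lit 119) (nat_lit 5) (nat_lit 122) (nat_lit 4) (nat_lit 119) (nat_lit 4) (nat_lit 468) (nat_lit 369) (nat_lit 363))) (XT.nd (nat_lit 78) (nat_lit 228) (nat_lit 0) (XT.lf (nat_lit 0) (nat_lit 4136430410) (nat_lit 228) (nat_lit 5663423395) (nat_lit 228) (nat_lit 1963493699) (nat_lit 116) (nat_lit 4) (nat_lit 119) (nat_lit 5) (nat_lit 119) (nat_lit 4) (nat_lit 469) (nat_lit 369) (nat_lit 362)) (XT.lf (nat_lit 0) (nat_lit 2771863206) (nat_lit 152) (nat_lit 647148235) (nat_lit 228) (nat_lit 8518283228) (nat_lit 113) (nat_lit 5) (nat_lit 115) (nat_lit 5) (nat_lit 116) (nat_lit 4) (nat_lit 470) (nat_lit 369) (nat_lit 361)))) (XT.nd (nat_lit 156) (nat_lit 380) (nat_lit 0) (XT.nd (nat_lit 78) (nat_lit 76) (nat_lit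 0) (XT.lf (nat_lit 0) (nat_lit 1290944237) (nat_lit 152) (nat_lit 7656706161) (nat_lit 152) (nat_lit 3167506194) (nat_lit 111) (nat_lit 4) (nat_lit 113) (nat_lit 5) (nat_lit 113) (nat_lit 4) (nat_lit 471) (nat_lit 369) (nat_lit 360)) (XT.lf (nat_lit 0) (nat_lit 2288679343) (nat_lit 228) (nat_lit 272199605) (nat_lit 76) (nat_lit 9737083958) (nat_lit 110) (nat_lit 5) (nat_lit 113) (nat_lit 5) (nat_lit 111) (nat_lit 4) (nat_lit 472) (nat_lit 369) (nat_lit 359))) (XT.nd (nat_lit 78) (nat_lit 228) (nat_lit 0) (XT.lf (nat_lit 0) (nat_lit 7866877686) (nat_lit 228) (nat_lit 1930261301) (nat_lit 0) (nat_lit 2687516822) (nat_lit 108) (nat_lit 5) (nat_lit 111) (nat_lit 4) (nat_lit 108) (nat_lit 4) (nat_lit 473) (nat_lit 369) (nat_lit 358)) (XT.lf (nat_lit 0) (nat_lit 926300139) (nat_lit 228) (nat_lit 3691584470) (nat_lit 76) (nat_lit 8058525459) (nat_lit 105) (nat_lit 5) (nat_lit 108) (nat_lit 5) (nat_lit 106) (nat_lit 4)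 (nat_lit 474) (nat_lit 369) (nat_lit 357))))) (XT.nd (nat_lit 312) (nat_lit 532) (nat_lit 0) (XT.nd (nat_lit 156) (nat_lit 380) (nat_lit 0) (XT.nd (nat_lit 78) (nat_lit 152) (nat_lit 0) (XT.lf (nat_lit 0) (nat_lit 6535785847) (nat_lit 228) (nat_lit 5580977989) (nat_lit 0) (nat_lit 756027286) (nat_lit 103) (nat_lit 5) (nat_lit 106) (nat_lit 4) (nat_lit 103) (nat_lit 4) (nat_lit 475) (nat_lit 369) (nat_lit 356)) (XT.lf (nat_lit 0) (nat_lit 5476087507) (nat_lit 152) (nat_lit 6868550629) (nat_lit 152) (nat_lit 729495655) (nat_lit 101) (nat_lit 4) (nat_lit 103) (nat_lit 5) (nat_lit 103) (nat_lit 4) (nat_lit 476) (nat_lit 369) (nat_lit 355))) (XT.nd (nat_lit 78) (nat_lit 152) (nat_lit 0) (XT.lf (nat_lit 0) (nat_lit 3527885672) (nat_lit 152) (nat_lit 1405992216) (nat_lit 228) (nat_lit 8346602846) (nat_lit 98) (nat_lit 5) (nat_lit 100) (nat_lit 5) (nat_lit 101) (nat_lit 4) (nat_lit 477) (nat_lit 369) (nat_lit 354)) (XT.lf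 (nat_lit 0) (nat_lit 1440449293) (nat_lit 152) (nat_lit 9339626480) (nat_lit 152) (nat_lit 2711900490) (nat_lit 96) (nat_lit 4) (nat_lit 98) (nat_lit 5) (nat_lit 98) (nat_lit 4) (nat_lit 478) (nat_lit 369) (nat_lit 353)))) (XT.nd (nat_lit 156) (nat_lit 304) (nat_lit 0) (XT.nd (nat_lit 78) (nat_lit 152) (nat_lit 0) (XT.lf (nat_lit 0) (nat_lit 3040762268) (nat_lit 228) (nat_lit 774208794) (nat_lit 76) (nat_lit 9893678684) (nat_lit 95) (nat_lit 5) (nat_lit 98) (nat_lit 5) (nat_lit 96) (nat_lit 4) (nat_lit 479) (nat_lit 369) (nat_lit 352)) (XT.lf (nat_lit 0) (nat_lit 8933109766) (nat_lit 228) (nat_lit 3109675017) (nat_lit 0) (nat_lit 1887587007) (nat_lit 93) (nat_lit 5) (nat_lit 96) (nat_lit 4) (nat_lit 93) (nat_lit 4) (nat_lit 480) (nat_lit 369) (nat_lit 351))) (XT.nd (nat_lit 78) (nat_lit 76) (nat_lit 0) (XT.lf (nat_lit 0) (nat_lit 854538948) (nat_lit 228) (nat_lit 5602949556) (nat_lit 76) (nat_lit 7700190351) (nat_lit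 90) (nat_lit 5) (nat_lit 93) (nat_lit 5) (nat_lit 91) (nat_lit 4) (nat_lit 481) (nat_lit 369) (nat_lit 350)) (XT.lf (nat_lit 0) (nat_lit 6124799862) (nat_lit 76) (nat_lit 646675698) (nat_lit 152) (nat_lit 7619146611) (nat_lit 89) (nat_lit 5) (nat_lit 90) (nat_lit 5) (nat_lit 91) (nat_lit 4) (nat_lit 482) (nat_lit 369) (nat_lit 349))))))))
noncomputable def xc35 : XT := (XT.nd (nat_lit 2418) (nat_lit 1976) (nat_lit 0) (XT.nd (nat_lit 1170) (nat_lit 1140) (nat_lit 0) (XT.nd (nat_lit 546) (nat_lit 912) (nat_lit 0) (XT.nd (nat_lit 234) (nat_lit 608) (nat_lit 0) (XT.nd (nat_lit 78) (nat_lit 152) (nat_lit 0) (XT.lf (nat_lit 0) (nat_lit 3519985713) (nat_lit 152) (nat_lit 9387987388) (nat_lit 152) (nat_lit 1721321068) (nat_lit 87) (nat_lit 4) (nat_lit 89) (nat_lit 5) (nat_lit 89) (nat_lit 4) (nat_lit 483) (nat_lit 369) (nat_lit 348)) (XT.nd (nat_lit 78) (nat_lit 0) (nat_lit 0) (XT.lf (nat_lit 0) (nat_lit 734070412) (nat_lit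 76) (nat_lit 3532087275) (nat_lit 152) (nat_lit 10607784963) (nat_lit 85) (nat_lit 5) (nat_lit 86) (nat_lit 5) (nat_lit 87) (nat_lit 4) (nat_lit 484) (nat_lit 369) (nat_lit 347)) (XT.lf (nat_lit 0) (nat_lit 10436198648) (nat_lit 152) (nat_lit 2191929771) (nat_lit 0) (nat_lit 2496166640) (nat_lit 85) (nat_lit 5) (nat_lit 87) (nat_lit 4) (nat_lit 85) (nat_lit 4) (nat_lit 485) (nat_lit 369) (nat_lit 346)))) (XT.nd (nat_lit 156) (nat_lit 304) (nat_lit 0) (XT.nd (nat_lit 78) (nat_lit 76) (nat_lit 0) (XT.lf (nat_lit 0) (nat_lit 1417155420) (nat_lit 228) (nat_lit 5300743759) (nat_lit 76) (nat_lit 8662790053) (nat_lit 82) (nat_lit 5) (nat_lit 85) (nat_lit 5) (nat_lit 83) (nat_lit 4) (nat_lit 486) (nat_lit 369) (nat_lit 345)) (XT.lf (nat_lit 0) (nat_lit 7028983159) (nat_lit 76) (nat_lit 575534632) (nat_lit 152) (nat_lit 8039071210) (nat_lit 81) (nat_lit 5) (nat_lit 82) (nat_lit 5) (nat_lit 83) (nat_lit 4) (nat_lit 487)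 (nat_lit 369) (nat_lit 344))) (XT.nd (nat_lit 78) (nat_lit 152) (nat_lit 0) (XT.lf (nat_lit 0) (nat_lit 3759431431) (nat_lit 152) (nat_lit 10267072678) (nat_lit 152) (nat_lit 1886403159) (nat_lit 79) (nat_lit 4) (nat_lit 81) (nat_lit 5) (nat_lit 81) (nat_lit 4) (nat_lit 488) (nat_lit 369) (nat_lit 343)) (XT.lf (nat_lit 0) (nat_lit 266709688) (nat_lit 76) (nat_lit 4097047938) (nat_lit 152) (nat_lit 11825272496) (nat_lit 77) (nat_lit 5) (nat_lit 78) (nat_lit 5) (nat_lit 79) (nat_lit 4) (nat_lit 489) (nat_lit 369) (nat_lit 342))))) (XT.nd (nat_lit 312) (nat_lit 456) (nat_lit 0) (XT.nd (nat_lit 156) (nat_lit 228) (nat_lit 0) (XT.nd (nat_lit 78) (nat_lit 228) (nat_lit 0) (XT.lf (nat_lit 0) (nat_lit 10813049962) (nat_lit 152) (nat_lit 3385699419) (nat_lit 0) (nat_lit 2272642178) (nat_lit 77) (nat_lit 5) (nat_lit 79) (nat_lit 4) (nat_lit 77) (nat_lit 4) (nat_lit 490) (nat_lit 369) (nat_lit 341)) (XT.lf (nat_lit 0) (nat_lit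 718963613) (nat_lit 228) (nat_lit 7274051175) (nat_lit 76) (nat_lit 8767843383) (nat_lit 74) (nat_lit 5) (nat_lit 77) (nat_lit 5) (nat_lit 75) (nat_lit 4) (nat_lit 491) (nat_lit 369) (nat_lit 340))) (XT.nd (nat_lit 78) (nat_lit 152) (nat_lit 0) (XT.lf (nat_lit 0) (nat_lit 5632695358) (nat_lit 76) (nat_lit 1536642952) (nat_lit 152) (nat_lit 9888126791) (nat_lit 73) (nat_lit 5) (nat_lit 74) (nat_lit 5) (nat_lit 75) (nat_lit 4) (nat_lit 492) (nat_lit 369) (nat_lit 339)) (XT.lf (nat_lit 0) (nat_lit 1516720891) (nat_lit 152) (nat_lit 12341438645) (nat_lit 152) (nat_lit 3503463946) (nat_lit 71) (nat_lit 4) (nat_lit 73) (nat_lit 5) (nat_lit 73) (nat_lit 4) (nat_lit 493) (nat_lit 369) (nat_lit 338)))) (XT.nd (nat_lit 156) (nat_lit 304) (nat_lit 0) (XT.nd (nat_lit 78) (nat_lit 76) (nat_lit 0) (XT.lf (nat_lit 0) (nat_lit 3051626518) (nat_lit 228) (nat_lit 2814774835) (nat_lit 76) (nat_lit 11806454935) (nat_lit 70) (nat_lit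 5) (nat_lit 73) (nat_lit 5) (nat_lit 71) (nat_lit 4) (nat_lit 494) (nat_lit 369) (nat_lit 337)) (XT.lf (nat_lit 0) (nat_lit 9753005432) (nat_lit 152) (nat_lit 7394687341) (nat_lit 0) (nat_lit 844092306) (nat_lit 69) (nat_lit 5) (nat_lit 71) (nat_lit 4) (nat_lit 69) (nat_lit 4) (nat_lit 495) (nat_lit 369) (nat_lit 336))) (XT.nd (nat_lit 78) (nat_lit 152) (nat_lit 0) (XT.lf (nat_lit 0) (nat_lit 6035920714) (nat_lit 152) (nat_lit 10674335251) (nat_lit 152) (nat_lit 1608382015) (nat_lit 67) (nat_lit 4) (nat_lit 69) (nat_lit 5) (nat_lit 69) (nat_lit 4) (nat_lit 496) (nat_lit 369) (nat_lit 335)) (XT.lf (nat_lit 0) (nat_lit 1166625675) (nat_lit 76) (nat_lit 3949160056) (nat_lit 152) (nat_lit 13538104104) (nat_lit 65) (nat_lit 5) (nat_lit 66) (nat_lit 5) (nat_lit 67) (nat_lit 4) (nat_lit 497) (nat_lit 369) (nat_lit 334)))))) (XT.nd (nat_lit 624) (nat_lit 532) (nat_lit 0) (XT.nd (nat_lit 312) (nat_lit 380) (nat_lit 0) (XT.nd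 (nat_lit 156) (nat_lit 152) (nat_lit 0) (XT.nd (nat_lit 78) (nat_lit 76) (nat_lit 0) (XT.lf (nat_lit 0) (nat_lit 12073522882) (nat_lit 152) (nat_lit 3943387320) (nat_lit 0) (nat_lit 2979887226) (nat_lit 65) (nat_lit 5) (nat_lit 67) (nat_lit 4) (nat_lit 65) (nat_lit 4) (nat_lit 498) (nat_lit 369) (nat_lit 333)) (XT.lf (nat_lit 0) (nat_lit 9994416940) (nat_lit 76) (nat_lit 9293648941) (nat_lit 76) (nat_lit 60485182) (nat_lit 64) (nat_lit 4) (nat_lit 65) (nat_lit 5) (nat_lit 65) (nat_lit 4) (nat_lit 499) (nat_lit 369) (nat_lit 332))) (XT.nd (nat_lit 78) (nat_lit 0) (nat_lit 0) (XT.lf (nat_lit 0) (nat_lit 4574636575) (nat_lit 76) (nat_lit 2293966632) (nat_lit 152) (nat_lit 12840318946) (nat_lit 62) (nat_lit 5) (nat_lit 63) (nat_lit 5) (nat_lit 64) (nat_lit 4) (nat_lit 500) (nat_lit 369) (nat_lit 331)) (XT.lf (nat_lit 0) (nat_lit 14060132656) (nat_lit 152) (nat_lit 1181591774) (nat_lit 0) (nat_lit 4836689397) (nat_lit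 62) (nat_lit 5) (nat_lit 64) (nat_lit 4) (nat_lit 62) (nat_lit 4) (nat_lit 501) (nat_lit 369) (nat_lit 330)))) (XT.nd (nat_lit 156) (nat_lit 152) (nat_lit 0) (XT.nd (nat_lit 78) (nat_lit 76) (nat_lit 0) (XT.lf (nat_lit 0) (nat_lit 1055254859) (nat_lit 152) (nat_lit 7205244805) (nat_lit 76) (nat_lit 12196205215) (nat_lit 60) (nat_lit 5) (nat_lit 62) (nat_lit 5) (nat_lit 61) (nat_lit 4) (nat_lit 502) (nat_lit 369) (nat_lit 329)) (XT.lf (nat_lit 0) (nat_lit 7213066757) (nat_lit 76) (nat_lit 1004094373) (nat_lit 152) (nat_lit 12627483016) (nat_lit 59) (nat_lit 5) (nat_lit 60) (nat_lit 5) (nat_lit 61) (nat_lit 4) (nat_lit 503) (nat_lit 369) (nat_lit 328))) (XT.nd (nat_lit 78) (nat_lit 76) (nat_lit 0) (XT.lf (nat_lit 0) (nat_lit 757599768) (nat_lit 76) (nat_lit 14895158401) (nat_lit 76) (nat_lit 5589699247) (nat_lit 58) (nat_lit 4) (nat_lit 59) (nat_lit 5) (nat_lit 59) (nat_lit 4) (nat_lit 504) (nat_lit 369) (nat_lit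 327)) (XT.lf (nat_lit 0) (nat_lit 1691741160) (nat_lit 152) (nat_lit 5981369371) (nat_lit 76) (nat_lit 13976669844) (nat_lit 57) (nat_lit 5) (nat_lit 59) (nat_lit 5) (nat_lit 58) (nat_lit 4) (nat_lit 505) (nat_lit 369) (nat_lit 326))))) (XT.nd (nat_lit 312) (nat_lit 228) (nat_lit 0) (XT.nd (nat_lit 156) (nat_lit 152) (nat_lit 0) (XT.nd (nat_lit 78) (nat_lit 76) (nat_lit 0) (XT.lf (nat_lit 0) (nat_lit 8916725760) (nat_lit 76) (nat_lit 166656682) (nat_lit 152) (nat_lit 12984157884) (nat_lit 56) (nat_lit 5) (nat_lit 57) (nat_lit 5) (nat_lit 58) (nat_lit 4) (nat_lit 506) (nat_lit 369) (nat_lit 325)) (XT.lf (nat_lit 0) (nat_lit 1688714649) (nat_lit 76) (nat_lit 15076524156) (nat_lit 76) (nat_lit 5730541038) (nat_lit 55) (nat_lit 4) (nat_lit 56) (nat_lit 5) (nat_lit 56) (nat_lit 4) (nat_lit 507) (nat_lit 369) (nat_lit 324))) (XT.nd (nat_lit 78) (nat_lit 76) (nat_lit 0) (XT.lf (nat_lit 0) (nat_lit 1761053362) (nat_lit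 152) (nat_lit 5868906997) (nat_lit 76) (nat_lit 15304774827) (nat_lit 54) (nat_lit 5) (nat_lit 56) (nat_lit 5) (nat_lit 55) (nat_lit 4) (nat_lit 508) (nat_lit 369) (nat_lit 323)) (XT.lf (nat_lit 0) (nat_lit 9375520190) (nat_lit 152) (nat_lit 13894744642) (nat_lit 0) (nat_lit 114493810) (nat_lit 53) (nat_lit 5) (nat_lit 55) (nat_lit 4) (nat_lit 53) (nat_lit 4) (nat_lit 509) (nat_lit 369) (nat_lit 322)))) (XT.nd (nat_lit 156) (nat_lit 76) (nat_lit 0) (XT.nd (nat_lit 78) (nat_lit 76) (nat_lit 0) (XT.lf (nat_lit 0) (nat_lit 1379487481) (nat_lit 76) (nat_lit 15908644407) (nat_lit 76) (nat_lit 6558060246) (nat_lit 52) (nat_lit 4) (nat_lit 53) (nat_lit 5) (nat_lit 53) (nat_lit 4) (nat_lit 510) (nat_lit 369) (nat_lit 321)) (XT.lf (nat_lit 0) (nat_lit 1157669049) (nat_lit 152) (nat_lit 7087465291) (nat_lit 76) (nat_lit 16074128723) (nat_lit 51) (nat_lit 5) (nat_lit 53) (nat_lit 5) (nat_lit 52) (nat_lit 4) (nat_lit 511)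 (nat_lit 369) (nat_lit 320))) (XT.nd (nat_lit 78) (nat_lit 0) (nat_lit 0) (XT.lf (nat_lit 0) (nat_lit 8707792787) (nat_lit 76) (nat_lit 272376200) (nat_lit 152) (nat_lit 15824196518) (nat_lit 50) (nat_lit 5) (nat_lit 51) (nat_lit 5) (nat_lit 52) (nat_lit 4) (nat_lit 512) (nat_lit 369) (nat_lit 319)) (XT.lf (nat_lit 0) (nat_lit 17109444037) (nat_lit 152) (nat_lit 407153357) (nat_lit 0) (nat_lit 7785261208) (nat_lit 50) (nat_lit 5) (nat_lit 52) (nat_lit 4) (nat_lit 50) (nat_lit 4) (nat_lit 513) (nat_lit 369) (nat_lit 318))))))) (XT.nd (nat_lit 1248) (nat_lit 836) (nat_lit 0) (XT.nd (nat_lit 624) (nat_lit 532) (nat_lit 0) (XT.nd (nat_lit 312) (nat_lit 304) (nat_lit 0) (XT.nd (nat_lit 156) (nat_lit 76) (nat_lit 0) (XT.nd (nat_lit 78) (nat_lit 152) (nat_lit 0) (XT.lf (nat_lit 0) (nat_lit 15914742083) (nat_lit 76) (nat_lit 9649264429) (nat_lit 76) (nat_lit 247828273) (nat_lit 49) (nat_lit 4) (nat_lit 50) (nat_lit 5)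 (nat_lit 50) (nat_lit 4) (nat_lit 514) (nat_lit 369) (nat_lit 317)) (XT.lf (nat_lit 0) (nat_lit 6298125724) (nat_lit 76) (nat_lit 1472596005) (nat_lit 152) (nat_lit 18564386697) (nat_lit 47) (nat_lit 5) (nat_lit 48) (nat_lit 5) (nat_lit 49) (nat_lit 4) (nat_lit 515) (nat_lit 369) (nat_lit 316))) (XT.nd (nat_lit 78) (nat_lit 76) (nat_lit 0) (XT.lf (nat_lit 0) (nat_lit 16118440856) (nat_lit 152) (nat_lit 3905441989) (nat_lit 0) (nat_lit 6847316527) (nat_lit 47) (nat_lit 5) (nat_lit 49) (nat_lit 4) (nat_lit 47) (nat_lit 4) (nat_lit 516) (nat_lit 369) (nat_lit 315)) (XT.lf (nat_lit 0) (nat_lit 12803366257) (nat_lit 76) (nat_lit 11978899982) (nat_lit 76) (nat_lit 2639137072) (nat_lit 46) (nat_lit 4) (nat_lit 47) (nat_lit 5) (nat_lit 47) (nat_lit 4) (nat_lit 517) (nat_lit 369) (nat_lit 314)))) (XT.nd (nat_lit 156) (nat_lit 152) (nat_lit 0) (XT.nd (nat_lit 78) (nat_lit 0) (nat_lit 0) (XT.lf (nat_lit 0) (nat_lit 1947230377)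 (nat_lit 76) (nat_lit 3645692128) (nat_lit 152) (nat_lit 22393944237) (nat_lit 44) (nat_lit 5) (nat_lit 45) (nat_lit 5) (nat_lit 46) (nat_lit 4) (nat_lit 518) (nat_lit 369) (nat_lit 313)) (XT.lf (nat_lit 0) (nat_lit 14143574564) (nat_lit 152) (nat_lit 9472864716) (nat_lit 0) (nat_lit 4948331113) (nat_lit 44) (nat_lit 5) (nat_lit 46) (nat_lit 4) (nat_lit 44) (nat_lit 4) (nat_lit 519) (nat_lit 369) (nat_lit 312))) (XT.nd (nat_lit 78) (nat_lit 76) (nat_lit 0) (XT.lf (nat_lit 0) (nat_lit 7564506114) (nat_lit 76) (nat_lit 15425281099) (nat_lit 76) (nat_lit 6169053158) (nat_lit 43) (nat_lit 4) (nat_lit 44) (nat_lit 5) (nat_lit 44) (nat_lit 4) (nat_lit 520) (nat_lit 369) (nat_lit 311)) (XT.lf (nat_lit 0) (nat_lit 2312044481) (nat_lit 152) (nat_lit 4621985886) (nat_lit 76) (nat_lit 22835224290) (nat_lit 42) (nat_lit 5) (nat_lit 44) (nat_lit 5) (nat_lit 43) (nat_lit 4) (nat_lit 521) (nat_lit 369) (nat_lit 310))))) (XT.nd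 (nat_lit 312) (nat_lit 228) (nat_lit 0) (XT.nd (nat_lit 156) (nat_lit 228) (nat_lit 0) (XT.nd (nat_lit 78) (nat_lit 0) (nat_lit 0) (XT.lf (nat_lit 0) (nat_lit 10998656935) (nat_lit 152) (nat_lit 17496505556) (nat_lit 0) (nat_lit 1898734687) (nat_lit 41) (nat_lit 5) (nat_lit 43) (nat_lit 4) (nat_lit 41) (nat_lit 4) (nat_lit 522) (nat_lit 369) (nat_lit 309)) (XT.lf (nat_lit 0) (nat_lit 19994019728) (nat_lit 152) (nat_lit 201901535) (nat_lit 0) (nat_lit 10839913550) (nat_lit 41) (nat_lit 5) (nat_lit 43) (nat_lit 4) (nat_lit 41) (nat_lit 4) (nat_lit 523) (nat_lit 369) (nat_lit 308))) (XT.nd (nat_lit 78) (nat_lit 152) (nat_lit 0) (XT.lf (nat_lit 0) (nat_lit 17829355045) (nat_lit 76) (nat_lit 11535608131) (nat_lit 76) (nat_lit 2328896196) (nat_lit 40) (nat_lit 4) (nat_lit 41) (nat_lit 5) (nat_lit 41) (nat_lit 4) (nat_lit 524) (nat_lit 369) (nat_lit 307)) (XT.lf (nat_lit 0) (nat_lit 3916518387) (nat_lit 76) (nat_lit 2573286475)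 (nat_lit 152) (nat_lit 25880681661) (nat_lit 38) (nat_lit 5) (nat_lit 39) (nat_lit 5) (nat_lit 40) (nat_lit 4) (nat_lit 525) (nat_lit 369) (nat_lit 306)))) (XT.nd (nat_lit 156) (nat_lit 152) (nat_lit 0) (XT.nd (nat_lit 78) (nat_lit 76) (nat_lit 0) (XT.lf (nat_lit 0) (nat_lit 15666071245) (nat_lit 152) (nat_lit 10766667187) (nat_lit 0) (nat_lit 6629788277) (nat_lit 38) (nat_lit 5) (nat_lit 40) (nat_lit 4) (nat_lit 38) (nat_lit 4) (nat_lit 526) (nat_lit 369) (nat_lit 305)) (XT.lf (nat_lit 0) (nat_lit 7444647624) (nat_lit 76) (nat_lit 17706351065) (nat_lit 76) (nat_lit 8623328563) (nat_lit 37) (nat_lit 4) (nat_lit 38) (nat_lit 5) (nat_lit 38) (nat_lit 4) (nat_lit 527) (nat_lit 369) (nat_lit 304))) (XT.nd (nat_lit 78) (nat_lit 76) (nat_lit 0) (XT.lf (nat_lit 0) (nat_lit 451091376) (nat_lit 152) (nat_lit 8212685195) (nat_lit 76) (nat_lit 25842201719) (nat_lit 36) (nat_lit 5) (nat_lit 38) (nat_lit 5) (nat_lit 37) (nat_lit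 4) (nat_lit 528) (nat_lit 369) (nat_lit 303)) (XT.lf (nat_lit 0) (nat_lit 9670528088) (nat_lit 152) (nat_lit 24819876714) (nat_lit 0) (nat_lit 765229852) (nat_lit 35) (nat_lit 5) (nat_lit 37) (nat_lit 4) (nat_lit 35) (nat_lit 4) (nat_lit 529) (nat_lit 369) (nat_lit 302)))))) (XT.nd (nat_lit 624) (nat_lit 380) (nat_lit 0) (XT.nd (nat_lit 312) (nat_lit 228) (nat_lit 0) (XT.nd (nat_lit 156) (nat_lit 152) (nat_lit 0) (XT.nd (nat_lit 78) (nat_lit 76) (nat_lit 0) (XT.lf (nat_lit 0) (nat_lit 19274344942) (nat_lit 152) (nat_lit 6422682925) (nat_lit 0) (nat_lit 10327519235) (nat_lit 35) (nat_lit 5) (nat_lit 37) (nat_lit 4) (nat_lit 35) (nat_lit 4) (nat_lit 530) (nat_lit 369) (nat_lit 301)) (XT.lf (nat_lit 0) (nat_lit 12654135538) (nat_lit 76) (nat_lit 16573842140) (nat_lit 76) (nat_lit 7586698501) (nat_lit 34) (nat_lit 4) (nat_lit 35) (nat_lit 5) (nat_lit 35) (nat_lit 4) (nat_lit 531) (nat_lit 369) (nat_lit 300))) (XT.nd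 (nat_lit 78) (nat_lit 76) (nat_lit 0) (XT.lf (nat_lit 0) (nat_lit 1821160781) (nat_lit 152) (nat_lit 5329330876) (nat_lit 76) (nat_lit 30477316237) (nat_lit 33) (nat_lit 5) (nat_lit 35) (nat_lit 5) (nat_lit 34) (nat_lit 4) (nat_lit 532) (nat_lit 369) (nat_lit 299)) (XT.lf (nat_lit 0) (nat_lit 11462742278) (nat_lit 152) (nat_lit 24334758965) (nat_lit 0) (nat_lit 2662459966) (nat_lit 32) (nat_lit 5) (nat_lit 34) (nat_lit 4) (nat_lit 32) (nat_lit 4) (nat_lit 533) (nat_lit 369) (nat_lit 298)))) (XT.nd (nat_lit 156) (nat_lit 152) (nat_lit 0) (XT.nd (nat_lit 78) (nat_lit 76) (nat_lit 0) (XT.lf (nat_lit 0) (nat_lit 21460591123) (nat_lit 152) (nat_lit 5229990815) (nat_lit 0) (nat_lit 12624486851) (nat_lit 32) (nat_lit 5) (nat_lit 34) (nat_lit 4) (nat_lit 32) (nat_lit 4) (nat_lit 534) (nat_lit 369) (nat_lit 297)) (XT.lf (nat_lit 0) (nat_lit 14620783948) (nat_lit 76) (nat_lit 17221702721) (nat_lit 76) (nat_lit 8350819847)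 (nat_lit 31) (nat_lit 4) (nat_lit 32) (nat_lit 5) (nat_lit 32) (nat_lit 4) (nat_lit 535) (nat_lit 369) (nat_lit 296))) (XT.nd (nat_lit 78) (nat_lit 76) (nat_lit 0) (XT.lf (nat_lit 0) (nat_lit 1406811148) (nat_lit 152) (nat_lit 6048821877) (nat_lit 76) (nat_lit 33641936229) (nat_lit 30) (nat_lit 5) (nat_lit 32) (nat_lit 5) (nat_lit 31) (nat_lit 4) (nat_lit 536) (nat_lit 369) (nat_lit 295)) (XT.lf (nat_lit 0) (nat_lit 11397193664) (nat_lit 152) (nat_lit 27905973526) (nat_lit 0) (nat_lit 2720076502) (nat_lit 29) (nat_lit 5) (nat_lit 31) (nat_lit 4) (nat_lit 29) (nat_lit 4) (nat_lit 537) (nat_lit 369) (nat_lit 294))))) (XT.nd (nat_lit 312) (nat_lit 152) (nat_lit 0) (XT.nd (nat_lit 156) (nat_lit 152) (nat_lit 0) (XT.nd (nat_lit 78) (nat_lit 76) (nat_lit 0) (XT.lf (nat_lit 0) (nat_lit 21768060147) (nat_lit 152) (nat_lit 8146162621) (nat_lit 0) (nat_lit 13060042647) (nat_lit 29) (nat_lit 5) (nat_lit 31) (nat_lit 4) (nat_lit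 29) (nat_lit 4) (nat_lit 538) (nat_lit 369) (nat_lit 293)) (XT.lf (nat_lit 0) (nat_lit 12341221900) (nat_lit 76) (nat_lit 20174324562) (nat_lit 76) (nat_lit 11436306733) (nat_lit 28) (nat_lit 4) (nat_lit 29) (nat_lit 5) (nat_lit 29) (nat_lit 4) (nat_lit 539) (nat_lit 369) (nat_lit 292))) (XT.nd (nat_lit 78) (nat_lit 152) (nat_lit 0) (XT.lf (nat_lit 0) (nat_lit 33505213537) (nat_lit 76) (nat_lit 10109904907) (nat_lit 76) (nat_lit 1342760547) (nat_lit 28) (nat_lit 4) (nat_lit 29) (nat_lit 5) (nat_lit 29) (nat_lit 4) (nat_lit 540) (nat_lit 369) (nat_lit 291)) (XT.lf (nat_lit 0) (nat_lit 8918480990) (nat_lit 152) (nat_lit 36692511400) (nat_lit 0) (nat_lit 379235798) (nat_lit 26) (nat_lit 5) (nat_lit 28) (nat_lit 4) (nat_lit 26) (nat_lit 4) (nat_lit 541) (nat_lit 369) (nat_lit 290)))) (XT.nd (nat_lit 156) (nat_lit 76) (nat_lit 0) (XT.nd (nat_lit 78) (nat_lit 76) (nat_lit 0) (XT.lf (nat_lit 0) (nat_lit 19625923823) (nat_lit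 152) (nat_lit 16362241099) (nat_lit 0) (nat_lit 11060023729) (nat_lit 26) (nat_lit 5) (nat_lit 28) (nat_lit 4) (nat_lit 26) (nat_lit 4) (nat_lit 542) (nat_lit 369) (nat_lit 289)) (XT.lf (nat_lit 0) (nat_lit 4567053217) (nat_lit 76) (nat_lit 26081398839) (nat_lit 76) (nat_lit 17489620198) (nat_lit 25) (nat_lit 4) (nat_lit 26) (nat_lit 5) (nat_lit 26) (nat_lit 4) (nat_lit 543) (nat_lit 369) (nat_lit 288))) (XT.nd (nat_lit 78) (nat_lit 76) (nat_lit 0) (XT.lf (nat_lit 0) (nat_lit 26360612944) (nat_lit 76) (nat_lit 15756736131) (nat_lit 76) (nat_lit 7139832688) (nat_lit 25) (nat_lit 4) (nat_lit 26) (nat_lit 5) (nat_lit 26) (nat_lit 4) (nat_lit 544) (nat_lit 369) (nat_lit 287)) (XT.lf (nat_lit 0) (nat_lit 3403184606) (nat_lit 152) (nat_lit 1732831703) (nat_lit 76) (nat_lit 45274290216) (nat_lit 24) (nat_lit 5) (nat_lit 26) (nat_lit 5) (nat_lit 25) (nat_lit 4) (nat_lit 545) (nat_lit 369) (nat_lit 286))))))))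
noncomputable def xc36 : XT := (XT.nd (nat_lit 57486) (nat_lit 0) (nat_lit 2356) (XT.nd (nat_lit 56238) (nat_lit 0) (nat_lit 5396) (XT.nd (nat_lit 546) (nat_lit 76) (nat_lit 0) (XT.nd (nat_lit 234) (nat_lit 152) (nat_lit 0) (XT.nd (nat_lit 78) (nat_lit 76) (nat_lit 0) (XT.lf (nat_lit 0) (nat_lit 14324906357) (nat_lit 152) (nat_lit 31352515182) (nat_lit 0) (nat_lit 5912305394) (nat_lit 23) (nat_lit 5) (nat_lit 25) (nat_lit 4) (nat_lit 23) (nat_lit 4) (nat_lit 546) (nat_lit 369) (nat_lit 285)) (XT.nd (nat_lit 78) (nat_lit 76) (nat_lit 0) (XT.lf (nat_lit 0) (nat_lit 25595677550) (nat_lit 152) (nat_lit 10047457107) (nat_lit 0) (nat_lit 17160753526) (nat_lit 23) (nat_lit 5) (nat_lit 25) (nat_lit 4) (nat_lit 23) (nat_lit 4) (nat_lit 547) (nat_lit 369) (nat_lit 284)) (XT.lf (nat_lit 0) (nat_lit 12040140910) (nat_lit 76) (nat_lit 25234415442) (nat_lit 76) (nat_lit 16777818542) (nat_lit 22) (nat_lit 4) (nat_lit 23) (nat_lit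 5) (nat_lit 23) (nat_lit 4) (nat_lit 548) (nat_lit 369) (nat_lit 283)))) (XT.nd (nat_lit 156) (nat_lit 0) (nat_lit 0) (XT.nd (nat_lit 78) (nat_lit 152) (nat_lit 0) (XT.lf (nat_lit 0) (nat_lit 34905669204) (nat_lit 76) (nat_lit 14454300323) (nat_lit 76) (nat_lit 5976661796) (nat_lit 22) (nat_lit 4) (nat_lit 23) (nat_lit 5) (nat_lit 23) (nat_lit 4) (nat_lit 549) (nat_lit 369) (nat_lit 282)) (XT.lf (nat_lit 0) (nat_lit 1692377429) (nat_lit 76) (nat_lit 3327546077) (nat_lit 152) (nat_lit 51638851553) (nat_lit 20) (nat_lit 5) (nat_lit 21) (nat_lit 5) (nat_lit 22) (nat_lit 4) (nat_lit 550) (nat_lit 369) (nat_lit 281))) (XT.nd (nat_lit 78) (nat_lit 0) (nat_lit 0) (XT.lf (nat_lit 0) (nat_lit 16468431833) (nat_lit 152) (nat_lit 33344486659) (nat_lit 0) (nat_lit 8198624997) (nat_lit 20) (nat_lit 5) (nat_lit 22) (nat_lit 4) (nat_lit 20) (nat_lit 4) (nat_lit 551) (nat_lit 369) (nat_lit 280)) (XT.lf (nat_lit 0) (nat_lit 28250249776)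 (nat_lit 152) (nat_lit 11193201976) (nat_lit 0) (nat_lit 19961747727) (nat_lit 20) (nat_lit 5) (nat_lit 22) (nat_lit 4) (nat_lit 20) (nat_lit 4) (nat_lit 552) (nat_lit 369) (nat_lit 279))))) (XT.nd (nat_lit 55380) (nat_lit 0) (nat_lit 8208) (XT.nd (nat_lit 55224) (nat_lit 0) (nat_lit 8968) (XT.nd (nat_lit 78) (nat_lit 0) (nat_lit 0) (XT.lf (nat_lit 0) (nat_lit 11768443029) (nat_lit 76) (nat_lit 28688368163) (nat_lit 76) (nat_lit 20381715422) (nat_lit 19) (nat_lit 4) (nat_lit 20) (nat_lit 5) (nat_lit 20) (nat_lit 4) (nat_lit 553) (nat_lit 369) (nat_lit 278)) (XT.lf (nat_lit 0) (nat_lit 35565385916) (nat_lit 76) (nat_lit 17535797071) (nat_lit 76) (nat_lit 9211522299) (nat_lit 19) (nat_lit 4) (nat_lit 20) (nat_lit 5) (nat_lit 20) (nat_lit 4) (nat_lit 554) (nat_lit 369) (nat_lit 277))) (XT.nd (nat_lit 78) (nat_lit 304) (nat_lit 0) (XT.lf (nat_lit 0) (nat_lit 1347124431) (nat_lit 228) (nat_lit 1922087514) (nat_lit 228)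 (nat_lit 1922087514) (nat_lit 141) (nat_lit 4) (nat_lit 144) (nat_lit 5) (nat_lit 144) (nat_lit 4) (nat_lit 460) (nat_lit 370) (nat_lit 370)) (XT.lf (nat_lit 0) (nat_lit 1195397626) (nat_lit 304) (nat_lit 8780732102) (nat_lit 0) (nat_lit 546468339) (nat_lit 137) (nat_lit 5) (nat_lit 141) (nat_lit 4) (nat_lit 137) (nat_lit 4) (nat_lit 461) (nat_lit 370) (nat_lit 369)))) (XT.nd (nat_lit 156) (nat_lit 456) (nat_lit 0) (XT.nd (nat_lit 78) (nat_lit 76) (nat_lit 0) (XT.lf (nat_lit 0) (nat_lit 693171336) (nat_lit 228) (nat_lit 5625575385) (nat_lit 228) (nat_lit 4346617664) (nat_lit 134) (nat_lit 4) (nat_lit 137) (nat_lit 5) (nat_lit 137) (nat_lit 4) (nat_lit 462) (nat_lit 370) (nat_lit 368)) (XT.lf (nat_lit 0) (nat_lit 744729530) (nat_lit 304) (nat_lit 378834866) (nat_lit 76) (nat_lit 9689328748) (nat_lit 133) (nat_lit 5) (nat_lit 137) (nat_lit 5) (nat_lit 134) (nat_lit 4) (nat_lit 463) (nat_lit 370) (nat_lit 367))) (XT.nd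 (nat_lit 78) (nat_lit 304) (nat_lit 0) (XT.lf (nat_lit 0) (nat_lit 5917104027) (nat_lit 228) (nat_lit 1541017403) (nat_lit 0) (nat_lit 3504970010) (nat_lit 131) (nat_lit 5) (nat_lit 134) (nat_lit 4) (nat_lit 131) (nat_lit 4) (nat_lit 464) (nat_lit 370) (nat_lit 366)) (XT.lf (nat_lit 0) (nat_lit 110769552) (nat_lit 304) (nat_lit 2747043928) (nat_lit 76) (nat_lit 8260357893) (nat_lit 127) (nat_lit 5) (nat_lit 131) (nat_lit 5) (nat_lit 128) (nat_lit 4) (nat_lit 465) (nat_lit 370) (nat_lit 365)))))) (XT.nd (nat_lit 624) (nat_lit 1368) (nat_lit 0) (XT.nd (nat_lit 312) (nat_lit 608) (nat_lit 0) (XT.nd (nat_lit 156) (nat_lit 456) (nat_lit 0) (XT.nd (nat_lit 78) (nat_lit 228) (nat_lit 0) (XT.lf (nat_lit 0) (nat_lit 5316150000) (nat_lit 228) (nat_lit 4057233215) (nat_lit 0) (nat_lit 1903165357) (nat_lit 125) (nat_lit 5) (nat_lit 128) (nat_lit 4) (nat_lit 125) (nat_lit 4) (nat_lit 466) (nat_lit 370) (nat_lit 364)) (XT.lf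 (nat_lit 0) (nat_lit 6002674356) (nat_lit 228) (nat_lit 4681040609) (nat_lit 228) (nat_lit 755785195) (nat_lit 122) (nat_lit 4) (nat_lit 125) (nat_lit 5) (nat_lit 125) (nat_lit 4) (nat_lit 467) (nat_lit 370) (nat_lit 363))) (XT.nd (nat_lit 78) (nat_lit 228) (nat_lit 0) (XT.lf (nat_lit 0) (nat_lit 4495954016) (nat_lit 228) (nat_lit 6908474355) (nat_lit 0) (nat_lit 202162095) (nat_lit 119) (nat_lit 5) (nat_lit 122) (nat_lit 4) (nat_lit 119) (nat_lit 4) (nat_lit 468) (nat_lit 370) (nat_lit 362)) (XT.lf (nat_lit 0) (nat_lit 3292481493) (nat_lit 228) (nat_lit 6623896744) (nat_lit 228) (nat_lit 1861304499) (nat_lit 116) (nat_lit 4) (nat_lit 119) (nat_lit 5) (nat_lit 119) (nat_lit 4) (nat_lit 469) (nat_lit 370) (nat_lit 361)))) (XT.nd (nat_lit 156) (nat_lit 228) (nat_lit 0) (XT.nd (nat_lit 78) (nat_lit 152) (nat_lit 0) (XT.lf (nat_lit 0) (nat_lit 1800448687) (nat_lit 152) (nat_lit 1656786227) (nat_lit 228) (nat_lit 8496226267)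 (nat_lit 113) (nat_lit 5) (nat_lit 115) (nat_lit 5) (nat_lit 116) (nat_lit 4) (nat_lit 470) (nat_lit 370) (nat_lit 360)) (XT.lf (nat_lit 0) (nat_lit 198294422) (nat_lit 152) (nat_lit 8714995843) (nat_lit 152) (nat_lit 3220211903) (nat_lit 111) (nat_lit 4) (nat_lit 113) (nat_lit 5) (nat_lit 113) (nat_lit 4) (nat_lit 471) (nat_lit 370) (nat_lit 359))) (XT.nd (nat_lit 78) (nat_lit 152) (nat_lit 0) (XT.lf (nat_lit 0) (nat_lit 2184749207) (nat_lit 228) (nat_lit 1476266063) (nat_lit 76) (nat_lit 8656877461) (nat_lit 110) (nat_lit 5) (nat_lit 113) (nat_lit 5) (nat_lit 111) (nat_lit 4) (nat_lit 472) (nat_lit 370) (nat_lit 358)) (XT.lf (nat_lit 0) (nat_lit 7688434745) (nat_lit 228) (nat_lit 3261698808) (nat_lit 0) (nat_lit 1556688887) (nat_lit 108) (nat_lit 5) (nat_lit 111) (nat_lit 4) (nat_lit 108) (nat_lit 4) (nat_lit 473) (nat_lit 370) (nat_lit 357))))) (XT.nd (nat_lit 312) (nat_lit 608) (nat_lit 0) (XT.nd (nat_lit 156)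 (nat_lit 380) (nat_lit 0) (XT.nd (nat_lit 78) (nat_lit 152) (nat_lit 0) (XT.lf (nat_lit 0) (nat_lit 664518315) (nat_lit 228) (nat_lit 5163951241) (nat_lit 76) (nat_lit 6872118941) (nat_lit 105) (nat_lit 5) (nat_lit 108) (nat_lit 5) (nat_lit 106) (nat_lit 4) (nat_lit 474) (nat_lit 370) (nat_lit 356)) (XT.lf (nat_lit 0) (nat_lit 5704768219) (nat_lit 152) (nat_lit 496102197) (nat_lit 228) (nat_lit 6698294446) (nat_lit 103) (nat_lit 5) (nat_lit 105) (nat_lit 5) (nat_lit 106) (nat_lit 4) (nat_lit 475) (nat_lit 370) (nat_lit 355))) (XT.nd (nat_lit 78) (nat_lit 228) (nat_lit 0) (XT.lf (nat_lit 0) (nat_lit 3742197044) (nat_lit 152) (nat_lit 8195907400) (nat_lit 152) (nat_lit 1164552896) (nat_lit 101) (nat_lit 4) (nat_lit 103) (nat_lit 5) (nat_lit 103) (nat_lit 4) (nat_lit 476) (nat_lit 370) (nat_lit 354)) (XT.lf (nat_lit 0) (nat_lit 1641332247) (nat_lit 152) (nat_lit 2797760402) (nat_lit 228) (nat_lit 8872084813) (nat_lit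 98) (nat_lit 5) (nat_lit 100) (nat_lit 5) (nat_lit 101) (nat_lit 4) (nat_lit 477) (nat_lit 370) (nat_lit 353)))) (XT.nd (nat_lit 156) (nat_lit 380) (nat_lit 0) (XT.nd (nat_lit 78) (nat_lit 228) (nat_lit 0) (XT.lf (nat_lit 0) (nat_lit 10208175189) (nat_lit 228) (nat_lit 583232325) (nat_lit 0) (nat_lit 2733580094) (nat_lit 98) (nat_lit 5) (nat_lit 101) (nat_lit 4) (nat_lit 98) (nat_lit 4) (nat_lit 478) (nat_lit 370) (nat_lit 352)) (XT.lf (nat_lit 0) (nat_lit 2392080379) (nat_lit 228) (nat_lit 2928604165) (nat_lit 76) (nat_lit 8422819299) (nat_lit 95) (nat_lit 5) (nat_lit 98) (nat_lit 5) (nat_lit 96) (nat_lit 4) (nat_lit 479) (nat_lit 370) (nat_lit 351))) (XT.nd (nat_lit 78) (nat_lit 228) (nat_lit 0) (XT.lf (nat_lit 0) (nat_lit 8199000151) (nat_lit 228) (nat_lit 5419723868) (nat_lit 0) (nat_lit 349065758) (nat_lit 93) (nat_lit 5) (nat_lit 96) (nat_lit 4) (nat_lit 93) (nat_lit 4) (nat_lit 480) (nat_lit 370) (nat_lit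 350)) (XT.lf (nat_lit 0) (nat_lit 25654848) (nat_lit 228) (nat_lit 8081486957) (nat_lit 76) (nat_lit 6090350879) (nat_lit 90) (nat_lit 5) (nat_lit 93) (nat_lit 5) (nat_lit 91) (nat_lit 4) (nat_lit 481) (nat_lit 370) (nat_lit 349))))))) (XT.nd (nat_lit 1170) (nat_lit 1292) (nat_lit 0) (XT.nd (nat_lit 546) (nat_lit 912) (nat_lit 0) (XT.nd (nat_lit 234) (nat_lit 532) (nat_lit 0) (XT.nd (nat_lit 78) (nat_lit 228) (nat_lit 0) (XT.lf (nat_lit 0) (nat_lit 3505779966) (nat_lit 76) (nat_lit 2363538776) (nat_lit 152) (nat_lit 8563316409) (nat_lit 89) (nat_lit 5) (nat_lit 90) (nat_lit 5) (nat_lit 91) (nat_lit 4) (nat_lit 482) (nat_lit 370) (nat_lit 348)) (XT.nd (nat_lit 78) (nat_lit 76) (nat_lit 0) (XT.lf (nat_lit 0) (nat_lit 731509733) (nat_lit 152) (nat_lit 11183057886) (nat_lit 152) (nat_lit 2759477929) (nat_lit 87) (nat_lit 4) (nat_lit 89) (nat_lit 5) (nat_lit 89) (nat_lit 4) (nat_lit 483) (nat_lit 370) (nat_lit 347))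 (XT.lf (nat_lit 0) (nat_lit 3193336032) (nat_lit 228) (nat_lit 2193111086) (nat_lit 76) (nat_lit 9534194868) (nat_lit 86) (nat_lit 5) (nat_lit 89) (nat_lit 5) (nat_lit 87) (nat_lit 4) (nat_lit 484) (nat_lit 370) (nat_lit 346)))) (XT.nd (nat_lit 156) (nat_lit 228) (nat_lit 0) (XT.nd (nat_lit 78) (nat_lit 228) (nat_lit 0) (XT.lf (nat_lit 0) (nat_lit 9276114368) (nat_lit 152) (nat_lit 5281817995) (nat_lit 0) (nat_lit 615680771) (nat_lit 85) (nat_lit 5) (nat_lit 87) (nat_lit 4) (nat_lit 85) (nat_lit 4) (nat_lit 485) (nat_lit 370) (nat_lit 345)) (XT.lf (nat_lit 0) (nat_lit 153104170) (nat_lit 228) (nat_lit 8580250825) (nat_lit 76) (nat_lit 6699349349) (nat_lit 82) (nat_lit 5) (nat_lit 85) (nat_lit 5) (nat_lit 83) (nat_lit 4) (nat_lit 486) (nat_lit 370) (nat_lit 344))) (XT.nd (nat_lit 78) (nat_lit 152) (nat_lit 0) (XT.lf (nat_lit 0) (nat_lit 3595265498) (nat_lit 76) (nat_lit 2665926341) (nat_lit 152) (nat_lit 9436791302)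 (nat_lit 81) (nat_lit 5) (nat_lit 82) (nat_lit 5) (nat_lit 83) (nat_lit 4) (nat_lit 487) (nat_lit 370) (nat_lit 343)) (XT.lf (nat_lit 0) (nat_lit 133320859) (nat_lit 152) (nat_lit 12448766331) (nat_lit 152) (nat_lit 3388247713) (nat_lit 79) (nat_lit 4) (nat_lit 81) (nat_lit 5) (nat_lit 81) (nat_lit 4) (nat_lit 488) (nat_lit 370) (nat_lit 342))))) (XT.nd (nat_lit 312) (nat_lit 456) (nat_lit 0) (XT.nd (nat_lit 156) (nat_lit 304) (nat_lit 0) (XT.nd (nat_lit 78) (nat_lit 76) (nat_lit 0) (XT.lf (nat_lit 0) (nat_lit 2842575369) (nat_lit 228) (nat_lit 3494992342) (nat_lit 76) (nat_lit 9910783189) (nat_lit 78) (nat_lit 5) (nat_lit 81) (nat_lit 5) (nat_lit 79) (nat_lit 4) (nat_lit 489) (nat_lit 370) (nat_lit 341)) (XT.lf (nat_lit 0) (nat_lit 9189762706) (nat_lit 152) (nat_lit 7342944029) (nat_lit 0) (nat_lit 1069450) (nat_lit 77) (nat_lit 5) (nat_lit 79) (nat_lit 4) (nat_lit 77) (nat_lit 4) (nat_lit 490) (nat_lit 370) (nat_lit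 340))) (XT.nd (nat_lit 78) (nat_lit 152) (nat_lit 0) (XT.lf (nat_lit 0) (nat_lit 5371410392) (nat_lit 152) (nat_lit 10415389771) (nat_lit 152) (nat_lit 1039182412) (nat_lit 75) (nat_lit 4) (nat_lit 77) (nat_lit 5) (nat_lit 77) (nat_lit 4) (nat_lit 491) (nat_lit 370) (nat_lit 339)) (XT.lf (nat_lit 0) (nat_lit 1292450846) (nat_lit 76) (nat_lit 4052726854) (nat_lit 152) (nat_lit 11780300907) (nat_lit 73) (nat_lit 5) (nat_lit 74) (nat_lit 5) (nat_lit 75) (nat_lit 4) (nat_lit 492) (nat_lit 370) (nat_lit 338)))) (XT.nd (nat_lit 156) (nat_lit 228) (nat_lit 0) (XT.nd (nat_lit 78) (nat_lit 228) (nat_lit 0) (XT.lf (nat_lit 0) (nat_lit 11950764919) (nat_lit 152) (nat_lit 2982070726) (nat_lit 0) (nat_lit 2499298984) (nat_lit 73) (nat_lit 5) (nat_lit 75) (nat_lit 4) (nat_lit 73) (nat_lit 4) (nat_lit 493) (nat_lit 370) (nat_lit 337)) (XT.lf (nat_lit 0) (nat_lit 1038372034) (nat_lit 228) (nat_lit 7510174556) (nat_lit 76) (nat_lit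 9197610159) (nat_lit 70) (nat_lit 5) (nat_lit 73) (nat_lit 5) (nat_lit 71) (nat_lit 4) (nat_lit 494) (nat_lit 370) (nat_lit 336))) (XT.nd (nat_lit 78) (nat_lit 152) (nat_lit 0) (XT.lf (nat_lit 0) (nat_lit 5732435936) (nat_lit 76) (nat_lit 1909069992) (nat_lit 152) (nat_lit 10426527531) (nat_lit 69) (nat_lit 5) (nat_lit 70) (nat_lit 5) (nat_lit 71) (nat_lit 4) (nat_lit 495) (nat_lit 370) (nat_lit 335)) (XT.lf (nat_lit 0) (nat_lit 930960681) (nat_lit 152) (nat_lit 13557339001) (nat_lit 152) (nat_lit 3909900934) (nat_lit 67) (nat_lit 4) (nat_lit 69) (nat_lit 5) (nat_lit 69) (nat_lit 4) (nat_lit 496) (nat_lit 370) (nat_lit 334)))))) (XT.nd (nat_lit 624) (nat_lit 684) (nat_lit 0) (XT.nd (nat_lit 312) (nat_lit 304) (nat_lit 0) (XT.nd (nat_lit 156) (nat_lit 152) (nat_lit 0) (XT.nd (nat_lit 78) (nat_lit 76) (nat_lit 0) (XT.lf (nat_lit 0) (nat_lit 2804973222) (nat_lit 228) (nat_lit 4101367790) (nat_lit 76) (nat_lit 11829401824)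 (nat_lit 66) (nat_lit 5) (nat_lit 69) (nat_lit 5) (nat_lit 67) (nat_lit 4) (nat_lit 497) (nat_lit 370) (nat_lit 333)) (XT.lf (nat_lit 0) (nat_lit 9650770474) (nat_lit 152) (nat_lit 9430154958) (nat_lit 0) (nat_lit 1083699) (nat_lit 65) (nat_lit 5) (nat_lit 67) (nat_lit 4) (nat_lit 65) (nat_lit 4) (nat_lit 498) (nat_lit 370) (nat_lit 332))) (XT.nd (nat_lit 78) (nat_lit 76) (nat_lit 0) (XT.lf (nat_lit 0) (nat_lit 4316350778) (nat_lit 76) (nat_lit 12452725277) (nat_lit 76) (nat_lit 2667574324) (nat_lit 64) (nat_lit 4) (nat_lit 65) (nat_lit 5) (nat_lit 65) (nat_lit 4) (nat_lit 499) (nat_lit 370) (nat_lit 331)) (XT.lf (nat_lit 0) (nat_lit 4226795780) (nat_lit 152) (nat_lit 1336274137) (nat_lit 76) (nat_lit 14237271602) (nat_lit 63) (nat_lit 5) (nat_lit 65) (nat_lit 5) (nat_lit 64) (nat_lit 4) (nat_lit 500) (nat_lit 370) (nat_lit 330)))) (XT.nd (nat_lit 156) (nat_lit 152) (nat_lit 0) (XT.nd (nat_lit 78) (nat_lit 76)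 (nat_lit 0) (XT.lf (nat_lit 0) (nat_lit 11332127141) (nat_lit 152) (nat_lit 7259968751) (nat_lit 0) (nat_lit 1580323692) (nat_lit 62) (nat_lit 5) (nat_lit 64) (nat_lit 4) (nat_lit 62) (nat_lit 4) (nat_lit 501) (nat_lit 370) (nat_lit 329)) (XT.lf (nat_lit 0) (nat_lit 6982944080) (nat_lit 76) (nat_lit 11721629873) (nat_lit 76) (nat_lit 1849468257) (nat_lit 61) (nat_lit 4) (nat_lit 62) (nat_lit 5) (nat_lit 62) (nat_lit 4) (nat_lit 502) (nat_lit 370) (nat_lit 328))) (XT.nd (nat_lit 78) (nat_lit 0) (nat_lit 0) (XT.lf (nat_lit 0) (nat_lit 658793285) (nat_lit 76) (nat_lit 4586432079) (nat_lit 152) (nat_lit 15700388943) (nat_lit 59) (nat_lit 5) (nat_lit 60) (nat_lit 5) (nat_lit 61) (nat_lit 4) (nat_lit 503) (nat_lit 370) (nat_lit 327)) (XT.lf (nat_lit 0) (nat_lit 12598871934) (nat_lit 152) (nat_lit 5956359440) (nat_lit 0) (nat_lit 2790655117) (nat_lit 59) (nat_lit 5) (nat_lit 61) (nat_lit 4) (nat_lit 59) (nat_lit 4) (nat_lit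 504) (nat_lit 370) (nat_lit 326))))) (XT.nd (nat_lit 312) (nat_lit 380) (nat_lit 0) (XT.nd (nat_lit 156) (nat_lit 76) (nat_lit 0) (XT.nd (nat_lit 78) (nat_lit 152) (nat_lit 0) (XT.lf (nat_lit 0) (nat_lit 8775392448) (nat_lit 76) (nat_lit 11448207257) (nat_lit 76) (nat_lit 1533053767) (nat_lit 58) (nat_lit 4) (nat_lit 59) (nat_lit 5) (nat_lit 59) (nat_lit 4) (nat_lit 505) (nat_lit 370) (nat_lit 325)) (XT.lf (nat_lit 0) (nat_lit 1714921262) (nat_lit 76) (nat_lit 4065323449) (nat_lit 152) (nat_lit 16397858923) (nat_lit 56) (nat_lit 5) (nat_lit 57) (nat_lit 5) (nat_lit 58) (nat_lit 4) (nat_lit 506) (nat_lit 370) (nat_lit 324))) (XT.nd (nat_lit 78) (nat_lit 76) (nat_lit 0) (XT.lf (nat_lit 0) (nat_lit 13369420701) (nat_lit 152) (nat_lit 5695305402) (nat_lit 0) (nat_lit 3544397814) (nat_lit 56) (nat_lit 5) (nat_lit 58) (nat_lit 4) (nat_lit 56) (nat_lit 4) (nat_lit 507) (nat_lit 370) (nat_lit 323)) (XT.lf (nat_lit 0) (nat_lit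 9510814688) (nat_lit 76) (nat_lit 11730324764) (nat_lit 76) (nat_lit 1810290029) (nat_lit 55) (nat_lit 4) (nat_lit 56) (nat_lit 5) (nat_lit 56) (nat_lit 4) (nat_lit 508) (nat_lit 370) (nat_lit 322)))) (XT.nd (nat_lit 156) (nat_lit 228) (nat_lit 0) (XT.nd (nat_lit 78) (nat_lit 0) (nat_lit 0) (XT.lf (nat_lit 0) (nat_lit 1609071111) (nat_lit 76) (nat_lit 4115732021) (nat_lit 152) (nat_lit 17780613145) (nat_lit 53) (nat_lit 5) (nat_lit 54) (nat_lit 5) (nat_lit 55) (nat_lit 4) (nat_lit 509) (nat_lit 370) (nat_lit 321)) (XT.lf (nat_lit 0) (nat_lit 13546834949) (nat_lit 152) (nat_lit 6683506349) (nat_lit 0) (nat_lit 3739226183) (nat_lit 53) (nat_lit 5) (nat_lit 55) (nat_lit 4) (nat_lit 53) (nat_lit 4) (nat_lit 510) (nat_lit 370) (nat_lit 320))) (XT.nd (nat_lit 78) (nat_lit 152) (nat_lit 0) (XT.lf (nat_lit 0) (nat_lit 8974167633) (nat_lit 76) (nat_lit 12681961859) (nat_lit 76) (nat_lit 2789936296) (nat_lit 52) (nat_lit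 4) (nat_lit 53) (nat_lit 5) (nat_lit 53) (nat_lit 4) (nat_lit 511) (nat_lit 370) (nat_lit 319)) (XT.lf (nat_lit 0) (nat_lit 110508846) (nat_lit 76) (nat_lit 4857221431) (nat_lit 152) (nat_lit 19967821051) (nat_lit 50) (nat_lit 5) (nat_lit 51) (nat_lit 5) (nat_lit 52) (nat_lit 4) (nat_lit 512) (nat_lit 370) (nat_lit 318))))))))
noncomputable def xc37 : XT := (XT.nd (nat_lit 2418) (nat_lit 532) (nat_lit 0) (XT.nd (nat_lit 1170) (nat_lit 912) (nat_lit 0) (XT.nd (nat_lit 546) (nat_lit 456) (nat_lit 0) (XT.nd (nat_lit 234) (nat_lit 304) (nat_lit 0) (XT.nd (nat_lit 78) (nat_lit 152) (nat_lit 0) (XT.lf (nat_lit 0) (nat_lit 13016346854) (nat_lit 152) (nat_lit 9163503320) (nat_lit 0) (nat_lit 3255614285) (nat_lit 50) (nat_lit 5) (nat_lit 52) (nat_lit 4) (nat_lit 50) (nat_lit 4) (nat_lit 513) (nat_lit 370) (nat_lit 317)) (XT.nd (nat_lit 78) (nat_lit 76) (nat_lit 0) (XT.lf (nat_lit 0) (nat_lit 6912876468) (nat_lit 76) (nat_lit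 14435980903) (nat_lit 76) (nat_lit 4600245103) (nat_lit 49) (nat_lit 4) (nat_lit 50) (nat_lit 5) (nat_lit 50) (nat_lit 4) (nat_lit 514) (nat_lit 370) (nat_lit 316)) (XT.lf (nat_lit 0) (nat_lit 3407195639) (nat_lit 152) (nat_lit 2991947321) (nat_lit 76) (nat_lit 20077369770) (nat_lit 48) (nat_lit 5) (nat_lit 50) (nat_lit 5) (nat_lit 49) (nat_lit 4) (nat_lit 515) (nat_lit 370) (nat_lit 315)))) (XT.nd (nat_lit 156) (nat_lit 152) (nat_lit 0) (XT.nd (nat_lit 78) (nat_lit 76) (nat_lit 0) (XT.lf (nat_lit 0) (nat_lit 11642476776) (nat_lit 152) (nat_lit 13419617891) (nat_lit 0) (nat_lit 1953882398) (nat_lit 47) (nat_lit 5) (nat_lit 49) (nat_lit 4) (nat_lit 47) (nat_lit 4) (nat_lit 516) (nat_lit 370) (nat_lit 314)) (XT.lf (nat_lit 0) (nat_lit 3030604739) (nat_lit 76) (nat_lit 17147330643) (nat_lit 76) (nat_lit 7392096866) (nat_lit 46) (nat_lit 4) (nat_lit 47) (nat_lit 5) (nat_lit 47) (nat_lit 4) (nat_lit 517) (nat_lit 370)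 (nat_lit 313))) (XT.nd (nat_lit 78) (nat_lit 76) (nat_lit 0) (XT.lf (nat_lit 0) (nat_lit 879586077) (nat_lit 152) (nat_lit 8034372485) (nat_lit 76) (nat_lit 19224501715) (nat_lit 45) (nat_lit 5) (nat_lit 47) (nat_lit 5) (nat_lit 46) (nat_lit 4) (nat_lit 518) (nat_lit 370) (nat_lit 312)) (XT.lf (nat_lit 0) (nat_lit 8933133922) (nat_lit 76) (nat_lit 335772565) (nat_lit 152) (nat_lit 19452297612) (nat_lit 44) (nat_lit 5) (nat_lit 45) (nat_lit 5) (nat_lit 46) (nat_lit 4) (nat_lit 519) (nat_lit 370) (nat_lit 311))))) (XT.nd (nat_lit 312) (nat_lit 228) (nat_lit 0) (XT.nd (nat_lit 156) (nat_lit 152) (nat_lit 0) (XT.nd (nat_lit 78) (nat_lit 76) (nat_lit 0) (XT.lf (nat_lit 0) (nat_lit 18005808614) (nat_lit 152) (nat_lit 2961043892) (nat_lit 0) (nat_lit 8351701101) (nat_lit 44) (nat_lit 5) (nat_lit 46) (nat_lit 4) (nat_lit 44) (nat_lit 4) (nat_lit 520) (nat_lit 370) (nat_lit 310)) (XT.lf (nat_lit 0) (nat_lit 14520820546)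 (nat_lit 76) (nat_lit 12561140216) (nat_lit 76) (nat_lit 2849548972) (nat_lit 43) (nat_lit 4) (nat_lit 44) (nat_lit 5) (nat_lit 44) (nat_lit 4) (nat_lit 521) (nat_lit 370) (nat_lit 309))) (XT.nd (nat_lit 78) (nat_lit 0) (nat_lit 0) (XT.lf (nat_lit 0) (nat_lit 1875750357) (nat_lit 76) (nat_lit 3859792031) (nat_lit 152) (nat_lit 24826145593) (nat_lit 41) (nat_lit 5) (nat_lit 42) (nat_lit 5) (nat_lit 43) (nat_lit 4) (nat_lit 522) (nat_lit 370) (nat_lit 308)) (XT.lf (nat_lit 0) (nat_lit 14661454274) (nat_lit 152) (nat_lit 11418319836) (nat_lit 0) (nat_lit 5125935224) (nat_lit 41) (nat_lit 5) (nat_lit 43) (nat_lit 4) (nat_lit 41) (nat_lit 4) (nat_lit 523) (nat_lit 370) (nat_lit 307)))) (XT.nd (nat_lit 156) (nat_lit 76) (nat_lit 0) (XT.nd (nat_lit 78) (nat_lit 76) (nat_lit 0) (XT.lf (nat_lit 0) (nat_lit 6326247434) (nat_lit 76) (nat_lit 17564169336) (nat_lit 76) (nat_lit 7977576736) (nat_lit 40) (nat_lit 4) (nat_lit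 41) (nat_lit 5) (nat_lit 41) (nat_lit 4) (nat_lit 524) (nat_lit 370) (nat_lit 306)) (XT.lf (nat_lit 0) (nat_lit 882310962) (nat_lit 152) (nat_lit 7845087317) (nat_lit 76) (nat_lit 23820922694) (nat_lit 39) (nat_lit 5) (nat_lit 41) (nat_lit 5) (nat_lit 40) (nat_lit 4) (nat_lit 525) (nat_lit 370) (nat_lit 305))) (XT.nd (nat_lit 78) (nat_lit 0) (nat_lit 0) (XT.lf (nat_lit 0) (nat_lit 9890382814) (nat_lit 152) (nat_lit 22866894246) (nat_lit 0) (nat_lit 488130104) (nat_lit 38) (nat_lit 5) (nat_lit 40) (nat_lit 4) (nat_lit 38) (nat_lit 4) (nat_lit 526) (nat_lit 370) (nat_lit 304)) (XT.lf (nat_lit 0) (nat_lit 19273297935) (nat_lit 152) (nat_lit 4861303270) (nat_lit 0) (nat_lit 9825667036) (nat_lit 38) (nat_lit 5) (nat_lit 40) (nat_lit 4) (nat_lit 38) (nat_lit 4) (nat_lit 527) (nat_lit 370) (nat_lit 303)))))) (XT.nd (nat_lit 624) (nat_lit 380) (nat_lit 0) (XT.nd (nat_lit 312) (nat_lit 304) (nat_lit 0) (XT.nd (nat_lit 156)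 (nat_lit 76) (nat_lit 0) (XT.nd (nat_lit 78) (nat_lit 76) (nat_lit 0) (XT.lf (nat_lit 0) (nat_lit 13835288593) (nat_lit 76) (nat_lit 15175392428) (nat_lit 76) (nat_lit 5683705036) (nat_lit 37) (nat_lit 4) (nat_lit 38) (nat_lit 5) (nat_lit 38) (nat_lit 4) (nat_lit 528) (nat_lit 370) (nat_lit 302)) (XT.lf (nat_lit 0) (nat_lit 3509199432) (nat_lit 152) (nat_lit 2410785837) (nat_lit 76) (nat_lit 29529819614) (nat_lit 36) (nat_lit 5) (nat_lit 38) (nat_lit 5) (nat_lit 37) (nat_lit 4) (nat_lit 529) (nat_lit 370) (nat_lit 301))) (XT.nd (nat_lit 78) (nat_lit 0) (nat_lit 0) (XT.lf (nat_lit 0) (nat_lit 13002714533) (nat_lit 152) (nat_lit 19513673345) (nat_lit 0) (nat_lit 3705638653) (nat_lit 35) (nat_lit 5) (nat_lit 37) (nat_lit 4) (nat_lit 35) (nat_lit 4) (nat_lit 530) (nat_lit 370) (nat_lit 300)) (XT.lf (nat_lit 0) (nat_lit 22806041894) (nat_lit 152) (nat_lit 740800626) (nat_lit 0) (nat_lit 13469822390) (nat_lit 35) (nat_lit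 5) (nat_lit 37) (nat_lit 4) (nat_lit 35) (nat_lit 4) (nat_lit 531) (nat_lit 370) (nat_lit 299)))) (XT.nd (nat_lit 156) (nat_lit 76) (nat_lit 0) (XT.nd (nat_lit 78) (nat_lit 152) (nat_lit 0) (XT.lf (nat_lit 0) (nat_lit 18850728638) (nat_lit 76) (nat_lit 14177447941) (nat_lit 76) (nat_lit 4803224918) (nat_lit 34) (nat_lit 4) (nat_lit 35) (nat_lit 5) (nat_lit 35) (nat_lit 4) (nat_lit 532) (nat_lit 370) (nat_lit 298)) (XT.lf (nat_lit 0) (nat_lit 219677559) (nat_lit 76) (nat_lit 4524557515) (nat_lit 152) (nat_lit 33926340506) (nat_lit 32) (nat_lit 5) (nat_lit 33) (nat_lit 5) (nat_lit 34) (nat_lit 4) (nat_lit 533) (nat_lit 370) (nat_lit 297))) (XT.nd (nat_lit 78) (nat_lit 76) (nat_lit 0) (XT.lf (nat_lit 0) (nat_lit 14670791754) (nat_lit 152) (nat_lit 19358026508) (nat_lit 0) (nat_lit 5499003790) (nat_lit 32) (nat_lit 5) (nat_lit 34) (nat_lit 4) (nat_lit 32) (nat_lit 4) (nat_lit 534) (nat_lit 370) (nat_lit 296)) (XT.lf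 (nat_lit 0) (nat_lit 156726225) (nat_lit 76) (nat_lit 24729934042) (nat_lit 76) (nat_lit 15524380444) (nat_lit 31) (nat_lit 4) (nat_lit 32) (nat_lit 5) (nat_lit 32) (nat_lit 4) (nat_lit 535) (nat_lit 370) (nat_lit 295))))) (XT.nd (nat_lit 312) (nat_lit 228) (nat_lit 0) (XT.nd (nat_lit 156) (nat_lit 76) (nat_lit 0) (XT.nd (nat_lit 78) (nat_lit 76) (nat_lit 0) (XT.lf (nat_lit 0) (nat_lit 20545646738) (nat_lit 76) (nat_lit 15004603913) (nat_lit 76) (nat_lit 5766268147) (nat_lit 31) (nat_lit 4) (nat_lit 32) (nat_lit 5) (nat_lit 32) (nat_lit 4) (nat_lit 536) (nat_lit 370) (nat_lit 294)) (XT.lf (nat_lit 0) (nat_lit 4147805526) (nat_lit 152) (nat_lit 850117895) (nat_lit 76) (nat_lit 37251597679) (nat_lit 30) (nat_lit 5) (nat_lit 32) (nat_lit 5) (nat_lit 31) (nat_lit 4) (nat_lit 537) (nat_lit 370) (nat_lit 293))) (XT.nd (nat_lit 78) (nat_lit 0) (nat_lit 0) (XT.lf (nat_lit 0) (nat_lit 14436035776) (nat_lit 152) (nat_lit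 23361109158) (nat_lit 0) (nat_lit 5405877085) (nat_lit 29) (nat_lit 5) (nat_lit 31) (nat_lit 4) (nat_lit 29) (nat_lit 4) (nat_lit 538) (nat_lit 370) (nat_lit 292)) (XT.lf (nat_lit 0) (nat_lit 25039477002) (nat_lit 152) (nat_lit 3165262476) (nat_lit 0) (nat_lit 15980191779) (nat_lit 29) (nat_lit 5) (nat_lit 31) (nat_lit 4) (nat_lit 29) (nat_lit 4) (nat_lit 539) (nat_lit 370) (nat_lit 291)))) (XT.nd (nat_lit 156) (nat_lit 76) (nat_lit 0) (XT.nd (nat_lit 78) (nat_lit 76) (nat_lit 0) (XT.lf (nat_lit 0) (nat_lit 17885515296) (nat_lit 76) (nat_lit 18197345458) (nat_lit 76) (nat_lit 9109782048) (nat_lit 28) (nat_lit 4) (nat_lit 29) (nat_lit 5) (nat_lit 29) (nat_lit 4) (nat_lit 540) (nat_lit 370) (nat_lit 290)) (XT.lf (nat_lit 0) (nat_lit 1185226449) (nat_lit 152) (nat_lit 6709008268) (nat_lit 76) (nat_lit 38336531088) (nat_lit 27) (nat_lit 5) (nat_lit 29) (nat_lit 5) (nat_lit 28) (nat_lit 4) (nat_lit 541) (nat_lit 370)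 (nat_lit 289))) (XT.nd (nat_lit 78) (nat_lit 0) (nat_lit 0) (XT.lf (nat_lit 0) (nat_lit 11725709395) (nat_lit 152) (nat_lit 32717726915) (nat_lit 0) (nat_lit 2850298848) (nat_lit 26) (nat_lit 5) (nat_lit 28) (nat_lit 4) (nat_lit 26) (nat_lit 4) (nat_lit 542) (nat_lit 370) (nat_lit 288)) (XT.lf (nat_lit 0) (nat_lit 22680404427) (nat_lit 152) (nat_lit 11925380344) (nat_lit 0) (nat_lit 13779869077) (nat_lit 26) (nat_lit 5) (nat_lit 28) (nat_lit 4) (nat_lit 26) (nat_lit 4) (nat_lit 543) (nat_lit 370) (nat_lit 287))))))) (XT.nd (nat_lit 56160) (nat_lit 0) (nat_lit 6004) (XT.nd (nat_lit 624) (nat_lit 76) (nat_lit 0) (XT.nd (nat_lit 312) (nat_lit 228) (nat_lit 0) (XT.nd (nat_lit 156) (nat_lit 152) (nat_lit 0) (XT.nd (nat_lit 78) (nat_lit 0) (nat_lit 0) (XT.lf (nat_lit 0) (nat_lit 9583481743) (nat_lit 76) (nat_lit 24425214116) (nat_lit 76) (nat_lit 15500285754) (nat_lit 25) (nat_lit 4) (nat_lit 26) (nat_lit 5) (nat_lit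 26) (nat_lit 4) (nat_lit 544) (nat_lit 370) (nat_lit 286)) (XT.lf (nat_lit 0) (nat_lit 31888729322) (nat_lit 76) (nat_lit 13861839489) (nat_lit 76) (nat_lit 4913228591) (nat_lit 25) (nat_lit 4) (nat_lit 26) (nat_lit 5) (nat_lit 26) (nat_lit 4) (nat_lit 545) (nat_lit 370) (nat_lit 285))) (XT.nd (nat_lit 78) (nat_lit 0) (nat_lit 0) (XT.lf (nat_lit 0) (nat_lit 2917686213) (nat_lit 76) (nat_lit 2939106823) (nat_lit 152) (nat_lit 45995268969) (nat_lit 23) (nat_lit 5) (nat_lit 24) (nat_lit 5) (nat_lit 25) (nat_lit 4) (nat_lit 546) (nat_lit 370) (nat_lit 284)) (XT.lf (nat_lit 0) (nat_lit 17076773448) (nat_lit 152) (nat_lit 27646167842) (nat_lit 0) (nat_lit 8344805766) (nat_lit 23) (nat_lit 5) (nat_lit 25) (nat_lit 4) (nat_lit 23) (nat_lit 4) (nat_lit 547) (nat_lit 370) (nat_lit 283)))) (XT.nd (nat_lit 156) (nat_lit 152) (nat_lit 0) (XT.nd (nat_lit 78) (nat_lit 76) (nat_lit 0) (XT.lf (nat_lit 0) (nat_lit 28618033217) (nat_lit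 152) (nat_lit 5837305291) (nat_lit 0) (nat_lit 19865023908) (nat_lit 23) (nat_lit 5) (nat_lit 25) (nat_lit 4) (nat_lit 23) (nat_lit 4) (nat_lit 548) (nat_lit 370) (nat_lit 282)) (XT.lf (nat_lit 0) (nat_lit 16868689534) (nat_lit 76) (nat_lit 23755867075) (nat_lit 76) (nat_lit 14982429003) (nat_lit 22) (nat_lit 4) (nat_lit 23) (nat_lit 5) (nat_lit 23) (nat_lit 4) (nat_lit 549) (nat_lit 370) (nat_lit 281))) (XT.nd (nat_lit 78) (nat_lit 152) (nat_lit 0) (XT.lf (nat_lit 0) (nat_lit 40290066849) (nat_lit 76) (nat_lit 12717462507) (nat_lit 76) (nat_lit 3924190683) (nat_lit 22) (nat_lit 4) (nat_lit 23) (nat_lit 5) (nat_lit 23) (nat_lit 4) (nat_lit 550) (nat_lit 370) (nat_lit 280)) (XT.lf (nat_lit 0) (nat_lit 6080984527) (nat_lit 76) (nat_lit 1255721098) (nat_lit 152) (nat_lit 50956840178) (nat_lit 20) (nat_lit 5) (nat_lit 21) (nat_lit 5) (nat_lit 22) (nat_lit 4) (nat_lit 551) (nat_lit 370) (nat_lit 279))))) (XT.nd (nat_lit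 55224) (nat_lit 0) (nat_lit 8740) (XT.nd (nat_lit 156) (nat_lit 76) (nat_lit 0) (XT.nd (nat_lit 78) (nat_lit 0) (nat_lit 0) (XT.lf (nat_lit 0) (nat_lit 19085843677) (nat_lit 152) (nat_lit 30090497917) (nat_lit 0) (nat_lit 10511840661) (nat_lit 20) (nat_lit 5) (nat_lit 22) (nat_lit 4) (nat_lit 20) (nat_lit 4) (nat_lit 552) (nat_lit 370) (nat_lit 278)) (XT.lf (nat_lit 0) (nat_lit 31159270753) (nat_lit 152) (nat_lit 7398587024) (nat_lit 0) (nat_lit 22567645707) (nat_lit 20) (nat_lit 5) (nat_lit 22) (nat_lit 4) (nat_lit 20) (nat_lit 4) (nat_lit 553) (nat_lit 370) (nat_lit 277))) (XT.nd (nat_lit 54990) (nat_lit 0) (nat_lit 9804) (XT.lf (nat_lit 0) (nat_lit 16211413106) (nat_lit 76) (nat_lit 27499886605) (nat_lit 76) (nat_lit 18891152791) (nat_lit 19) (nat_lit 4) (nat_lit 20) (nat_lit 5) (nat_lit 20) (nat_lit 4) (nat_lit 554) (nat_lit 370) (nat_lit 276)) (XT.lf (nat_lit 0) (nat_lit 2278229839) (nat_lit 228) (nat_lit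 1389151840) (nat_lit 228) (nat_lit 1389151840) (nat_lit 148) (nat_lit 4) (nat_lit 151) (nat_lit 5) (nat_lit 151) (nat_lit 4) (nat_lit 458) (nat_lit 371) (nat_lit 371)))) (XT.nd (nat_lit 156) (nat_lit 532) (nat_lit 0) (XT.nd (nat_lit 78) (nat_lit 228) (nat_lit 0) (XT.lf (nat_lit 0) (nat_lit 2151411659) (nat_lit 304) (nat_lit 6632665952) (nat_lit 0) (nat_lit 1462962579) (nat_lit 144) (nat_lit 5) (nat_lit 148) (nat_lit 4) (nat_lit 144) (nat_lit 4) (nat_lit 459) (nat_lit 371) (nat_lit 370)) (XT.lf (nat_lit 0) (nat_lit 2601373173) (nat_lit 228) (nat_lit 4569871629) (nat_lit 228) (nat_lit 3213025383) (nat_lit 141) (nat_lit 4) (nat_lit 144) (nat_lit 5) (nat_lit 144) (nat_lit 4) (nat_lit 460) (nat_lit 371) (nat_lit 369))) (XT.nd (nat_lit 78) (nat_lit 228) (nat_lit 0) (XT.lf (nat_lit 0) (nat_lit 1551693231) (nat_lit 228) (nat_lit 200754435) (nat_lit 304) (nat_lit 8773495446) (nat_lit 137) (nat_lit 5) (nat_lit 140) (nat_lit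 5) (nat_lit 141) (nat_lit 4) (nat_lit 461) (nat_lit 371) (nat_lit 368)) (XT.lf (nat_lit 0) (nat_lit 404317303) (nat_lit 228) (nat_lit 6412596899) (nat_lit 228) (nat_lit 3853563921) (nat_lit 134) (nat_lit 4) (nat_lit 137) (nat_lit 5) (nat_lit 137) (nat_lit 4) (nat_lit 462) (nat_lit 371) (nat_lit 367)))))) (XT.nd (nat_lit 624) (nat_lit 1140) (nat_lit 0) (XT.nd (nat_lit 312) (nat_lit 912) (nat_lit 0) (XT.nd (nat_lit 156) (nat_lit 456) (nat_lit 0) (XT.nd (nat_lit 78) (nat_lit 152) (nat_lit 0) (XT.lf (nat_lit 0) (nat_lit 1174160139) (nat_lit 304) (nat_lit 769350119) (nat_lit 76) (nat_lit 8875976582) (nat_lit 133) (nat_lit 5) (nat_lit 137) (nat_lit 5) (nat_lit 134) (nat_lit 4) (nat_lit 463) (nat_lit 371) (nat_lit 366)) (XT.lf (nat_lit 0) (nat_lit 6281121974) (nat_lit 228) (nat_lit 2030241003) (nat_lit 0) (nat_lit 2660286567) (nat_lit 131) (nat_lit 5) (nat_lit 134) (nat_lit 4) (nat_lit 131) (nat_lit 4) (nat_lit 464) (nat_lit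 371) (nat_lit 365))) (XT.nd (nat_lit 78) (nat_lit 152) (nat_lit 0) (XT.lf (nat_lit 0) (nat_lit 400944419) (nat_lit 304) (nat_lit 3350386297) (nat_lit 76) (nat_lit 7377048625) (nat_lit 127) (nat_lit 5) (nat_lit 131) (nat_lit 5) (nat_lit 128) (nat_lit 4) (nat_lit 465) (nat_lit 371) (nat_lit 364)) (XT.lf (nat_lit 0) (nat_lit 5538566153) (nat_lit 228) (nat_lit 4766942699) (nat_lit 0) (nat_lit 983282305) (nat_lit 125) (nat_lit 5) (nat_lit 128) (nat_lit 4) (nat_lit 125) (nat_lit 4) (nat_lit 466) (nat_lit 371) (nat_lit 363)))) (XT.nd (nat_lit 156) (nat_lit 456) (nat_lit 0) (XT.nd (nat_lit 78) (nat_lit 228) (nat_lit 0) (XT.lf (nat_lit 0) (nat_lit 5187126720) (nat_lit 228) (nat_lit 5659518261) (nat_lit 228) (nat_lit 606884149) (nat_lit 122) (nat_lit 4) (nat_lit 125) (nat_lit 5) (nat_lit 125) (nat_lit 4) (nat_lit 467) (nat_lit 371) (nat_lit 362)) (XT.lf (nat_lit 0) (nat_lit 3760749361) (nat_lit 152) (nat_lit 818683055) (nat_lit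 228) (nat_lit 7043021289) (nat_lit 119) (nat_lit 5) (nat_lit 121) (nat_lit 5) (nat_lit 122) (nat_lit 4) (nat_lit 468) (nat_lit 371) (nat_lit 361))) (XT.nd (nat_lit 78) (nat_lit 228) (nat_lit 0) (XT.lf (nat_lit 0) (nat_lit 2236163508) (nat_lit 228) (nat_lit 7694439010) (nat_lit 228) (nat_lit 1865022729) (nat_lit 116) (nat_lit 4) (nat_lit 119) (nat_lit 5) (nat_lit 119) (nat_lit 4) (nat_lit 469) (nat_lit 371) (nat_lit 360)) (XT.lf (nat_lit 0) (nat_lit 612566134) (nat_lit 152) (nat_lit 2778503660) (nat_lit 228) (nat_lit 8582212108) (nat_lit 113) (nat_lit 5) (nat_lit 115) (nat_lit 5) (nat_lit 116) (nat_lit 4) (nat_lit 470) (nat_lit 371) (nat_lit 359))))) (XT.nd (nat_lit 312) (nat_lit 532) (nat_lit 0) (XT.nd (nat_lit 156) (nat_lit 380) (nat_lit 0) (XT.nd (nat_lit 78) (nat_lit 228) (nat_lit 0) (XT.lf (nat_lit 0) (nat_lit 8783586741) (nat_lit 228) (nat_lit 1093226247) (nat_lit 0) (nat_lit 2278417561) (nat_lit 113) (nat_lit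 5) (nat_lit 116) (nat_lit 4) (nat_lit 113) (nat_lit 4) (nat_lit 471) (nat_lit 371) (nat_lit 358)) (XT.lf (nat_lit 0) (nat_lit 1974717286) (nat_lit 228) (nat_lit 2900884366) (nat_lit 76) (nat_lit 7465911202) (nat_lit 110) (nat_lit 5) (nat_lit 113) (nat_lit 5) (nat_lit 111) (nat_lit 4) (nat_lit 472) (nat_lit 371) (nat_lit 357))) (XT.nd (nat_lit 78) (nat_lit 228) (nat_lit 0) (XT.lf (nat_lit 0) (nat_lit 7402121207) (nat_lit 228) (nat_lit 4817978667) (nat_lit 0) (nat_lit 312632518) (nat_lit 108) (nat_lit 5) (nat_lit 111) (nat_lit 4) (nat_lit 108) (nat_lit 4) (nat_lit 473) (nat_lit 371) (nat_lit 356)) (XT.lf (nat_lit 0) (nat_lit 292586176) (nat_lit 228) (nat_lit 6865614054) (nat_lit 76) (nat_lit 5570363597) (nat_lit 105) (nat_lit 5) (nat_lit 108) (nat_lit 5) (nat_lit 106) (nat_lit 4) (nat_lit 474) (nat_lit 371) (nat_lit 355)))) (XT.nd (nat_lit 156) (nat_lit 228) (nat_lit 0) (XT.nd (nat_lit 78) (nat_lit 152) (nat_lit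 0) (XT.lf (nat_lit 0) (nat_lit 3878938445) (nat_lit 152) (nat_lit 1883524042) (nat_lit 228) (nat_lit 7166673241) (nat_lit 103) (nat_lit 5) (nat_lit 105) (nat_lit 5) (nat_lit 106) (nat_lit 4) (nat_lit 475) (nat_lit 371) (nat_lit 354)) (XT.lf (nat_lit 0) (nat_lit 1772554447) (nat_lit 152) (nat_lit 9646151322) (nat_lit 152) (nat_lit 1716353387) (nat_lit 101) (nat_lit 4) (nat_lit 103) (nat_lit 5) (nat_lit 103) (nat_lit 4) (nat_lit 476) (nat_lit 371) (nat_lit 353))) (XT.nd (nat_lit 78) (nat_lit 152) (nat_lit 0) (XT.lf (nat_lit 0) (nat_lit 3833658182) (nat_lit 228) (nat_lit 476278940) (nat_lit 76) (nat_lit 9035734487) (nat_lit 100) (nat_lit 5) (nat_lit 103) (nat_lit 5) (nat_lit 101) (nat_lit 4) (nat_lit 477) (nat_lit 371) (nat_lit 352)) (XT.lf (nat_lit 0) (nat_lit 9535051897) (nat_lit 228) (nat_lit 2819405144) (nat_lit 0) (nat_lit 1207056500) (nat_lit 98) (nat_lit 5) (nat_lit 101) (nat_lit 4) (nat_lit 98) (nat_lit 4)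 (nat_lit 478) (nat_lit 371) (nat_lit 351))))))))
noncomputable def xc38 : XT := (XT.nd (nat_lit 2418) (nat_lit 1976) (nat_lit 0) (XT.nd (nat_lit 1170) (nat_lit 1444) (nat_lit 0) (XT.nd (nat_lit 546) (nat_lit 912) (nat_lit 0) (XT.nd (nat_lit 234) (nat_lit 456) (nat_lit 0) (XT.nd (nat_lit 78) (nat_lit 304) (nat_lit 0) (XT.lf (nat_lit 0) (nat_lit 1625789717) (nat_lit 228) (nat_lit 5328547359) (nat_lit 76) (nat_lit 6828013084) (nat_lit 95) (nat_lit 5) (nat_lit 98) (nat_lit 5) (nat_lit 96) (nat_lit 4) (nat_lit 479) (nat_lit 371) (nat_lit 350)) (XT.nd (nat_lit 78) (nat_lit 152) (nat_lit 0) (XT.lf (nat_lit 0) (nat_lit 6015636592) (nat_lit 152) (nat_lit 1342332837) (nat_lit 228) (nat_lit 6650909894) (nat_lit 93) (nat_lit 5) (nat_lit 95) (nat_lit 5) (nat_lit 96) (nat_lit 4) (nat_lit 480) (nat_lit 371) (nat_lit 349)) (XT.lf (nat_lit 0) (nat_lit 3416270193) (nat_lit 152) (nat_lit 9880732758) (nat_lit 152) (nat_lit 944156782)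 (nat_lit 91) (nat_lit 4) (nat_lit 93) (nat_lit 5) (nat_lit 93) (nat_lit 4) (nat_lit 481) (nat_lit 371) (nat_lit 348)))) (XT.nd (nat_lit 156) (nat_lit 304) (nat_lit 0) (XT.nd (nat_lit 78) (nat_lit 0) (nat_lit 0) (XT.lf (nat_lit 0) (nat_lit 628534983) (nat_lit 76) (nat_lit 4215041979) (nat_lit 152) (nat_lit 9635229074) (nat_lit 89) (nat_lit 5) (nat_lit 90) (nat_lit 5) (nat_lit 91) (nat_lit 4) (nat_lit 482) (nat_lit 371) (nat_lit 347)) (XT.lf (nat_lit 0) (nat_lit 10817452078) (nat_lit 152) (nat_lit 2275308405) (nat_lit 0) (nat_lit 1629598075) (nat_lit 89) (nat_lit 5) (nat_lit 91) (nat_lit 4) (nat_lit 89) (nat_lit 4) (nat_lit 483) (nat_lit 371) (nat_lit 346))) (XT.nd (nat_lit 78) (nat_lit 76) (nat_lit 0) (XT.lf (nat_lit 0) (nat_lit 2001258646) (nat_lit 228) (nat_lit 5369962325) (nat_lit 76) (nat_lit 7600135210) (nat_lit 86) (nat_lit 5) (nat_lit 89) (nat_lit 5) (nat_lit 87) (nat_lit 4) (nat_lit 484) (nat_lit 371) (nat_lit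 345)) (XT.lf (nat_lit 0) (nat_lit 6571789230) (nat_lit 76) (nat_lit 1429119076) (nat_lit 152) (nat_lit 7225913719) (nat_lit 85) (nat_lit 5) (nat_lit 86) (nat_lit 5) (nat_lit 87) (nat_lit 4) (nat_lit 485) (nat_lit 371) (nat_lit 344))))) (XT.nd (nat_lit 312) (nat_lit 380) (nat_lit 0) (XT.nd (nat_lit 156) (nat_lit 304) (nat_lit 0) (XT.nd (nat_lit 78) (nat_lit 76) (nat_lit 0) (XT.lf (nat_lit 0) (nat_lit 3341377363) (nat_lit 152) (nat_lit 10879830262) (nat_lit 152) (nat_lit 1267526060) (nat_lit 83) (nat_lit 4) (nat_lit 85) (nat_lit 5) (nat_lit 85) (nat_lit 4) (nat_lit 486) (nat_lit 371) (nat_lit 343)) (XT.lf (nat_lit 0) (nat_lit 4785815612) (nat_lit 228) (nat_lit 114478746) (nat_lit 76) (nat_lit 10856468815) (nat_lit 82) (nat_lit 5) (nat_lit 85) (nat_lit 5) (nat_lit 83) (nat_lit 4) (nat_lit 487) (nat_lit 371) (nat_lit 342))) (XT.nd (nat_lit 78) (nat_lit 228) (nat_lit 0) (XT.lf (nat_lit 0) (nat_lit 11038021281) (nat_lit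 152) (nat_lit 3703418480) (nat_lit 0) (nat_lit 1289736606) (nat_lit 81) (nat_lit 5) (nat_lit 83) (nat_lit 4) (nat_lit 81) (nat_lit 4) (nat_lit 488) (nat_lit 371) (nat_lit 341)) (XT.lf (nat_lit 0) (nat_lit 1187579830) (nat_lit 228) (nat_lit 7536431330) (nat_lit 76) (nat_lit 7588086894) (nat_lit 78) (nat_lit 5) (nat_lit 81) (nat_lit 5) (nat_lit 79) (nat_lit 4) (nat_lit 489) (nat_lit 371) (nat_lit 340)))) (XT.nd (nat_lit 156) (nat_lit 152) (nat_lit 0) (XT.nd (nat_lit 78) (nat_lit 152) (nat_lit 0) (XT.lf (nat_lit 0) (nat_lit 4984952784) (nat_lit 76) (nat_lit 2465939184) (nat_lit 152) (nat_lit 9149148307) (nat_lit 77) (nat_lit 5) (nat_lit 78) (nat_lit 5) (nat_lit 79) (nat_lit 4) (nat_lit 490) (nat_lit 371) (nat_lit 339)) (XT.lf (nat_lit 0) (nat_lit 954287518) (nat_lit 152) (nat_lit 12984152352) (nat_lit 152) (nat_lit 2957092141) (nat_lit 75) (nat_lit 4) (nat_lit 77) (nat_lit 5) (nat_lit 77) (nat_lit 4) (nat_lit 491)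 (nat_lit 371) (nat_lit 338))) (XT.nd (nat_lit 78) (nat_lit 76) (nat_lit 0) (XT.lf (nat_lit 0) (nat_lit 3408995983) (nat_lit 228) (nat_lit 3283548390) (nat_lit 76) (nat_lit 10504708294) (nat_lit 74) (nat_lit 5) (nat_lit 77) (nat_lit 5) (nat_lit 75) (nat_lit 4) (nat_lit 492) (nat_lit 371) (nat_lit 337)) (XT.lf (nat_lit 0) (nat_lit 9752220199) (nat_lit 76) (nat_lit 162869654) (nat_lit 152) (nat_lit 7591804239) (nat_lit 73) (nat_lit 5) (nat_lit 74) (nat_lit 5) (nat_lit 75) (nat_lit 4) (nat_lit 493) (nat_lit 371) (nat_lit 336)))))) (XT.nd (nat_lit 624) (nat_lit 608) (nat_lit 0) (XT.nd (nat_lit 312) (nat_lit 304) (nat_lit 0) (XT.nd (nat_lit 156) (nat_lit 228) (nat_lit 0) (XT.nd (nat_lit 78) (nat_lit 152) (nat_lit 0) (XT.lf (nat_lit 0) (nat_lit 5298643643) (nat_lit 152) (nat_lit 11380138443) (nat_lit 152) (nat_lit 1145171398) (nat_lit 71) (nat_lit 4) (nat_lit 73) (nat_lit 5) (nat_lit 73) (nat_lit 4) (nat_lit 494) (nat_lit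 371) (nat_lit 335)) (XT.lf (nat_lit 0) (nat_lit 546835148) (nat_lit 76) (nat_lit 4841757119) (nat_lit 152) (nat_lit 12760320221) (nat_lit 69) (nat_lit 5) (nat_lit 70) (nat_lit 5) (nat_lit 71) (nat_lit 4) (nat_lit 495) (nat_lit 371) (nat_lit 334))) (XT.nd (nat_lit 78) (nat_lit 228) (nat_lit 0) (XT.lf (nat_lit 0) (nat_lit 12156466049) (nat_lit 152) (nat_lit 4405868381) (nat_lit 0) (nat_lit 1919113350) (nat_lit 69) (nat_lit 5) (nat_lit 71) (nat_lit 4) (nat_lit 69) (nat_lit 4) (nat_lit 496) (nat_lit 371) (nat_lit 333)) (XT.lf (nat_lit 0) (nat_lit 351658837) (nat_lit 228) (nat_lit 9667199204) (nat_lit 76) (nat_lit 8803389735) (nat_lit 66) (nat_lit 5) (nat_lit 69) (nat_lit 5) (nat_lit 67) (nat_lit 4) (nat_lit 497) (nat_lit 371) (nat_lit 332)))) (XT.nd (nat_lit 156) (nat_lit 228) (nat_lit 0) (XT.nd (nat_lit 78) (nat_lit 0) (nat_lit 0) (XT.lf (nat_lit 0) (nat_lit 3895634313) (nat_lit 76) (nat_lit 3205956357) (nat_lit 152)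 (nat_lit 12069799855) (nat_lit 65) (nat_lit 5) (nat_lit 66) (nat_lit 5) (nat_lit 67) (nat_lit 4) (nat_lit 498) (nat_lit 371) (nat_lit 331)) (XT.lf (nat_lit 0) (nat_lit 14107144154) (nat_lit 152) (nat_lit 1660814783) (nat_lit 0) (nat_lit 3761455875) (nat_lit 65) (nat_lit 5) (nat_lit 67) (nat_lit 4) (nat_lit 65) (nat_lit 4) (nat_lit 499) (nat_lit 371) (nat_lit 330))) (XT.nd (nat_lit 78) (nat_lit 76) (nat_lit 0) (XT.lf (nat_lit 0) (nat_lit 1469004171) (nat_lit 152) (nat_lit 7491297791) (nat_lit 76) (nat_lit 10935304315) (nat_lit 63) (nat_lit 5) (nat_lit 65) (nat_lit 5) (nat_lit 64) (nat_lit 4) (nat_lit 500) (nat_lit 371) (nat_lit 329)) (XT.lf (nat_lit 0) (nat_lit 6573462155) (nat_lit 76) (nat_lit 1885063621) (nat_lit 152) (nat_lit 11812633294) (nat_lit 62) (nat_lit 5) (nat_lit 63) (nat_lit 5) (nat_lit 64) (nat_lit 4) (nat_lit 501) (nat_lit 371) (nat_lit 328))))) (XT.nd (nat_lit 312) (nat_lit 304) (nat_lit 0) (XT.nd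 (nat_lit 156) (nat_lit 152) (nat_lit 0) (XT.nd (nat_lit 78) (nat_lit 76) (nat_lit 0) (XT.lf (nat_lit 0) (nat_lit 358075070) (nat_lit 76) (nat_lit 15351936550) (nat_lit 76) (nat_lit 4946399329) (nat_lit 61) (nat_lit 4) (nat_lit 62) (nat_lit 5) (nat_lit 62) (nat_lit 4) (nat_lit 502) (nat_lit 371) (nat_lit 327)) (XT.lf (nat_lit 0) (nat_lit 2163268850) (nat_lit 152) (nat_lit 6127550571) (nat_lit 76) (nat_lit 12759420842) (nat_lit 60) (nat_lit 5) (nat_lit 62) (nat_lit 5) (nat_lit 61) (nat_lit 4) (nat_lit 503) (nat_lit 371) (nat_lit 326))) (XT.nd (nat_lit 78) (nat_lit 76) (nat_lit 0) (XT.lf (nat_lit 0) (nat_lit 8434138090) (nat_lit 76) (nat_lit 956634915) (nat_lit 152) (nat_lit 12063524102) (nat_lit 59) (nat_lit 5) (nat_lit 60) (nat_lit 5) (nat_lit 61) (nat_lit 4) (nat_lit 504) (nat_lit 371) (nat_lit 325)) (XT.lf (nat_lit 0) (nat_lit 1505048972) (nat_lit 76) (nat_lit 15393446220) (nat_lit 76) (nat_lit 4970079439) (nat_lit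 58) (nat_lit 4) (nat_lit 59) (nat_lit 5) (nat_lit 59) (nat_lit 4) (nat_lit 505) (nat_lit 371) (nat_lit 324)))) (XT.nd (nat_lit 156) (nat_lit 152) (nat_lit 0) (XT.nd (nat_lit 78) (nat_lit 76) (nat_lit 0) (XT.lf (nat_lit 0) (nat_lit 2355909661) (nat_lit 152) (nat_lit 5741668237) (nat_lit 76) (nat_lit 14195069758) (nat_lit 57) (nat_lit 5) (nat_lit 59) (nat_lit 5) (nat_lit 58) (nat_lit 4) (nat_lit 506) (nat_lit 371) (nat_lit 323)) (XT.lf (nat_lit 0) (nat_lit 9305575162) (nat_lit 76) (nat_lit 510977654) (nat_lit 152) (nat_lit 12910971451) (nat_lit 56) (nat_lit 5) (nat_lit 57) (nat_lit 5) (nat_lit 58) (nat_lit 4) (nat_lit 507) (nat_lit 371) (nat_lit 322))) (XT.nd (nat_lit 78) (nat_lit 76) (nat_lit 0) (XT.lf (nat_lit 0) (nat_lit 1562173277) (nat_lit 76) (nat_lit 16008045309) (nat_lit 76) (nat_lit 5603153169) (nat_lit 55) (nat_lit 4) (nat_lit 56) (nat_lit 5) (nat_lit 56) (nat_lit 4) (nat_lit 508) (nat_lit 371) (nat_lit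 321)) (XT.lf (nat_lit 0) (nat_lit 1953777369) (nat_lit 152) (nat_lit 6528281859) (nat_lit 76) (nat_lit 15147958670) (nat_lit 54) (nat_lit 5) (nat_lit 56) (nat_lit 5) (nat_lit 55) (nat_lit 4) (nat_lit 509) (nat_lit 371) (nat_lit 320))))))) (XT.nd (nat_lit 1170) (nat_lit 988) (nat_lit 0) (XT.nd (nat_lit 546) (nat_lit 456) (nat_lit 0) (XT.nd (nat_lit 234) (nat_lit 304) (nat_lit 0) (XT.nd (nat_lit 78) (nat_lit 152) (nat_lit 0) (XT.lf (nat_lit 0) (nat_lit 8985415785) (nat_lit 76) (nat_lit 653409340) (nat_lit 152) (nat_lit 14459453804) (nat_lit 53) (nat_lit 5) (nat_lit 54) (nat_lit 5) (nat_lit 55) (nat_lit 4) (nat_lit 510) (nat_lit 371) (nat_lit 319)) (XT.nd (nat_lit 78) (nat_lit 76) (nat_lit 0) (XT.lf (nat_lit 0) (nat_lit 312279760) (nat_lit 76) (nat_lit 17310706479) (nat_lit 76) (nat_lit 6955545297) (nat_lit 52) (nat_lit 4) (nat_lit 53) (nat_lit 5) (nat_lit 53) (nat_lit 4) (nat_lit 511) (nat_lit 371) (nat_lit 318))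 (XT.lf (nat_lit 0) (nat_lit 846779289) (nat_lit 152) (nat_lit 8715770152) (nat_lit 76) (nat_lit 15507768027) (nat_lit 51) (nat_lit 5) (nat_lit 53) (nat_lit 5) (nat_lit 52) (nat_lit 4) (nat_lit 512) (nat_lit 371) (nat_lit 317)))) (XT.nd (nat_lit 156) (nat_lit 228) (nat_lit 0) (XT.nd (nat_lit 78) (nat_lit 0) (nat_lit 0) (XT.lf (nat_lit 0) (nat_lit 7235969636) (nat_lit 76) (nat_lit 1506865375) (nat_lit 152) (nat_lit 16831972685) (nat_lit 50) (nat_lit 5) (nat_lit 51) (nat_lit 5) (nat_lit 52) (nat_lit 4) (nat_lit 513) (nat_lit 371) (nat_lit 316)) (XT.lf (nat_lit 0) (nat_lit 16959923876) (nat_lit 152) (nat_lit 2450690646) (nat_lit 0) (nat_lit 6681294101) (nat_lit 50) (nat_lit 5) (nat_lit 52) (nat_lit 4) (nat_lit 50) (nat_lit 4) (nat_lit 514) (nat_lit 371) (nat_lit 315))) (XT.nd (nat_lit 78) (nat_lit 152) (nat_lit 0) (XT.lf (nat_lit 0) (nat_lit 14039473499) (nat_lit 76) (nat_lit 11465959936) (nat_lit 76) (nat_lit 1116632422)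 (nat_lit 49) (nat_lit 4) (nat_lit 50) (nat_lit 5) (nat_lit 50) (nat_lit 4) (nat_lit 515) (nat_lit 371) (nat_lit 314)) (XT.lf (nat_lit 0) (nat_lit 3778340970) (nat_lit 76) (nat_lit 3214913741) (nat_lit 152) (nat_lit 20173013239) (nat_lit 47) (nat_lit 5) (nat_lit 48) (nat_lit 5) (nat_lit 49) (nat_lit 4) (nat_lit 516) (nat_lit 371) (nat_lit 313))))) (XT.nd (nat_lit 312) (nat_lit 228) (nat_lit 0) (XT.nd (nat_lit 156) (nat_lit 152) (nat_lit 0) (XT.nd (nat_lit 78) (nat_lit 76) (nat_lit 0) (XT.lf (nat_lit 0) (nat_lit 15435255230) (nat_lit 152) (nat_lit 7031845287) (nat_lit 0) (nat_lit 5256026594) (nat_lit 47) (nat_lit 5) (nat_lit 49) (nat_lit 4) (nat_lit 47) (nat_lit 4) (nat_lit 517) (nat_lit 371) (nat_lit 312)) (XT.lf (nat_lit 0) (nat_lit 9845311854) (nat_lit 76) (nat_lit 14345802675) (nat_lit 76) (nat_lit 4103760015) (nat_lit 46) (nat_lit 4) (nat_lit 47) (nat_lit 5) (nat_lit 47) (nat_lit 4) (nat_lit 518) (nat_lit 371)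 (nat_lit 311))) (XT.nd (nat_lit 78) (nat_lit 76) (nat_lit 0) (XT.lf (nat_lit 0) (nat_lit 4247337803) (nat_lit 152) (nat_lit 1680931410) (nat_lit 76) (nat_lit 22954081855) (nat_lit 45) (nat_lit 5) (nat_lit 47) (nat_lit 5) (nat_lit 46) (nat_lit 4) (nat_lit 519) (nat_lit 371) (nat_lit 310)) (XT.lf (nat_lit 0) (nat_lit 12881442224) (nat_lit 152) (nat_lit 13780322981) (nat_lit 0) (nat_lit 2821019511) (nat_lit 44) (nat_lit 5) (nat_lit 46) (nat_lit 4) (nat_lit 44) (nat_lit 4) (nat_lit 520) (nat_lit 371) (nat_lit 309)))) (XT.nd (nat_lit 156) (nat_lit 76) (nat_lit 0) (XT.nd (nat_lit 78) (nat_lit 76) (nat_lit 0) (XT.lf (nat_lit 0) (nat_lit 3422804205) (nat_lit 76) (nat_lit 18396656505) (nat_lit 76) (nat_lit 8280424345) (nat_lit 43) (nat_lit 4) (nat_lit 44) (nat_lit 5) (nat_lit 44) (nat_lit 4) (nat_lit 521) (nat_lit 371) (nat_lit 308)) (XT.lf (nat_lit 0) (nat_lit 361175256) (nat_lit 152) (nat_lit 9437230319) (nat_lit 76)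 (nat_lit 20934708095) (nat_lit 42) (nat_lit 5) (nat_lit 44) (nat_lit 5) (nat_lit 43) (nat_lit 4) (nat_lit 522) (nat_lit 371) (nat_lit 307))) (XT.nd (nat_lit 78) (nat_lit 0) (nat_lit 0) (XT.lf (nat_lit 0) (nat_lit 8276769780) (nat_lit 76) (nat_lit 836428065) (nat_lit 152) (nat_lit 22269154042) (nat_lit 41) (nat_lit 5) (nat_lit 42) (nat_lit 5) (nat_lit 43) (nat_lit 4) (nat_lit 523) (nat_lit 371) (nat_lit 306)) (XT.lf (nat_lit 0) (nat_lit 18242817019) (nat_lit 152) (nat_lit 5536832400) (nat_lit 0) (nat_lit 8267967119) (nat_lit 41) (nat_lit 5) (nat_lit 43) (nat_lit 4) (nat_lit 41) (nat_lit 4) (nat_lit 524) (nat_lit 371) (nat_lit 305)))))) (XT.nd (nat_lit 624) (nat_lit 456) (nat_lit 0) (XT.nd (nat_lit 312) (nat_lit 228) (nat_lit 0) (XT.nd (nat_lit 156) (nat_lit 152) (nat_lit 0) (XT.nd (nat_lit 78) (nat_lit 76) (nat_lit 0) (XT.lf (nat_lit 0) (nat_lit 12679051917) (nat_lit 76) (nat_lit 15037338607) (nat_lit 76) (nat_lit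 5014346986) (nat_lit 40) (nat_lit 4) (nat_lit 41) (nat_lit 5) (nat_lit 41) (nat_lit 4) (nat_lit 525) (nat_lit 371) (nat_lit 304)) (XT.lf (nat_lit 0) (nat_lit 3957385756) (nat_lit 152) (nat_lit 2036238068) (nat_lit 76) (nat_lit 27439671682) (nat_lit 39) (nat_lit 5) (nat_lit 41) (nat_lit 5) (nat_lit 40) (nat_lit 4) (nat_lit 526) (nat_lit 371) (nat_lit 303))) (XT.nd (nat_lit 78) (nat_lit 76) (nat_lit 0) (XT.lf (nat_lit 0) (nat_lit 13232962796) (nat_lit 152) (nat_lit 17505945799) (nat_lit 0) (nat_lit 3412468289) (nat_lit 38) (nat_lit 5) (nat_lit 40) (nat_lit 4) (nat_lit 38) (nat_lit 4) (nat_lit 527) (nat_lit 371) (nat_lit 302)) (XT.lf (nat_lit 0) (nat_lit 880877079) (nat_lit 76) (nat_lit 21936241204) (nat_lit 76) (nat_lit 12072973402) (nat_lit 37) (nat_lit 4) (nat_lit 38) (nat_lit 5) (nat_lit 38) (nat_lit 4) (nat_lit 528) (nat_lit 371) (nat_lit 301)))) (XT.nd (nat_lit 156) (nat_lit 76) (nat_lit 0) (XT.nd (nat_lit 78)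 (nat_lit 152) (nat_lit 0) (XT.lf (nat_lit 0) (nat_lit 20063620454) (nat_lit 76) (nat_lit 12744284922) (nat_lit 76) (nat_lit 2839489650) (nat_lit 37) (nat_lit 4) (nat_lit 38) (nat_lit 5) (nat_lit 38) (nat_lit 4) (nat_lit 529) (nat_lit 371) (nat_lit 300)) (XT.lf (nat_lit 0) (nat_lit 3282018492) (nat_lit 76) (nat_lit 3233809929) (nat_lit 152) (nat_lit 29910415412) (nat_lit 35) (nat_lit 5) (nat_lit 36) (nat_lit 5) (nat_lit 37) (nat_lit 4) (nat_lit 530) (nat_lit 371) (nat_lit 299))) (XT.nd (nat_lit 78) (nat_lit 76) (nat_lit 0) (XT.lf (nat_lit 0) (nat_lit 16260239274) (nat_lit 152) (nat_lit 14395624529) (nat_lit 0) (nat_lit 6566786043) (nat_lit 35) (nat_lit 5) (nat_lit 37) (nat_lit 4) (nat_lit 35) (nat_lit 4) (nat_lit 531) (nat_lit 371) (nat_lit 298)) (XT.lf (nat_lit 0) (nat_lit 4869332419) (nat_lit 76) (nat_lit 21451623273) (nat_lit 76) (nat_lit 11721273422) (nat_lit 34) (nat_lit 4) (nat_lit 35) (nat_lit 5) (nat_lit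 35) (nat_lit 4) (nat_lit 532) (nat_lit 371) (nat_lit 297))))) (XT.nd (nat_lit 312) (nat_lit 228) (nat_lit 0) (XT.nd (nat_lit 156) (nat_lit 76) (nat_lit 0) (XT.nd (nat_lit 78) (nat_lit 152) (nat_lit 0) (XT.lf (nat_lit 0) (nat_lit 24899301712) (nat_lit 76) (nat_lit 11875266935) (nat_lit 76) (nat_lit 2109095124) (nat_lit 34) (nat_lit 4) (nat_lit 35) (nat_lit 5) (nat_lit 35) (nat_lit 4) (nat_lit 533) (nat_lit 371) (nat_lit 296)) (XT.lf (nat_lit 0) (nat_lit 5710417589) (nat_lit 76) (nat_lit 1930650392) (nat_lit 152) (nat_lit 32106977090) (nat_lit 32) (nat_lit 5) (nat_lit 33) (nat_lit 5) (nat_lit 34) (nat_lit 4) (nat_lit 534) (nat_lit 371) (nat_lit 295))) (XT.nd (nat_lit 78) (nat_lit 76) (nat_lit 0) (XT.lf (nat_lit 0) (nat_lit 17810667799) (nat_lit 152) (nat_lit 14559584320) (nat_lit 0) (nat_lit 8262399792) (nat_lit 32) (nat_lit 5) (nat_lit 34) (nat_lit 4) (nat_lit 32) (nat_lit 4) (nat_lit 535) (nat_lit 371) (nat_lit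 294)) (XT.lf (nat_lit 0) (nat_lit 5487873906) (nat_lit 76) (nat_lit 22817705956) (nat_lit 76) (nat_lit 13237610600) (nat_lit 31) (nat_lit 4) (nat_lit 32) (nat_lit 5) (nat_lit 32) (nat_lit 4) (nat_lit 536) (nat_lit 371) (nat_lit 293)))) (XT.nd (nat_lit 156) (nat_lit 76) (nat_lit 0) (XT.nd (nat_lit 78) (nat_lit 152) (nat_lit 0) (XT.lf (nat_lit 0) (nat_lit 26333322834) (nat_lit 76) (nat_lit 12877920567) (nat_lit 76) (nat_lit 3266924873) (nat_lit 31) (nat_lit 4) (nat_lit 32) (nat_lit 5) (nat_lit 32) (nat_lit 4) (nat_lit 537) (nat_lit 371) (nat_lit 292)) (XT.lf (nat_lit 0) (nat_lit 4279206243) (nat_lit 76) (nat_lit 2578036251) (nat_lit 152) (nat_lit 36582203286) (nat_lit 29) (nat_lit 5) (nat_lit 30) (nat_lit 5) (nat_lit 31) (nat_lit 4) (nat_lit 538) (nat_lit 371) (nat_lit 291))) (XT.nd (nat_lit 78) (nat_lit 76) (nat_lit 0) (XT.lf (nat_lit 0) (nat_lit 17411228550) (nat_lit 152) (nat_lit 18988850176) (nat_lit 0) (nat_lit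 8022760050) (nat_lit 29) (nat_lit 5) (nat_lit 31) (nat_lit 4) (nat_lit 29) (nat_lit 4) (nat_lit 539) (nat_lit 371) (nat_lit 290)) (XT.lf (nat_lit 0) (nat_lit 1698250928) (nat_lit 76) (nat_lit 26576804622) (nat_lit 76) (nat_lit 17160881573) (nat_lit 28) (nat_lit 4) (nat_lit 29) (nat_lit 5) (nat_lit 29) (nat_lit 4) (nat_lit 540) (nat_lit 371) (nat_lit 289))))))))
noncomputable def xc39 : XT := (XT.nd (nat_lit 57174) (nat_lit 0) (nat_lit 2964) (XT.nd (nat_lit 55926) (nat_lit 0) (nat_lit 6840) (XT.nd (nat_lit 546) (nat_lit 228) (nat_lit 0) (XT.nd (nat_lit 234) (nat_lit 228) (nat_lit 0) (XT.nd (nat_lit 78) (nat_lit 152) (nat_lit 0) (XT.lf (nat_lit 0) (nat_lit 23299125471) (nat_lit 76) (nat_lit 16309286333) (nat_lit 76) (nat_lit 6866708380) (nat_lit 28) (nat_lit 4) (nat_lit 29) (nat_lit 5) (nat_lit 29) (nat_lit 4) (nat_lit 541) (nat_lit 371) (nat_lit 288)) (XT.nd (nat_lit 78) (nat_lit 76) (nat_lit 0) (XT.lf (nat_lit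 0) (nat_lit 3616184934) (nat_lit 152) (nat_lit 2127601081) (nat_lit 76) (nat_lit 41802031338) (nat_lit 27) (nat_lit 5) (nat_lit 29) (nat_lit 5) (nat_lit 28) (nat_lit 4) (nat_lit 542) (nat_lit 371) (nat_lit 287)) (XT.lf (nat_lit 0) (nat_lit 14471366977) (nat_lit 152) (nat_lit 28915056793) (nat_lit 0) (nat_lit 5254297752) (nat_lit 26) (nat_lit 5) (nat_lit 28) (nat_lit 4) (nat_lit 26) (nat_lit 4) (nat_lit 543) (nat_lit 371) (nat_lit 286)))) (XT.nd (nat_lit 156) (nat_lit 152) (nat_lit 0) (XT.nd (nat_lit 78) (nat_lit 76) (nat_lit 0) (XT.lf (nat_lit 0) (nat_lit 25684978016) (nat_lit 152) (nat_lit 7638285512) (nat_lit 0) (nat_lit 16444226255) (nat_lit 26) (nat_lit 5) (nat_lit 28) (nat_lit 4) (nat_lit 26) (nat_lit 4) (nat_lit 544) (nat_lit 371) (nat_lit 285)) (XT.lf (nat_lit 0) (nat_lit 14470304632) (nat_lit 76) (nat_lit 22859330999) (nat_lit 76) (nat_lit 13595586484) (nat_lit 25) (nat_lit 4) (nat_lit 26) (nat_lit 5) (nat_lit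 26) (nat_lit 4) (nat_lit 545) (nat_lit 371) (nat_lit 284))) (XT.nd (nat_lit 78) (nat_lit 152) (nat_lit 0) (XT.lf (nat_lit 0) (nat_lit 37310748906) (nat_lit 76) (nat_lit 12046005799) (nat_lit 76) (nat_lit 2759938223) (nat_lit 25) (nat_lit 4) (nat_lit 26) (nat_lit 5) (nat_lit 26) (nat_lit 4) (nat_lit 546) (nat_lit 371) (nat_lit 283)) (XT.lf (nat_lit 0) (nat_lit 7471259046) (nat_lit 76) (nat_lit 794257947) (nat_lit 152) (nat_lit 45075108415) (nat_lit 23) (nat_lit 5) (nat_lit 24) (nat_lit 5) (nat_lit 25) (nat_lit 4) (nat_lit 547) (nat_lit 371) (nat_lit 282))))) (XT.nd (nat_lit 312) (nat_lit 152) (nat_lit 0) (XT.nd (nat_lit 156) (nat_lit 76) (nat_lit 0) (XT.nd (nat_lit 78) (nat_lit 0) (nat_lit 0) (XT.lf (nat_lit 0) (nat_lit 19777897371) (nat_lit 152) (nat_lit 24095382461) (nat_lit 0) (nat_lit 10720827392) (nat_lit 23) (nat_lit 5) (nat_lit 25) (nat_lit 4) (nat_lit 23) (nat_lit 4) (nat_lit 548) (nat_lit 371) (nat_lit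 281)) (XT.lf (nat_lit 0) (nat_lit 31601642873) (nat_lit 152) (nat_lit 1759831812) (nat_lit 0) (nat_lit 22524739143) (nat_lit 23) (nat_lit 5) (nat_lit 25) (nat_lit 4) (nat_lit 23) (nat_lit 4) (nat_lit 549) (nat_lit 371) (nat_lit 280))) (XT.nd (nat_lit 78) (nat_lit 0) (nat_lit 0) (XT.lf (nat_lit 0) (nat_lit 21585650773) (nat_lit 76) (nat_lit 22361293742) (nat_lit 76) (nat_lit 13265133944) (nat_lit 22) (nat_lit 4) (nat_lit 23) (nat_lit 5) (nat_lit 23) (nat_lit 4) (nat_lit 550) (nat_lit 371) (nat_lit 279)) (XT.lf (nat_lit 0) (nat_lit 45587021818) (nat_lit 76) (nat_lit 11053113232) (nat_lit 76) (nat_lit 1938258220) (nat_lit 22) (nat_lit 4) (nat_lit 23) (nat_lit 5) (nat_lit 23) (nat_lit 4) (nat_lit 551) (nat_lit 371) (nat_lit 278)))) (XT.nd (nat_lit 156) (nat_lit 0) (nat_lit 0) (XT.nd (nat_lit 78) (nat_lit 0) (nat_lit 0) (XT.lf (nat_lit 0) (nat_lit 9605887396) (nat_lit 152) (nat_lit 49636094220) (nat_lit 0) (nat_lit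 738891567) (nat_lit 20) (nat_lit 5) (nat_lit 22) (nat_lit 4) (nat_lit 20) (nat_lit 4) (nat_lit 552) (nat_lit 371) (nat_lit 277)) (XT.lf (nat_lit 0) (nat_lit 21659888389) (nat_lit 152) (nat_lit 26983105075) (nat_lit 0) (nat_lit 12775783792) (nat_lit 20) (nat_lit 5) (nat_lit 22) (nat_lit 4) (nat_lit 20) (nat_lit 4) (nat_lit 553) (nat_lit 371) (nat_lit 276))) (XT.nd (nat_lit 54834) (nat_lit 0) (nat_lit 10260) (XT.lf (nat_lit 0) (nat_lit 34037223052) (nat_lit 152) (nat_lit 3727236111) (nat_lit 0) (nat_lit 25136508001) (nat_lit 20) (nat_lit 5) (nat_lit 22) (nat_lit 4) (nat_lit 20) (nat_lit 4) (nat_lit 554) (nat_lit 371) (nat_lit 275)) (XT.lf (nat_lit 0) (nat_lit 3194871077) (nat_lit 304) (nat_lit 866254509) (nat_lit 304) (nat_lit 866254509) (nat_lit 155) (nat_lit 4) (nat_lit 159) (nat_lit 5) (nat_lit 159) (nat_lit 4) (nat_lit 456) (nat_lit 372) (nat_lit 372)))))) (XT.nd (nat_lit 624) (nat_lit 1596) (nat_lit 0) (XT.nd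 (nat_lit 312) (nat_lit 760) (nat_lit 0) (XT.nd (nat_lit 156) (nat_lit 532) (nat_lit 0) (XT.nd (nat_lit 78) (nat_lit 228) (nat_lit 0) (XT.lf (nat_lit 0) (nat_lit 3090903230) (nat_lit 304) (nat_lit 4531431378) (nat_lit 0) (nat_lit 2360527600) (nat_lit 151) (nat_lit 5) (nat_lit 155) (nat_lit 4) (nat_lit 151) (nat_lit 4) (nat_lit 457) (nat_lit 372) (nat_lit 371)) (XT.lf (nat_lit 0) (nat_lit 4466901629) (nat_lit 228) (nat_lit 3543642011) (nat_lit 228) (nat_lit 2104163828) (nat_lit 148) (nat_lit 4) (nat_lit 151) (nat_lit 5) (nat_lit 151) (nat_lit 4) (nat_lit 458) (nat_lit 372) (nat_lit 370))) (XT.nd (nat_lit 78) (nat_lit 228) (nat_lit 0) (XT.lf (nat_lit 0) (nat_lit 2749401368) (nat_lit 304) (nat_lit 6817524552) (nat_lit 0) (nat_lit 683452569) (nat_lit 144) (nat_lit 5) (nat_lit 148) (nat_lit 4) (nat_lit 144) (nat_lit 4) (nat_lit 459) (nat_lit 372) (nat_lit 369)) (XT.lf (nat_lit 0) (nat_lit 2322664952) (nat_lit 228) (nat_lit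 5390749289) (nat_lit 228) (nat_lit 2675871202) (nat_lit 141) (nat_lit 4) (nat_lit 144) (nat_lit 5) (nat_lit 144) (nat_lit 4) (nat_lit 460) (nat_lit 372) (nat_lit 368)))) (XT.nd (nat_lit 156) (nat_lit 456) (nat_lit 0) (XT.nd (nat_lit 78) (nat_lit 0) (nat_lit 0) (XT.lf (nat_lit 0) (nat_lit 1166693166) (nat_lit 228) (nat_lit 1055769733) (nat_lit 304) (nat_lit 8310042497) (nat_lit 137) (nat_lit 5) (nat_lit 140) (nat_lit 5) (nat_lit 141) (nat_lit 4) (nat_lit 461) (nat_lit 372) (nat_lit 367)) (XT.lf (nat_lit 0) (nat_lit 7222225763) (nat_lit 304) (nat_lit 75876427) (nat_lit 0) (nat_lit 3380881479) (nat_lit 137) (nat_lit 5) (nat_lit 141) (nat_lit 4) (nat_lit 137) (nat_lit 4) (nat_lit 462) (nat_lit 372) (nat_lit 366))) (XT.nd (nat_lit 78) (nat_lit 152) (nat_lit 0) (XT.lf (nat_lit 0) (nat_lit 1510042778) (nat_lit 304) (nat_lit 1352522709) (nat_lit 76) (nat_lit 7966909902) (nat_lit 133) (nat_lit 5) (nat_lit 137) (nat_lit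 5) (nat_lit 134) (nat_lit 4) (nat_lit 463) (nat_lit 372) (nat_lit 365)) (XT.lf (nat_lit 0) (nat_lit 6550294792) (nat_lit 228) (nat_lit 2715752406) (nat_lit 0) (nat_lit 1717594158) (nat_lit 131) (nat_lit 5) (nat_lit 134) (nat_lit 4) (nat_lit 131) (nat_lit 4) (nat_lit 464) (nat_lit 372) (nat_lit 364))))) (XT.nd (nat_lit 312) (nat_lit 684) (nat_lit 0) (XT.nd (nat_lit 156) (nat_lit 456) (nat_lit 0) (XT.nd (nat_lit 78) (nat_lit 152) (nat_lit 0) (XT.lf (nat_lit 0) (nat_lit 594373173) (nat_lit 304) (nat_lit 4153761986) (nat_lit 76) (nat_lit 6393925696) (nat_lit 127) (nat_lit 5) (nat_lit 131) (nat_lit 5) (nat_lit 128) (nat_lit 4) (nat_lit 465) (nat_lit 372) (nat_lit 363)) (XT.lf (nat_lit 0) (nat_lit 5623669699) (nat_lit 152) (nat_lit 39522419) (nat_lit 228) (nat_lit 5641346439) (nat_lit 125) (nat_lit 5) (nat_lit 127) (nat_lit 5) (nat_lit 128) (nat_lit 4) (nat_lit 466) (nat_lit 372) (nat_lit 362))) (XT.nd (nat_lit 78) (nat_lit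 228) (nat_lit 0) (XT.lf (nat_lit 0) (nat_lit 4166356840) (nat_lit 228) (nat_lit 6744579603) (nat_lit 228) (nat_lit 560151870) (nat_lit 122) (nat_lit 4) (nat_lit 125) (nat_lit 5) (nat_lit 125) (nat_lit 4) (nat_lit 467) (nat_lit 372) (nat_lit 361)) (XT.lf (nat_lit 0) (nat_lit 2612111363) (nat_lit 152) (nat_lit 1952095247) (nat_lit 228) (nat_lit 7077625835) (nat_lit 119) (nat_lit 5) (nat_lit 121) (nat_lit 5) (nat_lit 122) (nat_lit 4) (nat_lit 468) (nat_lit 372) (nat_lit 360)))) (XT.nd (nat_lit 156) (nat_lit 380) (nat_lit 0) (XT.nd (nat_lit 78) (nat_lit 76) (nat_lit 0) (XT.lf (nat_lit 0) (nat_lit 966553460) (nat_lit 228) (nat_lit 8875985620) (nat_lit 228) (nat_lit 1974651637) (nat_lit 116) (nat_lit 4) (nat_lit 119) (nat_lit 5) (nat_lit 119) (nat_lit 4) (nat_lit 469) (nat_lit 372) (nat_lit 359)) (XT.lf (nat_lit 0) (nat_lit 3228079361) (nat_lit 304) (nat_lit 777351586) (nat_lit 76) (nat_lit 7991114571) (nat_lit 115)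 (nat_lit 5) (nat_lit 119) (nat_lit 5) (nat_lit 116) (nat_lit 4) (nat_lit 470) (nat_lit 372) (nat_lit 358))) (XT.nd (nat_lit 78) (nat_lit 228) (nat_lit 0) (XT.lf (nat_lit 0) (nat_lit 8551737197) (nat_lit 228) (nat_lit 2598325558) (nat_lit 0) (nat_lit 1030498648) (nat_lit 113) (nat_lit 5) (nat_lit 116) (nat_lit 4) (nat_lit 113) (nat_lit 4) (nat_lit 471) (nat_lit 372) (nat_lit 357)) (XT.lf (nat_lit 0) (nat_lit 1658400055) (nat_lit 228) (nat_lit 4547299326) (nat_lit 76) (nat_lit 6163144533) (nat_lit 110) (nat_lit 5) (nat_lit 113) (nat_lit 5) (nat_lit 111) (nat_lit 4) (nat_lit 472) (nat_lit 372) (nat_lit 356))))))) (XT.nd (nat_lit 1248) (nat_lit 1672) (nat_lit 0) (XT.nd (nat_lit 624) (nat_lit 912) (nat_lit 0) (XT.nd (nat_lit 312) (nat_lit 760) (nat_lit 0) (XT.nd (nat_lit 156) (nat_lit 228) (nat_lit 0) (XT.nd (nat_lit 78) (nat_lit 152) (nat_lit 0) (XT.lf (nat_lit 0) (nat_lit 5951387655) (nat_lit 152) (nat_lit 1066551585)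 (nat_lit 228) (nat_lit 5544161494) (nat_lit 108) (nat_lit 5) (nat_lit 110) (nat_lit 5) (nat_lit 111) (nat_lit 4) (nat_lit 473) (nat_lit 372) (nat_lit 355)) (XT.lf (nat_lit 0) (nat_lit 3960383882) (nat_lit 152) (nat_lit 8606321710) (nat_lit 152) (nat_lit 193599080) (nat_lit 106) (nat_lit 4) (nat_lit 108) (nat_lit 5) (nat_lit 108) (nat_lit 4) (nat_lit 474) (nat_lit 372) (nat_lit 354))) (XT.nd (nat_lit 78) (nat_lit 0) (nat_lit 0) (XT.lf (nat_lit 0) (nat_lit 1820362819) (nat_lit 152) (nat_lit 3392404135) (nat_lit 228) (nat_lit 7750185318) (nat_lit 103) (nat_lit 5) (nat_lit 105) (nat_lit 5) (nat_lit 106) (nat_lit 4) (nat_lit 475) (nat_lit 372) (nat_lit 353)) (XT.lf (nat_lit 0) (nat_lit 10790165538) (nat_lit 228) (nat_lit 426081473) (nat_lit 0) (nat_lit 1954995220) (nat_lit 103) (nat_lit 5) (nat_lit 106) (nat_lit 4) (nat_lit 103) (nat_lit 4) (nat_lit 476) (nat_lit 372) (nat_lit 352)))) (XT.nd (nat_lit 156) (nat_lit 380)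 (nat_lit 0) (XT.nd (nat_lit 78) (nat_lit 152) (nat_lit 0) (XT.lf (nat_lit 0) (nat_lit 3130479525) (nat_lit 228) (nat_lit 2799527088) (nat_lit 76) (nat_lit 7453583679) (nat_lit 100) (nat_lit 5) (nat_lit 103) (nat_lit 5) (nat_lit 101) (nat_lit 4) (nat_lit 477) (nat_lit 372) (nat_lit 351)) (XT.lf (nat_lit 0) (nat_lit 8299402534) (nat_lit 152) (nat_lit 451205988) (nat_lit 228) (nat_lit 4851262735) (nat_lit 98) (nat_lit 5) (nat_lit 100) (nat_lit 5) (nat_lit 101) (nat_lit 4) (nat_lit 478) (nat_lit 372) (nat_lit 350))) (XT.nd (nat_lit 78) (nat_lit 152) (nat_lit 0) (XT.lf (nat_lit 0) (nat_lit 741220708) (nat_lit 228) (nat_lit 7976135415) (nat_lit 76) (nat_lit 5107866518) (nat_lit 95) (nat_lit 5) (nat_lit 98) (nat_lit 5) (nat_lit 96) (nat_lit 4) (nat_lit 479) (nat_lit 372) (nat_lit 349)) (XT.lf (nat_lit 0) (nat_lit 3229679229) (nat_lit 152) (nat_lit 3171367365) (nat_lit 228) (nat_lit 7652876821) (nat_lit 93) (nat_lit 5)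 (nat_lit 95) (nat_lit 5) (nat_lit 96) (nat_lit 4) (nat_lit 480) (nat_lit 372) (nat_lit 348))))) (XT.nd (nat_lit 312) (nat_lit 380) (nat_lit 0) (XT.nd (nat_lit 156) (nat_lit 304) (nat_lit 0) (XT.nd (nat_lit 78) (nat_lit 76) (nat_lit 0) (XT.lf (nat_lit 0) (nat_lit 461015455) (nat_lit 152) (nat_lit 11787662853) (nat_lit 152) (nat_lit 2040268541) (nat_lit 91) (nat_lit 4) (nat_lit 93) (nat_lit 5) (nat_lit 93) (nat_lit 4) (nat_lit 481) (nat_lit 372) (nat_lit 347)) (XT.lf (nat_lit 0) (nat_lit 3717476302) (nat_lit 228) (nat_lit 2460480791) (nat_lit 76) (nat_lit 8350494405) (nat_lit 90) (nat_lit 5) (nat_lit 93) (nat_lit 5) (nat_lit 91) (nat_lit 4) (nat_lit 482) (nat_lit 372) (nat_lit 346))) (XT.nd (nat_lit 78) (nat_lit 228) (nat_lit 0) (XT.lf (nat_lit 0) (nat_lit 9242102230) (nat_lit 76) (nat_lit 364332838) (nat_lit 152) (nat_lit 5168117329) (nat_lit 89) (nat_lit 5) (nat_lit 90) (nat_lit 5) (nat_lit 91) (nat_lit 4) (nat_lit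 483) (nat_lit 372) (nat_lit 345)) (XT.lf (nat_lit 0) (nat_lit 681827573) (nat_lit 228) (nat_lit 8813583552) (nat_lit 76) (nat_lit 5530930113) (nat_lit 86) (nat_lit 5) (nat_lit 89) (nat_lit 5) (nat_lit 87) (nat_lit 4) (nat_lit 484) (nat_lit 372) (nat_lit 344)))) (XT.nd (nat_lit 156) (nat_lit 304) (nat_lit 0) (XT.nd (nat_lit 78) (nat_lit 0) (nat_lit 0) (XT.lf (nat_lit 0) (nat_lit 2975996032) (nat_lit 76) (nat_lit 3627111482) (nat_lit 152) (nat_lit 8681051471) (nat_lit 85) (nat_lit 5) (nat_lit 86) (nat_lit 5) (nat_lit 87) (nat_lit 4) (nat_lit 485) (nat_lit 372) (nat_lit 343)) (XT.lf (nat_lit 0) (nat_lit 12726485340) (nat_lit 152) (nat_lit 437963609) (nat_lit 0) (nat_lit 2384530128) (nat_lit 85) (nat_lit 5) (nat_lit 87) (nat_lit 4) (nat_lit 85) (nat_lit 4) (nat_lit 486) (nat_lit 372) (nat_lit 342))) (XT.nd (nat_lit 78) (nat_lit 76) (nat_lit 0) (XT.lf (nat_lit 0) (nat_lit 3213242930) (nat_lit 228) (nat_lit 4030120837)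 (nat_lit 76) (nat_lit 8575532400) (nat_lit 82) (nat_lit 5) (nat_lit 85) (nat_lit 5) (nat_lit 83) (nat_lit 4) (nat_lit 487) (nat_lit 372) (nat_lit 341)) (XT.lf (nat_lit 0) (nat_lit 8265816145) (nat_lit 76) (nat_lit 1105475408) (nat_lit 152) (nat_lit 6724843239) (nat_lit 81) (nat_lit 5) (nat_lit 82) (nat_lit 5) (nat_lit 83) (nat_lit 4) (nat_lit 488) (nat_lit 372) (nat_lit 340)))))) (XT.nd (nat_lit 624) (nat_lit 760) (nat_lit 0) (XT.nd (nat_lit 312) (nat_lit 380) (nat_lit 0) (XT.nd (nat_lit 156) (nat_lit 228) (nat_lit 0) (XT.nd (nat_lit 78) (nat_lit 152) (nat_lit 0) (XT.lf (nat_lit 0) (nat_lit 4507949379) (nat_lit 152) (nat_lit 11254992494) (nat_lit 152) (nat_lit 617284317) (nat_lit 79) (nat_lit 4) (nat_lit 81) (nat_lit 5) (nat_lit 81) (nat_lit 4) (nat_lit 489) (nat_lit 372) (nat_lit 339)) (XT.lf (nat_lit 0) (nat_lit 487295803) (nat_lit 76) (nat_lit 5085373203) (nat_lit 152) (nat_lit 11098240204) (nat_lit 77) (nat_lit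 5) (nat_lit 78) (nat_lit 5) (nat_lit 79) (nat_lit 4) (nat_lit 490) (nat_lit 372) (nat_lit 338))) (XT.nd (nat_lit 78) (nat_lit 228) (nat_lit 0) (XT.lf (nat_lit 0) (nat_lit 11983800661) (nat_lit 152) (nat_lit 3687767322) (nat_lit 0) (nat_lit 1297126090) (nat_lit 77) (nat_lit 5) (nat_lit 79) (nat_lit 4) (nat_lit 77) (nat_lit 4) (nat_lit 491) (nat_lit 372) (nat_lit 337)) (XT.lf (nat_lit 0) (nat_lit 1342238777) (nat_lit 228) (nat_lit 8133531820) (nat_lit 76) (nat_lit 7797585279) (nat_lit 74) (nat_lit 5) (nat_lit 77) (nat_lit 5) (nat_lit 75) (nat_lit 4) (nat_lit 492) (nat_lit 372) (nat_lit 336)))) (XT.nd (nat_lit 156) (nat_lit 152) (nat_lit 0) (XT.nd (nat_lit 78) (nat_lit 152) (nat_lit 0) (XT.lf (nat_lit 0) (nat_lit 4726359740) (nat_lit 76) (nat_lit 3032871851) (nat_lit 152) (nat_lit 9826439328) (nat_lit 73) (nat_lit 5) (nat_lit 74) (nat_lit 5) (nat_lit 75) (nat_lit 4) (nat_lit 493) (nat_lit 372) (nat_lit 335)) (XT.lf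 (nat_lit 0) (nat_lit 41101338) (nat_lit 152) (nat_lit 14363000835) (nat_lit 152) (nat_lit 3502193356) (nat_lit 71) (nat_lit 4) (nat_lit 73) (nat_lit 5) (nat_lit 73) (nat_lit 4) (nat_lit 494) (nat_lit 372) (nat_lit 334))) (XT.nd (nat_lit 78) (nat_lit 76) (nat_lit 0) (XT.lf (nat_lit 0) (nat_lit 3031657802) (nat_lit 228) (nat_lit 4859008264) (nat_lit 76) (nat_lit 10342645911) (nat_lit 70) (nat_lit 5) (nat_lit 73) (nat_lit 5) (nat_lit 71) (nat_lit 4) (nat_lit 495) (nat_lit 372) (nat_lit 333)) (XT.lf (nat_lit 0) (nat_lit 8515230170) (nat_lit 76) (nat_lit 1177641326) (nat_lit 152) (nat_lit 8876176096) (nat_lit 69) (nat_lit 5) (nat_lit 70) (nat_lit 5) (nat_lit 71) (nat_lit 4) (nat_lit 496) (nat_lit 372) (nat_lit 332))))) (XT.nd (nat_lit 312) (nat_lit 380) (nat_lit 0) (XT.nd (nat_lit 156) (nat_lit 152) (nat_lit 0) (XT.nd (nat_lit 78) (nat_lit 76) (nat_lit 0) (XT.lf (nat_lit 0) (nat_lit 3332523212) (nat_lit 152) (nat_lit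 13278185092) (nat_lit 152) (nat_lit 2302444397) (nat_lit 67) (nat_lit 4) (nat_lit 69) (nat_lit 5) (nat_lit 69) (nat_lit 4) (nat_lit 497) (nat_lit 372) (nat_lit 331)) (XT.lf (nat_lit 0) (nat_lit 4415627080) (nat_lit 228) (nat_lit 2147481898) (nat_lit 76) (nat_lit 12702154602) (nat_lit 66) (nat_lit 5) (nat_lit 69) (nat_lit 5) (nat_lit 67) (nat_lit 4) (nat_lit 498) (nat_lit 372) (nat_lit 330))) (XT.nd (nat_lit 78) (nat_lit 76) (nat_lit 0) (XT.lf (nat_lit 0) (nat_lit 11328382235) (nat_lit 152) (nat_lit 7884573336) (nat_lit 0) (nat_lit 413116709) (nat_lit 65) (nat_lit 5) (nat_lit 67) (nat_lit 4) (nat_lit 65) (nat_lit 4) (nat_lit 499) (nat_lit 372) (nat_lit 329)) (XT.lf (nat_lit 0) (nat_lit 5996384869) (nat_lit 76) (nat_lit 12519270826) (nat_lit 76) (nat_lit 1480036387) (nat_lit 64) (nat_lit 4) (nat_lit 65) (nat_lit 5) (nat_lit 65) (nat_lit 4) (nat_lit 500) (nat_lit 372) (nat_lit 328)))) (XT.nd (nat_lit 156) (nat_lit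 228) (nat_lit 0) (XT.nd (nat_lit 78) (nat_lit 76) (nat_lit 0) (XT.lf (nat_lit 0) (nat_lit 5437091755) (nat_lit 152) (nat_lit 122296342) (nat_lit 76) (nat_lit 14815322241) (nat_lit 63) (nat_lit 5) (nat_lit 65) (nat_lit 5) (nat_lit 64) (nat_lit 4) (nat_lit 501) (nat_lit 372) (nat_lit 327)) (XT.lf (nat_lit 0) (nat_lit 12610587096) (nat_lit 152) (nat_lit 6489133195) (nat_lit 0) (nat_lit 1662582051) (nat_lit 62) (nat_lit 5) (nat_lit 64) (nat_lit 4) (nat_lit 62) (nat_lit 4) (nat_lit 502) (nat_lit 372) (nat_lit 326))) (XT.nd (nat_lit 78) (nat_lit 152) (nat_lit 0) (XT.lf (nat_lit 0) (nat_lit 7895130006) (nat_lit 76) (nat_lit 12161412536) (nat_lit 76) (nat_lit 1103262718) (nat_lit 61) (nat_lit 4) (nat_lit 62) (nat_lit 5) (nat_lit 62) (nat_lit 4) (nat_lit 503) (nat_lit 372) (nat_lit 325)) (XT.lf (nat_lit 0) (nat_lit 1092704429) (nat_lit 76) (nat_lit 4945616220) (nat_lit 152) (nat_lit 15529083469) (nat_lit 59) (nat_lit 5)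 (nat_lit 60) (nat_lit 5) (nat_lit 61) (nat_lit 4) (nat_lit 504) (nat_lit 372) (nat_lit 324))))))))
noncomputable def xc40 : XT := (XT.nd (nat_lit 2418) (nat_lit 912) (nat_lit 0) (XT.nd (nat_lit 1170) (nat_lit 1064) (nat_lit 0) (XT.nd (nat_lit 546) (nat_lit 532) (nat_lit 0) (XT.nd (nat_lit 234) (nat_lit 228) (nat_lit 0) (XT.nd (nat_lit 78) (nat_lit 228) (nat_lit 0) (XT.lf (nat_lit 0) (nat_lit 13456412571) (nat_lit 152) (nat_lit 6012233641) (nat_lit 0) (nat_lit 2515724704) (nat_lit 59) (nat_lit 5) (nat_lit 61) (nat_lit 4) (nat_lit 59) (nat_lit 4) (nat_lit 505) (nat_lit 372) (nat_lit 323)) (XT.nd (nat_lit 78) (nat_lit 152) (nat_lit 0) (XT.lf (nat_lit 0) (nat_lit 8866817205) (nat_lit 76) (nat_lit 12291865618) (nat_lit 76) (nat_lit 1253315547) (nat_lit 58) (nat_lit 4) (nat_lit 59) (nat_lit 5) (nat_lit 59) (nat_lit 4) (nat_lit 506) (nat_lit 372) (nat_lit 322)) (XT.lf (nat_lit 0) (nat_lit 1288000875) (nat_lit 76) (nat_lit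 4830995575) (nat_lit 152) (nat_lit 16731623930) (nat_lit 56) (nat_lit 5) (nat_lit 57) (nat_lit 5) (nat_lit 58) (nat_lit 4) (nat_lit 507) (nat_lit 372) (nat_lit 321)))) (XT.nd (nat_lit 156) (nat_lit 152) (nat_lit 0) (XT.nd (nat_lit 78) (nat_lit 76) (nat_lit 0) (XT.lf (nat_lit 0) (nat_lit 13780454973) (nat_lit 152) (nat_lit 6637165662) (nat_lit 0) (nat_lit 2881613775) (nat_lit 56) (nat_lit 5) (nat_lit 58) (nat_lit 4) (nat_lit 56) (nat_lit 4) (nat_lit 508) (nat_lit 372) (nat_lit 320)) (XT.lf (nat_lit 0) (nat_lit 8721005690) (nat_lit 76) (nat_lit 13012125544) (nat_lit 76) (nat_lit 2026335046) (nat_lit 55) (nat_lit 4) (nat_lit 56) (nat_lit 5) (nat_lit 56) (nat_lit 4) (nat_lit 509) (nat_lit 372) (nat_lit 319))) (XT.nd (nat_lit 78) (nat_lit 0) (nat_lit 0) (XT.lf (nat_lit 0) (nat_lit 256679841) (nat_lit 76) (nat_lit 5323067516) (nat_lit 152) (nat_lit 18652119795) (nat_lit 53) (nat_lit 5) (nat_lit 54) (nat_lit 5) (nat_lit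 55) (nat_lit 4) (nat_lit 510) (nat_lit 372) (nat_lit 318)) (XT.lf (nat_lit 0) (nat_lit 13481466518) (nat_lit 152) (nat_lit 8579005272) (nat_lit 0) (nat_lit 2654121516) (nat_lit 53) (nat_lit 5) (nat_lit 55) (nat_lit 4) (nat_lit 53) (nat_lit 4) (nat_lit 511) (nat_lit 372) (nat_lit 317))))) (XT.nd (nat_lit 312) (nat_lit 228) (nat_lit 0) (XT.nd (nat_lit 156) (nat_lit 152) (nat_lit 0) (XT.nd (nat_lit 78) (nat_lit 76) (nat_lit 0) (XT.lf (nat_lit 0) (nat_lit 7233983555) (nat_lit 76) (nat_lit 14440396156) (nat_lit 76) (nat_lit 3535797827) (nat_lit 52) (nat_lit 4) (nat_lit 53) (nat_lit 5) (nat_lit 53) (nat_lit 4) (nat_lit 512) (nat_lit 372) (nat_lit 316)) (XT.lf (nat_lit 0) (nat_lit 4326173353) (nat_lit 152) (nat_lit 2197469652) (nat_lit 76) (nat_lit 19195137094) (nat_lit 51) (nat_lit 5) (nat_lit 53) (nat_lit 5) (nat_lit 52) (nat_lit 4) (nat_lit 513) (nat_lit 372) (nat_lit 315))) (XT.nd (nat_lit 78) (nat_lit 76) (nat_lit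 0) (XT.lf (nat_lit 0) (nat_lit 12439799259) (nat_lit 152) (nat_lit 12089891730) (nat_lit 0) (nat_lit 1709294181) (nat_lit 50) (nat_lit 5) (nat_lit 52) (nat_lit 4) (nat_lit 50) (nat_lit 4) (nat_lit 514) (nat_lit 372) (nat_lit 314)) (XT.lf (nat_lit 0) (nat_lit 4143232206) (nat_lit 76) (nat_lit 16714441579) (nat_lit 76) (nat_lit 5915297919) (nat_lit 49) (nat_lit 4) (nat_lit 50) (nat_lit 5) (nat_lit 50) (nat_lit 4) (nat_lit 515) (nat_lit 372) (nat_lit 313)))) (XT.nd (nat_lit 156) (nat_lit 76) (nat_lit 0) (XT.nd (nat_lit 78) (nat_lit 76) (nat_lit 0) (XT.lf (nat_lit 0) (nat_lit 2219421984) (nat_lit 152) (nat_lit 6360356430) (nat_lit 76) (nat_lit 18740843644) (nat_lit 48) (nat_lit 5) (nat_lit 50) (nat_lit 5) (nat_lit 49) (nat_lit 4) (nat_lit 516) (nat_lit 372) (nat_lit 312)) (XT.lf (nat_lit 0) (nat_lit 10415754446) (nat_lit 76) (nat_lit 99632721) (nat_lit 152) (nat_lit 17366475339) (nat_lit 47) (nat_lit 5) (nat_lit 48)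 (nat_lit 5) (nat_lit 49) (nat_lit 4) (nat_lit 517) (nat_lit 372) (nat_lit 311))) (XT.nd (nat_lit 78) (nat_lit 76) (nat_lit 0) (XT.lf (nat_lit 0) (nat_lit 19144145811) (nat_lit 152) (nat_lit 842234013) (nat_lit 0) (nat_lit 8471043356) (nat_lit 47) (nat_lit 5) (nat_lit 49) (nat_lit 4) (nat_lit 47) (nat_lit 4) (nat_lit 518) (nat_lit 372) (nat_lit 310)) (XT.lf (nat_lit 0) (nat_lit 16478487189) (nat_lit 76) (nat_lit 11650577842) (nat_lit 76) (nat_lit 918267144) (nat_lit 46) (nat_lit 4) (nat_lit 47) (nat_lit 5) (nat_lit 47) (nat_lit 4) (nat_lit 519) (nat_lit 372) (nat_lit 309)))))) (XT.nd (nat_lit 624) (nat_lit 456) (nat_lit 0) (XT.nd (nat_lit 312) (nat_lit 304) (nat_lit 0) (XT.nd (nat_lit 156) (nat_lit 152) (nat_lit 0) (XT.nd (nat_lit 78) (nat_lit 0) (nat_lit 0) (XT.lf (nat_lit 0) (nat_lit 4573814814) (nat_lit 76) (nat_lit 2994465601) (nat_lit 152) (nat_lit 22084714685) (nat_lit 44) (nat_lit 5) (nat_lit 45) (nat_lit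 5) (nat_lit 46) (nat_lit 4) (nat_lit 520) (nat_lit 372) (nat_lit 308)) (XT.lf (nat_lit 0) (nat_lit 16414075539) (nat_lit 152) (nat_lit 7974423761) (nat_lit 0) (nat_lit 5884363037) (nat_lit 44) (nat_lit 5) (nat_lit 46) (nat_lit 4) (nat_lit 44) (nat_lit 4) (nat_lit 521) (nat_lit 372) (nat_lit 307))) (XT.nd (nat_lit 78) (nat_lit 76) (nat_lit 0) (XT.lf (nat_lit 0) (nat_lit 9683823623) (nat_lit 76) (nat_lit 15903972040) (nat_lit 76) (nat_lit 5321653780) (nat_lit 43) (nat_lit 4) (nat_lit 44) (nat_lit 5) (nat_lit 44) (nat_lit 4) (nat_lit 522) (nat_lit 372) (nat_lit 306)) (XT.lf (nat_lit 0) (nat_lit 3425019831) (nat_lit 152) (nat_lit 3680601551) (nat_lit 76) (nat_lit 24457876915) (nat_lit 42) (nat_lit 5) (nat_lit 44) (nat_lit 5) (nat_lit 43) (nat_lit 4) (nat_lit 523) (nat_lit 372) (nat_lit 305)))) (XT.nd (nat_lit 156) (nat_lit 152) (nat_lit 0) (XT.nd (nat_lit 78) (nat_lit 76) (nat_lit 0) (XT.lf (nat_lit 0) (nat_lit 12428330875)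 (nat_lit 152) (nat_lit 17747713705) (nat_lit 0) (nat_lit 2056507786) (nat_lit 41) (nat_lit 5) (nat_lit 43) (nat_lit 4) (nat_lit 41) (nat_lit 4) (nat_lit 524) (nat_lit 372) (nat_lit 304)) (XT.lf (nat_lit 0) (nat_lit 167074700) (nat_lit 76) (nat_lit 21585815922) (nat_lit 76) (nat_lit 11167253299) (nat_lit 40) (nat_lit 4) (nat_lit 41) (nat_lit 5) (nat_lit 41) (nat_lit 4) (nat_lit 525) (nat_lit 372) (nat_lit 303))) (XT.nd (nat_lit 78) (nat_lit 152) (nat_lit 0) (XT.lf (nat_lit 0) (nat_lit 18868658143) (nat_lit 76) (nat_lit 12610001031) (nat_lit 76) (nat_lit 2146060220) (nat_lit 40) (nat_lit 4) (nat_lit 41) (nat_lit 5) (nat_lit 41) (nat_lit 4) (nat_lit 526) (nat_lit 372) (nat_lit 302)) (XT.lf (nat_lit 0) (nat_lit 3671560105) (nat_lit 76) (nat_lit 3313443544) (nat_lit 152) (nat_lit 27364007872) (nat_lit 38) (nat_lit 5) (nat_lit 39) (nat_lit 5) (nat_lit 40) (nat_lit 4) (nat_lit 527) (nat_lit 372) (nat_lit 301))))) (XT.nd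 (nat_lit 312) (nat_lit 228) (nat_lit 0) (XT.nd (nat_lit 156) (nat_lit 152) (nat_lit 0) (XT.nd (nat_lit 78) (nat_lit 76) (nat_lit 0) (XT.lf (nat_lit 0) (nat_lit 16500974866) (nat_lit 152) (nat_lit 12331288869) (nat_lit 0) (nat_lit 6257508265) (nat_lit 38) (nat_lit 5) (nat_lit 40) (nat_lit 4) (nat_lit 38) (nat_lit 4) (nat_lit 528) (nat_lit 372) (nat_lit 300)) (XT.lf (nat_lit 0) (nat_lit 6551257958) (nat_lit 76) (nat_lit 19792028169) (nat_lit 76) (nat_lit 9508243636) (nat_lit 37) (nat_lit 4) (nat_lit 38) (nat_lit 5) (nat_lit 38) (nat_lit 4) (nat_lit 529) (nat_lit 372) (nat_lit 299))) (XT.nd (nat_lit 78) (nat_lit 152) (nat_lit 0) (XT.lf (nat_lit 0) (nat_lit 26145096608) (nat_lit 76) (nat_lit 10405933595) (nat_lit 76) (nat_lit 83005438) (nat_lit 37) (nat_lit 4) (nat_lit 38) (nat_lit 5) (nat_lit 38) (nat_lit 4) (nat_lit 530) (nat_lit 372) (nat_lit 298)) (XT.lf (nat_lit 0) (nat_lit 8861246935) (nat_lit 76) (nat_lit 607806567)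 (nat_lit 152) (nat_lit 27967231372) (nat_lit 35) (nat_lit 5) (nat_lit 36) (nat_lit 5) (nat_lit 37) (nat_lit 4) (nat_lit 531) (nat_lit 372) (nat_lit 297)))) (XT.nd (nat_lit 156) (nat_lit 152) (nat_lit 0) (XT.nd (nat_lit 78) (nat_lit 76) (nat_lit 0) (XT.lf (nat_lit 0) (nat_lit 19450886782) (nat_lit 152) (nat_lit 9451436128) (nat_lit 0) (nat_lit 9355907855) (nat_lit 35) (nat_lit 5) (nat_lit 37) (nat_lit 4) (nat_lit 35) (nat_lit 4) (nat_lit 532) (nat_lit 372) (nat_lit 296)) (XT.lf (nat_lit 0) (nat_lit 10338763086) (nat_lit 76) (nat_lit 19447109405) (nat_lit 76) (nat_lit 9317351876) (nat_lit 34) (nat_lit 4) (nat_lit 35) (nat_lit 5) (nat_lit 35) (nat_lit 4) (nat_lit 533) (nat_lit 372) (nat_lit 295))) (XT.nd (nat_lit 78) (nat_lit 76) (nat_lit 0) (XT.lf (nat_lit 0) (nat_lit 493118719) (nat_lit 152) (nat_lit 9162492161) (nat_lit 76) (nat_lit 30316484156) (nat_lit 33) (nat_lit 5) (nat_lit 35) (nat_lit 5) (nat_lit 34) (nat_lit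 4) (nat_lit 534) (nat_lit 372) (nat_lit 294)) (XT.lf (nat_lit 0) (nat_lit 10472303402) (nat_lit 152) (nat_lit 29817133207) (nat_lit 0) (nat_lit 572977837) (nat_lit 32) (nat_lit 5) (nat_lit 34) (nat_lit 4) (nat_lit 32) (nat_lit 4) (nat_lit 535) (nat_lit 372) (nat_lit 293))))))) (XT.nd (nat_lit 1170) (nat_lit 152) (nat_lit 0) (XT.nd (nat_lit 546) (nat_lit 456) (nat_lit 0) (XT.nd (nat_lit 234) (nat_lit 228) (nat_lit 0) (XT.nd (nat_lit 78) (nat_lit 76) (nat_lit 0) (XT.lf (nat_lit 0) (nat_lit 20889763300) (nat_lit 152) (nat_lit 9925975976) (nat_lit 0) (nat_lit 10959537398) (nat_lit 32) (nat_lit 5) (nat_lit 34) (nat_lit 4) (nat_lit 32) (nat_lit 4) (nat_lit 536) (nat_lit 372) (nat_lit 292)) (XT.nd (nat_lit 78) (nat_lit 0) (nat_lit 0) (XT.lf (nat_lit 0) (nat_lit 10673196234) (nat_lit 76) (nat_lit 21000468724) (nat_lit 76) (nat_lit 11040242493) (nat_lit 31) (nat_lit 4) (nat_lit 32) (nat_lit 5) (nat_lit 32) (nat_lit 4) (nat_lit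 537) (nat_lit 372) (nat_lit 291)) (XT.lf (nat_lit 0) (nat_lit 31997775053) (nat_lit 76) (nat_lit 10835356815) (nat_lit 76) (nat_lit 846004051) (nat_lit 31) (nat_lit 4) (nat_lit 32) (nat_lit 5) (nat_lit 32) (nat_lit 4) (nat_lit 538) (nat_lit 372) (nat_lit 290)))) (XT.nd (nat_lit 156) (nat_lit 76) (nat_lit 0) (XT.nd (nat_lit 78) (nat_lit 0) (nat_lit 0) (XT.lf (nat_lit 0) (nat_lit 9282928136) (nat_lit 76) (nat_lit 224736437) (nat_lit 152) (nat_lit 35161613191) (nat_lit 29) (nat_lit 5) (nat_lit 30) (nat_lit 5) (nat_lit 31) (nat_lit 4) (nat_lit 539) (nat_lit 372) (nat_lit 289)) (XT.lf (nat_lit 0) (nat_lit 20329749495) (nat_lit 152) (nat_lit 14776639675) (nat_lit 0) (nat_lit 10577239301) (nat_lit 29) (nat_lit 5) (nat_lit 31) (nat_lit 4) (nat_lit 29) (nat_lit 4) (nat_lit 540) (nat_lit 372) (nat_lit 288))) (XT.nd (nat_lit 78) (nat_lit 0) (nat_lit 0) (XT.lf (nat_lit 0) (nat_lit 6484193326) (nat_lit 76) (nat_lit 25011021878)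 (nat_lit 76) (nat_lit 15232633137) (nat_lit 28) (nat_lit 4) (nat_lit 29) (nat_lit 5) (nat_lit 29) (nat_lit 4) (nat_lit 541) (nat_lit 372) (nat_lit 287)) (XT.lf (nat_lit 0) (nat_lit 28595181633) (nat_lit 76) (nat_lit 14504305813) (nat_lit 76) (nat_lit 4700792270) (nat_lit 28) (nat_lit 4) (nat_lit 29) (nat_lit 5) (nat_lit 29) (nat_lit 4) (nat_lit 542) (nat_lit 372) (nat_lit 286))))) (XT.nd (nat_lit 312) (nat_lit 228) (nat_lit 0) (XT.nd (nat_lit 156) (nat_lit 76) (nat_lit 0) (XT.nd (nat_lit 78) (nat_lit 0) (nat_lit 0) (XT.lf (nat_lit 0) (nat_lit 2362810005) (nat_lit 76) (nat_lit 3642469088) (nat_lit 152) (nat_lit 42898485685) (nat_lit 26) (nat_lit 5) (nat_lit 27) (nat_lit 5) (nat_lit 28) (nat_lit 4) (nat_lit 543) (nat_lit 372) (nat_lit 285)) (XT.lf (nat_lit 0) (nat_lit 17161975420) (nat_lit 152) (nat_lit 25272939329) (nat_lit 0) (nat_lit 7597325816) (nat_lit 26) (nat_lit 5) (nat_lit 28) (nat_lit 4) (nat_lit 26) (nat_lit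 4) (nat_lit 544) (nat_lit 372) (nat_lit 284))) (XT.nd (nat_lit 78) (nat_lit 76) (nat_lit 0) (XT.lf (nat_lit 0) (nat_lit 28646272438) (nat_lit 152) (nat_lit 3489211585) (nat_lit 0) (nat_lit 19059299773) (nat_lit 26) (nat_lit 5) (nat_lit 28) (nat_lit 4) (nat_lit 26) (nat_lit 4) (nat_lit 545) (nat_lit 372) (nat_lit 283)) (XT.lf (nat_lit 0) (nat_lit 19239712514) (nat_lit 76) (nat_lit 21378422701) (nat_lit 76) (nat_lit 11769777161) (nat_lit 25) (nat_lit 4) (nat_lit 26) (nat_lit 5) (nat_lit 26) (nat_lit 4) (nat_lit 546) (nat_lit 372) (nat_lit 282)))) (XT.nd (nat_lit 156) (nat_lit 76) (nat_lit 0) (XT.nd (nat_lit 78) (nat_lit 152) (nat_lit 0) (XT.lf (nat_lit 0) (nat_lit 42639099279) (nat_lit 76) (nat_lit 10303805169) (nat_lit 76) (nat_lit 674118003) (nat_lit 25) (nat_lit 4) (nat_lit 26) (nat_lit 5) (nat_lit 26) (nat_lit 4) (nat_lit 547) (nat_lit 372) (nat_lit 281)) (XT.lf (nat_lit 0) (nat_lit 10630687223) (nat_lit 152)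 (nat_lit 42984990776) (nat_lit 0) (nat_lit 1261642630) (nat_lit 23) (nat_lit 5) (nat_lit 25) (nat_lit 4) (nat_lit 23) (nat_lit 4) (nat_lit 548) (nat_lit 372) (nat_lit 280))) (XT.nd (nat_lit 78) (nat_lit 76) (nat_lit 0) (XT.lf (nat_lit 0) (nat_lit 22434407747) (nat_lit 152) (nat_lit 20689513219) (nat_lit 0) (nat_lit 13046107085) (nat_lit 23) (nat_lit 5) (nat_lit 25) (nat_lit 4) (nat_lit 23) (nat_lit 4) (nat_lit 549) (nat_lit 372) (nat_lit 279)) (XT.lf (nat_lit 0) (nat_lit 2239551370) (nat_lit 76) (nat_lit 32334749751) (nat_lit 76) (nat_lit 22927753877) (nat_lit 22) (nat_lit 4) (nat_lit 23) (nat_lit 5) (nat_lit 23) (nat_lit 4) (nat_lit 550) (nat_lit 372) (nat_lit 278)))))) (XT.nd (nat_lit 55224) (nat_lit 0) (nat_lit 8132) (XT.nd (nat_lit 54912) (nat_lit 0) (nat_lit 9956) (XT.nd (nat_lit 156) (nat_lit 152) (nat_lit 0) (XT.nd (nat_lit 78) (nat_lit 0) (nat_lit 0) (XT.lf (nat_lit 0) (nat_lit 26202397931) (nat_lit 76)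 (nat_lit 21045847942) (nat_lit 76) (nat_lit 11620701376) (nat_lit 22) (nat_lit 4) (nat_lit 23) (nat_lit 5) (nat_lit 23) (nat_lit 4) (nat_lit 551) (nat_lit 372) (nat_lit 277)) (XT.lf (nat_lit 0) (nat_lit 50808202992) (nat_lit 76) (nat_lit 9456274966) (nat_lit 76) (nat_lit 13506369) (nat_lit 22) (nat_lit 4) (nat_lit 23) (nat_lit 5) (nat_lit 23) (nat_lit 4) (nat_lit 552) (nat_lit 372) (nat_lit 276))) (XT.nd (nat_lit 78) (nat_lit 0) (nat_lit 0) (XT.lf (nat_lit 0) (nat_lit 11837238194) (nat_lit 152) (nat_lit 47231868523) (nat_lit 0) (nat_lit 2652891238) (nat_lit 20) (nat_lit 5) (nat_lit 22) (nat_lit 4) (nat_lit 20) (nat_lit 4) (nat_lit 553) (nat_lit 372) (nat_lit 275)) (XT.lf (nat_lit 0) (nat_lit 24196261911) (nat_lit 152) (nat_lit 24012687040) (nat_lit 0) (nat_lit 14995788299) (nat_lit 20) (nat_lit 5) (nat_lit 22) (nat_lit 4) (nat_lit 20) (nat_lit 4) (nat_lit 554) (nat_lit 372) (nat_lit 274)))) (XT.nd (nat_lit 156)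 (nat_lit 608) (nat_lit 0) (XT.nd (nat_lit 78) (nat_lit 304) (nat_lit 0) (XT.lf (nat_lit 0) (nat_lit 4103418630) (nat_lit 304) (nat_lit 350141654) (nat_lit 304) (nat_lit 350141654) (nat_lit 163) (nat_lit 4) (nat_lit 167) (nat_lit 5) (nat_lit 167) (nat_lit 4) (nat_lit 454) (nat_lit 373) (nat_lit 373)) (XT.lf (nat_lit 0) (nat_lit 4020509378) (nat_lit 304) (nat_lit 2463609685) (nat_lit 0) (nat_lit 3245653873) (nat_lit 159) (nat_lit 5) (nat_lit 163) (nat_lit 4) (nat_lit 159) (nat_lit 4) (nat_lit 455) (nat_lit 373) (nat_lit 372))) (XT.nd (nat_lit 78) (nat_lit 304) (nat_lit 0) (XT.lf (nat_lit 0) (nat_lit 6303442416) (nat_lit 304) (nat_lit 2540035877) (nat_lit 304) (nat_lit 1012893473) (nat_lit 155) (nat_lit 4) (nat_lit 159) (nat_lit 5) (nat_lit 159) (nat_lit 4) (nat_lit 456) (nat_lit 373) (nat_lit 371)) (XT.lf (nat_lit 0) (nat_lit 3734109171) (nat_lit 304) (nat_lit 4709686590) (nat_lit 0) (nat_lit 1542344089) (nat_lit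 151) (nat_lit 5) (nat_lit 155) (nat_lit 4) (nat_lit 151) (nat_lit 4) (nat_lit 457) (nat_lit 373) (nat_lit 370))))) (XT.nd (nat_lit 312) (nat_lit 760) (nat_lit 0) (XT.nd (nat_lit 156) (nat_lit 532) (nat_lit 0) (XT.nd (nat_lit 78) (nat_lit 304) (nat_lit 0) (XT.lf (nat_lit 0) (nat_lit 4198149226) (nat_lit 228) (nat_lit 4400847562) (nat_lit 228) (nat_lit 1520633400) (nat_lit 148) (nat_lit 4) (nat_lit 151) (nat_lit 5) (nat_lit 151) (nat_lit 4) (nat_lit 458) (nat_lit 373) (nat_lit 369)) (XT.lf (nat_lit 0) (nat_lit 3067758319) (nat_lit 228) (nat_lit 191537073) (nat_lit 304) (nat_lit 6997707378) (nat_lit 144) (nat_lit 5) (nat_lit 147) (nat_lit 5) (nat_lit 148) (nat_lit 4) (nat_lit 459) (nat_lit 373) (nat_lit 368))) (XT.nd (nat_lit 78) (nat_lit 304) (nat_lit 0) (XT.lf (nat_lit 0) (nat_lit 1857880668) (nat_lit 228) (nat_lit 6307525279) (nat_lit 228) (nat_lit 2232243128) (nat_lit 141) (nat_lit 4) (nat_lit 144) (nat_lit 5)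 (nat_lit 144) (nat_lit 4) (nat_lit 460) (nat_lit 373) (nat_lit 367)) (XT.lf (nat_lit 0) (nat_lit 592047621) (nat_lit 228) (nat_lit 2008448862) (nat_lit 304) (nat_lit 7941954894) (nat_lit 137) (nat_lit 5) (nat_lit 140) (nat_lit 5) (nat_lit 141) (nat_lit 4) (nat_lit 461) (nat_lit 373) (nat_lit 366)))) (XT.nd (nat_lit 156) (nat_lit 456) (nat_lit 0) (XT.nd (nat_lit 78) (nat_lit 304) (nat_lit 0) (XT.lf (nat_lit 0) (nat_lit 7540035401) (nat_lit 304) (nat_lit 737679758) (nat_lit 0) (nat_lit 2413023297) (nat_lit 137) (nat_lit 5) (nat_lit 141) (nat_lit 4) (nat_lit 137) (nat_lit 4) (nat_lit 462) (nat_lit 373) (nat_lit 365)) (XT.lf (nat_lit 0) (nat_lit 1752670937) (nat_lit 304) (nat_lit 2128862202) (nat_lit 76) (nat_lit 6961334380) (nat_lit 133) (nat_lit 5) (nat_lit 137) (nat_lit 5) (nat_lit 134) (nat_lit 4) (nat_lit 463) (nat_lit 373) (nat_lit 364))) (XT.nd (nat_lit 78) (nat_lit 304) (nat_lit 0) (XT.lf (nat_lit 0) (nat_lit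 6724857681) (nat_lit 228) (nat_lit 3598150603) (nat_lit 0) (nat_lit 676069071) (nat_lit 131) (nat_lit 5) (nat_lit 134) (nat_lit 4) (nat_lit 131) (nat_lit 4) (nat_lit 464) (nat_lit 373) (nat_lit 363)) (XT.lf (nat_lit 0) (nat_lit 691224831) (nat_lit 304) (nat_lit 5157872974) (nat_lit 76) (nat_lit 5310130065) (nat_lit 127) (nat_lit 5) (nat_lit 131) (nat_lit 5) (nat_lit 128) (nat_lit 4) (nat_lit 465) (nat_lit 373) (nat_lit 362))))))))
noncomputable def xc41 : XT := (XT.nd (nat_lit 2418) (nat_lit 2280) (nat_lit 0) (XT.nd (nat_lit 1170) (nat_lit 1824) (nat_lit 0) (XT.nd (nat_lit 546) (nat_lit 1292) (nat_lit 0) (XT.nd (nat_lit 234) (nat_lit 684) (nat_lit 0) (XT.nd (nat_lit 78) (nat_lit 456) (nat_lit 0) (XT.lf (nat_lit 0) (nat_lit 4513416154) (nat_lit 152) (nat_lit 1186990643) (nat_lit 228) (nat_lit 5623089632) (nat_lit 125) (nat_lit 5) (nat_lit 127) (nat_lit 5) (nat_lit 128) (nat_lit 4) (nat_lit 466) (nat_lit 373) (nat_lit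 361)) (XT.nd (nat_lit 78) (nat_lit 228) (nat_lit 0) (XT.lf (nat_lit 0) (nat_lit 2939472779) (nat_lit 228) (nat_lit 7937172748) (nat_lit 228) (nat_lit 615547525) (nat_lit 122) (nat_lit 4) (nat_lit 125) (nat_lit 5) (nat_lit 125) (nat_lit 4) (nat_lit 467) (nat_lit 373) (nat_lit 360)) (XT.lf (nat_lit 0) (nat_lit 1253239894) (nat_lit 152) (nat_lit 3195041417) (nat_lit 228) (nat_lit 7216521767) (nat_lit 119) (nat_lit 5) (nat_lit 121) (nat_lit 5) (nat_lit 122) (nat_lit 4) (nat_lit 468) (nat_lit 373) (nat_lit 359)))) (XT.nd (nat_lit 156) (nat_lit 380) (nat_lit 0) (XT.nd (nat_lit 78) (nat_lit 304) (nat_lit 0) (XT.lf (nat_lit 0) (nat_lit 9657085095) (nat_lit 228) (nat_lit 507360551) (nat_lit 0) (nat_lit 1677803118) (nat_lit 119) (nat_lit 5) (nat_lit 122) (nat_lit 4) (nat_lit 119) (nat_lit 4) (nat_lit 469) (nat_lit 373) (nat_lit 358)) (XT.lf (nat_lit 0) (nat_lit 2968484406) (nat_lit 304) (nat_lit 2369781647) (nat_lit 76)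 (nat_lit 6684995406) (nat_lit 115) (nat_lit 5) (nat_lit 119) (nat_lit 5) (nat_lit 116) (nat_lit 4) (nat_lit 470) (nat_lit 373) (nat_lit 357))) (XT.nd (nat_lit 78) (nat_lit 228) (nat_lit 0) (XT.lf (nat_lit 0) (nat_lit 7884071311) (nat_lit 152) (nat_lit 334779714) (nat_lit 228) (nat_lit 3990626478) (nat_lit 113) (nat_lit 5) (nat_lit 115) (nat_lit 5) (nat_lit 116) (nat_lit 4) (nat_lit 471) (nat_lit 373) (nat_lit 356)) (XT.lf (nat_lit 0) (nat_lit 1235521122) (nat_lit 228) (nat_lit 6416949558) (nat_lit 76) (nat_lit 4747439112) (nat_lit 110) (nat_lit 5) (nat_lit 113) (nat_lit 5) (nat_lit 111) (nat_lit 4) (nat_lit 472) (nat_lit 373) (nat_lit 355))))) (XT.nd (nat_lit 312) (nat_lit 760) (nat_lit 0) (XT.nd (nat_lit 156) (nat_lit 228) (nat_lit 0) (XT.nd (nat_lit 78) (nat_lit 152) (nat_lit 0) (XT.lf (nat_lit 0) (nat_lit 3959730436) (nat_lit 152) (nat_lit 2569758814) (nat_lit 228) (nat_lit 6065645796) (nat_lit 108) (nat_lit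 5) (nat_lit 110) (nat_lit 5) (nat_lit 111) (nat_lit 4) (nat_lit 473) (nat_lit 373) (nat_lit 354)) (XT.lf (nat_lit 0) (nat_lit 1825121255) (nat_lit 152) (nat_lit 10171943454) (nat_lit 152) (nat_lit 798711264) (nat_lit 106) (nat_lit 4) (nat_lit 108) (nat_lit 5) (nat_lit 108) (nat_lit 4) (nat_lit 474) (nat_lit 373) (nat_lit 353))) (XT.nd (nat_lit 78) (nat_lit 152) (nat_lit 0) (XT.lf (nat_lit 0) (nat_lit 4555847933) (nat_lit 228) (nat_lit 463532212) (nat_lit 76) (nat_lit 7981127562) (nat_lit 105) (nat_lit 5) (nat_lit 108) (nat_lit 5) (nat_lit 106) (nat_lit 4) (nat_lit 475) (nat_lit 373) (nat_lit 352)) (XT.lf (nat_lit 0) (nat_lit 10067093773) (nat_lit 228) (nat_lit 2824858612) (nat_lit 0) (nat_lit 318831022) (nat_lit 103) (nat_lit 5) (nat_lit 106) (nat_lit 4) (nat_lit 103) (nat_lit 4) (nat_lit 476) (nat_lit 373) (nat_lit 351)))) (XT.nd (nat_lit 156) (nat_lit 380) (nat_lit 0) (XT.nd (nat_lit 78) (nat_lit 152) (nat_lit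 0) (XT.lf (nat_lit 0) (nat_lit 2313164762) (nat_lit 228) (nat_lit 5362470524) (nat_lit 76) (nat_lit 5749804687) (nat_lit 100) (nat_lit 5) (nat_lit 103) (nat_lit 5) (nat_lit 101) (nat_lit 4) (nat_lit 477) (nat_lit 373) (nat_lit 350)) (XT.lf (nat_lit 0) (nat_lit 5602529726) (nat_lit 152) (nat_lit 2260342100) (nat_lit 228) (nat_lit 5782962828) (nat_lit 98) (nat_lit 5) (nat_lit 100) (nat_lit 5) (nat_lit 101) (nat_lit 4) (nat_lit 478) (nat_lit 373) (nat_lit 349))) (XT.nd (nat_lit 78) (nat_lit 228) (nat_lit 0) (XT.lf (nat_lit 0) (nat_lit 2995827267) (nat_lit 152) (nat_lit 10608632465) (nat_lit 152) (nat_lit 267621839) (nat_lit 96) (nat_lit 4) (nat_lit 98) (nat_lit 5) (nat_lit 98) (nat_lit 4) (nat_lit 479) (nat_lit 373) (nat_lit 348)) (XT.lf (nat_lit 0) (nat_lit 191284368) (nat_lit 152) (nat_lit 5132688920) (nat_lit 228) (nat_lit 8779090792) (nat_lit 93) (nat_lit 5) (nat_lit 95) (nat_lit 5) (nat_lit 96) (nat_lit 4) (nat_lit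 480) (nat_lit 373) (nat_lit 347)))))) (XT.nd (nat_lit 624) (nat_lit 912) (nat_lit 0) (XT.nd (nat_lit 312) (nat_lit 456) (nat_lit 0) (XT.nd (nat_lit 156) (nat_lit 228) (nat_lit 0) (XT.nd (nat_lit 78) (nat_lit 228) (nat_lit 0) (XT.lf (nat_lit 0) (nat_lit 11104230410) (nat_lit 228) (nat_lit 2698378659) (nat_lit 0) (nat_lit 537500621) (nat_lit 93) (nat_lit 5) (nat_lit 96) (nat_lit 4) (nat_lit 93) (nat_lit 4) (nat_lit 481) (nat_lit 373) (nat_lit 346)) (XT.lf (nat_lit 0) (nat_lit 2474463956) (nat_lit 228) (nat_lit 5795571232) (nat_lit 76) (nat_lit 6312046795) (nat_lit 90) (nat_lit 5) (nat_lit 93) (nat_lit 5) (nat_lit 91) (nat_lit 4) (nat_lit 482) (nat_lit 373) (nat_lit 345))) (XT.nd (nat_lit 78) (nat_lit 152) (nat_lit 0) (XT.lf (nat_lit 0) (nat_lit 5759647144) (nat_lit 76) (nat_lit 2527566442) (nat_lit 152) (nat_lit 6543256431) (nat_lit 89) (nat_lit 5) (nat_lit 90) (nat_lit 5) (nat_lit 91) (nat_lit 4) (nat_lit 483) (nat_lit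 373) (nat_lit 344)) (XT.lf (nat_lit 0) (nat_lit 2550925238) (nat_lit 152) (nat_lit 11753137462) (nat_lit 152) (nat_lit 781357178) (nat_lit 87) (nat_lit 4) (nat_lit 89) (nat_lit 5) (nat_lit 89) (nat_lit 4) (nat_lit 484) (nat_lit 373) (nat_lit 343)))) (XT.nd (nat_lit 156) (nat_lit 304) (nat_lit 0) (XT.nd (nat_lit 78) (nat_lit 76) (nat_lit 0) (XT.lf (nat_lit 0) (nat_lit 5084033871) (nat_lit 228) (nat_lit 875093170) (nat_lit 76) (nat_lit 9386470776) (nat_lit 86) (nat_lit 5) (nat_lit 89) (nat_lit 5) (nat_lit 87) (nat_lit 4) (nat_lit 485) (nat_lit 373) (nat_lit 342)) (XT.lf (nat_lit 0) (nat_lit 11133929015) (nat_lit 152) (nat_lit 4425408006) (nat_lit 0) (nat_lit 53286133) (nat_lit 85) (nat_lit 5) (nat_lit 87) (nat_lit 4) (nat_lit 85) (nat_lit 4) (nat_lit 486) (nat_lit 373) (nat_lit 341))) (XT.nd (nat_lit 78) (nat_lit 76) (nat_lit 0) (XT.lf (nat_lit 0) (nat_lit 1507539810) (nat_lit 228) (nat_lit 8225238790) (nat_lit 76)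 (nat_lit 6152694612) (nat_lit 82) (nat_lit 5) (nat_lit 85) (nat_lit 5) (nat_lit 83) (nat_lit 4) (nat_lit 487) (nat_lit 373) (nat_lit 340)) (XT.lf (nat_lit 0) (nat_lit 3908183328) (nat_lit 76) (nat_lit 3674408615) (nat_lit 152) (nat_lit 8582610489) (nat_lit 81) (nat_lit 5) (nat_lit 82) (nat_lit 5) (nat_lit 83) (nat_lit 4) (nat_lit 488) (nat_lit 373) (nat_lit 339))))) (XT.nd (nat_lit 312) (nat_lit 456) (nat_lit 0) (XT.nd (nat_lit 156) (nat_lit 228) (nat_lit 0) (XT.nd (nat_lit 78) (nat_lit 228) (nat_lit 0) (XT.lf (nat_lit 0) (nat_lit 13865219744) (nat_lit 152) (nat_lit 59618747) (nat_lit 0) (nat_lit 2527726692) (nat_lit 81) (nat_lit 5) (nat_lit 83) (nat_lit 4) (nat_lit 81) (nat_lit 4) (nat_lit 489) (nat_lit 373) (nat_lit 338)) (XT.lf (nat_lit 0) (nat_lit 3594834632) (nat_lit 228) (nat_lit 4222031276) (nat_lit 76) (nat_lit 8928337546) (nat_lit 78) (nat_lit 5) (nat_lit 81) (nat_lit 5) (nat_lit 79) (nat_lit 4) (nat_lit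 490) (nat_lit 373) (nat_lit 337))) (XT.nd (nat_lit 78) (nat_lit 152) (nat_lit 0) (XT.lf (nat_lit 0) (nat_lit 8423782457) (nat_lit 76) (nat_lit 1487586046) (nat_lit 152) (nat_lit 7134458367) (nat_lit 77) (nat_lit 5) (nat_lit 78) (nat_lit 5) (nat_lit 79) (nat_lit 4) (nat_lit 491) (nat_lit 373) (nat_lit 336)) (XT.lf (nat_lit 0) (nat_lit 4058491318) (nat_lit 152) (nat_lit 12408855549) (nat_lit 152) (nat_lit 886624895) (nat_lit 75) (nat_lit 4) (nat_lit 77) (nat_lit 5) (nat_lit 77) (nat_lit 4) (nat_lit 492) (nat_lit 373) (nat_lit 335)))) (XT.nd (nat_lit 156) (nat_lit 304) (nat_lit 0) (XT.nd (nat_lit 78) (nat_lit 76) (nat_lit 0) (XT.lf (nat_lit 0) (nat_lit 5462635132) (nat_lit 228) (nat_lit 594832648) (nat_lit 76) (nat_lit 11611626298) (nat_lit 74) (nat_lit 5) (nat_lit 77) (nat_lit 5) (nat_lit 75) (nat_lit 4) (nat_lit 493) (nat_lit 373) (nat_lit 334)) (XT.lf (nat_lit 0) (nat_lit 12032637486) (nat_lit 152) (nat_lit 5422828252)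 (nat_lit 0) (nat_lit 536499548) (nat_lit 73) (nat_lit 5) (nat_lit 75) (nat_lit 4) (nat_lit 73) (nat_lit 4) (nat_lit 494) (nat_lit 373) (nat_lit 333))) (XT.nd (nat_lit 78) (nat_lit 76) (nat_lit 0) (XT.lf (nat_lit 0) (nat_lit 529313532) (nat_lit 228) (nat_lit 10569656833) (nat_lit 76) (nat_lit 7223515197) (nat_lit 70) (nat_lit 5) (nat_lit 73) (nat_lit 5) (nat_lit 71) (nat_lit 4) (nat_lit 495) (nat_lit 373) (nat_lit 332)) (XT.lf (nat_lit 0) (nat_lit 2615995191) (nat_lit 76) (nat_lit 4479508473) (nat_lit 152) (nat_lit 11565568724) (nat_lit 69) (nat_lit 5) (nat_lit 70) (nat_lit 5) (nat_lit 71) (nat_lit 4) (nat_lit 496) (nat_lit 373) (nat_lit 331))))))) (XT.nd (nat_lit 1170) (nat_lit 1064) (nat_lit 0) (XT.nd (nat_lit 546) (nat_lit 608) (nat_lit 0) (XT.nd (nat_lit 234) (nat_lit 304) (nat_lit 0) (XT.nd (nat_lit 78) (nat_lit 304) (nat_lit 0) (XT.lf (nat_lit 0) (nat_lit 13911331829) (nat_lit 152) (nat_lit 2765579786) (nat_lit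 0) (nat_lit 2331326632) (nat_lit 69) (nat_lit 5) (nat_lit 71) (nat_lit 4) (nat_lit 69) (nat_lit 4) (nat_lit 497) (nat_lit 373) (nat_lit 330)) (XT.nd (nat_lit 78) (nat_lit 76) (nat_lit 0) (XT.lf (nat_lit 0) (nat_lit 1610116868) (nat_lit 228) (nat_lit 8442986572) (nat_lit 76) (nat_lit 9310019357) (nat_lit 66) (nat_lit 5) (nat_lit 69) (nat_lit 5) (nat_lit 67) (nat_lit 4) (nat_lit 498) (nat_lit 373) (nat_lit 329)) (XT.lf (nat_lit 0) (nat_lit 5252001758) (nat_lit 76) (nat_lit 3167315263) (nat_lit 152) (nat_lit 11307721574) (nat_lit 65) (nat_lit 5) (nat_lit 66) (nat_lit 5) (nat_lit 67) (nat_lit 4) (nat_lit 499) (nat_lit 373) (nat_lit 328)))) (XT.nd (nat_lit 156) (nat_lit 152) (nat_lit 0) (XT.nd (nat_lit 78) (nat_lit 152) (nat_lit 0) (XT.lf (nat_lit 0) (nat_lit 15481492243) (nat_lit 152) (nat_lit 752165847) (nat_lit 0) (nat_lit 3866753691) (nat_lit 65) (nat_lit 5) (nat_lit 67) (nat_lit 4) (nat_lit 65) (nat_lit 4) (nat_lit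 500) (nat_lit 373) (nat_lit 327)) (XT.lf (nat_lit 0) (nat_lit 2315035475) (nat_lit 152) (nat_lit 7032069126) (nat_lit 76) (nat_lit 11134563754) (nat_lit 63) (nat_lit 5) (nat_lit 65) (nat_lit 5) (nat_lit 64) (nat_lit 4) (nat_lit 501) (nat_lit 373) (nat_lit 326))) (XT.nd (nat_lit 78) (nat_lit 76) (nat_lit 0) (XT.lf (nat_lit 0) (nat_lit 7171811255) (nat_lit 76) (nat_lit 2196095893) (nat_lit 152) (nat_lit 11504972320) (nat_lit 62) (nat_lit 5) (nat_lit 63) (nat_lit 5) (nat_lit 64) (nat_lit 4) (nat_lit 502) (nat_lit 373) (nat_lit 325)) (XT.lf (nat_lit 0) (nat_lit 490271633) (nat_lit 76) (nat_lit 16195465334) (nat_lit 76) (nat_lit 4588489576) (nat_lit 61) (nat_lit 4) (nat_lit 62) (nat_lit 5) (nat_lit 62) (nat_lit 4) (nat_lit 503) (nat_lit 373) (nat_lit 324))))) (XT.nd (nat_lit 312) (nat_lit 304) (nat_lit 0) (XT.nd (nat_lit 156) (nat_lit 152) (nat_lit 0) (XT.nd (nat_lit 78) (nat_lit 76) (nat_lit 0) (XT.lf (nat_lit 0) (nat_lit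 2574794461) (nat_lit 152) (nat_lit 6483965012) (nat_lit 76) (nat_lit 12625460616) (nat_lit 60) (nat_lit 5) (nat_lit 62) (nat_lit 5) (nat_lit 61) (nat_lit 4) (nat_lit 504) (nat_lit 373) (nat_lit 323)) (XT.lf (nat_lit 0) (nat_lit 8222940834) (nat_lit 76) (nat_lit 1646289054) (nat_lit 152) (nat_lit 12235667048) (nat_lit 59) (nat_lit 5) (nat_lit 60) (nat_lit 5) (nat_lit 61) (nat_lit 4) (nat_lit 505) (nat_lit 373) (nat_lit 322))) (XT.nd (nat_lit 78) (nat_lit 76) (nat_lit 0) (XT.lf (nat_lit 0) (nat_lit 787665875) (nat_lit 76) (nat_lit 16655642618) (nat_lit 76) (nat_lit 5093061991) (nat_lit 58) (nat_lit 4) (nat_lit 59) (nat_lit 5) (nat_lit 59) (nat_lit 4) (nat_lit 506) (nat_lit 373) (nat_lit 321)) (XT.lf (nat_lit 0) (nat_lit 2307118540) (nat_lit 152) (nat_lit 6971374503) (nat_lit 76) (nat_lit 13699018838) (nat_lit 57) (nat_lit 5) (nat_lit 59) (nat_lit 5) (nat_lit 58) (nat_lit 4) (nat_lit 507) (nat_lit 373) (nat_lit 320))))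 (XT.nd (nat_lit 156) (nat_lit 228) (nat_lit 0) (XT.nd (nat_lit 78) (nat_lit 0) (nat_lit 0) (XT.lf (nat_lit 0) (nat_lit 8226082630) (nat_lit 76) (nat_lit 1611585128) (nat_lit 152) (nat_lit 13592385746) (nat_lit 56) (nat_lit 5) (nat_lit 57) (nat_lit 5) (nat_lit 58) (nat_lit 4) (nat_lit 508) (nat_lit 373) (nat_lit 319)) (XT.lf (nat_lit 0) (nat_lit 17657404070) (nat_lit 152) (nat_lit 66196050) (nat_lit 0) (nat_lit 6170673758) (nat_lit 56) (nat_lit 5) (nat_lit 58) (nat_lit 4) (nat_lit 56) (nat_lit 4) (nat_lit 509) (nat_lit 373) (nat_lit 318))) (XT.nd (nat_lit 78) (nat_lit 76) (nat_lit 0) (XT.lf (nat_lit 0) (nat_lit 1414659807) (nat_lit 152) (nat_lit 8696928958) (nat_lit 76) (nat_lit 14257401967) (nat_lit 54) (nat_lit 5) (nat_lit 56) (nat_lit 5) (nat_lit 55) (nat_lit 4) (nat_lit 510) (nat_lit 373) (nat_lit 317)) (XT.lf (nat_lit 0) (nat_lit 6970604701) (nat_lit 76) (nat_lit 2201249483) (nat_lit 152) (nat_lit 15684198724)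 (nat_lit 53) (nat_lit 5) (nat_lit 54) (nat_lit 5) (nat_lit 55) (nat_lit 4) (nat_lit 511) (nat_lit 373) (nat_lit 316)))))) (XT.nd (nat_lit 624) (nat_lit 532) (nat_lit 0) (XT.nd (nat_lit 312) (nat_lit 304) (nat_lit 0) (XT.nd (nat_lit 156) (nat_lit 152) (nat_lit 0) (XT.nd (nat_lit 78) (nat_lit 76) (nat_lit 0) (XT.lf (nat_lit 0) (nat_lit 17241501085) (nat_lit 152) (nat_lit 2256326070) (nat_lit 0) (nat_lit 5857508247) (nat_lit 53) (nat_lit 5) (nat_lit 55) (nat_lit 4) (nat_lit 53) (nat_lit 4) (nat_lit 512) (nat_lit 373) (nat_lit 315)) (XT.lf (nat_lit 0) (nat_lit 13966542135) (nat_lit 76) (nat_lit 11678555239) (nat_lit 76) (nat_lit 221743731) (nat_lit 52) (nat_lit 4) (nat_lit 53) (nat_lit 5) (nat_lit 53) (nat_lit 4) (nat_lit 513) (nat_lit 373) (nat_lit 314))) (XT.nd (nat_lit 78) (nat_lit 0) (nat_lit 0) (XT.lf (nat_lit 0) (nat_lit 4209332357) (nat_lit 76) (nat_lit 3542806363) (nat_lit 152) (nat_lit 18639293765) (nat_lit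 50) (nat_lit 5) (nat_lit 51) (nat_lit 5) (nat_lit 52) (nat_lit 4) (nat_lit 514) (nat_lit 373) (nat_lit 313)) (XT.lf (nat_lit 0) (nat_lit 16064570819) (nat_lit 152) (nat_lit 6057836843) (nat_lit 0) (nat_lit 4806174870) (nat_lit 50) (nat_lit 5) (nat_lit 52) (nat_lit 4) (nat_lit 50) (nat_lit 4) (nat_lit 515) (nat_lit 373) (nat_lit 312)))) (XT.nd (nat_lit 156) (nat_lit 152) (nat_lit 0) (XT.nd (nat_lit 78) (nat_lit 76) (nat_lit 0) (XT.lf (nat_lit 0) (nat_lit 10599587167) (nat_lit 76) (nat_lit 14101555885) (nat_lit 76) (nat_lit 2778461489) (nat_lit 49) (nat_lit 4) (nat_lit 50) (nat_lit 5) (nat_lit 50) (nat_lit 4) (nat_lit 516) (nat_lit 373) (nat_lit 311)) (XT.lf (nat_lit 0) (nat_lit 5440977000) (nat_lit 152) (nat_lit 340725109) (nat_lit 76) (nat_lit 22263866684) (nat_lit 48) (nat_lit 5) (nat_lit 50) (nat_lit 5) (nat_lit 49) (nat_lit 4) (nat_lit 517) (nat_lit 373) (nat_lit 310))) (XT.nd (nat_lit 78) (nat_lit 76) (nat_lit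 0) (XT.lf (nat_lit 0) (nat_lit 13981156422) (nat_lit 152) (nat_lit 11774962478) (nat_lit 0) (nat_lit 2867668159) (nat_lit 47) (nat_lit 5) (nat_lit 49) (nat_lit 4) (nat_lit 47) (nat_lit 4) (nat_lit 518) (nat_lit 373) (nat_lit 309)) (XT.lf (nat_lit 0) (nat_lit 5268453392) (nat_lit 76) (nat_lit 17560169227) (nat_lit 76) (nat_lit 6389197233) (nat_lit 46) (nat_lit 4) (nat_lit 47) (nat_lit 5) (nat_lit 47) (nat_lit 4) (nat_lit 519) (nat_lit 373) (nat_lit 308))))) (XT.nd (nat_lit 312) (nat_lit 304) (nat_lit 0) (XT.nd (nat_lit 156) (nat_lit 76) (nat_lit 0) (XT.nd (nat_lit 78) (nat_lit 76) (nat_lit 0) (XT.lf (nat_lit 0) (nat_lit 2130462628) (nat_lit 152) (nat_lit 6901942305) (nat_lit 76) (nat_lit 20794865096) (nat_lit 45) (nat_lit 5) (nat_lit 47) (nat_lit 5) (nat_lit 46) (nat_lit 4) (nat_lit 520) (nat_lit 373) (nat_lit 307)) (XT.lf (nat_lit 0) (nat_lit 10686740083) (nat_lit 76) (nat_lit 134789697) (nat_lit 152) (nat_lit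 19630249516) (nat_lit 44) (nat_lit 5) (nat_lit 45) (nat_lit 5) (nat_lit 46) (nat_lit 4) (nat_lit 521) (nat_lit 373) (nat_lit 306))) (XT.nd (nat_lit 78) (nat_lit 76) (nat_lit 0) (XT.lf (nat_lit 0) (nat_lit 19872083674) (nat_lit 152) (nat_lit 2351361339) (nat_lit 0) (nat_lit 8868616560) (nat_lit 44) (nat_lit 5) (nat_lit 46) (nat_lit 4) (nat_lit 44) (nat_lit 4) (nat_lit 522) (nat_lit 373) (nat_lit 305)) (XT.lf (nat_lit 0) (nat_lit 15779159985) (nat_lit 76) (nat_lit 13511278626) (nat_lit 76) (nat_lit 2458225540) (nat_lit 43) (nat_lit 4) (nat_lit 44) (nat_lit 5) (nat_lit 44) (nat_lit 4) (nat_lit 523) (nat_lit 373) (nat_lit 304)))) (XT.nd (nat_lit 156) (nat_lit 152) (nat_lit 0) (XT.nd (nat_lit 78) (nat_lit 0) (nat_lit 0) (XT.lf (nat_lit 0) (nat_lit 1939873896) (nat_lit 76) (nat_lit 4484297878) (nat_lit 152) (nat_lit 25999321992) (nat_lit 41) (nat_lit 5) (nat_lit 42) (nat_lit 5) (nat_lit 43) (nat_lit 4) (nat_lit 524)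 (nat_lit 373) (nat_lit 303)) (XT.lf (nat_lit 0) (nat_lit 15676115819) (nat_lit 152) (nat_lit 12584269540) (nat_lit 0) (nat_lit 4852878596) (nat_lit 41) (nat_lit 5) (nat_lit 43) (nat_lit 4) (nat_lit 41) (nat_lit 4) (nat_lit 525) (nat_lit 373) (nat_lit 302))) (XT.nd (nat_lit 78) (nat_lit 76) (nat_lit 0) (XT.lf (nat_lit 0) (nat_lit 5812120600) (nat_lit 76) (nat_lit 19438771240) (nat_lit 76) (nat_lit 8571477524) (nat_lit 40) (nat_lit 4) (nat_lit 41) (nat_lit 5) (nat_lit 41) (nat_lit 4) (nat_lit 526) (nat_lit 373) (nat_lit 301)) (XT.lf (nat_lit 0) (nat_lit 622597521) (nat_lit 152) (nat_lit 9646194041) (nat_lit 76) (nat_lit 24281594186) (nat_lit 39) (nat_lit 5) (nat_lit 41) (nat_lit 5) (nat_lit 40) (nat_lit 4) (nat_lit 527) (nat_lit 373) (nat_lit 300))))))))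
noncomputable def xc42 : XT := (XT.nd (nat_lit 56862) (nat_lit 0) (nat_lit 4940) (XT.nd (nat_lit 1170) (nat_lit 608) (nat_lit 0) (XT.nd (nat_lit 546) (nat_lit 456) (nat_lit 0) (XT.nd (nat_lit 234) (nat_lit 228) (nat_lit 0) (XT.nd (nat_lit 78) (nat_lit 76) (nat_lit 0) (XT.lf (nat_lit 0) (nat_lit 9258779395) (nat_lit 76) (nat_lit 697069804) (nat_lit 152) (nat_lit 25340778760) (nat_lit 38) (nat_lit 5) (nat_lit 39) (nat_lit 5) (nat_lit 40) (nat_lit 4) (nat_lit 528) (nat_lit 373) (nat_lit 299)) (XT.nd (nat_lit 78) (nat_lit 76) (nat_lit 0) (XT.lf (nat_lit 0) (nat_lit 19702218822) (nat_lit 152) (nat_lit 7328586094) (nat_lit 0) (nat_lit 9030459197) (nat_lit 38) (nat_lit 5) (nat_lit 40) (nat_lit 4) (nat_lit 38) (nat_lit 4) (nat_lit 529) (nat_lit 373) (nat_lit 298)) (XT.lf (nat_lit 0) (nat_lit 12067764182) (nat_lit 76) (nat_lit 17744352242) (nat_lit 76) (nat_lit 7034589099) (nat_lit 37) (nat_lit 4) (nat_lit 38) (nat_lit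 5) (nat_lit 38) (nat_lit 4) (nat_lit 530) (nat_lit 373) (nat_lit 297)))) (XT.nd (nat_lit 156) (nat_lit 76) (nat_lit 0) (XT.nd (nat_lit 78) (nat_lit 76) (nat_lit 0) (XT.lf (nat_lit 0) (nat_lit 2542450136) (nat_lit 152) (nat_lit 5585485985) (nat_lit 76) (nat_lit 29526343555) (nat_lit 36) (nat_lit 5) (nat_lit 38) (nat_lit 5) (nat_lit 37) (nat_lit 4) (nat_lit 531) (nat_lit 373) (nat_lit 296)) (XT.lf (nat_lit 0) (nat_lit 12371224045) (nat_lit 152) (nat_lit 24206798243) (nat_lit 0) (nat_lit 1902795187) (nat_lit 35) (nat_lit 5) (nat_lit 37) (nat_lit 4) (nat_lit 35) (nat_lit 4) (nat_lit 532) (nat_lit 373) (nat_lit 295))) (XT.nd (nat_lit 78) (nat_lit 76) (nat_lit 0) (XT.lf (nat_lit 0) (nat_lit 22582099623) (nat_lit 152) (nat_lit 4667529747) (nat_lit 0) (nat_lit 12079905131) (nat_lit 35) (nat_lit 5) (nat_lit 37) (nat_lit 4) (nat_lit 35) (nat_lit 4) (nat_lit 533) (nat_lit 373) (nat_lit 294)) (XT.lf (nat_lit 0) (nat_lit 15666694566)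 (nat_lit 76) (nat_lit 17534469745) (nat_lit 76) (nat_lit 6999493085) (nat_lit 34) (nat_lit 4) (nat_lit 35) (nat_lit 5) (nat_lit 35) (nat_lit 4) (nat_lit 534) (nat_lit 373) (nat_lit 293))))) (XT.nd (nat_lit 312) (nat_lit 228) (nat_lit 0) (XT.nd (nat_lit 156) (nat_lit 76) (nat_lit 0) (XT.nd (nat_lit 78) (nat_lit 76) (nat_lit 0) (XT.lf (nat_lit 0) (nat_lit 2980431816) (nat_lit 152) (nat_lit 4516527421) (nat_lit 76) (nat_lit 33600111535) (nat_lit 33) (nat_lit 5) (nat_lit 35) (nat_lit 5) (nat_lit 34) (nat_lit 4) (nat_lit 535) (nat_lit 373) (nat_lit 292)) (XT.lf (nat_lit 0) (nat_lit 13257128297) (nat_lit 152) (nat_lit 25788932762) (nat_lit 0) (nat_lit 2968094951) (nat_lit 32) (nat_lit 5) (nat_lit 34) (nat_lit 4) (nat_lit 32) (nat_lit 4) (nat_lit 536) (nat_lit 373) (nat_lit 291))) (XT.nd (nat_lit 78) (nat_lit 76) (nat_lit 0) (XT.lf (nat_lit 0) (nat_lit 23915151144) (nat_lit 152) (nat_lit 5444420847) (nat_lit 0) (nat_lit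 13596991266) (nat_lit 32) (nat_lit 5) (nat_lit 34) (nat_lit 4) (nat_lit 32) (nat_lit 4) (nat_lit 537) (nat_lit 373) (nat_lit 290)) (XT.lf (nat_lit 0) (nat_lit 15725870310) (nat_lit 76) (nat_lit 19272326116) (nat_lit 76) (nat_lit 8925888051) (nat_lit 31) (nat_lit 4) (nat_lit 32) (nat_lit 5) (nat_lit 32) (nat_lit 4) (nat_lit 538) (nat_lit 373) (nat_lit 289)))) (XT.nd (nat_lit 156) (nat_lit 76) (nat_lit 0) (XT.nd (nat_lit 78) (nat_lit 76) (nat_lit 0) (XT.lf (nat_lit 0) (nat_lit 1473619669) (nat_lit 152) (nat_lit 7382444686) (nat_lit 76) (nat_lit 36063846985) (nat_lit 30) (nat_lit 5) (nat_lit 32) (nat_lit 5) (nat_lit 31) (nat_lit 4) (nat_lit 539) (nat_lit 373) (nat_lit 288)) (XT.lf (nat_lit 0) (nat_lit 12117061717) (nat_lit 152) (nat_lit 31803116940) (nat_lit 0) (nat_lit 2019442768) (nat_lit 29) (nat_lit 5) (nat_lit 31) (nat_lit 4) (nat_lit 29) (nat_lit 4) (nat_lit 540) (nat_lit 373) (nat_lit 287))) (XT.nd (nat_lit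 78) (nat_lit 76) (nat_lit 0) (XT.lf (nat_lit 0) (nat_lit 23198275300) (nat_lit 152) (nat_lit 10712562103) (nat_lit 0) (nat_lit 13075531548) (nat_lit 29) (nat_lit 5) (nat_lit 31) (nat_lit 4) (nat_lit 29) (nat_lit 4) (nat_lit 541) (nat_lit 373) (nat_lit 286)) (XT.lf (nat_lit 0) (nat_lit 11141905919) (nat_lit 76) (nat_lit 23533916506) (nat_lit 76) (nat_lit 13386779741) (nat_lit 28) (nat_lit 4) (nat_lit 29) (nat_lit 5) (nat_lit 29) (nat_lit 4) (nat_lit 542) (nat_lit 373) (nat_lit 285)))))) (XT.nd (nat_lit 624) (nat_lit 228) (nat_lit 0) (XT.nd (nat_lit 312) (nat_lit 152) (nat_lit 0) (XT.nd (nat_lit 156) (nat_lit 76) (nat_lit 0) (XT.nd (nat_lit 78) (nat_lit 152) (nat_lit 0) (XT.lf (nat_lit 0) (nat_lit 33786228144) (nat_lit 76) (nat_lit 12776875736) (nat_lit 76) (nat_lit 2606056436) (nat_lit 28) (nat_lit 4) (nat_lit 29) (nat_lit 5) (nat_lit 29) (nat_lit 4) (nat_lit 543) (nat_lit 373) (nat_lit 284)) (XT.lf (nat_lit 0)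 (nat_lit 6767611598) (nat_lit 76) (nat_lit 1587769511) (nat_lit 152) (nat_lit 41950389975) (nat_lit 26) (nat_lit 5) (nat_lit 27) (nat_lit 5) (nat_lit 28) (nat_lit 4) (nat_lit 544) (nat_lit 373) (nat_lit 283))) (XT.nd (nat_lit 78) (nat_lit 76) (nat_lit 0) (XT.lf (nat_lit 0) (nat_lit 19803771654) (nat_lit 152) (nat_lit 21780426059) (nat_lit 0) (nat_lit 9885193872) (nat_lit 26) (nat_lit 5) (nat_lit 28) (nat_lit 4) (nat_lit 26) (nat_lit 4) (nat_lit 545) (nat_lit 373) (nat_lit 282)) (XT.lf (nat_lit 0) (nat_lit 543614556) (nat_lit 76) (nat_lit 31032258961) (nat_lit 76) (nat_lit 21092639553) (nat_lit 25) (nat_lit 4) (nat_lit 26) (nat_lit 5) (nat_lit 26) (nat_lit 4) (nat_lit 546) (nat_lit 373) (nat_lit 281)))) (XT.nd (nat_lit 156) (nat_lit 76) (nat_lit 0) (XT.nd (nat_lit 78) (nat_lit 76) (nat_lit 0) (XT.lf (nat_lit 0) (nat_lit 23903338749) (nat_lit 76) (nat_lit 19977463923) (nat_lit 76) (nat_lit 10017415750) (nat_lit 25)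 (nat_lit 4) (nat_lit 26) (nat_lit 5) (nat_lit 26) (nat_lit 4) (nat_lit 547) (nat_lit 373) (nat_lit 280)) (XT.lf (nat_lit 0) (nat_lit 1323450007) (nat_lit 152) (nat_lit 7293278407) (nat_lit 76) (nat_lit 46548870485) (nat_lit 24) (nat_lit 5) (nat_lit 26) (nat_lit 5) (nat_lit 25) (nat_lit 4) (nat_lit 548) (nat_lit 373) (nat_lit 279))) (XT.nd (nat_lit 78) (nat_lit 0) (nat_lit 0) (XT.lf (nat_lit 0) (nat_lit 12952688864) (nat_lit 152) (nat_lit 40266064076) (nat_lit 0) (nat_lit 3244787901) (nat_lit 23) (nat_lit 5) (nat_lit 25) (nat_lit 4) (nat_lit 23) (nat_lit 4) (nat_lit 549) (nat_lit 373) (nat_lit 278)) (XT.lf (nat_lit 0) (nat_lit 25052178839) (nat_lit 152) (nat_lit 17418473933) (nat_lit 0) (nat_lit 15326127183) (nat_lit 23) (nat_lit 5) (nat_lit 25) (nat_lit 4) (nat_lit 23) (nat_lit 4) (nat_lit 550) (nat_lit 373) (nat_lit 277))))) (XT.nd (nat_lit 54756) (nat_lit 0) (nat_lit 10564) (XT.nd (nat_lit 156) (nat_lit 152)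 (nat_lit 0) (XT.nd (nat_lit 78) (nat_lit 0) (nat_lit 0) (XT.lf (nat_lit 0) (nat_lit 6160308430) (nat_lit 76) (nat_lit 31376360581) (nat_lit 76) (nat_lit 21632686895) (nat_lit 22) (nat_lit 4) (nat_lit 23) (nat_lit 5) (nat_lit 23) (nat_lit 4) (nat_lit 551) (nat_lit 373) (nat_lit 276)) (XT.lf (nat_lit 0) (nat_lit 30729800470) (nat_lit 76) (nat_lit 19804959631) (nat_lit 76) (nat_lit 10044177176) (nat_lit 22) (nat_lit 4) (nat_lit 23) (nat_lit 5) (nat_lit 23) (nat_lit 4) (nat_lit 552) (nat_lit 373) (nat_lit 275))) (XT.nd (nat_lit 78) (nat_lit 76) (nat_lit 0) (XT.lf (nat_lit 0) (nat_lit 1818960606) (nat_lit 152) (nat_lit 6084902877) (nat_lit 76) (nat_lit 54127480347) (nat_lit 21) (nat_lit 5) (nat_lit 23) (nat_lit 5) (nat_lit 22) (nat_lit 4) (nat_lit 553) (nat_lit 373) (nat_lit 274)) (XT.lf (nat_lit 0) (nat_lit 14023983370) (nat_lit 152) (nat_lit 44979007892) (nat_lit 0) (nat_lit 4515711949) (nat_lit 20) (nat_lit 5) (nat_lit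 22) (nat_lit 4) (nat_lit 20) (nat_lit 4) (nat_lit 554) (nat_lit 373) (nat_lit 273)))) (XT.nd (nat_lit 156) (nat_lit 608) (nat_lit 0) (XT.nd (nat_lit 78) (nat_lit 0) (nat_lit 0) (XT.lf (nat_lit 0) (nat_lit 163839437) (nat_lit 380) (nat_lit 4357507119) (nat_lit 0) (nat_lit 163839437) (nat_lit 167) (nat_lit 5) (nat_lit 172) (nat_lit 4) (nat_lit 167) (nat_lit 4) (nat_lit 452) (nat_lit 374) (nat_lit 374)) (XT.lf (nat_lit 0) (nat_lit 4946439162) (nat_lit 380) (nat_lit 416676288) (nat_lit 0) (nat_lit 4124394956) (nat_lit 167) (nat_lit 5) (nat_lit 172) (nat_lit 4) (nat_lit 167) (nat_lit 4) (nat_lit 453) (nat_lit 374) (nat_lit 373))) (XT.nd (nat_lit 78) (nat_lit 228) (nat_lit 0) (XT.lf (nat_lit 0) (nat_lit 66132477) (nat_lit 380) (nat_lit 1485896447) (nat_lit 76) (nat_lit 8056940221) (nat_lit 162) (nat_lit 5) (nat_lit 167) (nat_lit 5) (nat_lit 163) (nat_lit 4) (nat_lit 454) (nat_lit 374) (nat_lit 372)) (XT.lf (nat_lit 0)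 (nat_lit 4711428947) (nat_lit 304) (nat_lit 2635379594) (nat_lit 0) (nat_lit 2386185373) (nat_lit 159) (nat_lit 5) (nat_lit 163) (nat_lit 4) (nat_lit 159) (nat_lit 4) (nat_lit 455) (nat_lit 374) (nat_lit 371))))))) (XT.nd (nat_lit 1170) (nat_lit 2280) (nat_lit 0) (XT.nd (nat_lit 546) (nat_lit 1672) (nat_lit 0) (XT.nd (nat_lit 234) (nat_lit 836) (nat_lit 0) (XT.nd (nat_lit 78) (nat_lit 532) (nat_lit 0) (XT.lf (nat_lit 0) (nat_lit 6044467796) (nat_lit 304) (nat_lit 3436179656) (nat_lit 304) (nat_lit 380560451) (nat_lit 155) (nat_lit 4) (nat_lit 159) (nat_lit 5) (nat_lit 159) (nat_lit 4) (nat_lit 456) (nat_lit 374) (nat_lit 370)) (XT.nd (nat_lit 78) (nat_lit 228) (nat_lit 0) (XT.lf (nat_lit 0) (nat_lit 4290707447) (nat_lit 304) (nat_lit 5066352772) (nat_lit 0) (nat_lit 635637779) (nat_lit 151) (nat_lit 5) (nat_lit 155) (nat_lit 4) (nat_lit 151) (nat_lit 4) (nat_lit 457) (nat_lit 374) (nat_lit 369)) (XT.lf (nat_lit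 0) (nat_lit 3749967637) (nat_lit 228) (nat_lit 5350669348) (nat_lit 228) (nat_lit 1027202515) (nat_lit 148) (nat_lit 4) (nat_lit 151) (nat_lit 5) (nat_lit 151) (nat_lit 4) (nat_lit 458) (nat_lit 374) (nat_lit 368)))) (XT.nd (nat_lit 156) (nat_lit 304) (nat_lit 0) (XT.nd (nat_lit 78) (nat_lit 228) (nat_lit 0) (XT.lf (nat_lit 0) (nat_lit 2512830798) (nat_lit 228) (nat_lit 1174473102) (nat_lit 304) (nat_lit 6579441981) (nat_lit 144) (nat_lit 5) (nat_lit 147) (nat_lit 5) (nat_lit 148) (nat_lit 4) (nat_lit 459) (nat_lit 374) (nat_lit 367)) (XT.lf (nat_lit 0) (nat_lit 1206614198) (nat_lit 228) (nat_lit 7321000666) (nat_lit 228) (nat_lit 1881753525) (nat_lit 141) (nat_lit 4) (nat_lit 144) (nat_lit 5) (nat_lit 144) (nat_lit 4) (nat_lit 460) (nat_lit 374) (nat_lit 366))) (XT.nd (nat_lit 78) (nat_lit 228) (nat_lit 0) (XT.lf (nat_lit 0) (nat_lit 2888539276) (nat_lit 304) (nat_lit 169374633) (nat_lit 76) (nat_lit 7497826022)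 (nat_lit 140) (nat_lit 5) (nat_lit 144) (nat_lit 5) (nat_lit 141) (nat_lit 4) (nat_lit 461) (nat_lit 374) (nat_lit 365)) (XT.lf (nat_lit 0) (nat_lit 7766734270) (nat_lit 304) (nat_lit 1589560651) (nat_lit 0) (nat_lit 1349574433) (nat_lit 137) (nat_lit 5) (nat_lit 141) (nat_lit 4) (nat_lit 137) (nat_lit 4) (nat_lit 462) (nat_lit 374) (nat_lit 364))))) (XT.nd (nat_lit 312) (nat_lit 760) (nat_lit 0) (XT.nd (nat_lit 156) (nat_lit 456) (nat_lit 0) (XT.nd (nat_lit 78) (nat_lit 152) (nat_lit 0) (XT.lf (nat_lit 0) (nat_lit 1902256621) (nat_lit 304) (nat_lit 3099046956) (nat_lit 76) (nat_lit 5858371356) (nat_lit 133) (nat_lit 5) (nat_lit 137) (nat_lit 5) (nat_lit 134) (nat_lit 4) (nat_lit 463) (nat_lit 374) (nat_lit 363)) (XT.lf (nat_lit 0) (nat_lit 6335066814) (nat_lit 152) (nat_lit 474457130) (nat_lit 228) (nat_lit 4208310263) (nat_lit 131) (nat_lit 5) (nat_lit 133) (nat_lit 5) (nat_lit 134) (nat_lit 4) (nat_lit 464)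 (nat_lit 374) (nat_lit 362))) (XT.nd (nat_lit 78) (nat_lit 152) (nat_lit 0) (XT.lf (nat_lit 0) (nat_lit 691584018) (nat_lit 304) (nat_lit 6363596640) (nat_lit 76) (nat_lit 4124714728) (nat_lit 127) (nat_lit 5) (nat_lit 131) (nat_lit 5) (nat_lit 128) (nat_lit 4) (nat_lit 465) (nat_lit 374) (nat_lit 361)) (XT.lf (nat_lit 0) (nat_lit 3200046922) (nat_lit 152) (nat_lit 2440555764) (nat_lit 228) (nat_lit 5705367855) (nat_lit 125) (nat_lit 5) (nat_lit 127) (nat_lit 5) (nat_lit 128) (nat_lit 4) (nat_lit 466) (nat_lit 374) (nat_lit 360)))) (XT.nd (nat_lit 156) (nat_lit 456) (nat_lit 0) (XT.nd (nat_lit 78) (nat_lit 76) (nat_lit 0) (XT.lf (nat_lit 0) (nat_lit 1505402504) (nat_lit 228) (nat_lit 9238339766) (nat_lit 228) (nat_lit 773119517) (nat_lit 122) (nat_lit 4) (nat_lit 125) (nat_lit 5) (nat_lit 125) (nat_lit 4) (nat_lit 467) (nat_lit 374) (nat_lit 359)) (XT.lf (nat_lit 0) (nat_lit 4234602927) (nat_lit 304) (nat_lit 310865574)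 (nat_lit 76) (nat_lit 7145825742) (nat_lit 121) (nat_lit 5) (nat_lit 125) (nat_lit 5) (nat_lit 122) (nat_lit 4) (nat_lit 468) (nat_lit 374) (nat_lit 358))) (XT.nd (nat_lit 78) (nat_lit 304) (nat_lit 0) (XT.lf (nat_lit 0) (nat_lit 9380464572) (nat_lit 228) (nat_lit 2173902716) (nat_lit 0) (nat_lit 316262413) (nat_lit 119) (nat_lit 5) (nat_lit 122) (nat_lit 4) (nat_lit 119) (nat_lit 4) (nat_lit 469) (nat_lit 374) (nat_lit 357)) (XT.lf (nat_lit 0) (nat_lit 2606169740) (nat_lit 304) (nat_lit 4178068862) (nat_lit 76) (nat_lit 5269391120) (nat_lit 115) (nat_lit 5) (nat_lit 119) (nat_lit 5) (nat_lit 116) (nat_lit 4) (nat_lit 470) (nat_lit 374) (nat_lit 356)))))) (XT.nd (nat_lit 624) (nat_lit 988) (nat_lit 0) (XT.nd (nat_lit 312) (nat_lit 760) (nat_lit 0) (XT.nd (nat_lit 156) (nat_lit 152) (nat_lit 0) (XT.nd (nat_lit 78) (nat_lit 228) (nat_lit 0) (XT.lf (nat_lit 0) (nat_lit 5957807276) (nat_lit 152) (nat_lit 1834810262)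 (nat_lit 228) (nat_lit 4449147172) (nat_lit 113) (nat_lit 5) (nat_lit 115) (nat_lit 5) (nat_lit 116) (nat_lit 4) (nat_lit 471) (nat_lit 374) (nat_lit 355)) (XT.lf (nat_lit 0) (nat_lit 705710981) (nat_lit 228) (nat_lit 8511468737) (nat_lit 76) (nat_lit 3217557916) (nat_lit 110) (nat_lit 5) (nat_lit 113) (nat_lit 5) (nat_lit 111) (nat_lit 4) (nat_lit 472) (nat_lit 374) (nat_lit 354))) (XT.nd (nat_lit 78) (nat_lit 0) (nat_lit 0) (XT.lf (nat_lit 0) (nat_lit 1741198761) (nat_lit 152) (nat_lit 4192080649) (nat_lit 228) (nat_lit 6698676731) (nat_lit 108) (nat_lit 5) (nat_lit 110) (nat_lit 5) (nat_lit 111) (nat_lit 4) (nat_lit 473) (nat_lit 374) (nat_lit 353)) (XT.lf (nat_lit 0) (nat_lit 11322846331) (nat_lit 228) (nat_lit 531177842) (nat_lit 0) (nat_lit 980914378) (nat_lit 108) (nat_lit 5) (nat_lit 111) (nat_lit 4) (nat_lit 108) (nat_lit 4) (nat_lit 474) (nat_lit 374) (nat_lit 352)))) (XT.nd (nat_lit 156) (nat_lit 380)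 (nat_lit 0) (XT.nd (nat_lit 78) (nat_lit 152) (nat_lit 0) (XT.lf (nat_lit 0) (nat_lit 3806355301) (nat_lit 228) (nat_lit 2943837804) (nat_lit 76) (nat_lit 6291185029) (nat_lit 105) (nat_lit 5) (nat_lit 108) (nat_lit 5) (nat_lit 106) (nat_lit 4) (nat_lit 475) (nat_lit 374) (nat_lit 351)) (XT.lf (nat_lit 0) (nat_lit 7779244971) (nat_lit 152) (nat_lit 1466673377) (nat_lit 228) (nat_lit 4007887092) (nat_lit 103) (nat_lit 5) (nat_lit 105) (nat_lit 5) (nat_lit 106) (nat_lit 4) (nat_lit 476) (nat_lit 374) (nat_lit 350))) (XT.nd (nat_lit 78) (nat_lit 152) (nat_lit 0) (XT.lf (nat_lit 0) (nat_lit 1380999733) (nat_lit 228) (nat_lit 8167348713) (nat_lit 76) (nat_lit 3922908769) (nat_lit 100) (nat_lit 5) (nat_lit 103) (nat_lit 5) (nat_lit 101) (nat_lit 4) (nat_lit 477) (nat_lit 374) (nat_lit 349)) (XT.lf (nat_lit 0) (nat_lit 2661322386) (nat_lit 152) (nat_lit 4197909841) (nat_lit 228) (nat_lit 6834564933) (nat_lit 98) (nat_lit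 5) (nat_lit 100) (nat_lit 5) (nat_lit 101) (nat_lit 4) (nat_lit 478) (nat_lit 374) (nat_lit 348))))) (XT.nd (nat_lit 312) (nat_lit 380) (nat_lit 0) (XT.nd (nat_lit 156) (nat_lit 380) (nat_lit 0) (XT.nd (nat_lit 78) (nat_lit 228) (nat_lit 0) (XT.lf (nat_lit 0) (nat_lit 12510361477) (nat_lit 228) (nat_lit 112279512) (nat_lit 0) (nat_lit 1300117845) (nat_lit 98) (nat_lit 5) (nat_lit 101) (nat_lit 4) (nat_lit 98) (nat_lit 4) (nat_lit 479) (nat_lit 374) (nat_lit 347)) (XT.lf (nat_lit 0) (nat_lit 4155628650) (nat_lit 228) (nat_lit 3041667747) (nat_lit 76) (nat_lit 6958153251) (nat_lit 95) (nat_lit 5) (nat_lit 98) (nat_lit 5) (nat_lit 96) (nat_lit 4) (nat_lit 480) (nat_lit 374) (nat_lit 346))) (XT.nd (nat_lit 78) (nat_lit 228) (nat_lit 0) (XT.lf (nat_lit 0) (nat_lit 8275264771) (nat_lit 152) (nat_lit 1583071214) (nat_lit 228) (nat_lit 4536486679) (nat_lit 93) (nat_lit 5) (nat_lit 95) (nat_lit 5) (nat_lit 96) (nat_lit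 4) (nat_lit 481) (nat_lit 374) (nat_lit 345)) (XT.lf (nat_lit 0) (nat_lit 1107411934) (nat_lit 228) (nat_lit 9391915476) (nat_lit 76) (nat_lit 4140598198) (nat_lit 90) (nat_lit 5) (nat_lit 93) (nat_lit 5) (nat_lit 91) (nat_lit 4) (nat_lit 482) (nat_lit 374) (nat_lit 344)))) (XT.nd (nat_lit 156) (nat_lit 304) (nat_lit 0) (XT.nd (nat_lit 78) (nat_lit 0) (nat_lit 0) (XT.lf (nat_lit 0) (nat_lit 2013097717) (nat_lit 76) (nat_lit 4829560744) (nat_lit 152) (nat_lit 8047981110) (nat_lit 89) (nat_lit 5) (nat_lit 90) (nat_lit 5) (nat_lit 91) (nat_lit 4) (nat_lit 483) (nat_lit 374) (nat_lit 343)) (XT.lf (nat_lit 0) (nat_lit 12771504371) (nat_lit 152) (nat_lit 1360675629) (nat_lit 0) (nat_lit 1016050337) (nat_lit 89) (nat_lit 5) (nat_lit 91) (nat_lit 4) (nat_lit 89) (nat_lit 4) (nat_lit 484) (nat_lit 374) (nat_lit 342))) (XT.nd (nat_lit 78) (nat_lit 76) (nat_lit 0) (XT.lf (nat_lit 0) (nat_lit 3465034253) (nat_lit 228) (nat_lit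 4938814736) (nat_lit 76) (nat_lit 7006662988) (nat_lit 86) (nat_lit 5) (nat_lit 89) (nat_lit 5) (nat_lit 87) (nat_lit 4) (nat_lit 485) (nat_lit 374) (nat_lit 341)) (XT.lf (nat_lit 0) (nat_lit 6966615794) (nat_lit 76) (nat_lit 2467127477) (nat_lit 152) (nat_lit 6246230370) (nat_lit 85) (nat_lit 5) (nat_lit 86) (nat_lit 5) (nat_lit 87) (nat_lit 4) (nat_lit 486) (nat_lit 374) (nat_lit 340))))))))
noncomputable def xc43 : XT := (XT.nd (nat_lit 2418) (nat_lit 1824) (nat_lit 0) (XT.nd (nat_lit 1170) (nat_lit 1216) (nat_lit 0) (XT.nd (nat_lit 546) (nat_lit 760) (nat_lit 0) (XT.nd (nat_lit 234) (nat_lit 532) (nat_lit 0) (XT.nd (nat_lit 78) (nat_lit 152) (nat_lit 0) (XT.lf (nat_lit 0) (nat_lit 3249693772) (nat_lit 152) (nat_lit 12367353605) (nat_lit 152) (nat_lit 339407225) (nat_lit 83) (nat_lit 4) (nat_lit 85) (nat_lit 5) (nat_lit 85) (nat_lit 4) (nat_lit 487) (nat_lit 374) (nat_lit 339)) (XT.nd (nat_lit 78) (nat_lit 76)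 (nat_lit 0) (XT.lf (nat_lit 0) (nat_lit 5664789185) (nat_lit 228) (nat_lit 721563859) (nat_lit 76) (nat_lit 9852253698) (nat_lit 82) (nat_lit 5) (nat_lit 85) (nat_lit 5) (nat_lit 83) (nat_lit 4) (nat_lit 488) (nat_lit 374) (nat_lit 338)) (XT.lf (nat_lit 0) (nat_lit 11699876294) (nat_lit 76) (nat_lit 176220406) (nat_lit 152) (nat_lit 4652013062) (nat_lit 81) (nat_lit 5) (nat_lit 82) (nat_lit 5) (nat_lit 83) (nat_lit 4) (nat_lit 489) (nat_lit 374) (nat_lit 337)))) (XT.nd (nat_lit 156) (nat_lit 228) (nat_lit 0) (XT.nd (nat_lit 78) (nat_lit 76) (nat_lit 0) (XT.lf (nat_lit 0) (nat_lit 1481798873) (nat_lit 228) (nat_lit 9215882787) (nat_lit 76) (nat_lit 6126322116) (nat_lit 78) (nat_lit 5) (nat_lit 81) (nat_lit 5) (nat_lit 79) (nat_lit 4) (nat_lit 490) (nat_lit 374) (nat_lit 336)) (XT.lf (nat_lit 0) (nat_lit 3255894050) (nat_lit 76) (nat_lit 4454170244) (nat_lit 152) (nat_lit 9417211557) (nat_lit 77) (nat_lit 5) (nat_lit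 78) (nat_lit 5) (nat_lit 79) (nat_lit 4) (nat_lit 491) (nat_lit 374) (nat_lit 335))) (XT.nd (nat_lit 78) (nat_lit 228) (nat_lit 0) (XT.lf (nat_lit 0) (nat_lit 14160019320) (nat_lit 152) (nat_lit 1314816127) (nat_lit 0) (nat_lit 1963766581) (nat_lit 77) (nat_lit 5) (nat_lit 79) (nat_lit 4) (nat_lit 77) (nat_lit 4) (nat_lit 492) (nat_lit 374) (nat_lit 334)) (XT.lf (nat_lit 0) (nat_lit 3065887117) (nat_lit 228) (nat_lit 6129541999) (nat_lit 76) (nat_lit 8560529546) (nat_lit 74) (nat_lit 5) (nat_lit 77) (nat_lit 5) (nat_lit 75) (nat_lit 4) (nat_lit 493) (nat_lit 374) (nat_lit 333))))) (XT.nd (nat_lit 312) (nat_lit 380) (nat_lit 0) (XT.nd (nat_lit 156) (nat_lit 152) (nat_lit 0) (XT.nd (nat_lit 78) (nat_lit 152) (nat_lit 0) (XT.lf (nat_lit 0) (nat_lit 6857074610) (nat_lit 76) (nat_lit 2681267056) (nat_lit 152) (nat_lit 8543415174) (nat_lit 73) (nat_lit 5) (nat_lit 74) (nat_lit 5) (nat_lit 75) (nat_lit 4) (nat_lit 494)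 (nat_lit 374) (nat_lit 332)) (XT.lf (nat_lit 0) (nat_lit 1794430431) (nat_lit 152) (nat_lit 14453420338) (nat_lit 152) (nat_lit 2168192825) (nat_lit 71) (nat_lit 4) (nat_lit 73) (nat_lit 5) (nat_lit 73) (nat_lit 4) (nat_lit 495) (nat_lit 374) (nat_lit 331))) (XT.nd (nat_lit 78) (nat_lit 76) (nat_lit 0) (XT.lf (nat_lit 0) (nat_lit 4377959522) (nat_lit 228) (nat_lit 3537497785) (nat_lit 76) (nat_lit 10841669275) (nat_lit 70) (nat_lit 5) (nat_lit 73) (nat_lit 5) (nat_lit 71) (nat_lit 4) (nat_lit 496) (nat_lit 374) (nat_lit 330)) (XT.lf (nat_lit 0) (nat_lit 9971672342) (nat_lit 76) (nat_lit 1127781912) (nat_lit 152) (nat_lit 8007668666) (nat_lit 69) (nat_lit 5) (nat_lit 70) (nat_lit 5) (nat_lit 71) (nat_lit 4) (nat_lit 497) (nat_lit 374) (nat_lit 329)))) (XT.nd (nat_lit 156) (nat_lit 152) (nat_lit 0) (XT.nd (nat_lit 78) (nat_lit 76) (nat_lit 0) (XT.lf (nat_lit 0) (nat_lit 4380097399) (nat_lit 152) (nat_lit 13703878675)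 (nat_lit 152) (nat_lit 1381802545) (nat_lit 67) (nat_lit 4) (nat_lit 69) (nat_lit 5) (nat_lit 69) (nat_lit 4) (nat_lit 498) (nat_lit 374) (nat_lit 328)) (XT.lf (nat_lit 0) (nat_lit 5367872486) (nat_lit 228) (nat_lit 1549263894) (nat_lit 76) (nat_lit 12915551627) (nat_lit 66) (nat_lit 5) (nat_lit 69) (nat_lit 5) (nat_lit 67) (nat_lit 4) (nat_lit 499) (nat_lit 374) (nat_lit 327))) (XT.nd (nat_lit 78) (nat_lit 76) (nat_lit 0) (XT.lf (nat_lit 0) (nat_lit 12342729733) (nat_lit 152) (nat_lit 7723613153) (nat_lit 0) (nat_lit 142338268) (nat_lit 65) (nat_lit 5) (nat_lit 67) (nat_lit 4) (nat_lit 65) (nat_lit 4) (nat_lit 500) (nat_lit 374) (nat_lit 326)) (XT.lf (nat_lit 0) (nat_lit 6294025401) (nat_lit 76) (nat_lit 13306775532) (nat_lit 76) (nat_lit 992934950) (nat_lit 64) (nat_lit 4) (nat_lit 65) (nat_lit 5) (nat_lit 65) (nat_lit 4) (nat_lit 501) (nat_lit 374) (nat_lit 325)))))) (XT.nd (nat_lit 624) (nat_lit 608) (nat_lit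 0) (XT.nd (nat_lit 312) (nat_lit 228) (nat_lit 0) (XT.nd (nat_lit 156) (nat_lit 228) (nat_lit 0) (XT.nd (nat_lit 78) (nat_lit 76) (nat_lit 0) (XT.lf (nat_lit 0) (nat_lit 5975518388) (nat_lit 152) (nat_lit 293683026) (nat_lit 76) (nat_lit 14719146133) (nat_lit 63) (nat_lit 5) (nat_lit 65) (nat_lit 5) (nat_lit 64) (nat_lit 4) (nat_lit 502) (nat_lit 374) (nat_lit 324)) (XT.lf (nat_lit 0) (nat_lit 13211782847) (nat_lit 152) (nat_lit 7134519980) (nat_lit 0) (nat_lit 1045839130) (nat_lit 62) (nat_lit 5) (nat_lit 64) (nat_lit 4) (nat_lit 62) (nat_lit 4) (nat_lit 503) (nat_lit 374) (nat_lit 323))) (XT.nd (nat_lit 78) (nat_lit 152) (nat_lit 0) (XT.lf (nat_lit 0) (nat_lit 7392622060) (nat_lit 76) (nat_lit 13340071952) (nat_lit 76) (nat_lit 1073330165) (nat_lit 61) (nat_lit 4) (nat_lit 62) (nat_lit 5) (nat_lit 62) (nat_lit 4) (nat_lit 504) (nat_lit 374) (nat_lit 322)) (XT.lf (nat_lit 0) (nat_lit 79334384) (nat_lit 76) (nat_lit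 6050684519) (nat_lit 152) (nat_lit 16100352918) (nat_lit 59) (nat_lit 5) (nat_lit 60) (nat_lit 5) (nat_lit 61) (nat_lit 4) (nat_lit 505) (nat_lit 374) (nat_lit 321)))) (XT.nd (nat_lit 156) (nat_lit 152) (nat_lit 0) (XT.nd (nat_lit 78) (nat_lit 76) (nat_lit 0) (XT.lf (nat_lit 0) (nat_lit 13620494291) (nat_lit 152) (nat_lit 7520079625) (nat_lit 0) (nat_lit 1523779883) (nat_lit 59) (nat_lit 5) (nat_lit 61) (nat_lit 4) (nat_lit 59) (nat_lit 4) (nat_lit 506) (nat_lit 374) (nat_lit 320)) (XT.lf (nat_lit 0) (nat_lit 7507036658) (nat_lit 76) (nat_lit 13894310760) (nat_lit 76) (nat_lit 1708038573) (nat_lit 58) (nat_lit 4) (nat_lit 59) (nat_lit 5) (nat_lit 59) (nat_lit 4) (nat_lit 507) (nat_lit 374) (nat_lit 319))) (XT.nd (nat_lit 78) (nat_lit 76) (nat_lit 0) (XT.lf (nat_lit 0) (nat_lit 5744079436) (nat_lit 152) (nat_lit 612740233) (nat_lit 76) (nat_lit 17208953648) (nat_lit 57) (nat_lit 5) (nat_lit 59) (nat_lit 5) (nat_lit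 58) (nat_lit 4) (nat_lit 508) (nat_lit 374) (nat_lit 318)) (XT.lf (nat_lit 0) (nat_lit 13479497278) (nat_lit 152) (nat_lit 9071236061) (nat_lit 0) (nat_lit 1481790204) (nat_lit 56) (nat_lit 5) (nat_lit 58) (nat_lit 4) (nat_lit 56) (nat_lit 4) (nat_lit 509) (nat_lit 374) (nat_lit 317))))) (XT.nd (nat_lit 312) (nat_lit 304) (nat_lit 0) (XT.nd (nat_lit 156) (nat_lit 152) (nat_lit 0) (XT.nd (nat_lit 78) (nat_lit 76) (nat_lit 0) (XT.lf (nat_lit 0) (nat_lit 6438918592) (nat_lit 76) (nat_lit 15074816769) (nat_lit 76) (nat_lit 2997538768) (nat_lit 55) (nat_lit 4) (nat_lit 56) (nat_lit 5) (nat_lit 56) (nat_lit 4) (nat_lit 510) (nat_lit 374) (nat_lit 316)) (XT.lf (nat_lit 0) (nat_lit 4719478314) (nat_lit 152) (nat_lit 2573990350) (nat_lit 76) (nat_lit 17708692440) (nat_lit 54) (nat_lit 5) (nat_lit 56) (nat_lit 5) (nat_lit 55) (nat_lit 4) (nat_lit 511) (nat_lit 374) (nat_lit 315))) (XT.nd (nat_lit 78) (nat_lit 76) (nat_lit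 0) (XT.lf (nat_lit 0) (nat_lit 12683070185) (nat_lit 152) (nat_lit 12011819667) (nat_lit 0) (nat_lit 809735661) (nat_lit 53) (nat_lit 5) (nat_lit 55) (nat_lit 4) (nat_lit 53) (nat_lit 4) (nat_lit 512) (nat_lit 374) (nat_lit 314)) (XT.lf (nat_lit 0) (nat_lit 3955497765) (nat_lit 76) (nat_lit 17004236961) (nat_lit 76) (nat_lit 5060204698) (nat_lit 52) (nat_lit 4) (nat_lit 53) (nat_lit 5) (nat_lit 53) (nat_lit 4) (nat_lit 513) (nat_lit 374) (nat_lit 313)))) (XT.nd (nat_lit 156) (nat_lit 152) (nat_lit 0) (XT.nd (nat_lit 78) (nat_lit 76) (nat_lit 0) (XT.lf (nat_lit 0) (nat_lit 2936951553) (nat_lit 152) (nat_lit 6050659191) (nat_lit 76) (nat_lit 17560449870) (nat_lit 51) (nat_lit 5) (nat_lit 53) (nat_lit 5) (nat_lit 52) (nat_lit 4) (nat_lit 514) (nat_lit 374) (nat_lit 312)) (XT.lf (nat_lit 0) (nat_lit 10479237621) (nat_lit 76) (nat_lit 633347533) (nat_lit 152) (nat_lit 15976729695) (nat_lit 50) (nat_lit 5) (nat_lit 51)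 (nat_lit 5) (nat_lit 52) (nat_lit 4) (nat_lit 515) (nat_lit 374) (nat_lit 311))) (XT.nd (nat_lit 78) (nat_lit 152) (nat_lit 0) (XT.lf (nat_lit 0) (nat_lit 19611431671) (nat_lit 152) (nat_lit 211905214) (nat_lit 0) (nat_lit 7821131973) (nat_lit 50) (nat_lit 5) (nat_lit 52) (nat_lit 4) (nat_lit 50) (nat_lit 4) (nat_lit 516) (nat_lit 374) (nat_lit 310)) (XT.lf (nat_lit 0) (nat_lit 257108948) (nat_lit 152) (nat_lit 11329353023) (nat_lit 76) (nat_lit 16626441500) (nat_lit 48) (nat_lit 5) (nat_lit 50) (nat_lit 5) (nat_lit 49) (nat_lit 4) (nat_lit 517) (nat_lit 374) (nat_lit 309))))))) (XT.nd (nat_lit 1248) (nat_lit 836) (nat_lit 0) (XT.nd (nat_lit 624) (nat_lit 456) (nat_lit 0) (XT.nd (nat_lit 312) (nat_lit 304) (nat_lit 0) (XT.nd (nat_lit 156) (nat_lit 152) (nat_lit 0) (XT.nd (nat_lit 78) (nat_lit 0) (nat_lit 0) (XT.lf (nat_lit 0) (nat_lit 5612510672) (nat_lit 76) (nat_lit 3019510560) (nat_lit 152) (nat_lit 20164058726)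 (nat_lit 47) (nat_lit 5) (nat_lit 48) (nat_lit 5) (nat_lit 49) (nat_lit 4) (nat_lit 518) (nat_lit 374) (nat_lit 308)) (XT.lf (nat_lit 0) (nat_lit 17370988043) (nat_lit 152) (nat_lit 6270786183) (nat_lit 0) (nat_lit 5751593711) (nat_lit 47) (nat_lit 5) (nat_lit 49) (nat_lit 4) (nat_lit 47) (nat_lit 4) (nat_lit 519) (nat_lit 374) (nat_lit 307))) (XT.nd (nat_lit 78) (nat_lit 76) (nat_lit 0) (XT.lf (nat_lit 0) (nat_lit 11226506426) (nat_lit 76) (nat_lit 15226608528) (nat_lit 76) (nat_lit 3553030266) (nat_lit 46) (nat_lit 4) (nat_lit 47) (nat_lit 5) (nat_lit 47) (nat_lit 4) (nat_lit 520) (nat_lit 374) (nat_lit 306)) (XT.lf (nat_lit 0) (nat_lit 5076666569) (nat_lit 152) (nat_lit 1420550882) (nat_lit 76) (nat_lit 24138382919) (nat_lit 45) (nat_lit 5) (nat_lit 47) (nat_lit 5) (nat_lit 46) (nat_lit 4) (nat_lit 521) (nat_lit 374) (nat_lit 305)))) (XT.nd (nat_lit 156) (nat_lit 152) (nat_lit 0) (XT.nd (nat_lit 78) (nat_lit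 76) (nat_lit 0) (XT.lf (nat_lit 0) (nat_lit 14024050704) (nat_lit 152) (nat_lit 14665107163) (nat_lit 0) (nat_lit 2589820054) (nat_lit 44) (nat_lit 5) (nat_lit 46) (nat_lit 4) (nat_lit 44) (nat_lit 4) (nat_lit 522) (nat_lit 374) (nat_lit 304)) (XT.lf (nat_lit 0) (nat_lit 3165646395) (nat_lit 76) (nat_lit 20128379027) (nat_lit 76) (nat_lit 8646006657) (nat_lit 43) (nat_lit 4) (nat_lit 44) (nat_lit 5) (nat_lit 44) (nat_lit 4) (nat_lit 523) (nat_lit 374) (nat_lit 303))) (XT.nd (nat_lit 78) (nat_lit 76) (nat_lit 0) (XT.lf (nat_lit 0) (nat_lit 311371605) (nat_lit 152) (nat_lit 10897027543) (nat_lit 76) (nat_lit 21409620080) (nat_lit 42) (nat_lit 5) (nat_lit 44) (nat_lit 5) (nat_lit 43) (nat_lit 4) (nat_lit 524) (nat_lit 374) (nat_lit 302)) (XT.lf (nat_lit 0) (nat_lit 7471104534) (nat_lit 76) (nat_lit 1910961783) (nat_lit 152) (nat_lit 23931160740) (nat_lit 41) (nat_lit 5) (nat_lit 42) (nat_lit 5) (nat_lit 43) (nat_lit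 4) (nat_lit 525) (nat_lit 374) (nat_lit 301))))) (XT.nd (nat_lit 312) (nat_lit 228) (nat_lit 0) (XT.nd (nat_lit 156) (nat_lit 152) (nat_lit 0) (XT.nd (nat_lit 78) (nat_lit 76) (nat_lit 0) (XT.lf (nat_lit 0) (nat_lit 18856301280) (nat_lit 152) (nat_lit 7592888609) (nat_lit 0) (nat_lit 7576158964) (nat_lit 41) (nat_lit 5) (nat_lit 43) (nat_lit 4) (nat_lit 41) (nat_lit 4) (nat_lit 526) (nat_lit 374) (nat_lit 300)) (XT.lf (nat_lit 0) (nat_lit 11302756872) (nat_lit 76) (nat_lit 17387737791) (nat_lit 76) (nat_lit 6066068004) (nat_lit 40) (nat_lit 4) (nat_lit 41) (nat_lit 5) (nat_lit 41) (nat_lit 4) (nat_lit 527) (nat_lit 374) (nat_lit 299))) (XT.nd (nat_lit 78) (nat_lit 76) (nat_lit 0) (XT.lf (nat_lit 0) (nat_lit 3271029301) (nat_lit 152) (nat_lit 4721798237) (nat_lit 76) (nat_lit 27515162561) (nat_lit 39) (nat_lit 5) (nat_lit 41) (nat_lit 5) (nat_lit 40) (nat_lit 4) (nat_lit 528) (nat_lit 374) (nat_lit 298)) (XT.lf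 (nat_lit 0) (nat_lit 12875015917) (nat_lit 152) (nat_lit 21595925602) (nat_lit 0) (nat_lit 1805956361) (nat_lit 38) (nat_lit 5) (nat_lit 40) (nat_lit 4) (nat_lit 38) (nat_lit 4) (nat_lit 529) (nat_lit 374) (nat_lit 297)))) (XT.nd (nat_lit 156) (nat_lit 152) (nat_lit 0) (XT.nd (nat_lit 78) (nat_lit 76) (nat_lit 0) (XT.lf (nat_lit 0) (nat_lit 22844152301) (nat_lit 152) (nat_lit 2484213834) (nat_lit 0) (nat_lit 11738196126) (nat_lit 38) (nat_lit 5) (nat_lit 40) (nat_lit 4) (nat_lit 38) (nat_lit 4) (nat_lit 530) (nat_lit 374) (nat_lit 296)) (XT.lf (nat_lit 0) (nat_lit 17444377638) (nat_lit 76) (nat_lit 15786875314) (nat_lit 76) (nat_lit 4645097178) (nat_lit 37) (nat_lit 4) (nat_lit 38) (nat_lit 5) (nat_lit 38) (nat_lit 4) (nat_lit 531) (nat_lit 374) (nat_lit 295))) (XT.nd (nat_lit 78) (nat_lit 76) (nat_lit 0) (XT.lf (nat_lit 0) (nat_lit 5094241985) (nat_lit 152) (nat_lit 835245508) (nat_lit 76) (nat_lit 32780142424)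 (nat_lit 36) (nat_lit 5) (nat_lit 38) (nat_lit 5) (nat_lit 37) (nat_lit 4) (nat_lit 532) (nat_lit 374) (nat_lit 294)) (XT.lf (nat_lit 0) (nat_lit 15215842550) (nat_lit 152) (nat_lit 20013148341) (nat_lit 0) (nat_lit 4332034422) (nat_lit 35) (nat_lit 5) (nat_lit 37) (nat_lit 4) (nat_lit 35) (nat_lit 4) (nat_lit 533) (nat_lit 374) (nat_lit 293)))))) (XT.nd (nat_lit 624) (nat_lit 380) (nat_lit 0) (XT.nd (nat_lit 312) (nat_lit 228) (nat_lit 0) (XT.nd (nat_lit 156) (nat_lit 152) (nat_lit 0) (XT.nd (nat_lit 78) (nat_lit 76) (nat_lit 0) (XT.lf (nat_lit 0) (nat_lit 25661001237) (nat_lit 152) (nat_lit 30998505) (nat_lit 0) (nat_lit 14745365760) (nat_lit 35) (nat_lit 5) (nat_lit 37) (nat_lit 4) (nat_lit 35) (nat_lit 4) (nat_lit 534) (nat_lit 374) (nat_lit 292)) (XT.lf (nat_lit 0) (nat_lit 20866423546) (nat_lit 76) (nat_lit 15707734545) (nat_lit 76) (nat_lit 4761198730) (nat_lit 34) (nat_lit 4) (nat_lit 35) (nat_lit 5) (nat_lit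 35) (nat_lit 4) (nat_lit 535) (nat_lit 374) (nat_lit 291))) (XT.nd (nat_lit 78) (nat_lit 76) (nat_lit 0) (XT.lf (nat_lit 0) (nat_lit 5400431569) (nat_lit 152) (nat_lit 13660057) (nat_lit 76) (nat_lit 36845962797) (nat_lit 33) (nat_lit 5) (nat_lit 35) (nat_lit 5) (nat_lit 34) (nat_lit 4) (nat_lit 536) (nat_lit 374) (nat_lit 290)) (XT.lf (nat_lit 0) (nat_lit 15983672190) (nat_lit 152) (nat_lit 21922470252) (nat_lit 0) (nat_lit 5298562797) (nat_lit 32) (nat_lit 5) (nat_lit 34) (nat_lit 4) (nat_lit 32) (nat_lit 4) (nat_lit 537) (nat_lit 374) (nat_lit 289)))) (XT.nd (nat_lit 156) (nat_lit 152) (nat_lit 0) (XT.nd (nat_lit 78) (nat_lit 76) (nat_lit 0) (XT.lf (nat_lit 0) (nat_lit 26893605721) (nat_lit 152) (nat_lit 1102772411) (nat_lit 0) (nat_lit 16181041778) (nat_lit 32) (nat_lit 5) (nat_lit 34) (nat_lit 4) (nat_lit 32) (nat_lit 4) (nat_lit 538) (nat_lit 374) (nat_lit 288)) (XT.lf (nat_lit 0) (nat_lit 20658461000) (nat_lit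 76) (nat_lit 17627707070) (nat_lit 76) (nat_lit 6888488223) (nat_lit 31) (nat_lit 4) (nat_lit 32) (nat_lit 5) (nat_lit 32) (nat_lit 4) (nat_lit 539) (nat_lit 374) (nat_lit 287))) (XT.nd (nat_lit 78) (nat_lit 76) (nat_lit 0) (XT.lf (nat_lit 0) (nat_lit 3712191534) (nat_lit 152) (nat_lit 3229348577) (nat_lit 76) (nat_lit 39260128295) (nat_lit 30) (nat_lit 5) (nat_lit 32) (nat_lit 5) (nat_lit 31) (nat_lit 4) (nat_lit 540) (nat_lit 374) (nat_lit 286)) (XT.lf (nat_lit 0) (nat_lit 14673421452) (nat_lit 152) (nat_lit 28381116504) (nat_lit 0) (nat_lit 4197477573) (nat_lit 29) (nat_lit 5) (nat_lit 31) (nat_lit 4) (nat_lit 29) (nat_lit 4) (nat_lit 541) (nat_lit 374) (nat_lit 285))))) (XT.nd (nat_lit 312) (nat_lit 152) (nat_lit 0) (XT.nd (nat_lit 156) (nat_lit 152) (nat_lit 0) (XT.nd (nat_lit 78) (nat_lit 76) (nat_lit 0) (XT.lf (nat_lit 0) (nat_lit 26023202086) (nat_lit 152) (nat_lit 6785304069) (nat_lit 0) (nat_lit 15523575671)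 (nat_lit 29) (nat_lit 5) (nat_lit 31) (nat_lit 4) (nat_lit 29) (nat_lit 4) (nat_lit 542) (nat_lit 374) (nat_lit 284)) (XT.lf (nat_lit 0) (nat_lit 15683144711) (nat_lit 76) (nat_lit 22140361912) (nat_lit 76) (nat_lit 11617742743) (nat_lit 28) (nat_lit 4) (nat_lit 29) (nat_lit 5) (nat_lit 29) (nat_lit 4) (nat_lit 543) (nat_lit 374) (nat_lit 283))) (XT.nd (nat_lit 78) (nat_lit 152) (nat_lit 0) (XT.lf (nat_lit 0) (nat_lit 38884263157) (nat_lit 76) (nat_lit 11121762504) (nat_lit 76) (nat_lit 576820274) (nat_lit 28) (nat_lit 4) (nat_lit 29) (nat_lit 5) (nat_lit 29) (nat_lit 4) (nat_lit 544) (nat_lit 374) (nat_lit 282)) (XT.lf (nat_lit 0) (nat_lit 10655309403) (nat_lit 152) (nat_lit 40701689169) (nat_lit 0) (nat_lit 396459786) (nat_lit 26) (nat_lit 5) (nat_lit 28) (nat_lit 4) (nat_lit 26) (nat_lit 4) (nat_lit 545) (nat_lit 374) (nat_lit 281)))) (XT.nd (nat_lit 156) (nat_lit 76) (nat_lit 0) (XT.nd (nat_lit 78) (nat_lit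 76) (nat_lit 0) (XT.lf (nat_lit 0) (nat_lit 22402726892) (nat_lit 152) (nat_lit 18427145044) (nat_lit 0) (nat_lit 12123448511) (nat_lit 26) (nat_lit 5) (nat_lit 28) (nat_lit 4) (nat_lit 26) (nat_lit 4) (nat_lit 546) (nat_lit 374) (nat_lit 280)) (XT.lf (nat_lit 0) (nat_lit 4527335478) (nat_lit 76) (nat_lit 29980400070) (nat_lit 76) (nat_lit 19681287938) (nat_lit 25) (nat_lit 4) (nat_lit 26) (nat_lit 5) (nat_lit 26) (nat_lit 4) (nat_lit 547) (nat_lit 374) (nat_lit 279))) (XT.nd (nat_lit 78) (nat_lit 76) (nat_lit 0) (XT.lf (nat_lit 0) (nat_lit 28472295693) (nat_lit 76) (nat_lit 18651713413) (nat_lit 76) (nat_lit 8333345212) (nat_lit 25) (nat_lit 4) (nat_lit 26) (nat_lit 5) (nat_lit 26) (nat_lit 4) (nat_lit 548) (nat_lit 374) (nat_lit 278)) (XT.lf (nat_lit 0) (nat_lit 3252344239) (nat_lit 152) (nat_lit 3734804608) (nat_lit 76) (nat_lit 49776735525) (nat_lit 24) (nat_lit 5) (nat_lit 26) (nat_lit 5) (nat_lit 25) (nat_lit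 4) (nat_lit 549) (nat_lit 374) (nat_lit 277))))))))
noncomputable def xc44 : XT := (XT.nd (nat_lit 56706) (nat_lit 0) (nat_lit 2888) (XT.nd (nat_lit 55458) (nat_lit 0) (nat_lit 6384) (XT.nd (nat_lit 54834) (nat_lit 0) (nat_lit 9348) (XT.nd (nat_lit 234) (nat_lit 76) (nat_lit 0) (XT.nd (nat_lit 78) (nat_lit 76) (nat_lit 0) (XT.lf (nat_lit 0) (nat_lit 15229365509) (nat_lit 152) (nat_lit 37695672520) (nat_lit 0) (nat_lit 5175759581) (nat_lit 23) (nat_lit 5) (nat_lit 25) (nat_lit 4) (nat_lit 23) (nat_lit 4) (nat_lit 550) (nat_lit 374) (nat_lit 276)) (XT.nd (nat_lit 78) (nat_lit 76) (nat_lit 0) (XT.lf (nat_lit 0) (nat_lit 27636847096) (nat_lit 152) (nat_lit 14272704385) (nat_lit 0) (nat_lit 17566132400) (nat_lit 23) (nat_lit 5) (nat_lit 25) (nat_lit 4) (nat_lit 23) (nat_lit 4) (nat_lit 551) (nat_lit 374) (nat_lit 275)) (XT.lf (nat_lit 0) (nat_lit 9977477490) (nat_lit 76) (nat_lit 30499919603) (nat_lit 76) (nat_lit 20412594453)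 (nat_lit 22) (nat_lit 4) (nat_lit 23) (nat_lit 5) (nat_lit 23) (nat_lit 4) (nat_lit 552) (nat_lit 374) (nat_lit 274)))) (XT.nd (nat_lit 54444) (nat_lit 0) (nat_lit 11476) (XT.nd (nat_lit 78) (nat_lit 76) (nat_lit 0) (XT.lf (nat_lit 0) (nat_lit 35178257404) (nat_lit 76) (nat_lit 18634320268) (nat_lit 76) (nat_lit 8530868463) (nat_lit 22) (nat_lit 4) (nat_lit 23) (nat_lit 5) (nat_lit 23) (nat_lit 4) (nat_lit 553) (nat_lit 374) (nat_lit 273)) (XT.lf (nat_lit 0) (nat_lit 3600931349) (nat_lit 152) (nat_lit 2809218111) (nat_lit 76) (nat_lit 57430306955) (nat_lit 21) (nat_lit 5) (nat_lit 23) (nat_lit 5) (nat_lit 22) (nat_lit 4) (nat_lit 554) (nat_lit 374) (nat_lit 272))) (XT.nd (nat_lit 78) (nat_lit 304) (nat_lit 0) (XT.lf (nat_lit 0) (nat_lit 680411543) (nat_lit 380) (nat_lit 3210680444) (nat_lit 0) (nat_lit 680411543) (nat_lit 176) (nat_lit 5) (nat_lit 181) (nat_lit 4) (nat_lit 176) (nat_lit 4) (nat_lit 450) (nat_lit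 375) (nat_lit 375)) (XT.lf (nat_lit 0) (nat_lit 1653396384) (nat_lit 304) (nat_lit 4237036878) (nat_lit 304) (nat_lit 3364930180) (nat_lit 172) (nat_lit 4) (nat_lit 176) (nat_lit 5) (nat_lit 176) (nat_lit 4) (nat_lit 451) (nat_lit 375) (nat_lit 374))))) (XT.nd (nat_lit 312) (nat_lit 1140) (nat_lit 0) (XT.nd (nat_lit 156) (nat_lit 608) (nat_lit 0) (XT.nd (nat_lit 78) (nat_lit 0) (nat_lit 0) (XT.lf (nat_lit 0) (nat_lit 567513600) (nat_lit 304) (nat_lit 558755281) (nat_lit 380) (nat_lit 8245549548) (nat_lit 167) (nat_lit 5) (nat_lit 171) (nat_lit 5) (nat_lit 172) (nat_lit 4) (nat_lit 452) (nat_lit 375) (nat_lit 373)) (XT.lf (nat_lit 0) (nat_lit 5687729312) (nat_lit 380) (nat_lit 582071019) (nat_lit 0) (nat_lit 3220878404) (nat_lit 167) (nat_lit 5) (nat_lit 172) (nat_lit 4) (nat_lit 167) (nat_lit 4) (nat_lit 453) (nat_lit 375) (nat_lit 372))) (XT.nd (nat_lit 78) (nat_lit 228) (nat_lit 0) (XT.lf (nat_lit 0) (nat_lit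 736511928) (nat_lit 380) (nat_lit 1746587199) (nat_lit 76) (nat_lit 7130428382) (nat_lit 162) (nat_lit 5) (nat_lit 167) (nat_lit 5) (nat_lit 163) (nat_lit 4) (nat_lit 454) (nat_lit 375) (nat_lit 371)) (XT.lf (nat_lit 0) (nat_lit 5319016297) (nat_lit 304) (nat_lit 2979069503) (nat_lit 0) (nat_lit 1441352886) (nat_lit 159) (nat_lit 5) (nat_lit 163) (nat_lit 4) (nat_lit 159) (nat_lit 4) (nat_lit 455) (nat_lit 375) (nat_lit 370)))) (XT.nd (nat_lit 156) (nat_lit 532) (nat_lit 0) (XT.nd (nat_lit 78) (nat_lit 228) (nat_lit 0) (XT.lf (nat_lit 0) (nat_lit 161821995) (nat_lit 380) (nat_lit 4258267312) (nat_lit 76) (nat_lit 5449135923) (nat_lit 154) (nat_lit 5) (nat_lit 159) (nat_lit 5) (nat_lit 155) (nat_lit 4) (nat_lit 456) (nat_lit 375) (nat_lit 369)) (XT.lf (nat_lit 0) (nat_lit 4397161643) (nat_lit 228) (nat_lit 367555936) (nat_lit 304) (nat_lit 5237718809) (nat_lit 151) (nat_lit 5) (nat_lit 154) (nat_lit 5) (nat_lit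 155) (nat_lit 4) (nat_lit 457) (nat_lit 375) (nat_lit 368))) (XT.nd (nat_lit 78) (nat_lit 304) (nat_lit 0) (XT.lf (nat_lit 0) (nat_lit 3121965246) (nat_lit 228) (nat_lit 6393937311) (nat_lit 228) (nat_lit 623440019) (nat_lit 148) (nat_lit 4) (nat_lit 151) (nat_lit 5) (nat_lit 151) (nat_lit 4) (nat_lit 458) (nat_lit 375) (nat_lit 367)) (XT.lf (nat_lit 0) (nat_lit 1774488017) (nat_lit 228) (nat_lit 2252612348) (nat_lit 304) (nat_lit 6252716987) (nat_lit 144) (nat_lit 5) (nat_lit 147) (nat_lit 5) (nat_lit 148) (nat_lit 4) (nat_lit 459) (nat_lit 375) (nat_lit 366)))))) (XT.nd (nat_lit 624) (nat_lit 1520) (nat_lit 0) (XT.nd (nat_lit 312) (nat_lit 608) (nat_lit 0) (XT.nd (nat_lit 156) (nat_lit 532) (nat_lit 0) (XT.nd (nat_lit 78) (nat_lit 76) (nat_lit 0) (XT.lf (nat_lit 0) (nat_lit 368296475) (nat_lit 228) (nat_lit 8432061011) (nat_lit 228) (nat_lit 1624096140) (nat_lit 141) (nat_lit 4) (nat_lit 144) (nat_lit 5) (nat_lit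 144) (nat_lit 4) (nat_lit 460) (nat_lit 375) (nat_lit 365)) (XT.lf (nat_lit 0) (nat_lit 3092706341) (nat_lit 304) (nat_lit 1106336264) (nat_lit 76) (nat_lit 6373164163) (nat_lit 140) (nat_lit 5) (nat_lit 144) (nat_lit 5) (nat_lit 141) (nat_lit 4) (nat_lit 461) (nat_lit 375) (nat_lit 364))) (XT.nd (nat_lit 78) (nat_lit 304) (nat_lit 0) (XT.lf (nat_lit 0) (nat_lit 7902520457) (nat_lit 304) (nat_lit 2632263468) (nat_lit 0) (nat_lit 189605660) (nat_lit 137) (nat_lit 5) (nat_lit 141) (nat_lit 4) (nat_lit 137) (nat_lit 4) (nat_lit 462) (nat_lit 375) (nat_lit 363)) (XT.lf (nat_lit 0) (nat_lit 1958930536) (nat_lit 304) (nat_lit 4263924702) (nat_lit 76) (nat_lit 4657057077) (nat_lit 133) (nat_lit 5) (nat_lit 137) (nat_lit 5) (nat_lit 134) (nat_lit 4) (nat_lit 463) (nat_lit 375) (nat_lit 362)))) (XT.nd (nat_lit 156) (nat_lit 152) (nat_lit 0) (XT.nd (nat_lit 78) (nat_lit 304) (nat_lit 0) (XT.lf (nat_lit 0) (nat_lit 5066235250)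 (nat_lit 152) (nat_lit 1741183327) (nat_lit 228) (nat_lit 4232418191) (nat_lit 131) (nat_lit 5) (nat_lit 133) (nat_lit 5) (nat_lit 134) (nat_lit 4) (nat_lit 464) (nat_lit 375) (nat_lit 361)) (XT.lf (nat_lit 0) (nat_lit 595451050) (nat_lit 304) (nat_lit 7771986529) (nat_lit 76) (nat_lit 2836643883) (nat_lit 127) (nat_lit 5) (nat_lit 131) (nat_lit 5) (nat_lit 128) (nat_lit 4) (nat_lit 465) (nat_lit 375) (nat_lit 360))) (XT.nd (nat_lit 78) (nat_lit 0) (nat_lit 0) (XT.lf (nat_lit 0) (nat_lit 1682414400) (nat_lit 152) (nat_lit 3801313130) (nat_lit 228) (nat_lit 5888253002) (nat_lit 125) (nat_lit 5) (nat_lit 127) (nat_lit 5) (nat_lit 128) (nat_lit 4) (nat_lit 466) (nat_lit 375) (nat_lit 359)) (XT.lf (nat_lit 0) (nat_lit 10513428502) (nat_lit 228) (nat_lit 134431603) (nat_lit 0) (nat_lit 897216432) (nat_lit 125) (nat_lit 5) (nat_lit 128) (nat_lit 4) (nat_lit 125) (nat_lit 4) (nat_lit 467) (nat_lit 375) (nat_lit 358)))))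 (XT.nd (nat_lit 312) (nat_lit 608) (nat_lit 0) (XT.nd (nat_lit 156) (nat_lit 456) (nat_lit 0) (XT.nd (nat_lit 78) (nat_lit 152) (nat_lit 0) (XT.lf (nat_lit 0) (nat_lit 3934026787) (nat_lit 304) (nat_lit 2059156396) (nat_lit 76) (nat_lit 5727814644) (nat_lit 121) (nat_lit 5) (nat_lit 125) (nat_lit 5) (nat_lit 122) (nat_lit 4) (nat_lit 468) (nat_lit 375) (nat_lit 357)) (XT.lf (nat_lit 0) (nat_lit 7837594781) (nat_lit 152) (nat_lit 1176862644) (nat_lit 228) (nat_lit 2887840256) (nat_lit 119) (nat_lit 5) (nat_lit 121) (nat_lit 5) (nat_lit 122) (nat_lit 4) (nat_lit 469) (nat_lit 375) (nat_lit 356))) (XT.nd (nat_lit 78) (nat_lit 152) (nat_lit 0) (XT.lf (nat_lit 0) (nat_lit 2140818778) (nat_lit 304) (nat_lit 6203793288) (nat_lit 76) (nat_lit 3743064775) (nat_lit 115) (nat_lit 5) (nat_lit 119) (nat_lit 5) (nat_lit 116) (nat_lit 4) (nat_lit 470) (nat_lit 375) (nat_lit 355)) (XT.lf (nat_lit 0) (nat_lit 3812166614) (nat_lit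 152) (nat_lit 3450394757) (nat_lit 228) (nat_lit 5015192953) (nat_lit 113) (nat_lit 5) (nat_lit 115) (nat_lit 5) (nat_lit 116) (nat_lit 4) (nat_lit 471) (nat_lit 375) (nat_lit 354)))) (XT.nd (nat_lit 156) (nat_lit 380) (nat_lit 0) (XT.nd (nat_lit 78) (nat_lit 0) (nat_lit 0) (XT.lf (nat_lit 0) (nat_lit 68506691) (nat_lit 228) (nat_lit 10832687024) (nat_lit 76) (nat_lit 1572164155) (nat_lit 110) (nat_lit 5) (nat_lit 113) (nat_lit 5) (nat_lit 111) (nat_lit 4) (nat_lit 472) (nat_lit 375) (nat_lit 353)) (XT.lf (nat_lit 0) (nat_lit 5235576667) (nat_lit 228) (nat_lit 692366442) (nat_lit 76) (nat_lit 6744449449) (nat_lit 110) (nat_lit 5) (nat_lit 113) (nat_lit 5) (nat_lit 111) (nat_lit 4) (nat_lit 473) (nat_lit 375) (nat_lit 352))) (XT.nd (nat_lit 78) (nat_lit 228) (nat_lit 0) (XT.lf (nat_lit 0) (nat_lit 9788719842) (nat_lit 152) (nat_lit 776786683) (nat_lit 228) (nat_lit 2311658745) (nat_lit 108) (nat_lit 5) (nat_lit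 110) (nat_lit 5) (nat_lit 111) (nat_lit 4) (nat_lit 474) (nat_lit 375) (nat_lit 351)) (XT.lf (nat_lit 0) (nat_lit 2946135721) (nat_lit 228) (nat_lit 5658243048) (nat_lit 76) (nat_lit 4481745450) (nat_lit 105) (nat_lit 5) (nat_lit 108) (nat_lit 5) (nat_lit 106) (nat_lit 4) (nat_lit 475) (nat_lit 375) (nat_lit 350))))))) (XT.nd (nat_lit 1170) (nat_lit 1520) (nat_lit 0) (XT.nd (nat_lit 546) (nat_lit 912) (nat_lit 0) (XT.nd (nat_lit 234) (nat_lit 684) (nat_lit 0) (XT.nd (nat_lit 78) (nat_lit 228) (nat_lit 0) (XT.lf (nat_lit 0) (nat_lit 4932923705) (nat_lit 152) (nat_lit 3383211521) (nat_lit 228) (nat_lit 4984504293) (nat_lit 103) (nat_lit 5) (nat_lit 105) (nat_lit 5) (nat_lit 106) (nat_lit 4) (nat_lit 476) (nat_lit 375) (nat_lit 349)) (XT.nd (nat_lit 78) (nat_lit 0) (nat_lit 0) (XT.lf (nat_lit 0) (nat_lit 333169926) (nat_lit 228) (nat_lit 11216612519) (nat_lit 76) (nat_lit 1971299611) (nat_lit 100) (nat_lit 5) (nat_lit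 103) (nat_lit 5) (nat_lit 101) (nat_lit 4) (nat_lit 477) (nat_lit 375) (nat_lit 348)) (XT.lf (nat_lit 0) (nat_lit 5743876583) (nat_lit 228) (nat_lit 516509910) (nat_lit 76) (nat_lit 7485262279) (nat_lit 100) (nat_lit 5) (nat_lit 103) (nat_lit 5) (nat_lit 101) (nat_lit 4) (nat_lit 478) (nat_lit 375) (nat_lit 347)))) (XT.nd (nat_lit 156) (nat_lit 304) (nat_lit 0) (XT.nd (nat_lit 78) (nat_lit 228) (nat_lit 0) (XT.lf (nat_lit 0) (nat_lit 10559610937) (nat_lit 152) (nat_lit 776133444) (nat_lit 228) (nat_lit 2640644877) (nat_lit 98) (nat_lit 5) (nat_lit 100) (nat_lit 5) (nat_lit 101) (nat_lit 4) (nat_lit 479) (nat_lit 375) (nat_lit 346)) (XT.lf (nat_lit 0) (nat_lit 2869463977) (nat_lit 228) (nat_lit 6523823497) (nat_lit 76) (nat_lit 4818604251) (nat_lit 95) (nat_lit 5) (nat_lit 98) (nat_lit 5) (nat_lit 96) (nat_lit 4) (nat_lit 480) (nat_lit 375) (nat_lit 345))) (XT.nd (nat_lit 78) (nat_lit 152) (nat_lit 0) (XT.lf (nat_lit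 0) (nat_lit 4647684288) (nat_lit 152) (nat_lit 3849125039) (nat_lit 228) (nat_lit 5956717161) (nat_lit 93) (nat_lit 5) (nat_lit 95) (nat_lit 5) (nat_lit 96) (nat_lit 4) (nat_lit 481) (nat_lit 375) (nat_lit 344)) (XT.lf (nat_lit 0) (nat_lit 1445490482) (nat_lit 152) (nat_lit 12863895210) (nat_lit 152) (nat_lit 392534026) (nat_lit 91) (nat_lit 4) (nat_lit 93) (nat_lit 5) (nat_lit 93) (nat_lit 4) (nat_lit 482) (nat_lit 375) (nat_lit 343))))) (XT.nd (nat_lit 312) (nat_lit 456) (nat_lit 0) (XT.nd (nat_lit 156) (nat_lit 304) (nat_lit 0) (XT.nd (nat_lit 78) (nat_lit 76) (nat_lit 0) (XT.lf (nat_lit 0) (nat_lit 5290740564) (nat_lit 228) (nat_lit 1961776533) (nat_lit 76) (nat_lit 7702019544) (nat_lit 90) (nat_lit 5) (nat_lit 93) (nat_lit 5) (nat_lit 91) (nat_lit 4) (nat_lit 483) (nat_lit 375) (nat_lit 342)) (XT.lf (nat_lit 0) (nat_lit 9709780228) (nat_lit 76) (nat_lit 1440792063) (nat_lit 152) (nat_lit 4063626329) (nat_lit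 89) (nat_lit 5) (nat_lit 90) (nat_lit 5) (nat_lit 91) (nat_lit 4) (nat_lit 484) (nat_lit 375) (nat_lit 341))) (XT.nd (nat_lit 78) (nat_lit 76) (nat_lit 0) (XT.lf (nat_lit 0) (nat_lit 1716086906) (nat_lit 228) (nat_lit 9276791894) (nat_lit 76) (nat_lit 4486937604) (nat_lit 86) (nat_lit 5) (nat_lit 89) (nat_lit 5) (nat_lit 87) (nat_lit 4) (nat_lit 485) (nat_lit 375) (nat_lit 340)) (XT.lf (nat_lit 0) (nat_lit 2467993855) (nat_lit 76) (nat_lit 5134638603) (nat_lit 152) (nat_lit 8149111232) (nat_lit 85) (nat_lit 5) (nat_lit 86) (nat_lit 5) (nat_lit 87) (nat_lit 4) (nat_lit 486) (nat_lit 375) (nat_lit 339)))) (XT.nd (nat_lit 156) (nat_lit 228) (nat_lit 0) (XT.nd (nat_lit 78) (nat_lit 228) (nat_lit 0) (XT.lf (nat_lit 0) (nat_lit 13690253271) (nat_lit 152) (nat_lit 1431447317) (nat_lit 0) (nat_lit 909395262) (nat_lit 85) (nat_lit 5) (nat_lit 87) (nat_lit 4) (nat_lit 85) (nat_lit 4) (nat_lit 487) (nat_lit 375) (nat_lit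 338)) (XT.lf (nat_lit 0) (nat_lit 3649487821) (nat_lit 228) (nat_lit 5559911834) (nat_lit 76) (nat_lit 7106013801) (nat_lit 82) (nat_lit 5) (nat_lit 85) (nat_lit 5) (nat_lit 83) (nat_lit 4) (nat_lit 488) (nat_lit 375) (nat_lit 337))) (XT.nd (nat_lit 78) (nat_lit 152) (nat_lit 0) (XT.lf (nat_lit 0) (nat_lit 6692917743) (nat_lit 76) (nat_lit 3082127765) (nat_lit 152) (nat_lit 6832444103) (nat_lit 81) (nat_lit 5) (nat_lit 82) (nat_lit 5) (nat_lit 83) (nat_lit 4) (nat_lit 489) (nat_lit 375) (nat_lit 336)) (XT.lf (nat_lit 0) (nat_lit 2391582904) (nat_lit 152) (nat_lit 13727356921) (nat_lit 152) (nat_lit 788352390) (nat_lit 79) (nat_lit 4) (nat_lit 81) (nat_lit 5) (nat_lit 81) (nat_lit 4) (nat_lit 490) (nat_lit 375) (nat_lit 335)))))) (XT.nd (nat_lit 624) (nat_lit 760) (nat_lit 0) (XT.nd (nat_lit 312) (nat_lit 304) (nat_lit 0) (XT.nd (nat_lit 156) (nat_lit 304) (nat_lit 0) (XT.nd (nat_lit 78) (nat_lit 76) (nat_lit 0)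 (XT.lf (nat_lit 0) (nat_lit 5386531459) (nat_lit 228) (nat_lit 2170949519) (nat_lit 76) (nat_lit 9655374196) (nat_lit 78) (nat_lit 5) (nat_lit 81) (nat_lit 5) (nat_lit 79) (nat_lit 4) (nat_lit 491) (nat_lit 375) (nat_lit 334)) (XT.lf (nat_lit 0) (nat_lit 10603202097) (nat_lit 76) (nat_lit 1155695337) (nat_lit 152) (nat_lit 5767612157) (nat_lit 77) (nat_lit 5) (nat_lit 78) (nat_lit 5) (nat_lit 79) (nat_lit 4) (nat_lit 492) (nat_lit 375) (nat_lit 333))) (XT.nd (nat_lit 78) (nat_lit 76) (nat_lit 0) (XT.lf (nat_lit 0) (nat_lit 521460640) (nat_lit 228) (nat_lit 11974832768) (nat_lit 76) (nat_lit 5351410144) (nat_lit 74) (nat_lit 5) (nat_lit 77) (nat_lit 5) (nat_lit 75) (nat_lit 4) (nat_lit 493) (nat_lit 375) (nat_lit 332)) (XT.lf (nat_lit 0) (nat_lit 824947113) (nat_lit 76) (nat_lit 6074742712) (nat_lit 152) (nat_lit 11276639187) (nat_lit 73) (nat_lit 5) (nat_lit 74) (nat_lit 5) (nat_lit 75) (nat_lit 4) (nat_lit 494)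 (nat_lit 375) (nat_lit 331)))) (XT.nd (nat_lit 156) (nat_lit 76) (nat_lit 0) (XT.nd (nat_lit 78) (nat_lit 228) (nat_lit 0) (XT.lf (nat_lit 0) (nat_lit 13523172869) (nat_lit 152) (nat_lit 4403877703) (nat_lit 0) (nat_lit 586146481) (nat_lit 73) (nat_lit 5) (nat_lit 75) (nat_lit 4) (nat_lit 73) (nat_lit 4) (nat_lit 495) (nat_lit 375) (nat_lit 330)) (XT.lf (nat_lit 0) (nat_lit 1531472525) (nat_lit 228) (nat_lit 9963601338) (nat_lit 76) (nat_lit 7362412001) (nat_lit 70) (nat_lit 5) (nat_lit 73) (nat_lit 5) (nat_lit 71) (nat_lit 4) (nat_lit 496) (nat_lit 375) (nat_lit 329))) (XT.nd (nat_lit 78) (nat_lit 0) (nat_lit 0) (XT.lf (nat_lit 0) (nat_lit 3349102136) (nat_lit 76) (nat_lit 4805139893) (nat_lit 152) (nat_lit 11056202392) (nat_lit 69) (nat_lit 5) (nat_lit 70) (nat_lit 5) (nat_lit 71) (nat_lit 4) (nat_lit 497) (nat_lit 375) (nat_lit 328)) (XT.lf (nat_lit 0) (nat_lit 15026320379) (nat_lit 152) (nat_lit 2463228422)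 (nat_lit 0) (nat_lit 2082925073) (nat_lit 69) (nat_lit 5) (nat_lit 71) (nat_lit 4) (nat_lit 69) (nat_lit 4) (nat_lit 498) (nat_lit 375) (nat_lit 327))))) (XT.nd (nat_lit 312) (nat_lit 304) (nat_lit 0) (XT.nd (nat_lit 156) (nat_lit 152) (nat_lit 0) (XT.nd (nat_lit 78) (nat_lit 76) (nat_lit 0) (XT.lf (nat_lit 0) (nat_lit 2205926058) (nat_lit 228) (nat_lit 8585723575) (nat_lit 76) (nat_lit 9150426884) (nat_lit 66) (nat_lit 5) (nat_lit 69) (nat_lit 5) (nat_lit 67) (nat_lit 4) (nat_lit 499) (nat_lit 375) (nat_lit 326)) (XT.lf (nat_lit 0) (nat_lit 5243318756) (nat_lit 76) (nat_lit 3832506277) (nat_lit 152) (nat_lit 11245393789) (nat_lit 65) (nat_lit 5) (nat_lit 66) (nat_lit 5) (nat_lit 67) (nat_lit 4) (nat_lit 500) (nat_lit 375) (nat_lit 325))) (XT.nd (nat_lit 78) (nat_lit 152) (nat_lit 0) (XT.lf (nat_lit 0) (nat_lit 16202683374) (nat_lit 152) (nat_lit 1211693278) (nat_lit 0) (nat_lit 3295833685) (nat_lit 65) (nat_lit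 5) (nat_lit 67) (nat_lit 4) (nat_lit 65) (nat_lit 4) (nat_lit 501) (nat_lit 375) (nat_lit 324)) (XT.lf (nat_lit 0) (nat_lit 2483672698) (nat_lit 152) (nat_lit 7971930783) (nat_lit 76) (nat_lit 10651607508) (nat_lit 63) (nat_lit 5) (nat_lit 65) (nat_lit 5) (nat_lit 64) (nat_lit 4) (nat_lit 502) (nat_lit 375) (nat_lit 323)))) (XT.nd (nat_lit 156) (nat_lit 228) (nat_lit 0) (XT.nd (nat_lit 78) (nat_lit 0) (nat_lit 0) (XT.lf (nat_lit 0) (nat_lit 6372279772) (nat_lit 76) (nat_lit 3228650348) (nat_lit 152) (nat_lit 11913645855) (nat_lit 62) (nat_lit 5) (nat_lit 63) (nat_lit 5) (nat_lit 64) (nat_lit 4) (nat_lit 503) (nat_lit 375) (nat_lit 322)) (XT.lf (nat_lit 0) (nat_lit 16986948668) (nat_lit 152) (nat_lit 792012308) (nat_lit 0) (nat_lit 4153544353) (nat_lit 62) (nat_lit 5) (nat_lit 64) (nat_lit 4) (nat_lit 62) (nat_lit 4) (nat_lit 504) (nat_lit 375) (nat_lit 321))) (XT.nd (nat_lit 78) (nat_lit 76) (nat_lit 0) (XT.lf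 (nat_lit 0) (nat_lit 2291982606) (nat_lit 152) (nat_lit 8275691472) (nat_lit 76) (nat_lit 11791537021) (nat_lit 60) (nat_lit 5) (nat_lit 62) (nat_lit 5) (nat_lit 61) (nat_lit 4) (nat_lit 505) (nat_lit 375) (nat_lit 320)) (XT.lf (nat_lit 0) (nat_lit 6576891410) (nat_lit 76) (nat_lit 3077075135) (nat_lit 152) (nat_lit 13143081600) (nat_lit 59) (nat_lit 5) (nat_lit 60) (nat_lit 5) (nat_lit 61) (nat_lit 4) (nat_lit 506) (nat_lit 375) (nat_lit 319))))))))
noncomputable def xc45 : XT := (XT.nd (nat_lit 2418) (nat_lit 760) (nat_lit 0) (XT.nd (nat_lit 1170) (nat_lit 1064) (nat_lit 0) (XT.nd (nat_lit 546) (nat_lit 532) (nat_lit 0) (XT.nd (nat_lit 234) (nat_lit 228) (nat_lit 0) (XT.nd (nat_lit 78) (nat_lit 228) (nat_lit 0) (XT.lf (nat_lit 0) (nat_lit 17301318938) (nat_lit 152) (nat_lit 1371815231) (nat_lit 0) (nat_lit 4572951504) (nat_lit 59) (nat_lit 5) (nat_lit 61) (nat_lit 4) (nat_lit 59) (nat_lit 4) (nat_lit 507) (nat_lit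 375) (nat_lit 318)) (XT.nd (nat_lit 78) (nat_lit 76) (nat_lit 0) (XT.lf (nat_lit 0) (nat_lit 1544707765) (nat_lit 152) (nat_lit 9677027468) (nat_lit 76) (nat_lit 12483319365) (nat_lit 57) (nat_lit 5) (nat_lit 59) (nat_lit 5) (nat_lit 58) (nat_lit 4) (nat_lit 508) (nat_lit 375) (nat_lit 317)) (XT.lf (nat_lit 0) (nat_lit 5670283537) (nat_lit 76) (nat_lit 3475049380) (nat_lit 152) (nat_lit 15030515974) (nat_lit 56) (nat_lit 5) (nat_lit 57) (nat_lit 5) (nat_lit 58) (nat_lit 4) (nat_lit 509) (nat_lit 375) (nat_lit 316)))) (XT.nd (nat_lit 156) (nat_lit 76) (nat_lit 0) (XT.nd (nat_lit 78) (nat_lit 152) (nat_lit 0) (XT.lf (nat_lit 0) (nat_lit 17053507773) (nat_lit 152) (nat_lit 3147786705) (nat_lit 0) (nat_lit 4457087177) (nat_lit 56) (nat_lit 5) (nat_lit 58) (nat_lit 4) (nat_lit 56) (nat_lit 4) (nat_lit 510) (nat_lit 375) (nat_lit 315)) (XT.lf (nat_lit 0) (nat_lit 140140603) (nat_lit 152) (nat_lit 12386938401) (nat_lit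 76) (nat_lit 12625375795) (nat_lit 54) (nat_lit 5) (nat_lit 56) (nat_lit 5) (nat_lit 55) (nat_lit 4) (nat_lit 511) (nat_lit 375) (nat_lit 314))) (XT.nd (nat_lit 78) (nat_lit 0) (nat_lit 0) (XT.lf (nat_lit 0) (nat_lit 3433171044) (nat_lit 76) (nat_lit 4535998188) (nat_lit 152) (nat_lit 17689787128) (nat_lit 53) (nat_lit 5) (nat_lit 54) (nat_lit 5) (nat_lit 55) (nat_lit 4) (nat_lit 512) (nat_lit 375) (nat_lit 313)) (XT.lf (nat_lit 0) (nat_lit 16134403014) (nat_lit 152) (nat_lit 6350496966) (nat_lit 0) (nat_lit 3692713464) (nat_lit 53) (nat_lit 5) (nat_lit 55) (nat_lit 4) (nat_lit 53) (nat_lit 4) (nat_lit 513) (nat_lit 375) (nat_lit 312))))) (XT.nd (nat_lit 312) (nat_lit 228) (nat_lit 0) (XT.nd (nat_lit 156) (nat_lit 152) (nat_lit 0) (XT.nd (nat_lit 78) (nat_lit 76) (nat_lit 0) (XT.lf (nat_lit 0) (nat_lit 10036803937) (nat_lit 76) (nat_lit 14590438147) (nat_lit 76) (nat_lit 2082109197) (nat_lit 52) (nat_lit 4) (nat_lit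 53) (nat_lit 5) (nat_lit 53) (nat_lit 4) (nat_lit 514) (nat_lit 375) (nat_lit 311)) (XT.lf (nat_lit 0) (nat_lit 6004502805) (nat_lit 152) (nat_lit 383886699) (nat_lit 76) (nat_lit 20866706208) (nat_lit 51) (nat_lit 5) (nat_lit 53) (nat_lit 5) (nat_lit 52) (nat_lit 4) (nat_lit 515) (nat_lit 375) (nat_lit 310))) (XT.nd (nat_lit 78) (nat_lit 76) (nat_lit 0) (XT.lf (nat_lit 0) (nat_lit 14415346045) (nat_lit 152) (nat_lit 11250005152) (nat_lit 0) (nat_lit 2147538841) (nat_lit 50) (nat_lit 5) (nat_lit 52) (nat_lit 4) (nat_lit 50) (nat_lit 4) (nat_lit 516) (nat_lit 375) (nat_lit 309)) (XT.lf (nat_lit 0) (nat_lit 5572123841) (nat_lit 76) (nat_lit 17570198010) (nat_lit 76) (nat_lit 5243182563) (nat_lit 49) (nat_lit 4) (nat_lit 50) (nat_lit 5) (nat_lit 50) (nat_lit 4) (nat_lit 517) (nat_lit 375) (nat_lit 308)))) (XT.nd (nat_lit 156) (nat_lit 76) (nat_lit 0) (XT.nd (nat_lit 78) (nat_lit 76) (nat_lit 0) (XT.lf (nat_lit 0)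 (nat_lit 3152068854) (nat_lit 152) (nat_lit 5985799404) (nat_lit 76) (nat_lit 19834784093) (nat_lit 48) (nat_lit 5) (nat_lit 50) (nat_lit 5) (nat_lit 49) (nat_lit 4) (nat_lit 518) (nat_lit 375) (nat_lit 307)) (XT.lf (nat_lit 0) (nat_lit 11408600259) (nat_lit 76) (nat_lit 339630718) (nat_lit 152) (nat_lit 17825993689) (nat_lit 47) (nat_lit 5) (nat_lit 48) (nat_lit 5) (nat_lit 49) (nat_lit 4) (nat_lit 519) (nat_lit 375) (nat_lit 306))) (XT.nd (nat_lit 78) (nat_lit 76) (nat_lit 0) (XT.lf (nat_lit 0) (nat_lit 20692001678) (nat_lit 152) (nat_lit 937724766) (nat_lit 0) (nat_lit 8561426381) (nat_lit 47) (nat_lit 5) (nat_lit 49) (nat_lit 4) (nat_lit 47) (nat_lit 4) (nat_lit 520) (nat_lit 375) (nat_lit 305)) (XT.lf (nat_lit 0) (nat_lit 17030357356) (nat_lit 76) (nat_lit 12987237705) (nat_lit 76) (nat_lit 805588858) (nat_lit 46) (nat_lit 4) (nat_lit 47) (nat_lit 5) (nat_lit 47) (nat_lit 4) (nat_lit 521) (nat_lit 375) (nat_lit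 304)))))) (XT.nd (nat_lit 624) (nat_lit 456) (nat_lit 0) (XT.nd (nat_lit 312) (nat_lit 304) (nat_lit 0) (XT.nd (nat_lit 156) (nat_lit 152) (nat_lit 0) (XT.nd (nat_lit 78) (nat_lit 0) (nat_lit 0) (XT.lf (nat_lit 0) (nat_lit 3976334609) (nat_lit 76) (nat_lit 4007689739) (nat_lit 152) (nat_lit 23487974336) (nat_lit 44) (nat_lit 5) (nat_lit 45) (nat_lit 5) (nat_lit 46) (nat_lit 4) (nat_lit 522) (nat_lit 375) (nat_lit 303)) (XT.lf (nat_lit 0) (nat_lit 17158703398) (nat_lit 152) (nat_lit 9740229880) (nat_lit 0) (nat_lit 5236978603) (nat_lit 44) (nat_lit 5) (nat_lit 46) (nat_lit 4) (nat_lit 44) (nat_lit 4) (nat_lit 523) (nat_lit 375) (nat_lit 302))) (XT.nd (nat_lit 78) (nat_lit 76) (nat_lit 0) (XT.lf (nat_lit 0) (nat_lit 8572849907) (nat_lit 76) (nat_lit 18105945356) (nat_lit 76) (nat_lit 6138842373) (nat_lit 43) (nat_lit 4) (nat_lit 44) (nat_lit 5) (nat_lit 44) (nat_lit 4) (nat_lit 524) (nat_lit 375) (nat_lit 301)) (XT.lf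 (nat_lit 0) (nat_lit 2954265410) (nat_lit 152) (nat_lit 6014000693) (nat_lit 76) (nat_lit 24549271162) (nat_lit 42) (nat_lit 5) (nat_lit 44) (nat_lit 5) (nat_lit 43) (nat_lit 4) (nat_lit 525) (nat_lit 375) (nat_lit 300)))) (XT.nd (nat_lit 156) (nat_lit 228) (nat_lit 0) (XT.nd (nat_lit 78) (nat_lit 0) (nat_lit 0) (XT.lf (nat_lit 0) (nat_lit 12275580696) (nat_lit 152) (nat_lit 21385932759) (nat_lit 0) (nat_lit 572733346) (nat_lit 41) (nat_lit 5) (nat_lit 43) (nat_lit 4) (nat_lit 41) (nat_lit 4) (nat_lit 526) (nat_lit 375) (nat_lit 299)) (XT.lf (nat_lit 0) (nat_lit 21976332845) (nat_lit 152) (nat_lit 2759963591) (nat_lit 0) (nat_lit 10233167562) (nat_lit 41) (nat_lit 5) (nat_lit 43) (nat_lit 4) (nat_lit 41) (nat_lit 4) (nat_lit 527) (nat_lit 375) (nat_lit 298))) (XT.nd (nat_lit 78) (nat_lit 152) (nat_lit 0) (XT.lf (nat_lit 0) (nat_lit 16652936434) (nat_lit 76) (nat_lit 15426386998) (nat_lit 76) (nat_lit 3644078091)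 (nat_lit 40) (nat_lit 4) (nat_lit 41) (nat_lit 5) (nat_lit 41) (nat_lit 4) (nat_lit 528) (nat_lit 375) (nat_lit 297)) (XT.lf (nat_lit 0) (nat_lit 52052784) (nat_lit 76) (nat_lit 5796402983) (nat_lit 152) (nat_lit 30650381399) (nat_lit 38) (nat_lit 5) (nat_lit 39) (nat_lit 5) (nat_lit 40) (nat_lit 4) (nat_lit 529) (nat_lit 375) (nat_lit 296))))) (XT.nd (nat_lit 312) (nat_lit 228) (nat_lit 0) (XT.nd (nat_lit 156) (nat_lit 152) (nat_lit 0) (XT.nd (nat_lit 78) (nat_lit 76) (nat_lit 0) (XT.lf (nat_lit 0) (nat_lit 15737836214) (nat_lit 152) (nat_lit 17327075367) (nat_lit 0) (nat_lit 4225982774) (nat_lit 38) (nat_lit 5) (nat_lit 40) (nat_lit 4) (nat_lit 38) (nat_lit 4) (nat_lit 530) (nat_lit 375) (nat_lit 295)) (XT.lf (nat_lit 0) (nat_lit 2258860589) (nat_lit 76) (nat_lit 23696766548) (nat_lit 76) (nat_lit 12150134505) (nat_lit 37) (nat_lit 4) (nat_lit 38) (nat_lit 5) (nat_lit 38) (nat_lit 4) (nat_lit 531) (nat_lit 375)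 (nat_lit 294))) (XT.nd (nat_lit 78) (nat_lit 152) (nat_lit 0) (XT.lf (nat_lit 0) (nat_lit 22694432062) (nat_lit 76) (nat_lit 13913599214) (nat_lit 76) (nat_lit 2333201537) (nat_lit 37) (nat_lit 4) (nat_lit 38) (nat_lit 5) (nat_lit 38) (nat_lit 4) (nat_lit 532) (nat_lit 375) (nat_lit 293)) (XT.lf (nat_lit 0) (nat_lit 3850333936) (nat_lit 76) (nat_lit 3767160537) (nat_lit 152) (nat_lit 32182299708) (nat_lit 35) (nat_lit 5) (nat_lit 36) (nat_lit 5) (nat_lit 37) (nat_lit 4) (nat_lit 533) (nat_lit 375) (nat_lit 292)))) (XT.nd (nat_lit 156) (nat_lit 152) (nat_lit 0) (XT.nd (nat_lit 78) (nat_lit 76) (nat_lit 0) (XT.lf (nat_lit 0) (nat_lit 18003811638) (nat_lit 152) (nat_lit 15976108680) (nat_lit 0) (nat_lit 6697979410) (nat_lit 35) (nat_lit 5) (nat_lit 37) (nat_lit 4) (nat_lit 35) (nat_lit 4) (nat_lit 534) (nat_lit 375) (nat_lit 291)) (XT.lf (nat_lit 0) (nat_lit 4559405171) (nat_lit 76) (nat_lit 24178840118) (nat_lit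 76) (nat_lit 12843007563) (nat_lit 34) (nat_lit 4) (nat_lit 35) (nat_lit 5) (nat_lit 35) (nat_lit 4) (nat_lit 535) (nat_lit 375) (nat_lit 290))) (XT.nd (nat_lit 78) (nat_lit 152) (nat_lit 0) (XT.lf (nat_lit 0) (nat_lit 25950638652) (nat_lit 76) (nat_lit 13961255872) (nat_lit 76) (nat_lit 2596296784) (nat_lit 34) (nat_lit 4) (nat_lit 35) (nat_lit 5) (nat_lit 35) (nat_lit 4) (nat_lit 536) (nat_lit 375) (nat_lit 289)) (XT.lf (nat_lit 0) (nat_lit 4444765693) (nat_lit 76) (nat_lit 3357206211) (nat_lit 152) (nat_lit 35658688085) (nat_lit 32) (nat_lit 5) (nat_lit 33) (nat_lit 5) (nat_lit 34) (nat_lit 4) (nat_lit 537) (nat_lit 375) (nat_lit 288))))))) (XT.nd (nat_lit 1248) (nat_lit 0) (nat_lit 0) (XT.nd (nat_lit 624) (nat_lit 380) (nat_lit 0) (XT.nd (nat_lit 312) (nat_lit 152) (nat_lit 0) (XT.nd (nat_lit 156) (nat_lit 152) (nat_lit 0) (XT.nd (nat_lit 78) (nat_lit 76) (nat_lit 0) (XT.lf (nat_lit 0) (nat_lit 18658328028)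 (nat_lit 152) (nat_lit 18206376338) (nat_lit 0) (nat_lit 7570277713) (nat_lit 32) (nat_lit 5) (nat_lit 34) (nat_lit 4) (nat_lit 32) (nat_lit 4) (nat_lit 538) (nat_lit 375) (nat_lit 287)) (XT.lf (nat_lit 0) (nat_lit 3172426605) (nat_lit 76) (nat_lit 26689691983) (nat_lit 76) (nat_lit 15575763122) (nat_lit 31) (nat_lit 4) (nat_lit 32) (nat_lit 5) (nat_lit 32) (nat_lit 4) (nat_lit 539) (nat_lit 375) (nat_lit 286))) (XT.nd (nat_lit 78) (nat_lit 152) (nat_lit 0) (XT.lf (nat_lit 0) (nat_lit 25482960405) (nat_lit 76) (nat_lit 16061346624) (nat_lit 76) (nat_lit 4922292960) (nat_lit 31) (nat_lit 4) (nat_lit 32) (nat_lit 5) (nat_lit 32) (nat_lit 4) (nat_lit 540) (nat_lit 375) (nat_lit 285)) (XT.lf (nat_lit 0) (nat_lit 813088518) (nat_lit 76) (nat_lit 5086682513) (nat_lit 152) (nat_lit 41625652178) (nat_lit 29) (nat_lit 5) (nat_lit 30) (nat_lit 5) (nat_lit 31) (nat_lit 4) (nat_lit 541) (nat_lit 375) (nat_lit 284)))) (XT.nd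 (nat_lit 156) (nat_lit 152) (nat_lit 0) (XT.nd (nat_lit 78) (nat_lit 0) (nat_lit 0) (XT.lf (nat_lit 0) (nat_lit 17180593540) (nat_lit 152) (nat_lit 25107661750) (nat_lit 0) (nat_lit 6319303043) (nat_lit 29) (nat_lit 5) (nat_lit 31) (nat_lit 4) (nat_lit 29) (nat_lit 4) (nat_lit 542) (nat_lit 375) (nat_lit 283)) (XT.lf (nat_lit 0) (nat_lit 28810664600) (nat_lit 152) (nat_lit 2984117317) (nat_lit 0) (nat_lit 17927051040) (nat_lit 29) (nat_lit 5) (nat_lit 31) (nat_lit 4) (nat_lit 29) (nat_lit 4) (nat_lit 543) (nat_lit 375) (nat_lit 282))) (XT.nd (nat_lit 78) (nat_lit 76) (nat_lit 0) (XT.lf (nat_lit 0) (nat_lit 20119122711) (nat_lit 76) (nat_lit 20825524708) (nat_lit 76) (nat_lit 9920238273) (nat_lit 28) (nat_lit 4) (nat_lit 29) (nat_lit 5) (nat_lit 29) (nat_lit 4) (nat_lit 544) (nat_lit 375) (nat_lit 281)) (XT.lf (nat_lit 0) (nat_lit 1365149416) (nat_lit 152) (nat_lit 8155074746) (nat_lit 76) (nat_lit 42521840438)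 (nat_lit 27) (nat_lit 5) (nat_lit 29) (nat_lit 5) (nat_lit 28) (nat_lit 4) (nat_lit 545) (nat_lit 375) (nat_lit 280))))) (XT.nd (nat_lit 312) (nat_lit 228) (nat_lit 0) (XT.nd (nat_lit 156) (nat_lit 76) (nat_lit 0) (XT.nd (nat_lit 78) (nat_lit 0) (nat_lit 0) (XT.lf (nat_lit 0) (nat_lit 12921417315) (nat_lit 152) (nat_lit 38032745866) (nat_lit 0) (nat_lit 2293498068) (nat_lit 26) (nat_lit 5) (nat_lit 28) (nat_lit 4) (nat_lit 26) (nat_lit 4) (nat_lit 546) (nat_lit 375) (nat_lit 279)) (XT.lf (nat_lit 0) (nat_lit 24964564650) (nat_lit 152) (nat_lit 15203266213) (nat_lit 0) (nat_lit 14317389334) (nat_lit 26) (nat_lit 5) (nat_lit 28) (nat_lit 4) (nat_lit 26) (nat_lit 4) (nat_lit 547) (nat_lit 375) (nat_lit 278))) (XT.nd (nat_lit 78) (nat_lit 0) (nat_lit 0) (XT.lf (nat_lit 0) (nat_lit 8402822321) (nat_lit 76) (nat_lit 29010807774) (nat_lit 76) (nat_lit 18344937245) (nat_lit 25) (nat_lit 4) (nat_lit 26) (nat_lit 5) (nat_lit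 26) (nat_lit 4) (nat_lit 548) (nat_lit 375) (nat_lit 277)) (XT.lf (nat_lit 0) (nat_lit 32957209009) (nat_lit 76) (nat_lit 17396697536) (nat_lit 76) (nat_lit 6712676315) (nat_lit 25) (nat_lit 4) (nat_lit 26) (nat_lit 5) (nat_lit 26) (nat_lit 4) (nat_lit 549) (nat_lit 375) (nat_lit 276)))) (XT.nd (nat_lit 156) (nat_lit 76) (nat_lit 0) (XT.nd (nat_lit 78) (nat_lit 76) (nat_lit 0) (XT.lf (nat_lit 0) (nat_lit 5130658021) (nat_lit 152) (nat_lit 286407468) (nat_lit 76) (nat_lit 52996306726) (nat_lit 24) (nat_lit 5) (nat_lit 26) (nat_lit 5) (nat_lit 25) (nat_lit 4) (nat_lit 550) (nat_lit 375) (nat_lit 275)) (XT.lf (nat_lit 0) (nat_lit 17465958021) (nat_lit 152) (nat_lit 35265063311) (nat_lit 0) (nat_lit 7059402662) (nat_lit 23) (nat_lit 5) (nat_lit 25) (nat_lit 4) (nat_lit 23) (nat_lit 4) (nat_lit 551) (nat_lit 375) (nat_lit 274))) (XT.nd (nat_lit 78) (nat_lit 76) (nat_lit 0) (XT.lf (nat_lit 0) (nat_lit 30193827797) (nat_lit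 152) (nat_lit 11243138542) (nat_lit 0) (nat_lit 19771145783) (nat_lit 23) (nat_lit 5) (nat_lit 25) (nat_lit 4) (nat_lit 23) (nat_lit 4) (nat_lit 552) (nat_lit 375) (nat_lit 273)) (XT.lf (nat_lit 0) (nat_lit 13700649309) (nat_lit 76) (nat_lit 29701530636) (nat_lit 76) (nat_lit 19263191676) (nat_lit 22) (nat_lit 4) (nat_lit 23) (nat_lit 5) (nat_lit 23) (nat_lit 4) (nat_lit 553) (nat_lit 375) (nat_lit 272)))))) (XT.nd (nat_lit 54756) (nat_lit 0) (nat_lit 8740) (XT.nd (nat_lit 54444) (nat_lit 0) (nat_lit 10640) (XT.nd (nat_lit 54288) (nat_lit 0) (nat_lit 11704) (XT.nd (nat_lit 54210) (nat_lit 0) (nat_lit 12388) (XT.lf (nat_lit 0) (nat_lit 39557728907) (nat_lit 76) (nat_lit 17529867784) (nat_lit 76) (nat_lit 7076327905) (nat_lit 22) (nat_lit 4) (nat_lit 23) (nat_lit 5) (nat_lit 23) (nat_lit 4) (nat_lit 554) (nat_lit 375) (nat_lit 271)) (XT.lf (nat_lit 0) (nat_lit 1198859058) (nat_lit 380) (nat_lit 2065246209) (nat_lit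 0) (nat_lit 1198859058) (nat_lit 185) (nat_lit 5) (nat_lit 190) (nat_lit 4) (nat_lit 185) (nat_lit 4) (nat_lit 448) (nat_lit 376) (nat_lit 376))) (XT.nd (nat_lit 78) (nat_lit 380) (nat_lit 0) (XT.lf (nat_lit 0) (nat_lit 3733800848) (nat_lit 304) (nat_lit 3112447338) (nat_lit 304) (nat_lit 2187229342) (nat_lit 181) (nat_lit 4) (nat_lit 185) (nat_lit 5) (nat_lit 185) (nat_lit 4) (nat_lit 449) (nat_lit 376) (nat_lit 375)) (XT.lf (nat_lit 0) (nat_lit 2206434535) (nat_lit 380) (nat_lit 6502097500) (nat_lit 0) (nat_lit 436057938) (nat_lit 176) (nat_lit 5) (nat_lit 181) (nat_lit 4) (nat_lit 176) (nat_lit 4) (nat_lit 450) (nat_lit 376) (nat_lit 374)))) (XT.nd (nat_lit 156) (nat_lit 380) (nat_lit 0) (XT.nd (nat_lit 78) (nat_lit 380) (nat_lit 0) (XT.lf (nat_lit 0) (nat_lit 1491107880) (nat_lit 304) (nat_lit 5192252106) (nat_lit 304) (nat_lit 2575169977) (nat_lit 172) (nat_lit 4) (nat_lit 176) (nat_lit 5) (nat_lit 176) (nat_lit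 4) (nat_lit 451) (nat_lit 376) (nat_lit 373)) (XT.lf (nat_lit 0) (nat_lit 310825864) (nat_lit 304) (nat_lit 1536441228) (nat_lit 380) (nat_lit 7529093525) (nat_lit 167) (nat_lit 5) (nat_lit 171) (nat_lit 5) (nat_lit 172) (nat_lit 4) (nat_lit 452) (nat_lit 376) (nat_lit 372))) (XT.nd (nat_lit 78) (nat_lit 380) (nat_lit 0) (XT.lf (nat_lit 0) (nat_lit 6348913137) (nat_lit 380) (nat_lit 913005000) (nat_lit 0) (nat_lit 2235100025) (nat_lit 167) (nat_lit 5) (nat_lit 172) (nat_lit 4) (nat_lit 167) (nat_lit 4) (nat_lit 453) (nat_lit 376) (nat_lit 371)) (XT.lf (nat_lit 0) (nat_lit 1325105861) (nat_lit 380) (nat_lit 2176135112) (nat_lit 76) (nat_lit 6120043928) (nat_lit 162) (nat_lit 5) (nat_lit 167) (nat_lit 5) (nat_lit 163) (nat_lit 4) (nat_lit 454) (nat_lit 376) (nat_lit 370))))) (XT.nd (nat_lit 312) (nat_lit 836) (nat_lit 0) (XT.nd (nat_lit 156) (nat_lit 456) (nat_lit 0) (XT.nd (nat_lit 78) (nat_lit 380) (nat_lit 0)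 (XT.lf (nat_lit 0) (nat_lit 5843802328) (nat_lit 304) (nat_lit 3494979724) (nat_lit 0) (nat_lit 410330832) (nat_lit 159) (nat_lit 5) (nat_lit 163) (nat_lit 4) (nat_lit 159) (nat_lit 4) (nat_lit 455) (nat_lit 376) (nat_lit 369)) (XT.lf (nat_lit 0) (nat_lit 612208190) (nat_lit 380) (nat_lit 4879137949) (nat_lit 76) (nat_lit 4389047380) (nat_lit 154) (nat_lit 5) (nat_lit 159) (nat_lit 5) (nat_lit 155) (nat_lit 4) (nat_lit 456) (nat_lit 376) (nat_lit 368))) (XT.nd (nat_lit 78) (nat_lit 228) (nat_lit 0) (XT.lf (nat_lit 0) (nat_lit 3684753071) (nat_lit 228) (nat_lit 1475380334) (nat_lit 304) (nat_lit 4855122734) (nat_lit 151) (nat_lit 5) (nat_lit 154) (nat_lit 5) (nat_lit 155) (nat_lit 4) (nat_lit 457) (nat_lit 376) (nat_lit 367)) (XT.lf (nat_lit 0) (nat_lit 2313593315) (nat_lit 228) (nat_lit 7531563043) (nat_lit 228) (nat_lit 308993111) (nat_lit 148) (nat_lit 4) (nat_lit 151) (nat_lit 5) (nat_lit 151) (nat_lit 4) (nat_lit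 458) (nat_lit 376) (nat_lit 366)))) (XT.nd (nat_lit 156) (nat_lit 532) (nat_lit 0) (XT.nd (nat_lit 78) (nat_lit 0) (nat_lit 0) (XT.lf (nat_lit 0) (nat_lit 852084822) (nat_lit 228) (nat_lit 3426896874) (nat_lit 304) (nat_lit 6017246908) (nat_lit 144) (nat_lit 5) (nat_lit 147) (nat_lit 5) (nat_lit 148) (nat_lit 4) (nat_lit 459) (nat_lit 376) (nat_lit 365)) (XT.lf (nat_lit 0) (nat_lit 8990195356) (nat_lit 304) (nat_lit 644968866) (nat_lit 0) (nat_lit 807564048) (nat_lit 144) (nat_lit 5) (nat_lit 148) (nat_lit 4) (nat_lit 144) (nat_lit 4) (nat_lit 460) (nat_lit 376) (nat_lit 364))) (XT.nd (nat_lit 78) (nat_lit 228) (nat_lit 0) (XT.lf (nat_lit 0) (nat_lit 3207484952) (nat_lit 304) (nat_lit 2231208958) (nat_lit 76) (nat_lit 5153343099) (nat_lit 140) (nat_lit 5) (nat_lit 144) (nat_lit 5) (nat_lit 141) (nat_lit 4) (nat_lit 461) (nat_lit 376) (nat_lit 363)) (XT.lf (nat_lit 0) (nat_lit 6868832363) (nat_lit 228) (nat_lit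 1089149822) (nat_lit 304) (nat_lit 2788019060) (nat_lit 137) (nat_lit 5) (nat_lit 140) (nat_lit 5) (nat_lit 141) (nat_lit 4) (nat_lit 462) (nat_lit 376) (nat_lit 362))))))))
noncomputable def xc46 : XT := (XT.nd (nat_lit 2418) (nat_lit 2508) (nat_lit 0) (XT.nd (nat_lit 1170) (nat_lit 1976) (nat_lit 0) (XT.nd (nat_lit 546) (nat_lit 1216) (nat_lit 0) (XT.nd (nat_lit 234) (nat_lit 608) (nat_lit 0) (XT.nd (nat_lit 78) (nat_lit 456) (nat_lit 0) (XT.lf (nat_lit 0) (nat_lit 1922742202) (nat_lit 304) (nat_lit 5624513297) (nat_lit 76) (nat_lit 3356341850) (nat_lit 133) (nat_lit 5) (nat_lit 137) (nat_lit 5) (nat_lit 134) (nat_lit 4) (nat_lit 463) (nat_lit 376) (nat_lit 361)) (XT.nd (nat_lit 78) (nat_lit 304) (nat_lit 0) (XT.lf (nat_lit 0) (nat_lit 3600150347) (nat_lit 152) (nat_lit 3111761268) (nat_lit 228) (nat_lit 4353391495) (nat_lit 131) (nat_lit 5) (nat_lit 133) (nat_lit 5) (nat_lit 134) (nat_lit 4) (nat_lit 464) (nat_lit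 376) (nat_lit 360)) (XT.lf (nat_lit 0) (nat_lit 402741927) (nat_lit 304) (nat_lit 9384273272) (nat_lit 76) (nat_lit 1444792033) (nat_lit 127) (nat_lit 5) (nat_lit 131) (nat_lit 5) (nat_lit 128) (nat_lit 4) (nat_lit 465) (nat_lit 376) (nat_lit 359)))) (XT.nd (nat_lit 156) (nat_lit 456) (nat_lit 0) (XT.nd (nat_lit 78) (nat_lit 152) (nat_lit 0) (XT.lf (nat_lit 0) (nat_lit 5230036519) (nat_lit 304) (nat_lit 40011197) (nat_lit 76) (nat_lit 6131489643) (nat_lit 127) (nat_lit 5) (nat_lit 131) (nat_lit 5) (nat_lit 128) (nat_lit 4) (nat_lit 466) (nat_lit 376) (nat_lit 358)) (XT.lf (nat_lit 0) (nat_lit 9619932202) (nat_lit 152) (nat_lit 586376566) (nat_lit 228) (nat_lit 1369929010) (nat_lit 125) (nat_lit 5) (nat_lit 127) (nat_lit 5) (nat_lit 128) (nat_lit 4) (nat_lit 467) (nat_lit 376) (nat_lit 357))) (XT.nd (nat_lit 78) (nat_lit 152) (nat_lit 0) (XT.lf (nat_lit 0) (nat_lit 3534243345) (nat_lit 304) (nat_lit 4017615430)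 (nat_lit 76) (nat_lit 4202442419) (nat_lit 121) (nat_lit 5) (nat_lit 125) (nat_lit 5) (nat_lit 122) (nat_lit 4) (nat_lit 468) (nat_lit 376) (nat_lit 356)) (XT.lf (nat_lit 0) (nat_lit 5763225954) (nat_lit 152) (nat_lit 2788373382) (nat_lit 228) (nat_lit 3385895372) (nat_lit 119) (nat_lit 5) (nat_lit 121) (nat_lit 5) (nat_lit 122) (nat_lit 4) (nat_lit 469) (nat_lit 376) (nat_lit 355))))) (XT.nd (nat_lit 312) (nat_lit 532) (nat_lit 0) (XT.nd (nat_lit 156) (nat_lit 228) (nat_lit 0) (XT.nd (nat_lit 78) (nat_lit 152) (nat_lit 0) (XT.lf (nat_lit 0) (nat_lit 1572024901) (nat_lit 304) (nat_lit 8448724975) (nat_lit 76) (nat_lit 2104682688) (nat_lit 115) (nat_lit 5) (nat_lit 119) (nat_lit 5) (nat_lit 116) (nat_lit 4) (nat_lit 470) (nat_lit 376) (nat_lit 354)) (XT.lf (nat_lit 0) (nat_lit 1445274493) (nat_lit 152) (nat_lit 5182944877) (nat_lit 228) (nat_lit 5689258424) (nat_lit 113) (nat_lit 5) (nat_lit 115) (nat_lit 5) (nat_lit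 116) (nat_lit 4) (nat_lit 471) (nat_lit 376) (nat_lit 353))) (XT.nd (nat_lit 78) (nat_lit 228) (nat_lit 0) (XT.lf (nat_lit 0) (nat_lit 11656971672) (nat_lit 152) (nat_lit 178633704) (nat_lit 228) (nat_lit 679696399) (nat_lit 113) (nat_lit 5) (nat_lit 115) (nat_lit 5) (nat_lit 116) (nat_lit 4) (nat_lit 472) (nat_lit 376) (nat_lit 352)) (XT.lf (nat_lit 0) (nat_lit 4447935053) (nat_lit 228) (nat_lit 3318399327) (nat_lit 76) (nat_lit 4949780338) (nat_lit 110) (nat_lit 5) (nat_lit 113) (nat_lit 5) (nat_lit 111) (nat_lit 4) (nat_lit 473) (nat_lit 376) (nat_lit 351)))) (XT.nd (nat_lit 156) (nat_lit 152) (nat_lit 0) (XT.nd (nat_lit 78) (nat_lit 228) (nat_lit 0) (XT.lf (nat_lit 0) (nat_lit 7035082467) (nat_lit 152) (nat_lit 2675063871) (nat_lit 228) (nat_lit 3212773805) (nat_lit 108) (nat_lit 5) (nat_lit 110) (nat_lit 5) (nat_lit 111) (nat_lit 4) (nat_lit 474) (nat_lit 376) (nat_lit 350)) (XT.lf (nat_lit 0) (nat_lit 1974437545)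 (nat_lit 228) (nat_lit 8609119754) (nat_lit 76) (nat_lit 2551227759) (nat_lit 105) (nat_lit 5) (nat_lit 108) (nat_lit 5) (nat_lit 106) (nat_lit 4) (nat_lit 475) (nat_lit 376) (nat_lit 349))) (XT.nd (nat_lit 78) (nat_lit 0) (nat_lit 0) (XT.lf (nat_lit 0) (nat_lit 1847693490) (nat_lit 152) (nat_lit 5426112692) (nat_lit 228) (nat_lit 6077614161) (nat_lit 103) (nat_lit 5) (nat_lit 105) (nat_lit 5) (nat_lit 106) (nat_lit 4) (nat_lit 476) (nat_lit 376) (nat_lit 348)) (XT.lf (nat_lit 0) (nat_lit 12645641771) (nat_lit 152) (nat_lit 91262511) (nat_lit 228) (nat_lit 837510037) (nat_lit 103) (nat_lit 5) (nat_lit 105) (nat_lit 5) (nat_lit 106) (nat_lit 4) (nat_lit 477) (nat_lit 376) (nat_lit 347)))))) (XT.nd (nat_lit 624) (nat_lit 760) (nat_lit 0) (XT.nd (nat_lit 312) (nat_lit 456) (nat_lit 0) (XT.nd (nat_lit 156) (nat_lit 380) (nat_lit 0) (XT.nd (nat_lit 78) (nat_lit 152) (nat_lit 0) (XT.lf (nat_lit 0) (nat_lit 4538744498)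 (nat_lit 228) (nat_lit 3887228114) (nat_lit 76) (nat_lit 5374774761) (nat_lit 100) (nat_lit 5) (nat_lit 103) (nat_lit 5) (nat_lit 101) (nat_lit 4) (nat_lit 478) (nat_lit 376) (nat_lit 346)) (XT.lf (nat_lit 0) (nat_lit 7048133912) (nat_lit 152) (nat_lit 3009188073) (nat_lit 228) (nat_lit 3976365522) (nat_lit 98) (nat_lit 5) (nat_lit 100) (nat_lit 5) (nat_lit 101) (nat_lit 4) (nat_lit 479) (nat_lit 376) (nat_lit 345))) (XT.nd (nat_lit 78) (nat_lit 152) (nat_lit 0) (XT.lf (nat_lit 0) (nat_lit 1462516693) (nat_lit 228) (nat_lit 10261958191) (nat_lit 76) (nat_lit 2548019909) (nat_lit 95) (nat_lit 5) (nat_lit 98) (nat_lit 5) (nat_lit 96) (nat_lit 4) (nat_lit 480) (nat_lit 376) (nat_lit 344)) (XT.lf (nat_lit 0) (nat_lit 761247553) (nat_lit 152) (nat_lit 6251943583) (nat_lit 228) (nat_lit 7503239408) (nat_lit 93) (nat_lit 5) (nat_lit 95) (nat_lit 5) (nat_lit 96) (nat_lit 4) (nat_lit 481) (nat_lit 376) (nat_lit 343))))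 (XT.nd (nat_lit 156) (nat_lit 228) (nat_lit 0) (XT.nd (nat_lit 78) (nat_lit 228) (nat_lit 0) (XT.lf (nat_lit 0) (nat_lit 12179850488) (nat_lit 152) (nat_lit 575281628) (nat_lit 228) (nat_lit 2011811555) (nat_lit 93) (nat_lit 5) (nat_lit 95) (nat_lit 5) (nat_lit 96) (nat_lit 4) (nat_lit 482) (nat_lit 376) (nat_lit 342)) (XT.lf (nat_lit 0) (nat_lit 3632808887) (nat_lit 228) (nat_lit 6162957573) (nat_lit 76) (nat_lit 5226369447) (nat_lit 90) (nat_lit 5) (nat_lit 93) (nat_lit 5) (nat_lit 91) (nat_lit 4) (nat_lit 483) (nat_lit 376) (nat_lit 341))) (XT.nd (nat_lit 78) (nat_lit 152) (nat_lit 0) (XT.lf (nat_lit 0) (nat_lit 5353029053) (nat_lit 76) (nat_lit 4059763512) (nat_lit 152) (nat_lit 5871401529) (nat_lit 89) (nat_lit 5) (nat_lit 90) (nat_lit 5) (nat_lit 91) (nat_lit 4) (nat_lit 484) (nat_lit 376) (nat_lit 340)) (XT.lf (nat_lit 0) (nat_lit 1659097066) (nat_lit 152) (nat_lit 13726819255) (nat_lit 152) (nat_lit 167606993)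 (nat_lit 87) (nat_lit 4) (nat_lit 89) (nat_lit 5) (nat_lit 89) (nat_lit 4) (nat_lit 485) (nat_lit 376) (nat_lit 339))))) (XT.nd (nat_lit 312) (nat_lit 304) (nat_lit 0) (XT.nd (nat_lit 156) (nat_lit 304) (nat_lit 0) (XT.nd (nat_lit 78) (nat_lit 76) (nat_lit 0) (XT.lf (nat_lit 0) (nat_lit 5660698942) (nat_lit 228) (nat_lit 2266927121) (nat_lit 76) (nat_lit 7899718880) (nat_lit 86) (nat_lit 5) (nat_lit 89) (nat_lit 5) (nat_lit 87) (nat_lit 4) (nat_lit 486) (nat_lit 376) (nat_lit 338)) (XT.lf (nat_lit 0) (nat_lit 9758749568) (nat_lit 76) (nat_lit 1921070662) (nat_lit 152) (nat_lit 4428932537) (nat_lit 85) (nat_lit 5) (nat_lit 86) (nat_lit 5) (nat_lit 87) (nat_lit 4) (nat_lit 487) (nat_lit 376) (nat_lit 337))) (XT.nd (nat_lit 78) (nat_lit 76) (nat_lit 0) (XT.lf (nat_lit 0) (nat_lit 1497359060) (nat_lit 228) (nat_lit 10687351012) (nat_lit 76) (nat_lit 4212106650) (nat_lit 82) (nat_lit 5) (nat_lit 85) (nat_lit 5) (nat_lit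 83) (nat_lit 4) (nat_lit 488) (nat_lit 376) (nat_lit 336)) (XT.lf (nat_lit 0) (nat_lit 1393220855) (nat_lit 76) (nat_lit 6142227808) (nat_lit 152) (nat_lit 9156068878) (nat_lit 81) (nat_lit 5) (nat_lit 82) (nat_lit 5) (nat_lit 83) (nat_lit 4) (nat_lit 489) (nat_lit 376) (nat_lit 335)))) (XT.nd (nat_lit 156) (nat_lit 76) (nat_lit 0) (XT.nd (nat_lit 78) (nat_lit 228) (nat_lit 0) (XT.lf (nat_lit 0) (nat_lit 13790514371) (nat_lit 152) (nat_lit 3078337350) (nat_lit 0) (nat_lit 125133885) (nat_lit 81) (nat_lit 5) (nat_lit 83) (nat_lit 4) (nat_lit 81) (nat_lit 4) (nat_lit 490) (nat_lit 376) (nat_lit 334)) (XT.lf (nat_lit 0) (nat_lit 2951685460) (nat_lit 228) (nat_lit 7835210313) (nat_lit 76) (nat_lit 6515355474) (nat_lit 78) (nat_lit 5) (nat_lit 81) (nat_lit 5) (nat_lit 79) (nat_lit 4) (nat_lit 491) (nat_lit 376) (nat_lit 333))) (XT.nd (nat_lit 78) (nat_lit 0) (nat_lit 0) (XT.lf (nat_lit 0) (nat_lit 4757896576) (nat_lit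 76) (nat_lit 4474649475) (nat_lit 152) (nat_lit 8386105327) (nat_lit 77) (nat_lit 5) (nat_lit 78) (nat_lit 5) (nat_lit 79) (nat_lit 4) (nat_lit 492) (nat_lit 376) (nat_lit 332)) (XT.lf (nat_lit 0) (nat_lit 15729708732) (nat_lit 152) (nat_lit 209182143) (nat_lit 0) (nat_lit 2004817437) (nat_lit 77) (nat_lit 5) (nat_lit 79) (nat_lit 4) (nat_lit 77) (nat_lit 4) (nat_lit 493) (nat_lit 376) (nat_lit 331))))))) (XT.nd (nat_lit 1170) (nat_lit 1064) (nat_lit 0) (XT.nd (nat_lit 546) (nat_lit 608) (nat_lit 0) (XT.nd (nat_lit 234) (nat_lit 380) (nat_lit 0) (XT.nd (nat_lit 78) (nat_lit 228) (nat_lit 0) (XT.lf (nat_lit 0) (nat_lit 4162246400) (nat_lit 228) (nat_lit 5419245049) (nat_lit 76) (nat_lit 8692836888) (nat_lit 74) (nat_lit 5) (nat_lit 77) (nat_lit 5) (nat_lit 75) (nat_lit 4) (nat_lit 494) (nat_lit 376) (nat_lit 330)) (XT.nd (nat_lit 78) (nat_lit 152) (nat_lit 0) (XT.lf (nat_lit 0) (nat_lit 7696735752) (nat_lit 76)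 (nat_lit 2995317989) (nat_lit 152) (nat_lit 7921953397) (nat_lit 73) (nat_lit 5) (nat_lit 74) (nat_lit 5) (nat_lit 75) (nat_lit 4) (nat_lit 495) (nat_lit 376) (nat_lit 329)) (XT.lf (nat_lit 0) (nat_lit 2229154142) (nat_lit 152) (nat_lit 15232526721) (nat_lit 152) (nat_lit 1500878641) (nat_lit 71) (nat_lit 4) (nat_lit 73) (nat_lit 5) (nat_lit 73) (nat_lit 4) (nat_lit 496) (nat_lit 376) (nat_lit 328)))) (XT.nd (nat_lit 156) (nat_lit 228) (nat_lit 0) (XT.nd (nat_lit 78) (nat_lit 76) (nat_lit 0) (XT.lf (nat_lit 0) (nat_lit 5084941073) (nat_lit 228) (nat_lit 3536905679) (nat_lit 76) (nat_lit 10696091698) (nat_lit 70) (nat_lit 5) (nat_lit 73) (nat_lit 5) (nat_lit 71) (nat_lit 4) (nat_lit 497) (nat_lit 376) (nat_lit 327)) (XT.lf (nat_lit 0) (nat_lit 10109241608) (nat_lit 76) (nat_lit 1759007938) (nat_lit 152) (nat_lit 7814381889) (nat_lit 69) (nat_lit 5) (nat_lit 70) (nat_lit 5) (nat_lit 71) (nat_lit 4) (nat_lit 498)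 (nat_lit 376) (nat_lit 326))) (XT.nd (nat_lit 78) (nat_lit 76) (nat_lit 0) (XT.lf (nat_lit 0) (nat_lit 4079495665) (nat_lit 152) (nat_lit 14834933048) (nat_lit 152) (nat_lit 1142056213) (nat_lit 67) (nat_lit 4) (nat_lit 69) (nat_lit 5) (nat_lit 69) (nat_lit 4) (nat_lit 499) (nat_lit 376) (nat_lit 325)) (XT.lf (nat_lit 0) (nat_lit 5666778000) (nat_lit 228) (nat_lit 2302766609) (nat_lit 76) (nat_lit 12468912877) (nat_lit 66) (nat_lit 5) (nat_lit 69) (nat_lit 5) (nat_lit 67) (nat_lit 4) (nat_lit 500) (nat_lit 376) (nat_lit 324))))) (XT.nd (nat_lit 312) (nat_lit 304) (nat_lit 0) (XT.nd (nat_lit 156) (nat_lit 152) (nat_lit 0) (XT.nd (nat_lit 78) (nat_lit 76) (nat_lit 0) (XT.lf (nat_lit 0) (nat_lit 11877024162) (nat_lit 76) (nat_lit 829130954) (nat_lit 152) (nat_lit 8123918709) (nat_lit 65) (nat_lit 5) (nat_lit 66) (nat_lit 5) (nat_lit 67) (nat_lit 4) (nat_lit 501) (nat_lit 376) (nat_lit 323)) (XT.lf (nat_lit 0) (nat_lit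 5210140960) (nat_lit 76) (nat_lit 14818056291) (nat_lit 76) (nat_lit 1203097653) (nat_lit 64) (nat_lit 4) (nat_lit 65) (nat_lit 5) (nat_lit 65) (nat_lit 4) (nat_lit 502) (nat_lit 376) (nat_lit 322))) (XT.nd (nat_lit 78) (nat_lit 76) (nat_lit 0) (XT.lf (nat_lit 0) (nat_lit 5844485724) (nat_lit 152) (nat_lit 1851450688) (nat_lit 76) (nat_lit 13945865305) (nat_lit 63) (nat_lit 5) (nat_lit 65) (nat_lit 5) (nat_lit 64) (nat_lit 4) (nat_lit 503) (nat_lit 376) (nat_lit 321)) (XT.lf (nat_lit 0) (nat_lit 12860736793) (nat_lit 76) (nat_lit 279339909) (nat_lit 152) (nat_lit 8922367540) (nat_lit 62) (nat_lit 5) (nat_lit 63) (nat_lit 5) (nat_lit 64) (nat_lit 4) (nat_lit 504) (nat_lit 376) (nat_lit 320)))) (XT.nd (nat_lit 156) (nat_lit 152) (nat_lit 0) (XT.nd (nat_lit 78) (nat_lit 76) (nat_lit 0) (XT.lf (nat_lit 0) (nat_lit 5471160229) (nat_lit 76) (nat_lit 15262843723) (nat_lit 76) (nat_lit 1759318711) (nat_lit 61) (nat_lit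 4) (nat_lit 62) (nat_lit 5) (nat_lit 62) (nat_lit 4) (nat_lit 505) (nat_lit 376) (nat_lit 319)) (XT.lf (nat_lit 0) (nat_lit 5542889132) (nat_lit 152) (nat_lit 2341017851) (nat_lit 76) (nat_lit 15050583592) (nat_lit 60) (nat_lit 5) (nat_lit 62) (nat_lit 5) (nat_lit 61) (nat_lit 4) (nat_lit 506) (nat_lit 376) (nat_lit 318))) (XT.nd (nat_lit 78) (nat_lit 76) (nat_lit 0) (XT.lf (nat_lit 0) (nat_lit 12896525416) (nat_lit 76) (nat_lit 195374833) (nat_lit 152) (nat_lit 10294578398) (nat_lit 59) (nat_lit 5) (nat_lit 60) (nat_lit 5) (nat_lit 61) (nat_lit 4) (nat_lit 507) (nat_lit 376) (nat_lit 317)) (XT.lf (nat_lit 0) (nat_lit 4686460796) (nat_lit 76) (nat_lit 16263318428) (nat_lit 76) (nat_lit 2899775817) (nat_lit 58) (nat_lit 4) (nat_lit 59) (nat_lit 5) (nat_lit 59) (nat_lit 4) (nat_lit 508) (nat_lit 376) (nat_lit 316)))))) (XT.nd (nat_lit 624) (nat_lit 456) (nat_lit 0) (XT.nd (nat_lit 312) (nat_lit 304) (nat_lit 0) (XT.nd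 (nat_lit 156) (nat_lit 152) (nat_lit 0) (XT.nd (nat_lit 78) (nat_lit 76) (nat_lit 0) (XT.lf (nat_lit 0) (nat_lit 4673014886) (nat_lit 152) (nat_lit 3956893318) (nat_lit 76) (nat_lit 15693810228) (nat_lit 57) (nat_lit 5) (nat_lit 59) (nat_lit 5) (nat_lit 58) (nat_lit 4) (nat_lit 509) (nat_lit 376) (nat_lit 315)) (XT.lf (nat_lit 0) (nat_lit 11791911086) (nat_lit 76) (nat_lit 677191353) (nat_lit 152) (nat_lit 12340511647) (nat_lit 56) (nat_lit 5) (nat_lit 57) (nat_lit 5) (nat_lit 58) (nat_lit 4) (nat_lit 510) (nat_lit 376) (nat_lit 314))) (XT.nd (nat_lit 78) (nat_lit 76) (nat_lit 0) (XT.lf (nat_lit 0) (nat_lit 2649413729) (nat_lit 76) (nat_lit 17928843165) (nat_lit 76) (nat_lit 4729454722) (nat_lit 55) (nat_lit 4) (nat_lit 56) (nat_lit 5) (nat_lit 56) (nat_lit 4) (nat_lit 511) (nat_lit 376) (nat_lit 313)) (XT.lf (nat_lit 0) (nat_lit 3129883490) (nat_lit 152) (nat_lit 6916422696) (nat_lit 76) (nat_lit 15771130485)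 (nat_lit 54) (nat_lit 5) (nat_lit 56) (nat_lit 5) (nat_lit 55) (nat_lit 4) (nat_lit 512) (nat_lit 376) (nat_lit 312)))) (XT.nd (nat_lit 156) (nat_lit 228) (nat_lit 0) (XT.nd (nat_lit 78) (nat_lit 0) (nat_lit 0) (XT.lf (nat_lit 0) (nat_lit 9321014309) (nat_lit 76) (nat_lit 1841418731) (nat_lit 152) (nat_lit 15177641483) (nat_lit 53) (nat_lit 5) (nat_lit 54) (nat_lit 5) (nat_lit 55) (nat_lit 4) (nat_lit 513) (nat_lit 376) (nat_lit 311)) (XT.lf (nat_lit 0) (nat_lit 19512997008) (nat_lit 152) (nat_lit 865003494) (nat_lit 0) (nat_lit 6498080345) (nat_lit 53) (nat_lit 5) (nat_lit 55) (nat_lit 4) (nat_lit 53) (nat_lit 4) (nat_lit 514) (nat_lit 376) (nat_lit 310))) (XT.nd (nat_lit 78) (nat_lit 76) (nat_lit 0) (XT.lf (nat_lit 0) (nat_lit 789938680) (nat_lit 152) (nat_lit 11474155165) (nat_lit 76) (nat_lit 15160353782) (nat_lit 51) (nat_lit 5) (nat_lit 53) (nat_lit 5) (nat_lit 52) (nat_lit 4) (nat_lit 515) (nat_lit 376)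 (nat_lit 309)) (XT.lf (nat_lit 0) (nat_lit 5219014843) (nat_lit 76) (nat_lit 3824201915) (nat_lit 152) (nat_lit 18943752365) (nat_lit 50) (nat_lit 5) (nat_lit 51) (nat_lit 5) (nat_lit 52) (nat_lit 4) (nat_lit 516) (nat_lit 376) (nat_lit 308))))) (XT.nd (nat_lit 312) (nat_lit 228) (nat_lit 0) (XT.nd (nat_lit 156) (nat_lit 152) (nat_lit 0) (XT.nd (nat_lit 78) (nat_lit 76) (nat_lit 0) (XT.lf (nat_lit 0) (nat_lit 17652645812) (nat_lit 152) (nat_lit 6071336369) (nat_lit 0) (nat_lit 4839127927) (nat_lit 50) (nat_lit 5) (nat_lit 52) (nat_lit 4) (nat_lit 50) (nat_lit 4) (nat_lit 517) (nat_lit 376) (nat_lit 307)) (XT.lf (nat_lit 0) (nat_lit 11201376406) (nat_lit 76) (nat_lit 15410865074) (nat_lit 76) (nat_lit 2541537742) (nat_lit 49) (nat_lit 4) (nat_lit 50) (nat_lit 5) (nat_lit 50) (nat_lit 4) (nat_lit 518) (nat_lit 376) (nat_lit 306))) (XT.nd (nat_lit 78) (nat_lit 76) (nat_lit 0) (XT.lf (nat_lit 0) (nat_lit 5968137789)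 (nat_lit 152) (nat_lit 808191550) (nat_lit 76) (nat_lit 22983837747) (nat_lit 48) (nat_lit 5) (nat_lit 50) (nat_lit 5) (nat_lit 49) (nat_lit 4) (nat_lit 519) (nat_lit 376) (nat_lit 305)) (XT.lf (nat_lit 0) (nat_lit 14815649201) (nat_lit 152) (nat_lit 13346856671) (nat_lit 0) (nat_lit 2217477337) (nat_lit 47) (nat_lit 5) (nat_lit 49) (nat_lit 4) (nat_lit 47) (nat_lit 4) (nat_lit 520) (nat_lit 376) (nat_lit 304)))) (XT.nd (nat_lit 156) (nat_lit 76) (nat_lit 0) (XT.nd (nat_lit 78) (nat_lit 76) (nat_lit 0) (XT.lf (nat_lit 0) (nat_lit 4322742156) (nat_lit 76) (nat_lit 19670731612) (nat_lit 76) (nat_lit 7022973778) (nat_lit 46) (nat_lit 4) (nat_lit 47) (nat_lit 5) (nat_lit 47) (nat_lit 4) (nat_lit 521) (nat_lit 376) (nat_lit 303)) (XT.lf (nat_lit 0) (nat_lit 1824138724) (nat_lit 152) (nat_lit 8992897943) (nat_lit 76) (nat_lit 20851933501) (nat_lit 45) (nat_lit 5) (nat_lit 47) (nat_lit 5) (nat_lit 46) (nat_lit 4) (nat_lit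 522) (nat_lit 376) (nat_lit 302))) (XT.nd (nat_lit 78) (nat_lit 0) (nat_lit 0) (XT.lf (nat_lit 0) (nat_lit 9250325297) (nat_lit 76) (nat_lit 1583647306) (nat_lit 152) (nat_lit 21503856283) (nat_lit 44) (nat_lit 5) (nat_lit 45) (nat_lit 5) (nat_lit 46) (nat_lit 4) (nat_lit 523) (nat_lit 376) (nat_lit 301)) (XT.lf (nat_lit 0) (nat_lit 20231604922) (nat_lit 152) (nat_lit 4975569497) (nat_lit 0) (nat_lit 7816054168) (nat_lit 44) (nat_lit 5) (nat_lit 46) (nat_lit 4) (nat_lit 44) (nat_lit 4) (nat_lit 524) (nat_lit 376) (nat_lit 300))))))))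
noncomputable def xc47 : XT := (XT.nd (nat_lit 56394) (nat_lit 0) (nat_lit 5928) (XT.nd (nat_lit 1170) (nat_lit 760) (nat_lit 0) (XT.nd (nat_lit 546) (nat_lit 456) (nat_lit 0) (XT.nd (nat_lit 234) (nat_lit 228) (nat_lit 0) (XT.nd (nat_lit 78) (nat_lit 152) (nat_lit 0) (XT.lf (nat_lit 0) (nat_lit 13837325554) (nat_lit 76) (nat_lit 16173598180) (nat_lit 76) (nat_lit 3715274132) (nat_lit 43) (nat_lit 4) (nat_lit 44) (nat_lit 5) (nat_lit 44) (nat_lit 4) (nat_lit 525) (nat_lit 376) (nat_lit 299)) (XT.nd (nat_lit 78) (nat_lit 76) (nat_lit 0) (XT.lf (nat_lit 0) (nat_lit 5525269332) (nat_lit 152) (nat_lit 1283554773) (nat_lit 76) (nat_lit 27639752955) (nat_lit 42) (nat_lit 5) (nat_lit 44) (nat_lit 5) (nat_lit 43) (nat_lit 4) (nat_lit 526) (nat_lit 376) (nat_lit 298)) (XT.lf (nat_lit 0) (nat_lit 15123792318) (nat_lit 152) (nat_lit 17114198435) (nat_lit 0) (nat_lit 2948870521) (nat_lit 41) (nat_lit 5) (nat_lit 43) (nat_lit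 4) (nat_lit 41) (nat_lit 4) (nat_lit 527) (nat_lit 376) (nat_lit 297)))) (XT.nd (nat_lit 156) (nat_lit 152) (nat_lit 0) (XT.nd (nat_lit 78) (nat_lit 0) (nat_lit 0) (XT.lf (nat_lit 0) (nat_lit 1965803531) (nat_lit 76) (nat_lit 23096428621) (nat_lit 76) (nat_lit 10883503306) (nat_lit 40) (nat_lit 4) (nat_lit 41) (nat_lit 5) (nat_lit 41) (nat_lit 4) (nat_lit 528) (nat_lit 376) (nat_lit 296)) (XT.lf (nat_lit 0) (nat_lit 21875963924) (nat_lit 76) (nat_lit 13548729058) (nat_lit 76) (nat_lit 1298907123) (nat_lit 40) (nat_lit 4) (nat_lit 41) (nat_lit 5) (nat_lit 41) (nat_lit 4) (nat_lit 529) (nat_lit 376) (nat_lit 295))) (XT.nd (nat_lit 78) (nat_lit 0) (nat_lit 0) (XT.lf (nat_lit 0) (nat_lit 4778185207) (nat_lit 76) (nat_lit 3627641936) (nat_lit 152) (nat_lit 29116504629) (nat_lit 38) (nat_lit 5) (nat_lit 39) (nat_lit 5) (nat_lit 40) (nat_lit 4) (nat_lit 530) (nat_lit 376) (nat_lit 294)) (XT.lf (nat_lit 0) (nat_lit 18544375882)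 (nat_lit 152) (nat_lit 13212399926) (nat_lit 0) (nat_lit 6582800641) (nat_lit 38) (nat_lit 5) (nat_lit 40) (nat_lit 4) (nat_lit 38) (nat_lit 4) (nat_lit 531) (nat_lit 376) (nat_lit 293))))) (XT.nd (nat_lit 312) (nat_lit 228) (nat_lit 0) (XT.nd (nat_lit 156) (nat_lit 152) (nat_lit 0) (XT.nd (nat_lit 78) (nat_lit 0) (nat_lit 0) (XT.lf (nat_lit 0) (nat_lit 6915677955) (nat_lit 76) (nat_lit 22129142982) (nat_lit 76) (nat_lit 10134785572) (nat_lit 37) (nat_lit 4) (nat_lit 38) (nat_lit 5) (nat_lit 38) (nat_lit 4) (nat_lit 532) (nat_lit 376) (nat_lit 292)) (XT.lf (nat_lit 0) (nat_lit 27830654876) (nat_lit 76) (nat_lit 12118845479) (nat_lit 76) (nat_lit 92660721) (nat_lit 37) (nat_lit 4) (nat_lit 38) (nat_lit 5) (nat_lit 38) (nat_lit 4) (nat_lit 533) (nat_lit 376) (nat_lit 291))) (XT.nd (nat_lit 78) (nat_lit 0) (nat_lit 0) (XT.lf (nat_lit 0) (nat_lit 8422209800) (nat_lit 76) (nat_lit 1666112808) (nat_lit 152) (nat_lit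 30838185105) (nat_lit 35) (nat_lit 5) (nat_lit 36) (nat_lit 5) (nat_lit 37) (nat_lit 4) (nat_lit 534) (nat_lit 376) (nat_lit 290)) (XT.lf (nat_lit 0) (nat_lit 20741582515) (nat_lit 152) (nat_lit 12084165518) (nat_lit 0) (nat_lit 9006548122) (nat_lit 35) (nat_lit 5) (nat_lit 37) (nat_lit 4) (nat_lit 35) (nat_lit 4) (nat_lit 535) (nat_lit 376) (nat_lit 289)))) (XT.nd (nat_lit 156) (nat_lit 152) (nat_lit 0) (XT.nd (nat_lit 78) (nat_lit 0) (nat_lit 0) (XT.lf (nat_lit 0) (nat_lit 9024558588) (nat_lit 76) (nat_lit 22751088127) (nat_lit 76) (nat_lit 10987775548) (nat_lit 34) (nat_lit 4) (nat_lit 35) (nat_lit 5) (nat_lit 35) (nat_lit 4) (nat_lit 536) (nat_lit 376) (nat_lit 288)) (XT.lf (nat_lit 0) (nat_lit 30931460007) (nat_lit 76) (nat_lit 12289688505) (nat_lit 76) (nat_lit 498921376) (nat_lit 34) (nat_lit 4) (nat_lit 35) (nat_lit 5) (nat_lit 35) (nat_lit 4) (nat_lit 537) (nat_lit 376) (nat_lit 287))) (XT.nd (nat_lit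 78) (nat_lit 0) (nat_lit 0) (XT.lf (nat_lit 0) (nat_lit 8781252759) (nat_lit 76) (nat_lit 1365877679) (nat_lit 152) (nat_lit 34554006713) (nat_lit 32) (nat_lit 5) (nat_lit 33) (nat_lit 5) (nat_lit 34) (nat_lit 4) (nat_lit 538) (nat_lit 376) (nat_lit 286)) (XT.lf (nat_lit 0) (nat_lit 21287213199) (nat_lit 152) (nat_lit 14629871784) (nat_lit 0) (nat_lit 9788863123) (nat_lit 32) (nat_lit 5) (nat_lit 34) (nat_lit 4) (nat_lit 32) (nat_lit 4) (nat_lit 539) (nat_lit 376) (nat_lit 285)))))) (XT.nd (nat_lit 624) (nat_lit 304) (nat_lit 0) (XT.nd (nat_lit 312) (nat_lit 228) (nat_lit 0) (XT.nd (nat_lit 156) (nat_lit 152) (nat_lit 0) (XT.nd (nat_lit 78) (nat_lit 0) (nat_lit 0) (XT.lf (nat_lit 0) (nat_lit 7349876661) (nat_lit 76) (nat_lit 25456216084) (nat_lit 76) (nat_lit 13933472996) (nat_lit 31) (nat_lit 4) (nat_lit 32) (nat_lit 5) (nat_lit 32) (nat_lit 4) (nat_lit 540) (nat_lit 376) (nat_lit 284)) (XT.lf (nat_lit 0) (nat_lit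 30210825195) (nat_lit 76) (nat_lit 14568267937) (nat_lit 76) (nat_lit 3021842312) (nat_lit 31) (nat_lit 4) (nat_lit 32) (nat_lit 5) (nat_lit 32) (nat_lit 4) (nat_lit 541) (nat_lit 376) (nat_lit 283))) (XT.nd (nat_lit 78) (nat_lit 0) (nat_lit 0) (XT.lf (nat_lit 0) (nat_lit 4801583382) (nat_lit 76) (nat_lit 3262949504) (nat_lit 152) (nat_lit 40827011627) (nat_lit 29) (nat_lit 5) (nat_lit 30) (nat_lit 5) (nat_lit 31) (nat_lit 4) (nat_lit 542) (nat_lit 376) (nat_lit 282)) (XT.lf (nat_lit 0) (nat_lit 19644328289) (nat_lit 152) (nat_lit 21972788812) (nat_lit 0) (nat_lit 8390210386) (nat_lit 29) (nat_lit 5) (nat_lit 31) (nat_lit 4) (nat_lit 29) (nat_lit 4) (nat_lit 543) (nat_lit 376) (nat_lit 281)))) (XT.nd (nat_lit 156) (nat_lit 152) (nat_lit 0) (XT.nd (nat_lit 78) (nat_lit 0) (nat_lit 0) (XT.lf (nat_lit 0) (nat_lit 715171818) (nat_lit 76) (nat_lit 30858257236) (nat_lit 76) (nat_lit 19583097706) (nat_lit 28) (nat_lit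 4) (nat_lit 29) (nat_lit 5) (nat_lit 29) (nat_lit 4) (nat_lit 544) (nat_lit 376) (nat_lit 280)) (XT.lf (nat_lit 0) (nat_lit 24460545067) (nat_lit 76) (nat_lit 19584847842) (nat_lit 76) (nat_lit 8289259549) (nat_lit 28) (nat_lit 4) (nat_lit 29) (nat_lit 5) (nat_lit 29) (nat_lit 4) (nat_lit 545) (nat_lit 376) (nat_lit 279))) (XT.nd (nat_lit 78) (nat_lit 76) (nat_lit 0) (XT.lf (nat_lit 0) (nat_lit 3241979836) (nat_lit 152) (nat_lit 4734202976) (nat_lit 76) (nat_lit 45572060262) (nat_lit 27) (nat_lit 5) (nat_lit 29) (nat_lit 5) (nat_lit 28) (nat_lit 4) (nat_lit 546) (nat_lit 376) (nat_lit 278)) (XT.lf (nat_lit 0) (nat_lit 15143774350) (nat_lit 152) (nat_lit 35507035832) (nat_lit 0) (nat_lit 4139232492) (nat_lit 26) (nat_lit 5) (nat_lit 28) (nat_lit 4) (nat_lit 26) (nat_lit 4) (nat_lit 547) (nat_lit 376) (nat_lit 277))))) (XT.nd (nat_lit 312) (nat_lit 76) (nat_lit 0) (XT.nd (nat_lit 156) (nat_lit 152) (nat_lit 0) (XT.nd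 (nat_lit 78) (nat_lit 76) (nat_lit 0) (XT.lf (nat_lit 0) (nat_lit 27494777819) (nat_lit 152) (nat_lit 12099468656) (nat_lit 0) (nat_lit 16472085269) (nat_lit 26) (nat_lit 5) (nat_lit 28) (nat_lit 4) (nat_lit 26) (nat_lit 4) (nat_lit 548) (nat_lit 376) (nat_lit 276)) (XT.lf (nat_lit 0) (nat_lit 12179901598) (nat_lit 76) (nat_lit 28119416202) (nat_lit 76) (nat_lit 17079101622) (nat_lit 25) (nat_lit 4) (nat_lit 26) (nat_lit 5) (nat_lit 26) (nat_lit 4) (nat_lit 549) (nat_lit 376) (nat_lit 275))) (XT.nd (nat_lit 78) (nat_lit 152) (nat_lit 0) (XT.lf (nat_lit 0) (nat_lit 37368250141) (nat_lit 76) (nat_lit 16208194767) (nat_lit 76) (nat_lit 5150771419) (nat_lit 25) (nat_lit 4) (nat_lit 26) (nat_lit 5) (nat_lit 26) (nat_lit 4) (nat_lit 550) (nat_lit 376) (nat_lit 274)) (XT.lf (nat_lit 0) (nat_lit 3121978740) (nat_lit 76) (nat_lit 3871130886) (nat_lit 152) (nat_lit 53121401782) (nat_lit 23) (nat_lit 5) (nat_lit 24) (nat_lit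 5) (nat_lit 25) (nat_lit 4) (nat_lit 551) (nat_lit 376) (nat_lit 273)))) (XT.nd (nat_lit 156) (nat_lit 76) (nat_lit 0) (XT.nd (nat_lit 78) (nat_lit 0) (nat_lit 0) (XT.lf (nat_lit 0) (nat_lit 19667485585) (nat_lit 152) (nat_lit 32965979313) (nat_lit 0) (nat_lit 8900339510) (nat_lit 23) (nat_lit 5) (nat_lit 25) (nat_lit 4) (nat_lit 23) (nat_lit 4) (nat_lit 552) (nat_lit 376) (nat_lit 272)) (XT.lf (nat_lit 0) (nat_lit 32728330809) (nat_lit 152) (nat_lit 8321174545) (nat_lit 0) (nat_lit 21945983815) (nat_lit 23) (nat_lit 5) (nat_lit 25) (nat_lit 4) (nat_lit 23) (nat_lit 4) (nat_lit 553) (nat_lit 376) (nat_lit 271))) (XT.nd (nat_lit 54054) (nat_lit 0) (nat_lit 13148) (XT.lf (nat_lit 0) (nat_lit 17338973431) (nat_lit 76) (nat_lit 28977545398) (nat_lit 76) (nat_lit 18180440230) (nat_lit 22) (nat_lit 4) (nat_lit 23) (nat_lit 5) (nat_lit 23) (nat_lit 4) (nat_lit 554) (nat_lit 376) (nat_lit 270)) (XT.lf (nat_lit 0) (nat_lit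 1721811447) (nat_lit 380) (nat_lit 915857648) (nat_lit 0) (nat_lit 1721811447) (nat_lit 195) (nat_lit 5) (nat_lit 200) (nat_lit 4) (nat_lit 195) (nat_lit 4) (nat_lit 446) (nat_lit 377) (nat_lit 377))))))) (XT.nd (nat_lit 1248) (nat_lit 2812) (nat_lit 0) (XT.nd (nat_lit 624) (nat_lit 1900) (nat_lit 0) (XT.nd (nat_lit 312) (nat_lit 1064) (nat_lit 0) (XT.nd (nat_lit 156) (nat_lit 684) (nat_lit 0) (XT.nd (nat_lit 78) (nat_lit 380) (nat_lit 0) (XT.lf (nat_lit 0) (nat_lit 5827048387) (nat_lit 380) (nat_lit 1988152153) (nat_lit 380) (nat_lit 1006588381) (nat_lit 190) (nat_lit 4) (nat_lit 195) (nat_lit 5) (nat_lit 195) (nat_lit 4) (nat_lit 447) (nat_lit 377) (nat_lit 376)) (XT.lf (nat_lit 0) (nat_lit 3298793814) (nat_lit 380) (nat_lit 4208093871) (nat_lit 0) (nat_lit 1420601283) (nat_lit 185) (nat_lit 5) (nat_lit 190) (nat_lit 4) (nat_lit 185) (nat_lit 4) (nat_lit 448) (nat_lit 377) (nat_lit 375))) (XT.nd (nat_lit 78)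 (nat_lit 380) (nat_lit 0) (XT.lf (nat_lit 0) (nat_lit 3577814321) (nat_lit 304) (nat_lit 4117622904) (nat_lit 304) (nat_lit 1341160473) (nat_lit 181) (nat_lit 4) (nat_lit 185) (nat_lit 5) (nat_lit 185) (nat_lit 4) (nat_lit 449) (nat_lit 377) (nat_lit 374)) (XT.lf (nat_lit 0) (nat_lit 2399219771) (nat_lit 304) (nat_lit 579986583) (nat_lit 380) (nat_lit 6169966484) (nat_lit 176) (nat_lit 5) (nat_lit 180) (nat_lit 5) (nat_lit 181) (nat_lit 4) (nat_lit 450) (nat_lit 377) (nat_lit 373)))) (XT.nd (nat_lit 156) (nat_lit 684) (nat_lit 0) (XT.nd (nat_lit 78) (nat_lit 76) (nat_lit 0) (XT.lf (nat_lit 0) (nat_lit 1166389065) (nat_lit 304) (nat_lit 6231410518) (nat_lit 304) (nat_lit 1867066187) (nat_lit 172) (nat_lit 4) (nat_lit 176) (nat_lit 5) (nat_lit 176) (nat_lit 4) (nat_lit 451) (nat_lit 377) (nat_lit 372)) (XT.lf (nat_lit 0) (nat_lit 2489163936) (nat_lit 380) (nat_lit 109442710) (nat_lit 76) (nat_lit 6785460063) (nat_lit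 171) (nat_lit 5) (nat_lit 176) (nat_lit 5) (nat_lit 172) (nat_lit 4) (nat_lit 452) (nat_lit 377) (nat_lit 371))) (XT.nd (nat_lit 78) (nat_lit 380) (nat_lit 0) (XT.lf (nat_lit 0) (nat_lit 6930568369) (nat_lit 380) (nat_lit 1409767397) (nat_lit 0) (nat_lit 1166198459) (nat_lit 167) (nat_lit 5) (nat_lit 172) (nat_lit 4) (nat_lit 167) (nat_lit 4) (nat_lit 453) (nat_lit 377) (nat_lit 370)) (XT.lf (nat_lit 0) (nat_lit 1832428581) (nat_lit 380) (nat_lit 2774915519) (nat_lit 76) (nat_lit 5024903999) (nat_lit 162) (nat_lit 5) (nat_lit 167) (nat_lit 5) (nat_lit 163) (nat_lit 4) (nat_lit 454) (nat_lit 377) (nat_lit 369))))) (XT.nd (nat_lit 312) (nat_lit 836) (nat_lit 0) (XT.nd (nat_lit 156) (nat_lit 456) (nat_lit 0) (XT.nd (nat_lit 78) (nat_lit 380) (nat_lit 0) (XT.lf (nat_lit 0) (nat_lit 5571316701) (nat_lit 228) (nat_lit 721867926) (nat_lit 304) (nat_lit 3468632161) (nat_lit 159) (nat_lit 5) (nat_lit 162) (nat_lit 5) (nat_lit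 163) (nat_lit 4) (nat_lit 455) (nat_lit 377) (nat_lit 368)) (XT.lf (nat_lit 0) (nat_lit 978417779) (nat_lit 380) (nat_lit 5676236348) (nat_lit 76) (nat_lit 3240178147) (nat_lit 154) (nat_lit 5) (nat_lit 159) (nat_lit 5) (nat_lit 155) (nat_lit 4) (nat_lit 456) (nat_lit 377) (nat_lit 367))) (XT.nd (nat_lit 78) (nat_lit 228) (nat_lit 0) (XT.lf (nat_lit 0) (nat_lit 2794915715) (nat_lit 228) (nat_lit 2676152975) (nat_lit 304) (nat_lit 4560286714) (nat_lit 151) (nat_lit 5) (nat_lit 154) (nat_lit 5) (nat_lit 155) (nat_lit 4) (nat_lit 457) (nat_lit 377) (nat_lit 366)) (XT.lf (nat_lit 0) (nat_lit 1324145498) (nat_lit 228) (nat_lit 8764540587) (nat_lit 228) (nat_lit 83587032) (nat_lit 148) (nat_lit 4) (nat_lit 151) (nat_lit 5) (nat_lit 151) (nat_lit 4) (nat_lit 458) (nat_lit 377) (nat_lit 365)))) (XT.nd (nat_lit 156) (nat_lit 532) (nat_lit 0) (XT.nd (nat_lit 78) (nat_lit 228) (nat_lit 0) (XT.lf (nat_lit 0) (nat_lit 4445620977)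 (nat_lit 304) (nat_lit 250205195) (nat_lit 76) (nat_lit 5620094215) (nat_lit 147) (nat_lit 5) (nat_lit 151) (nat_lit 5) (nat_lit 148) (nat_lit 4) (nat_lit 459) (nat_lit 377) (nat_lit 364)) (XT.lf (nat_lit 0) (nat_lit 8623464416) (nat_lit 228) (nat_lit 477444678) (nat_lit 304) (nat_lit 1363190753) (nat_lit 144) (nat_lit 5) (nat_lit 147) (nat_lit 5) (nat_lit 148) (nat_lit 4) (nat_lit 460) (nat_lit 377) (nat_lit 363))) (XT.nd (nat_lit 78) (nat_lit 228) (nat_lit 0) (XT.lf (nat_lit 0) (nat_lit 3232975401) (nat_lit 304) (nat_lit 3544975614) (nat_lit 76) (nat_lit 3837296967) (nat_lit 140) (nat_lit 5) (nat_lit 144) (nat_lit 5) (nat_lit 141) (nat_lit 4) (nat_lit 461) (nat_lit 377) (nat_lit 362)) (XT.lf (nat_lit 0) (nat_lit 5453240986) (nat_lit 228) (nat_lit 2472274068) (nat_lit 304) (nat_lit 2845437747) (nat_lit 137) (nat_lit 5) (nat_lit 140) (nat_lit 5) (nat_lit 141) (nat_lit 4) (nat_lit 462) (nat_lit 377) (nat_lit 361))))))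 (XT.nd (nat_lit 624) (nat_lit 1140) (nat_lit 0) (XT.nd (nat_lit 312) (nat_lit 912) (nat_lit 0) (XT.nd (nat_lit 156) (nat_lit 304) (nat_lit 0) (XT.nd (nat_lit 78) (nat_lit 152) (nat_lit 0) (XT.lf (nat_lit 0) (nat_lit 1793660000) (nat_lit 304) (nat_lit 7182001603) (nat_lit 76) (nat_lit 1955089128) (nat_lit 133) (nat_lit 5) (nat_lit 137) (nat_lit 5) (nat_lit 134) (nat_lit 4) (nat_lit 463) (nat_lit 377) (nat_lit 360)) (XT.lf (nat_lit 0) (nat_lit 1935531060) (nat_lit 152) (nat_lit 4587388544) (nat_lit 228) (nat_lit 4571335880) (nat_lit 131) (nat_lit 5) (nat_lit 133) (nat_lit 5) (nat_lit 134) (nat_lit 4) (nat_lit 464) (nat_lit 377) (nat_lit 359))) (XT.nd (nat_lit 78) (nat_lit 0) (nat_lit 0) (XT.lf (nat_lit 0) (nat_lit 60705584) (nat_lit 228) (nat_lit 53093040) (nat_lit 304) (nat_lit 11149282986) (nat_lit 127) (nat_lit 5) (nat_lit 130) (nat_lit 5) (nat_lit 131) (nat_lit 5) (nat_lit 465) (nat_lit 377) (nat_lit 358)) (XT.lf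 (nat_lit 0) (nat_lit 4897078492) (nat_lit 304) (nat_lit 1932660763) (nat_lit 76) (nat_lit 4604394477) (nat_lit 127) (nat_lit 5) (nat_lit 131) (nat_lit 5) (nat_lit 128) (nat_lit 4) (nat_lit 466) (nat_lit 377) (nat_lit 357)))) (XT.nd (nat_lit 156) (nat_lit 456) (nat_lit 0) (XT.nd (nat_lit 78) (nat_lit 304) (nat_lit 0) (XT.lf (nat_lit 0) (nat_lit 7615293878) (nat_lit 152) (nat_lit 2196549810) (nat_lit 228) (nat_lit 1798837185) (nat_lit 125) (nat_lit 5) (nat_lit 127) (nat_lit 5) (nat_lit 128) (nat_lit 4) (nat_lit 467) (nat_lit 377) (nat_lit 356)) (XT.lf (nat_lit 0) (nat_lit 3034903275) (nat_lit 304) (nat_lit 6187953948) (nat_lit 76) (nat_lit 2568376217) (nat_lit 121) (nat_lit 5) (nat_lit 125) (nat_lit 5) (nat_lit 122) (nat_lit 4) (nat_lit 468) (nat_lit 377) (nat_lit 355))) (XT.nd (nat_lit 78) (nat_lit 304) (nat_lit 0) (XT.lf (nat_lit 0) (nat_lit 3475001580) (nat_lit 152) (nat_lit 4513383675) (nat_lit 228) (nat_lit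 3987959301) (nat_lit 119) (nat_lit 5) (nat_lit 121) (nat_lit 5) (nat_lit 122) (nat_lit 4) (nat_lit 469) (nat_lit 377) (nat_lit 354)) (XT.lf (nat_lit 0) (nat_lit 899291105) (nat_lit 304) (nat_lit 10914825515) (nat_lit 76) (nat_lit 352813265) (nat_lit 115) (nat_lit 5) (nat_lit 119) (nat_lit 5) (nat_lit 116) (nat_lit 4) (nat_lit 470) (nat_lit 377) (nat_lit 353))))) (XT.nd (nat_lit 312) (nat_lit 608) (nat_lit 0) (XT.nd (nat_lit 156) (nat_lit 380) (nat_lit 0) (XT.nd (nat_lit 78) (nat_lit 152) (nat_lit 0) (XT.lf (nat_lit 0) (nat_lit 5900043091) (nat_lit 304) (nat_lit 1122595395) (nat_lit 76) (nat_lit 5338001166) (nat_lit 115) (nat_lit 5) (nat_lit 119) (nat_lit 5) (nat_lit 116) (nat_lit 4) (nat_lit 471) (nat_lit 377) (nat_lit 352)) (XT.lf (nat_lit 0) (nat_lit 8993914338) (nat_lit 152) (nat_lit 2061469247) (nat_lit 228) (nat_lit 1504642640) (nat_lit 113) (nat_lit 5) (nat_lit 115) (nat_lit 5) (nat_lit 116) (nat_lit 4) (nat_lit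 472) (nat_lit 377) (nat_lit 351))) (XT.nd (nat_lit 78) (nat_lit 152) (nat_lit 0) (XT.lf (nat_lit 0) (nat_lit 3552928871) (nat_lit 228) (nat_lit 6173171546) (nat_lit 76) (nat_lit 3037562533) (nat_lit 110) (nat_lit 5) (nat_lit 113) (nat_lit 5) (nat_lit 111) (nat_lit 4) (nat_lit 473) (nat_lit 377) (nat_lit 350)) (XT.lf (nat_lit 0) (nat_lit 4050347804) (nat_lit 152) (nat_lit 4696053756) (nat_lit 228) (nat_lit 4226130096) (nat_lit 108) (nat_lit 5) (nat_lit 110) (nat_lit 5) (nat_lit 111) (nat_lit 4) (nat_lit 474) (nat_lit 377) (nat_lit 349)))) (XT.nd (nat_lit 156) (nat_lit 380) (nat_lit 0) (XT.nd (nat_lit 78) (nat_lit 0) (nat_lit 0) (XT.lf (nat_lit 0) (nat_lit 890411715) (nat_lit 228) (nat_lit 11799046359) (nat_lit 76) (nat_lit 497945098) (nat_lit 105) (nat_lit 5) (nat_lit 108) (nat_lit 5) (nat_lit 106) (nat_lit 4) (nat_lit 475) (nat_lit 377) (nat_lit 348)) (XT.lf (nat_lit 0) (nat_lit 6132238854) (nat_lit 228) (nat_lit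 1450278128) (nat_lit 76) (nat_lit 5823248745) (nat_lit 105) (nat_lit 5) (nat_lit 108) (nat_lit 5) (nat_lit 106) (nat_lit 4) (nat_lit 476) (nat_lit 377) (nat_lit 347))) (XT.nd (nat_lit 78) (nat_lit 228) (nat_lit 0) (XT.lf (nat_lit 0) (nat_lit 9247522697) (nat_lit 152) (nat_lit 2294288931) (nat_lit 228) (nat_lit 2088554833) (nat_lit 103) (nat_lit 5) (nat_lit 105) (nat_lit 5) (nat_lit 106) (nat_lit 4) (nat_lit 477) (nat_lit 377) (nat_lit 346)) (XT.lf (nat_lit 0) (nat_lit 3217200684) (nat_lit 228) (nat_lit 7505709496) (nat_lit 76) (nat_lit 3136998392) (nat_lit 100) (nat_lit 5) (nat_lit 103) (nat_lit 5) (nat_lit 101) (nat_lit 4) (nat_lit 478) (nat_lit 377) (nat_lit 345))))))))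
noncomputable def xc48 : XT := (XT.nd (nat_lit 2418) (nat_lit 1900) (nat_lit 0) (XT.nd (nat_lit 1170) (nat_lit 1520) (nat_lit 0) (XT.nd (nat_lit 546) (nat_lit 912) (nat_lit 0) (XT.nd (nat_lit 234) (nat_lit 456) (nat_lit 0) (XT.nd (nat_lit 78) (nat_lit 228) (nat_lit 0) (XT.lf (nat_lit 0) (nat_lit 3286108606) (nat_lit 152) (nat_lit 5375122361) (nat_lit 228) (nat_lit 5433855069) (nat_lit 98) (nat_lit 5) (nat_lit 100) (nat_lit 5) (nat_lit 101) (nat_lit 4) (nat_lit 479) (nat_lit 377) (nat_lit 344)) (XT.nd (nat_lit 78) (nat_lit 76) (nat_lit 0) (XT.lf (nat_lit 0) (nat_lit 77302710) (nat_lit 152) (nat_lit 14192224649) (nat_lit 152) (nat_lit 67764908) (nat_lit 96) (nat_lit 4) (nat_lit 98) (nat_lit 5) (nat_lit 98) (nat_lit 4) (nat_lit 480) (nat_lit 377) (nat_lit 343)) (XT.lf (nat_lit 0) (nat_lit 5438747207) (nat_lit 228) (nat_lit 3321340165) (nat_lit 76) (nat_lit 5822525560) (nat_lit 95) (nat_lit 5) (nat_lit 98) (nat_lit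 5) (nat_lit 96) (nat_lit 4) (nat_lit 481) (nat_lit 377) (nat_lit 342)))) (XT.nd (nat_lit 156) (nat_lit 76) (nat_lit 0) (XT.nd (nat_lit 78) (nat_lit 228) (nat_lit 0) (XT.lf (nat_lit 0) (nat_lit 7961498253) (nat_lit 152) (nat_lit 3148902704) (nat_lit 228) (nat_lit 3724834531) (nat_lit 93) (nat_lit 5) (nat_lit 95) (nat_lit 5) (nat_lit 96) (nat_lit 4) (nat_lit 482) (nat_lit 377) (nat_lit 341)) (XT.lf (nat_lit 0) (nat_lit 1848063626) (nat_lit 228) (nat_lit 10633399126) (nat_lit 76) (nat_lit 2612614222) (nat_lit 90) (nat_lit 5) (nat_lit 93) (nat_lit 5) (nat_lit 91) (nat_lit 4) (nat_lit 483) (nat_lit 377) (nat_lit 340))) (XT.nd (nat_lit 78) (nat_lit 0) (nat_lit 0) (XT.lf (nat_lit 0) (nat_lit 723754429) (nat_lit 76) (nat_lit 6822931035) (nat_lit 152) (nat_lit 7811891293) (nat_lit 89) (nat_lit 5) (nat_lit 90) (nat_lit 5) (nat_lit 91) (nat_lit 4) (nat_lit 484) (nat_lit 377) (nat_lit 339)) (XT.lf (nat_lit 0) (nat_lit 12501906642)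 (nat_lit 76) (nat_lit 947761057) (nat_lit 152) (nat_lit 2180343246) (nat_lit 89) (nat_lit 5) (nat_lit 90) (nat_lit 5) (nat_lit 91) (nat_lit 4) (nat_lit 485) (nat_lit 377) (nat_lit 338))))) (XT.nd (nat_lit 312) (nat_lit 380) (nat_lit 0) (XT.nd (nat_lit 156) (nat_lit 228) (nat_lit 0) (XT.nd (nat_lit 78) (nat_lit 76) (nat_lit 0) (XT.lf (nat_lit 0) (nat_lit 3610470840) (nat_lit 228) (nat_lit 7233707785) (nat_lit 76) (nat_lit 5062538084) (nat_lit 86) (nat_lit 5) (nat_lit 89) (nat_lit 5) (nat_lit 87) (nat_lit 4) (nat_lit 486) (nat_lit 377) (nat_lit 337)) (XT.lf (nat_lit 0) (nat_lit 4625115569) (nat_lit 76) (nat_lit 4919511654) (nat_lit 152) (nat_lit 6646046917) (nat_lit 85) (nat_lit 5) (nat_lit 86) (nat_lit 5) (nat_lit 87) (nat_lit 4) (nat_lit 487) (nat_lit 377) (nat_lit 336))) (XT.nd (nat_lit 78) (nat_lit 76) (nat_lit 0) (XT.lf (nat_lit 0) (nat_lit 366513421) (nat_lit 152) (nat_lit 15306871515) (nat_lit 152) (nat_lit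 809269357) (nat_lit 83) (nat_lit 4) (nat_lit 85) (nat_lit 5) (nat_lit 85) (nat_lit 4) (nat_lit 488) (nat_lit 377) (nat_lit 335)) (XT.lf (nat_lit 0) (nat_lit 5195759169) (nat_lit 228) (nat_lit 4121813011) (nat_lit 76) (nat_lit 7461482497) (nat_lit 82) (nat_lit 5) (nat_lit 85) (nat_lit 5) (nat_lit 83) (nat_lit 4) (nat_lit 489) (nat_lit 377) (nat_lit 334)))) (XT.nd (nat_lit 156) (nat_lit 76) (nat_lit 0) (XT.nd (nat_lit 78) (nat_lit 228) (nat_lit 0) (XT.lf (nat_lit 0) (nat_lit 8253664654) (nat_lit 76) (nat_lit 3120459794) (nat_lit 152) (nat_lit 5709699892) (nat_lit 81) (nat_lit 5) (nat_lit 82) (nat_lit 5) (nat_lit 83) (nat_lit 4) (nat_lit 490) (nat_lit 377) (nat_lit 333)) (XT.lf (nat_lit 0) (nat_lit 372101116) (nat_lit 228) (nat_lit 13805371908) (nat_lit 76) (nat_lit 3219008089) (nat_lit 78) (nat_lit 5) (nat_lit 81) (nat_lit 5) (nat_lit 79) (nat_lit 4) (nat_lit 491) (nat_lit 377) (nat_lit 332))) (XT.nd (nat_lit 78)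 (nat_lit 76) (nat_lit 0) (XT.lf (nat_lit 0) (nat_lit 6572937806) (nat_lit 228) (nat_lit 1370139553) (nat_lit 76) (nat_lit 9772205137) (nat_lit 78) (nat_lit 5) (nat_lit 81) (nat_lit 5) (nat_lit 79) (nat_lit 4) (nat_lit 492) (nat_lit 377) (nat_lit 331)) (XT.lf (nat_lit 0) (nat_lit 11535073022) (nat_lit 76) (nat_lit 1468031256) (nat_lit 152) (nat_lit 5039245558) (nat_lit 77) (nat_lit 5) (nat_lit 78) (nat_lit 5) (nat_lit 79) (nat_lit 4) (nat_lit 493) (nat_lit 377) (nat_lit 330)))))) (XT.nd (nat_lit 624) (nat_lit 608) (nat_lit 0) (XT.nd (nat_lit 312) (nat_lit 380) (nat_lit 0) (XT.nd (nat_lit 156) (nat_lit 228) (nat_lit 0) (XT.nd (nat_lit 78) (nat_lit 76) (nat_lit 0) (XT.lf (nat_lit 0) (nat_lit 1281501669) (nat_lit 228) (nat_lit 11966457058) (nat_lit 76) (nat_lit 5129145249) (nat_lit 74) (nat_lit 5) (nat_lit 77) (nat_lit 5) (nat_lit 75) (nat_lit 4) (nat_lit 494) (nat_lit 377) (nat_lit 329)) (XT.lf (nat_lit 0) (nat_lit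 954700257) (nat_lit 76) (nat_lit 6758634660) (nat_lit 152) (nat_lit 11006387560) (nat_lit 73) (nat_lit 5) (nat_lit 74) (nat_lit 5) (nat_lit 75) (nat_lit 4) (nat_lit 495) (nat_lit 377) (nat_lit 328))) (XT.nd (nat_lit 78) (nat_lit 228) (nat_lit 0) (XT.lf (nat_lit 0) (nat_lit 14381629930) (nat_lit 76) (nat_lit 10743554) (nat_lit 152) (nat_lit 4678619477) (nat_lit 73) (nat_lit 5) (nat_lit 74) (nat_lit 5) (nat_lit 75) (nat_lit 4) (nat_lit 496) (nat_lit 377) (nat_lit 327)) (XT.lf (nat_lit 0) (nat_lit 1889624642) (nat_lit 228) (nat_lit 10690835010) (nat_lit 76) (nat_lit 6849216628) (nat_lit 70) (nat_lit 5) (nat_lit 73) (nat_lit 5) (nat_lit 71) (nat_lit 4) (nat_lit 497) (nat_lit 377) (nat_lit 326)))) (XT.nd (nat_lit 156) (nat_lit 304) (nat_lit 0) (XT.nd (nat_lit 78) (nat_lit 0) (nat_lit 0) (XT.lf (nat_lit 0) (nat_lit 2750179592) (nat_lit 76) (nat_lit 5819924247) (nat_lit 152) (nat_lit 11227350727) (nat_lit 69) (nat_lit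 5) (nat_lit 70) (nat_lit 5) (nat_lit 71) (nat_lit 4) (nat_lit 498) (nat_lit 377) (nat_lit 325)) (XT.lf (nat_lit 0) (nat_lit 15506011321) (nat_lit 152) (nat_lit 3496558820) (nat_lit 0) (nat_lit 1172046475) (nat_lit 69) (nat_lit 5) (nat_lit 71) (nat_lit 4) (nat_lit 69) (nat_lit 4) (nat_lit 499) (nat_lit 377) (nat_lit 324))) (XT.nd (nat_lit 78) (nat_lit 76) (nat_lit 0) (XT.lf (nat_lit 0) (nat_lit 2142436455) (nat_lit 228) (nat_lit 10094963614) (nat_lit 76) (nat_lit 8322204721) (nat_lit 66) (nat_lit 5) (nat_lit 69) (nat_lit 5) (nat_lit 67) (nat_lit 4) (nat_lit 500) (nat_lit 377) (nat_lit 323)) (XT.lf (nat_lit 0) (nat_lit 3868718597) (nat_lit 76) (nat_lit 5205057210) (nat_lit 152) (nat_lit 11880686830) (nat_lit 65) (nat_lit 5) (nat_lit 66) (nat_lit 5) (nat_lit 67) (nat_lit 4) (nat_lit 501) (nat_lit 377) (nat_lit 322))))) (XT.nd (nat_lit 312) (nat_lit 380) (nat_lit 0) (XT.nd (nat_lit 156) (nat_lit 76) (nat_lit 0) (XT.nd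 (nat_lit 78) (nat_lit 152) (nat_lit 0) (XT.lf (nat_lit 0) (nat_lit 16272674547) (nat_lit 152) (nat_lit 3042056770) (nat_lit 0) (nat_lit 2044647067) (nat_lit 65) (nat_lit 5) (nat_lit 67) (nat_lit 4) (nat_lit 65) (nat_lit 4) (nat_lit 502) (nat_lit 377) (nat_lit 321)) (XT.lf (nat_lit 0) (nat_lit 1975575774) (nat_lit 152) (nat_lit 10315470861) (nat_lit 76) (nat_lit 9481791460) (nat_lit 63) (nat_lit 5) (nat_lit 65) (nat_lit 5) (nat_lit 64) (nat_lit 4) (nat_lit 503) (nat_lit 377) (nat_lit 320))) (XT.nd (nat_lit 78) (nat_lit 0) (nat_lit 0) (XT.lf (nat_lit 0) (nat_lit 4168925320) (nat_lit 76) (nat_lit 4988624853) (nat_lit 152) (nat_lit 13039339278) (nat_lit 62) (nat_lit 5) (nat_lit 63) (nat_lit 5) (nat_lit 64) (nat_lit 4) (nat_lit 504) (nat_lit 377) (nat_lit 319)) (XT.lf (nat_lit 0) (nat_lit 16623605189) (nat_lit 152) (nat_lit 3474827042) (nat_lit 0) (nat_lit 2533172134) (nat_lit 62) (nat_lit 5) (nat_lit 64) (nat_lit 4)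 (nat_lit 62) (nat_lit 4) (nat_lit 505) (nat_lit 377) (nat_lit 318)))) (XT.nd (nat_lit 156) (nat_lit 152) (nat_lit 0) (XT.nd (nat_lit 78) (nat_lit 76) (nat_lit 0) (XT.lf (nat_lit 0) (nat_lit 1312725444) (nat_lit 152) (nat_lit 11512549703) (nat_lit 76) (nat_lit 10250654372) (nat_lit 60) (nat_lit 5) (nat_lit 62) (nat_lit 5) (nat_lit 61) (nat_lit 4) (nat_lit 506) (nat_lit 377) (nat_lit 317)) (XT.lf (nat_lit 0) (nat_lit 3484770094) (nat_lit 76) (nat_lit 5257382244) (nat_lit 152) (nat_lit 14789353077) (nat_lit 59) (nat_lit 5) (nat_lit 60) (nat_lit 5) (nat_lit 61) (nat_lit 4) (nat_lit 507) (nat_lit 377) (nat_lit 316))) (XT.nd (nat_lit 78) (nat_lit 152) (nat_lit 0) (XT.lf (nat_lit 0) (nat_lit 16477258377) (nat_lit 152) (nat_lit 4969726401) (nat_lit 0) (nat_lit 2551280505) (nat_lit 59) (nat_lit 5) (nat_lit 61) (nat_lit 4) (nat_lit 59) (nat_lit 4) (nat_lit 508) (nat_lit 377) (nat_lit 315)) (XT.lf (nat_lit 0) (nat_lit 63713423)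 (nat_lit 152) (nat_lit 13873892951) (nat_lit 76) (nat_lit 10538502653) (nat_lit 57) (nat_lit 5) (nat_lit 59) (nat_lit 5) (nat_lit 58) (nat_lit 4) (nat_lit 509) (nat_lit 377) (nat_lit 314))))))) (XT.nd (nat_lit 1170) (nat_lit 912) (nat_lit 0) (XT.nd (nat_lit 546) (nat_lit 532) (nat_lit 0) (XT.nd (nat_lit 234) (nat_lit 304) (nat_lit 0) (XT.nd (nat_lit 78) (nat_lit 76) (nat_lit 0) (XT.lf (nat_lit 0) (nat_lit 1621461275) (nat_lit 76) (nat_lit 6112378973) (nat_lit 152) (nat_lit 17231943517) (nat_lit 56) (nat_lit 5) (nat_lit 57) (nat_lit 5) (nat_lit 58) (nat_lit 4) (nat_lit 510) (nat_lit 377) (nat_lit 313)) (XT.nd (nat_lit 78) (nat_lit 76) (nat_lit 0) (XT.lf (nat_lit 0) (nat_lit 15737127058) (nat_lit 152) (nat_lit 7731689972) (nat_lit 0) (nat_lit 1998240551) (nat_lit 56) (nat_lit 5) (nat_lit 58) (nat_lit 4) (nat_lit 56) (nat_lit 4) (nat_lit 511) (nat_lit 377) (nat_lit 312)) (XT.lf (nat_lit 0) (nat_lit 8343148734) (nat_lit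 76) (nat_lit 15722594769) (nat_lit 76) (nat_lit 1915069681) (nat_lit 55) (nat_lit 4) (nat_lit 56) (nat_lit 5) (nat_lit 56) (nat_lit 4) (nat_lit 512) (nat_lit 377) (nat_lit 311)))) (XT.nd (nat_lit 156) (nat_lit 152) (nat_lit 0) (XT.nd (nat_lit 78) (nat_lit 76) (nat_lit 0) (XT.lf (nat_lit 0) (nat_lit 6037936531) (nat_lit 152) (nat_lit 1617153328) (nat_lit 76) (nat_lit 18852421074) (nat_lit 54) (nat_lit 5) (nat_lit 56) (nat_lit 5) (nat_lit 55) (nat_lit 4) (nat_lit 513) (nat_lit 377) (nat_lit 310)) (XT.lf (nat_lit 0) (nat_lit 14289328438) (nat_lit 152) (nat_lit 12000712404) (nat_lit 0) (nat_lit 756451805) (nat_lit 53) (nat_lit 5) (nat_lit 55) (nat_lit 4) (nat_lit 53) (nat_lit 4) (nat_lit 514) (nat_lit 377) (nat_lit 309))) (XT.nd (nat_lit 78) (nat_lit 76) (nat_lit 0) (XT.lf (nat_lit 0) (nat_lit 4547976074) (nat_lit 76) (nat_lit 18322530982) (nat_lit 76) (nat_lit 4728669858) (nat_lit 52) (nat_lit 4) (nat_lit 53) (nat_lit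 5) (nat_lit 53) (nat_lit 4) (nat_lit 515) (nat_lit 377) (nat_lit 308)) (XT.lf (nat_lit 0) (nat_lit 3540248983) (nat_lit 152) (nat_lit 6466363930) (nat_lit 76) (nat_lit 18158748329) (nat_lit 51) (nat_lit 5) (nat_lit 53) (nat_lit 5) (nat_lit 52) (nat_lit 4) (nat_lit 516) (nat_lit 377) (nat_lit 307))))) (XT.nd (nat_lit 312) (nat_lit 228) (nat_lit 0) (XT.nd (nat_lit 156) (nat_lit 228) (nat_lit 0) (XT.nd (nat_lit 78) (nat_lit 0) (nat_lit 0) (XT.lf (nat_lit 0) (nat_lit 10675130435) (nat_lit 76) (nat_lit 1337521551) (nat_lit 152) (nat_lit 16732961225) (nat_lit 50) (nat_lit 5) (nat_lit 51) (nat_lit 5) (nat_lit 52) (nat_lit 4) (nat_lit 517) (nat_lit 377) (nat_lit 306)) (XT.lf (nat_lit 0) (nat_lit 20826055317) (nat_lit 152) (nat_lit 1053958186) (nat_lit 0) (nat_lit 7460654787) (nat_lit 50) (nat_lit 5) (nat_lit 52) (nat_lit 4) (nat_lit 50) (nat_lit 4) (nat_lit 518) (nat_lit 377) (nat_lit 305))) (XT.nd (nat_lit 78) (nat_lit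 76) (nat_lit 0) (XT.lf (nat_lit 0) (nat_lit 75538196) (nat_lit 152) (nat_lit 13264663747) (nat_lit 76) (nat_lit 16609659319) (nat_lit 48) (nat_lit 5) (nat_lit 50) (nat_lit 5) (nat_lit 49) (nat_lit 4) (nat_lit 519) (nat_lit 377) (nat_lit 304)) (XT.lf (nat_lit 0) (nat_lit 4301151341) (nat_lit 76) (nat_lit 4452657121) (nat_lit 152) (nat_lit 21820946338) (nat_lit 47) (nat_lit 5) (nat_lit 48) (nat_lit 5) (nat_lit 49) (nat_lit 4) (nat_lit 520) (nat_lit 377) (nat_lit 303)))) (XT.nd (nat_lit 156) (nat_lit 152) (nat_lit 0) (XT.nd (nat_lit 78) (nat_lit 76) (nat_lit 0) (XT.lf (nat_lit 0) (nat_lit 17822409161) (nat_lit 152) (nat_lit 8694595966) (nat_lit 0) (nat_lit 4697490900) (nat_lit 47) (nat_lit 5) (nat_lit 49) (nat_lit 4) (nat_lit 47) (nat_lit 4) (nat_lit 521) (nat_lit 377) (nat_lit 302)) (XT.lf (nat_lit 0) (nat_lit 9455554881) (nat_lit 76) (nat_lit 17793476916) (nat_lit 76) (nat_lit 4621819121) (nat_lit 46) (nat_lit 4)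 (nat_lit 47) (nat_lit 5) (nat_lit 47) (nat_lit 4) (nat_lit 522) (nat_lit 377) (nat_lit 301))) (XT.nd (nat_lit 78) (nat_lit 76) (nat_lit 0) (XT.lf (nat_lit 0) (nat_lit 4365151613) (nat_lit 152) (nat_lit 4355778207) (nat_lit 76) (nat_lit 23823504352) (nat_lit 45) (nat_lit 5) (nat_lit 47) (nat_lit 5) (nat_lit 46) (nat_lit 4) (nat_lit 523) (nat_lit 377) (nat_lit 300)) (XT.lf (nat_lit 0) (nat_lit 13626943583) (nat_lit 152) (nat_lit 18854869137) (nat_lit 0) (nat_lit 752096518) (nat_lit 44) (nat_lit 5) (nat_lit 46) (nat_lit 4) (nat_lit 44) (nat_lit 4) (nat_lit 524) (nat_lit 377) (nat_lit 299)))))) (XT.nd (nat_lit 624) (nat_lit 456) (nat_lit 0) (XT.nd (nat_lit 312) (nat_lit 228) (nat_lit 0) (XT.nd (nat_lit 156) (nat_lit 152) (nat_lit 0) (XT.nd (nat_lit 78) (nat_lit 76) (nat_lit 0) (XT.lf (nat_lit 0) (nat_lit 23249845766) (nat_lit 152) (nat_lit 358254170) (nat_lit 0) (nat_lit 10333471231) (nat_lit 44) (nat_lit 5) (nat_lit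 46) (nat_lit 4) (nat_lit 44) (nat_lit 4) (nat_lit 525) (nat_lit 377) (nat_lit 298)) (XT.lf (nat_lit 0) (nat_lit 18972296532) (nat_lit 76) (nat_lit 14325385882) (nat_lit 76) (nat_lit 1368693415) (nat_lit 43) (nat_lit 4) (nat_lit 44) (nat_lit 5) (nat_lit 44) (nat_lit 4) (nat_lit 526) (nat_lit 377) (nat_lit 297))) (XT.nd (nat_lit 78) (nat_lit 0) (nat_lit 0) (XT.lf (nat_lit 0) (nat_lit 3372714538) (nat_lit 76) (nat_lit 4690610894) (nat_lit 152) (nat_lit 27347525818) (nat_lit 41) (nat_lit 5) (nat_lit 42) (nat_lit 5) (nat_lit 43) (nat_lit 4) (nat_lit 527) (nat_lit 377) (nat_lit 296)) (XT.lf (nat_lit 0) (nat_lit 17915091346) (nat_lit 152) (nat_lit 12996356307) (nat_lit 0) (nat_lit 5260878133) (nat_lit 41) (nat_lit 5) (nat_lit 43) (nat_lit 4) (nat_lit 41) (nat_lit 4) (nat_lit 528) (nat_lit 377) (nat_lit 295)))) (XT.nd (nat_lit 156) (nat_lit 76) (nat_lit 0) (XT.nd (nat_lit 78) (nat_lit 76) (nat_lit 0) (XT.lf (nat_lit 0)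 (nat_lit 6610641128) (nat_lit 76) (nat_lit 21517040364) (nat_lit 76) (nat_lit 8827005191) (nat_lit 40) (nat_lit 4) (nat_lit 41) (nat_lit 5) (nat_lit 41) (nat_lit 4) (nat_lit 529) (nat_lit 377) (nat_lit 294)) (XT.lf (nat_lit 0) (nat_lit 956681184) (nat_lit 152) (nat_lit 10782750971) (nat_lit 76) (nat_lit 26018195705) (nat_lit 39) (nat_lit 5) (nat_lit 41) (nat_lit 5) (nat_lit 40) (nat_lit 4) (nat_lit 530) (nat_lit 377) (nat_lit 293))) (XT.nd (nat_lit 78) (nat_lit 0) (nat_lit 0) (XT.lf (nat_lit 0) (nat_lit 9374891909) (nat_lit 76) (nat_lit 1528295932) (nat_lit 152) (nat_lit 27677446075) (nat_lit 38) (nat_lit 5) (nat_lit 39) (nat_lit 5) (nat_lit 40) (nat_lit 4) (nat_lit 531) (nat_lit 377) (nat_lit 292)) (XT.lf (nat_lit 0) (nat_lit 21301107367) (nat_lit 152) (nat_lit 9240322775) (nat_lit 0) (nat_lit 8882309718) (nat_lit 38) (nat_lit 5) (nat_lit 40) (nat_lit 4) (nat_lit 38) (nat_lit 4) (nat_lit 532) (nat_lit 377) (nat_lit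 291))))) (XT.nd (nat_lit 312) (nat_lit 228) (nat_lit 0) (XT.nd (nat_lit 156) (nat_lit 76) (nat_lit 0) (XT.nd (nat_lit 78) (nat_lit 76) (nat_lit 0) (XT.lf (nat_lit 0) (nat_lit 11448769510) (nat_lit 76) (nat_lit 20645287455) (nat_lit 76) (nat_lit 8195589468) (nat_lit 37) (nat_lit 4) (nat_lit 38) (nat_lit 5) (nat_lit 38) (nat_lit 4) (nat_lit 533) (nat_lit 377) (nat_lit 290)) (XT.lf (nat_lit 0) (nat_lit 2041825714) (nat_lit 152) (nat_lit 8334792113) (nat_lit 76) (nat_lit 30802762620) (nat_lit 36) (nat_lit 5) (nat_lit 38) (nat_lit 5) (nat_lit 37) (nat_lit 4) (nat_lit 534) (nat_lit 377) (nat_lit 289))) (XT.nd (nat_lit 78) (nat_lit 0) (nat_lit 0) (XT.lf (nat_lit 0) (nat_lit 12508123235) (nat_lit 152) (nat_lit 29219021537) (nat_lit 0) (nat_lit 363633092) (nat_lit 35) (nat_lit 5) (nat_lit 37) (nat_lit 4) (nat_lit 35) (nat_lit 4) (nat_lit 535) (nat_lit 377) (nat_lit 288)) (XT.lf (nat_lit 0) (nat_lit 23435332044) (nat_lit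 152) (nat_lit 8326390340) (nat_lit 0) (nat_lit 11263387350) (nat_lit 35) (nat_lit 5) (nat_lit 37) (nat_lit 4) (nat_lit 35) (nat_lit 4) (nat_lit 536) (nat_lit 377) (nat_lit 287)))) (XT.nd (nat_lit 156) (nat_lit 76) (nat_lit 0) (XT.nd (nat_lit 78) (nat_lit 76) (nat_lit 0) (XT.lf (nat_lit 0) (nat_lit 13375200389) (nat_lit 76) (nat_lit 21404101312) (nat_lit 76) (nat_lit 9205501716) (nat_lit 34) (nat_lit 4) (nat_lit 35) (nat_lit 5) (nat_lit 35) (nat_lit 4) (nat_lit 537) (nat_lit 377) (nat_lit 286)) (XT.lf (nat_lit 0) (nat_lit 1506523453) (nat_lit 152) (nat_lit 9166235532) (nat_lit 76) (nat_lit 34298740279) (nat_lit 33) (nat_lit 5) (nat_lit 35) (nat_lit 5) (nat_lit 34) (nat_lit 4) (nat_lit 538) (nat_lit 377) (nat_lit 285))) (XT.nd (nat_lit 78) (nat_lit 0) (nat_lit 0) (XT.lf (nat_lit 0) (nat_lit 12446890064) (nat_lit 152) (nat_lit 32981340058) (nat_lit 0) (nat_lit 554071670) (nat_lit 32) (nat_lit 5) (nat_lit 34) (nat_lit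 4) (nat_lit 32) (nat_lit 4) (nat_lit 539) (nat_lit 377) (nat_lit 284)) (XT.lf (nat_lit 0) (nat_lit 23876188093) (nat_lit 152) (nat_lit 11182731700) (nat_lit 0) (nat_lit 11959687164) (nat_lit 32) (nat_lit 5) (nat_lit 34) (nat_lit 4) (nat_lit 32) (nat_lit 4) (nat_lit 540) (nat_lit 377) (nat_lit 283))))))))
noncomputable def xc49 : XT := (XT.nd (nat_lit 56238) (nat_lit 0) (nat_lit 4408) (XT.nd (nat_lit 54990) (nat_lit 0) (nat_lit 9196) (XT.nd (nat_lit 546) (nat_lit 304) (nat_lit 0) (XT.nd (nat_lit 234) (nat_lit 152) (nat_lit 0) (XT.nd (nat_lit 78) (nat_lit 152) (nat_lit 0) (XT.lf (nat_lit 0) (nat_lit 11418310803) (nat_lit 76) (nat_lit 24302505397) (nat_lit 76) (nat_lit 12363011713) (nat_lit 31) (nat_lit 4) (nat_lit 32) (nat_lit 5) (nat_lit 32) (nat_lit 4) (nat_lit 541) (nat_lit 377) (nat_lit 282)) (XT.nd (nat_lit 78) (nat_lit 152) (nat_lit 0) (XT.lf (nat_lit 0) (nat_lit 34853011934) (nat_lit 76) (nat_lit 13143765324)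 (nat_lit 76) (nat_lit 1181948580) (nat_lit 31) (nat_lit 4) (nat_lit 32) (nat_lit 5) (nat_lit 32) (nat_lit 4) (nat_lit 542) (nat_lit 377) (nat_lit 281)) (XT.lf (nat_lit 0) (nat_lit 8682177408) (nat_lit 76) (nat_lit 1497954132) (nat_lit 152) (nat_lit 40121941577) (nat_lit 29) (nat_lit 5) (nat_lit 30) (nat_lit 5) (nat_lit 31) (nat_lit 4) (nat_lit 543) (nat_lit 377) (nat_lit 280)))) (XT.nd (nat_lit 156) (nat_lit 76) (nat_lit 0) (XT.nd (nat_lit 78) (nat_lit 76) (nat_lit 0) (XT.lf (nat_lit 0) (nat_lit 22070133717) (nat_lit 152) (nat_lit 18967062693) (nat_lit 0) (nat_lit 10415249011) (nat_lit 29) (nat_lit 5) (nat_lit 31) (nat_lit 4) (nat_lit 29) (nat_lit 4) (nat_lit 544) (nat_lit 377) (nat_lit 279)) (XT.lf (nat_lit 0) (nat_lit 4365606268) (nat_lit 76) (nat_lit 29972895625) (nat_lit 76) (nat_lit 18298177169) (nat_lit 28) (nat_lit 4) (nat_lit 29) (nat_lit 5) (nat_lit 29) (nat_lit 4) (nat_lit 545) (nat_lit 377) (nat_lit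 278))) (XT.nd (nat_lit 78) (nat_lit 76) (nat_lit 0) (XT.lf (nat_lit 0) (nat_lit 28717642289) (nat_lit 76) (nat_lit 18414034707) (nat_lit 76) (nat_lit 6720060181) (nat_lit 28) (nat_lit 4) (nat_lit 29) (nat_lit 5) (nat_lit 29) (nat_lit 4) (nat_lit 546) (nat_lit 377) (nat_lit 277)) (XT.lf (nat_lit 0) (nat_lit 5069728379) (nat_lit 152) (nat_lit 1421121127) (nat_lit 76) (nat_lit 48611919413) (nat_lit 27) (nat_lit 5) (nat_lit 29) (nat_lit 5) (nat_lit 28) (nat_lit 4) (nat_lit 547) (nat_lit 377) (nat_lit 276))))) (XT.nd (nat_lit 312) (nat_lit 152) (nat_lit 0) (XT.nd (nat_lit 156) (nat_lit 76) (nat_lit 0) (XT.nd (nat_lit 78) (nat_lit 0) (nat_lit 0) (XT.lf (nat_lit 0) (nat_lit 17327481977) (nat_lit 152) (nat_lit 33116037642) (nat_lit 0) (nat_lit 5938335929) (nat_lit 26) (nat_lit 5) (nat_lit 28) (nat_lit 4) (nat_lit 26) (nat_lit 4) (nat_lit 548) (nat_lit 377) (nat_lit 275)) (XT.lf (nat_lit 0) (nat_lit 29998644839) (nat_lit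 152) (nat_lit 9106909739) (nat_lit 0) (nat_lit 18592390023) (nat_lit 26) (nat_lit 5) (nat_lit 28) (nat_lit 4) (nat_lit 26) (nat_lit 4) (nat_lit 549) (nat_lit 377) (nat_lit 274))) (XT.nd (nat_lit 78) (nat_lit 0) (nat_lit 0) (XT.lf (nat_lit 0) (nat_lit 15867944142) (nat_lit 76) (nat_lit 27302412577) (nat_lit 76) (nat_lit 15879547306) (nat_lit 25) (nat_lit 4) (nat_lit 26) (nat_lit 5) (nat_lit 26) (nat_lit 4) (nat_lit 550) (nat_lit 377) (nat_lit 273)) (XT.lf (nat_lit 0) (nat_lit 41715167059) (nat_lit 76) (nat_lit 15082221085) (nat_lit 76) (nat_lit 3643229159) (nat_lit 25) (nat_lit 4) (nat_lit 26) (nat_lit 5) (nat_lit 26) (nat_lit 4) (nat_lit 551) (nat_lit 377) (nat_lit 272)))) (XT.nd (nat_lit 156) (nat_lit 0) (nat_lit 0) (XT.nd (nat_lit 78) (nat_lit 0) (nat_lit 0) (XT.lf (nat_lit 0) (nat_lit 6442002043) (nat_lit 76) (nat_lit 2374082151) (nat_lit 152) (nat_lit 53053461446) (nat_lit 23) (nat_lit 5) (nat_lit 24) (nat_lit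 5) (nat_lit 25) (nat_lit 4) (nat_lit 552) (nat_lit 377) (nat_lit 271)) (XT.lf (nat_lit 0) (nat_lit 21838760810) (nat_lit 152) (nat_lit 30790630388) (nat_lit 0) (nat_lit 10702984314) (nat_lit 23) (nat_lit 5) (nat_lit 25) (nat_lit 4) (nat_lit 23) (nat_lit 4) (nat_lit 553) (nat_lit 377) (nat_lit 270))) (XT.nd (nat_lit 53898) (nat_lit 0) (nat_lit 13452) (XT.lf (nat_lit 0) (nat_lit 35245375547) (nat_lit 152) (nat_lit 5498646380) (nat_lit 0) (nat_lit 24095270727) (nat_lit 23) (nat_lit 5) (nat_lit 25) (nat_lit 4) (nat_lit 23) (nat_lit 4) (nat_lit 554) (nat_lit 377) (nat_lit 269)) (XT.lf (nat_lit 0) (nat_lit 247453811) (nat_lit 380) (nat_lit 2006725518) (nat_lit 380) (nat_lit 2006725518) (nat_lit 200) (nat_lit 4) (nat_lit 205) (nat_lit 5) (nat_lit 205) (nat_lit 4) (nat_lit 444) (nat_lit 378) (nat_lit 378)))))) (XT.nd (nat_lit 624) (nat_lit 2052) (nat_lit 0) (XT.nd (nat_lit 312) (nat_lit 1064) (nat_lit 0) (XT.nd (nat_lit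 156) (nat_lit 760) (nat_lit 0) (XT.nd (nat_lit 78) (nat_lit 304) (nat_lit 0) (XT.lf (nat_lit 0) (nat_lit 178796090) (nat_lit 456) (nat_lit 678384942) (nat_lit 76) (nat_lit 7762901827) (nat_lit 199) (nat_lit 5) (nat_lit 205) (nat_lit 5) (nat_lit 200) (nat_lit 4) (nat_lit 445) (nat_lit 378) (nat_lit 377)) (XT.lf (nat_lit 0) (nat_lit 4403425084) (nat_lit 380) (nat_lit 1906225182) (nat_lit 0) (nat_lit 2410850627) (nat_lit 195) (nat_lit 5) (nat_lit 200) (nat_lit 4) (nat_lit 195) (nat_lit 4) (nat_lit 446) (nat_lit 378) (nat_lit 376))) (XT.nd (nat_lit 78) (nat_lit 380) (nat_lit 0) (XT.lf (nat_lit 0) (nat_lit 5677276210) (nat_lit 380) (nat_lit 3046569833) (nat_lit 380) (nat_lit 101020840) (nat_lit 190) (nat_lit 4) (nat_lit 195) (nat_lit 5) (nat_lit 195) (nat_lit 4) (nat_lit 447) (nat_lit 378) (nat_lit 375)) (XT.lf (nat_lit 0) (nat_lit 4124615723) (nat_lit 380) (nat_lit 4440966035) (nat_lit 0) (nat_lit 366589521) (nat_lit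 185) (nat_lit 5) (nat_lit 190) (nat_lit 4) (nat_lit 185) (nat_lit 4) (nat_lit 448) (nat_lit 378) (nat_lit 374)))) (XT.nd (nat_lit 156) (nat_lit 380) (nat_lit 0) (XT.nd (nat_lit 78) (nat_lit 380) (nat_lit 0) (XT.lf (nat_lit 0) (nat_lit 3265704968) (nat_lit 304) (nat_lit 5203634347) (nat_lit 304) (nat_lit 573501447) (nat_lit 181) (nat_lit 4) (nat_lit 185) (nat_lit 5) (nat_lit 185) (nat_lit 4) (nat_lit 449) (nat_lit 378) (nat_lit 373)) (XT.lf (nat_lit 0) (nat_lit 1992143302) (nat_lit 304) (nat_lit 1687158044) (nat_lit 380) (nat_lit 5477473684) (nat_lit 176) (nat_lit 5) (nat_lit 180) (nat_lit 5) (nat_lit 181) (nat_lit 4) (nat_lit 450) (nat_lit 378) (nat_lit 372))) (XT.nd (nat_lit 78) (nat_lit 76) (nat_lit 0) (XT.lf (nat_lit 0) (nat_lit 678956205) (nat_lit 304) (nat_lit 7355420116) (nat_lit 304) (nat_lit 1240000079) (nat_lit 172) (nat_lit 4) (nat_lit 176) (nat_lit 5) (nat_lit 176) (nat_lit 4) (nat_lit 451) (nat_lit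 378) (nat_lit 371)) (XT.lf (nat_lit 0) (nat_lit 3056031160) (nat_lit 380) (nat_lit 686532287) (nat_lit 76) (nat_lit 5652274662) (nat_lit 171) (nat_lit 5) (nat_lit 176) (nat_lit 5) (nat_lit 172) (nat_lit 4) (nat_lit 452) (nat_lit 378) (nat_lit 370))))) (XT.nd (nat_lit 312) (nat_lit 760) (nat_lit 0) (XT.nd (nat_lit 156) (nat_lit 608) (nat_lit 0) (XT.nd (nat_lit 78) (nat_lit 380) (nat_lit 0) (XT.lf (nat_lit 0) (nat_lit 7433203251) (nat_lit 380) (nat_lit 2072792274) (nat_lit 0) (nat_lit 13239716) (nat_lit 167) (nat_lit 5) (nat_lit 172) (nat_lit 4) (nat_lit 167) (nat_lit 4) (nat_lit 453) (nat_lit 378) (nat_lit 369)) (XT.lf (nat_lit 0) (nat_lit 2258923380) (nat_lit 380) (nat_lit 3543451625) (nat_lit 76) (nat_lit 3844051677) (nat_lit 162) (nat_lit 5) (nat_lit 167) (nat_lit 5) (nat_lit 163) (nat_lit 4) (nat_lit 454) (nat_lit 378) (nat_lit 368))) (XT.nd (nat_lit 78) (nat_lit 380) (nat_lit 0) (XT.lf (nat_lit 0) (nat_lit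 4713443776) (nat_lit 228) (nat_lit 1952053241) (nat_lit 304) (nat_lit 3112126247) (nat_lit 159) (nat_lit 5) (nat_lit 162) (nat_lit 5) (nat_lit 163) (nat_lit 4) (nat_lit 455) (nat_lit 378) (nat_lit 367)) (XT.lf (nat_lit 0) (nat_lit 1260770751) (nat_lit 380) (nat_lit 6650259001) (nat_lit 76) (nat_lit 2001524359) (nat_lit 154) (nat_lit 5) (nat_lit 159) (nat_lit 5) (nat_lit 155) (nat_lit 4) (nat_lit 456) (nat_lit 378) (nat_lit 366)))) (XT.nd (nat_lit 156) (nat_lit 228) (nat_lit 0) (XT.nd (nat_lit 78) (nat_lit 304) (nat_lit 0) (XT.lf (nat_lit 0) (nat_lit 1726872046) (nat_lit 228) (nat_lit 3970923080) (nat_lit 304) (nat_lit 4352953127) (nat_lit 151) (nat_lit 5) (nat_lit 154) (nat_lit 5) (nat_lit 155) (nat_lit 4) (nat_lit 457) (nat_lit 378) (nat_lit 365)) (XT.lf (nat_lit 0) (nat_lit 51941439) (nat_lit 304) (nat_lit 10041481355) (nat_lit 76) (nat_lit 100291284) (nat_lit 147) (nat_lit 5) (nat_lit 151) (nat_lit 5) (nat_lit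 148) (nat_lit 4) (nat_lit 458) (nat_lit 378) (nat_lit 364))) (XT.nd (nat_lit 78) (nat_lit 228) (nat_lit 0) (XT.lf (nat_lit 0) (nat_lit 4534685787) (nat_lit 304) (nat_lit 1518075594) (nat_lit 76) (nat_lit 4285922867) (nat_lit 147) (nat_lit 5) (nat_lit 151) (nat_lit 5) (nat_lit 148) (nat_lit 4) (nat_lit 459) (nat_lit 378) (nat_lit 363)) (XT.lf (nat_lit 0) (nat_lit 7257370414) (nat_lit 228) (nat_lit 1875944985) (nat_lit 304) (nat_lit 1355250032) (nat_lit 144) (nat_lit 5) (nat_lit 147) (nat_lit 5) (nat_lit 148) (nat_lit 4) (nat_lit 460) (nat_lit 378) (nat_lit 362))))))) (XT.nd (nat_lit 1170) (nat_lit 2052) (nat_lit 0) (XT.nd (nat_lit 546) (nat_lit 1292) (nat_lit 0) (XT.nd (nat_lit 234) (nat_lit 608) (nat_lit 0) (XT.nd (nat_lit 78) (nat_lit 532) (nat_lit 0) (XT.lf (nat_lit 0) (nat_lit 3169199962) (nat_lit 304) (nat_lit 5048784182) (nat_lit 76) (nat_lit 2423875824) (nat_lit 140) (nat_lit 5) (nat_lit 144) (nat_lit 5)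 (nat_lit 141) (nat_lit 4) (nat_lit 461) (nat_lit 378) (nat_lit 361)) (XT.nd (nat_lit 78) (nat_lit 304) (nat_lit 0) (XT.lf (nat_lit 0) (nat_lit 3846029709) (nat_lit 228) (nat_lit 3957202107) (nat_lit 304) (nat_lit 2996090006) (nat_lit 137) (nat_lit 5) (nat_lit 140) (nat_lit 5) (nat_lit 141) (nat_lit 4) (nat_lit 462) (nat_lit 378) (nat_lit 360)) (XT.lf (nat_lit 0) (nat_lit 1571571137) (nat_lit 304) (nat_lit 8937750533) (nat_lit 76) (nat_lit 452074516) (nat_lit 133) (nat_lit 5) (nat_lit 137) (nat_lit 5) (nat_lit 134) (nat_lit 4) (nat_lit 463) (nat_lit 378) (nat_lit 359)))) (XT.nd (nat_lit 156) (nat_lit 456) (nat_lit 0) (XT.nd (nat_lit 78) (nat_lit 0) (nat_lit 0) (XT.lf (nat_lit 0) (nat_lit 70922866) (nat_lit 152) (nat_lit 6169354539) (nat_lit 228) (nat_lit 4886441783) (nat_lit 131) (nat_lit 5) (nat_lit 133) (nat_lit 5) (nat_lit 134) (nat_lit 4) (nat_lit 464) (nat_lit 378) (nat_lit 358)) (XT.lf (nat_lit 0) (nat_lit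 9387391661) (nat_lit 152) (nat_lit 1666489064) (nat_lit 228) (nat_lit 242979327) (nat_lit 131) (nat_lit 5) (nat_lit 133) (nat_lit 5) (nat_lit 134) (nat_lit 4) (nat_lit 465) (nat_lit 378) (nat_lit 357))) (XT.nd (nat_lit 78) (nat_lit 152) (nat_lit 0) (XT.lf (nat_lit 0) (nat_lit 4468390121) (nat_lit 304) (nat_lit 4030018035) (nat_lit 76) (nat_lit 2971875153) (nat_lit 127) (nat_lit 5) (nat_lit 131) (nat_lit 5) (nat_lit 128) (nat_lit 4) (nat_lit 466) (nat_lit 378) (nat_lit 356)) (XT.lf (nat_lit 0) (nat_lit 5404038463) (nat_lit 152) (nat_lit 3916853881) (nat_lit 228) (nat_lit 2327807458) (nat_lit 125) (nat_lit 5) (nat_lit 127) (nat_lit 5) (nat_lit 128) (nat_lit 4) (nat_lit 467) (nat_lit 378) (nat_lit 355))))) (XT.nd (nat_lit 312) (nat_lit 532) (nat_lit 0) (XT.nd (nat_lit 156) (nat_lit 304) (nat_lit 0) (XT.nd (nat_lit 78) (nat_lit 152) (nat_lit 0) (XT.lf (nat_lit 0) (nat_lit 2435570260) (nat_lit 304) (nat_lit 8572068365)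 (nat_lit 76) (nat_lit 824188215) (nat_lit 121) (nat_lit 5) (nat_lit 125) (nat_lit 5) (nat_lit 122) (nat_lit 4) (nat_lit 468) (nat_lit 378) (nat_lit 354)) (XT.lf (nat_lit 0) (nat_lit 970922240) (nat_lit 152) (nat_lit 6353400813) (nat_lit 228) (nat_lit 4694558118) (nat_lit 119) (nat_lit 5) (nat_lit 121) (nat_lit 5) (nat_lit 122) (nat_lit 4) (nat_lit 469) (nat_lit 378) (nat_lit 353))) (XT.nd (nat_lit 78) (nat_lit 228) (nat_lit 0) (XT.lf (nat_lit 0) (nat_lit 150401584) (nat_lit 228) (nat_lit 1379871718) (nat_lit 76) (nat_lit 10681080599) (nat_lit 118) (nat_lit 5) (nat_lit 121) (nat_lit 5) (nat_lit 119) (nat_lit 5) (nat_lit 470) (nat_lit 378) (nat_lit 352)) (XT.lf (nat_lit 0) (nat_lit 5082442114) (nat_lit 304) (nat_lit 3883443747) (nat_lit 76) (nat_lit 3441240378) (nat_lit 115) (nat_lit 5) (nat_lit 119) (nat_lit 5) (nat_lit 116) (nat_lit 4) (nat_lit 471) (nat_lit 378) (nat_lit 351)))) (XT.nd (nat_lit 156) (nat_lit 152)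 (nat_lit 0) (XT.nd (nat_lit 78) (nat_lit 228) (nat_lit 0) (XT.lf (nat_lit 0) (nat_lit 6107395812) (nat_lit 152) (nat_lit 4063475310) (nat_lit 228) (nat_lit 2437650224) (nat_lit 113) (nat_lit 5) (nat_lit 115) (nat_lit 5) (nat_lit 116) (nat_lit 4) (nat_lit 472) (nat_lit 378) (nat_lit 350)) (XT.lf (nat_lit 0) (nat_lit 2549776076) (nat_lit 228) (nat_lit 9259177558) (nat_lit 76) (nat_lit 1006125166) (nat_lit 110) (nat_lit 5) (nat_lit 113) (nat_lit 5) (nat_lit 111) (nat_lit 4) (nat_lit 473) (nat_lit 378) (nat_lit 349))) (XT.nd (nat_lit 78) (nat_lit 0) (nat_lit 0) (XT.lf (nat_lit 0) (nat_lit 831907833) (nat_lit 152) (nat_lit 6841522249) (nat_lit 228) (nat_lit 5352613074) (nat_lit 108) (nat_lit 5) (nat_lit 110) (nat_lit 5) (nat_lit 111) (nat_lit 4) (nat_lit 474) (nat_lit 378) (nat_lit 348)) (XT.lf (nat_lit 0) (nat_lit 11275565510) (nat_lit 152) (nat_lit 1690752634) (nat_lit 228) (nat_lit 276554714) (nat_lit 108) (nat_lit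 5) (nat_lit 110) (nat_lit 5) (nat_lit 111) (nat_lit 4) (nat_lit 475) (nat_lit 378) (nat_lit 347)))))) (XT.nd (nat_lit 624) (nat_lit 912) (nat_lit 0) (XT.nd (nat_lit 312) (nat_lit 532) (nat_lit 0) (XT.nd (nat_lit 156) (nat_lit 228) (nat_lit 0) (XT.nd (nat_lit 78) (nat_lit 152) (nat_lit 0) (XT.lf (nat_lit 0) (nat_lit 4896316477) (nat_lit 228) (nat_lit 4951935013) (nat_lit 76) (nat_lit 3615295250) (nat_lit 105) (nat_lit 5) (nat_lit 108) (nat_lit 5) (nat_lit 106) (nat_lit 4) (nat_lit 476) (nat_lit 378) (nat_lit 346)) (XT.lf (nat_lit 0) (nat_lit 5606968133) (nat_lit 152) (nat_lit 4626429097) (nat_lit 228) (nat_lit 3456925973) (nat_lit 103) (nat_lit 5) (nat_lit 105) (nat_lit 5) (nat_lit 106) (nat_lit 4) (nat_lit 477) (nat_lit 378) (nat_lit 345))) (XT.nd (nat_lit 78) (nat_lit 0) (nat_lit 0) (XT.lf (nat_lit 0) (nat_lit 1778090394) (nat_lit 228) (nat_lit 11375115837) (nat_lit 76) (nat_lit 769977832) (nat_lit 100) (nat_lit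 5) (nat_lit 103) (nat_lit 5) (nat_lit 101) (nat_lit 4) (nat_lit 478) (nat_lit 378) (nat_lit 344)) (XT.lf (nat_lit 0) (nat_lit 7153266266) (nat_lit 228) (nat_lit 715512093) (nat_lit 76) (nat_lit 6291649688) (nat_lit 100) (nat_lit 5) (nat_lit 103) (nat_lit 5) (nat_lit 101) (nat_lit 4) (nat_lit 479) (nat_lit 378) (nat_lit 343)))) (XT.nd (nat_lit 156) (nat_lit 152) (nat_lit 0) (XT.nd (nat_lit 78) (nat_lit 228) (nat_lit 0) (XT.lf (nat_lit 0) (nat_lit 10331282428) (nat_lit 152) (nat_lit 2384278367) (nat_lit 228) (nat_lit 1688454398) (nat_lit 98) (nat_lit 5) (nat_lit 100) (nat_lit 5) (nat_lit 101) (nat_lit 4) (nat_lit 480) (nat_lit 378) (nat_lit 342)) (XT.lf (nat_lit 0) (nat_lit 3749384552) (nat_lit 228) (nat_lit 7649762215) (nat_lit 76) (nat_lit 3253666235) (nat_lit 95) (nat_lit 5) (nat_lit 98) (nat_lit 5) (nat_lit 96) (nat_lit 4) (nat_lit 481) (nat_lit 378) (nat_lit 341))) (XT.nd (nat_lit 78) (nat_lit 0) (nat_lit 0)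 (XT.lf (nat_lit 0) (nat_lit 3479297813) (nat_lit 152) (nat_lit 5862678697) (nat_lit 228) (nat_lit 5565831690) (nat_lit 93) (nat_lit 5) (nat_lit 95) (nat_lit 5) (nat_lit 96) (nat_lit 4) (nat_lit 482) (nat_lit 378) (nat_lit 340)) (XT.lf (nat_lit 0) (nat_lit 14965743591) (nat_lit 152) (nat_lit 141664454) (nat_lit 228) (nat_lit 62894905) (nat_lit 93) (nat_lit 5) (nat_lit 95) (nat_lit 5) (nat_lit 96) (nat_lit 4) (nat_lit 483) (nat_lit 378) (nat_lit 339))))) (XT.nd (nat_lit 312) (nat_lit 380) (nat_lit 0) (XT.nd (nat_lit 156) (nat_lit 228) (nat_lit 0) (XT.nd (nat_lit 78) (nat_lit 76) (nat_lit 0) (XT.lf (nat_lit 0) (nat_lit 5590821205) (nat_lit 228) (nat_lit 4100481027) (nat_lit 76) (nat_lit 5744903350) (nat_lit 90) (nat_lit 5) (nat_lit 93) (nat_lit 5) (nat_lit 91) (nat_lit 4) (nat_lit 484) (nat_lit 378) (nat_lit 338)) (XT.lf (nat_lit 0) (nat_lit 7530211448) (nat_lit 76) (nat_lit 3888011820) (nat_lit 152) (nat_lit 4291684606)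 (nat_lit 89) (nat_lit 5) (nat_lit 90) (nat_lit 5) (nat_lit 91) (nat_lit 4) (nat_lit 485) (nat_lit 378) (nat_lit 337))) (XT.nd (nat_lit 78) (nat_lit 0) (nat_lit 0) (XT.lf (nat_lit 0) (nat_lit 1426432827) (nat_lit 228) (nat_lit 12484847489) (nat_lit 76) (nat_lit 2079359742) (nat_lit 86) (nat_lit 5) (nat_lit 89) (nat_lit 5) (nat_lit 87) (nat_lit 4) (nat_lit 486) (nat_lit 378) (nat_lit 336)) (XT.lf (nat_lit 0) (nat_lit 7281549891) (nat_lit 228) (nat_lit 781012376) (nat_lit 76) (nat_lit 8214407041) (nat_lit 86) (nat_lit 5) (nat_lit 89) (nat_lit 5) (nat_lit 87) (nat_lit 4) (nat_lit 487) (nat_lit 378) (nat_lit 335)))) (XT.nd (nat_lit 156) (nat_lit 76) (nat_lit 0) (XT.nd (nat_lit 78) (nat_lit 228) (nat_lit 0) (XT.lf (nat_lit 0) (nat_lit 11368186397) (nat_lit 76) (nat_lit 1985259454) (nat_lit 152) (nat_lit 3217210085) (nat_lit 85) (nat_lit 5) (nat_lit 86) (nat_lit 5) (nat_lit 87) (nat_lit 4) (nat_lit 488) (nat_lit 378)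 (nat_lit 334)) (XT.lf (nat_lit 0) (nat_lit 2729785391) (nat_lit 228) (nat_lit 9906021724) (nat_lit 76) (nat_lit 4235094808) (nat_lit 82) (nat_lit 5) (nat_lit 85) (nat_lit 5) (nat_lit 83) (nat_lit 4) (nat_lit 489) (nat_lit 378) (nat_lit 333))) (XT.nd (nat_lit 78) (nat_lit 0) (nat_lit 0) (XT.lf (nat_lit 0) (nat_lit 2290085272) (nat_lit 76) (nat_lit 6527315049) (nat_lit 152) (nat_lit 8360994345) (nat_lit 81) (nat_lit 5) (nat_lit 82) (nat_lit 5) (nat_lit 83) (nat_lit 4) (nat_lit 490) (nat_lit 378) (nat_lit 332)) (XT.lf (nat_lit 0) (nat_lit 14928503526) (nat_lit 76) (nat_lit 192078255) (nat_lit 152) (nat_lit 2373543390) (nat_lit 81) (nat_lit 5) (nat_lit 82) (nat_lit 5) (nat_lit 83) (nat_lit 4) (nat_lit 491) (nat_lit 378) (nat_lit 331))))))))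
noncomputable def xc50 : XT := (XT.nd (nat_lit 2418) (nat_lit 1824) (nat_lit 0) (XT.nd (nat_lit 1170) (nat_lit 1064) (nat_lit 0) (XT.nd (nat_lit 546) (nat_lit 684) (nat_lit 0) (XT.nd (nat_lit 234) (nat_lit 532) (nat_lit 0) (XT.nd (nat_lit 78) (nat_lit 76) (nat_lit 0) (XT.lf (nat_lit 0) (nat_lit 3813071705) (nat_lit 228) (nat_lit 7714555328) (nat_lit 76) (nat_lit 6287800660) (nat_lit 78) (nat_lit 5) (nat_lit 81) (nat_lit 5) (nat_lit 79) (nat_lit 4) (nat_lit 492) (nat_lit 378) (nat_lit 330)) (XT.nd (nat_lit 78) (nat_lit 0) (nat_lit 0) (XT.lf (nat_lit 0) (nat_lit 5001873187) (nat_lit 76) (nat_lit 5146244065) (nat_lit 152) (nat_lit 7997231915) (nat_lit 77) (nat_lit 5) (nat_lit 78) (nat_lit 5) (nat_lit 79) (nat_lit 4) (nat_lit 493) (nat_lit 378) (nat_lit 329)) (XT.lf (nat_lit 0) (nat_lit 16700157112) (nat_lit 152) (nat_lit 363981662) (nat_lit 0) (nat_lit 1420222219) (nat_lit 77) (nat_lit 5) (nat_lit 79) (nat_lit 4)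 (nat_lit 77) (nat_lit 4) (nat_lit 494) (nat_lit 378) (nat_lit 328)))) (XT.nd (nat_lit 156) (nat_lit 228) (nat_lit 0) (XT.nd (nat_lit 78) (nat_lit 76) (nat_lit 0) (XT.lf (nat_lit 0) (nat_lit 4637465130) (nat_lit 228) (nat_lit 5997399296) (nat_lit 76) (nat_lit 8193979470) (nat_lit 74) (nat_lit 5) (nat_lit 77) (nat_lit 5) (nat_lit 75) (nat_lit 4) (nat_lit 495) (nat_lit 378) (nat_lit 327)) (XT.lf (nat_lit 0) (nat_lit 7249353018) (nat_lit 76) (nat_lit 3976506345) (nat_lit 152) (nat_lit 7956974797) (nat_lit 73) (nat_lit 5) (nat_lit 74) (nat_lit 5) (nat_lit 75) (nat_lit 4) (nat_lit 496) (nat_lit 378) (nat_lit 326))) (XT.nd (nat_lit 78) (nat_lit 76) (nat_lit 0) (XT.lf (nat_lit 0) (nat_lit 1347620722) (nat_lit 152) (nat_lit 16702786276) (nat_lit 152) (nat_lit 1495882971) (nat_lit 71) (nat_lit 4) (nat_lit 73) (nat_lit 5) (nat_lit 73) (nat_lit 4) (nat_lit 497) (nat_lit 378) (nat_lit 325)) (XT.lf (nat_lit 0) (nat_lit 5156195055)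 (nat_lit 228) (nat_lit 4856679931) (nat_lit 76) (nat_lit 9903352798) (nat_lit 70) (nat_lit 5) (nat_lit 73) (nat_lit 5) (nat_lit 71) (nat_lit 4) (nat_lit 498) (nat_lit 378) (nat_lit 324))))) (XT.nd (nat_lit 312) (nat_lit 304) (nat_lit 0) (XT.nd (nat_lit 156) (nat_lit 152) (nat_lit 0) (XT.nd (nat_lit 78) (nat_lit 152) (nat_lit 0) (XT.lf (nat_lit 0) (nat_lit 8927223146) (nat_lit 76) (nat_lit 3074958211) (nat_lit 152) (nat_lit 8293906512) (nat_lit 69) (nat_lit 5) (nat_lit 70) (nat_lit 5) (nat_lit 71) (nat_lit 4) (nat_lit 499) (nat_lit 378) (nat_lit 323)) (XT.lf (nat_lit 0) (nat_lit 2428222803) (nat_lit 152) (nat_lit 16676057058) (nat_lit 152) (nat_lit 1581542705) (nat_lit 67) (nat_lit 4) (nat_lit 69) (nat_lit 5) (nat_lit 69) (nat_lit 4) (nat_lit 500) (nat_lit 378) (nat_lit 322))) (XT.nd (nat_lit 78) (nat_lit 76) (nat_lit 0) (XT.lf (nat_lit 0) (nat_lit 5313317293) (nat_lit 228) (nat_lit 4412302259) (nat_lit 76) (nat_lit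 11357537536) (nat_lit 66) (nat_lit 5) (nat_lit 69) (nat_lit 5) (nat_lit 67) (nat_lit 4) (nat_lit 501) (nat_lit 378) (nat_lit 321)) (XT.lf (nat_lit 0) (nat_lit 9911608944) (nat_lit 76) (nat_lit 2507476464) (nat_lit 152) (nat_lit 9071781700) (nat_lit 65) (nat_lit 5) (nat_lit 66) (nat_lit 5) (nat_lit 67) (nat_lit 4) (nat_lit 502) (nat_lit 378) (nat_lit 320)))) (XT.nd (nat_lit 156) (nat_lit 152) (nat_lit 0) (XT.nd (nat_lit 78) (nat_lit 76) (nat_lit 0) (XT.lf (nat_lit 0) (nat_lit 2737207284) (nat_lit 76) (nat_lit 17060180715) (nat_lit 76) (nat_lit 2111640287) (nat_lit 64) (nat_lit 4) (nat_lit 65) (nat_lit 5) (nat_lit 65) (nat_lit 4) (nat_lit 503) (nat_lit 378) (nat_lit 319)) (XT.lf (nat_lit 0) (nat_lit 5042275686) (nat_lit 152) (nat_lit 4804965297) (nat_lit 76) (nat_lit 12488525857) (nat_lit 63) (nat_lit 5) (nat_lit 65) (nat_lit 5) (nat_lit 64) (nat_lit 4) (nat_lit 504) (nat_lit 378) (nat_lit 318))) (XT.nd (nat_lit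 78) (nat_lit 76) (nat_lit 0) (XT.lf (nat_lit 0) (nat_lit 10056904243) (nat_lit 76) (nat_lit 2350606576) (nat_lit 152) (nat_lit 10365995846) (nat_lit 62) (nat_lit 5) (nat_lit 63) (nat_lit 5) (nat_lit 64) (nat_lit 4) (nat_lit 505) (nat_lit 378) (nat_lit 317)) (XT.lf (nat_lit 0) (nat_lit 2117989572) (nat_lit 76) (nat_lit 17939276385) (nat_lit 76) (nat_lit 3165206460) (nat_lit 61) (nat_lit 4) (nat_lit 62) (nat_lit 5) (nat_lit 62) (nat_lit 4) (nat_lit 506) (nat_lit 378) (nat_lit 316)))))) (XT.nd (nat_lit 624) (nat_lit 456) (nat_lit 0) (XT.nd (nat_lit 312) (nat_lit 304) (nat_lit 0) (XT.nd (nat_lit 156) (nat_lit 152) (nat_lit 0) (XT.nd (nat_lit 78) (nat_lit 76) (nat_lit 0) (XT.lf (nat_lit 0) (nat_lit 4264222538) (nat_lit 152) (nat_lit 6199656227) (nat_lit 76) (nat_lit 13216935488) (nat_lit 60) (nat_lit 5) (nat_lit 62) (nat_lit 5) (nat_lit 61) (nat_lit 4) (nat_lit 507) (nat_lit 378) (nat_lit 315)) (XT.lf (nat_lit 0) (nat_lit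 9192109929) (nat_lit 76) (nat_lit 2693460926) (nat_lit 152) (nat_lit 12265416277) (nat_lit 59) (nat_lit 5) (nat_lit 60) (nat_lit 5) (nat_lit 61) (nat_lit 4) (nat_lit 508) (nat_lit 378) (nat_lit 314))) (XT.nd (nat_lit 78) (nat_lit 76) (nat_lit 0) (XT.lf (nat_lit 0) (nat_lit 386884799) (nat_lit 76) (nat_lit 19411047236) (nat_lit 76) (nat_lit 4835462541) (nat_lit 58) (nat_lit 4) (nat_lit 59) (nat_lit 5) (nat_lit 59) (nat_lit 4) (nat_lit 509) (nat_lit 378) (nat_lit 313)) (XT.lf (nat_lit 0) (nat_lit 2886060203) (nat_lit 152) (nat_lit 8789701153) (nat_lit 76) (nat_lit 13449991500) (nat_lit 57) (nat_lit 5) (nat_lit 59) (nat_lit 5) (nat_lit 58) (nat_lit 4) (nat_lit 510) (nat_lit 378) (nat_lit 312)))) (XT.nd (nat_lit 156) (nat_lit 228) (nat_lit 0) (XT.nd (nat_lit 78) (nat_lit 0) (nat_lit 0) (XT.lf (nat_lit 0) (nat_lit 7116588126) (nat_lit 76) (nat_lit 3639909031) (nat_lit 152) (nat_lit 14874515258) (nat_lit 56) (nat_lit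 5) (nat_lit 57) (nat_lit 5) (nat_lit 58) (nat_lit 4) (nat_lit 511) (nat_lit 378) (nat_lit 311)) (XT.lf (nat_lit 0) (nat_lit 18943387736) (nat_lit 152) (nat_lit 2619273386) (nat_lit 0) (nat_lit 4586358915) (nat_lit 56) (nat_lit 5) (nat_lit 58) (nat_lit 4) (nat_lit 56) (nat_lit 4) (nat_lit 512) (nat_lit 378) (nat_lit 310))) (XT.nd (nat_lit 78) (nat_lit 76) (nat_lit 0) (XT.lf (nat_lit 0) (nat_lit 798160043) (nat_lit 152) (nat_lit 12801462377) (nat_lit 76) (nat_lit 13079194829) (nat_lit 54) (nat_lit 5) (nat_lit 56) (nat_lit 5) (nat_lit 55) (nat_lit 4) (nat_lit 513) (nat_lit 378) (nat_lit 309)) (XT.lf (nat_lit 0) (nat_lit 3595137534) (nat_lit 76) (nat_lit 5311108192) (nat_lit 152) (nat_lit 18315852646) (nat_lit 53) (nat_lit 5) (nat_lit 54) (nat_lit 5) (nat_lit 55) (nat_lit 4) (nat_lit 514) (nat_lit 378) (nat_lit 308))))) (XT.nd (nat_lit 312) (nat_lit 228) (nat_lit 0) (XT.nd (nat_lit 156) (nat_lit 152) (nat_lit 0) (XT.nd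 (nat_lit 78) (nat_lit 76) (nat_lit 0) (XT.lf (nat_lit 0) (nat_lit 17366942475) (nat_lit 152) (nat_lit 7166382048) (nat_lit 0) (nat_lit 3245072784) (nat_lit 53) (nat_lit 5) (nat_lit 55) (nat_lit 4) (nat_lit 53) (nat_lit 4) (nat_lit 515) (nat_lit 378) (nat_lit 307)) (XT.lf (nat_lit 0) (nat_lit 9827842067) (nat_lit 76) (nat_lit 16350002725) (nat_lit 76) (nat_lit 2170649303) (nat_lit 52) (nat_lit 4) (nat_lit 53) (nat_lit 5) (nat_lit 53) (nat_lit 4) (nat_lit 516) (nat_lit 378) (nat_lit 306))) (XT.nd (nat_lit 78) (nat_lit 76) (nat_lit 0) (XT.lf (nat_lit 0) (nat_lit 6216549903) (nat_lit 152) (nat_lit 1615566565) (nat_lit 76) (nat_lit 21101082590) (nat_lit 51) (nat_lit 5) (nat_lit 53) (nat_lit 5) (nat_lit 52) (nat_lit 4) (nat_lit 517) (nat_lit 378) (nat_lit 305)) (XT.lf (nat_lit 0) (nat_lit 14926614127) (nat_lit 152) (nat_lit 13551278477) (nat_lit 0) (nat_lit 1053461895) (nat_lit 50) (nat_lit 5) (nat_lit 52) (nat_lit 4)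 (nat_lit 50) (nat_lit 4) (nat_lit 518) (nat_lit 378) (nat_lit 304)))) (XT.nd (nat_lit 156) (nat_lit 76) (nat_lit 0) (XT.nd (nat_lit 78) (nat_lit 76) (nat_lit 0) (XT.lf (nat_lit 0) (nat_lit 3891403012) (nat_lit 76) (nat_lit 20088903976) (nat_lit 76) (nat_lit 6164678193) (nat_lit 49) (nat_lit 4) (nat_lit 50) (nat_lit 5) (nat_lit 50) (nat_lit 4) (nat_lit 519) (nat_lit 378) (nat_lit 303)) (XT.lf (nat_lit 0) (nat_lit 2568368655) (nat_lit 152) (nat_lit 8760023384) (nat_lit 76) (nat_lit 19445230167) (nat_lit 48) (nat_lit 5) (nat_lit 50) (nat_lit 5) (nat_lit 49) (nat_lit 4) (nat_lit 520) (nat_lit 378) (nat_lit 302))) (XT.nd (nat_lit 78) (nat_lit 0) (nat_lit 0) (XT.lf (nat_lit 0) (nat_lit 9284701643) (nat_lit 76) (nat_lit 2196409251) (nat_lit 152) (nat_lit 19936928462) (nat_lit 47) (nat_lit 5) (nat_lit 48) (nat_lit 5) (nat_lit 49) (nat_lit 4) (nat_lit 521) (nat_lit 378) (nat_lit 301)) (XT.lf (nat_lit 0) (nat_lit 20772285964)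 (nat_lit 152) (nat_lit 4192811162) (nat_lit 0) (nat_lit 7113360713) (nat_lit 47) (nat_lit 5) (nat_lit 49) (nat_lit 4) (nat_lit 47) (nat_lit 4) (nat_lit 522) (nat_lit 378) (nat_lit 300))))))) (XT.nd (nat_lit 1170) (nat_lit 912) (nat_lit 0) (XT.nd (nat_lit 546) (nat_lit 456) (nat_lit 0) (XT.nd (nat_lit 234) (nat_lit 228) (nat_lit 0) (XT.nd (nat_lit 78) (nat_lit 152) (nat_lit 0) (XT.lf (nat_lit 0) (nat_lit 14455151831) (nat_lit 76) (nat_lit 16001542092) (nat_lit 76) (nat_lit 2298560348) (nat_lit 46) (nat_lit 4) (nat_lit 47) (nat_lit 5) (nat_lit 47) (nat_lit 4) (nat_lit 523) (nat_lit 378) (nat_lit 299)) (XT.nd (nat_lit 78) (nat_lit 0) (nat_lit 0) (XT.lf (nat_lit 0) (nat_lit 141540568) (nat_lit 76) (nat_lit 6699491749) (nat_lit 152) (nat_lit 26609371599) (nat_lit 44) (nat_lit 5) (nat_lit 45) (nat_lit 5) (nat_lit 46) (nat_lit 4) (nat_lit 524) (nat_lit 378) (nat_lit 298)) (XT.lf (nat_lit 0) (nat_lit 16376812760) (nat_lit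 152) (nat_lit 14792765297) (nat_lit 0) (nat_lit 2991101587) (nat_lit 44) (nat_lit 5) (nat_lit 46) (nat_lit 4) (nat_lit 44) (nat_lit 4) (nat_lit 525) (nat_lit 378) (nat_lit 297)))) (XT.nd (nat_lit 156) (nat_lit 76) (nat_lit 0) (XT.nd (nat_lit 78) (nat_lit 76) (nat_lit 0) (XT.lf (nat_lit 0) (nat_lit 4206034161) (nat_lit 76) (nat_lit 22054612582) (nat_lit 76) (nat_lit 8629757785) (nat_lit 43) (nat_lit 4) (nat_lit 44) (nat_lit 5) (nat_lit 44) (nat_lit 4) (nat_lit 526) (nat_lit 378) (nat_lit 296)) (XT.lf (nat_lit 0) (nat_lit 889480820) (nat_lit 152) (nat_lit 11657212250) (nat_lit 76) (nat_lit 23091915039) (nat_lit 42) (nat_lit 5) (nat_lit 44) (nat_lit 5) (nat_lit 43) (nat_lit 4) (nat_lit 527) (nat_lit 378) (nat_lit 295))) (XT.nd (nat_lit 78) (nat_lit 0) (nat_lit 0) (XT.lf (nat_lit 0) (nat_lit 7923973804) (nat_lit 76) (nat_lit 2629587151) (nat_lit 152) (nat_lit 25852152394) (nat_lit 41) (nat_lit 5) (nat_lit 42) (nat_lit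 5) (nat_lit 43) (nat_lit 4) (nat_lit 528) (nat_lit 378) (nat_lit 294)) (XT.lf (nat_lit 0) (nat_lit 20655942388) (nat_lit 152) (nat_lit 9020832649) (nat_lit 0) (nat_lit 7514605596) (nat_lit 41) (nat_lit 5) (nat_lit 43) (nat_lit 4) (nat_lit 41) (nat_lit 4) (nat_lit 529) (nat_lit 378) (nat_lit 293))))) (XT.nd (nat_lit 312) (nat_lit 228) (nat_lit 0) (XT.nd (nat_lit 156) (nat_lit 76) (nat_lit 0) (XT.nd (nat_lit 78) (nat_lit 76) (nat_lit 0) (XT.lf (nat_lit 0) (nat_lit 11131576530) (nat_lit 76) (nat_lit 20020708691) (nat_lit 76) (nat_lit 6845606265) (nat_lit 40) (nat_lit 4) (nat_lit 41) (nat_lit 5) (nat_lit 41) (nat_lit 4) (nat_lit 530) (nat_lit 378) (nat_lit 292)) (XT.lf (nat_lit 0) (nat_lit 3123612155) (nat_lit 152) (nat_lit 6866951918) (nat_lit 76) (nat_lit 28835633830) (nat_lit 39) (nat_lit 5) (nat_lit 41) (nat_lit 5) (nat_lit 40) (nat_lit 4) (nat_lit 531) (nat_lit 378) (nat_lit 291))) (XT.nd (nat_lit 78) (nat_lit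 0) (nat_lit 0) (XT.lf (nat_lit 0) (nat_lit 13351462716) (nat_lit 152) (nat_lit 25825569859) (nat_lit 0) (nat_lit 497373451) (nat_lit 38) (nat_lit 5) (nat_lit 40) (nat_lit 4) (nat_lit 38) (nat_lit 4) (nat_lit 532) (nat_lit 378) (nat_lit 290)) (XT.lf (nat_lit 0) (nat_lit 24014228823) (nat_lit 152) (nat_lit 5399850161) (nat_lit 0) (nat_lit 11130139230) (nat_lit 38) (nat_lit 5) (nat_lit 40) (nat_lit 4) (nat_lit 38) (nat_lit 4) (nat_lit 533) (nat_lit 378) (nat_lit 289)))) (XT.nd (nat_lit 156) (nat_lit 76) (nat_lit 0) (XT.nd (nat_lit 78) (nat_lit 76) (nat_lit 0) (XT.lf (nat_lit 0) (nat_lit 15869545458) (nat_lit 76) (nat_lit 19240204739) (nat_lit 76) (nat_lit 6326988614) (nat_lit 37) (nat_lit 4) (nat_lit 38) (nat_lit 5) (nat_lit 38) (nat_lit 4) (nat_lit 534) (nat_lit 378) (nat_lit 288)) (XT.lf (nat_lit 0) (nat_lit 4115903438) (nat_lit 152) (nat_lit 4586210331) (nat_lit 76) (nat_lit 33652253159) (nat_lit 36) (nat_lit 5)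 (nat_lit 38) (nat_lit 5) (nat_lit 37) (nat_lit 4) (nat_lit 535) (nat_lit 378) (nat_lit 287))) (XT.nd (nat_lit 78) (nat_lit 0) (nat_lit 0) (XT.lf (nat_lit 0) (nat_lit 14894533974) (nat_lit 152) (nat_lit 26095300781) (nat_lit 0) (nat_lit 2303321487) (nat_lit 35) (nat_lit 5) (nat_lit 37) (nat_lit 4) (nat_lit 35) (nat_lit 4) (nat_lit 536) (nat_lit 378) (nat_lit 286)) (XT.lf (nat_lit 0) (nat_lit 26090981366) (nat_lit 152) (nat_lit 4692403990) (nat_lit 0) (nat_lit 13473890332) (nat_lit 35) (nat_lit 5) (nat_lit 37) (nat_lit 4) (nat_lit 35) (nat_lit 4) (nat_lit 537) (nat_lit 378) (nat_lit 285)))))) (XT.nd (nat_lit 624) (nat_lit 456) (nat_lit 0) (XT.nd (nat_lit 312) (nat_lit 228) (nat_lit 0) (XT.nd (nat_lit 156) (nat_lit 76) (nat_lit 0) (XT.nd (nat_lit 78) (nat_lit 76) (nat_lit 0) (XT.lf (nat_lit 0) (nat_lit 17622158205) (nat_lit 76) (nat_lit 20133207612) (nat_lit 76) (nat_lit 7490991776) (nat_lit 34) (nat_lit 4) (nat_lit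 35) (nat_lit 5) (nat_lit 35) (nat_lit 4) (nat_lit 538) (nat_lit 378) (nat_lit 284)) (XT.lf (nat_lit 0) (nat_lit 3446699499) (nat_lit 152) (nat_lit 5669808864) (nat_lit 76) (nat_lit 37147277631) (nat_lit 33) (nat_lit 5) (nat_lit 35) (nat_lit 5) (nat_lit 34) (nat_lit 4) (nat_lit 539) (nat_lit 378) (nat_lit 283))) (XT.nd (nat_lit 78) (nat_lit 0) (nat_lit 0) (XT.lf (nat_lit 0) (nat_lit 14713848706) (nat_lit 152) (nat_lit 30197929544) (nat_lit 0) (nat_lit 2393177458) (nat_lit 32) (nat_lit 5) (nat_lit 34) (nat_lit 4) (nat_lit 32) (nat_lit 4) (nat_lit 540) (nat_lit 378) (nat_lit 282)) (XT.lf (nat_lit 0) (nat_lit 26430873678) (nat_lit 152) (nat_lit 7855251791) (nat_lit 0) (nat_lit 14087879369) (nat_lit 32) (nat_lit 5) (nat_lit 34) (nat_lit 4) (nat_lit 32) (nat_lit 4) (nat_lit 541) (nat_lit 378) (nat_lit 281)))) (XT.nd (nat_lit 156) (nat_lit 76) (nat_lit 0) (XT.nd (nat_lit 78) (nat_lit 76) (nat_lit 0) (XT.lf (nat_lit 0)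 (nat_lit 15387910597) (nat_lit 76) (nat_lit 23224249829) (nat_lit 76) (nat_lit 10859582645) (nat_lit 31) (nat_lit 4) (nat_lit 32) (nat_lit 5) (nat_lit 32) (nat_lit 4) (nat_lit 542) (nat_lit 378) (nat_lit 280)) (XT.lf (nat_lit 0) (nat_lit 590567110) (nat_lit 152) (nat_lit 11186857575) (nat_lit 76) (nat_lit 38823479834) (nat_lit 30) (nat_lit 5) (nat_lit 32) (nat_lit 5) (nat_lit 31) (nat_lit 4) (nat_lit 543) (nat_lit 378) (nat_lit 279))) (XT.nd (nat_lit 78) (nat_lit 0) (nat_lit 0) (XT.lf (nat_lit 0) (nat_lit 12253690258) (nat_lit 152) (nat_lit 39295496513) (nat_lit 0) (nat_lit 208896496) (nat_lit 29) (nat_lit 5) (nat_lit 31) (nat_lit 4) (nat_lit 29) (nat_lit 4) (nat_lit 544) (nat_lit 378) (nat_lit 278)) (XT.lf (nat_lit 0) (nat_lit 24463292097) (nat_lit 152) (nat_lit 16081545604) (nat_lit 0) (nat_lit 12399242266) (nat_lit 29) (nat_lit 5) (nat_lit 31) (nat_lit 4) (nat_lit 29) (nat_lit 4) (nat_lit 545) (nat_lit 378)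 (nat_lit 277))))) (XT.nd (nat_lit 312) (nat_lit 228) (nat_lit 0) (XT.nd (nat_lit 156) (nat_lit 152) (nat_lit 0) (XT.nd (nat_lit 78) (nat_lit 0) (nat_lit 0) (XT.lf (nat_lit 0) (nat_lit 7917235494) (nat_lit 76) (nat_lit 29164938251) (nat_lit 76) (nat_lit 17082193208) (nat_lit 28) (nat_lit 4) (nat_lit 29) (nat_lit 5) (nat_lit 29) (nat_lit 4) (nat_lit 546) (nat_lit 378) (nat_lit 276)) (XT.lf (nat_lit 0) (nat_lit 32900201692) (nat_lit 76) (nat_lit 17309034153) (nat_lit 76) (nat_lit 5208138418) (nat_lit 28) (nat_lit 4) (nat_lit 29) (nat_lit 5) (nat_lit 29) (nat_lit 4) (nat_lit 547) (nat_lit 378) (nat_lit 275))) (XT.nd (nat_lit 78) (nat_lit 0) (nat_lit 0) (XT.lf (nat_lit 0) (nat_lit 1828700378) (nat_lit 76) (nat_lit 5041850431) (nat_lit 152) (nat_lit 49835832876) (nat_lit 26) (nat_lit 5) (nat_lit 27) (nat_lit 5) (nat_lit 28) (nat_lit 4) (nat_lit 548) (nat_lit 378) (nat_lit 274)) (XT.lf (nat_lit 0) (nat_lit 19477426521)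 (nat_lit 152) (nat_lit 30851710056) (nat_lit 0) (nat_lit 7695264837) (nat_lit 26) (nat_lit 5) (nat_lit 28) (nat_lit 4) (nat_lit 26) (nat_lit 4) (nat_lit 549) (nat_lit 378) (nat_lit 273)))) (XT.nd (nat_lit 156) (nat_lit 152) (nat_lit 0) (XT.nd (nat_lit 78) (nat_lit 76) (nat_lit 0) (XT.lf (nat_lit 0) (nat_lit 32481245043) (nat_lit 152) (nat_lit 6217195949) (nat_lit 0) (nat_lit 20682956704) (nat_lit 26) (nat_lit 5) (nat_lit 28) (nat_lit 4) (nat_lit 26) (nat_lit 4) (nat_lit 550) (nat_lit 378) (nat_lit 272)) (XT.lf (nat_lit 0) (nat_lit 19475894518) (nat_lit 76) (nat_lit 26556223279) (nat_lit 76) (nat_lit 14742277994) (nat_lit 25) (nat_lit 4) (nat_lit 26) (nat_lit 5) (nat_lit 26) (nat_lit 4) (nat_lit 551) (nat_lit 378) (nat_lit 271))) (XT.nd (nat_lit 78) (nat_lit 152) (nat_lit 0) (XT.lf (nat_lit 0) (nat_lit 46007313384) (nat_lit 76) (nat_lit 14015016188) (nat_lit 76) (nat_lit 2185869985) (nat_lit 25) (nat_lit 4) (nat_lit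 26) (nat_lit 5) (nat_lit 26) (nat_lit 4) (nat_lit 552) (nat_lit 378) (nat_lit 270)) (XT.lf (nat_lit 0) (nat_lit 9676419557) (nat_lit 76) (nat_lit 924725237) (nat_lit 152) (nat_lit 53078864526) (nat_lit 23) (nat_lit 5) (nat_lit 24) (nat_lit 5) (nat_lit 25) (nat_lit 4) (nat_lit 553) (nat_lit 378) (nat_lit 269))))))))
noncomputable def xc51 : XT := (XT.nd (nat_lit 56082) (nat_lit 0) (nat_lit 3192) (XT.nd (nat_lit 54834) (nat_lit 0) (nat_lit 6992) (XT.nd (nat_lit 54210) (nat_lit 0) (nat_lit 10336) (XT.nd (nat_lit 53898) (nat_lit 0) (nat_lit 12616) (XT.nd (nat_lit 53742) (nat_lit 0) (nat_lit 13832) (XT.lf (nat_lit 0) (nat_lit 23984404036) (nat_lit 152) (nat_lit 28731666385) (nat_lit 0) (nat_lit 12471556754) (nat_lit 23) (nat_lit 5) (nat_lit 25) (nat_lit 4) (nat_lit 23) (nat_lit 4) (nat_lit 554) (nat_lit 378) (nat_lit 268)) (XT.nd (nat_lit 78) (nat_lit 456) (nat_lit 0) (XT.lf (nat_lit 0) (nat_lit 1443344476) (nat_lit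 456) (nat_lit 1361813058) (nat_lit 456) (nat_lit 1361813058) (nat_lit 211) (nat_lit 4) (nat_lit 217) (nat_lit 5) (nat_lit 217) (nat_lit 4) (nat_lit 442) (nat_lit 379) (nat_lit 379)) (XT.lf (nat_lit 0) (nat_lit 1376934960) (nat_lit 456) (nat_lit 6746114914) (nat_lit 0) (nat_lit 304353725) (nat_lit 205) (nat_lit 5) (nat_lit 211) (nat_lit 4) (nat_lit 205) (nat_lit 4) (nat_lit 443) (nat_lit 379) (nat_lit 378)))) (XT.nd (nat_lit 156) (nat_lit 760) (nat_lit 0) (XT.nd (nat_lit 78) (nat_lit 76) (nat_lit 0) (XT.lf (nat_lit 0) (nat_lit 422027736) (nat_lit 380) (nat_lit 5107623319) (nat_lit 380) (nat_lit 2993701078) (nat_lit 200) (nat_lit 4) (nat_lit 205) (nat_lit 5) (nat_lit 205) (nat_lit 4) (nat_lit 444) (nat_lit 379) (nat_lit 377)) (XT.lf (nat_lit 0) (nat_lit 1128355453) (nat_lit 456) (nat_lit 834371356) (nat_lit 76) (nat_lit 6660116716) (nat_lit 199) (nat_lit 5) (nat_lit 205) (nat_lit 5) (nat_lit 200) (nat_lit 4) (nat_lit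 445) (nat_lit 379) (nat_lit 376))) (XT.nd (nat_lit 78) (nat_lit 456) (nat_lit 0) (XT.lf (nat_lit 0) (nat_lit 5291095859) (nat_lit 380) (nat_lit 2129819948) (nat_lit 0) (nat_lit 1304205861) (nat_lit 195) (nat_lit 5) (nat_lit 200) (nat_lit 4) (nat_lit 195) (nat_lit 4) (nat_lit 446) (nat_lit 379) (nat_lit 375)) (XT.lf (nat_lit 0) (nat_lit 715109657) (nat_lit 456) (nat_lit 3460435388) (nat_lit 76) (nat_lit 4655270124) (nat_lit 189) (nat_lit 5) (nat_lit 195) (nat_lit 5) (nat_lit 190) (nat_lit 4) (nat_lit 447) (nat_lit 379) (nat_lit 374))))) (XT.nd (nat_lit 312) (nat_lit 988) (nat_lit 0) (XT.nd (nat_lit 156) (nat_lit 608) (nat_lit 0) (XT.nd (nat_lit 78) (nat_lit 380) (nat_lit 0) (XT.lf (nat_lit 0) (nat_lit 4102939882) (nat_lit 304) (nat_lit 780467888) (nat_lit 380) (nat_lit 4056346837) (nat_lit 185) (nat_lit 5) (nat_lit 189) (nat_lit 5) (nat_lit 190) (nat_lit 4) (nat_lit 448) (nat_lit 379) (nat_lit 373)) (XT.lf (nat_lit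 0) (nat_lit 114146761) (nat_lit 380) (nat_lit 6256131192) (nat_lit 76) (nat_lit 2681900652) (nat_lit 180) (nat_lit 5) (nat_lit 185) (nat_lit 5) (nat_lit 181) (nat_lit 4) (nat_lit 449) (nat_lit 379) (nat_lit 372))) (XT.nd (nat_lit 78) (nat_lit 304) (nat_lit 0) (XT.lf (nat_lit 0) (nat_lit 1425310700) (nat_lit 304) (nat_lit 2877745469) (nat_lit 380) (nat_lit 4864475279) (nat_lit 176) (nat_lit 5) (nat_lit 180) (nat_lit 5) (nat_lit 181) (nat_lit 4) (nat_lit 450) (nat_lit 379) (nat_lit 371)) (XT.lf (nat_lit 0) (nat_lit 28383388) (nat_lit 304) (nat_lit 8565263046) (nat_lit 304) (nat_lit 693423731) (nat_lit 172) (nat_lit 4) (nat_lit 176) (nat_lit 5) (nat_lit 176) (nat_lit 4) (nat_lit 451) (nat_lit 379) (nat_lit 370)))) (XT.nd (nat_lit 156) (nat_lit 608) (nat_lit 0) (XT.nd (nat_lit 78) (nat_lit 304) (nat_lit 0) (XT.lf (nat_lit 0) (nat_lit 3545376237) (nat_lit 380) (nat_lit 1427012451) (nat_lit 76) (nat_lit 4436385178) (nat_lit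 171) (nat_lit 5) (nat_lit 176) (nat_lit 5) (nat_lit 172) (nat_lit 4) (nat_lit 452) (nat_lit 379) (nat_lit 369)) (XT.lf (nat_lit 0) (nat_lit 6620105420) (nat_lit 304) (nat_lit 1249159241) (nat_lit 380) (nat_lit 1665507415) (nat_lit 167) (nat_lit 5) (nat_lit 171) (nat_lit 5) (nat_lit 172) (nat_lit 4) (nat_lit 453) (nat_lit 379) (nat_lit 368))) (XT.nd (nat_lit 78) (nat_lit 228) (nat_lit 0) (XT.lf (nat_lit 0) (nat_lit 2604962924) (nat_lit 380) (nat_lit 4482414968) (nat_lit 76) (nat_lit 2576455148) (nat_lit 162) (nat_lit 5) (nat_lit 167) (nat_lit 5) (nat_lit 163) (nat_lit 4) (nat_lit 454) (nat_lit 379) (nat_lit 367)) (XT.lf (nat_lit 0) (nat_lit 3683908326) (nat_lit 228) (nat_lit 3273133642) (nat_lit 304) (nat_lit 2839624842) (nat_lit 159) (nat_lit 5) (nat_lit 162) (nat_lit 5) (nat_lit 163) (nat_lit 4) (nat_lit 455) (nat_lit 379) (nat_lit 366)))))) (XT.nd (nat_lit 624) (nat_lit 1368) (nat_lit 0) (XT.nd (nat_lit 312)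 (nat_lit 1064) (nat_lit 0) (XT.nd (nat_lit 156) (nat_lit 304) (nat_lit 0) (XT.nd (nat_lit 78) (nat_lit 228) (nat_lit 0) (XT.lf (nat_lit 0) (nat_lit 1459513822) (nat_lit 380) (nat_lit 7802056997) (nat_lit 76) (nat_lit 672003695) (nat_lit 154) (nat_lit 5) (nat_lit 159) (nat_lit 5) (nat_lit 155) (nat_lit 4) (nat_lit 456) (nat_lit 379) (nat_lit 365)) (XT.lf (nat_lit 0) (nat_lit 479688822) (nat_lit 228) (nat_lit 5360822000) (nat_lit 304) (nat_lit 4232940806) (nat_lit 151) (nat_lit 5) (nat_lit 154) (nat_lit 5) (nat_lit 155) (nat_lit 4) (nat_lit 457) (nat_lit 379) (nat_lit 364))) (XT.nd (nat_lit 78) (nat_lit 228) (nat_lit 0) (XT.lf (nat_lit 0) (nat_lit 123291211) (nat_lit 304) (nat_lit 1192011786) (nat_lit 76) (nat_lit 8902471496) (nat_lit 150) (nat_lit 5) (nat_lit 154) (nat_lit 5) (nat_lit 151) (nat_lit 5) (nat_lit 458) (nat_lit 379) (nat_lit 363)) (XT.lf (nat_lit 0) (nat_lit 4538063191) (nat_lit 304) (nat_lit 2969261467)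 (nat_lit 76) (nat_lit 2857461144) (nat_lit 147) (nat_lit 5) (nat_lit 151) (nat_lit 5) (nat_lit 148) (nat_lit 4) (nat_lit 459) (nat_lit 379) (nat_lit 362)))) (XT.nd (nat_lit 156) (nat_lit 532) (nat_lit 0) (XT.nd (nat_lit 78) (nat_lit 304) (nat_lit 0) (XT.lf (nat_lit 0) (nat_lit 5706438539) (nat_lit 228) (nat_lit 3373086755) (nat_lit 304) (nat_lit 1436858628) (nat_lit 144) (nat_lit 5) (nat_lit 147) (nat_lit 5) (nat_lit 148) (nat_lit 4) (nat_lit 460) (nat_lit 379) (nat_lit 361)) (XT.lf (nat_lit 0) (nat_lit 3016102909) (nat_lit 304) (nat_lit 6743948670) (nat_lit 76) (nat_lit 911844643) (nat_lit 140) (nat_lit 5) (nat_lit 144) (nat_lit 5) (nat_lit 141) (nat_lit 4) (nat_lit 461) (nat_lit 379) (nat_lit 360))) (XT.nd (nat_lit 78) (nat_lit 304) (nat_lit 0) (XT.lf (nat_lit 0) (nat_lit 2045794172) (nat_lit 228) (nat_lit 5545231449) (nat_lit 304) (nat_lit 3240107477) (nat_lit 137) (nat_lit 5) (nat_lit 140) (nat_lit 5) (nat_lit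 141) (nat_lit 4) (nat_lit 462) (nat_lit 379) (nat_lit 359)) (XT.lf (nat_lit 0) (nat_lit 90612965) (nat_lit 228) (nat_lit 1176982467) (nat_lit 304) (nat_lit 9727625645) (nat_lit 133) (nat_lit 5) (nat_lit 136) (nat_lit 5) (nat_lit 137) (nat_lit 5) (nat_lit 463) (nat_lit 379) (nat_lit 358))))) (XT.nd (nat_lit 312) (nat_lit 760) (nat_lit 0) (XT.nd (nat_lit 156) (nat_lit 456) (nat_lit 0) (XT.nd (nat_lit 78) (nat_lit 152) (nat_lit 0) (XT.lf (nat_lit 0) (nat_lit 5882918127) (nat_lit 304) (nat_lit 1956367945) (nat_lit 76) (nat_lit 3322861114) (nat_lit 133) (nat_lit 5) (nat_lit 137) (nat_lit 5) (nat_lit 134) (nat_lit 4) (nat_lit 464) (nat_lit 379) (nat_lit 357)) (XT.lf (nat_lit 0) (nat_lit 7251491979) (nat_lit 152) (nat_lit 3384997179) (nat_lit 228) (nat_lit 697601416) (nat_lit 131) (nat_lit 5) (nat_lit 133) (nat_lit 5) (nat_lit 134) (nat_lit 4) (nat_lit 465) (nat_lit 379) (nat_lit 356))) (XT.nd (nat_lit 78) (nat_lit 152)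 (nat_lit 0) (XT.lf (nat_lit 0) (nat_lit 3943596821) (nat_lit 304) (nat_lit 6333915654) (nat_lit 76) (nat_lit 1232505197) (nat_lit 127) (nat_lit 5) (nat_lit 131) (nat_lit 5) (nat_lit 128) (nat_lit 4) (nat_lit 466) (nat_lit 379) (nat_lit 355)) (XT.lf (nat_lit 0) (nat_lit 2984233791) (nat_lit 152) (nat_lit 5748791958) (nat_lit 228) (nat_lit 2957302038) (nat_lit 125) (nat_lit 5) (nat_lit 127) (nat_lit 5) (nat_lit 128) (nat_lit 4) (nat_lit 467) (nat_lit 379) (nat_lit 354)))) (XT.nd (nat_lit 156) (nat_lit 456) (nat_lit 0) (XT.nd (nat_lit 78) (nat_lit 0) (nat_lit 0) (XT.lf (nat_lit 0) (nat_lit 693657378) (nat_lit 228) (nat_lit 1052177406) (nat_lit 304) (nat_lit 10129978652) (nat_lit 121) (nat_lit 5) (nat_lit 124) (nat_lit 5) (nat_lit 125) (nat_lit 5) (nat_lit 468) (nat_lit 379) (nat_lit 353)) (XT.lf (nat_lit 0) (nat_lit 6575666088) (nat_lit 304) (nat_lit 1717027874) (nat_lit 76) (nat_lit 3771942751) (nat_lit 121) (nat_lit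 5) (nat_lit 125) (nat_lit 5) (nat_lit 122) (nat_lit 4) (nat_lit 469) (nat_lit 379) (nat_lit 352))) (XT.nd (nat_lit 78) (nat_lit 304) (nat_lit 0) (XT.lf (nat_lit 0) (nat_lit 8042524972) (nat_lit 152) (nat_lit 3517795923) (nat_lit 228) (nat_lit 698508501) (nat_lit 119) (nat_lit 5) (nat_lit 121) (nat_lit 5) (nat_lit 122) (nat_lit 4) (nat_lit 470) (nat_lit 379) (nat_lit 351)) (XT.lf (nat_lit 0) (nat_lit 4160809166) (nat_lit 304) (nat_lit 6867885465) (nat_lit 76) (nat_lit 1428700328) (nat_lit 115) (nat_lit 5) (nat_lit 119) (nat_lit 5) (nat_lit 116) (nat_lit 4) (nat_lit 471) (nat_lit 379) (nat_lit 350))))))) (XT.nd (nat_lit 1248) (nat_lit 1596) (nat_lit 0) (XT.nd (nat_lit 624) (nat_lit 1064) (nat_lit 0) (XT.nd (nat_lit 312) (nat_lit 608) (nat_lit 0) (XT.nd (nat_lit 156) (nat_lit 152) (nat_lit 0) (XT.nd (nat_lit 78) (nat_lit 228) (nat_lit 0) (XT.lf (nat_lit 0) (nat_lit 2994893893) (nat_lit 152) (nat_lit 6186401220) (nat_lit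 228) (nat_lit 3479534401) (nat_lit 113) (nat_lit 5) (nat_lit 115) (nat_lit 5) (nat_lit 116) (nat_lit 4) (nat_lit 472) (nat_lit 379) (nat_lit 349)) (XT.lf (nat_lit 0) (nat_lit 279717870) (nat_lit 152) (nat_lit 1169120559) (nat_lit 228) (nat_lit 11421231617) (nat_lit 110) (nat_lit 5) (nat_lit 112) (nat_lit 5) (nat_lit 113) (nat_lit 5) (nat_lit 473) (nat_lit 379) (nat_lit 348))) (XT.nd (nat_lit 78) (nat_lit 152) (nat_lit 0) (XT.lf (nat_lit 0) (nat_lit 6515508716) (nat_lit 228) (nat_lit 2571864528) (nat_lit 76) (nat_lit 3995371728) (nat_lit 110) (nat_lit 5) (nat_lit 113) (nat_lit 5) (nat_lit 111) (nat_lit 4) (nat_lit 474) (nat_lit 379) (nat_lit 347)) (XT.lf (nat_lit 0) (nat_lit 7753668244) (nat_lit 152) (nat_lit 3992221572) (nat_lit 228) (nat_lit 1555561093) (nat_lit 108) (nat_lit 5) (nat_lit 110) (nat_lit 5) (nat_lit 111) (nat_lit 4) (nat_lit 475) (nat_lit 379) (nat_lit 346)))) (XT.nd (nat_lit 156) (nat_lit 228) (nat_lit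 0) (XT.nd (nat_lit 78) (nat_lit 152) (nat_lit 0) (XT.lf (nat_lit 0) (nat_lit 3547197958) (nat_lit 228) (nat_lit 8696392019) (nat_lit 76) (nat_lit 1281756726) (nat_lit 105) (nat_lit 5) (nat_lit 108) (nat_lit 5) (nat_lit 106) (nat_lit 4) (nat_lit 476) (nat_lit 379) (nat_lit 345)) (XT.lf (nat_lit 0) (nat_lit 1720797012) (nat_lit 152) (nat_lit 7089720801) (nat_lit 228) (nat_lit 4943819119) (nat_lit 103) (nat_lit 5) (nat_lit 105) (nat_lit 5) (nat_lit 106) (nat_lit 4) (nat_lit 477) (nat_lit 379) (nat_lit 344))) (XT.nd (nat_lit 78) (nat_lit 152) (nat_lit 0) (XT.lf (nat_lit 0) (nat_lit 251766314) (nat_lit 228) (nat_lit 1495881063) (nat_lit 76) (nat_lit 12242033458) (nat_lit 102) (nat_lit 5) (nat_lit 105) (nat_lit 5) (nat_lit 103) (nat_lit 5) (nat_lit 478) (nat_lit 379) (nat_lit 343)) (XT.lf (nat_lit 0) (nat_lit 5559151127) (nat_lit 228) (nat_lit 4905331751) (nat_lit 76) (nat_lit 3764476531) (nat_lit 100) (nat_lit 5) (nat_lit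 103) (nat_lit 5) (nat_lit 101) (nat_lit 4) (nat_lit 479) (nat_lit 379) (nat_lit 342))))) (XT.nd (nat_lit 312) (nat_lit 532) (nat_lit 0) (XT.nd (nat_lit 156) (nat_lit 152) (nat_lit 0) (XT.nd (nat_lit 78) (nat_lit 228) (nat_lit 0) (XT.lf (nat_lit 0) (nat_lit 5992617931) (nat_lit 152) (nat_lit 5051994742) (nat_lit 228) (nat_lit 3430239708) (nat_lit 98) (nat_lit 5) (nat_lit 100) (nat_lit 5) (nat_lit 101) (nat_lit 4) (nat_lit 480) (nat_lit 379) (nat_lit 341)) (XT.lf (nat_lit 0) (nat_lit 1936309453) (nat_lit 228) (nat_lit 12242655393) (nat_lit 76) (nat_lit 548346773) (nat_lit 95) (nat_lit 5) (nat_lit 98) (nat_lit 5) (nat_lit 96) (nat_lit 4) (nat_lit 481) (nat_lit 379) (nat_lit 340))) (XT.nd (nat_lit 78) (nat_lit 152) (nat_lit 0) (XT.lf (nat_lit 0) (nat_lit 7460527980) (nat_lit 228) (nat_lit 1245872021) (nat_lit 76) (nat_lit 6277958782) (nat_lit 95) (nat_lit 5) (nat_lit 98) (nat_lit 5) (nat_lit 96) (nat_lit 4) (nat_lit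 482) (nat_lit 379) (nat_lit 339)) (XT.lf (nat_lit 0) (nat_lit 10152026641) (nat_lit 152) (nat_lit 3027194658) (nat_lit 228) (nat_lit 2069035123) (nat_lit 93) (nat_lit 5) (nat_lit 95) (nat_lit 5) (nat_lit 96) (nat_lit 4) (nat_lit 483) (nat_lit 379) (nat_lit 338)))) (XT.nd (nat_lit 156) (nat_lit 228) (nat_lit 0) (XT.nd (nat_lit 78) (nat_lit 76) (nat_lit 0) (XT.lf (nat_lit 0) (nat_lit 3512911780) (nat_lit 228) (nat_lit 9185968038) (nat_lit 76) (nat_lit 2819185950) (nat_lit 90) (nat_lit 5) (nat_lit 93) (nat_lit 5) (nat_lit 91) (nat_lit 4) (nat_lit 484) (nat_lit 379) (nat_lit 337)) (XT.lf (nat_lit 0) (nat_lit 2279579172) (nat_lit 76) (nat_lit 6976528044) (nat_lit 152) (nat_lit 6538187721) (nat_lit 89) (nat_lit 5) (nat_lit 90) (nat_lit 5) (nat_lit 91) (nat_lit 4) (nat_lit 485) (nat_lit 379) (nat_lit 336))) (XT.nd (nat_lit 78) (nat_lit 228) (nat_lit 0) (XT.lf (nat_lit 0) (nat_lit 14151390094) (nat_lit 76) (nat_lit 1045271322)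 (nat_lit 152) (nat_lit 881399018) (nat_lit 89) (nat_lit 5) (nat_lit 90) (nat_lit 5) (nat_lit 91) (nat_lit 4) (nat_lit 486) (nat_lit 379) (nat_lit 335)) (XT.lf (nat_lit 0) (nat_lit 4928220885) (nat_lit 228) (nat_lit 6383949572) (nat_lit 76) (nat_lit 5054354918) (nat_lit 86) (nat_lit 5) (nat_lit 89) (nat_lit 5) (nat_lit 87) (nat_lit 4) (nat_lit 487) (nat_lit 379) (nat_lit 334)))))) (XT.nd (nat_lit 624) (nat_lit 684) (nat_lit 0) (XT.nd (nat_lit 312) (nat_lit 532) (nat_lit 0) (XT.nd (nat_lit 156) (nat_lit 76) (nat_lit 0) (XT.nd (nat_lit 78) (nat_lit 228) (nat_lit 0) (XT.lf (nat_lit 0) (nat_lit 5591505866) (nat_lit 76) (nat_lit 5320487140) (nat_lit 152) (nat_lit 5750863315) (nat_lit 85) (nat_lit 5) (nat_lit 86) (nat_lit 5) (nat_lit 87) (nat_lit 4) (nat_lit 488) (nat_lit 379) (nat_lit 333)) (XT.lf (nat_lit 0) (nat_lit 121980104) (nat_lit 228) (nat_lit 15991646203) (nat_lit 76) (nat_lit 853915003) (nat_lit 82) (nat_lit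 5) (nat_lit 85) (nat_lit 5) (nat_lit 83) (nat_lit 4) (nat_lit 489) (nat_lit 379) (nat_lit 332))) (XT.nd (nat_lit 78) (nat_lit 76) (nat_lit 0) (XT.lf (nat_lit 0) (nat_lit 6155130095) (nat_lit 228) (nat_lit 3901391830) (nat_lit 76) (nat_lit 7220146629) (nat_lit 82) (nat_lit 5) (nat_lit 85) (nat_lit 5) (nat_lit 83) (nat_lit 4) (nat_lit 490) (nat_lit 379) (nat_lit 331)) (XT.lf (nat_lit 0) (nat_lit 8598815919) (nat_lit 76) (nat_lit 3789158449) (nat_lit 152) (nat_lit 5206535342) (nat_lit 81) (nat_lit 5) (nat_lit 82) (nat_lit 5) (nat_lit 83) (nat_lit 4) (nat_lit 491) (nat_lit 379) (nat_lit 330)))) (XT.nd (nat_lit 156) (nat_lit 304) (nat_lit 0) (XT.nd (nat_lit 78) (nat_lit 0) (nat_lit 0) (XT.lf (nat_lit 0) (nat_lit 904800402) (nat_lit 228) (nat_lit 14373738110) (nat_lit 76) (nat_lit 2642008036) (nat_lit 78) (nat_lit 5) (nat_lit 81) (nat_lit 5) (nat_lit 79) (nat_lit 4) (nat_lit 492) (nat_lit 379) (nat_lit 329)) (XT.lf (nat_lit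 0) (nat_lit 7160386427) (nat_lit 228) (nat_lit 1814426583) (nat_lit 76) (nat_lit 9278039289) (nat_lit 78) (nat_lit 5) (nat_lit 81) (nat_lit 5) (nat_lit 79) (nat_lit 4) (nat_lit 493) (nat_lit 379) (nat_lit 328))) (XT.nd (nat_lit 78) (nat_lit 228) (nat_lit 0) (XT.lf (nat_lit 0) (nat_lit 11223381401) (nat_lit 76) (nat_lit 2426301657) (nat_lit 152) (nat_lit 4944063840) (nat_lit 77) (nat_lit 5) (nat_lit 78) (nat_lit 5) (nat_lit 79) (nat_lit 4) (nat_lit 494) (nat_lit 379) (nat_lit 327)) (XT.lf (nat_lit 0) (nat_lit 1415310501) (nat_lit 228) (nat_lit 13259923398) (nat_lit 76) (nat_lit 4267626234) (nat_lit 74) (nat_lit 5) (nat_lit 77) (nat_lit 5) (nat_lit 75) (nat_lit 4) (nat_lit 495) (nat_lit 379) (nat_lit 326))))) (XT.nd (nat_lit 312) (nat_lit 304) (nat_lit 0) (XT.nd (nat_lit 156) (nat_lit 304) (nat_lit 0) (XT.nd (nat_lit 78) (nat_lit 76) (nat_lit 0) (XT.lf (nat_lit 0) (nat_lit 7903668366) (nat_lit 228) (nat_lit 212525844)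 (nat_lit 76) (nat_lit 11183657714) (nat_lit 74) (nat_lit 5) (nat_lit 77) (nat_lit 5) (nat_lit 75) (nat_lit 4) (nat_lit 496) (nat_lit 379) (nat_lit 325)) (XT.lf (nat_lit 0) (nat_lit 13373150654) (nat_lit 76) (nat_lit 1282258927) (nat_lit 152) (nat_lit 5010082769) (nat_lit 73) (nat_lit 5) (nat_lit 74) (nat_lit 5) (nat_lit 75) (nat_lit 4) (nat_lit 497) (nat_lit 379) (nat_lit 324))) (XT.nd (nat_lit 78) (nat_lit 76) (nat_lit 0) (XT.lf (nat_lit 0) (nat_lit 1605696280) (nat_lit 228) (nat_lit 12754206828) (nat_lit 76) (nat_lit 5679687084) (nat_lit 70) (nat_lit 5) (nat_lit 73) (nat_lit 5) (nat_lit 71) (nat_lit 4) (nat_lit 498) (nat_lit 379) (nat_lit 323)) (XT.lf (nat_lit 0) (nat_lit 815089839) (nat_lit 76) (nat_lit 7529247544) (nat_lit 152) (nat_lit 12078333637) (nat_lit 69) (nat_lit 5) (nat_lit 70) (nat_lit 5) (nat_lit 71) (nat_lit 4) (nat_lit 499) (nat_lit 379) (nat_lit 322)))) (XT.nd (nat_lit 156) (nat_lit 76) (nat_lit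 0) (XT.nd (nat_lit 78) (nat_lit 228) (nat_lit 0) (XT.lf (nat_lit 0) (nat_lit 14939726585) (nat_lit 76) (nat_lit 415238098) (nat_lit 152) (nat_lit 5460185545) (nat_lit 69) (nat_lit 5) (nat_lit 70) (nat_lit 5) (nat_lit 71) (nat_lit 4) (nat_lit 500) (nat_lit 379) (nat_lit 321)) (XT.lf (nat_lit 0) (nat_lit 1418922480) (nat_lit 228) (nat_lit 12978493905) (nat_lit 76) (nat_lit 6818930386) (nat_lit 66) (nat_lit 5) (nat_lit 69) (nat_lit 5) (nat_lit 67) (nat_lit 4) (nat_lit 501) (nat_lit 379) (nat_lit 320))) (XT.nd (nat_lit 78) (nat_lit 0) (nat_lit 0) (XT.lf (nat_lit 0) (nat_lit 1119083510) (nat_lit 76) (nat_lit 7292666368) (nat_lit 152) (nat_lit 13215695478) (nat_lit 65) (nat_lit 5) (nat_lit 66) (nat_lit 5) (nat_lit 67) (nat_lit 4) (nat_lit 502) (nat_lit 379) (nat_lit 319)) (XT.lf (nat_lit 0) (nat_lit 15689376622) (nat_lit 152) (nat_lit 6254126901) (nat_lit 0) (nat_lit 105123619) (nat_lit 65) (nat_lit 5) (nat_lit 67) (nat_lit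 4) (nat_lit 65) (nat_lit 4) (nat_lit 503) (nat_lit 379) (nat_lit 318))))))))
noncomputable def xc52 : XT := (XT.nd (nat_lit 2418) (nat_lit 1140) (nat_lit 0) (XT.nd (nat_lit 1170) (nat_lit 912) (nat_lit 0) (XT.nd (nat_lit 546) (nat_lit 608) (nat_lit 0) (XT.nd (nat_lit 234) (nat_lit 304) (nat_lit 0) (XT.nd (nat_lit 78) (nat_lit 76) (nat_lit 0) (XT.lf (nat_lit 0) (nat_lit 787289896) (nat_lit 152) (nat_lit 14075612293) (nat_lit 76) (nat_lit 7616396594) (nat_lit 63) (nat_lit 5) (nat_lit 65) (nat_lit 5) (nat_lit 64) (nat_lit 4) (nat_lit 504) (nat_lit 379) (nat_lit 317)) (XT.nd (nat_lit 78) (nat_lit 0) (nat_lit 0) (XT.lf (nat_lit 0) (nat_lit 547448047) (nat_lit 76) (nat_lit 7486152017) (nat_lit 152) (nat_lit 14887006599) (nat_lit 62) (nat_lit 5) (nat_lit 63) (nat_lit 5) (nat_lit 64) (nat_lit 4) (nat_lit 505) (nat_lit 379) (nat_lit 316)) (XT.lf (nat_lit 0) (nat_lit 15586164949) (nat_lit 152) (nat_lit 7583825395) (nat_lit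 0) (nat_lit 202498074) (nat_lit 62) (nat_lit 5) (nat_lit 64) (nat_lit 4) (nat_lit 62) (nat_lit 4) (nat_lit 506) (nat_lit 379) (nat_lit 315)))) (XT.nd (nat_lit 156) (nat_lit 152) (nat_lit 0) (XT.nd (nat_lit 78) (nat_lit 76) (nat_lit 0) (XT.lf (nat_lit 0) (nat_lit 7618697677) (nat_lit 76) (nat_lit 15839835277) (nat_lit 76) (nat_lit 376597474) (nat_lit 61) (nat_lit 4) (nat_lit 62) (nat_lit 5) (nat_lit 62) (nat_lit 4) (nat_lit 507) (nat_lit 379) (nat_lit 314)) (XT.lf (nat_lit 0) (nat_lit 7137097211) (nat_lit 152) (nat_lit 1052183791) (nat_lit 76) (nat_lit 16119581252) (nat_lit 60) (nat_lit 5) (nat_lit 62) (nat_lit 5) (nat_lit 61) (nat_lit 4) (nat_lit 508) (nat_lit 379) (nat_lit 313))) (XT.nd (nat_lit 78) (nat_lit 76) (nat_lit 0) (XT.lf (nat_lit 0) (nat_lit 14749046506) (nat_lit 76) (nat_lit 208855398) (nat_lit 152) (nat_lit 9836114752) (nat_lit 59) (nat_lit 5) (nat_lit 60) (nat_lit 5) (nat_lit 61) (nat_lit 4) (nat_lit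 509) (nat_lit 379) (nat_lit 312)) (XT.lf (nat_lit 0) (nat_lit 5684170966) (nat_lit 76) (nat_lit 17419114243) (nat_lit 76) (nat_lit 2187742368) (nat_lit 58) (nat_lit 4) (nat_lit 59) (nat_lit 5) (nat_lit 59) (nat_lit 4) (nat_lit 510) (nat_lit 379) (nat_lit 311))))) (XT.nd (nat_lit 312) (nat_lit 304) (nat_lit 0) (XT.nd (nat_lit 156) (nat_lit 152) (nat_lit 0) (XT.nd (nat_lit 78) (nat_lit 76) (nat_lit 0) (XT.lf (nat_lit 0) (nat_lit 5631172857) (nat_lit 152) (nat_lit 3868729555) (nat_lit 76) (nat_lit 16299842237) (nat_lit 57) (nat_lit 5) (nat_lit 59) (nat_lit 5) (nat_lit 58) (nat_lit 4) (nat_lit 511) (nat_lit 379) (nat_lit 310)) (XT.lf (nat_lit 0) (nat_lit 12463918376) (nat_lit 76) (nat_lit 1245721146) (nat_lit 152) (nat_lit 12611365700) (nat_lit 56) (nat_lit 5) (nat_lit 57) (nat_lit 5) (nat_lit 58) (nat_lit 4) (nat_lit 512) (nat_lit 379) (nat_lit 309))) (XT.nd (nat_lit 78) (nat_lit 76) (nat_lit 0) (XT.lf (nat_lit 0)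 (nat_lit 2386292310) (nat_lit 76) (nat_lit 19725531209) (nat_lit 76) (nat_lit 4743639654) (nat_lit 55) (nat_lit 4) (nat_lit 56) (nat_lit 5) (nat_lit 56) (nat_lit 4) (nat_lit 513) (nat_lit 379) (nat_lit 308)) (XT.lf (nat_lit 0) (nat_lit 3397456726) (nat_lit 152) (nat_lit 8146038890) (nat_lit 76) (nat_lit 15858403501) (nat_lit 54) (nat_lit 5) (nat_lit 56) (nat_lit 5) (nat_lit 55) (nat_lit 4) (nat_lit 514) (nat_lit 379) (nat_lit 307)))) (XT.nd (nat_lit 156) (nat_lit 228) (nat_lit 0) (XT.nd (nat_lit 78) (nat_lit 0) (nat_lit 0) (XT.lf (nat_lit 0) (nat_lit 8693052476) (nat_lit 76) (nat_lit 3028689772) (nat_lit 152) (nat_lit 16240548351) (nat_lit 53) (nat_lit 5) (nat_lit 54) (nat_lit 5) (nat_lit 55) (nat_lit 4) (nat_lit 515) (nat_lit 379) (nat_lit 306)) (XT.lf (nat_lit 0) (nat_lit 20384825275) (nat_lit 152) (nat_lit 2485198821) (nat_lit 0) (nat_lit 5666798071) (nat_lit 53) (nat_lit 5) (nat_lit 55) (nat_lit 4) (nat_lit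 53) (nat_lit 4) (nat_lit 516) (nat_lit 379) (nat_lit 305))) (XT.nd (nat_lit 78) (nat_lit 76) (nat_lit 0) (XT.lf (nat_lit 0) (nat_lit 303095479) (nat_lit 152) (nat_lit 14156927310) (nat_lit 76) (nat_lit 14664694156) (nat_lit 51) (nat_lit 5) (nat_lit 53) (nat_lit 5) (nat_lit 52) (nat_lit 4) (nat_lit 517) (nat_lit 379) (nat_lit 304)) (XT.lf (nat_lit 0) (nat_lit 3152683445) (nat_lit 76) (nat_lit 5703228049) (nat_lit 152) (nat_lit 20871678524) (nat_lit 50) (nat_lit 5) (nat_lit 51) (nat_lit 5) (nat_lit 52) (nat_lit 4) (nat_lit 518) (nat_lit 379) (nat_lit 303)))))) (XT.nd (nat_lit 624) (nat_lit 456) (nat_lit 0) (XT.nd (nat_lit 312) (nat_lit 228) (nat_lit 0) (XT.nd (nat_lit 156) (nat_lit 152) (nat_lit 0) (XT.nd (nat_lit 78) (nat_lit 76) (nat_lit 0) (XT.lf (nat_lit 0) (nat_lit 17793891644) (nat_lit 152) (nat_lit 9199521050) (nat_lit 0) (nat_lit 3351279565) (nat_lit 50) (nat_lit 5) (nat_lit 52) (nat_lit 4) (nat_lit 50) (nat_lit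 4) (nat_lit 519) (nat_lit 379) (nat_lit 302)) (XT.lf (nat_lit 0) (nat_lit 8719790925) (nat_lit 76) (nat_lit 18374225321) (nat_lit 76) (nat_lit 3883471523) (nat_lit 49) (nat_lit 4) (nat_lit 50) (nat_lit 5) (nat_lit 50) (nat_lit 4) (nat_lit 520) (nat_lit 379) (nat_lit 301))) (XT.nd (nat_lit 78) (nat_lit 76) (nat_lit 0) (XT.lf (nat_lit 0) (nat_lit 4993015446) (nat_lit 152) (nat_lit 4401671974) (nat_lit 76) (nat_lit 22231698647) (nat_lit 48) (nat_lit 5) (nat_lit 50) (nat_lit 5) (nat_lit 49) (nat_lit 4) (nat_lit 521) (nat_lit 379) (nat_lit 300)) (XT.lf (nat_lit 0) (nat_lit 14139089391) (nat_lit 76) (nat_lit 9659826) (nat_lit 152) (nat_lit 18142118732) (nat_lit 47) (nat_lit 5) (nat_lit 48) (nat_lit 5) (nat_lit 49) (nat_lit 4) (nat_lit 522) (nat_lit 379) (nat_lit 299)))) (XT.nd (nat_lit 156) (nat_lit 152) (nat_lit 0) (XT.nd (nat_lit 78) (nat_lit 0) (nat_lit 0) (XT.lf (nat_lit 0) (nat_lit 174029095) (nat_lit 76) (nat_lit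 23499660230) (nat_lit 76) (nat_lit 9298759246) (nat_lit 46) (nat_lit 4) (nat_lit 47) (nat_lit 5) (nat_lit 47) (nat_lit 4) (nat_lit 523) (nat_lit 379) (nat_lit 298)) (XT.lf (nat_lit 0) (nat_lit 19334022998) (nat_lit 76) (nat_lit 14289356163) (nat_lit 76) (nat_lit 46927709) (nat_lit 46) (nat_lit 4) (nat_lit 47) (nat_lit 5) (nat_lit 47) (nat_lit 4) (nat_lit 524) (nat_lit 379) (nat_lit 297))) (XT.nd (nat_lit 78) (nat_lit 0) (nat_lit 0) (XT.lf (nat_lit 0) (nat_lit 4592276847) (nat_lit 76) (nat_lit 4705764154) (nat_lit 152) (nat_lit 25088307095) (nat_lit 44) (nat_lit 5) (nat_lit 45) (nat_lit 5) (nat_lit 46) (nat_lit 4) (nat_lit 525) (nat_lit 379) (nat_lit 296)) (XT.lf (nat_lit 0) (nat_lit 19074791543) (nat_lit 152) (nat_lit 10874450119) (nat_lit 0) (nat_lit 5170043959) (nat_lit 44) (nat_lit 5) (nat_lit 46) (nat_lit 4) (nat_lit 44) (nat_lit 4) (nat_lit 526) (nat_lit 379) (nat_lit 295))))) (XT.nd (nat_lit 312) (nat_lit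 228) (nat_lit 0) (XT.nd (nat_lit 156) (nat_lit 76) (nat_lit 0) (XT.nd (nat_lit 78) (nat_lit 76) (nat_lit 0) (XT.lf (nat_lit 0) (nat_lit 8651547655) (nat_lit 76) (nat_lit 20580840886) (nat_lit 76) (nat_lit 6639196683) (nat_lit 43) (nat_lit 4) (nat_lit 44) (nat_lit 5) (nat_lit 44) (nat_lit 4) (nat_lit 527) (nat_lit 379) (nat_lit 294)) (XT.lf (nat_lit 0) (nat_lit 3057484554) (nat_lit 152) (nat_lit 7770772518) (nat_lit 76) (nat_lit 25815256724) (nat_lit 42) (nat_lit 5) (nat_lit 44) (nat_lit 5) (nat_lit 43) (nat_lit 4) (nat_lit 528) (nat_lit 379) (nat_lit 293))) (XT.nd (nat_lit 78) (nat_lit 0) (nat_lit 0) (XT.lf (nat_lit 0) (nat_lit 12356318175) (nat_lit 76) (nat_lit 633121697) (nat_lit 152) (nat_lit 24444854114) (nat_lit 41) (nat_lit 5) (nat_lit 42) (nat_lit 5) (nat_lit 43) (nat_lit 4) (nat_lit 529) (nat_lit 379) (nat_lit 292)) (XT.lf (nat_lit 0) (nat_lit 23352534885) (nat_lit 152) (nat_lit 5176635924) (nat_lit 0)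 (nat_lit 9715631584) (nat_lit 41) (nat_lit 5) (nat_lit 43) (nat_lit 4) (nat_lit 41) (nat_lit 4) (nat_lit 530) (nat_lit 379) (nat_lit 291)))) (XT.nd (nat_lit 156) (nat_lit 76) (nat_lit 0) (XT.nd (nat_lit 78) (nat_lit 76) (nat_lit 0) (XT.lf (nat_lit 0) (nat_lit 15540004141) (nat_lit 76) (nat_lit 18602437611) (nat_lit 76) (nat_lit 4933706962) (nat_lit 40) (nat_lit 4) (nat_lit 41) (nat_lit 5) (nat_lit 41) (nat_lit 4) (nat_lit 531) (nat_lit 379) (nat_lit 290)) (XT.lf (nat_lit 0) (nat_lit 5232807875) (nat_lit 152) (nat_lit 3077030999) (nat_lit 76) (nat_lit 31620669151) (nat_lit 39) (nat_lit 5) (nat_lit 41) (nat_lit 5) (nat_lit 40) (nat_lit 4) (nat_lit 532) (nat_lit 379) (nat_lit 289))) (XT.nd (nat_lit 78) (nat_lit 0) (nat_lit 0) (XT.lf (nat_lit 0) (nat_lit 15765684495) (nat_lit 152) (nat_lit 22602587152) (nat_lit 0) (nat_lit 2435945355) (nat_lit 38) (nat_lit 5) (nat_lit 40) (nat_lit 4) (nat_lit 38) (nat_lit 4) (nat_lit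 533) (nat_lit 379) (nat_lit 288)) (XT.lf (nat_lit 0) (nat_lit 26689682773) (nat_lit 152) (nat_lit 1680535178) (nat_lit 0) (nat_lit 13331665445) (nat_lit 38) (nat_lit 5) (nat_lit 40) (nat_lit 4) (nat_lit 38) (nat_lit 4) (nat_lit 534) (nat_lit 379) (nat_lit 287))))))) (XT.nd (nat_lit 1170) (nat_lit 228) (nat_lit 0) (XT.nd (nat_lit 546) (nat_lit 456) (nat_lit 0) (XT.nd (nat_lit 234) (nat_lit 228) (nat_lit 0) (XT.nd (nat_lit 78) (nat_lit 152) (nat_lit 0) (XT.lf (nat_lit 0) (nat_lit 20188890246) (nat_lit 76) (nat_lit 17909180757) (nat_lit 76) (nat_lit 4523708879) (nat_lit 37) (nat_lit 4) (nat_lit 38) (nat_lit 5) (nat_lit 38) (nat_lit 4) (nat_lit 535) (nat_lit 379) (nat_lit 286)) (XT.nd (nat_lit 78) (nat_lit 76) (nat_lit 0) (XT.lf (nat_lit 0) (nat_lit 6136659221) (nat_lit 152) (nat_lit 954708560) (nat_lit 76) (nat_lit 36476702138) (nat_lit 36) (nat_lit 5) (nat_lit 38) (nat_lit 5) (nat_lit 37) (nat_lit 4) (nat_lit 536)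 (nat_lit 379) (nat_lit 285)) (XT.lf (nat_lit 0) (nat_lit 17237087820) (nat_lit 152) (nat_lit 23107501494) (nat_lit 0) (nat_lit 4190480706) (nat_lit 35) (nat_lit 5) (nat_lit 37) (nat_lit 4) (nat_lit 35) (nat_lit 4) (nat_lit 537) (nat_lit 379) (nat_lit 284)))) (XT.nd (nat_lit 156) (nat_lit 152) (nat_lit 0) (XT.nd (nat_lit 78) (nat_lit 76) (nat_lit 0) (XT.lf (nat_lit 0) (nat_lit 28714213551) (nat_lit 152) (nat_lit 1172342799) (nat_lit 0) (nat_lit 15643213425) (nat_lit 35) (nat_lit 5) (nat_lit 37) (nat_lit 4) (nat_lit 35) (nat_lit 4) (nat_lit 538) (nat_lit 379) (nat_lit 283)) (XT.lf (nat_lit 0) (nat_lit 21775765740) (nat_lit 76) (nat_lit 18934002087) (nat_lit 76) (nat_lit 5839319425) (nat_lit 34) (nat_lit 4) (nat_lit 35) (nat_lit 5) (nat_lit 35) (nat_lit 4) (nat_lit 539) (nat_lit 379) (nat_lit 282))) (XT.nd (nat_lit 78) (nat_lit 76) (nat_lit 0) (XT.lf (nat_lit 0) (nat_lit 5336301203) (nat_lit 152) (nat_lit 2284983973)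 (nat_lit 76) (nat_lit 39976820047) (nat_lit 33) (nat_lit 5) (nat_lit 35) (nat_lit 5) (nat_lit 34) (nat_lit 4) (nat_lit 540) (nat_lit 379) (nat_lit 281)) (XT.lf (nat_lit 0) (nat_lit 16940118479) (nat_lit 152) (nat_lit 27547593780) (nat_lit 0) (nat_lit 4182838404) (nat_lit 32) (nat_lit 5) (nat_lit 34) (nat_lit 4) (nat_lit 32) (nat_lit 4) (nat_lit 541) (nat_lit 379) (nat_lit 280))))) (XT.nd (nat_lit 312) (nat_lit 228) (nat_lit 0) (XT.nd (nat_lit 156) (nat_lit 152) (nat_lit 0) (XT.nd (nat_lit 78) (nat_lit 76) (nat_lit 0) (XT.lf (nat_lit 0) (nat_lit 28956668153) (nat_lit 152) (nat_lit 4638216481) (nat_lit 0) (nat_lit 16178346451) (nat_lit 32) (nat_lit 5) (nat_lit 34) (nat_lit 4) (nat_lit 32) (nat_lit 4) (nat_lit 542) (nat_lit 379) (nat_lit 279)) (XT.lf (nat_lit 0) (nat_lit 19268390849) (nat_lit 76) (nat_lit 22217394773) (nat_lit 76) (nat_lit 9418644307) (nat_lit 31) (nat_lit 4) (nat_lit 32) (nat_lit 5) (nat_lit 32)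 (nat_lit 4) (nat_lit 543) (nat_lit 379) (nat_lit 278))) (XT.nd (nat_lit 78) (nat_lit 76) (nat_lit 0) (XT.lf (nat_lit 0) (nat_lit 2290080855) (nat_lit 152) (nat_lit 8169720080) (nat_lit 76) (nat_lit 41608669634) (nat_lit 30) (nat_lit 5) (nat_lit 32) (nat_lit 5) (nat_lit 31) (nat_lit 4) (nat_lit 544) (nat_lit 379) (nat_lit 277)) (XT.lf (nat_lit 0) (nat_lit 14301936275) (nat_lit 152) (nat_lit 37120449788) (nat_lit 0) (nat_lit 1838013667) (nat_lit 29) (nat_lit 5) (nat_lit 31) (nat_lit 4) (nat_lit 29) (nat_lit 4) (nat_lit 545) (nat_lit 379) (nat_lit 276)))) (XT.nd (nat_lit 156) (nat_lit 152) (nat_lit 0) (XT.nd (nat_lit 78) (nat_lit 76) (nat_lit 0) (XT.lf (nat_lit 0) (nat_lit 26828875626) (nat_lit 152) (nat_lit 13307767098) (nat_lit 0) (nat_lit 14346802327) (nat_lit 29) (nat_lit 5) (nat_lit 31) (nat_lit 4) (nat_lit 29) (nat_lit 4) (nat_lit 546) (nat_lit 379) (nat_lit 275)) (XT.lf (nat_lit 0) (nat_lit 11379053661) (nat_lit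 76) (nat_lit 28430739219) (nat_lit 76) (nat_lit 15931043889) (nat_lit 28) (nat_lit 4) (nat_lit 29) (nat_lit 5) (nat_lit 29) (nat_lit 4) (nat_lit 547) (nat_lit 379) (nat_lit 274))) (XT.nd (nat_lit 78) (nat_lit 152) (nat_lit 0) (XT.lf (nat_lit 0) (nat_lit 37017597161) (nat_lit 76) (nat_lit 16266026363) (nat_lit 76) (nat_lit 3749222265) (nat_lit 28) (nat_lit 4) (nat_lit 29) (nat_lit 5) (nat_lit 29) (nat_lit 4) (nat_lit 548) (nat_lit 379) (nat_lit 273)) (XT.lf (nat_lit 0) (nat_lit 5014475452) (nat_lit 76) (nat_lit 3629805338) (nat_lit 152) (nat_lit 49716259985) (nat_lit 26) (nat_lit 5) (nat_lit 27) (nat_lit 5) (nat_lit 28) (nat_lit 4) (nat_lit 549) (nat_lit 379) (nat_lit 272)))))) (XT.nd (nat_lit 54132) (nat_lit 0) (nat_lit 11628) (XT.nd (nat_lit 312) (nat_lit 152) (nat_lit 0) (XT.nd (nat_lit 156) (nat_lit 76) (nat_lit 0) (XT.nd (nat_lit 78) (nat_lit 0) (nat_lit 0) (XT.lf (nat_lit 0) (nat_lit 21598293839) (nat_lit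 152) (nat_lit 28706464190) (nat_lit 0) (nat_lit 9414273249) (nat_lit 26) (nat_lit 5) (nat_lit 28) (nat_lit 4) (nat_lit 26) (nat_lit 4) (nat_lit 550) (nat_lit 379) (nat_lit 271)) (XT.lf (nat_lit 0) (nat_lit 34947473192) (nat_lit 152) (nat_lit 3422355354) (nat_lit 0) (nat_lit 22748251684) (nat_lit 26) (nat_lit 5) (nat_lit 28) (nat_lit 4) (nat_lit 26) (nat_lit 4) (nat_lit 551) (nat_lit 379) (nat_lit 270))) (XT.nd (nat_lit 78) (nat_lit 0) (nat_lit 0) (XT.lf (nat_lit 0) (nat_lit 23012298842) (nat_lit 76) (nat_lit 25877500725) (nat_lit 76) (nat_lit 13663521044) (nat_lit 25) (nat_lit 4) (nat_lit 26) (nat_lit 5) (nat_lit 26) (nat_lit 4) (nat_lit 552) (nat_lit 379) (nat_lit 269)) (XT.lf (nat_lit 0) (nat_lit 50253675978) (nat_lit 76) (nat_lit 13003030507) (nat_lit 76) (nat_lit 774722501) (nat_lit 25) (nat_lit 4) (nat_lit 26) (nat_lit 5) (nat_lit 26) (nat_lit 4) (nat_lit 553) (nat_lit 379) (nat_lit 268)))) (XT.nd (nat_lit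 53664) (nat_lit 0) (nat_lit 14288) (XT.nd (nat_lit 53586) (nat_lit 0) (nat_lit 15200) (XT.lf (nat_lit 0) (nat_lit 12357091794) (nat_lit 152) (nat_lit 52718733106) (nat_lit 0) (nat_lit 471442280) (nat_lit 23) (nat_lit 5) (nat_lit 25) (nat_lit 4) (nat_lit 23) (nat_lit 4) (nat_lit 554) (nat_lit 379) (nat_lit 267)) (XT.lf (nat_lit 0) (nat_lit 2658540028) (nat_lit 456) (nat_lit 709676168) (nat_lit 456) (nat_lit 709676168) (nat_lit 223) (nat_lit 4) (nat_lit 229) (nat_lit 5) (nat_lit 229) (nat_lit 4) (nat_lit 440) (nat_lit 380) (nat_lit 380))) (XT.nd (nat_lit 78) (nat_lit 456) (nat_lit 0) (XT.lf (nat_lit 0) (nat_lit 2608670319) (nat_lit 456) (nat_lit 4164596873) (nat_lit 0) (nat_lit 1470768886) (nat_lit 217) (nat_lit 5) (nat_lit 223) (nat_lit 4) (nat_lit 217) (nat_lit 4) (nat_lit 441) (nat_lit 380) (nat_lit 379)) (XT.lf (nat_lit 0) (nat_lit 2816886070) (nat_lit 456) (nat_lit 3880620264) (nat_lit 456) (nat_lit 1637960158)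 (nat_lit 211) (nat_lit 4) (nat_lit 217) (nat_lit 5) (nat_lit 217) (nat_lit 4) (nat_lit 442) (nat_lit 380) (nat_lit 378))))) (XT.nd (nat_lit 312) (nat_lit 1444) (nat_lit 0) (XT.nd (nat_lit 156) (nat_lit 380) (nat_lit 0) (XT.nd (nat_lit 78) (nat_lit 380) (nat_lit 0) (XT.lf (nat_lit 0) (nat_lit 1530838822) (nat_lit 380) (nat_lit 856392785) (nat_lit 456) (nat_lit 6043013509) (nat_lit 205) (nat_lit 5) (nat_lit 210) (nat_lit 5) (nat_lit 211) (nat_lit 4) (nat_lit 443) (nat_lit 380) (nat_lit 377)) (XT.lf (nat_lit 0) (nat_lit 203324391) (nat_lit 380) (nat_lit 6277173999) (nat_lit 380) (nat_lit 2047482400) (nat_lit 200) (nat_lit 4) (nat_lit 205) (nat_lit 5) (nat_lit 205) (nat_lit 4) (nat_lit 444) (nat_lit 380) (nat_lit 376))) (XT.nd (nat_lit 78) (nat_lit 304) (nat_lit 0) (XT.lf (nat_lit 0) (nat_lit 2007283199) (nat_lit 456) (nat_lit 1136470475) (nat_lit 76) (nat_lit 5484913894) (nat_lit 199) (nat_lit 5) (nat_lit 205) (nat_lit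 5) (nat_lit 200) (nat_lit 4) (nat_lit 445) (nat_lit 380) (nat_lit 375)) (XT.lf (nat_lit 0) (nat_lit 6107410854) (nat_lit 380) (nat_lit 2502694967) (nat_lit 0) (nat_lit 122721624) (nat_lit 195) (nat_lit 5) (nat_lit 200) (nat_lit 4) (nat_lit 195) (nat_lit 4) (nat_lit 446) (nat_lit 380) (nat_lit 374)))) (XT.nd (nat_lit 156) (nat_lit 684) (nat_lit 0) (XT.nd (nat_lit 78) (nat_lit 304) (nat_lit 0) (XT.lf (nat_lit 0) (nat_lit 1456242838) (nat_lit 456) (nat_lit 3926786167) (nat_lit 76) (nat_lit 3456812830) (nat_lit 189) (nat_lit 5) (nat_lit 195) (nat_lit 5) (nat_lit 190) (nat_lit 4) (nat_lit 447) (nat_lit 380) (nat_lit 373)) (XT.lf (nat_lit 0) (nat_lit 3557496294) (nat_lit 304) (nat_lit 2015194405) (nat_lit 380) (nat_lit 3377649147) (nat_lit 185) (nat_lit 5) (nat_lit 189) (nat_lit 5) (nat_lit 190) (nat_lit 4) (nat_lit 448) (nat_lit 380) (nat_lit 372))) (XT.nd (nat_lit 78) (nat_lit 304) (nat_lit 0) (XT.lf (nat_lit 0) (nat_lit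 714972865) (nat_lit 380) (nat_lit 6899839411) (nat_lit 76) (nat_lit 1449697569) (nat_lit 180) (nat_lit 5) (nat_lit 185) (nat_lit 5) (nat_lit 181) (nat_lit 4) (nat_lit 449) (nat_lit 380) (nat_lit 371)) (XT.lf (nat_lit 0) (nat_lit 698226674) (nat_lit 304) (nat_lit 4152789175) (nat_lit 380) (nat_lit 4330435639) (nat_lit 176) (nat_lit 5) (nat_lit 180) (nat_lit 5) (nat_lit 181) (nat_lit 4) (nat_lit 450) (nat_lit 380) (nat_lit 370))))))))
noncomputable def xc53 : XT := (XT.nd (nat_lit 2418) (nat_lit 3116) (nat_lit 0) (XT.nd (nat_lit 1170) (nat_lit 2584) (nat_lit 0) (XT.nd (nat_lit 546) (nat_lit 1748) (nat_lit 0) (XT.nd (nat_lit 234) (nat_lit 988) (nat_lit 0) (XT.nd (nat_lit 78) (nat_lit 684) (nat_lit 0) (XT.lf (nat_lit 0) (nat_lit 8526600466) (nat_lit 304) (nat_lit 562459372) (nat_lit 380) (nat_lit 213509481) (nat_lit 176) (nat_lit 5) (nat_lit 180) (nat_lit 5) (nat_lit 181) (nat_lit 4) (nat_lit 451) (nat_lit 380) (nat_lit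 369)) (XT.nd (nat_lit 78) (nat_lit 304) (nat_lit 0) (XT.lf (nat_lit 0) (nat_lit 3957626750) (nat_lit 380) (nat_lit 2331530224) (nat_lit 76) (nat_lit 3136729182) (nat_lit 171) (nat_lit 5) (nat_lit 176) (nat_lit 5) (nat_lit 172) (nat_lit 4) (nat_lit 452) (nat_lit 380) (nat_lit 368)) (XT.lf (nat_lit 0) (nat_lit 5628407260) (nat_lit 304) (nat_lit 2599682563) (nat_lit 380) (nat_lit 1325399797) (nat_lit 167) (nat_lit 5) (nat_lit 171) (nat_lit 5) (nat_lit 172) (nat_lit 4) (nat_lit 453) (nat_lit 380) (nat_lit 367)))) (XT.nd (nat_lit 156) (nat_lit 380) (nat_lit 0) (XT.nd (nat_lit 78) (nat_lit 228) (nat_lit 0) (XT.lf (nat_lit 0) (nat_lit 2870849577) (nat_lit 380) (nat_lit 5592626000) (nat_lit 76) (nat_lit 1221006805) (nat_lit 162) (nat_lit 5) (nat_lit 167) (nat_lit 5) (nat_lit 163) (nat_lit 4) (nat_lit 454) (nat_lit 380) (nat_lit 366)) (XT.lf (nat_lit 0) (nat_lit 2481810757) (nat_lit 228) (nat_lit 4686263472) (nat_lit 304)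 (nat_lit 2650889837) (nat_lit 159) (nat_lit 5) (nat_lit 162) (nat_lit 5) (nat_lit 163) (nat_lit 4) (nat_lit 455) (nat_lit 380) (nat_lit 365))) (XT.nd (nat_lit 78) (nat_lit 0) (nat_lit 0) (XT.lf (nat_lit 0) (nat_lit 817706151) (nat_lit 304) (nat_lit 764462985) (nat_lit 380) (nat_lit 8375522261) (nat_lit 154) (nat_lit 5) (nat_lit 158) (nat_lit 5) (nat_lit 159) (nat_lit 5) (nat_lit 456) (nat_lit 380) (nat_lit 364)) (XT.lf (nat_lit 0) (nat_lit 5908450583) (nat_lit 380) (nat_lit 929230224) (nat_lit 76) (nat_lit 3261531259) (nat_lit 154) (nat_lit 5) (nat_lit 159) (nat_lit 5) (nat_lit 155) (nat_lit 4) (nat_lit 457) (nat_lit 380) (nat_lit 363))))) (XT.nd (nat_lit 312) (nat_lit 684) (nat_lit 0) (XT.nd (nat_lit 156) (nat_lit 532) (nat_lit 0) (XT.nd (nat_lit 78) (nat_lit 228) (nat_lit 0) (XT.lf (nat_lit 0) (nat_lit 112860426) (nat_lit 304) (nat_lit 2714925423) (nat_lit 76) (nat_lit 7417292497) (nat_lit 150) (nat_lit 5) (nat_lit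 154) (nat_lit 5) (nat_lit 151) (nat_lit 5) (nat_lit 458) (nat_lit 380) (nat_lit 362)) (XT.lf (nat_lit 0) (nat_lit 4455756140) (nat_lit 304) (nat_lit 4605030839) (nat_lit 76) (nat_lit 1333460876) (nat_lit 147) (nat_lit 5) (nat_lit 151) (nat_lit 5) (nat_lit 148) (nat_lit 4) (nat_lit 459) (nat_lit 380) (nat_lit 361))) (XT.nd (nat_lit 78) (nat_lit 304) (nat_lit 0) (XT.lf (nat_lit 0) (nat_lit 3969313606) (nat_lit 228) (nat_lit 4970178169) (nat_lit 304) (nat_lit 1608087848) (nat_lit 144) (nat_lit 5) (nat_lit 147) (nat_lit 5) (nat_lit 148) (nat_lit 4) (nat_lit 460) (nat_lit 380) (nat_lit 360)) (XT.lf (nat_lit 0) (nat_lit 2066362881) (nat_lit 228) (nat_lit 714051485) (nat_lit 304) (nat_lit 7924762704) (nat_lit 140) (nat_lit 5) (nat_lit 143) (nat_lit 5) (nat_lit 144) (nat_lit 5) (nat_lit 461) (nat_lit 380) (nat_lit 359)))) (XT.nd (nat_lit 156) (nat_lit 380) (nat_lit 0) (XT.nd (nat_lit 78) (nat_lit 76) (nat_lit 0) (XT.lf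 (nat_lit 0) (nat_lit 50961355) (nat_lit 228) (nat_lit 7237749692) (nat_lit 304) (nat_lit 3577703378) (nat_lit 137) (nat_lit 5) (nat_lit 140) (nat_lit 5) (nat_lit 141) (nat_lit 4) (nat_lit 462) (nat_lit 380) (nat_lit 358)) (XT.lf (nat_lit 0) (nat_lit 895267270) (nat_lit 304) (nat_lit 2006069890) (nat_lit 76) (nat_lit 8130503800) (nat_lit 136) (nat_lit 5) (nat_lit 140) (nat_lit 5) (nat_lit 137) (nat_lit 5) (nat_lit 463) (nat_lit 380) (nat_lit 357))) (XT.nd (nat_lit 78) (nat_lit 152) (nat_lit 0) (XT.lf (nat_lit 0) (nat_lit 5433969864) (nat_lit 304) (nat_lit 4181728885) (nat_lit 76) (nat_lit 1585368476) (nat_lit 133) (nat_lit 5) (nat_lit 137) (nat_lit 5) (nat_lit 134) (nat_lit 4) (nat_lit 464) (nat_lit 380) (nat_lit 356)) (XT.lf (nat_lit 0) (nat_lit 4914197999) (nat_lit 152) (nat_lit 5211863289) (nat_lit 228) (nat_lit 1248795221) (nat_lit 131) (nat_lit 5) (nat_lit 133) (nat_lit 5) (nat_lit 134) (nat_lit 4) (nat_lit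 465) (nat_lit 380) (nat_lit 355)))))) (XT.nd (nat_lit 624) (nat_lit 1140) (nat_lit 0) (XT.nd (nat_lit 312) (nat_lit 684) (nat_lit 0) (XT.nd (nat_lit 156) (nat_lit 304) (nat_lit 0) (XT.nd (nat_lit 78) (nat_lit 152) (nat_lit 0) (XT.lf (nat_lit 0) (nat_lit 2700792141) (nat_lit 228) (nat_lit 627479614) (nat_lit 304) (nat_lit 8224918839) (nat_lit 127) (nat_lit 5) (nat_lit 130) (nat_lit 5) (nat_lit 131) (nat_lit 5) (nat_lit 466) (nat_lit 380) (nat_lit 354)) (XT.lf (nat_lit 0) (nat_lit 353765472) (nat_lit 152) (nat_lit 7693964762) (nat_lit 228) (nat_lit 3687870969) (nat_lit 125) (nat_lit 5) (nat_lit 127) (nat_lit 5) (nat_lit 128) (nat_lit 4) (nat_lit 467) (nat_lit 380) (nat_lit 353))) (XT.nd (nat_lit 78) (nat_lit 228) (nat_lit 0) (XT.lf (nat_lit 0) (nat_lit 984312872) (nat_lit 228) (nat_lit 2055399310) (nat_lit 76) (nat_lit 8882942921) (nat_lit 124) (nat_lit 5) (nat_lit 127) (nat_lit 5) (nat_lit 125) (nat_lit 5) (nat_lit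 468) (nat_lit 380) (nat_lit 352)) (XT.lf (nat_lit 0) (nat_lit 5736363803) (nat_lit 304) (nat_lit 4602152131) (nat_lit 76) (nat_lit 1775297121) (nat_lit 121) (nat_lit 5) (nat_lit 125) (nat_lit 5) (nat_lit 122) (nat_lit 4) (nat_lit 469) (nat_lit 380) (nat_lit 351)))) (XT.nd (nat_lit 156) (nat_lit 228) (nat_lit 0) (XT.nd (nat_lit 78) (nat_lit 304) (nat_lit 0) (XT.lf (nat_lit 0) (nat_lit 5033618333) (nat_lit 152) (nat_lit 5621268590) (nat_lit 228) (nat_lit 1655103993) (nat_lit 119) (nat_lit 5) (nat_lit 121) (nat_lit 5) (nat_lit 122) (nat_lit 4) (nat_lit 470) (nat_lit 380) (nat_lit 350)) (XT.lf (nat_lit 0) (nat_lit 2425878885) (nat_lit 228) (nat_lit 715336303) (nat_lit 304) (nat_lit 9370068260) (nat_lit 115) (nat_lit 5) (nat_lit 118) (nat_lit 5) (nat_lit 119) (nat_lit 5) (nat_lit 471) (nat_lit 380) (nat_lit 349))) (XT.nd (nat_lit 78) (nat_lit 228) (nat_lit 0) (XT.lf (nat_lit 0) (nat_lit 8089119834) (nat_lit 304) (nat_lit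 339553304) (nat_lit 76) (nat_lit 4288223427) (nat_lit 115) (nat_lit 5) (nat_lit 119) (nat_lit 5) (nat_lit 116) (nat_lit 4) (nat_lit 472) (nat_lit 380) (nat_lit 348)) (XT.lf (nat_lit 0) (nat_lit 280126399) (nat_lit 228) (nat_lit 3177498081) (nat_lit 76) (nat_lit 9470131085) (nat_lit 112) (nat_lit 5) (nat_lit 115) (nat_lit 5) (nat_lit 113) (nat_lit 5) (nat_lit 473) (nat_lit 380) (nat_lit 347))))) (XT.nd (nat_lit 312) (nat_lit 608) (nat_lit 0) (XT.nd (nat_lit 156) (nat_lit 228) (nat_lit 0) (XT.nd (nat_lit 78) (nat_lit 152) (nat_lit 0) (XT.lf (nat_lit 0) (nat_lit 5256688672) (nat_lit 228) (nat_lit 6194265585) (nat_lit 76) (nat_lit 1692180501) (nat_lit 110) (nat_lit 5) (nat_lit 113) (nat_lit 5) (nat_lit 111) (nat_lit 4) (nat_lit 474) (nat_lit 380) (nat_lit 346)) (XT.lf (nat_lit 0) (nat_lit 3994184248) (nat_lit 152) (nat_lit 6421165379) (nat_lit 228) (nat_lit 2948643670) (nat_lit 108) (nat_lit 5) (nat_lit 110) (nat_lit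 5) (nat_lit 111) (nat_lit 4) (nat_lit 475) (nat_lit 380) (nat_lit 345))) (XT.nd (nat_lit 78) (nat_lit 0) (nat_lit 0) (XT.lf (nat_lit 0) (nat_lit 892388928) (nat_lit 152) (nat_lit 1202878329) (nat_lit 228) (nat_lit 11495605473) (nat_lit 105) (nat_lit 5) (nat_lit 107) (nat_lit 5) (nat_lit 108) (nat_lit 5) (nat_lit 476) (nat_lit 380) (nat_lit 344)) (XT.lf (nat_lit 0) (nat_lit 7295138643) (nat_lit 228) (nat_lit 2367272975) (nat_lit 76) (nat_lit 4159355710) (nat_lit 105) (nat_lit 5) (nat_lit 108) (nat_lit 5) (nat_lit 106) (nat_lit 4) (nat_lit 477) (nat_lit 380) (nat_lit 343)))) (XT.nd (nat_lit 156) (nat_lit 228) (nat_lit 0) (XT.nd (nat_lit 78) (nat_lit 228) (nat_lit 0) (XT.lf (nat_lit 0) (nat_lit 8297823778) (nat_lit 152) (nat_lit 4375196652) (nat_lit 228) (nat_lit 1385909703) (nat_lit 103) (nat_lit 5) (nat_lit 105) (nat_lit 5) (nat_lit 106) (nat_lit 4) (nat_lit 478) (nat_lit 380) (nat_lit 342)) (XT.lf (nat_lit 0) (nat_lit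 3845904549) (nat_lit 228) (nat_lit 9351135190) (nat_lit 76) (nat_lit 1104647909) (nat_lit 100) (nat_lit 5) (nat_lit 103) (nat_lit 5) (nat_lit 101) (nat_lit 4) (nat_lit 479) (nat_lit 380) (nat_lit 341))) (XT.nd (nat_lit 78) (nat_lit 76) (nat_lit 0) (XT.lf (nat_lit 0) (nat_lit 1394781652) (nat_lit 152) (nat_lit 7858283260) (nat_lit 228) (nat_lit 5296865553) (nat_lit 98) (nat_lit 5) (nat_lit 100) (nat_lit 5) (nat_lit 101) (nat_lit 4) (nat_lit 480) (nat_lit 380) (nat_lit 340)) (XT.lf (nat_lit 0) (nat_lit 42756755) (nat_lit 228) (nat_lit 2275750181) (nat_lit 76) (nat_lit 12486322369) (nat_lit 97) (nat_lit 5) (nat_lit 100) (nat_lit 5) (nat_lit 98) (nat_lit 5) (nat_lit 481) (nat_lit 380) (nat_lit 339))))))) (XT.nd (nat_lit 1248) (nat_lit 1292) (nat_lit 0) (XT.nd (nat_lit 624) (nat_lit 912) (nat_lit 0) (XT.nd (nat_lit 312) (nat_lit 380) (nat_lit 0) (XT.nd (nat_lit 156) (nat_lit 228) (nat_lit 0) (XT.nd (nat_lit 78) (nat_lit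 152) (nat_lit 0) (XT.lf (nat_lit 0) (nat_lit 5488245233) (nat_lit 228) (nat_lit 6169757326) (nat_lit 76) (nat_lit 3406236555) (nat_lit 95) (nat_lit 5) (nat_lit 98) (nat_lit 5) (nat_lit 96) (nat_lit 4) (nat_lit 482) (nat_lit 380) (nat_lit 338)) (XT.lf (nat_lit 0) (nat_lit 5068251393) (nat_lit 152) (nat_lit 6056895536) (nat_lit 228) (nat_lit 4205444293) (nat_lit 93) (nat_lit 5) (nat_lit 95) (nat_lit 5) (nat_lit 96) (nat_lit 4) (nat_lit 483) (nat_lit 380) (nat_lit 337))) (XT.nd (nat_lit 78) (nat_lit 0) (nat_lit 0) (XT.lf (nat_lit 0) (nat_lit 1050629460) (nat_lit 152) (nat_lit 256015889) (nat_lit 228) (nat_lit 14297718380) (nat_lit 90) (nat_lit 5) (nat_lit 92) (nat_lit 5) (nat_lit 93) (nat_lit 5) (nat_lit 484) (nat_lit 380) (nat_lit 336)) (XT.lf (nat_lit 0) (nat_lit 6992715314) (nat_lit 228) (nat_lit 3191069574) (nat_lit 76) (nat_lit 5698522435) (nat_lit 90) (nat_lit 5) (nat_lit 93) (nat_lit 5) (nat_lit 91) (nat_lit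 4) (nat_lit 485) (nat_lit 380) (nat_lit 335)))) (XT.nd (nat_lit 156) (nat_lit 76) (nat_lit 0) (XT.nd (nat_lit 78) (nat_lit 228) (nat_lit 0) (XT.lf (nat_lit 0) (nat_lit 8556968782) (nat_lit 76) (nat_lit 4312638593) (nat_lit 152) (nat_lit 3298375949) (nat_lit 89) (nat_lit 5) (nat_lit 90) (nat_lit 5) (nat_lit 91) (nat_lit 4) (nat_lit 486) (nat_lit 380) (nat_lit 334)) (XT.lf (nat_lit 0) (nat_lit 2438124459) (nat_lit 228) (nat_lit 12278844451) (nat_lit 76) (nat_lit 1743785465) (nat_lit 86) (nat_lit 5) (nat_lit 89) (nat_lit 5) (nat_lit 87) (nat_lit 4) (nat_lit 487) (nat_lit 380) (nat_lit 333))) (XT.nd (nat_lit 78) (nat_lit 76) (nat_lit 0) (XT.lf (nat_lit 0) (nat_lit 8336502118) (nat_lit 228) (nat_lit 471741656) (nat_lit 76) (nat_lit 7951403968) (nat_lit 86) (nat_lit 5) (nat_lit 89) (nat_lit 5) (nat_lit 87) (nat_lit 4) (nat_lit 488) (nat_lit 380) (nat_lit 332)) (XT.lf (nat_lit 0) (nat_lit 11803136991) (nat_lit 76) (nat_lit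 2659783826) (nat_lit 152) (nat_lit 2603055555) (nat_lit 85) (nat_lit 5) (nat_lit 86) (nat_lit 5) (nat_lit 87) (nat_lit 4) (nat_lit 489) (nat_lit 380) (nat_lit 331))))) (XT.nd (nat_lit 312) (nat_lit 380) (nat_lit 0) (XT.nd (nat_lit 156) (nat_lit 228) (nat_lit 0) (XT.nd (nat_lit 78) (nat_lit 76) (nat_lit 0) (XT.lf (nat_lit 0) (nat_lit 3371708578) (nat_lit 228) (nat_lit 10353132923) (nat_lit 76) (nat_lit 3654288741) (nat_lit 82) (nat_lit 5) (nat_lit 85) (nat_lit 5) (nat_lit 83) (nat_lit 4) (nat_lit 490) (nat_lit 380) (nat_lit 330)) (XT.lf (nat_lit 0) (nat_lit 1959871405) (nat_lit 76) (nat_lit 7550275445) (nat_lit 152) (nat_lit 8189657249) (nat_lit 81) (nat_lit 5) (nat_lit 82) (nat_lit 5) (nat_lit 83) (nat_lit 4) (nat_lit 491) (nat_lit 380) (nat_lit 329))) (XT.nd (nat_lit 78) (nat_lit 228) (nat_lit 0) (XT.lf (nat_lit 0) (nat_lit 14738605347) (nat_lit 76) (nat_lit 1137279379) (nat_lit 152) (nat_lit 2152920077) (nat_lit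 81) (nat_lit 5) (nat_lit 82) (nat_lit 5) (nat_lit 83) (nat_lit 4) (nat_lit 492) (nat_lit 380) (nat_lit 328)) (XT.lf (nat_lit 0) (nat_lit 4070704191) (nat_lit 228) (nat_lit 8851974133) (nat_lit 76) (nat_lit 5441272751) (nat_lit 78) (nat_lit 5) (nat_lit 81) (nat_lit 5) (nat_lit 79) (nat_lit 4) (nat_lit 493) (nat_lit 380) (nat_lit 327)))) (XT.nd (nat_lit 156) (nat_lit 304) (nat_lit 0) (XT.nd (nat_lit 78) (nat_lit 0) (nat_lit 0) (XT.lf (nat_lit 0) (nat_lit 3988560262) (nat_lit 76) (nat_lit 6472317828) (nat_lit 152) (nat_lit 8246941729) (nat_lit 77) (nat_lit 5) (nat_lit 78) (nat_lit 5) (nat_lit 79) (nat_lit 4) (nat_lit 494) (nat_lit 380) (nat_lit 326)) (XT.lf (nat_lit 0) (nat_lit 17074788903) (nat_lit 152) (nat_lit 1780117500) (nat_lit 0) (nat_lit 206138183) (nat_lit 77) (nat_lit 5) (nat_lit 79) (nat_lit 4) (nat_lit 77) (nat_lit 4) (nat_lit 495) (nat_lit 380) (nat_lit 325))) (XT.nd (nat_lit 78) (nat_lit 76) (nat_lit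 0) (XT.lf (nat_lit 0) (nat_lit 4493769119) (nat_lit 228) (nat_lit 7866657574) (nat_lit 76) (nat_lit 7059595662) (nat_lit 74) (nat_lit 5) (nat_lit 77) (nat_lit 5) (nat_lit 75) (nat_lit 4) (nat_lit 496) (nat_lit 380) (nat_lit 324)) (XT.lf (nat_lit 0) (nat_lit 5511030202) (nat_lit 76) (nat_lit 5630295748) (nat_lit 152) (nat_lit 8647462773) (nat_lit 73) (nat_lit 5) (nat_lit 74) (nat_lit 5) (nat_lit 75) (nat_lit 4) (nat_lit 497) (nat_lit 380) (nat_lit 323)))))) (XT.nd (nat_lit 624) (nat_lit 532) (nat_lit 0) (XT.nd (nat_lit 312) (nat_lit 456) (nat_lit 0) (XT.nd (nat_lit 156) (nat_lit 76) (nat_lit 0) (XT.nd (nat_lit 78) (nat_lit 228) (nat_lit 0) (XT.lf (nat_lit 0) (nat_lit 18023105738) (nat_lit 152) (nat_lit 839140804) (nat_lit 0) (nat_lit 1305328462) (nat_lit 73) (nat_lit 5) (nat_lit 75) (nat_lit 4) (nat_lit 73) (nat_lit 4) (nat_lit 498) (nat_lit 380) (nat_lit 322)) (XT.lf (nat_lit 0) (nat_lit 4591363610) (nat_lit 228)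 (nat_lit 7504245818) (nat_lit 76) (nat_lit 8457004835) (nat_lit 70) (nat_lit 5) (nat_lit 73) (nat_lit 5) (nat_lit 71) (nat_lit 4) (nat_lit 499) (nat_lit 380) (nat_lit 321))) (XT.nd (nat_lit 78) (nat_lit 0) (nat_lit 0) (XT.lf (nat_lit 0) (nat_lit 6416908306) (nat_lit 76) (nat_lit 5083310544) (nat_lit 152) (nat_lit 9447928149) (nat_lit 69) (nat_lit 5) (nat_lit 70) (nat_lit 5) (nat_lit 71) (nat_lit 4) (nat_lit 500) (nat_lit 380) (nat_lit 320)) (XT.lf (nat_lit 0) (nat_lit 18657361055) (nat_lit 152) (nat_lit 572927697) (nat_lit 0) (nat_lit 2124027044) (nat_lit 69) (nat_lit 5) (nat_lit 71) (nat_lit 4) (nat_lit 69) (nat_lit 4) (nat_lit 501) (nat_lit 380) (nat_lit 319)))) (XT.nd (nat_lit 156) (nat_lit 152) (nat_lit 0) (XT.nd (nat_lit 78) (nat_lit 76) (nat_lit 0) (XT.lf (nat_lit 0) (nat_lit 4304476320) (nat_lit 228) (nat_lit 7890258928) (nat_lit 76) (nat_lit 9572777919) (nat_lit 66) (nat_lit 5) (nat_lit 69) (nat_lit 5)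 (nat_lit 67) (nat_lit 4) (nat_lit 502) (nat_lit 380) (nat_lit 318)) (XT.lf (nat_lit 0) (nat_lit 6576543948) (nat_lit 76) (nat_lit 4899876899) (nat_lit 152) (nat_lit 10715444897) (nat_lit 65) (nat_lit 5) (nat_lit 66) (nat_lit 5) (nat_lit 67) (nat_lit 4) (nat_lit 503) (nat_lit 380) (nat_lit 317))) (XT.nd (nat_lit 78) (nat_lit 152) (nat_lit 0) (XT.lf (nat_lit 0) (nat_lit 18914837024) (nat_lit 152) (nat_lit 1118268279) (nat_lit 0) (nat_lit 2594304836) (nat_lit 65) (nat_lit 5) (nat_lit 67) (nat_lit 4) (nat_lit 65) (nat_lit 4) (nat_lit 504) (nat_lit 380) (nat_lit 316)) (XT.lf (nat_lit 0) (nat_lit 3563135488) (nat_lit 152) (nat_lit 9171783942) (nat_lit 76) (nat_lit 10336160927) (nat_lit 63) (nat_lit 5) (nat_lit 65) (nat_lit 5) (nat_lit 64) (nat_lit 4) (nat_lit 505) (nat_lit 380) (nat_lit 315))))) (XT.nd (nat_lit 312) (nat_lit 228) (nat_lit 0) (XT.nd (nat_lit 156) (nat_lit 228) (nat_lit 0) (XT.nd (nat_lit 78) (nat_lit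 0) (nat_lit 0) (XT.lf (nat_lit 0) (nat_lit 5837751573) (nat_lit 76) (nat_lit 5159617201) (nat_lit 152) (nat_lit 12529143575) (nat_lit 62) (nat_lit 5) (nat_lit 63) (nat_lit 5) (nat_lit 64) (nat_lit 4) (nat_lit 506) (nat_lit 380) (nat_lit 314)) (XT.lf (nat_lit 0) (nat_lit 18721015557) (nat_lit 152) (nat_lit 2635544353) (nat_lit 0) (nat_lit 2637056365) (nat_lit 62) (nat_lit 5) (nat_lit 64) (nat_lit 4) (nat_lit 62) (nat_lit 4) (nat_lit 507) (nat_lit 380) (nat_lit 313))) (XT.nd (nat_lit 78) (nat_lit 76) (nat_lit 0) (XT.lf (nat_lit 0) (nat_lit 2284671892) (nat_lit 152) (nat_lit 11521078480) (nat_lit 76) (nat_lit 10664568715) (nat_lit 60) (nat_lit 5) (nat_lit 62) (nat_lit 5) (nat_lit 61) (nat_lit 4) (nat_lit 508) (nat_lit 380) (nat_lit 312)) (XT.lf (nat_lit 0) (nat_lit 4022034656) (nat_lit 76) (nat_lit 5955214481) (nat_lit 152) (nat_lit 14982071433) (nat_lit 59) (nat_lit 5) (nat_lit 60) (nat_lit 5) (nat_lit 61) (nat_lit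 4) (nat_lit 509) (nat_lit 380) (nat_lit 311)))) (XT.nd (nat_lit 156) (nat_lit 76) (nat_lit 0) (XT.nd (nat_lit 78) (nat_lit 152) (nat_lit 0) (XT.lf (nat_lit 0) (nat_lit 17987683734) (nat_lit 152) (nat_lit 5312662084) (nat_lit 0) (nat_lit 2160034383) (nat_lit 59) (nat_lit 5) (nat_lit 61) (nat_lit 4) (nat_lit 59) (nat_lit 4) (nat_lit 510) (nat_lit 380) (nat_lit 310)) (XT.lf (nat_lit 0) (nat_lit 371694727) (nat_lit 152) (nat_lit 15139748453) (nat_lit 76) (nat_lit 10461507969) (nat_lit 57) (nat_lit 5) (nat_lit 59) (nat_lit 5) (nat_lit 58) (nat_lit 4) (nat_lit 511) (nat_lit 380) (nat_lit 309))) (XT.nd (nat_lit 78) (nat_lit 0) (nat_lit 0) (XT.lf (nat_lit 0) (nat_lit 920206896) (nat_lit 76) (nat_lit 7394667041) (nat_lit 152) (nat_lit 18183396637) (nat_lit 56) (nat_lit 5) (nat_lit 57) (nat_lit 5) (nat_lit 58) (nat_lit 4) (nat_lit 512) (nat_lit 380) (nat_lit 308)) (XT.lf (nat_lit 0) (nat_lit 16610726536) (nat_lit 152) (nat_lit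 9369612433) (nat_lit 0) (nat_lit 1055579719) (nat_lit 56) (nat_lit 5) (nat_lit 58) (nat_lit 4) (nat_lit 56) (nat_lit 4) (nat_lit 513) (nat_lit 380) (nat_lit 307))))))))
noncomputable def xc54 : XT := (XT.nd (nat_lit 2418) (nat_lit 532) (nat_lit 0) (XT.nd (nat_lit 1170) (nat_lit 912) (nat_lit 0) (XT.nd (nat_lit 546) (nat_lit 532) (nat_lit 0) (XT.nd (nat_lit 234) (nat_lit 228) (nat_lit 0) (XT.nd (nat_lit 78) (nat_lit 152) (nat_lit 0) (XT.lf (nat_lit 0) (nat_lit 7300784685) (nat_lit 76) (nat_lit 17950200570) (nat_lit 76) (nat_lit 2335845510) (nat_lit 55) (nat_lit 4) (nat_lit 56) (nat_lit 5) (nat_lit 56) (nat_lit 4) (nat_lit 514) (nat_lit 380) (nat_lit 306)) (XT.nd (nat_lit 78) (nat_lit 76) (nat_lit 0) (XT.lf (nat_lit 0) (nat_lit 5926896576) (nat_lit 152) (nat_lit 3640238740) (nat_lit 76) (nat_lit 18583974465) (nat_lit 54) (nat_lit 5) (nat_lit 56) (nat_lit 5) (nat_lit 55) (nat_lit 4) (nat_lit 515) (nat_lit 380) (nat_lit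 305)) (XT.lf (nat_lit 0) (nat_lit 13657454962) (nat_lit 76) (nat_lit 817965333) (nat_lit 152) (nat_lit 14253658029) (nat_lit 53) (nat_lit 5) (nat_lit 54) (nat_lit 5) (nat_lit 55) (nat_lit 4) (nat_lit 516) (nat_lit 380) (nat_lit 304)))) (XT.nd (nat_lit 156) (nat_lit 76) (nat_lit 0) (XT.nd (nat_lit 78) (nat_lit 76) (nat_lit 0) (XT.lf (nat_lit 0) (nat_lit 2096265129) (nat_lit 76) (nat_lit 21273799199) (nat_lit 76) (nat_lit 5951632045) (nat_lit 52) (nat_lit 4) (nat_lit 53) (nat_lit 5) (nat_lit 53) (nat_lit 4) (nat_lit 517) (nat_lit 380) (nat_lit 303)) (XT.lf (nat_lit 0) (nat_lit 2664187928) (nat_lit 152) (nat_lit 9964939208) (nat_lit 76) (nat_lit 17298752826) (nat_lit 51) (nat_lit 5) (nat_lit 53) (nat_lit 5) (nat_lit 52) (nat_lit 4) (nat_lit 518) (nat_lit 380) (nat_lit 302))) (XT.nd (nat_lit 78) (nat_lit 0) (nat_lit 0) (XT.lf (nat_lit 0) (nat_lit 7818698145) (nat_lit 76) (nat_lit 3630328860) (nat_lit 152) (nat_lit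 19100549605) (nat_lit 50) (nat_lit 5) (nat_lit 51) (nat_lit 5) (nat_lit 52) (nat_lit 4) (nat_lit 519) (nat_lit 380) (nat_lit 301)) (XT.lf (nat_lit 0) (nat_lit 20608299488) (nat_lit 152) (nat_lit 4990356543) (nat_lit 0) (nat_lit 5587941822) (nat_lit 50) (nat_lit 5) (nat_lit 52) (nat_lit 4) (nat_lit 50) (nat_lit 4) (nat_lit 520) (nat_lit 380) (nat_lit 300))))) (XT.nd (nat_lit 312) (nat_lit 228) (nat_lit 0) (XT.nd (nat_lit 156) (nat_lit 152) (nat_lit 0) (XT.nd (nat_lit 78) (nat_lit 76) (nat_lit 0) (XT.lf (nat_lit 0) (nat_lit 13422562731) (nat_lit 76) (nat_lit 16741131435) (nat_lit 76) (nat_lit 1675395581) (nat_lit 49) (nat_lit 4) (nat_lit 50) (nat_lit 5) (nat_lit 50) (nat_lit 4) (nat_lit 521) (nat_lit 380) (nat_lit 299)) (XT.lf (nat_lit 0) (nat_lit 7355640043) (nat_lit 152) (nat_lit 177843058) (nat_lit 76) (nat_lit 24975293564) (nat_lit 48) (nat_lit 5) (nat_lit 50) (nat_lit 5) (nat_lit 49) (nat_lit 4) (nat_lit 522)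 (nat_lit 380) (nat_lit 298))) (XT.nd (nat_lit 78) (nat_lit 76) (nat_lit 0) (XT.lf (nat_lit 0) (nat_lit 16783370331) (nat_lit 152) (nat_lit 14337761847) (nat_lit 0) (nat_lit 2072141553) (nat_lit 47) (nat_lit 5) (nat_lit 49) (nat_lit 4) (nat_lit 47) (nat_lit 4) (nat_lit 523) (nat_lit 380) (nat_lit 297)) (XT.lf (nat_lit 0) (nat_lit 4494994252) (nat_lit 76) (nat_lit 22076269268) (nat_lit 76) (nat_lit 7324722557) (nat_lit 46) (nat_lit 4) (nat_lit 47) (nat_lit 5) (nat_lit 47) (nat_lit 4) (nat_lit 524) (nat_lit 380) (nat_lit 296)))) (XT.nd (nat_lit 156) (nat_lit 76) (nat_lit 0) (XT.nd (nat_lit 78) (nat_lit 76) (nat_lit 0) (XT.lf (nat_lit 0) (nat_lit 2097302156) (nat_lit 152) (nat_lit 10533166957) (nat_lit 76) (nat_lit 21985605887) (nat_lit 45) (nat_lit 5) (nat_lit 47) (nat_lit 5) (nat_lit 46) (nat_lit 4) (nat_lit 525) (nat_lit 380) (nat_lit 295)) (XT.lf (nat_lit 0) (nat_lit 8921288494) (nat_lit 76) (nat_lit 2778210198)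 (nat_lit 152) (nat_lit 23654750585) (nat_lit 44) (nat_lit 5) (nat_lit 45) (nat_lit 5) (nat_lit 46) (nat_lit 4) (nat_lit 526) (nat_lit 380) (nat_lit 294))) (XT.nd (nat_lit 78) (nat_lit 76) (nat_lit 0) (XT.lf (nat_lit 0) (nat_lit 21727037550) (nat_lit 152) (nat_lit 7088987763) (nat_lit 0) (nat_lit 7294425441) (nat_lit 44) (nat_lit 5) (nat_lit 46) (nat_lit 4) (nat_lit 44) (nat_lit 4) (nat_lit 527) (nat_lit 380) (nat_lit 293)) (XT.lf (nat_lit 0) (nat_lit 12982479200) (nat_lit 76) (nat_lit 19185437313) (nat_lit 76) (nat_lit 4718046601) (nat_lit 43) (nat_lit 4) (nat_lit 44) (nat_lit 5) (nat_lit 44) (nat_lit 4) (nat_lit 528) (nat_lit 380) (nat_lit 292)))))) (XT.nd (nat_lit 624) (nat_lit 456) (nat_lit 0) (XT.nd (nat_lit 312) (nat_lit 228) (nat_lit 0) (XT.nd (nat_lit 156) (nat_lit 76) (nat_lit 0) (XT.nd (nat_lit 78) (nat_lit 76) (nat_lit 0) (XT.lf (nat_lit 0) (nat_lit 5167607911) (nat_lit 152) (nat_lit 4010912284) (nat_lit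 76) (nat_lit 28503734817) (nat_lit 42) (nat_lit 5) (nat_lit 44) (nat_lit 5) (nat_lit 43) (nat_lit 4) (nat_lit 529) (nat_lit 380) (nat_lit 291)) (XT.lf (nat_lit 0) (nat_lit 15389276115) (nat_lit 152) (nat_lit 21829074025) (nat_lit 0) (nat_lit 1278656198) (nat_lit 41) (nat_lit 5) (nat_lit 43) (nat_lit 4) (nat_lit 41) (nat_lit 4) (nat_lit 530) (nat_lit 380) (nat_lit 290))) (XT.nd (nat_lit 78) (nat_lit 76) (nat_lit 0) (XT.lf (nat_lit 0) (nat_lit 26010801784) (nat_lit 152) (nat_lit 1453320895) (nat_lit 0) (nat_lit 11869281529) (nat_lit 41) (nat_lit 5) (nat_lit 43) (nat_lit 4) (nat_lit 41) (nat_lit 4) (nat_lit 531) (nat_lit 380) (nat_lit 289)) (XT.lf (nat_lit 0) (nat_lit 19846792743) (nat_lit 76) (nat_lit 17257511078) (nat_lit 76) (nat_lit 3085990496) (nat_lit 40) (nat_lit 4) (nat_lit 41) (nat_lit 5) (nat_lit 41) (nat_lit 4) (nat_lit 532) (nat_lit 380) (nat_lit 288)))) (XT.nd (nat_lit 156) (nat_lit 76) (nat_lit 0) (XT.nd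 (nat_lit 78) (nat_lit 0) (nat_lit 0) (XT.lf (nat_lit 0) (nat_lit 609090396) (nat_lit 76) (nat_lit 6686346801) (nat_lit 152) (nat_lit 33775806165) (nat_lit 38) (nat_lit 5) (nat_lit 39) (nat_lit 5) (nat_lit 40) (nat_lit 4) (nat_lit 533) (nat_lit 380) (nat_lit 287)) (XT.lf (nat_lit 0) (nat_lit 18136739579) (nat_lit 152) (nat_lit 19512402157) (nat_lit 0) (nat_lit 4322248995) (nat_lit 38) (nat_lit 5) (nat_lit 40) (nat_lit 4) (nat_lit 38) (nat_lit 4) (nat_lit 534) (nat_lit 380) (nat_lit 286))) (XT.nd (nat_lit 78) (nat_lit 0) (nat_lit 0) (XT.lf (nat_lit 0) (nat_lit 1965918301) (nat_lit 76) (nat_lit 27386153096) (nat_lit 76) (nat_lit 13545007609) (nat_lit 37) (nat_lit 4) (nat_lit 38) (nat_lit 5) (nat_lit 38) (nat_lit 4) (nat_lit 535) (nat_lit 380) (nat_lit 285)) (XT.lf (nat_lit 0) (nat_lit 24417196622) (nat_lit 76) (nat_lit 16647766271) (nat_lit 76) (nat_lit 2780742237) (nat_lit 37) (nat_lit 4) (nat_lit 38) (nat_lit 5)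 (nat_lit 38) (nat_lit 4) (nat_lit 536) (nat_lit 380) (nat_lit 284))))) (XT.nd (nat_lit 312) (nat_lit 228) (nat_lit 0) (XT.nd (nat_lit 156) (nat_lit 76) (nat_lit 0) (XT.nd (nat_lit 78) (nat_lit 0) (nat_lit 0) (XT.lf (nat_lit 0) (nat_lit 2620512833) (nat_lit 76) (nat_lit 5513803260) (nat_lit 152) (nat_lit 36686380109) (nat_lit 35) (nat_lit 5) (nat_lit 36) (nat_lit 5) (nat_lit 37) (nat_lit 4) (nat_lit 537) (nat_lit 380) (nat_lit 283)) (XT.lf (nat_lit 0) (nat_lit 19541096322) (nat_lit 152) (nat_lit 20246519441) (nat_lit 0) (nat_lit 6029890644) (nat_lit 35) (nat_lit 5) (nat_lit 37) (nat_lit 4) (nat_lit 35) (nat_lit 4) (nat_lit 538) (nat_lit 380) (nat_lit 282))) (XT.nd (nat_lit 78) (nat_lit 0) (nat_lit 0) (XT.lf (nat_lit 0) (nat_lit 2287816969) (nat_lit 76) (nat_lit 29044665242) (nat_lit 76) (nat_lit 15510466810) (nat_lit 34) (nat_lit 4) (nat_lit 35) (nat_lit 5) (nat_lit 35) (nat_lit 4) (nat_lit 539) (nat_lit 380) (nat_lit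 281)) (XT.lf (nat_lit 0) (nat_lit 25845894956) (nat_lit 76) (nat_lit 17802331554) (nat_lit 76) (nat_lit 4245810061) (nat_lit 34) (nat_lit 4) (nat_lit 35) (nat_lit 5) (nat_lit 35) (nat_lit 4) (nat_lit 540) (nat_lit 380) (nat_lit 280)))) (XT.nd (nat_lit 156) (nat_lit 76) (nat_lit 0) (XT.nd (nat_lit 78) (nat_lit 0) (nat_lit 0) (XT.lf (nat_lit 0) (nat_lit 1017167360) (nat_lit 76) (nat_lit 6172666003) (nat_lit 152) (nat_lit 41785403871) (nat_lit 32) (nat_lit 5) (nat_lit 33) (nat_lit 5) (nat_lit 34) (nat_lit 4) (nat_lit 541) (nat_lit 380) (nat_lit 279)) (XT.lf (nat_lit 0) (nat_lit 19130718406) (nat_lit 152) (nat_lit 25021892598) (nat_lit 0) (nat_lit 5927576663) (nat_lit 32) (nat_lit 5) (nat_lit 34) (nat_lit 4) (nat_lit 32) (nat_lit 4) (nat_lit 542) (nat_lit 380) (nat_lit 278))) (XT.nd (nat_lit 78) (nat_lit 76) (nat_lit 0) (XT.lf (nat_lit 0) (nat_lit 31458762734) (nat_lit 152) (nat_lit 1522868805) (nat_lit 0) (nat_lit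 18235787240) (nat_lit 32) (nat_lit 5) (nat_lit 34) (nat_lit 4) (nat_lit 32) (nat_lit 4) (nat_lit 543) (nat_lit 380) (nat_lit 277)) (XT.lf (nat_lit 0) (nat_lit 23069029939) (nat_lit 76) (nat_lit 21278126672) (nat_lit 76) (nat_lit 8035895109) (nat_lit 31) (nat_lit 4) (nat_lit 32) (nat_lit 5) (nat_lit 32) (nat_lit 4) (nat_lit 544) (nat_lit 380) (nat_lit 276))))))) (XT.nd (nat_lit 54522) (nat_lit 0) (nat_lit 9576) (XT.nd (nat_lit 546) (nat_lit 152) (nat_lit 0) (XT.nd (nat_lit 234) (nat_lit 228) (nat_lit 0) (XT.nd (nat_lit 78) (nat_lit 76) (nat_lit 0) (XT.lf (nat_lit 0) (nat_lit 3944037999) (nat_lit 152) (nat_lit 5254529636) (nat_lit 76) (nat_lit 44384392636) (nat_lit 30) (nat_lit 5) (nat_lit 32) (nat_lit 5) (nat_lit 31) (nat_lit 4) (nat_lit 545) (nat_lit 380) (nat_lit 275)) (XT.nd (nat_lit 78) (nat_lit 0) (nat_lit 0) (XT.lf (nat_lit 0) (nat_lit 16315154330) (nat_lit 152) (nat_lit 35072679908) (nat_lit 0) (nat_lit 3422846109)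 (nat_lit 29) (nat_lit 5) (nat_lit 31) (nat_lit 4) (nat_lit 29) (nat_lit 4) (nat_lit 546) (nat_lit 380) (nat_lit 274)) (XT.lf (nat_lit 0) (nat_lit 29171761281) (nat_lit 152) (nat_lit 10637695865) (nat_lit 0) (nat_lit 16262344291) (nat_lit 29) (nat_lit 5) (nat_lit 31) (nat_lit 4) (nat_lit 29) (nat_lit 4) (nat_lit 547) (nat_lit 380) (nat_lit 273)))) (XT.nd (nat_lit 156) (nat_lit 152) (nat_lit 0) (XT.nd (nat_lit 78) (nat_lit 0) (nat_lit 0) (XT.lf (nat_lit 0) (nat_lit 14759638298) (nat_lit 76) (nat_lit 27766885847) (nat_lit 76) (nat_lit 14840858404) (nat_lit 28) (nat_lit 4) (nat_lit 29) (nat_lit 5) (nat_lit 29) (nat_lit 4) (nat_lit 548) (nat_lit 380) (nat_lit 272)) (XT.lf (nat_lit 0) (nat_lit 41078817336) (nat_lit 76) (nat_lit 15281409534) (nat_lit 76) (nat_lit 2339255436) (nat_lit 28) (nat_lit 4) (nat_lit 29) (nat_lit 5) (nat_lit 29) (nat_lit 4) (nat_lit 549) (nat_lit 380) (nat_lit 271))) (XT.nd (nat_lit 78) (nat_lit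 0) (nat_lit 0) (XT.lf (nat_lit 0) (nat_lit 8116096503) (nat_lit 76) (nat_lit 2265138741) (nat_lit 152) (nat_lit 49685787301) (nat_lit 26) (nat_lit 5) (nat_lit 27) (nat_lit 5) (nat_lit 28) (nat_lit 4) (nat_lit 550) (nat_lit 380) (nat_lit 270)) (XT.lf (nat_lit 0) (nat_lit 23694583235) (nat_lit 152) (nat_lit 26673137268) (nat_lit 0) (nat_lit 11099425989) (nat_lit 26) (nat_lit 5) (nat_lit 28) (nat_lit 4) (nat_lit 26) (nat_lit 4) (nat_lit 551) (nat_lit 380) (nat_lit 269))))) (XT.nd (nat_lit 53664) (nat_lit 0) (nat_lit 14212) (XT.nd (nat_lit 156) (nat_lit 76) (nat_lit 0) (XT.nd (nat_lit 78) (nat_lit 76) (nat_lit 0) (XT.lf (nat_lit 0) (nat_lit 37402053292) (nat_lit 152) (nat_lit 714811599) (nat_lit 0) (nat_lit 24792567723) (nat_lit 26) (nat_lit 5) (nat_lit 28) (nat_lit 4) (nat_lit 26) (nat_lit 4) (nat_lit 552) (nat_lit 380) (nat_lit 268)) (XT.lf (nat_lit 0) (nat_lit 26485331101) (nat_lit 76) (nat_lit 25263111022) (nat_lit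 76) (nat_lit 12639714458) (nat_lit 25) (nat_lit 4) (nat_lit 26) (nat_lit 5) (nat_lit 26) (nat_lit 4) (nat_lit 553) (nat_lit 380) (nat_lit 267))) (XT.nd (nat_lit 53430) (nat_lit 0) (nat_lit 16112) (XT.lf (nat_lit 0) (nat_lit 582398558) (nat_lit 152) (nat_lit 11454633309) (nat_lit 76) (nat_lit 53874621463) (nat_lit 24) (nat_lit 5) (nat_lit 26) (nat_lit 5) (nat_lit 25) (nat_lit 4) (nat_lit 554) (nat_lit 380) (nat_lit 266)) (XT.lf (nat_lit 0) (nat_lit 3897908580) (nat_lit 456) (nat_lit 47858864) (nat_lit 456) (nat_lit 47858864) (nat_lit 236) (nat_lit 4) (nat_lit 242) (nat_lit 5) (nat_lit 242) (nat_lit 4) (nat_lit 438) (nat_lit 381) (nat_lit 381)))) (XT.nd (nat_lit 156) (nat_lit 912) (nat_lit 0) (XT.nd (nat_lit 78) (nat_lit 456) (nat_lit 0) (XT.lf (nat_lit 0) (nat_lit 3864041797) (nat_lit 532) (nat_lit 1549445022) (nat_lit 0) (nat_lit 2656842166) (nat_lit 229) (nat_lit 5) (nat_lit 236) (nat_lit 4) (nat_lit 229) (nat_lit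 4) (nat_lit 439) (nat_lit 381) (nat_lit 380)) (XT.lf (nat_lit 0) (nat_lit 5250322674) (nat_lit 456) (nat_lit 2643105264) (nat_lit 456) (nat_lit 263867158) (nat_lit 223) (nat_lit 4) (nat_lit 229) (nat_lit 5) (nat_lit 229) (nat_lit 4) (nat_lit 440) (nat_lit 381) (nat_lit 379))) (XT.nd (nat_lit 78) (nat_lit 456) (nat_lit 0) (XT.lf (nat_lit 0) (nat_lit 3679129259) (nat_lit 456) (nat_lit 4303531650) (nat_lit 0) (nat_lit 264430677) (nat_lit 217) (nat_lit 5) (nat_lit 223) (nat_lit 4) (nat_lit 217) (nat_lit 4) (nat_lit 441) (nat_lit 381) (nat_lit 378)) (XT.lf (nat_lit 0) (nat_lit 2607416429) (nat_lit 456) (nat_lit 5109953566) (nat_lit 456) (nat_lit 622673748) (nat_lit 211) (nat_lit 4) (nat_lit 217) (nat_lit 5) (nat_lit 217) (nat_lit 4) (nat_lit 442) (nat_lit 381) (nat_lit 377)))))) (XT.nd (nat_lit 624) (nat_lit 2280) (nat_lit 0) (XT.nd (nat_lit 312) (nat_lit 1140) (nat_lit 0) (XT.nd (nat_lit 156) (nat_lit 760) (nat_lit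 0) (XT.nd (nat_lit 78) (nat_lit 0) (nat_lit 0) (XT.lf (nat_lit 0) (nat_lit 1234489163) (nat_lit 380) (nat_lit 2097092110) (nat_lit 456) (nat_lit 5104485715) (nat_lit 205) (nat_lit 5) (nat_lit 210) (nat_lit 5) (nat_lit 211) (nat_lit 4) (nat_lit 443) (nat_lit 381) (nat_lit 376)) (XT.lf (nat_lit 0) (nat_lit 7363282917) (nat_lit 456) (nat_lit 158244142) (nat_lit 0) (nat_lit 1014126113) (nat_lit 205) (nat_lit 5) (nat_lit 211) (nat_lit 4) (nat_lit 205) (nat_lit 4) (nat_lit 444) (nat_lit 381) (nat_lit 375))) (XT.nd (nat_lit 78) (nat_lit 304) (nat_lit 0) (XT.lf (nat_lit 0) (nat_lit 2816347324) (nat_lit 456) (nat_lit 1584946271) (nat_lit 76) (nat_lit 4236266485) (nat_lit 199) (nat_lit 5) (nat_lit 205) (nat_lit 5) (nat_lit 200) (nat_lit 4) (nat_lit 445) (nat_lit 381) (nat_lit 374)) (XT.lf (nat_lit 0) (nat_lit 5706991324) (nat_lit 304) (nat_lit 1157215897) (nat_lit 380) (nat_lit 1879084022) (nat_lit 195) (nat_lit 5) (nat_lit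 199) (nat_lit 5) (nat_lit 200) (nat_lit 4) (nat_lit 446) (nat_lit 381) (nat_lit 373)))) (XT.nd (nat_lit 156) (nat_lit 380) (nat_lit 0) (XT.nd (nat_lit 78) (nat_lit 304) (nat_lit 0) (XT.lf (nat_lit 0) (nat_lit 2124997573) (nat_lit 456) (nat_lit 4546079426) (nat_lit 76) (nat_lit 2180906900) (nat_lit 189) (nat_lit 5) (nat_lit 195) (nat_lit 5) (nat_lit 190) (nat_lit 4) (nat_lit 447) (nat_lit 381) (nat_lit 372)) (XT.lf (nat_lit 0) (nat_lit 2858099717) (nat_lit 304) (nat_lit 3331373065) (nat_lit 380) (nat_lit 2774571285) (nat_lit 185) (nat_lit 5) (nat_lit 189) (nat_lit 5) (nat_lit 190) (nat_lit 4) (nat_lit 448) (nat_lit 381) (nat_lit 371))) (XT.nd (nat_lit 78) (nat_lit 0) (nat_lit 0) (XT.lf (nat_lit 0) (nat_lit 1240692939) (nat_lit 380) (nat_lit 7703310068) (nat_lit 76) (nat_lit 136007638) (nat_lit 180) (nat_lit 5) (nat_lit 185) (nat_lit 5) (nat_lit 181) (nat_lit 4) (nat_lit 449) (nat_lit 381) (nat_lit 370)) (XT.lf (nat_lit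 0) (nat_lit 5325483123) (nat_lit 380) (nat_lit 186041501) (nat_lit 76) (nat_lit 3686967972) (nat_lit 180) (nat_lit 5) (nat_lit 185) (nat_lit 5) (nat_lit 181) (nat_lit 4) (nat_lit 450) (nat_lit 381) (nat_lit 369))))) (XT.nd (nat_lit 312) (nat_lit 912) (nat_lit 0) (XT.nd (nat_lit 156) (nat_lit 684) (nat_lit 0) (XT.nd (nat_lit 78) (nat_lit 304) (nat_lit 0) (XT.lf (nat_lit 0) (nat_lit 192994836) (nat_lit 380) (nat_lit 1750760735) (nat_lit 76) (nat_lit 7377171947) (nat_lit 175) (nat_lit 5) (nat_lit 180) (nat_lit 5) (nat_lit 176) (nat_lit 5) (nat_lit 451) (nat_lit 381) (nat_lit 368)) (XT.lf (nat_lit 0) (nat_lit 4293142918) (nat_lit 380) (nat_lit 3400875962) (nat_lit 76) (nat_lit 1752171053) (nat_lit 171) (nat_lit 5) (nat_lit 176) (nat_lit 5) (nat_lit 172) (nat_lit 4) (nat_lit 452) (nat_lit 381) (nat_lit 367))) (XT.nd (nat_lit 78) (nat_lit 380) (nat_lit 0) (XT.lf (nat_lit 0) (nat_lit 4470615650) (nat_lit 304) (nat_lit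 4039246821) (nat_lit 380) (nat_lit 1065545652) (nat_lit 167) (nat_lit 5) (nat_lit 171) (nat_lit 5) (nat_lit 172) (nat_lit 4) (nat_lit 453) (nat_lit 381) (nat_lit 366)) (XT.lf (nat_lit 0) (nat_lit 2831081256) (nat_lit 304) (nat_lit 227925369) (nat_lit 380) (nat_lit 6649320398) (nat_lit 162) (nat_lit 5) (nat_lit 166) (nat_lit 5) (nat_lit 167) (nat_lit 5) (nat_lit 454) (nat_lit 381) (nat_lit 365)))) (XT.nd (nat_lit 156) (nat_lit 608) (nat_lit 0) (XT.nd (nat_lit 78) (nat_lit 76) (nat_lit 0) (XT.lf (nat_lit 0) (nat_lit 1106100691) (nat_lit 228) (nat_lit 6192677505) (nat_lit 304) (nat_lit 2545756318) (nat_lit 159) (nat_lit 5) (nat_lit 162) (nat_lit 5) (nat_lit 163) (nat_lit 4) (nat_lit 455) (nat_lit 381) (nat_lit 364)) (XT.lf (nat_lit 0) (nat_lit 1635532452) (nat_lit 304) (nat_lit 667161377) (nat_lit 76) (nat_lit 7682031347) (nat_lit 158) (nat_lit 5) (nat_lit 162) (nat_lit 5) (nat_lit 159) (nat_lit 5) (nat_lit 456) (nat_lit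 381) (nat_lit 363))) (XT.nd (nat_lit 78) (nat_lit 304) (nat_lit 0) (XT.lf (nat_lit 0) (nat_lit 5898911238) (nat_lit 380) (nat_lit 2506724133) (nat_lit 76) (nat_lit 1722499581) (nat_lit 154) (nat_lit 5) (nat_lit 159) (nat_lit 5) (nat_lit 155) (nat_lit 4) (nat_lit 457) (nat_lit 381) (nat_lit 362)) (XT.lf (nat_lit 0) (nat_lit 18183634) (nat_lit 304) (nat_lit 4419816513) (nat_lit 76) (nat_lit 5837723040) (nat_lit 150) (nat_lit 5) (nat_lit 154) (nat_lit 5) (nat_lit 151) (nat_lit 5) (nat_lit 458) (nat_lit 381) (nat_lit 361))))))))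
noncomputable def xc55 : XT := (XT.nd (nat_lit 2418) (nat_lit 2660) (nat_lit 0) (XT.nd (nat_lit 1170) (nat_lit 2128) (nat_lit 0) (XT.nd (nat_lit 546) (nat_lit 1368) (nat_lit 0) (XT.nd (nat_lit 234) (nat_lit 684) (nat_lit 0) (XT.nd (nat_lit 78) (nat_lit 532) (nat_lit 0) (XT.lf (nat_lit 0) (nat_lit 3997380853) (nat_lit 228) (nat_lit 293129601) (nat_lit 304) (nat_lit 6136501163) (nat_lit 147) (nat_lit 5) (nat_lit 150) (nat_lit 5) (nat_lit 151) (nat_lit 5) (nat_lit 459) (nat_lit 381) (nat_lit 360)) (XT.nd (nat_lit 78) (nat_lit 304) (nat_lit 0) (XT.lf (nat_lit 0) (nat_lit 2044477741) (nat_lit 228) (nat_lit 6668614745) (nat_lit 304) (nat_lit 1869087310) (nat_lit 144) (nat_lit 5) (nat_lit 147) (nat_lit 5) (nat_lit 148) (nat_lit 4) (nat_lit 460) (nat_lit 381) (nat_lit 359)) (XT.lf (nat_lit 0) (nat_lit 3539965) (nat_lit 228) (nat_lit 2461451712) (nat_lit 304) (nat_lit 8276648018) (nat_lit 140) (nat_lit 5) (nat_lit 143)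 (nat_lit 5) (nat_lit 144) (nat_lit 5) (nat_lit 461) (nat_lit 381) (nat_lit 358)))) (XT.nd (nat_lit 156) (nat_lit 380) (nat_lit 0) (XT.nd (nat_lit 78) (nat_lit 304) (nat_lit 0) (XT.lf (nat_lit 0) (nat_lit 6916596961) (nat_lit 304) (nat_lit 2098448559) (nat_lit 76) (nat_lit 1889533920) (nat_lit 140) (nat_lit 5) (nat_lit 144) (nat_lit 5) (nat_lit 141) (nat_lit 4) (nat_lit 462) (nat_lit 381) (nat_lit 357)) (XT.lf (nat_lit 0) (nat_lit 432946650) (nat_lit 304) (nat_lit 4297941496) (nat_lit 76) (nat_lit 6341039124) (nat_lit 136) (nat_lit 5) (nat_lit 140) (nat_lit 5) (nat_lit 137) (nat_lit 5) (nat_lit 463) (nat_lit 381) (nat_lit 356))) (XT.nd (nat_lit 78) (nat_lit 152) (nat_lit 0) (XT.lf (nat_lit 0) (nat_lit 4632447003) (nat_lit 228) (nat_lit 262434252) (nat_lit 304) (nat_lit 6348576830) (nat_lit 133) (nat_lit 5) (nat_lit 136) (nat_lit 5) (nat_lit 137) (nat_lit 5) (nat_lit 464) (nat_lit 381) (nat_lit 355)) (XT.lf (nat_lit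 0) (nat_lit 2373467428) (nat_lit 152) (nat_lit 7148683685) (nat_lit 228) (nat_lit 1897042368) (nat_lit 131) (nat_lit 5) (nat_lit 133) (nat_lit 5) (nat_lit 134) (nat_lit 4) (nat_lit 465) (nat_lit 381) (nat_lit 354))))) (XT.nd (nat_lit 312) (nat_lit 608) (nat_lit 0) (XT.nd (nat_lit 156) (nat_lit 456) (nat_lit 0) (XT.nd (nat_lit 78) (nat_lit 0) (nat_lit 0) (XT.lf (nat_lit 0) (nat_lit 4834328) (nat_lit 228) (nat_lit 2624167612) (nat_lit 304) (nat_lit 8970624115) (nat_lit 127) (nat_lit 5) (nat_lit 130) (nat_lit 5) (nat_lit 131) (nat_lit 5) (nat_lit 466) (nat_lit 381) (nat_lit 353)) (XT.lf (nat_lit 0) (nat_lit 7288339178) (nat_lit 304) (nat_lit 2441082632) (nat_lit 76) (nat_lit 2054419830) (nat_lit 127) (nat_lit 5) (nat_lit 131) (nat_lit 5) (nat_lit 128) (nat_lit 4) (nat_lit 467) (nat_lit 381) (nat_lit 352))) (XT.nd (nat_lit 78) (nat_lit 228) (nat_lit 0) (XT.lf (nat_lit 0) (nat_lit 130853446) (nat_lit 228) (nat_lit 5004643940)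 (nat_lit 76) (nat_lit 6837479955) (nat_lit 124) (nat_lit 5) (nat_lit 127) (nat_lit 5) (nat_lit 125) (nat_lit 5) (nat_lit 468) (nat_lit 381) (nat_lit 351)) (XT.lf (nat_lit 0) (nat_lit 4457427218) (nat_lit 228) (nat_lit 342212062) (nat_lit 304) (nat_lit 7366995192) (nat_lit 121) (nat_lit 5) (nat_lit 124) (nat_lit 5) (nat_lit 125) (nat_lit 5) (nat_lit 469) (nat_lit 381) (nat_lit 350)))) (XT.nd (nat_lit 156) (nat_lit 380) (nat_lit 0) (XT.nd (nat_lit 78) (nat_lit 76) (nat_lit 0) (XT.lf (nat_lit 0) (nat_lit 1803651884) (nat_lit 152) (nat_lit 7844048049) (nat_lit 228) (nat_lit 2717227464) (nat_lit 119) (nat_lit 5) (nat_lit 121) (nat_lit 5) (nat_lit 122) (nat_lit 4) (nat_lit 470) (nat_lit 381) (nat_lit 349)) (XT.lf (nat_lit 0) (nat_lit 2040470570) (nat_lit 228) (nat_lit 959423308) (nat_lit 76) (nat_lit 9568413878) (nat_lit 118) (nat_lit 5) (nat_lit 121) (nat_lit 5) (nat_lit 119) (nat_lit 5) (nat_lit 471) (nat_lit 381)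 (nat_lit 348))) (XT.nd (nat_lit 78) (nat_lit 152) (nat_lit 0) (XT.lf (nat_lit 0) (nat_lit 6921074342) (nat_lit 304) (nat_lit 3842662100) (nat_lit 76) (nat_lit 2012204547) (nat_lit 115) (nat_lit 5) (nat_lit 119) (nat_lit 5) (nat_lit 116) (nat_lit 4) (nat_lit 472) (nat_lit 381) (nat_lit 347)) (XT.lf (nat_lit 0) (nat_lit 6117421432) (nat_lit 152) (nat_lit 5858327107) (nat_lit 228) (nat_lit 1013227258) (nat_lit 113) (nat_lit 5) (nat_lit 115) (nat_lit 5) (nat_lit 116) (nat_lit 4) (nat_lit 473) (nat_lit 381) (nat_lit 346)))))) (XT.nd (nat_lit 624) (nat_lit 988) (nat_lit 0) (XT.nd (nat_lit 312) (nat_lit 532) (nat_lit 0) (XT.nd (nat_lit 156) (nat_lit 380) (nat_lit 0) (XT.nd (nat_lit 78) (nat_lit 0) (nat_lit 0) (XT.lf (nat_lit 0) (nat_lit 3145388441) (nat_lit 152) (nat_lit 749691254) (nat_lit 228) (nat_lit 9312209297) (nat_lit 110) (nat_lit 5) (nat_lit 112) (nat_lit 5) (nat_lit 113) (nat_lit 5) (nat_lit 474) (nat_lit 381)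 (nat_lit 345)) (XT.lf (nat_lit 0) (nat_lit 8973594292) (nat_lit 228) (nat_lit 6051036) (nat_lit 76) (nat_lit 4450907563) (nat_lit 110) (nat_lit 5) (nat_lit 113) (nat_lit 5) (nat_lit 111) (nat_lit 4) (nat_lit 475) (nat_lit 381) (nat_lit 344))) (XT.nd (nat_lit 78) (nat_lit 152) (nat_lit 0) (XT.lf (nat_lit 0) (nat_lit 573280049) (nat_lit 228) (nat_lit 3239388677) (nat_lit 76) (nat_lit 9846492625) (nat_lit 107) (nat_lit 5) (nat_lit 110) (nat_lit 5) (nat_lit 108) (nat_lit 5) (nat_lit 476) (nat_lit 381) (nat_lit 343)) (XT.lf (nat_lit 0) (nat_lit 5681676508) (nat_lit 228) (nat_lit 6669459889) (nat_lit 76) (nat_lit 1541664684) (nat_lit 105) (nat_lit 5) (nat_lit 108) (nat_lit 5) (nat_lit 106) (nat_lit 4) (nat_lit 477) (nat_lit 381) (nat_lit 342)))) (XT.nd (nat_lit 156) (nat_lit 152) (nat_lit 0) (XT.nd (nat_lit 78) (nat_lit 228) (nat_lit 0) (XT.lf (nat_lit 0) (nat_lit 3848524638) (nat_lit 152) (nat_lit 7134948865) (nat_lit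 228) (nat_lit 3148773787) (nat_lit 103) (nat_lit 5) (nat_lit 105) (nat_lit 5) (nat_lit 106) (nat_lit 4) (nat_lit 478) (nat_lit 381) (nat_lit 341)) (XT.lf (nat_lit 0) (nat_lit 304801914) (nat_lit 152) (nat_lit 1723797805) (nat_lit 228) (nat_lit 12349579487) (nat_lit 100) (nat_lit 5) (nat_lit 102) (nat_lit 5) (nat_lit 103) (nat_lit 5) (nat_lit 479) (nat_lit 381) (nat_lit 340))) (XT.nd (nat_lit 78) (nat_lit 152) (nat_lit 0) (XT.lf (nat_lit 0) (nat_lit 7372671741) (nat_lit 228) (nat_lit 3398605030) (nat_lit 76) (nat_lit 3857038690) (nat_lit 100) (nat_lit 5) (nat_lit 103) (nat_lit 5) (nat_lit 101) (nat_lit 4) (nat_lit 480) (nat_lit 381) (nat_lit 339)) (XT.lf (nat_lit 0) (nat_lit 7608580845) (nat_lit 152) (nat_lit 5293433809) (nat_lit 228) (nat_lit 1983194240) (nat_lit 98) (nat_lit 5) (nat_lit 100) (nat_lit 5) (nat_lit 101) (nat_lit 4) (nat_lit 481) (nat_lit 381) (nat_lit 338))))) (XT.nd (nat_lit 312) (nat_lit 380) (nat_lit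 0) (XT.nd (nat_lit 156) (nat_lit 380) (nat_lit 0) (XT.nd (nat_lit 78) (nat_lit 0) (nat_lit 0) (XT.lf (nat_lit 0) (nat_lit 3389959776) (nat_lit 228) (nat_lit 11364554158) (nat_lit 76) (nat_lit 394008411) (nat_lit 95) (nat_lit 5) (nat_lit 98) (nat_lit 5) (nat_lit 96) (nat_lit 4) (nat_lit 482) (nat_lit 381) (nat_lit 337)) (XT.lf (nat_lit 0) (nat_lit 8946178005) (nat_lit 228) (nat_lit 284364865) (nat_lit 76) (nat_lit 6186752786) (nat_lit 95) (nat_lit 5) (nat_lit 98) (nat_lit 5) (nat_lit 96) (nat_lit 4) (nat_lit 483) (nat_lit 381) (nat_lit 336))) (XT.nd (nat_lit 78) (nat_lit 228) (nat_lit 0) (XT.lf (nat_lit 0) (nat_lit 11231269556) (nat_lit 152) (nat_lit 3482777388) (nat_lit 228) (nat_lit 978737676) (nat_lit 93) (nat_lit 5) (nat_lit 95) (nat_lit 5) (nat_lit 96) (nat_lit 4) (nat_lit 484) (nat_lit 381) (nat_lit 335)) (XT.lf (nat_lit 0) (nat_lit 4619442114) (nat_lit 228) (nat_lit 8899969250) (nat_lit 76) (nat_lit 2454809402)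 (nat_lit 90) (nat_lit 5) (nat_lit 93) (nat_lit 5) (nat_lit 91) (nat_lit 4) (nat_lit 485) (nat_lit 381) (nat_lit 334)))) (XT.nd (nat_lit 156) (nat_lit 304) (nat_lit 0) (XT.nd (nat_lit 78) (nat_lit 0) (nat_lit 0) (XT.lf (nat_lit 0) (nat_lit 2675942050) (nat_lit 76) (nat_lit 7732988403) (nat_lit 152) (nat_lit 5853589048) (nat_lit 89) (nat_lit 5) (nat_lit 90) (nat_lit 5) (nat_lit 91) (nat_lit 4) (nat_lit 486) (nat_lit 381) (nat_lit 333)) (XT.lf (nat_lit 0) (nat_lit 14666257953) (nat_lit 76) (nat_lit 1733765047) (nat_lit 152) (nat_lit 158607834) (nat_lit 89) (nat_lit 5) (nat_lit 90) (nat_lit 5) (nat_lit 91) (nat_lit 4) (nat_lit 487) (nat_lit 381) (nat_lit 332))) (XT.nd (nat_lit 78) (nat_lit 76) (nat_lit 0) (XT.lf (nat_lit 0) (nat_lit 5676738684) (nat_lit 228) (nat_lit 6721261820) (nat_lit 76) (nat_lit 4461553789) (nat_lit 86) (nat_lit 5) (nat_lit 89) (nat_lit 5) (nat_lit 87) (nat_lit 4) (nat_lit 488) (nat_lit 381) (nat_lit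 331)) (XT.lf (nat_lit 0) (nat_lit 5372286288) (nat_lit 76) (nat_lit 6339224916) (nat_lit 152) (nat_lit 5457121656) (nat_lit 85) (nat_lit 5) (nat_lit 86) (nat_lit 5) (nat_lit 87) (nat_lit 4) (nat_lit 489) (nat_lit 381) (nat_lit 330))))))) (XT.nd (nat_lit 1248) (nat_lit 1064) (nat_lit 0) (XT.nd (nat_lit 624) (nat_lit 760) (nat_lit 0) (XT.nd (nat_lit 312) (nat_lit 304) (nat_lit 0) (XT.nd (nat_lit 156) (nat_lit 304) (nat_lit 0) (XT.nd (nat_lit 78) (nat_lit 0) (nat_lit 0) (XT.lf (nat_lit 0) (nat_lit 370343152) (nat_lit 152) (nat_lit 73048992) (nat_lit 228) (nat_lit 17043116462) (nat_lit 82) (nat_lit 5) (nat_lit 84) (nat_lit 5) (nat_lit 85) (nat_lit 5) (nat_lit 490) (nat_lit 381) (nat_lit 329)) (XT.lf (nat_lit 0) (nat_lit 6532591262) (nat_lit 228) (nat_lit 4896677551) (nat_lit 76) (nat_lit 6379391329) (nat_lit 82) (nat_lit 5) (nat_lit 85) (nat_lit 5) (nat_lit 83) (nat_lit 4) (nat_lit 491) (nat_lit 381) (nat_lit 328)))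 (XT.nd (nat_lit 78) (nat_lit 228) (nat_lit 0) (XT.lf (nat_lit 0) (nat_lit 7729177207) (nat_lit 76) (nat_lit 5091779997) (nat_lit 152) (nat_lit 5319025292) (nat_lit 81) (nat_lit 5) (nat_lit 82) (nat_lit 5) (nat_lit 83) (nat_lit 4) (nat_lit 492) (nat_lit 381) (nat_lit 327)) (XT.lf (nat_lit 0) (nat_lit 828289760) (nat_lit 228) (nat_lit 16214523335) (nat_lit 76) (nat_lit 1437371911) (nat_lit 78) (nat_lit 5) (nat_lit 81) (nat_lit 5) (nat_lit 79) (nat_lit 4) (nat_lit 493) (nat_lit 381) (nat_lit 326)))) (XT.nd (nat_lit 156) (nat_lit 228) (nat_lit 0) (XT.nd (nat_lit 78) (nat_lit 76) (nat_lit 0) (XT.lf (nat_lit 0) (nat_lit 7151407443) (nat_lit 228) (nat_lit 3506282418) (nat_lit 76) (nat_lit 8168376024) (nat_lit 78) (nat_lit 5) (nat_lit 81) (nat_lit 5) (nat_lit 79) (nat_lit 4) (nat_lit 494) (nat_lit 381) (nat_lit 325)) (XT.lf (nat_lit 0) (nat_lit 9664455744) (nat_lit 76) (nat_lit 4036068484) (nat_lit 152) (nat_lit 5480710680)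 (nat_lit 77) (nat_lit 5) (nat_lit 78) (nat_lit 5) (nat_lit 79) (nat_lit 4) (nat_lit 495) (nat_lit 381) (nat_lit 324))) (XT.nd (nat_lit 78) (nat_lit 0) (nat_lit 0) (XT.lf (nat_lit 0) (nat_lit 923496884) (nat_lit 228) (nat_lit 15861191236) (nat_lit 76) (nat_lit 2760852893) (nat_lit 74) (nat_lit 5) (nat_lit 77) (nat_lit 5) (nat_lit 75) (nat_lit 4) (nat_lit 496) (nat_lit 381) (nat_lit 323)) (XT.lf (nat_lit 0) (nat_lit 7490302717) (nat_lit 228) (nat_lit 2644024512) (nat_lit 76) (nat_lit 9782403081) (nat_lit 74) (nat_lit 5) (nat_lit 77) (nat_lit 5) (nat_lit 75) (nat_lit 4) (nat_lit 497) (nat_lit 381) (nat_lit 322))))) (XT.nd (nat_lit 312) (nat_lit 380) (nat_lit 0) (XT.nd (nat_lit 156) (nat_lit 76) (nat_lit 0) (XT.nd (nat_lit 78) (nat_lit 228) (nat_lit 0) (XT.lf (nat_lit 0) (nat_lit 11081477890) (nat_lit 76) (nat_lit 3224414568) (nat_lit 152) (nat_lit 5991610222) (nat_lit 73) (nat_lit 5) (nat_lit 74) (nat_lit 5) (nat_lit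 75) (nat_lit 4) (nat_lit 498) (nat_lit 381) (nat_lit 321)) (XT.lf (nat_lit 0) (nat_lit 677679082) (nat_lit 228) (nat_lit 16164525514) (nat_lit 76) (nat_lit 3845695595) (nat_lit 70) (nat_lit 5) (nat_lit 73) (nat_lit 5) (nat_lit 71) (nat_lit 4) (nat_lit 499) (nat_lit 381) (nat_lit 320))) (XT.nd (nat_lit 78) (nat_lit 76) (nat_lit 0) (XT.lf (nat_lit 0) (nat_lit 7497976648) (nat_lit 228) (nat_lit 2420119526) (nat_lit 76) (nat_lit 11167993836) (nat_lit 70) (nat_lit 5) (nat_lit 73) (nat_lit 5) (nat_lit 71) (nat_lit 4) (nat_lit 500) (nat_lit 381) (nat_lit 319)) (XT.lf (nat_lit 0) (nat_lit 11866617714) (nat_lit 76) (nat_lit 2717368512) (nat_lit 152) (nat_lit 6910406904) (nat_lit 69) (nat_lit 5) (nat_lit 70) (nat_lit 5) (nat_lit 71) (nat_lit 4) (nat_lit 501) (nat_lit 381) (nat_lit 318)))) (XT.nd (nat_lit 156) (nat_lit 152) (nat_lit 0) (XT.nd (nat_lit 78) (nat_lit 0) (nat_lit 0) (XT.lf (nat_lit 0) (nat_lit 30680751) (nat_lit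 228) (nat_lit 17252170671) (nat_lit 76) (nat_lit 4630231364) (nat_lit 66) (nat_lit 5) (nat_lit 69) (nat_lit 5) (nat_lit 67) (nat_lit 4) (nat_lit 502) (nat_lit 381) (nat_lit 317)) (XT.lf (nat_lit 0) (nat_lit 7113397740) (nat_lit 228) (nat_lit 2963812964) (nat_lit 76) (nat_lit 12262901800) (nat_lit 66) (nat_lit 5) (nat_lit 69) (nat_lit 5) (nat_lit 67) (nat_lit 4) (nat_lit 503) (nat_lit 381) (nat_lit 316))) (XT.nd (nat_lit 78) (nat_lit 76) (nat_lit 0) (XT.lf (nat_lit 0) (nat_lit 11886374844) (nat_lit 76) (nat_lit 2585218516) (nat_lit 152) (nat_lit 8306470460) (nat_lit 65) (nat_lit 5) (nat_lit 66) (nat_lit 5) (nat_lit 67) (nat_lit 4) (nat_lit 504) (nat_lit 381) (nat_lit 315)) (XT.lf (nat_lit 0) (nat_lit 3943018934) (nat_lit 76) (nat_lit 18173809423) (nat_lit 76) (nat_lit 1110337116) (nat_lit 64) (nat_lit 4) (nat_lit 65) (nat_lit 5) (nat_lit 65) (nat_lit 4) (nat_lit 505) (nat_lit 381) (nat_lit 314)))))) (XT.nd (nat_lit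 624) (nat_lit 456) (nat_lit 0) (XT.nd (nat_lit 312) (nat_lit 304) (nat_lit 0) (XT.nd (nat_lit 156) (nat_lit 152) (nat_lit 0) (XT.nd (nat_lit 78) (nat_lit 76) (nat_lit 0) (XT.lf (nat_lit 0) (nat_lit 6264267365) (nat_lit 152) (nat_lit 4426580481) (nat_lit 76) (nat_lit 12994508960) (nat_lit 63) (nat_lit 5) (nat_lit 65) (nat_lit 5) (nat_lit 64) (nat_lit 4) (nat_lit 506) (nat_lit 381) (nat_lit 313)) (XT.lf (nat_lit 0) (nat_lit 10984021914) (nat_lit 76) (nat_lit 2909731029) (nat_lit 152) (nat_lit 10261532897) (nat_lit 62) (nat_lit 5) (nat_lit 63) (nat_lit 5) (nat_lit 64) (nat_lit 4) (nat_lit 507) (nat_lit 381) (nat_lit 312))) (XT.nd (nat_lit 78) (nat_lit 76) (nat_lit 0) (XT.lf (nat_lit 0) (nat_lit 2207142567) (nat_lit 76) (nat_lit 19610873559) (nat_lit 76) (nat_lit 2819320362) (nat_lit 61) (nat_lit 4) (nat_lit 62) (nat_lit 5) (nat_lit 62) (nat_lit 4) (nat_lit 508) (nat_lit 381) (nat_lit 311)) (XT.lf (nat_lit 0) (nat_lit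 4865228314) (nat_lit 152) (nat_lit 6985837457) (nat_lit 76) (nat_lit 13277976789) (nat_lit 60) (nat_lit 5) (nat_lit 62) (nat_lit 5) (nat_lit 61) (nat_lit 4) (nat_lit 509) (nat_lit 381) (nat_lit 310)))) (XT.nd (nat_lit 156) (nat_lit 228) (nat_lit 0) (XT.nd (nat_lit 78) (nat_lit 0) (nat_lit 0) (XT.lf (nat_lit 0) (nat_lit 8975717374) (nat_lit 76) (nat_lit 3786157941) (nat_lit 152) (nat_lit 12871640745) (nat_lit 59) (nat_lit 5) (nat_lit 60) (nat_lit 5) (nat_lit 61) (nat_lit 4) (nat_lit 510) (nat_lit 381) (nat_lit 309)) (XT.lf (nat_lit 0) (nat_lit 20962145661) (nat_lit 152) (nat_lit 729286459) (nat_lit 0) (nat_lit 4459690402) (nat_lit 59) (nat_lit 5) (nat_lit 61) (nat_lit 4) (nat_lit 59) (nat_lit 4) (nat_lit 511) (nat_lit 381) (nat_lit 308))) (XT.nd (nat_lit 78) (nat_lit 76) (nat_lit 0) (XT.lf (nat_lit 0) (nat_lit 2815777901) (nat_lit 152) (nat_lit 10849240142) (nat_lit 76) (nat_lit 13014110914) (nat_lit 57) (nat_lit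 5) (nat_lit 59) (nat_lit 5) (nat_lit 58) (nat_lit 4) (nat_lit 512) (nat_lit 381) (nat_lit 307)) (XT.lf (nat_lit 0) (nat_lit 5645997193) (nat_lit 76) (nat_lit 5325555006) (nat_lit 152) (nat_lit 16249427436) (nat_lit 56) (nat_lit 5) (nat_lit 57) (nat_lit 5) (nat_lit 58) (nat_lit 4) (nat_lit 513) (nat_lit 381) (nat_lit 306))))) (XT.nd (nat_lit 312) (nat_lit 228) (nat_lit 0) (XT.nd (nat_lit 156) (nat_lit 152) (nat_lit 0) (XT.nd (nat_lit 78) (nat_lit 76) (nat_lit 0) (XT.lf (nat_lit 0) (nat_lit 19467547436) (nat_lit 152) (nat_lit 5040602639) (nat_lit 0) (nat_lit 3268069750) (nat_lit 56) (nat_lit 5) (nat_lit 58) (nat_lit 4) (nat_lit 56) (nat_lit 4) (nat_lit 514) (nat_lit 381) (nat_lit 305)) (XT.lf (nat_lit 0) (nat_lit 12084709352) (nat_lit 76) (nat_lit 16257491039) (nat_lit 76) (nat_lit 2203905) (nat_lit 55) (nat_lit 4) (nat_lit 56) (nat_lit 5) (nat_lit 56) (nat_lit 4) (nat_lit 515) (nat_lit 381) (nat_lit 304))) (XT.nd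 (nat_lit 78) (nat_lit 0) (nat_lit 0) (XT.lf (nat_lit 0) (nat_lit 742545307) (nat_lit 76) (nat_lit 7657462756) (nat_lit 152) (nat_lit 20526756244) (nat_lit 53) (nat_lit 5) (nat_lit 54) (nat_lit 5) (nat_lit 55) (nat_lit 4) (nat_lit 516) (nat_lit 381) (nat_lit 303)) (XT.lf (nat_lit 0) (nat_lit 17186578134) (nat_lit 152) (nat_lit 11034979968) (nat_lit 0) (nat_lit 1301066658) (nat_lit 53) (nat_lit 5) (nat_lit 55) (nat_lit 4) (nat_lit 53) (nat_lit 4) (nat_lit 517) (nat_lit 381) (nat_lit 302)))) (XT.nd (nat_lit 156) (nat_lit 76) (nat_lit 0) (XT.nd (nat_lit 78) (nat_lit 76) (nat_lit 0) (XT.lf (nat_lit 0) (nat_lit 6595918146) (nat_lit 76) (nat_lit 19736337688) (nat_lit 76) (nat_lit 3801240240) (nat_lit 52) (nat_lit 4) (nat_lit 53) (nat_lit 5) (nat_lit 53) (nat_lit 4) (nat_lit 518) (nat_lit 381) (nat_lit 301)) (XT.lf (nat_lit 0) (nat_lit 4961098754) (nat_lit 152) (nat_lit 5912208696) (nat_lit 76) (nat_lit 19885881916) (nat_lit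 51) (nat_lit 5) (nat_lit 53) (nat_lit 5) (nat_lit 52) (nat_lit 4) (nat_lit 519) (nat_lit 381) (nat_lit 300))) (XT.nd (nat_lit 78) (nat_lit 0) (nat_lit 0) (XT.lf (nat_lit 0) (nat_lit 12362274261) (nat_lit 76) (nat_lit 1624057247) (nat_lit 152) (nat_lit 17413900457) (nat_lit 50) (nat_lit 5) (nat_lit 51) (nat_lit 5) (nat_lit 52) (nat_lit 4) (nat_lit 520) (nat_lit 381) (nat_lit 299)) (XT.lf (nat_lit 0) (nat_lit 23376224309) (nat_lit 152) (nat_lit 912383068) (nat_lit 0) (nat_lit 7769081698) (nat_lit 50) (nat_lit 5) (nat_lit 52) (nat_lit 4) (nat_lit 50) (nat_lit 4) (nat_lit 521) (nat_lit 381) (nat_lit 298))))))))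
noncomputable def xc56 : XT := (XT.nd (nat_lit 2418) (nat_lit 76) (nat_lit 0) (XT.nd (nat_lit 1170) (nat_lit 836) (nat_lit 0) (XT.nd (nat_lit 546) (nat_lit 532) (nat_lit 0) (XT.nd (nat_lit 234) (nat_lit 228) (nat_lit 0) (XT.nd (nat_lit 78) (nat_lit 76) (nat_lit 0) (XT.lf (nat_lit 0) (nat_lit 456398997) (nat_lit 152) (nat_lit 14723425941) (nat_lit 76) (nat_lit 17550468169) (nat_lit 48) (nat_lit 5) (nat_lit 50) (nat_lit 5) (nat_lit 49) (nat_lit 4) (nat_lit 522) (nat_lit 381) (nat_lit 297)) (XT.nd (nat_lit 78) (nat_lit 0) (nat_lit 0) (XT.lf (nat_lit 0) (nat_lit 4000723981) (nat_lit 76) (nat_lit 5699851071) (nat_lit 152) (nat_lit 23719721894) (nat_lit 47) (nat_lit 5) (nat_lit 48) (nat_lit 5) (nat_lit 49) (nat_lit 4) (nat_lit 523) (nat_lit 381) (nat_lit 296)) (XT.lf (nat_lit 0) (nat_lit 19370248084) (nat_lit 152) (nat_lit 10659614539) (nat_lit 0) (nat_lit 4096693415) (nat_lit 47) (nat_lit 5) (nat_lit 49) (nat_lit 4)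 (nat_lit 47) (nat_lit 4) (nat_lit 524) (nat_lit 381) (nat_lit 295)))) (XT.nd (nat_lit 156) (nat_lit 76) (nat_lit 0) (XT.nd (nat_lit 78) (nat_lit 76) (nat_lit 0) (XT.lf (nat_lit 0) (nat_lit 8697846986) (nat_lit 76) (nat_lit 20732354341) (nat_lit 76) (nat_lit 5420796155) (nat_lit 46) (nat_lit 4) (nat_lit 47) (nat_lit 5) (nat_lit 47) (nat_lit 4) (nat_lit 525) (nat_lit 381) (nat_lit 294)) (XT.lf (nat_lit 0) (nat_lit 4181801479) (nat_lit 152) (nat_lit 6859397802) (nat_lit 76) (nat_lit 24552697193) (nat_lit 45) (nat_lit 5) (nat_lit 47) (nat_lit 5) (nat_lit 46) (nat_lit 4) (nat_lit 526) (nat_lit 381) (nat_lit 293))) (XT.nd (nat_lit 78) (nat_lit 0) (nat_lit 0) (XT.lf (nat_lit 0) (nat_lit 13139575977) (nat_lit 76) (nat_lit 911583009) (nat_lit 152) (nat_lit 22303684532) (nat_lit 44) (nat_lit 5) (nat_lit 45) (nat_lit 5) (nat_lit 46) (nat_lit 4) (nat_lit 527) (nat_lit 381) (nat_lit 292)) (XT.lf (nat_lit 0) (nat_lit 24339450300)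 (nat_lit 152) (nat_lit 3425989699) (nat_lit 0) (nat_lit 9369493630) (nat_lit 44) (nat_lit 5) (nat_lit 46) (nat_lit 4) (nat_lit 44) (nat_lit 4) (nat_lit 528) (nat_lit 381) (nat_lit 291))))) (XT.nd (nat_lit 312) (nat_lit 228) (nat_lit 0) (XT.nd (nat_lit 156) (nat_lit 152) (nat_lit 0) (XT.nd (nat_lit 78) (nat_lit 76) (nat_lit 0) (XT.lf (nat_lit 0) (nat_lit 17209624531) (nat_lit 76) (nat_lit 17863716240) (nat_lit 76) (nat_lit 2860977401) (nat_lit 43) (nat_lit 4) (nat_lit 44) (nat_lit 5) (nat_lit 44) (nat_lit 4) (nat_lit 529) (nat_lit 381) (nat_lit 290)) (XT.lf (nat_lit 0) (nat_lit 7225170621) (nat_lit 152) (nat_lit 367469825) (nat_lit 76) (nat_lit 31162994653) (nat_lit 42) (nat_lit 5) (nat_lit 44) (nat_lit 5) (nat_lit 43) (nat_lit 4) (nat_lit 530) (nat_lit 381) (nat_lit 289))) (XT.nd (nat_lit 78) (nat_lit 76) (nat_lit 0) (XT.lf (nat_lit 0) (nat_lit 17751625129) (nat_lit 152) (nat_lit 18718301482) (nat_lit 0) (nat_lit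 3124958601) (nat_lit 41) (nat_lit 5) (nat_lit 43) (nat_lit 4) (nat_lit 41) (nat_lit 4) (nat_lit 531) (nat_lit 381) (nat_lit 288)) (XT.lf (nat_lit 0) (nat_lit 2202014501) (nat_lit 76) (nat_lit 26455589836) (nat_lit 76) (nat_lit 11799796775) (nat_lit 40) (nat_lit 4) (nat_lit 41) (nat_lit 5) (nat_lit 41) (nat_lit 4) (nat_lit 532) (nat_lit 381) (nat_lit 287)))) (XT.nd (nat_lit 156) (nat_lit 76) (nat_lit 0) (XT.nd (nat_lit 78) (nat_lit 152) (nat_lit 0) (XT.lf (nat_lit 0) (nat_lit 24062319514) (nat_lit 76) (nat_lit 15981476715) (nat_lit 76) (nat_lit 1297405468) (nat_lit 40) (nat_lit 4) (nat_lit 41) (nat_lit 5) (nat_lit 41) (nat_lit 4) (nat_lit 533) (nat_lit 381) (nat_lit 286)) (XT.lf (nat_lit 0) (nat_lit 4248353252) (nat_lit 76) (nat_lit 5091488643) (nat_lit 152) (nat_lit 32908762573) (nat_lit 38) (nat_lit 5) (nat_lit 39) (nat_lit 5) (nat_lit 40) (nat_lit 4) (nat_lit 534) (nat_lit 381) (nat_lit 285))) (XT.nd (nat_lit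 78) (nat_lit 76) (nat_lit 0) (XT.lf (nat_lit 0) (nat_lit 20469968498) (nat_lit 152) (nat_lit 16545825301) (nat_lit 0) (nat_lit 6161055196) (nat_lit 38) (nat_lit 5) (nat_lit 40) (nat_lit 4) (nat_lit 38) (nat_lit 4) (nat_lit 535) (nat_lit 381) (nat_lit 284)) (XT.lf (nat_lit 0) (nat_lit 5542021742) (nat_lit 76) (nat_lit 26461436807) (nat_lit 76) (nat_lit 12127398703) (nat_lit 37) (nat_lit 4) (nat_lit 38) (nat_lit 5) (nat_lit 38) (nat_lit 4) (nat_lit 536) (nat_lit 381) (nat_lit 283)))))) (XT.nd (nat_lit 624) (nat_lit 380) (nat_lit 0) (XT.nd (nat_lit 312) (nat_lit 228) (nat_lit 0) (XT.nd (nat_lit 156) (nat_lit 76) (nat_lit 0) (XT.nd (nat_lit 78) (nat_lit 152) (nat_lit 0) (XT.lf (nat_lit 0) (nat_lit 28564397853) (nat_lit 76) (nat_lit 15451761509) (nat_lit 76) (nat_lit 1093330392) (nat_lit 37) (nat_lit 4) (nat_lit 38) (nat_lit 5) (nat_lit 38) (nat_lit 4) (nat_lit 537) (nat_lit 381) (nat_lit 282)) (XT.lf (nat_lit 0) (nat_lit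 6114561567) (nat_lit 76) (nat_lit 3982322777) (nat_lit 152) (nat_lit 36016868001) (nat_lit 35) (nat_lit 5) (nat_lit 36) (nat_lit 5) (nat_lit 37) (nat_lit 4) (nat_lit 538) (nat_lit 381) (nat_lit 281))) (XT.nd (nat_lit 78) (nat_lit 76) (nat_lit 0) (XT.lf (nat_lit 0) (nat_lit 21811649947) (nat_lit 152) (nat_lit 17503733953) (nat_lit 0) (nat_lit 7826109747) (nat_lit 35) (nat_lit 5) (nat_lit 37) (nat_lit 4) (nat_lit 35) (nat_lit 4) (nat_lit 539) (nat_lit 381) (nat_lit 280)) (XT.lf (nat_lit 0) (nat_lit 5673787637) (nat_lit 76) (nat_lit 28265820155) (nat_lit 76) (nat_lit 14258607079) (nat_lit 34) (nat_lit 4) (nat_lit 35) (nat_lit 5) (nat_lit 35) (nat_lit 4) (nat_lit 540) (nat_lit 381) (nat_lit 279)))) (XT.nd (nat_lit 156) (nat_lit 76) (nat_lit 0) (XT.nd (nat_lit 78) (nat_lit 152) (nat_lit 0) (XT.lf (nat_lit 0) (nat_lit 29841986521) (nat_lit 76) (nat_lit 16734280099) (nat_lit 76) (nat_lit 2706025397) (nat_lit 34) (nat_lit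 4) (nat_lit 35) (nat_lit 5) (nat_lit 35) (nat_lit 4) (nat_lit 541) (nat_lit 381) (nat_lit 278)) (XT.lf (nat_lit 0) (nat_lit 4269042344) (nat_lit 76) (nat_lit 4754467906) (nat_lit 152) (nat_lit 41372437243) (nat_lit 32) (nat_lit 5) (nat_lit 33) (nat_lit 5) (nat_lit 34) (nat_lit 4) (nat_lit 542) (nat_lit 381) (nat_lit 277))) (XT.nd (nat_lit 78) (nat_lit 76) (nat_lit 0) (XT.lf (nat_lit 0) (nat_lit 21290459898) (nat_lit 152) (nat_lit 22612846299) (nat_lit 0) (nat_lit 7631705318) (nat_lit 32) (nat_lit 5) (nat_lit 34) (nat_lit 4) (nat_lit 32) (nat_lit 4) (nat_lit 543) (nat_lit 381) (nat_lit 276)) (XT.lf (nat_lit 0) (nat_lit 1528953408) (nat_lit 76) (nat_lit 32427900452) (nat_lit 76) (nat_lit 18750450660) (nat_lit 31) (nat_lit 4) (nat_lit 32) (nat_lit 5) (nat_lit 32) (nat_lit 4) (nat_lit 544) (nat_lit 381) (nat_lit 275))))) (XT.nd (nat_lit 312) (nat_lit 228) (nat_lit 0) (XT.nd (nat_lit 156) (nat_lit 76) (nat_lit 0) (XT.nd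 (nat_lit 78) (nat_lit 76) (nat_lit 0) (XT.lf (nat_lit 0) (nat_lit 26798698503) (nat_lit 76) (nat_lit 20402859440) (nat_lit 76) (nat_lit 6707258956) (nat_lit 31) (nat_lit 4) (nat_lit 32) (nat_lit 5) (nat_lit 32) (nat_lit 4) (nat_lit 545) (nat_lit 381) (nat_lit 274)) (XT.lf (nat_lit 0) (nat_lit 5556613752) (nat_lit 152) (nat_lit 2433296596) (nat_lit 76) (nat_lit 47155704708) (nat_lit 30) (nat_lit 5) (nat_lit 32) (nat_lit 5) (nat_lit 31) (nat_lit 4) (nat_lit 546) (nat_lit 381) (nat_lit 273))) (XT.nd (nat_lit 78) (nat_lit 0) (nat_lit 0) (XT.lf (nat_lit 0) (nat_lit 18297831665) (nat_lit 152) (nat_lit 33144953270) (nat_lit 0) (nat_lit 4967412943) (nat_lit 29) (nat_lit 5) (nat_lit 31) (nat_lit 4) (nat_lit 29) (nat_lit 4) (nat_lit 547) (nat_lit 381) (nat_lit 272)) (XT.lf (nat_lit 0) (nat_lit 31496644900) (nat_lit 152) (nat_lit 8063713114) (nat_lit 0) (nat_lit 18150099524) (nat_lit 29) (nat_lit 5) (nat_lit 31) (nat_lit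 4) (nat_lit 29) (nat_lit 4) (nat_lit 548) (nat_lit 381) (nat_lit 271)))) (XT.nd (nat_lit 156) (nat_lit 152) (nat_lit 0) (XT.nd (nat_lit 78) (nat_lit 0) (nat_lit 0) (XT.lf (nat_lit 0) (nat_lit 18067177215) (nat_lit 76) (nat_lit 27170185996) (nat_lit 76) (nat_lit 13807983674) (nat_lit 28) (nat_lit 4) (nat_lit 29) (nat_lit 5) (nat_lit 29) (nat_lit 4) (nat_lit 549) (nat_lit 381) (nat_lit 270)) (XT.lf (nat_lit 0) (nat_lit 45092492310) (nat_lit 76) (nat_lit 14351787327) (nat_lit 76) (nat_lit 974384087) (nat_lit 28) (nat_lit 4) (nat_lit 29) (nat_lit 5) (nat_lit 29) (nat_lit 4) (nat_lit 550) (nat_lit 381) (nat_lit 269))) (XT.nd (nat_lit 78) (nat_lit 0) (nat_lit 0) (XT.lf (nat_lit 0) (nat_lit 11141355991) (nat_lit 76) (nat_lit 944120562) (nat_lit 152) (nat_lit 49741767193) (nat_lit 26) (nat_lit 5) (nat_lit 27) (nat_lit 5) (nat_lit 28) (nat_lit 4) (nat_lit 551) (nat_lit 381) (nat_lit 268)) (XT.lf (nat_lit 0) (nat_lit 25770620639)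 (nat_lit 152) (nat_lit 24744967876) (nat_lit 0) (nat_lit 12754611184) (nat_lit 26) (nat_lit 5) (nat_lit 28) (nat_lit 4) (nat_lit 26) (nat_lit 4) (nat_lit 552) (nat_lit 381) (nat_lit 267))))))) (XT.nd (nat_lit 54366) (nat_lit 0) (nat_lit 8208) (XT.nd (nat_lit 53742) (nat_lit 0) (nat_lit 12160) (XT.nd (nat_lit 53430) (nat_lit 0) (nat_lit 14972) (XT.nd (nat_lit 78) (nat_lit 0) (nat_lit 0) (XT.lf (nat_lit 0) (nat_lit 1950705963) (nat_lit 76) (nat_lit 37917597109) (nat_lit 76) (nat_lit 24888081835) (nat_lit 25) (nat_lit 4) (nat_lit 26) (nat_lit 5) (nat_lit 26) (nat_lit 4) (nat_lit 553) (nat_lit 381) (nat_lit 266)) (XT.nd (nat_lit 53274) (nat_lit 0) (nat_lit 16492) (XT.lf (nat_lit 0) (nat_lit 29902818071) (nat_lit 76) (nat_lit 24710122342) (nat_lit 76) (nat_lit 11667494622) (nat_lit 25) (nat_lit 4) (nat_lit 26) (nat_lit 5) (nat_lit 26) (nat_lit 4) (nat_lit 554) (nat_lit 381) (nat_lit 265)) (XT.lf (nat_lit 0) (nat_lit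 632263635) (nat_lit 532) (nat_lit 2648879033) (nat_lit 0) (nat_lit 632263635) (nat_lit 242) (nat_lit 5) (nat_lit 249) (nat_lit 4) (nat_lit 242) (nat_lit 4) (nat_lit 436) (nat_lit 382) (nat_lit 382)))) (XT.nd (nat_lit 156) (nat_lit 988) (nat_lit 0) (XT.nd (nat_lit 78) (nat_lit 76) (nat_lit 0) (XT.lf (nat_lit 0) (nat_lit 1131122465) (nat_lit 456) (nat_lit 4027736709) (nat_lit 456) (nat_lit 2747018621) (nat_lit 236) (nat_lit 4) (nat_lit 242) (nat_lit 5) (nat_lit 242) (nat_lit 4) (nat_lit 437) (nat_lit 382) (nat_lit 381)) (XT.lf (nat_lit 0) (nat_lit 1111607656) (nat_lit 532) (nat_lit 267570164) (nat_lit 76) (nat_lit 6609245516) (nat_lit 235) (nat_lit 5) (nat_lit 242) (nat_lit 5) (nat_lit 236) (nat_lit 4) (nat_lit 438) (nat_lit 382) (nat_lit 380))) (XT.nd (nat_lit 78) (nat_lit 532) (nat_lit 0) (XT.lf (nat_lit 0) (nat_lit 5006845801) (nat_lit 532) (nat_lit 1682318074) (nat_lit 0) (nat_lit 1384192075) (nat_lit 229) (nat_lit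 5) (nat_lit 236) (nat_lit 4) (nat_lit 229) (nat_lit 4) (nat_lit 439) (nat_lit 382) (nat_lit 379)) (XT.lf (nat_lit 0) (nat_lit 808273685) (nat_lit 532) (nat_lit 3119759577) (nat_lit 76) (nat_lit 4233556529) (nat_lit 222) (nat_lit 5) (nat_lit 229) (nat_lit 5) (nat_lit 223) (nat_lit 4) (nat_lit 440) (nat_lit 382) (nat_lit 378))))) (XT.nd (nat_lit 312) (nat_lit 1520) (nat_lit 0) (XT.nd (nat_lit 156) (nat_lit 380) (nat_lit 0) (XT.nd (nat_lit 78) (nat_lit 532) (nat_lit 0) (XT.lf (nat_lit 0) (nat_lit 3661469528) (nat_lit 380) (nat_lit 1031527200) (nat_lit 456) (nat_lit 3559911074) (nat_lit 217) (nat_lit 5) (nat_lit 222) (nat_lit 5) (nat_lit 223) (nat_lit 4) (nat_lit 441) (nat_lit 382) (nat_lit 377)) (XT.lf (nat_lit 0) (nat_lit 316815015) (nat_lit 532) (nat_lit 6092685971) (nat_lit 76) (nat_lit 1938082772) (nat_lit 210) (nat_lit 5) (nat_lit 217) (nat_lit 5) (nat_lit 211) (nat_lit 4) (nat_lit 442) (nat_lit 382) (nat_lit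 376))) (XT.nd (nat_lit 78) (nat_lit 0) (nat_lit 0) (XT.lf (nat_lit 0) (nat_lit 795054138) (nat_lit 380) (nat_lit 3412771120) (nat_lit 456) (nat_lit 4237138559) (nat_lit 205) (nat_lit 5) (nat_lit 210) (nat_lit 5) (nat_lit 211) (nat_lit 4) (nat_lit 443) (nat_lit 382) (nat_lit 375)) (XT.lf (nat_lit 0) (nat_lit 7884034254) (nat_lit 380) (nat_lit 299428388) (nat_lit 456) (nat_lit 362772738) (nat_lit 205) (nat_lit 5) (nat_lit 210) (nat_lit 5) (nat_lit 211) (nat_lit 4) (nat_lit 444) (nat_lit 382) (nat_lit 374)))) (XT.nd (nat_lit 156) (nat_lit 760) (nat_lit 0) (XT.nd (nat_lit 78) (nat_lit 304) (nat_lit 0) (XT.lf (nat_lit 0) (nat_lit 3556254776) (nat_lit 456) (nat_lit 2180190616) (nat_lit 76) (nat_lit 2913083437) (nat_lit 199) (nat_lit 5) (nat_lit 205) (nat_lit 5) (nat_lit 200) (nat_lit 4) (nat_lit 445) (nat_lit 382) (nat_lit 373)) (XT.lf (nat_lit 0) (nat_lit 5034872238) (nat_lit 304) (nat_lit 2518098179) (nat_lit 380)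 (nat_lit 1203827061) (nat_lit 195) (nat_lit 5) (nat_lit 199) (nat_lit 5) (nat_lit 200) (nat_lit 4) (nat_lit 446) (nat_lit 382) (nat_lit 372))) (XT.nd (nat_lit 78) (nat_lit 304) (nat_lit 0) (XT.lf (nat_lit 0) (nat_lit 2721958211) (nat_lit 456) (nat_lit 5318856295) (nat_lit 76) (nat_lit 826437464) (nat_lit 189) (nat_lit 5) (nat_lit 195) (nat_lit 5) (nat_lit 190) (nat_lit 4) (nat_lit 447) (nat_lit 382) (nat_lit 371)) (XT.lf (nat_lit 0) (nat_lit 2004139025) (nat_lit 304) (nat_lit 4730153928) (nat_lit 380) (nat_lit 2246586290) (nat_lit 185) (nat_lit 5) (nat_lit 189) (nat_lit 5) (nat_lit 190) (nat_lit 4) (nat_lit 448) (nat_lit 382) (nat_lit 370)))))) (XT.nd (nat_lit 624) (nat_lit 1900) (nat_lit 0) (XT.nd (nat_lit 312) (nat_lit 988) (nat_lit 0) (XT.nd (nat_lit 156) (nat_lit 684) (nat_lit 0) (XT.nd (nat_lit 78) (nat_lit 0) (nat_lit 0) (XT.lf (nat_lit 0) (nat_lit 418722592) (nat_lit 304) (nat_lit 1285399806) (nat_lit 380)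 (nat_lit 7394201468) (nat_lit 180) (nat_lit 5) (nat_lit 184) (nat_lit 5) (nat_lit 185) (nat_lit 5) (nat_lit 449) (nat_lit 382) (nat_lit 369)) (XT.lf (nat_lit 0) (nat_lit 5733312826) (nat_lit 380) (nat_lit 1215192775) (nat_lit 76) (nat_lit 2269970853) (nat_lit 180) (nat_lit 5) (nat_lit 185) (nat_lit 5) (nat_lit 181) (nat_lit 4) (nat_lit 450) (nat_lit 382) (nat_lit 368))) (XT.nd (nat_lit 78) (nat_lit 304) (nat_lit 0) (XT.lf (nat_lit 0) (nat_lit 520053513) (nat_lit 380) (nat_lit 2889744605) (nat_lit 76) (nat_lit 5932600472) (nat_lit 175) (nat_lit 5) (nat_lit 180) (nat_lit 5) (nat_lit 176) (nat_lit 5) (nat_lit 451) (nat_lit 382) (nat_lit 367)) (XT.lf (nat_lit 0) (nat_lit 4552217911) (nat_lit 380) (nat_lit 4635984043) (nat_lit 76) (nat_lit 281500983) (nat_lit 171) (nat_lit 5) (nat_lit 176) (nat_lit 5) (nat_lit 172) (nat_lit 4) (nat_lit 452) (nat_lit 382) (nat_lit 366)))) (XT.nd (nat_lit 156) (nat_lit 304) (nat_lit 0)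 (XT.nd (nat_lit 78) (nat_lit 380) (nat_lit 0) (XT.lf (nat_lit 0) (nat_lit 3145718928) (nat_lit 304) (nat_lit 5569109888) (nat_lit 380) (nat_lit 885717921) (nat_lit 167) (nat_lit 5) (nat_lit 171) (nat_lit 5) (nat_lit 172) (nat_lit 4) (nat_lit 453) (nat_lit 382) (nat_lit 365)) (XT.lf (nat_lit 0) (nat_lit 1387008092) (nat_lit 304) (nat_lit 1793253446) (nat_lit 380) (nat_lit 6554806368) (nat_lit 162) (nat_lit 5) (nat_lit 166) (nat_lit 5) (nat_lit 167) (nat_lit 5) (nat_lit 454) (nat_lit 382) (nat_lit 364))) (XT.nd (nat_lit 78) (nat_lit 304) (nat_lit 0) (XT.lf (nat_lit 0) (nat_lit 7353540153) (nat_lit 380) (nat_lit 435751635) (nat_lit 76) (nat_lit 2083980549) (nat_lit 162) (nat_lit 5) (nat_lit 167) (nat_lit 5) (nat_lit 163) (nat_lit 4) (nat_lit 455) (nat_lit 382) (nat_lit 363)) (XT.lf (nat_lit 0) (nat_lit 1616095186) (nat_lit 304) (nat_lit 2311439488) (nat_lit 76) (nat_lit 6087271454) (nat_lit 158) (nat_lit 5) (nat_lit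 162) (nat_lit 5) (nat_lit 159) (nat_lit 5) (nat_lit 456) (nat_lit 382) (nat_lit 362))))) (XT.nd (nat_lit 312) (nat_lit 1064) (nat_lit 0) (XT.nd (nat_lit 156) (nat_lit 304) (nat_lit 0) (XT.nd (nat_lit 78) (nat_lit 228) (nat_lit 0) (XT.lf (nat_lit 0) (nat_lit 5807273390) (nat_lit 380) (nat_lit 4263531753) (nat_lit 76) (nat_lit 89578746) (nat_lit 154) (nat_lit 5) (nat_lit 159) (nat_lit 5) (nat_lit 155) (nat_lit 4) (nat_lit 457) (nat_lit 382) (nat_lit 361)) (XT.lf (nat_lit 0) (nat_lit 3999937040) (nat_lit 228) (nat_lit 6145728889) (nat_lit 304) (nat_lit 164022563) (nat_lit 151) (nat_lit 5) (nat_lit 154) (nat_lit 5) (nat_lit 155) (nat_lit 4) (nat_lit 458) (nat_lit 382) (nat_lit 360))) (XT.nd (nat_lit 78) (nat_lit 0) (nat_lit 0) (XT.lf (nat_lit 0) (nat_lit 2006897133) (nat_lit 228) (nat_lit 2046501150) (nat_lit 304) (nat_lit 6409370941) (nat_lit 147) (nat_lit 5) (nat_lit 150) (nat_lit 5) (nat_lit 151) (nat_lit 5) (nat_lit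 459) (nat_lit 382) (nat_lit 359)) (XT.lf (nat_lit 0) (nat_lit 8400800089) (nat_lit 304) (nat_lit 68389860) (nat_lit 76) (nat_lit 2151004608) (nat_lit 147) (nat_lit 5) (nat_lit 151) (nat_lit 5) (nat_lit 148) (nat_lit 4) (nat_lit 460) (nat_lit 382) (nat_lit 358)))) (XT.nd (nat_lit 156) (nat_lit 532) (nat_lit 0) (XT.nd (nat_lit 78) (nat_lit 228) (nat_lit 0) (XT.lf (nat_lit 0) (nat_lit 2082277902) (nat_lit 304) (nat_lit 2209149415) (nat_lit 76) (nat_lit 6489507080) (nat_lit 143) (nat_lit 5) (nat_lit 147) (nat_lit 5) (nat_lit 144) (nat_lit 5) (nat_lit 461) (nat_lit 382) (nat_lit 357)) (XT.lf (nat_lit 0) (nat_lit 6456162833) (nat_lit 304) (nat_lit 4441250322) (nat_lit 76) (nat_lit 48794199) (nat_lit 140) (nat_lit 5) (nat_lit 144) (nat_lit 5) (nat_lit 141) (nat_lit 4) (nat_lit 462) (nat_lit 382) (nat_lit 356))) (XT.nd (nat_lit 78) (nat_lit 304) (nat_lit 0) (XT.lf (nat_lit 0) (nat_lit 4325550283) (nat_lit 228) (nat_lit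 6666912979) (nat_lit 304) (nat_lit 123042422) (nat_lit 137) (nat_lit 5) (nat_lit 140) (nat_lit 5) (nat_lit 141) (nat_lit 4) (nat_lit 463) (nat_lit 382) (nat_lit 355)) (XT.lf (nat_lit 0) (nat_lit 2028532648) (nat_lit 228) (nat_lit 2250713600) (nat_lit 304) (nat_lit 7009688607) (nat_lit 133) (nat_lit 5) (nat_lit 136) (nat_lit 5) (nat_lit 137) (nat_lit 5) (nat_lit 464) (nat_lit 382) (nat_lit 354))))))))
noncomputable def xc57 : XT := (XT.nd (nat_lit 2418) (nat_lit 2432) (nat_lit 0) (XT.nd (nat_lit 1170) (nat_lit 1900) (nat_lit 0) (XT.nd (nat_lit 546) (nat_lit 1216) (nat_lit 0) (XT.nd (nat_lit 234) (nat_lit 684) (nat_lit 0) (XT.nd (nat_lit 78) (nat_lit 456) (nat_lit 0) (XT.lf (nat_lit 0) (nat_lit 8827815676) (nat_lit 304) (nat_lit 365642782) (nat_lit 76) (nat_lit 2273574227) (nat_lit 133) (nat_lit 5) (nat_lit 137) (nat_lit 5) (nat_lit 134) (nat_lit 4) (nat_lit 465) (nat_lit 382) (nat_lit 353)) (XT.nd (nat_lit 78) (nat_lit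 228) (nat_lit 0) (XT.lf (nat_lit 0) (nat_lit 1860985715) (nat_lit 228) (nat_lit 2845058974) (nat_lit 76) (nat_lit 6942845661) (nat_lit 130) (nat_lit 5) (nat_lit 133) (nat_lit 5) (nat_lit 131) (nat_lit 5) (nat_lit 466) (nat_lit 382) (nat_lit 352)) (XT.lf (nat_lit 0) (nat_lit 6394968402) (nat_lit 228) (nat_lit 41134567) (nat_lit 304) (nat_lit 5399530869) (nat_lit 127) (nat_lit 5) (nat_lit 130) (nat_lit 5) (nat_lit 131) (nat_lit 5) (nat_lit 467) (nat_lit 382) (nat_lit 351)))) (XT.nd (nat_lit 156) (nat_lit 228) (nat_lit 0) (XT.nd (nat_lit 78) (nat_lit 304) (nat_lit 0) (XT.lf (nat_lit 0) (nat_lit 3848534727) (nat_lit 152) (nat_lit 7339932026) (nat_lit 228) (nat_lit 838315650) (nat_lit 125) (nat_lit 5) (nat_lit 127) (nat_lit 5) (nat_lit 128) (nat_lit 4) (nat_lit 468) (nat_lit 382) (nat_lit 350)) (XT.lf (nat_lit 0) (nat_lit 1166531475) (nat_lit 228) (nat_lit 2613392546) (nat_lit 304) (nat_lit 8442765597) (nat_lit 121)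 (nat_lit 5) (nat_lit 124) (nat_lit 5) (nat_lit 125) (nat_lit 5) (nat_lit 469) (nat_lit 382) (nat_lit 349))) (XT.nd (nat_lit 78) (nat_lit 228) (nat_lit 0) (XT.lf (nat_lit 0) (nat_lit 8553742562) (nat_lit 304) (nat_lit 1617995393) (nat_lit 76) (nat_lit 2251473008) (nat_lit 121) (nat_lit 5) (nat_lit 125) (nat_lit 5) (nat_lit 122) (nat_lit 4) (nat_lit 470) (nat_lit 382) (nat_lit 348)) (XT.lf (nat_lit 0) (nat_lit 859715635) (nat_lit 228) (nat_lit 4522226766) (nat_lit 76) (nat_lit 7246512244) (nat_lit 118) (nat_lit 5) (nat_lit 121) (nat_lit 5) (nat_lit 119) (nat_lit 5) (nat_lit 471) (nat_lit 382) (nat_lit 347))))) (XT.nd (nat_lit 312) (nat_lit 608) (nat_lit 0) (XT.nd (nat_lit 156) (nat_lit 228) (nat_lit 0) (XT.nd (nat_lit 78) (nat_lit 152) (nat_lit 0) (XT.lf (nat_lit 0) (nat_lit 5259061665) (nat_lit 228) (nat_lit 392056283) (nat_lit 304) (nat_lit 7187647031) (nat_lit 115) (nat_lit 5) (nat_lit 118) (nat_lit 5) (nat_lit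 119) (nat_lit 5) (nat_lit 472) (nat_lit 382) (nat_lit 346)) (XT.lf (nat_lit 0) (nat_lit 2248842421) (nat_lit 152) (nat_lit 8382210249) (nat_lit 228) (nat_lit 2422990330) (nat_lit 113) (nat_lit 5) (nat_lit 115) (nat_lit 5) (nat_lit 116) (nat_lit 4) (nat_lit 473) (nat_lit 382) (nat_lit 345))) (XT.nd (nat_lit 78) (nat_lit 152) (nat_lit 0) (XT.lf (nat_lit 0) (nat_lit 2448890406) (nat_lit 228) (nat_lit 895985930) (nat_lit 76) (nat_lit 9929805445) (nat_lit 112) (nat_lit 5) (nat_lit 115) (nat_lit 5) (nat_lit 113) (nat_lit 5) (nat_lit 474) (nat_lit 382) (nat_lit 344)) (XT.lf (nat_lit 0) (nat_lit 7460048196) (nat_lit 228) (nat_lit 4167944090) (nat_lit 76) (nat_lit 1871975037) (nat_lit 110) (nat_lit 5) (nat_lit 113) (nat_lit 5) (nat_lit 111) (nat_lit 4) (nat_lit 475) (nat_lit 382) (nat_lit 343)))) (XT.nd (nat_lit 156) (nat_lit 228) (nat_lit 0) (XT.nd (nat_lit 78) (nat_lit 228) (nat_lit 0) (XT.lf (nat_lit 0) (nat_lit 6121363686)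 (nat_lit 152) (nat_lit 6535172761) (nat_lit 228) (nat_lit 1074426967) (nat_lit 108) (nat_lit 5) (nat_lit 110) (nat_lit 5) (nat_lit 111) (nat_lit 4) (nat_lit 476) (nat_lit 382) (nat_lit 342)) (XT.lf (nat_lit 0) (nat_lit 2732703416) (nat_lit 152) (nat_lit 1231312951) (nat_lit 228) (nat_lit 10003625051) (nat_lit 105) (nat_lit 5) (nat_lit 107) (nat_lit 5) (nat_lit 108) (nat_lit 5) (nat_lit 477) (nat_lit 382) (nat_lit 341))) (XT.nd (nat_lit 78) (nat_lit 228) (nat_lit 0) (XT.lf (nat_lit 0) (nat_lit 9184637802) (nat_lit 228) (nat_lit 838750262) (nat_lit 76) (nat_lit 4186135664) (nat_lit 105) (nat_lit 5) (nat_lit 108) (nat_lit 5) (nat_lit 106) (nat_lit 4) (nat_lit 478) (nat_lit 382) (nat_lit 340)) (XT.lf (nat_lit 0) (nat_lit 145585534) (nat_lit 228) (nat_lit 4523124568) (nat_lit 76) (nat_lit 9788592712) (nat_lit 102) (nat_lit 5) (nat_lit 105) (nat_lit 5) (nat_lit 103) (nat_lit 5) (nat_lit 479) (nat_lit 382) (nat_lit 339))))))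 (XT.nd (nat_lit 624) (nat_lit 912) (nat_lit 0) (XT.nd (nat_lit 312) (nat_lit 456) (nat_lit 0) (XT.nd (nat_lit 156) (nat_lit 228) (nat_lit 0) (XT.nd (nat_lit 78) (nat_lit 152) (nat_lit 0) (XT.lf (nat_lit 0) (nat_lit 5384419586) (nat_lit 228) (nat_lit 8426992649) (nat_lit 76) (nat_lit 899184738) (nat_lit 100) (nat_lit 5) (nat_lit 103) (nat_lit 5) (nat_lit 101) (nat_lit 4) (nat_lit 480) (nat_lit 382) (nat_lit 338)) (XT.lf (nat_lit 0) (nat_lit 2421958789) (nat_lit 152) (nat_lit 8410736764) (nat_lit 228) (nat_lit 4137227603) (nat_lit 98) (nat_lit 5) (nat_lit 100) (nat_lit 5) (nat_lit 101) (nat_lit 4) (nat_lit 481) (nat_lit 382) (nat_lit 337))) (XT.nd (nat_lit 78) (nat_lit 152) (nat_lit 0) (XT.lf (nat_lit 0) (nat_lit 1206534665) (nat_lit 228) (nat_lit 1593686353) (nat_lit 76) (nat_lit 12435780206) (nat_lit 97) (nat_lit 5) (nat_lit 100) (nat_lit 5) (nat_lit 98) (nat_lit 5) (nat_lit 482) (nat_lit 382) (nat_lit 336)) (XT.lf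 (nat_lit 0) (nat_lit 6689023049) (nat_lit 228) (nat_lit 5811815850) (nat_lit 76) (nat_lit 3006148211) (nat_lit 95) (nat_lit 5) (nat_lit 98) (nat_lit 5) (nat_lit 96) (nat_lit 4) (nat_lit 483) (nat_lit 382) (nat_lit 335)))) (XT.nd (nat_lit 156) (nat_lit 76) (nat_lit 0) (XT.nd (nat_lit 78) (nat_lit 228) (nat_lit 0) (XT.lf (nat_lit 0) (nat_lit 5537168793) (nat_lit 152) (nat_lit 6834858565) (nat_lit 228) (nat_lit 3412995315) (nat_lit 93) (nat_lit 5) (nat_lit 95) (nat_lit 5) (nat_lit 96) (nat_lit 4) (nat_lit 484) (nat_lit 382) (nat_lit 334)) (XT.lf (nat_lit 0) (nat_lit 1164708783) (nat_lit 152) (nat_lit 956789638) (nat_lit 228) (nat_lit 13948998621) (nat_lit 90) (nat_lit 5) (nat_lit 92) (nat_lit 5) (nat_lit 93) (nat_lit 5) (nat_lit 485) (nat_lit 382) (nat_lit 333))) (XT.nd (nat_lit 78) (nat_lit 76) (nat_lit 0) (XT.lf (nat_lit 0) (nat_lit 7846094201) (nat_lit 228) (nat_lit 3428593138) (nat_lit 76) (nat_lit 5086055818)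 (nat_lit 90) (nat_lit 5) (nat_lit 93) (nat_lit 5) (nat_lit 91) (nat_lit 4) (nat_lit 486) (nat_lit 382) (nat_lit 332)) (XT.lf (nat_lit 0) (nat_lit 8438336920) (nat_lit 76) (nat_lit 5335606498) (nat_lit 152) (nat_lit 2884808959) (nat_lit 89) (nat_lit 5) (nat_lit 90) (nat_lit 5) (nat_lit 91) (nat_lit 4) (nat_lit 487) (nat_lit 382) (nat_lit 331))))) (XT.nd (nat_lit 312) (nat_lit 380) (nat_lit 0) (XT.nd (nat_lit 156) (nat_lit 304) (nat_lit 0) (XT.nd (nat_lit 78) (nat_lit 0) (nat_lit 0) (XT.lf (nat_lit 0) (nat_lit 2876629665) (nat_lit 228) (nat_lit 13271625791) (nat_lit 76) (nat_lit 816020286) (nat_lit 86) (nat_lit 5) (nat_lit 89) (nat_lit 5) (nat_lit 87) (nat_lit 4) (nat_lit 488) (nat_lit 382) (nat_lit 330)) (XT.lf (nat_lit 0) (nat_lit 8830800380) (nat_lit 228) (nat_lit 1337125365) (nat_lit 76) (nat_lit 7107847155) (nat_lit 86) (nat_lit 5) (nat_lit 89) (nat_lit 5) (nat_lit 87) (nat_lit 4) (nat_lit 489) (nat_lit 382)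 (nat_lit 329))) (XT.nd (nat_lit 78) (nat_lit 228) (nat_lit 0) (XT.lf (nat_lit 0) (nat_lit 11064466693) (nat_lit 76) (nat_lit 3948411235) (nat_lit 152) (nat_lit 2582259651) (nat_lit 85) (nat_lit 5) (nat_lit 86) (nat_lit 5) (nat_lit 87) (nat_lit 4) (nat_lit 490) (nat_lit 382) (nat_lit 328)) (XT.lf (nat_lit 0) (nat_lit 3426583687) (nat_lit 228) (nat_lit 12029850113) (nat_lit 76) (nat_lit 2465522823) (nat_lit 82) (nat_lit 5) (nat_lit 85) (nat_lit 5) (nat_lit 83) (nat_lit 4) (nat_lit 491) (nat_lit 382) (nat_lit 327)))) (XT.nd (nat_lit 156) (nat_lit 304) (nat_lit 0) (XT.nd (nat_lit 78) (nat_lit 0) (nat_lit 0) (XT.lf (nat_lit 0) (nat_lit 400229168) (nat_lit 76) (nat_lit 9216277405) (nat_lit 152) (nat_lit 8639726171) (nat_lit 81) (nat_lit 5) (nat_lit 82) (nat_lit 5) (nat_lit 83) (nat_lit 4) (nat_lit 492) (nat_lit 382) (nat_lit 326)) (XT.lf (nat_lit 0) (nat_lit 13343755568) (nat_lit 76) (nat_lit 2713659881) (nat_lit 152)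 (nat_lit 2541163989) (nat_lit 81) (nat_lit 5) (nat_lit 82) (nat_lit 5) (nat_lit 83) (nat_lit 4) (nat_lit 493) (nat_lit 382) (nat_lit 325))) (XT.nd (nat_lit 78) (nat_lit 76) (nat_lit 0) (XT.lf (nat_lit 0) (nat_lit 3725548284) (nat_lit 228) (nat_lit 11253142590) (nat_lit 76) (nat_lit 3969682476) (nat_lit 78) (nat_lit 5) (nat_lit 81) (nat_lit 5) (nat_lit 79) (nat_lit 4) (nat_lit 494) (nat_lit 382) (nat_lit 324)) (XT.lf (nat_lit 0) (nat_lit 1711060236) (nat_lit 76) (nat_lit 8460084596) (nat_lit 152) (nat_lit 9135503571) (nat_lit 77) (nat_lit 5) (nat_lit 78) (nat_lit 5) (nat_lit 79) (nat_lit 4) (nat_lit 495) (nat_lit 382) (nat_lit 323))))))) (XT.nd (nat_lit 1248) (nat_lit 1064) (nat_lit 0) (XT.nd (nat_lit 624) (nat_lit 532) (nat_lit 0) (XT.nd (nat_lit 312) (nat_lit 532) (nat_lit 0) (XT.nd (nat_lit 156) (nat_lit 76) (nat_lit 0) (XT.nd (nat_lit 78) (nat_lit 228) (nat_lit 0) (XT.lf (nat_lit 0) (nat_lit 15191677261) (nat_lit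 76) (nat_lit 1677728465) (nat_lit 152) (nat_lit 2804487923) (nat_lit 77) (nat_lit 5) (nat_lit 78) (nat_lit 5) (nat_lit 79) (nat_lit 4) (nat_lit 496) (nat_lit 382) (nat_lit 322)) (XT.lf (nat_lit 0) (nat_lit 3729571231) (nat_lit 228) (nat_lit 11037383489) (nat_lit 76) (nat_lit 5281561538) (nat_lit 74) (nat_lit 5) (nat_lit 77) (nat_lit 5) (nat_lit 75) (nat_lit 4) (nat_lit 497) (nat_lit 382) (nat_lit 321))) (XT.nd (nat_lit 78) (nat_lit 0) (nat_lit 0) (XT.lf (nat_lit 0) (nat_lit 2470141037) (nat_lit 76) (nat_lit 7966061326) (nat_lit 152) (nat_lit 9996355398) (nat_lit 73) (nat_lit 5) (nat_lit 74) (nat_lit 5) (nat_lit 75) (nat_lit 4) (nat_lit 498) (nat_lit 382) (nat_lit 320)) (XT.lf (nat_lit 0) (nat_lit 16508763193) (nat_lit 76) (nat_lit 894160435) (nat_lit 152) (nat_lit 3423430887) (nat_lit 73) (nat_lit 5) (nat_lit 74) (nat_lit 5) (nat_lit 75) (nat_lit 4) (nat_lit 499) (nat_lit 382) (nat_lit 319)))) (XT.nd (nat_lit 156)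 (nat_lit 228) (nat_lit 0) (XT.nd (nat_lit 78) (nat_lit 76) (nat_lit 0) (XT.lf (nat_lit 0) (nat_lit 3386234823) (nat_lit 228) (nat_lit 11494846070) (nat_lit 76) (nat_lit 6346774090) (nat_lit 70) (nat_lit 5) (nat_lit 73) (nat_lit 5) (nat_lit 71) (nat_lit 4) (nat_lit 500) (nat_lit 382) (nat_lit 318)) (XT.lf (nat_lit 0) (nat_lit 2561746576) (nat_lit 76) (nat_lit 7795721988) (nat_lit 152) (nat_lit 11282133148) (nat_lit 69) (nat_lit 5) (nat_lit 70) (nat_lit 5) (nat_lit 71) (nat_lit 4) (nat_lit 501) (nat_lit 382) (nat_lit 317))) (XT.nd (nat_lit 78) (nat_lit 228) (nat_lit 0) (XT.lf (nat_lit 0) (nat_lit 17178033495) (nat_lit 76) (nat_lit 425017055) (nat_lit 152) (nat_lit 4458694614) (nat_lit 69) (nat_lit 5) (nat_lit 70) (nat_lit 5) (nat_lit 71) (nat_lit 4) (nat_lit 502) (nat_lit 382) (nat_lit 316)) (XT.lf (nat_lit 0) (nat_lit 2633336251) (nat_lit 228) (nat_lit 12756965178) (nat_lit 76) (nat_lit 7102090288) (nat_lit 66)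 (nat_lit 5) (nat_lit 69) (nat_lit 5) (nat_lit 67) (nat_lit 4) (nat_lit 503) (nat_lit 382) (nat_lit 315))))) (XT.nd (nat_lit 312) (nat_lit 228) (nat_lit 0) (XT.nd (nat_lit 156) (nat_lit 228) (nat_lit 0) (XT.nd (nat_lit 78) (nat_lit 0) (nat_lit 0) (XT.lf (nat_lit 0) (nat_lit 1850143189) (nat_lit 76) (nat_lit 8020397577) (nat_lit 152) (nat_lit 13063432298) (nat_lit 65) (nat_lit 5) (nat_lit 66) (nat_lit 5) (nat_lit 67) (nat_lit 4) (nat_lit 504) (nat_lit 382) (nat_lit 314)) (XT.lf (nat_lit 0) (nat_lit 17062020267) (nat_lit 76) (nat_lit 342429432) (nat_lit 152) (nat_lit 5981965088) (nat_lit 65) (nat_lit 5) (nat_lit 66) (nat_lit 5) (nat_lit 67) (nat_lit 4) (nat_lit 505) (nat_lit 382) (nat_lit 313))) (XT.nd (nat_lit 78) (nat_lit 76) (nat_lit 0) (XT.lf (nat_lit 0) (nat_lit 1397346934) (nat_lit 152) (nat_lit 14977544509) (nat_lit 76) (nat_lit 7473830485) (nat_lit 63) (nat_lit 5) (nat_lit 65) (nat_lit 5) (nat_lit 64) (nat_lit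 4) (nat_lit 506) (nat_lit 382) (nat_lit 312)) (XT.lf (nat_lit 0) (nat_lit 176228915) (nat_lit 76) (nat_lit 8722978440) (nat_lit 152) (nat_lit 15423272625) (nat_lit 62) (nat_lit 5) (nat_lit 63) (nat_lit 5) (nat_lit 64) (nat_lit 4) (nat_lit 507) (nat_lit 382) (nat_lit 311)))) (XT.nd (nat_lit 156) (nat_lit 152) (nat_lit 0) (XT.nd (nat_lit 78) (nat_lit 76) (nat_lit 0) (XT.lf (nat_lit 0) (nat_lit 15999316719) (nat_lit 76) (nat_lit 730386437) (nat_lit 152) (nat_lit 8077640750) (nat_lit 62) (nat_lit 5) (nat_lit 63) (nat_lit 5) (nat_lit 64) (nat_lit 4) (nat_lit 508) (nat_lit 382) (nat_lit 310)) (XT.lf (nat_lit 0) (nat_lit 6963506083) (nat_lit 76) (nat_lit 17923966102) (nat_lit 76) (nat_lit 416511318) (nat_lit 61) (nat_lit 4) (nat_lit 62) (nat_lit 5) (nat_lit 62) (nat_lit 4) (nat_lit 509) (nat_lit 382) (nat_lit 309))) (XT.nd (nat_lit 78) (nat_lit 76) (nat_lit 0) (XT.lf (nat_lit 0) (nat_lit 7379001418) (nat_lit 152) (nat_lit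 2594721302) (nat_lit 76) (nat_lit 15838132487) (nat_lit 60) (nat_lit 5) (nat_lit 62) (nat_lit 5) (nat_lit 61) (nat_lit 4) (nat_lit 510) (nat_lit 382) (nat_lit 308)) (XT.lf (nat_lit 0) (nat_lit 13800575357) (nat_lit 76) (nat_lit 1686798034) (nat_lit 152) (nat_lit 10844845457) (nat_lit 59) (nat_lit 5) (nat_lit 60) (nat_lit 5) (nat_lit 61) (nat_lit 4) (nat_lit 511) (nat_lit 382) (nat_lit 307)))))) (XT.nd (nat_lit 624) (nat_lit 532) (nat_lit 0) (XT.nd (nat_lit 312) (nat_lit 304) (nat_lit 0) (XT.nd (nat_lit 156) (nat_lit 76) (nat_lit 0) (XT.nd (nat_lit 78) (nat_lit 76) (nat_lit 0) (XT.lf (nat_lit 0) (nat_lit 3793358963) (nat_lit 76) (nat_lit 20129177285) (nat_lit 76) (nat_lit 2943151408) (nat_lit 58) (nat_lit 4) (nat_lit 59) (nat_lit 5) (nat_lit 59) (nat_lit 4) (nat_lit 512) (nat_lit 382) (nat_lit 306)) (XT.lf (nat_lit 0) (nat_lit 5193523302) (nat_lit 152) (nat_lit 6702381816) (nat_lit 76) (nat_lit 15514778097) (nat_lit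 57) (nat_lit 5) (nat_lit 59) (nat_lit 5) (nat_lit 58) (nat_lit 4) (nat_lit 513) (nat_lit 382) (nat_lit 305))) (XT.nd (nat_lit 78) (nat_lit 0) (nat_lit 0) (XT.lf (nat_lit 0) (nat_lit 10243866213) (nat_lit 76) (nat_lit 3325879631) (nat_lit 152) (nat_lit 14399770944) (nat_lit 56) (nat_lit 5) (nat_lit 57) (nat_lit 5) (nat_lit 58) (nat_lit 4) (nat_lit 514) (nat_lit 382) (nat_lit 304)) (XT.lf (nat_lit 0) (nat_lit 22274685467) (nat_lit 152) (nat_lit 846361045) (nat_lit 0) (nat_lit 5421746342) (nat_lit 56) (nat_lit 5) (nat_lit 58) (nat_lit 4) (nat_lit 56) (nat_lit 4) (nat_lit 515) (nat_lit 382) (nat_lit 303)))) (XT.nd (nat_lit 156) (nat_lit 76) (nat_lit 0) (XT.nd (nat_lit 78) (nat_lit 76) (nat_lit 0) (XT.lf (nat_lit 0) (nat_lit 2219295429) (nat_lit 152) (nat_lit 12400375159) (nat_lit 76) (nat_lit 14508401798) (nat_lit 54) (nat_lit 5) (nat_lit 56) (nat_lit 5) (nat_lit 55) (nat_lit 4) (nat_lit 516) (nat_lit 382) (nat_lit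 302)) (XT.lf (nat_lit 0) (nat_lit 5069291961) (nat_lit 76) (nat_lit 5780910202) (nat_lit 152) (nat_lit 18878400754) (nat_lit 53) (nat_lit 5) (nat_lit 54) (nat_lit 5) (nat_lit 55) (nat_lit 4) (nat_lit 517) (nat_lit 382) (nat_lit 301))) (XT.nd (nat_lit 78) (nat_lit 76) (nat_lit 0) (XT.lf (nat_lit 0) (nat_lit 19856001377) (nat_lit 152) (nat_lit 7142546070) (nat_lit 0) (nat_lit 3345123314) (nat_lit 53) (nat_lit 5) (nat_lit 55) (nat_lit 4) (nat_lit 53) (nat_lit 4) (nat_lit 518) (nat_lit 382) (nat_lit 300)) (XT.lf (nat_lit 0) (nat_lit 10975872288) (nat_lit 76) (nat_lit 18277645005) (nat_lit 76) (nat_lit 1720027409) (nat_lit 52) (nat_lit 4) (nat_lit 53) (nat_lit 5) (nat_lit 53) (nat_lit 4) (nat_lit 519) (nat_lit 382) (nat_lit 299))))) (XT.nd (nat_lit 312) (nat_lit 228) (nat_lit 0) (XT.nd (nat_lit 156) (nat_lit 152) (nat_lit 0) (XT.nd (nat_lit 78) (nat_lit 76) (nat_lit 0) (XT.lf (nat_lit 0) (nat_lit 7199652885) (nat_lit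 152) (nat_lit 1987700427) (nat_lit 76) (nat_lit 22431903660) (nat_lit 51) (nat_lit 5) (nat_lit 53) (nat_lit 5) (nat_lit 52) (nat_lit 4) (nat_lit 520) (nat_lit 382) (nat_lit 298)) (XT.lf (nat_lit 0) (nat_lit 16476905598) (nat_lit 152) (nat_lit 15488468920) (nat_lit 0) (nat_lit 314718921) (nat_lit 50) (nat_lit 5) (nat_lit 52) (nat_lit 4) (nat_lit 50) (nat_lit 4) (nat_lit 521) (nat_lit 382) (nat_lit 297))) (XT.nd (nat_lit 78) (nat_lit 76) (nat_lit 0) (XT.lf (nat_lit 0) (nat_lit 3105849557) (nat_lit 76) (nat_lit 23027792456) (nat_lit 76) (nat_lit 6824078309) (nat_lit 49) (nat_lit 4) (nat_lit 50) (nat_lit 5) (nat_lit 50) (nat_lit 4) (nat_lit 522) (nat_lit 382) (nat_lit 296)) (XT.lf (nat_lit 0) (nat_lit 2495147667) (nat_lit 152) (nat_lit 11178882314) (nat_lit 76) (nat_lit 19977405611) (nat_lit 48) (nat_lit 5) (nat_lit 50) (nat_lit 5) (nat_lit 49) (nat_lit 4) (nat_lit 523) (nat_lit 382) (nat_lit 295)))) (XT.nd (nat_lit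 156) (nat_lit 152) (nat_lit 0) (XT.nd (nat_lit 78) (nat_lit 0) (nat_lit 0) (XT.lf (nat_lit 0) (nat_lit 8067911259) (nat_lit 76) (nat_lit 3927698082) (nat_lit 152) (nat_lit 22367161822) (nat_lit 47) (nat_lit 5) (nat_lit 48) (nat_lit 5) (nat_lit 49) (nat_lit 4) (nat_lit 524) (nat_lit 382) (nat_lit 294)) (XT.lf (nat_lit 0) (nat_lit 21915137826) (nat_lit 152) (nat_lit 7106954900) (nat_lit 0) (nat_lit 6069332756) (nat_lit 47) (nat_lit 5) (nat_lit 49) (nat_lit 4) (nat_lit 47) (nat_lit 4) (nat_lit 525) (nat_lit 382) (nat_lit 293))) (XT.nd (nat_lit 78) (nat_lit 76) (nat_lit 0) (XT.lf (nat_lit 0) (nat_lit 12793265294) (nat_lit 76) (nat_lit 19463286226) (nat_lit 76) (nat_lit 3581659195) (nat_lit 46) (nat_lit 4) (nat_lit 47) (nat_lit 5) (nat_lit 47) (nat_lit 4) (nat_lit 526) (nat_lit 382) (nat_lit 292)) (XT.lf (nat_lit 0) (nat_lit 6212788805) (nat_lit 152) (nat_lit 3304444358) (nat_lit 76) (nat_lit 27087301608) (nat_lit 45)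 (nat_lit 5) (nat_lit 47) (nat_lit 5) (nat_lit 46) (nat_lit 4) (nat_lit 527) (nat_lit 382) (nat_lit 291))))))))
noncomputable def xc58 : XT := (XT.nd (nat_lit 55458) (nat_lit 0) (nat_lit 7600) (XT.nd (nat_lit 1170) (nat_lit 684) (nat_lit 0) (XT.nd (nat_lit 546) (nat_lit 380) (nat_lit 0) (XT.nd (nat_lit 234) (nat_lit 304) (nat_lit 0) (XT.nd (nat_lit 78) (nat_lit 76) (nat_lit 0) (XT.lf (nat_lit 0) (nat_lit 16367164903) (nat_lit 152) (nat_lit 20139915822) (nat_lit 0) (nat_lit 881561732) (nat_lit 44) (nat_lit 5) (nat_lit 46) (nat_lit 4) (nat_lit 44) (nat_lit 4) (nat_lit 528) (nat_lit 382) (nat_lit 290)) (XT.nd (nat_lit 78) (nat_lit 0) (nat_lit 0) (XT.lf (nat_lit 0) (nat_lit 126895309) (nat_lit 76) (nat_lit 26792013363) (nat_lit 76) (nat_lit 11274582843) (nat_lit 43) (nat_lit 4) (nat_lit 44) (nat_lit 5) (nat_lit 44) (nat_lit 4) (nat_lit 529) (nat_lit 382) (nat_lit 289)) (XT.lf (nat_lit 0) (nat_lit 21343286209) (nat_lit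 76) (nat_lit 16611255408) (nat_lit 76) (nat_lit 1062924550) (nat_lit 43) (nat_lit 4) (nat_lit 44) (nat_lit 5) (nat_lit 44) (nat_lit 4) (nat_lit 530) (nat_lit 382) (nat_lit 288)))) (XT.nd (nat_lit 156) (nat_lit 152) (nat_lit 0) (XT.nd (nat_lit 78) (nat_lit 0) (nat_lit 0) (XT.lf (nat_lit 0) (nat_lit 3232293816) (nat_lit 76) (nat_lit 6034023918) (nat_lit 152) (nat_lit 30597243788) (nat_lit 41) (nat_lit 5) (nat_lit 42) (nat_lit 5) (nat_lit 43) (nat_lit 4) (nat_lit 531) (nat_lit 382) (nat_lit 287)) (XT.lf (nat_lit 0) (nat_lit 20075738338) (nat_lit 152) (nat_lit 15730369178) (nat_lit 0) (nat_lit 4922866767) (nat_lit 41) (nat_lit 5) (nat_lit 43) (nat_lit 4) (nat_lit 41) (nat_lit 4) (nat_lit 532) (nat_lit 382) (nat_lit 286))) (XT.nd (nat_lit 78) (nat_lit 76) (nat_lit 0) (XT.lf (nat_lit 0) (nat_lit 5782757448) (nat_lit 76) (nat_lit 25507743263) (nat_lit 76) (nat_lit 10327417142) (nat_lit 40) (nat_lit 4) (nat_lit 41) (nat_lit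 5) (nat_lit 41) (nat_lit 4) (nat_lit 533) (nat_lit 382) (nat_lit 285)) (XT.lf (nat_lit 0) (nat_lit 428326030) (nat_lit 152) (nat_lit 14337479182) (nat_lit 76) (nat_lit 27763850934) (nat_lit 39) (nat_lit 5) (nat_lit 41) (nat_lit 5) (nat_lit 40) (nat_lit 4) (nat_lit 534) (nat_lit 382) (nat_lit 284))))) (XT.nd (nat_lit 312) (nat_lit 152) (nat_lit 0) (XT.nd (nat_lit 156) (nat_lit 152) (nat_lit 0) (XT.nd (nat_lit 78) (nat_lit 0) (nat_lit 0) (XT.lf (nat_lit 0) (nat_lit 7788934347) (nat_lit 76) (nat_lit 3551850833) (nat_lit 152) (nat_lit 32123645606) (nat_lit 38) (nat_lit 5) (nat_lit 39) (nat_lit 5) (nat_lit 40) (nat_lit 4) (nat_lit 535) (nat_lit 382) (nat_lit 283)) (XT.lf (nat_lit 0) (nat_lit 22770491090) (nat_lit 152) (nat_lit 13694147538) (nat_lit 0) (nat_lit 7956914028) (nat_lit 38) (nat_lit 5) (nat_lit 40) (nat_lit 4) (nat_lit 38) (nat_lit 4) (nat_lit 536) (nat_lit 382) (nat_lit 282))) (XT.nd (nat_lit 78) (nat_lit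 76) (nat_lit 0) (XT.lf (nat_lit 0) (nat_lit 9023510873) (nat_lit 76) (nat_lit 25609223843) (nat_lit 76) (nat_lit 10771964245) (nat_lit 37) (nat_lit 4) (nat_lit 38) (nat_lit 5) (nat_lit 38) (nat_lit 4) (nat_lit 537) (nat_lit 382) (nat_lit 281)) (XT.lf (nat_lit 0) (nat_lit 532453809) (nat_lit 152) (nat_lit 13779371117) (nat_lit 76) (nat_lit 32102167665) (nat_lit 36) (nat_lit 5) (nat_lit 38) (nat_lit 5) (nat_lit 37) (nat_lit 4) (nat_lit 538) (nat_lit 382) (nat_lit 280)))) (XT.nd (nat_lit 156) (nat_lit 76) (nat_lit 0) (XT.nd (nat_lit 78) (nat_lit 0) (nat_lit 0) (XT.lf (nat_lit 0) (nat_lit 9517371917) (nat_lit 76) (nat_lit 2502306570) (nat_lit 152) (nat_lit 35428881713) (nat_lit 35) (nat_lit 5) (nat_lit 36) (nat_lit 5) (nat_lit 37) (nat_lit 4) (nat_lit 539) (nat_lit 382) (nat_lit 279)) (XT.lf (nat_lit 0) (nat_lit 24053633280) (nat_lit 152) (nat_lit 14870978999) (nat_lit 0) (nat_lit 9583489311) (nat_lit 35) (nat_lit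 5) (nat_lit 37) (nat_lit 4) (nat_lit 35) (nat_lit 4) (nat_lit 540) (nat_lit 382) (nat_lit 278))) (XT.nd (nat_lit 78) (nat_lit 0) (nat_lit 0) (XT.lf (nat_lit 0) (nat_lit 8970908758) (nat_lit 76) (nat_lit 27558337087) (nat_lit 76) (nat_lit 13067764354) (nat_lit 34) (nat_lit 4) (nat_lit 35) (nat_lit 5) (nat_lit 35) (nat_lit 4) (nat_lit 541) (nat_lit 382) (nat_lit 277)) (XT.lf (nat_lit 0) (nat_lit 33773078634) (nat_lit 76) (nat_lit 15726155422) (nat_lit 76) (nat_lit 1215748938) (nat_lit 34) (nat_lit 4) (nat_lit 35) (nat_lit 5) (nat_lit 35) (nat_lit 4) (nat_lit 542) (nat_lit 382) (nat_lit 276)))))) (XT.nd (nat_lit 624) (nat_lit 228) (nat_lit 0) (XT.nd (nat_lit 312) (nat_lit 228) (nat_lit 0) (XT.nd (nat_lit 156) (nat_lit 76) (nat_lit 0) (XT.nd (nat_lit 78) (nat_lit 0) (nat_lit 0) (XT.lf (nat_lit 0) (nat_lit 7433554338) (nat_lit 76) (nat_lit 3385764327) (nat_lit 152) (nat_lit 41042747184) (nat_lit 32) (nat_lit 5) (nat_lit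 33) (nat_lit 5) (nat_lit 34) (nat_lit 4) (nat_lit 543) (nat_lit 382) (nat_lit 275)) (XT.lf (nat_lit 0) (nat_lit 23423961081) (nat_lit 152) (nat_lit 20312908493) (nat_lit 0) (nat_lit 9299341891) (nat_lit 32) (nat_lit 5) (nat_lit 34) (nat_lit 4) (nat_lit 32) (nat_lit 4) (nat_lit 544) (nat_lit 382) (nat_lit 274))) (XT.nd (nat_lit 78) (nat_lit 0) (nat_lit 0) (XT.lf (nat_lit 0) (nat_lit 4523945958) (nat_lit 76) (nat_lit 31931212191) (nat_lit 76) (nat_lit 17788970970) (nat_lit 31) (nat_lit 4) (nat_lit 32) (nat_lit 5) (nat_lit 32) (nat_lit 4) (nat_lit 545) (nat_lit 382) (nat_lit 273)) (XT.lf (nat_lit 0) (nat_lit 30465886592) (nat_lit 76) (nat_lit 19588221656) (nat_lit 76) (nat_lit 5428871667) (nat_lit 31) (nat_lit 4) (nat_lit 32) (nat_lit 5) (nat_lit 32) (nat_lit 4) (nat_lit 546) (nat_lit 382) (nat_lit 272)))) (XT.nd (nat_lit 156) (nat_lit 76) (nat_lit 0) (XT.nd (nat_lit 78) (nat_lit 0) (nat_lit 0) (XT.lf (nat_lit 0)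 (nat_lit 307576088) (nat_lit 76) (nat_lit 6827170971) (nat_lit 152) (nat_lit 49622887385) (nat_lit 29) (nat_lit 5) (nat_lit 30) (nat_lit 5) (nat_lit 31) (nat_lit 4) (nat_lit 547) (nat_lit 382) (nat_lit 271)) (XT.lf (nat_lit 0) (nat_lit 20254272227) (nat_lit 152) (nat_lit 31330453687) (nat_lit 0) (nat_lit 6475546889) (nat_lit 29) (nat_lit 5) (nat_lit 31) (nat_lit 4) (nat_lit 29) (nat_lit 4) (nat_lit 548) (nat_lit 382) (nat_lit 270))) (XT.nd (nat_lit 78) (nat_lit 76) (nat_lit 0) (XT.lf (nat_lit 0) (nat_lit 33808054551) (nat_lit 152) (nat_lit 5578587439) (nat_lit 0) (nat_lit 20014128294) (nat_lit 29) (nat_lit 5) (nat_lit 31) (nat_lit 4) (nat_lit 29) (nat_lit 4) (nat_lit 549) (nat_lit 382) (nat_lit 269)) (XT.lf (nat_lit 0) (nat_lit 21309493942) (nat_lit 76) (nat_lit 26637656146) (nat_lit 76) (nat_lit 12828971716) (nat_lit 28) (nat_lit 4) (nat_lit 29) (nat_lit 5) (nat_lit 29) (nat_lit 4) (nat_lit 550) (nat_lit 382)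 (nat_lit 268))))) (XT.nd (nat_lit 53352) (nat_lit 0) (nat_lit 16036) (XT.nd (nat_lit 156) (nat_lit 76) (nat_lit 0) (XT.nd (nat_lit 78) (nat_lit 76) (nat_lit 0) (XT.lf (nat_lit 0) (nat_lit 342244384) (nat_lit 152) (nat_lit 13128256654) (nat_lit 76) (nat_lit 48721218554) (nat_lit 27) (nat_lit 5) (nat_lit 29) (nat_lit 5) (nat_lit 28) (nat_lit 4) (nat_lit 551) (nat_lit 382) (nat_lit 267)) (XT.lf (nat_lit 0) (nat_lit 13764129925) (nat_lit 152) (nat_lit 49548220049) (nat_lit 0) (nat_lit 330223374) (nat_lit 26) (nat_lit 5) (nat_lit 28) (nat_lit 4) (nat_lit 26) (nat_lit 4) (nat_lit 552) (nat_lit 382) (nat_lit 266))) (XT.nd (nat_lit 78) (nat_lit 76) (nat_lit 0) (XT.lf (nat_lit 0) (nat_lit 27830571105) (nat_lit 152) (nat_lit 22915572629) (nat_lit 0) (nat_lit 14383552107) (nat_lit 26) (nat_lit 5) (nat_lit 28) (nat_lit 4) (nat_lit 26) (nat_lit 4) (nat_lit 553) (nat_lit 382) (nat_lit 265)) (XT.lf (nat_lit 0) (nat_lit 4555758246)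 (nat_lit 76) (nat_lit 37782424041) (nat_lit 76) (nat_lit 24322674513) (nat_lit 25) (nat_lit 4) (nat_lit 26) (nat_lit 5) (nat_lit 26) (nat_lit 4) (nat_lit 554) (nat_lit 382) (nat_lit 264)))) (XT.nd (nat_lit 156) (nat_lit 988) (nat_lit 0) (XT.nd (nat_lit 78) (nat_lit 532) (nat_lit 0) (XT.lf (nat_lit 0) (nat_lit 1327523405) (nat_lit 608) (nat_lit 1182822997) (nat_lit 0) (nat_lit 1327523405) (nat_lit 256) (nat_lit 5) (nat_lit 264) (nat_lit 4) (nat_lit 256) (nat_lit 4) (nat_lit 434) (nat_lit 383) (nat_lit 383)) (XT.lf (nat_lit 0) (nat_lit 3896549255) (nat_lit 532) (nat_lit 2606322488) (nat_lit 532) (nat_lit 1247608668) (nat_lit 249) (nat_lit 4) (nat_lit 256) (nat_lit 5) (nat_lit 256) (nat_lit 4) (nat_lit 435) (nat_lit 383) (nat_lit 382))) (XT.nd (nat_lit 78) (nat_lit 456) (nat_lit 0) (XT.lf (nat_lit 0) (nat_lit 2465533389) (nat_lit 456) (nat_lit 68154708) (nat_lit 532) (nat_lit 5294628513) (nat_lit 242) (nat_lit 5)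 (nat_lit 248) (nat_lit 5) (nat_lit 249) (nat_lit 4) (nat_lit 436) (nat_lit 383) (nat_lit 381)) (XT.lf (nat_lit 0) (nat_lit 1001732435) (nat_lit 456) (nat_lit 5375229474) (nat_lit 456) (nat_lit 1531956136) (nat_lit 236) (nat_lit 4) (nat_lit 242) (nat_lit 5) (nat_lit 242) (nat_lit 4) (nat_lit 437) (nat_lit 383) (nat_lit 380))))))) (XT.nd (nat_lit 1170) (nat_lit 3496) (nat_lit 0) (XT.nd (nat_lit 546) (nat_lit 2508) (nat_lit 0) (XT.nd (nat_lit 234) (nat_lit 1368) (nat_lit 0) (XT.nd (nat_lit 78) (nat_lit 988) (nat_lit 0) (XT.lf (nat_lit 0) (nat_lit 2254154967) (nat_lit 532) (nat_lit 474538383) (nat_lit 76) (nat_lit 5263888229) (nat_lit 235) (nat_lit 5) (nat_lit 242) (nat_lit 5) (nat_lit 236) (nat_lit 4) (nat_lit 438) (nat_lit 383) (nat_lit 379)) (XT.nd (nat_lit 78) (nat_lit 532) (nat_lit 0) (XT.lf (nat_lit 0) (nat_lit 6086252745) (nat_lit 532) (nat_lit 1948180283) (nat_lit 0) (nat_lit 44979498) (nat_lit 229) (nat_lit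 5) (nat_lit 236) (nat_lit 4) (nat_lit 229) (nat_lit 4) (nat_lit 439) (nat_lit 383) (nat_lit 378)) (XT.lf (nat_lit 0) (nat_lit 1810252198) (nat_lit 532) (nat_lit 3471219955) (nat_lit 76) (nat_lit 2887381374) (nat_lit 222) (nat_lit 5) (nat_lit 229) (nat_lit 5) (nat_lit 223) (nat_lit 4) (nat_lit 440) (nat_lit 383) (nat_lit 377)))) (XT.nd (nat_lit 156) (nat_lit 456) (nat_lit 0) (XT.nd (nat_lit 78) (nat_lit 532) (nat_lit 0) (XT.lf (nat_lit 0) (nat_lit 3239760349) (nat_lit 380) (nat_lit 2404758618) (nat_lit 456) (nat_lit 2617170033) (nat_lit 217) (nat_lit 5) (nat_lit 222) (nat_lit 5) (nat_lit 223) (nat_lit 4) (nat_lit 441) (nat_lit 383) (nat_lit 376)) (XT.lf (nat_lit 0) (nat_lit 1176827110) (nat_lit 532) (nat_lit 6601287724) (nat_lit 76) (nat_lit 579911790) (nat_lit 210) (nat_lit 5) (nat_lit 217) (nat_lit 5) (nat_lit 211) (nat_lit 4) (nat_lit 442) (nat_lit 383) (nat_lit 375))) (XT.nd (nat_lit 78) (nat_lit 76) (nat_lit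 0) (XT.lf (nat_lit 0) (nat_lit 212149776) (nat_lit 380) (nat_lit 4804579438) (nat_lit 456) (nat_lit 3440214165) (nat_lit 205) (nat_lit 5) (nat_lit 210) (nat_lit 5) (nat_lit 211) (nat_lit 4) (nat_lit 443) (nat_lit 383) (nat_lit 374)) (XT.lf (nat_lit 0) (nat_lit 380454663) (nat_lit 456) (nat_lit 1324472807) (nat_lit 76) (nat_lit 6854522279) (nat_lit 204) (nat_lit 5) (nat_lit 210) (nat_lit 5) (nat_lit 205) (nat_lit 5) (nat_lit 444) (nat_lit 383) (nat_lit 373))))) (XT.nd (nat_lit 312) (nat_lit 1064) (nat_lit 0) (XT.nd (nat_lit 156) (nat_lit 760) (nat_lit 0) (XT.nd (nat_lit 78) (nat_lit 304) (nat_lit 0) (XT.lf (nat_lit 0) (nat_lit 4227652076) (nat_lit 456) (nat_lit 2922723624) (nat_lit 76) (nat_lit 1514208572) (nat_lit 199) (nat_lit 5) (nat_lit 205) (nat_lit 5) (nat_lit 200) (nat_lit 4) (nat_lit 445) (nat_lit 383) (nat_lit 372)) (XT.lf (nat_lit 0) (nat_lit 4214427180) (nat_lit 304) (nat_lit 3958671942) (nat_lit 380)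 (nat_lit 600294925) (nat_lit 195) (nat_lit 5) (nat_lit 199) (nat_lit 5) (nat_lit 200) (nat_lit 4) (nat_lit 446) (nat_lit 383) (nat_lit 371))) (XT.nd (nat_lit 78) (nat_lit 304) (nat_lit 0) (XT.lf (nat_lit 0) (nat_lit 2633729999) (nat_lit 380) (nat_lit 619874987) (nat_lit 456) (nat_lit 5631875646) (nat_lit 189) (nat_lit 5) (nat_lit 194) (nat_lit 5) (nat_lit 195) (nat_lit 5) (nat_lit 447) (nat_lit 383) (nat_lit 370)) (XT.lf (nat_lit 0) (nat_lit 994868041) (nat_lit 304) (nat_lit 6212759229) (nat_lit 380) (nat_lit 1793232816) (nat_lit 185) (nat_lit 5) (nat_lit 189) (nat_lit 5) (nat_lit 190) (nat_lit 4) (nat_lit 448) (nat_lit 383) (nat_lit 369)))) (XT.nd (nat_lit 156) (nat_lit 684) (nat_lit 0) (XT.nd (nat_lit 78) (nat_lit 304) (nat_lit 0) (XT.lf (nat_lit 0) (nat_lit 2102179668) (nat_lit 380) (nat_lit 685931535) (nat_lit 76) (nat_lit 6331458902) (nat_lit 184) (nat_lit 5) (nat_lit 189) (nat_lit 5) (nat_lit 185) (nat_lit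 5) (nat_lit 449) (nat_lit 383) (nat_lit 368)) (XT.lf (nat_lit 0) (nat_lit 6068149532) (nat_lit 380) (nat_lit 2403751324) (nat_lit 76) (nat_lit 769721022) (nat_lit 180) (nat_lit 5) (nat_lit 185) (nat_lit 5) (nat_lit 181) (nat_lit 4) (nat_lit 450) (nat_lit 383) (nat_lit 367))) (XT.nd (nat_lit 78) (nat_lit 304) (nat_lit 0) (XT.lf (nat_lit 0) (nat_lit 772118668) (nat_lit 380) (nat_lit 4191863309) (nat_lit 76) (nat_lit 4403080891) (nat_lit 175) (nat_lit 5) (nat_lit 180) (nat_lit 5) (nat_lit 176) (nat_lit 5) (nat_lit 451) (nat_lit 383) (nat_lit 366)) (XT.lf (nat_lit 0) (nat_lit 3445621210) (nat_lit 304) (nat_lit 1301972247) (nat_lit 380) (nat_lit 4748476795) (nat_lit 171) (nat_lit 5) (nat_lit 175) (nat_lit 5) (nat_lit 176) (nat_lit 5) (nat_lit 452) (nat_lit 383) (nat_lit 365)))))) (XT.nd (nat_lit 624) (nat_lit 1672) (nat_lit 0) (XT.nd (nat_lit 312) (nat_lit 836) (nat_lit 0) (XT.nd (nat_lit 156) (nat_lit 608) (nat_lit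 0) (XT.nd (nat_lit 78) (nat_lit 76) (nat_lit 0) (XT.lf (nat_lit 0) (nat_lit 1652559416) (nat_lit 304) (nat_lit 7190608537) (nat_lit 380) (nat_lit 785759474) (nat_lit 167) (nat_lit 5) (nat_lit 171) (nat_lit 5) (nat_lit 172) (nat_lit 4) (nat_lit 453) (nat_lit 383) (nat_lit 364)) (XT.lf (nat_lit 0) (nat_lit 3224953737) (nat_lit 380) (nat_lit 224820771) (nat_lit 76) (nat_lit 6315246883) (nat_lit 166) (nat_lit 5) (nat_lit 171) (nat_lit 5) (nat_lit 167) (nat_lit 5) (nat_lit 454) (nat_lit 383) (nat_lit 363))) (XT.nd (nat_lit 78) (nat_lit 304) (nat_lit 0) (XT.lf (nat_lit 0) (nat_lit 7340458104) (nat_lit 380) (nat_lit 2128751654) (nat_lit 76) (nat_lit 435751379) (nat_lit 162) (nat_lit 5) (nat_lit 167) (nat_lit 5) (nat_lit 163) (nat_lit 4) (nat_lit 455) (nat_lit 383) (nat_lit 362)) (XT.lf (nat_lit 0) (nat_lit 1515980064) (nat_lit 304) (nat_lit 4132521321) (nat_lit 76) (nat_lit 4399694961) (nat_lit 158) (nat_lit 5) (nat_lit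 162) (nat_lit 5) (nat_lit 159) (nat_lit 5) (nat_lit 456) (nat_lit 383) (nat_lit 361)))) (XT.nd (nat_lit 156) (nat_lit 304) (nat_lit 0) (XT.nd (nat_lit 78) (nat_lit 228) (nat_lit 0) (XT.lf (nat_lit 0) (nat_lit 3978251665) (nat_lit 304) (nat_lit 1671270576) (nat_lit 380) (nat_lit 4545982857) (nat_lit 154) (nat_lit 5) (nat_lit 158) (nat_lit 5) (nat_lit 159) (nat_lit 5) (nat_lit 457) (nat_lit 383) (nat_lit 360)) (XT.lf (nat_lit 0) (nat_lit 1961210952) (nat_lit 228) (nat_lit 7953052914) (nat_lit 304) (nat_lit 432757219) (nat_lit 151) (nat_lit 5) (nat_lit 154) (nat_lit 5) (nat_lit 155) (nat_lit 4) (nat_lit 458) (nat_lit 383) (nat_lit 359))) (XT.nd (nat_lit 78) (nat_lit 228) (nat_lit 0) (XT.lf (nat_lit 0) (nat_lit 3732778321) (nat_lit 304) (nat_lit 167180834) (nat_lit 76) (nat_lit 6601935786) (nat_lit 150) (nat_lit 5) (nat_lit 154) (nat_lit 5) (nat_lit 151) (nat_lit 5) (nat_lit 459) (nat_lit 383) (nat_lit 358)) (XT.lf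 (nat_lit 0) (nat_lit 8023161721) (nat_lit 304) (nat_lit 2328870765) (nat_lit 76) (nat_lit 309000038) (nat_lit 147) (nat_lit 5) (nat_lit 151) (nat_lit 5) (nat_lit 148) (nat_lit 4) (nat_lit 460) (nat_lit 383) (nat_lit 357))))) (XT.nd (nat_lit 312) (nat_lit 836) (nat_lit 0) (XT.nd (nat_lit 156) (nat_lit 304) (nat_lit 0) (XT.nd (nat_lit 78) (nat_lit 228) (nat_lit 0) (XT.lf (nat_lit 0) (nat_lit 1612177603) (nat_lit 304) (nat_lit 4613753567) (nat_lit 76) (nat_lit 4597757172) (nat_lit 143) (nat_lit 5) (nat_lit 147) (nat_lit 5) (nat_lit 144) (nat_lit 5) (nat_lit 461) (nat_lit 383) (nat_lit 356)) (XT.lf (nat_lit 0) (nat_lit 3991721379) (nat_lit 228) (nat_lit 1933379920) (nat_lit 304) (nat_lit 5065690392) (nat_lit 140) (nat_lit 5) (nat_lit 143) (nat_lit 5) (nat_lit 144) (nat_lit 5) (nat_lit 462) (nat_lit 383) (nat_lit 355))) (XT.nd (nat_lit 78) (nat_lit 76) (nat_lit 0) (XT.lf (nat_lit 0) (nat_lit 1674246073) (nat_lit 228)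 (nat_lit 8707024218) (nat_lit 304) (nat_lit 781225182) (nat_lit 137) (nat_lit 5) (nat_lit 140) (nat_lit 5) (nat_lit 141) (nat_lit 4) (nat_lit 463) (nat_lit 383) (nat_lit 354)) (XT.lf (nat_lit 0) (nat_lit 3578469143) (nat_lit 304) (nat_lit 763476200) (nat_lit 76) (nat_lit 6995833664) (nat_lit 136) (nat_lit 5) (nat_lit 140) (nat_lit 5) (nat_lit 137) (nat_lit 5) (nat_lit 464) (nat_lit 383) (nat_lit 353)))) (XT.nd (nat_lit 156) (nat_lit 380) (nat_lit 0) (XT.nd (nat_lit 78) (nat_lit 228) (nat_lit 0) (XT.lf (nat_lit 0) (nat_lit 8063675597) (nat_lit 304) (nat_lit 3262434569) (nat_lit 76) (nat_lit 191668941) (nat_lit 133) (nat_lit 5) (nat_lit 137) (nat_lit 5) (nat_lit 134) (nat_lit 4) (nat_lit 465) (nat_lit 383) (nat_lit 352)) (XT.lf (nat_lit 0) (nat_lit 997729781) (nat_lit 228) (nat_lit 5903797059) (nat_lit 76) (nat_lit 4800274351) (nat_lit 130) (nat_lit 5) (nat_lit 133) (nat_lit 5) (nat_lit 131) (nat_lit 5) (nat_lit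 466) (nat_lit 383) (nat_lit 351))) (XT.nd (nat_lit 78) (nat_lit 152) (nat_lit 0) (XT.lf (nat_lit 0) (nat_lit 3215141194) (nat_lit 228) (nat_lit 2292586293) (nat_lit 304) (nat_lit 6382772042) (nat_lit 127) (nat_lit 5) (nat_lit 130) (nat_lit 5) (nat_lit 131) (nat_lit 5) (nat_lit 467) (nat_lit 383) (nat_lit 350)) (XT.lf (nat_lit 0) (nat_lit 511108118) (nat_lit 152) (nat_lit 9660916691) (nat_lit 228) (nat_lit 1912266506) (nat_lit 125) (nat_lit 5) (nat_lit 127) (nat_lit 5) (nat_lit 128) (nat_lit 4) (nat_lit 468) (nat_lit 383) (nat_lit 349))))))))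
noncomputable def xc59 : XT := (XT.nd (nat_lit 2418) (nat_lit 2356) (nat_lit 0) (XT.nd (nat_lit 1170) (nat_lit 1672) (nat_lit 0) (XT.nd (nat_lit 546) (nat_lit 1140) (nat_lit 0) (XT.nd (nat_lit 234) (nat_lit 684) (nat_lit 0) (XT.nd (nat_lit 78) (nat_lit 380) (nat_lit 0) (XT.lf (nat_lit 0) (nat_lit 2681473085) (nat_lit 228) (nat_lit 2300196405) (nat_lit 76) (nat_lit 7300203603) (nat_lit 124) (nat_lit 5) (nat_lit 127) (nat_lit 5) (nat_lit 125) (nat_lit 5) (nat_lit 469) (nat_lit 383) (nat_lit 348)) (XT.nd (nat_lit 78) (nat_lit 152) (nat_lit 0) (XT.lf (nat_lit 0) (nat_lit 7256674020) (nat_lit 228) (nat_lit 120182516) (nat_lit 304) (nat_lit 5107892077) (nat_lit 121) (nat_lit 5) (nat_lit 124) (nat_lit 5) (nat_lit 125) (nat_lit 5) (nat_lit 470) (nat_lit 383) (nat_lit 347)) (XT.lf (nat_lit 0) (nat_lit 4375198280) (nat_lit 152) (nat_lit 7883286165) (nat_lit 228) (nat_lit 433866677) (nat_lit 119) (nat_lit 5) (nat_lit 121)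 (nat_lit 5) (nat_lit 122) (nat_lit 4) (nat_lit 471) (nat_lit 383) (nat_lit 346)))) (XT.nd (nat_lit 156) (nat_lit 380) (nat_lit 0) (XT.nd (nat_lit 78) (nat_lit 0) (nat_lit 0) (XT.lf (nat_lit 0) (nat_lit 1333808041) (nat_lit 228) (nat_lit 2961491260) (nat_lit 304) (nat_lit 8609609380) (nat_lit 115) (nat_lit 5) (nat_lit 118) (nat_lit 5) (nat_lit 119) (nat_lit 5) (nat_lit 472) (nat_lit 383) (nat_lit 345)) (XT.lf (nat_lit 0) (nat_lit 9196118139) (nat_lit 304) (nat_lit 1819813280) (nat_lit 76) (nat_lit 2106629756) (nat_lit 115) (nat_lit 5) (nat_lit 119) (nat_lit 5) (nat_lit 116) (nat_lit 4) (nat_lit 473) (nat_lit 383) (nat_lit 344))) (XT.nd (nat_lit 78) (nat_lit 152) (nat_lit 0) (XT.lf (nat_lit 0) (nat_lit 924038713) (nat_lit 228) (nat_lit 5113441240) (nat_lit 76) (nat_lit 7307676610) (nat_lit 112) (nat_lit 5) (nat_lit 115) (nat_lit 5) (nat_lit 113) (nat_lit 5) (nat_lit 474) (nat_lit 383) (nat_lit 343)) (XT.lf (nat_lit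 0) (nat_lit 4991948646) (nat_lit 152) (nat_lit 851228163) (nat_lit 228) (nat_lit 7730026800) (nat_lit 110) (nat_lit 5) (nat_lit 112) (nat_lit 5) (nat_lit 113) (nat_lit 5) (nat_lit 475) (nat_lit 383) (nat_lit 342))))) (XT.nd (nat_lit 312) (nat_lit 608) (nat_lit 0) (XT.nd (nat_lit 156) (nat_lit 304) (nat_lit 0) (XT.nd (nat_lit 78) (nat_lit 76) (nat_lit 0) (XT.lf (nat_lit 0) (nat_lit 1570821823) (nat_lit 152) (nat_lit 9385304251) (nat_lit 228) (nat_lit 2850580680) (nat_lit 108) (nat_lit 5) (nat_lit 110) (nat_lit 5) (nat_lit 111) (nat_lit 4) (nat_lit 476) (nat_lit 383) (nat_lit 341)) (XT.lf (nat_lit 0) (nat_lit 2164711355) (nat_lit 228) (nat_lit 1986522774) (nat_lit 76) (nat_lit 9894397983) (nat_lit 107) (nat_lit 5) (nat_lit 110) (nat_lit 5) (nat_lit 108) (nat_lit 5) (nat_lit 477) (nat_lit 383) (nat_lit 340))) (XT.nd (nat_lit 78) (nat_lit 152) (nat_lit 0) (XT.lf (nat_lit 0) (nat_lit 7306193212) (nat_lit 228) (nat_lit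 5704655680) (nat_lit 76) (nat_lit 1279040529) (nat_lit 105) (nat_lit 5) (nat_lit 108) (nat_lit 5) (nat_lit 106) (nat_lit 4) (nat_lit 478) (nat_lit 383) (nat_lit 339)) (XT.lf (nat_lit 0) (nat_lit 4916629590) (nat_lit 152) (nat_lit 7732020231) (nat_lit 228) (nat_lit 1891424318) (nat_lit 103) (nat_lit 5) (nat_lit 105) (nat_lit 5) (nat_lit 106) (nat_lit 4) (nat_lit 479) (nat_lit 383) (nat_lit 338)))) (XT.nd (nat_lit 156) (nat_lit 380) (nat_lit 0) (XT.nd (nat_lit 78) (nat_lit 0) (nat_lit 0) (XT.lf (nat_lit 0) (nat_lit 1053062420) (nat_lit 152) (nat_lit 2241649329) (nat_lit 228) (nat_lit 11501890932) (nat_lit 100) (nat_lit 5) (nat_lit 102) (nat_lit 5) (nat_lit 103) (nat_lit 5) (nat_lit 480) (nat_lit 383) (nat_lit 337)) (XT.lf (nat_lit 0) (nat_lit 8667857329) (nat_lit 228) (nat_lit 2975665699) (nat_lit 76) (nat_lit 3414660468) (nat_lit 100) (nat_lit 5) (nat_lit 103) (nat_lit 5) (nat_lit 101) (nat_lit 4) (nat_lit 481)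 (nat_lit 383) (nat_lit 336))) (XT.nd (nat_lit 78) (nat_lit 228) (nat_lit 0) (XT.lf (nat_lit 0) (nat_lit 8142831374) (nat_lit 152) (nat_lit 6100115012) (nat_lit 228) (nat_lit 1083444297) (nat_lit 98) (nat_lit 5) (nat_lit 100) (nat_lit 5) (nat_lit 101) (nat_lit 4) (nat_lit 482) (nat_lit 383) (nat_lit 335)) (XT.lf (nat_lit 0) (nat_lit 3980146821) (nat_lit 152) (nat_lit 325977331) (nat_lit 228) (nat_lit 11294987373) (nat_lit 95) (nat_lit 5) (nat_lit 97) (nat_lit 5) (nat_lit 98) (nat_lit 5) (nat_lit 483) (nat_lit 383) (nat_lit 334)))))) (XT.nd (nat_lit 624) (nat_lit 836) (nat_lit 0) (XT.nd (nat_lit 312) (nat_lit 380) (nat_lit 0) (XT.nd (nat_lit 156) (nat_lit 304) (nat_lit 0) (XT.nd (nat_lit 78) (nat_lit 152) (nat_lit 0) (XT.lf (nat_lit 0) (nat_lit 9903516420) (nat_lit 228) (nat_lit 430816444) (nat_lit 76) (nat_lit 5547383226) (nat_lit 95) (nat_lit 5) (nat_lit 98) (nat_lit 5) (nat_lit 96) (nat_lit 4) (nat_lit 484) (nat_lit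 383) (nat_lit 333)) (XT.lf (nat_lit 0) (nat_lit 11204173485) (nat_lit 152) (nat_lit 4517934046) (nat_lit 228) (nat_lit 447034209) (nat_lit 93) (nat_lit 5) (nat_lit 95) (nat_lit 5) (nat_lit 96) (nat_lit 4) (nat_lit 485) (nat_lit 383) (nat_lit 332))) (XT.nd (nat_lit 78) (nat_lit 76) (nat_lit 0) (XT.lf (nat_lit 0) (nat_lit 5173795281) (nat_lit 228) (nat_lit 9772250696) (nat_lit 76) (nat_lit 1516846063) (nat_lit 90) (nat_lit 5) (nat_lit 93) (nat_lit 5) (nat_lit 91) (nat_lit 4) (nat_lit 486) (nat_lit 383) (nat_lit 331)) (XT.lf (nat_lit 0) (nat_lit 1914884335) (nat_lit 76) (nat_lit 9095800770) (nat_lit 152) (nat_lit 5752945505) (nat_lit 89) (nat_lit 5) (nat_lit 90) (nat_lit 5) (nat_lit 91) (nat_lit 4) (nat_lit 487) (nat_lit 383) (nat_lit 330)))) (XT.nd (nat_lit 156) (nat_lit 152) (nat_lit 0) (XT.nd (nat_lit 78) (nat_lit 228) (nat_lit 0) (XT.lf (nat_lit 0) (nat_lit 14047426898) (nat_lit 76) (nat_lit 3017239820) (nat_lit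 152) (nat_lit 7466188) (nat_lit 89) (nat_lit 5) (nat_lit 90) (nat_lit 5) (nat_lit 91) (nat_lit 4) (nat_lit 488) (nat_lit 383) (nat_lit 329)) (XT.lf (nat_lit 0) (nat_lit 5859782473) (nat_lit 228) (nat_lit 8246692711) (nat_lit 76) (nat_lit 3279769587) (nat_lit 86) (nat_lit 5) (nat_lit 89) (nat_lit 5) (nat_lit 87) (nat_lit 4) (nat_lit 489) (nat_lit 383) (nat_lit 328))) (XT.nd (nat_lit 78) (nat_lit 76) (nat_lit 0) (XT.lf (nat_lit 0) (nat_lit 3965265498) (nat_lit 76) (nat_lit 7981054982) (nat_lit 152) (nat_lit 5762155660) (nat_lit 85) (nat_lit 5) (nat_lit 86) (nat_lit 5) (nat_lit 87) (nat_lit 4) (nat_lit 490) (nat_lit 383) (nat_lit 327)) (XT.lf (nat_lit 0) (nat_lit 200432540) (nat_lit 152) (nat_lit 1431576036) (nat_lit 76) (nat_lit 16407453288) (nat_lit 84) (nat_lit 5) (nat_lit 86) (nat_lit 5) (nat_lit 85) (nat_lit 5) (nat_lit 491) (nat_lit 383) (nat_lit 326))))) (XT.nd (nat_lit 312) (nat_lit 380) (nat_lit 0) (XT.nd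 (nat_lit 156) (nat_lit 228) (nat_lit 0) (XT.nd (nat_lit 78) (nat_lit 76) (nat_lit 0) (XT.lf (nat_lit 0) (nat_lit 6329468892) (nat_lit 228) (nat_lit 7113078496) (nat_lit 76) (nat_lit 4933017656) (nat_lit 82) (nat_lit 5) (nat_lit 85) (nat_lit 5) (nat_lit 83) (nat_lit 4) (nat_lit 492) (nat_lit 383) (nat_lit 325)) (XT.lf (nat_lit 0) (nat_lit 5638161329) (nat_lit 76) (nat_lit 7035606975) (nat_lit 152) (nat_lit 6047042168) (nat_lit 81) (nat_lit 5) (nat_lit 82) (nat_lit 5) (nat_lit 83) (nat_lit 4) (nat_lit 493) (nat_lit 383) (nat_lit 324))) (XT.nd (nat_lit 78) (nat_lit 152) (nat_lit 0) (XT.lf (nat_lit 0) (nat_lit 148457931) (nat_lit 152) (nat_lit 259521590) (nat_lit 76) (nat_lit 18667825039) (nat_lit 80) (nat_lit 5) (nat_lit 82) (nat_lit 5) (nat_lit 81) (nat_lit 5) (nat_lit 494) (nat_lit 383) (nat_lit 323)) (XT.lf (nat_lit 0) (nat_lit 6544836488) (nat_lit 228) (nat_lit 6455647373) (nat_lit 76) (nat_lit 6435072704) (nat_lit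 78) (nat_lit 5) (nat_lit 81) (nat_lit 5) (nat_lit 79) (nat_lit 4) (nat_lit 495) (nat_lit 383) (nat_lit 322)))) (XT.nd (nat_lit 156) (nat_lit 152) (nat_lit 0) (XT.nd (nat_lit 78) (nat_lit 152) (nat_lit 0) (XT.lf (nat_lit 0) (nat_lit 6847137524) (nat_lit 76) (nat_lit 6306681237) (nat_lit 152) (nat_lit 6651661808) (nat_lit 77) (nat_lit 5) (nat_lit 78) (nat_lit 5) (nat_lit 79) (nat_lit 4) (nat_lit 496) (nat_lit 383) (nat_lit 321)) (XT.lf (nat_lit 0) (nat_lit 399939575) (nat_lit 152) (nat_lit 19584800176) (nat_lit 152) (nat_lit 201053249) (nat_lit 75) (nat_lit 4) (nat_lit 77) (nat_lit 5) (nat_lit 77) (nat_lit 4) (nat_lit 497) (nat_lit 383) (nat_lit 320))) (XT.nd (nat_lit 78) (nat_lit 76) (nat_lit 0) (XT.lf (nat_lit 0) (nat_lit 6460338036) (nat_lit 228) (nat_lit 6373082725) (nat_lit 76) (nat_lit 7737946982) (nat_lit 74) (nat_lit 5) (nat_lit 77) (nat_lit 5) (nat_lit 75) (nat_lit 4) (nat_lit 498) (nat_lit 383) (nat_lit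 319)) (XT.lf (nat_lit 0) (nat_lit 7490692808) (nat_lit 76) (nat_lit 5848745525) (nat_lit 152) (nat_lit 7628355147) (nat_lit 73) (nat_lit 5) (nat_lit 74) (nat_lit 5) (nat_lit 75) (nat_lit 4) (nat_lit 499) (nat_lit 383) (nat_lit 318))))))) (XT.nd (nat_lit 1248) (nat_lit 1064) (nat_lit 0) (XT.nd (nat_lit 624) (nat_lit 532) (nat_lit 0) (XT.nd (nat_lit 312) (nat_lit 456) (nat_lit 0) (XT.nd (nat_lit 156) (nat_lit 76) (nat_lit 0) (XT.nd (nat_lit 78) (nat_lit 76) (nat_lit 0) (XT.lf (nat_lit 0) (nat_lit 425907504) (nat_lit 152) (nat_lit 20031043944) (nat_lit 152) (nat_lit 918200046) (nat_lit 71) (nat_lit 4) (nat_lit 73) (nat_lit 5) (nat_lit 73) (nat_lit 4) (nat_lit 500) (nat_lit 383) (nat_lit 317)) (XT.lf (nat_lit 0) (nat_lit 6021732102) (nat_lit 228) (nat_lit 6980972242) (nat_lit 76) (nat_lit 8785935562) (nat_lit 70) (nat_lit 5) (nat_lit 73) (nat_lit 5) (nat_lit 71) (nat_lit 4) (nat_lit 501) (nat_lit 383) (nat_lit 316)))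 (XT.nd (nat_lit 78) (nat_lit 0) (nat_lit 0) (XT.lf (nat_lit 0) (nat_lit 7449683681) (nat_lit 76) (nat_lit 5724863053) (nat_lit 152) (nat_lit 9039019961) (nat_lit 69) (nat_lit 5) (nat_lit 70) (nat_lit 5) (nat_lit 71) (nat_lit 4) (nat_lit 502) (nat_lit 383) (nat_lit 315)) (XT.lf (nat_lit 0) (nat_lit 20581796690) (nat_lit 152) (nat_lit 303536002) (nat_lit 0) (nat_lit 1764713688) (nat_lit 69) (nat_lit 5) (nat_lit 71) (nat_lit 4) (nat_lit 69) (nat_lit 4) (nat_lit 503) (nat_lit 383) (nat_lit 314)))) (XT.nd (nat_lit 156) (nat_lit 152) (nat_lit 0) (XT.nd (nat_lit 78) (nat_lit 76) (nat_lit 0) (XT.lf (nat_lit 0) (nat_lit 5164721180) (nat_lit 228) (nat_lit 8414657060) (nat_lit 76) (nat_lit 9514183993) (nat_lit 66) (nat_lit 5) (nat_lit 69) (nat_lit 5) (nat_lit 67) (nat_lit 4) (nat_lit 504) (nat_lit 383) (nat_lit 313)) (XT.lf (nat_lit 0) (nat_lit 6584340861) (nat_lit 76) (nat_lit 6008246747) (nat_lit 152) (nat_lit 10956597903)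 (nat_lit 65) (nat_lit 5) (nat_lit 66) (nat_lit 5) (nat_lit 67) (nat_lit 4) (nat_lit 505) (nat_lit 383) (nat_lit 312))) (XT.nd (nat_lit 78) (nat_lit 152) (nat_lit 0) (XT.lf (nat_lit 0) (nat_lit 20299489453) (nat_lit 152) (nat_lit 1918653258) (nat_lit 0) (nat_lit 1798649344) (nat_lit 65) (nat_lit 5) (nat_lit 67) (nat_lit 4) (nat_lit 65) (nat_lit 4) (nat_lit 506) (nat_lit 383) (nat_lit 311)) (XT.lf (nat_lit 0) (nat_lit 3813362439) (nat_lit 152) (nat_lit 10832533028) (nat_lit 76) (nat_lit 9847038886) (nat_lit 63) (nat_lit 5) (nat_lit 65) (nat_lit 5) (nat_lit 64) (nat_lit 4) (nat_lit 507) (nat_lit 383) (nat_lit 310))))) (XT.nd (nat_lit 312) (nat_lit 228) (nat_lit 0) (XT.nd (nat_lit 156) (nat_lit 228) (nat_lit 0) (XT.nd (nat_lit 78) (nat_lit 0) (nat_lit 0) (XT.lf (nat_lit 0) (nat_lit 4730811072) (nat_lit 76) (nat_lit 6784049809) (nat_lit 152) (nat_lit 13466807567) (nat_lit 62) (nat_lit 5) (nat_lit 63) (nat_lit 5) (nat_lit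 64) (nat_lit 4) (nat_lit 508) (nat_lit 383) (nat_lit 309)) (XT.lf (nat_lit 0) (nat_lit 19525169489) (nat_lit 152) (nat_lit 4600349528) (nat_lit 0) (nat_lit 1357213082) (nat_lit 62) (nat_lit 5) (nat_lit 64) (nat_lit 4) (nat_lit 62) (nat_lit 4) (nat_lit 509) (nat_lit 383) (nat_lit 308))) (XT.nd (nat_lit 78) (nat_lit 76) (nat_lit 0) (XT.lf (nat_lit 0) (nat_lit 1878215539) (nat_lit 152) (nat_lit 14419877307) (nat_lit 76) (nat_lit 9696144918) (nat_lit 60) (nat_lit 5) (nat_lit 62) (nat_lit 5) (nat_lit 61) (nat_lit 4) (nat_lit 510) (nat_lit 383) (nat_lit 307)) (XT.lf (nat_lit 0) (nat_lit 1697147293) (nat_lit 76) (nat_lit 8151432101) (nat_lit 152) (nat_lit 16670162475) (nat_lit 59) (nat_lit 5) (nat_lit 60) (nat_lit 5) (nat_lit 61) (nat_lit 4) (nat_lit 511) (nat_lit 383) (nat_lit 306)))) (XT.nd (nat_lit 156) (nat_lit 152) (nat_lit 0) (XT.nd (nat_lit 78) (nat_lit 76) (nat_lit 0) (XT.lf (nat_lit 0) (nat_lit 18163509284) (nat_lit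 152) (nat_lit 8550598699) (nat_lit 0) (nat_lit 341709897) (nat_lit 59) (nat_lit 5) (nat_lit 61) (nat_lit 4) (nat_lit 59) (nat_lit 4) (nat_lit 512) (nat_lit 383) (nat_lit 305)) (XT.lf (nat_lit 0) (nat_lit 8204900965) (nat_lit 76) (nat_lit 18639940064) (nat_lit 76) (nat_lit 760656946) (nat_lit 58) (nat_lit 4) (nat_lit 59) (nat_lit 5) (nat_lit 59) (nat_lit 4) (nat_lit 513) (nat_lit 383) (nat_lit 304))) (XT.nd (nat_lit 78) (nat_lit 76) (nat_lit 0) (XT.lf (nat_lit 0) (nat_lit 7510957867) (nat_lit 152) (nat_lit 2687848095) (nat_lit 76) (nat_lit 17969328665) (nat_lit 57) (nat_lit 5) (nat_lit 59) (nat_lit 5) (nat_lit 58) (nat_lit 4) (nat_lit 514) (nat_lit 383) (nat_lit 303)) (XT.lf (nat_lit 0) (nat_lit 14725457912) (nat_lit 76) (nat_lit 1390174800) (nat_lit 152) (nat_lit 12628786114) (nat_lit 56) (nat_lit 5) (nat_lit 57) (nat_lit 5) (nat_lit 58) (nat_lit 4) (nat_lit 515) (nat_lit 383) (nat_lit 302)))))) (XT.nd (nat_lit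 624) (nat_lit 532) (nat_lit 0) (XT.nd (nat_lit 312) (nat_lit 304) (nat_lit 0) (XT.nd (nat_lit 156) (nat_lit 76) (nat_lit 0) (XT.nd (nat_lit 78) (nat_lit 76) (nat_lit 0) (XT.lf (nat_lit 0) (nat_lit 3288429743) (nat_lit 76) (nat_lit 21781602593) (nat_lit 76) (nat_lit 4265212056) (nat_lit 55) (nat_lit 4) (nat_lit 56) (nat_lit 5) (nat_lit 56) (nat_lit 4) (nat_lit 516) (nat_lit 383) (nat_lit 301)) (XT.lf (nat_lit 0) (nat_lit 4379871046) (nat_lit 152) (nat_lit 8674838283) (nat_lit 76) (nat_lit 16884367363) (nat_lit 54) (nat_lit 5) (nat_lit 56) (nat_lit 5) (nat_lit 55) (nat_lit 4) (nat_lit 517) (nat_lit 383) (nat_lit 300))) (XT.nd (nat_lit 78) (nat_lit 0) (nat_lit 0) (XT.lf (nat_lit 0) (nat_lit 9278746811) (nat_lit 76) (nat_lit 3968969956) (nat_lit 152) (nat_lit 17310566542) (nat_lit 53) (nat_lit 5) (nat_lit 54) (nat_lit 5) (nat_lit 55) (nat_lit 4) (nat_lit 518) (nat_lit 383) (nat_lit 299)) (XT.lf (nat_lit 0) (nat_lit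 22481868899) (nat_lit 152) (nat_lit 3375784375) (nat_lit 0) (nat_lit 5335405053) (nat_lit 53) (nat_lit 5) (nat_lit 55) (nat_lit 4) (nat_lit 53) (nat_lit 4) (nat_lit 519) (nat_lit 383) (nat_lit 298)))) (XT.nd (nat_lit 156) (nat_lit 76) (nat_lit 0) (XT.nd (nat_lit 78) (nat_lit 76) (nat_lit 0) (XT.lf (nat_lit 0) (nat_lit 291798119) (nat_lit 152) (nat_lit 16598170157) (nat_lit 76) (nat_lit 14952412041) (nat_lit 51) (nat_lit 5) (nat_lit 53) (nat_lit 5) (nat_lit 52) (nat_lit 4) (nat_lit 520) (nat_lit 383) (nat_lit 297)) (XT.lf (nat_lit 0) (nat_lit 1855281944) (nat_lit 76) (nat_lit 7547957256) (nat_lit 152) (nat_lit 23104952083) (nat_lit 50) (nat_lit 5) (nat_lit 51) (nat_lit 5) (nat_lit 52) (nat_lit 4) (nat_lit 521) (nat_lit 383) (nat_lit 296))) (XT.nd (nat_lit 78) (nat_lit 76) (nat_lit 0) (XT.lf (nat_lit 0) (nat_lit 18938470678) (nat_lit 152) (nat_lit 12084193080) (nat_lit 0) (nat_lit 2166799703) (nat_lit 50) (nat_lit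 5) (nat_lit 52) (nat_lit 4) (nat_lit 50) (nat_lit 4) (nat_lit 522) (nat_lit 383) (nat_lit 295)) (XT.lf (nat_lit 0) (nat_lit 7030024267) (nat_lit 76) (nat_lit 21834412053) (nat_lit 76) (nat_lit 5023597454) (nat_lit 49) (nat_lit 4) (nat_lit 50) (nat_lit 5) (nat_lit 50) (nat_lit 4) (nat_lit 523) (nat_lit 383) (nat_lit 294))))) (XT.nd (nat_lit 312) (nat_lit 304) (nat_lit 0) (XT.nd (nat_lit 156) (nat_lit 76) (nat_lit 0) (XT.nd (nat_lit 78) (nat_lit 76) (nat_lit 0) (XT.lf (nat_lit 0) (nat_lit 4478812259) (nat_lit 152) (nat_lit 7756829229) (nat_lit 76) (nat_lit 22368059099) (nat_lit 48) (nat_lit 5) (nat_lit 50) (nat_lit 5) (nat_lit 49) (nat_lit 4) (nat_lit 524) (nat_lit 383) (nat_lit 293)) (XT.lf (nat_lit 0) (nat_lit 12030530704) (nat_lit 76) (nat_lit 2213925177) (nat_lit 152) (nat_lit 21092515702) (nat_lit 47) (nat_lit 5) (nat_lit 48) (nat_lit 5) (nat_lit 49) (nat_lit 4) (nat_lit 525) (nat_lit 383) (nat_lit 292))) (XT.nd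 (nat_lit 78) (nat_lit 76) (nat_lit 0) (XT.lf (nat_lit 0) (nat_lit 24423645123) (nat_lit 152) (nat_lit 3670009833) (nat_lit 0) (nat_lit 7994968718) (nat_lit 47) (nat_lit 5) (nat_lit 49) (nat_lit 4) (nat_lit 47) (nat_lit 4) (nat_lit 526) (nat_lit 383) (nat_lit 291)) (XT.lf (nat_lit 0) (nat_lit 16791431146) (nat_lit 76) (nat_lit 18264699427) (nat_lit 76) (nat_lit 1802257388) (nat_lit 46) (nat_lit 4) (nat_lit 47) (nat_lit 5) (nat_lit 47) (nat_lit 4) (nat_lit 527) (nat_lit 383) (nat_lit 290)))) (XT.nd (nat_lit 156) (nat_lit 152) (nat_lit 0) (XT.nd (nat_lit 78) (nat_lit 0) (nat_lit 0) (XT.lf (nat_lit 0) (nat_lit 144087765) (nat_lit 76) (nat_lit 8052617639) (nat_lit 152) (nat_lit 29452027546) (nat_lit 44) (nat_lit 5) (nat_lit 45) (nat_lit 5) (nat_lit 46) (nat_lit 4) (nat_lit 528) (nat_lit 383) (nat_lit 289)) (XT.lf (nat_lit 0) (nat_lit 18652408073) (nat_lit 152) (nat_lit 17197328330) (nat_lit 0) (nat_lit 2606726951) (nat_lit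 44) (nat_lit 5) (nat_lit 46) (nat_lit 4) (nat_lit 44) (nat_lit 4) (nat_lit 529) (nat_lit 383) (nat_lit 288))) (XT.nd (nat_lit 78) (nat_lit 76) (nat_lit 0) (XT.lf (nat_lit 0) (nat_lit 3642714734) (nat_lit 76) (nat_lit 25859489960) (nat_lit 76) (nat_lit 9783808510) (nat_lit 43) (nat_lit 4) (nat_lit 44) (nat_lit 5) (nat_lit 44) (nat_lit 4) (nat_lit 530) (nat_lit 383) (nat_lit 287)) (XT.lf (nat_lit 0) (nat_lit 667639997) (nat_lit 152) (nat_lit 14749498787) (nat_lit 76) (nat_lit 24718923881) (nat_lit 42) (nat_lit 5) (nat_lit 44) (nat_lit 5) (nat_lit 43) (nat_lit 4) (nat_lit 531) (nat_lit 383) (nat_lit 286))))))))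
noncomputable def xc60 : XT := (XT.nd (nat_lit 55302) (nat_lit 0) (nat_lit 7220) (XT.nd (nat_lit 1170) (nat_lit 380) (nat_lit 0) (XT.nd (nat_lit 546) (nat_lit 456) (nat_lit 0) (XT.nd (nat_lit 234) (nat_lit 228) (nat_lit 0) (XT.nd (nat_lit 78) (nat_lit 76) (nat_lit 0) (XT.lf (nat_lit 0) (nat_lit 6739876740) (nat_lit 76) (nat_lit 4527592673) (nat_lit 152) (nat_lit 29740293847) (nat_lit 41) (nat_lit 5) (nat_lit 42) (nat_lit 5) (nat_lit 43) (nat_lit 4) (nat_lit 532) (nat_lit 383) (nat_lit 285)) (XT.nd (nat_lit 78) (nat_lit 76) (nat_lit 0) (XT.lf (nat_lit 0) (nat_lit 22366731815) (nat_lit 152) (nat_lit 12856553654) (nat_lit 0) (nat_lit 6676886457) (nat_lit 41) (nat_lit 5) (nat_lit 43) (nat_lit 4) (nat_lit 41) (nat_lit 4) (nat_lit 533) (nat_lit 383) (nat_lit 284)) (XT.lf (nat_lit 0) (nat_lit 9269165530) (nat_lit 76) (nat_lit 24631431337) (nat_lit 76) (nat_lit 8915707432) (nat_lit 40) (nat_lit 4) (nat_lit 41) (nat_lit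 5) (nat_lit 41) (nat_lit 4) (nat_lit 534) (nat_lit 383) (nat_lit 283)))) (XT.nd (nat_lit 156) (nat_lit 76) (nat_lit 0) (XT.nd (nat_lit 78) (nat_lit 76) (nat_lit 0) (XT.lf (nat_lit 0) (nat_lit 2079951471) (nat_lit 152) (nat_lit 11518547220) (nat_lit 76) (nat_lit 30157874768) (nat_lit 39) (nat_lit 5) (nat_lit 41) (nat_lit 5) (nat_lit 40) (nat_lit 4) (nat_lit 535) (nat_lit 383) (nat_lit 282)) (XT.lf (nat_lit 0) (nat_lit 11239805222) (nat_lit 76) (nat_lit 2063173566) (nat_lit 152) (nat_lit 31416716984) (nat_lit 38) (nat_lit 5) (nat_lit 39) (nat_lit 5) (nat_lit 40) (nat_lit 4) (nat_lit 536) (nat_lit 383) (nat_lit 281))) (XT.nd (nat_lit 78) (nat_lit 76) (nat_lit 0) (XT.lf (nat_lit 0) (nat_lit 25043221751) (nat_lit 152) (nat_lit 10949111353) (nat_lit 0) (nat_lit 9714169075) (nat_lit 38) (nat_lit 5) (nat_lit 40) (nat_lit 4) (nat_lit 38) (nat_lit 4) (nat_lit 537) (nat_lit 383) (nat_lit 280)) (XT.lf (nat_lit 0) (nat_lit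 12419137000) (nat_lit 76) (nat_lit 24825934842) (nat_lit 76) (nat_lit 9474559105) (nat_lit 37) (nat_lit 4) (nat_lit 38) (nat_lit 5) (nat_lit 38) (nat_lit 4) (nat_lit 538) (nat_lit 383) (nat_lit 279))))) (XT.nd (nat_lit 312) (nat_lit 228) (nat_lit 0) (XT.nd (nat_lit 156) (nat_lit 76) (nat_lit 0) (XT.nd (nat_lit 78) (nat_lit 76) (nat_lit 0) (XT.lf (nat_lit 0) (nat_lit 2091088613) (nat_lit 152) (nat_lit 11128138726) (nat_lit 76) (nat_lit 34540897342) (nat_lit 36) (nat_lit 5) (nat_lit 38) (nat_lit 5) (nat_lit 37) (nat_lit 4) (nat_lit 539) (nat_lit 383) (nat_lit 278)) (XT.lf (nat_lit 0) (nat_lit 12837461368) (nat_lit 76) (nat_lit 1069706910) (nat_lit 152) (nat_lit 34919034121) (nat_lit 35) (nat_lit 5) (nat_lit 36) (nat_lit 5) (nat_lit 37) (nat_lit 4) (nat_lit 540) (nat_lit 383) (nat_lit 277))) (XT.nd (nat_lit 78) (nat_lit 76) (nat_lit 0) (XT.lf (nat_lit 0) (nat_lit 26271739436) (nat_lit 152) (nat_lit 12340515880) (nat_lit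 0) (nat_lit 11306187007) (nat_lit 35) (nat_lit 5) (nat_lit 37) (nat_lit 4) (nat_lit 35) (nat_lit 4) (nat_lit 541) (nat_lit 383) (nat_lit 276)) (XT.lf (nat_lit 0) (nat_lit 12187446231) (nat_lit 76) (nat_lit 26918919161) (nat_lit 76) (nat_lit 11934110662) (nat_lit 34) (nat_lit 4) (nat_lit 35) (nat_lit 5) (nat_lit 35) (nat_lit 4) (nat_lit 542) (nat_lit 383) (nat_lit 275)))) (XT.nd (nat_lit 156) (nat_lit 76) (nat_lit 0) (XT.nd (nat_lit 78) (nat_lit 76) (nat_lit 0) (XT.lf (nat_lit 0) (nat_lit 224558585) (nat_lit 152) (nat_lit 14547649783) (nat_lit 76) (nat_lit 37421008117) (nat_lit 33) (nat_lit 5) (nat_lit 35) (nat_lit 5) (nat_lit 34) (nat_lit 4) (nat_lit 543) (nat_lit 383) (nat_lit 274)) (XT.lf (nat_lit 0) (nat_lit 10518697572) (nat_lit 76) (nat_lit 2062756602) (nat_lit 152) (nat_lit 40793340396) (nat_lit 32) (nat_lit 5) (nat_lit 33) (nat_lit 5) (nat_lit 34) (nat_lit 4) (nat_lit 544) (nat_lit 383) (nat_lit 273))) (XT.nd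 (nat_lit 78) (nat_lit 76) (nat_lit 0) (XT.lf (nat_lit 0) (nat_lit 25535660390) (nat_lit 152) (nat_lit 18114940489) (nat_lit 0) (nat_lit 10934421133) (nat_lit 32) (nat_lit 5) (nat_lit 34) (nat_lit 4) (nat_lit 32) (nat_lit 4) (nat_lit 545) (nat_lit 383) (nat_lit 272)) (XT.lf (nat_lit 0) (nat_lit 7439496506) (nat_lit 76) (nat_lit 31503980045) (nat_lit 76) (nat_lit 16886130334) (nat_lit 31) (nat_lit 4) (nat_lit 32) (nat_lit 5) (nat_lit 32) (nat_lit 4) (nat_lit 546) (nat_lit 383) (nat_lit 271)))))) (XT.nd (nat_lit 53508) (nat_lit 0) (nat_lit 15428) (XT.nd (nat_lit 312) (nat_lit 228) (nat_lit 0) (XT.nd (nat_lit 156) (nat_lit 0) (nat_lit 0) (XT.nd (nat_lit 78) (nat_lit 152) (nat_lit 0) (XT.lf (nat_lit 0) (nat_lit 34078729373) (nat_lit 76) (nat_lit 18831044508) (nat_lit 76) (nat_lit 4197068142) (nat_lit 31) (nat_lit 4) (nat_lit 32) (nat_lit 5) (nat_lit 32) (nat_lit 4) (nat_lit 547) (nat_lit 383) (nat_lit 270)) (XT.lf (nat_lit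 0) (nat_lit 3016164081) (nat_lit 76) (nat_lit 5686199166) (nat_lit 152) (nat_lit 49717387345) (nat_lit 29) (nat_lit 5) (nat_lit 30) (nat_lit 5) (nat_lit 31) (nat_lit 4) (nat_lit 548) (nat_lit 383) (nat_lit 269))) (XT.nd (nat_lit 78) (nat_lit 0) (nat_lit 0) (XT.lf (nat_lit 0) (nat_lit 22188609427) (nat_lit 152) (nat_lit 29622758493) (nat_lit 0) (nat_lit 7950906290) (nat_lit 29) (nat_lit 5) (nat_lit 31) (nat_lit 4) (nat_lit 29) (nat_lit 4) (nat_lit 549) (nat_lit 383) (nat_lit 268)) (XT.lf (nat_lit 0) (nat_lit 36110363209) (nat_lit 152) (nat_lit 3175451077) (nat_lit 0) (nat_lit 21858331749) (nat_lit 29) (nat_lit 5) (nat_lit 31) (nat_lit 4) (nat_lit 29) (nat_lit 4) (nat_lit 550) (nat_lit 383) (nat_lit 267)))) (XT.nd (nat_lit 156) (nat_lit 76) (nat_lit 0) (XT.nd (nat_lit 78) (nat_lit 76) (nat_lit 0) (XT.lf (nat_lit 0) (nat_lit 24494071824) (nat_lit 76) (nat_lit 26166510188) (nat_lit 76) (nat_lit 11900567733) (nat_lit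 28) (nat_lit 4) (nat_lit 29) (nat_lit 5) (nat_lit 29) (nat_lit 4) (nat_lit 551) (nat_lit 383) (nat_lit 266)) (XT.lf (nat_lit 0) (nat_lit 1602653895) (nat_lit 152) (nat_lit 11026060866) (nat_lit 76) (nat_lit 51391247260) (nat_lit 27) (nat_lit 5) (nat_lit 29) (nat_lit 5) (nat_lit 28) (nat_lit 4) (nat_lit 552) (nat_lit 383) (nat_lit 265))) (XT.nd (nat_lit 78) (nat_lit 0) (nat_lit 0) (XT.lf (nat_lit 0) (nat_lit 15426405131) (nat_lit 152) (nat_lit 48537827541) (nat_lit 0) (nat_lit 1550132587) (nat_lit 26) (nat_lit 5) (nat_lit 28) (nat_lit 4) (nat_lit 26) (nat_lit 4) (nat_lit 553) (nat_lit 383) (nat_lit 264)) (XT.lf (nat_lit 0) (nat_lit 29878450673) (nat_lit 152) (nat_lit 21178924167) (nat_lit 0) (nat_lit 15989818391) (nat_lit 26) (nat_lit 5) (nat_lit 28) (nat_lit 4) (nat_lit 26) (nat_lit 4) (nat_lit 554) (nat_lit 383) (nat_lit 263))))) (XT.nd (nat_lit 312) (nat_lit 1444) (nat_lit 0) (XT.nd (nat_lit 156) (nat_lit 1140)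 (nat_lit 0) (XT.nd (nat_lit 78) (nat_lit 76) (nat_lit 0) (XT.lf (nat_lit 0) (nat_lit 318938586) (nat_lit 608) (nat_lit 1724013747) (nat_lit 608) (nat_lit 1724013747) (nat_lit 264) (nat_lit 4) (nat_lit 272) (nat_lit 5) (nat_lit 272) (nat_lit 4) (nat_lit 432) (nat_lit 384) (nat_lit 384)) (XT.lf (nat_lit 0) (nat_lit 275859934) (nat_lit 684) (nat_lit 881463824) (nat_lit 76) (nat_lit 6447148972) (nat_lit 263) (nat_lit 5) (nat_lit 272) (nat_lit 5) (nat_lit 264) (nat_lit 4) (nat_lit 433) (nat_lit 384) (nat_lit 383))) (XT.nd (nat_lit 78) (nat_lit 608) (nat_lit 0) (XT.lf (nat_lit 0) (nat_lit 4004226038) (nat_lit 608) (nat_lit 2426990395) (nat_lit 0) (nat_lit 1246036985) (nat_lit 256) (nat_lit 5) (nat_lit 264) (nat_lit 4) (nat_lit 256) (nat_lit 4) (nat_lit 434) (nat_lit 384) (nat_lit 382)) (XT.lf (nat_lit 0) (nat_lit 47588003) (nat_lit 608) (nat_lit 3980725036) (nat_lit 76) (nat_lit 3725172446) (nat_lit 248) (nat_lit 5)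 (nat_lit 256) (nat_lit 5) (nat_lit 249) (nat_lit 4) (nat_lit 435) (nat_lit 384) (nat_lit 381)))) (XT.nd (nat_lit 156) (nat_lit 532) (nat_lit 0) (XT.nd (nat_lit 78) (nat_lit 456) (nat_lit 0) (XT.lf (nat_lit 0) (nat_lit 2262848999) (nat_lit 456) (nat_lit 1491286848) (nat_lit 532) (nat_lit 4078342665) (nat_lit 242) (nat_lit 5) (nat_lit 248) (nat_lit 5) (nat_lit 249) (nat_lit 4) (nat_lit 436) (nat_lit 384) (nat_lit 380)) (XT.lf (nat_lit 0) (nat_lit 742839314) (nat_lit 456) (nat_lit 6790674335) (nat_lit 456) (nat_lit 381487548) (nat_lit 236) (nat_lit 4) (nat_lit 242) (nat_lit 5) (nat_lit 242) (nat_lit 4) (nat_lit 437) (nat_lit 384) (nat_lit 379))) (XT.nd (nat_lit 78) (nat_lit 456) (nat_lit 0) (XT.lf (nat_lit 0) (nat_lit 3334790343) (nat_lit 532) (nat_lit 811600866) (nat_lit 76) (nat_lit 3853367379) (nat_lit 235) (nat_lit 5) (nat_lit 242) (nat_lit 5) (nat_lit 236) (nat_lit 4) (nat_lit 438) (nat_lit 384) (nat_lit 378))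 (XT.lf (nat_lit 0) (nat_lit 5727486868) (nat_lit 456) (nat_lit 1389071537) (nat_lit 532) (nat_lit 971545021) (nat_lit 229) (nat_lit 5) (nat_lit 235) (nat_lit 5) (nat_lit 236) (nat_lit 4) (nat_lit 439) (nat_lit 384) (nat_lit 377))))))) (XT.nd (nat_lit 1170) (nat_lit 3420) (nat_lit 0) (XT.nd (nat_lit 546) (nat_lit 2204) (nat_lit 0) (XT.nd (nat_lit 234) (nat_lit 1140) (nat_lit 0) (XT.nd (nat_lit 78) (nat_lit 912) (nat_lit 0) (XT.lf (nat_lit 0) (nat_lit 2748092894) (nat_lit 532) (nat_lit 3959124208) (nat_lit 76) (nat_lit 1471951646) (nat_lit 222) (nat_lit 5) (nat_lit 229) (nat_lit 5) (nat_lit 223) (nat_lit 4) (nat_lit 440) (nat_lit 384) (nat_lit 376)) (XT.nd (nat_lit 78) (nat_lit 532) (nat_lit 0) (XT.lf (nat_lit 0) (nat_lit 2680734147) (nat_lit 380) (nat_lit 3851200797) (nat_lit 456) (nat_lit 1741585679) (nat_lit 217) (nat_lit 5) (nat_lit 222) (nat_lit 5) (nat_lit 223) (nat_lit 4) (nat_lit 441) (nat_lit 384) (nat_lit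 375)) (XT.lf (nat_lit 0) (nat_lit 1110070130) (nat_lit 456) (nat_lit 868543449) (nat_lit 532) (nat_lit 6392696983) (nat_lit 210) (nat_lit 5) (nat_lit 216) (nat_lit 5) (nat_lit 217) (nat_lit 5) (nat_lit 442) (nat_lit 384) (nat_lit 374)))) (XT.nd (nat_lit 156) (nat_lit 684) (nat_lit 0) (XT.nd (nat_lit 78) (nat_lit 456) (nat_lit 0) (XT.lf (nat_lit 0) (nat_lit 5763947879) (nat_lit 532) (nat_lit 504688956) (nat_lit 76) (nat_lit 2203230866) (nat_lit 210) (nat_lit 5) (nat_lit 217) (nat_lit 5) (nat_lit 211) (nat_lit 4) (nat_lit 443) (nat_lit 384) (nat_lit 373)) (XT.lf (nat_lit 0) (nat_lit 1049554492) (nat_lit 456) (nat_lit 2134792102) (nat_lit 76) (nat_lit 5391286603) (nat_lit 204) (nat_lit 5) (nat_lit 210) (nat_lit 5) (nat_lit 205) (nat_lit 5) (nat_lit 444) (nat_lit 384) (nat_lit 372))) (XT.nd (nat_lit 78) (nat_lit 304) (nat_lit 0) (XT.lf (nat_lit 0) (nat_lit 4831125884) (nat_lit 456) (nat_lit 3813194113) (nat_lit 76)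 (nat_lit 38419572) (nat_lit 199) (nat_lit 5) (nat_lit 205) (nat_lit 5) (nat_lit 200) (nat_lit 4) (nat_lit 445) (nat_lit 384) (nat_lit 371)) (XT.lf (nat_lit 0) (nat_lit 3244939255) (nat_lit 304) (nat_lit 5480195939) (nat_lit 380) (nat_lit 67960257) (nat_lit 195) (nat_lit 5) (nat_lit 199) (nat_lit 5) (nat_lit 200) (nat_lit 4) (nat_lit 446) (nat_lit 384) (nat_lit 370))))) (XT.nd (nat_lit 312) (nat_lit 1064) (nat_lit 0) (XT.nd (nat_lit 156) (nat_lit 684) (nat_lit 0) (XT.nd (nat_lit 78) (nat_lit 0) (nat_lit 0) (XT.lf (nat_lit 0) (nat_lit 1558087618) (nat_lit 380) (nat_lit 2165247450) (nat_lit 456) (nat_lit 5183262765) (nat_lit 189) (nat_lit 5) (nat_lit 194) (nat_lit 5) (nat_lit 195) (nat_lit 5) (nat_lit 447) (nat_lit 384) (nat_lit 369)) (XT.lf (nat_lit 0) (nat_lit 7611529190) (nat_lit 456) (nat_lit 167266197) (nat_lit 76) (nat_lit 1245159469) (nat_lit 189) (nat_lit 5) (nat_lit 195) (nat_lit 5) (nat_lit 190) (nat_lit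 4) (nat_lit 448) (nat_lit 384) (nat_lit 368))) (XT.nd (nat_lit 78) (nat_lit 304) (nat_lit 0) (XT.lf (nat_lit 0) (nat_lit 2432710838) (nat_lit 380) (nat_lit 1939225315) (nat_lit 76) (nat_lit 4771906826) (nat_lit 184) (nat_lit 5) (nat_lit 189) (nat_lit 5) (nat_lit 185) (nat_lit 5) (nat_lit 449) (nat_lit 384) (nat_lit 367)) (XT.lf (nat_lit 0) (nat_lit 5506962563) (nat_lit 304) (nat_lit 831314356) (nat_lit 380) (nat_lit 2929432441) (nat_lit 180) (nat_lit 5) (nat_lit 184) (nat_lit 5) (nat_lit 185) (nat_lit 5) (nat_lit 450) (nat_lit 384) (nat_lit 366)))) (XT.nd (nat_lit 156) (nat_lit 380) (nat_lit 0) (XT.nd (nat_lit 78) (nat_lit 304) (nat_lit 0) (XT.lf (nat_lit 0) (nat_lit 949410551) (nat_lit 380) (nat_lit 5658254620) (nat_lit 76) (nat_lit 2787276731) (nat_lit 175) (nat_lit 5) (nat_lit 180) (nat_lit 5) (nat_lit 176) (nat_lit 5) (nat_lit 451) (nat_lit 384) (nat_lit 365)) (XT.lf (nat_lit 0) (nat_lit 1888971203) (nat_lit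 304) (nat_lit 2981572777) (nat_lit 380) (nat_lit 4655037828) (nat_lit 171) (nat_lit 5) (nat_lit 175) (nat_lit 5) (nat_lit 176) (nat_lit 5) (nat_lit 452) (nat_lit 384) (nat_lit 364))) (XT.nd (nat_lit 78) (nat_lit 380) (nat_lit 0) (XT.lf (nat_lit 0) (nat_lit 8895089761) (nat_lit 380) (nat_lit 9969181) (nat_lit 76) (nat_lit 755513118) (nat_lit 171) (nat_lit 5) (nat_lit 176) (nat_lit 5) (nat_lit 172) (nat_lit 4) (nat_lit 453) (nat_lit 384) (nat_lit 363)) (XT.lf (nat_lit 0) (nat_lit 3205918149) (nat_lit 380) (nat_lit 1979838101) (nat_lit 76) (nat_lit 4612073527) (nat_lit 166) (nat_lit 5) (nat_lit 171) (nat_lit 5) (nat_lit 167) (nat_lit 5) (nat_lit 454) (nat_lit 384) (nat_lit 362)))))) (XT.nd (nat_lit 624) (nat_lit 1444) (nat_lit 0) (XT.nd (nat_lit 312) (nat_lit 1064) (nat_lit 0) (XT.nd (nat_lit 156) (nat_lit 304) (nat_lit 0) (XT.nd (nat_lit 78) (nat_lit 304) (nat_lit 0) (XT.lf (nat_lit 0) (nat_lit 5930807925) (nat_lit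 304) (nat_lit 1330873346) (nat_lit 380) (nat_lit 2677882516) (nat_lit 162) (nat_lit 5) (nat_lit 166) (nat_lit 5) (nat_lit 167) (nat_lit 5) (nat_lit 455) (nat_lit 384) (nat_lit 361)) (XT.lf (nat_lit 0) (nat_lit 1335099606) (nat_lit 304) (nat_lit 6131998113) (nat_lit 76) (nat_lit 2617827287) (nat_lit 158) (nat_lit 5) (nat_lit 162) (nat_lit 5) (nat_lit 159) (nat_lit 5) (nat_lit 456) (nat_lit 384) (nat_lit 360))) (XT.nd (nat_lit 78) (nat_lit 0) (nat_lit 0) (XT.lf (nat_lit 0) (nat_lit 1878612327) (nat_lit 304) (nat_lit 3532655812) (nat_lit 380) (nat_lit 4822688684) (nat_lit 154) (nat_lit 5) (nat_lit 158) (nat_lit 5) (nat_lit 159) (nat_lit 5) (nat_lit 457) (nat_lit 384) (nat_lit 359)) (XT.lf (nat_lit 0) (nat_lit 9602382924) (nat_lit 380) (nat_lit 256759368) (nat_lit 76) (nat_lit 528541124) (nat_lit 154) (nat_lit 5) (nat_lit 159) (nat_lit 5) (nat_lit 155) (nat_lit 4) (nat_lit 458) (nat_lit 384) (nat_lit 358)))) (XT.nd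 (nat_lit 156) (nat_lit 532) (nat_lit 0) (XT.nd (nat_lit 78) (nat_lit 228) (nat_lit 0) (XT.lf (nat_lit 0) (nat_lit 3347836571) (nat_lit 304) (nat_lit 2487236435) (nat_lit 76) (nat_lit 4708765966) (nat_lit 150) (nat_lit 5) (nat_lit 154) (nat_lit 5) (nat_lit 151) (nat_lit 5) (nat_lit 459) (nat_lit 384) (nat_lit 357)) (XT.lf (nat_lit 0) (nat_lit 5909986413) (nat_lit 228) (nat_lit 1666224998) (nat_lit 304) (nat_lit 3128627050) (nat_lit 147) (nat_lit 5) (nat_lit 150) (nat_lit 5) (nat_lit 151) (nat_lit 5) (nat_lit 460) (nat_lit 384) (nat_lit 356))) (XT.nd (nat_lit 78) (nat_lit 228) (nat_lit 0) (XT.lf (nat_lit 0) (nat_lit 1054245984) (nat_lit 304) (nat_lit 7212442678) (nat_lit 76) (nat_lit 2603251248) (nat_lit 143) (nat_lit 5) (nat_lit 147) (nat_lit 5) (nat_lit 144) (nat_lit 5) (nat_lit 461) (nat_lit 384) (nat_lit 355)) (XT.lf (nat_lit 0) (nat_lit 1281829870) (nat_lit 228) (nat_lit 4024029154) (nat_lit 304) (nat_lit 5733025062)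 (nat_lit 140) (nat_lit 5) (nat_lit 143) (nat_lit 5) (nat_lit 144) (nat_lit 5) (nat_lit 462) (nat_lit 384) (nat_lit 354))))) (XT.nd (nat_lit 312) (nat_lit 684) (nat_lit 0) (XT.nd (nat_lit 156) (nat_lit 456) (nat_lit 0) (XT.nd (nat_lit 78) (nat_lit 304) (nat_lit 0) (XT.lf (nat_lit 0) (nat_lit 9690827202) (nat_lit 304) (nat_lit 1154887100) (nat_lit 76) (nat_lit 367011056) (nat_lit 140) (nat_lit 5) (nat_lit 144) (nat_lit 5) (nat_lit 141) (nat_lit 4) (nat_lit 463) (nat_lit 384) (nat_lit 353)) (XT.lf (nat_lit 0) (nat_lit 2805923223) (nat_lit 304) (nat_lit 3717628366) (nat_lit 76) (nat_lit 4866062061) (nat_lit 136) (nat_lit 5) (nat_lit 140) (nat_lit 5) (nat_lit 137) (nat_lit 5) (nat_lit 464) (nat_lit 384) (nat_lit 352))) (XT.nd (nat_lit 78) (nat_lit 228) (nat_lit 0) (XT.lf (nat_lit 0) (nat_lit 5186213069) (nat_lit 228) (nat_lit 2039641170) (nat_lit 304) (nat_lit 4345719115) (nat_lit 133) (nat_lit 5) (nat_lit 136) (nat_lit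 5) (nat_lit 137) (nat_lit 5) (nat_lit 465) (nat_lit 384) (nat_lit 351)) (XT.lf (nat_lit 0) (nat_lit 38433369) (nat_lit 228) (nat_lit 9174146945) (nat_lit 76) (nat_lit 2545825894) (nat_lit 130) (nat_lit 5) (nat_lit 133) (nat_lit 5) (nat_lit 131) (nat_lit 5) (nat_lit 466) (nat_lit 384) (nat_lit 350)))) (XT.nd (nat_lit 156) (nat_lit 456) (nat_lit 0) (XT.nd (nat_lit 78) (nat_lit 228) (nat_lit 0) (XT.lf (nat_lit 0) (nat_lit 4483978468) (nat_lit 228) (nat_lit 175267327) (nat_lit 76) (nat_lit 7289793555) (nat_lit 130) (nat_lit 5) (nat_lit 133) (nat_lit 5) (nat_lit 131) (nat_lit 5) (nat_lit 467) (nat_lit 384) (nat_lit 349)) (XT.lf (nat_lit 0) (nat_lit 9085535138) (nat_lit 304) (nat_lit 2986111780) (nat_lit 76) (nat_lit 73067629) (nat_lit 127) (nat_lit 5) (nat_lit 131) (nat_lit 5) (nat_lit 128) (nat_lit 4) (nat_lit 468) (nat_lit 384) (nat_lit 348))) (XT.nd (nat_lit 78) (nat_lit 228) (nat_lit 0) (XT.lf (nat_lit 0) (nat_lit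 1494129182) (nat_lit 228) (nat_lit 5964456482) (nat_lit 76) (nat_lit 4885926870) (nat_lit 124) (nat_lit 5) (nat_lit 127) (nat_lit 5) (nat_lit 125) (nat_lit 5) (nat_lit 469) (nat_lit 384) (nat_lit 347)) (XT.lf (nat_lit 0) (nat_lit 3462429038) (nat_lit 228) (nat_lit 2658333382) (nat_lit 304) (nat_lit 6428689231) (nat_lit 121) (nat_lit 5) (nat_lit 124) (nat_lit 5) (nat_lit 125) (nat_lit 5) (nat_lit 470) (nat_lit 384) (nat_lit 346))))))))
noncomputable def xc61 : XT := (XT.nd (nat_lit 2418) (nat_lit 2204) (nat_lit 0) (XT.nd (nat_lit 1170) (nat_lit 1748) (nat_lit 0) (XT.nd (nat_lit 546) (nat_lit 1064) (nat_lit 0) (XT.nd (nat_lit 234) (nat_lit 608) (nat_lit 0) (XT.nd (nat_lit 78) (nat_lit 304) (nat_lit 0) (XT.lf (nat_lit 0) (nat_lit 407088367) (nat_lit 152) (nat_lit 10500663650) (nat_lit 228) (nat_lit 1852142349) (nat_lit 119) (nat_lit 5) (nat_lit 121) (nat_lit 5) (nat_lit 122) (nat_lit 4) (nat_lit 471) (nat_lit 384)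 (nat_lit 345)) (XT.nd (nat_lit 78) (nat_lit 228) (nat_lit 0) (XT.lf (nat_lit 0) (nat_lit 2859867533) (nat_lit 228) (nat_lit 2770455008) (nat_lit 76) (nat_lit 7343884334) (nat_lit 118) (nat_lit 5) (nat_lit 121) (nat_lit 5) (nat_lit 119) (nat_lit 5) (nat_lit 472) (nat_lit 384) (nat_lit 344)) (XT.lf (nat_lit 0) (nat_lit 7108955496) (nat_lit 228) (nat_lit 572303191) (nat_lit 304) (nat_lit 5512984482) (nat_lit 115) (nat_lit 5) (nat_lit 118) (nat_lit 5) (nat_lit 119) (nat_lit 5) (nat_lit 473) (nat_lit 384) (nat_lit 343)))) (XT.nd (nat_lit 156) (nat_lit 228) (nat_lit 0) (XT.nd (nat_lit 78) (nat_lit 228) (nat_lit 0) (XT.lf (nat_lit 0) (nat_lit 3840461339) (nat_lit 152) (nat_lit 8853817181) (nat_lit 228) (nat_lit 725194330) (nat_lit 113) (nat_lit 5) (nat_lit 115) (nat_lit 5) (nat_lit 116) (nat_lit 4) (nat_lit 474) (nat_lit 384) (nat_lit 342)) (XT.lf (nat_lit 0) (nat_lit 388704881) (nat_lit 152) (nat_lit 3744300226) (nat_lit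 228) (nat_lit 9516977501) (nat_lit 110) (nat_lit 5) (nat_lit 112) (nat_lit 5) (nat_lit 113) (nat_lit 5) (nat_lit 475) (nat_lit 384) (nat_lit 341))) (XT.nd (nat_lit 78) (nat_lit 228) (nat_lit 0) (XT.lf (nat_lit 0) (nat_lit 9172351619) (nat_lit 228) (nat_lit 3167010393) (nat_lit 76) (nat_lit 1546332684) (nat_lit 110) (nat_lit 5) (nat_lit 113) (nat_lit 5) (nat_lit 111) (nat_lit 4) (nat_lit 476) (nat_lit 384) (nat_lit 340)) (XT.lf (nat_lit 0) (nat_lit 276318285) (nat_lit 228) (nat_lit 6904129117) (nat_lit 76) (nat_lit 6946570038) (nat_lit 107) (nat_lit 5) (nat_lit 110) (nat_lit 5) (nat_lit 108) (nat_lit 5) (nat_lit 477) (nat_lit 384) (nat_lit 339))))) (XT.nd (nat_lit 312) (nat_lit 532) (nat_lit 0) (XT.nd (nat_lit 156) (nat_lit 380) (nat_lit 0) (XT.nd (nat_lit 78) (nat_lit 0) (nat_lit 0) (XT.lf (nat_lit 0) (nat_lit 3528174360) (nat_lit 152) (nat_lit 1798619069) (nat_lit 228) (nat_lit 9047212309) (nat_lit 105) (nat_lit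 5) (nat_lit 107) (nat_lit 5) (nat_lit 108) (nat_lit 5) (nat_lit 478) (nat_lit 384) (nat_lit 338)) (XT.lf (nat_lit 0) (nat_lit 10575098654) (nat_lit 228) (nat_lit 356765050) (nat_lit 76) (nat_lit 3695152059) (nat_lit 105) (nat_lit 5) (nat_lit 108) (nat_lit 5) (nat_lit 106) (nat_lit 4) (nat_lit 479) (nat_lit 384) (nat_lit 337))) (XT.nd (nat_lit 78) (nat_lit 152) (nat_lit 0) (XT.lf (nat_lit 0) (nat_lit 1133184599) (nat_lit 228) (nat_lit 4367856169) (nat_lit 76) (nat_lit 9384423095) (nat_lit 102) (nat_lit 5) (nat_lit 105) (nat_lit 5) (nat_lit 103) (nat_lit 5) (nat_lit 480) (nat_lit 384) (nat_lit 336)) (XT.lf (nat_lit 0) (nat_lit 6402334433) (nat_lit 228) (nat_lit 8595655097) (nat_lit 76) (nat_lit 152175722) (nat_lit 100) (nat_lit 5) (nat_lit 103) (nat_lit 5) (nat_lit 101) (nat_lit 4) (nat_lit 481) (nat_lit 384) (nat_lit 335)))) (XT.nd (nat_lit 156) (nat_lit 304) (nat_lit 0) (XT.nd (nat_lit 78) (nat_lit 76) (nat_lit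 0) (XT.lf (nat_lit 0) (nat_lit 2357768838) (nat_lit 152) (nat_lit 9535483556) (nat_lit 228) (nat_lit 3527645856) (nat_lit 98) (nat_lit 5) (nat_lit 100) (nat_lit 5) (nat_lit 101) (nat_lit 4) (nat_lit 482) (nat_lit 384) (nat_lit 334)) (XT.lf (nat_lit 0) (nat_lit 1842851678) (nat_lit 228) (nat_lit 2005837203) (nat_lit 76) (nat_lit 11849638689) (nat_lit 97) (nat_lit 5) (nat_lit 100) (nat_lit 5) (nat_lit 98) (nat_lit 5) (nat_lit 483) (nat_lit 384) (nat_lit 333))) (XT.nd (nat_lit 78) (nat_lit 152) (nat_lit 0) (XT.lf (nat_lit 0) (nat_lit 7358121815) (nat_lit 228) (nat_lit 6572818689) (nat_lit 76) (nat_lit 2050455916) (nat_lit 95) (nat_lit 5) (nat_lit 98) (nat_lit 5) (nat_lit 96) (nat_lit 4) (nat_lit 484) (nat_lit 384) (nat_lit 332)) (XT.lf (nat_lit 0) (nat_lit 4888097289) (nat_lit 152) (nat_lit 8200328933) (nat_lit 228) (nat_lit 3183045053) (nat_lit 93) (nat_lit 5) (nat_lit 95) (nat_lit 5) (nat_lit 96) (nat_lit 4) (nat_lit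 485) (nat_lit 384) (nat_lit 331)))))) (XT.nd (nat_lit 624) (nat_lit 912) (nat_lit 0) (XT.nd (nat_lit 312) (nat_lit 304) (nat_lit 0) (XT.nd (nat_lit 156) (nat_lit 304) (nat_lit 0) (XT.nd (nat_lit 78) (nat_lit 0) (nat_lit 0) (XT.lf (nat_lit 0) (nat_lit 134750436) (nat_lit 152) (nat_lit 2250862111) (nat_lit 228) (nat_lit 14183565443) (nat_lit 90) (nat_lit 5) (nat_lit 92) (nat_lit 5) (nat_lit 93) (nat_lit 5) (nat_lit 486) (nat_lit 384) (nat_lit 330)) (XT.lf (nat_lit 0) (nat_lit 8155029566) (nat_lit 228) (nat_lit 4813992024) (nat_lit 76) (nat_lit 3902919706) (nat_lit 90) (nat_lit 5) (nat_lit 93) (nat_lit 5) (nat_lit 91) (nat_lit 4) (nat_lit 487) (nat_lit 384) (nat_lit 329))) (XT.nd (nat_lit 78) (nat_lit 228) (nat_lit 0) (XT.lf (nat_lit 0) (nat_lit 7172272487) (nat_lit 76) (nat_lit 6962427344) (nat_lit 152) (nat_lit 3047973637) (nat_lit 89) (nat_lit 5) (nat_lit 90) (nat_lit 5) (nat_lit 91) (nat_lit 4) (nat_lit 488) (nat_lit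 384) (nat_lit 328)) (XT.lf (nat_lit 0) (nat_lit 2027240658) (nat_lit 152) (nat_lit 723938023) (nat_lit 228) (nat_lit 14750306801) (nat_lit 86) (nat_lit 5) (nat_lit 88) (nat_lit 5) (nat_lit 89) (nat_lit 5) (nat_lit 489) (nat_lit 384) (nat_lit 327)))) (XT.nd (nat_lit 156) (nat_lit 228) (nat_lit 0) (XT.nd (nat_lit 78) (nat_lit 76) (nat_lit 0) (XT.lf (nat_lit 0) (nat_lit 8766138599) (nat_lit 228) (nat_lit 3382318722) (nat_lit 76) (nat_lit 5677407364) (nat_lit 86) (nat_lit 5) (nat_lit 89) (nat_lit 5) (nat_lit 87) (nat_lit 4) (nat_lit 490) (nat_lit 384) (nat_lit 326)) (XT.lf (nat_lit 0) (nat_lit 9145882795) (nat_lit 76) (nat_lit 5858514767) (nat_lit 152) (nat_lit 3154293162) (nat_lit 85) (nat_lit 5) (nat_lit 86) (nat_lit 5) (nat_lit 87) (nat_lit 4) (nat_lit 491) (nat_lit 384) (nat_lit 325))) (XT.nd (nat_lit 78) (nat_lit 0) (nat_lit 0) (XT.lf (nat_lit 0) (nat_lit 2894219518) (nat_lit 228) (nat_lit 14944698336) (nat_lit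 76) (nat_lit 661048388) (nat_lit 82) (nat_lit 5) (nat_lit 85) (nat_lit 5) (nat_lit 83) (nat_lit 4) (nat_lit 492) (nat_lit 384) (nat_lit 324)) (XT.lf (nat_lit 0) (nat_lit 9158704166) (nat_lit 228) (nat_lit 2351763413) (nat_lit 76) (nat_lit 7337138969) (nat_lit 82) (nat_lit 5) (nat_lit 85) (nat_lit 5) (nat_lit 83) (nat_lit 4) (nat_lit 493) (nat_lit 384) (nat_lit 323))))) (XT.nd (nat_lit 312) (nat_lit 532) (nat_lit 0) (XT.nd (nat_lit 156) (nat_lit 76) (nat_lit 0) (XT.nd (nat_lit 78) (nat_lit 228) (nat_lit 0) (XT.lf (nat_lit 0) (nat_lit 10733241965) (nat_lit 76) (nat_lit 4930567396) (nat_lit 152) (nat_lit 3540286982) (nat_lit 81) (nat_lit 5) (nat_lit 82) (nat_lit 5) (nat_lit 83) (nat_lit 4) (nat_lit 494) (nat_lit 384) (nat_lit 322)) (XT.lf (nat_lit 0) (nat_lit 2774887561) (nat_lit 228) (nat_lit 14931195365) (nat_lit 76) (nat_lit 1863295395) (nat_lit 78) (nat_lit 5) (nat_lit 81) (nat_lit 5) (nat_lit 79) (nat_lit 4)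 (nat_lit 495) (nat_lit 384) (nat_lit 321))) (XT.nd (nat_lit 78) (nat_lit 76) (nat_lit 0) (XT.lf (nat_lit 0) (nat_lit 9293280514) (nat_lit 228) (nat_lit 1809002443) (nat_lit 76) (nat_lit 8839737434) (nat_lit 78) (nat_lit 5) (nat_lit 81) (nat_lit 5) (nat_lit 79) (nat_lit 4) (nat_lit 496) (nat_lit 384) (nat_lit 320)) (XT.lf (nat_lit 0) (nat_lit 11845411938) (nat_lit 76) (nat_lit 4226859243) (nat_lit 152) (nat_lit 4251619928) (nat_lit 77) (nat_lit 5) (nat_lit 78) (nat_lit 5) (nat_lit 79) (nat_lit 4) (nat_lit 497) (nat_lit 384) (nat_lit 319)))) (XT.nd (nat_lit 156) (nat_lit 304) (nat_lit 0) (XT.nd (nat_lit 78) (nat_lit 0) (nat_lit 0) (XT.lf (nat_lit 0) (nat_lit 2339557743) (nat_lit 228) (nat_lit 15527513870) (nat_lit 76) (nat_lit 2848040330) (nat_lit 74) (nat_lit 5) (nat_lit 77) (nat_lit 5) (nat_lit 75) (nat_lit 4) (nat_lit 498) (nat_lit 384) (nat_lit 318)) (XT.lf (nat_lit 0) (nat_lit 9122693439) (nat_lit 228) (nat_lit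 1855610612) (nat_lit 76) (nat_lit 10136112912) (nat_lit 74) (nat_lit 5) (nat_lit 77) (nat_lit 5) (nat_lit 75) (nat_lit 4) (nat_lit 499) (nat_lit 384) (nat_lit 317))) (XT.nd (nat_lit 78) (nat_lit 228) (nat_lit 0) (XT.lf (nat_lit 0) (nat_lit 12377914809) (nat_lit 76) (nat_lit 3803171374) (nat_lit 152) (nat_lit 5342462740) (nat_lit 73) (nat_lit 5) (nat_lit 74) (nat_lit 5) (nat_lit 75) (nat_lit 4) (nat_lit 500) (nat_lit 384) (nat_lit 316)) (XT.lf (nat_lit 0) (nat_lit 1532815887) (nat_lit 228) (nat_lit 16851427104) (nat_lit 76) (nat_lit 3558600125) (nat_lit 70) (nat_lit 5) (nat_lit 73) (nat_lit 5) (nat_lit 71) (nat_lit 4) (nat_lit 501) (nat_lit 384) (nat_lit 315))))))) (XT.nd (nat_lit 1248) (nat_lit 1064) (nat_lit 0) (XT.nd (nat_lit 624) (nat_lit 532) (nat_lit 0) (XT.nd (nat_lit 312) (nat_lit 304) (nat_lit 0) (XT.nd (nat_lit 156) (nat_lit 228) (nat_lit 0) (XT.nd (nat_lit 78) (nat_lit 76) (nat_lit 0) (XT.lf (nat_lit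 0) (nat_lit 8590837487) (nat_lit 228) (nat_lit 2610592558) (nat_lit 76) (nat_lit 11169183956) (nat_lit 70) (nat_lit 5) (nat_lit 73) (nat_lit 5) (nat_lit 71) (nat_lit 4) (nat_lit 502) (nat_lit 384) (nat_lit 314)) (XT.lf (nat_lit 0) (nat_lit 12208082956) (nat_lit 76) (nat_lit 3724179315) (nat_lit 152) (nat_lit 6876806469) (nat_lit 69) (nat_lit 5) (nat_lit 70) (nat_lit 5) (nat_lit 71) (nat_lit 4) (nat_lit 503) (nat_lit 384) (nat_lit 313))) (XT.nd (nat_lit 78) (nat_lit 0) (nat_lit 0) (XT.lf (nat_lit 0) (nat_lit 289133278) (nat_lit 228) (nat_lit 19040600716) (nat_lit 76) (nat_lit 3929063463) (nat_lit 66) (nat_lit 5) (nat_lit 69) (nat_lit 5) (nat_lit 67) (nat_lit 4) (nat_lit 504) (nat_lit 384) (nat_lit 312)) (XT.lf (nat_lit 0) (nat_lit 7631270734) (nat_lit 228) (nat_lit 4213315008) (nat_lit 76) (nat_lit 11872407133) (nat_lit 66) (nat_lit 5) (nat_lit 69) (nat_lit 5) (nat_lit 67) (nat_lit 4) (nat_lit 505) (nat_lit 384)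 (nat_lit 311)))) (XT.nd (nat_lit 156) (nat_lit 152) (nat_lit 0) (XT.nd (nat_lit 78) (nat_lit 76) (nat_lit 0) (XT.lf (nat_lit 0) (nat_lit 11191988324) (nat_lit 76) (nat_lit 4065049190) (nat_lit 152) (nat_lit 8929996222) (nat_lit 65) (nat_lit 5) (nat_lit 66) (nat_lit 5) (nat_lit 67) (nat_lit 4) (nat_lit 506) (nat_lit 384) (nat_lit 310)) (XT.lf (nat_lit 0) (nat_lit 2399080213) (nat_lit 76) (nat_lit 20772342854) (nat_lit 76) (nat_lit 1497957902) (nat_lit 64) (nat_lit 4) (nat_lit 65) (nat_lit 5) (nat_lit 65) (nat_lit 4) (nat_lit 507) (nat_lit 384) (nat_lit 309))) (XT.nd (nat_lit 78) (nat_lit 76) (nat_lit 0) (XT.lf (nat_lit 0) (nat_lit 6165575638) (nat_lit 152) (nat_lit 6826904988) (nat_lit 76) (nat_lit 12168082522) (nat_lit 63) (nat_lit 5) (nat_lit 65) (nat_lit 5) (nat_lit 64) (nat_lit 4) (nat_lit 508) (nat_lit 384) (nat_lit 308)) (XT.lf (nat_lit 0) (nat_lit 9160882533) (nat_lit 76) (nat_lit 4913277794) (nat_lit 152)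 (nat_lit 11590518424) (nat_lit 62) (nat_lit 5) (nat_lit 63) (nat_lit 5) (nat_lit 64) (nat_lit 4) (nat_lit 509) (nat_lit 384) (nat_lit 307))))) (XT.nd (nat_lit 312) (nat_lit 304) (nat_lit 0) (XT.nd (nat_lit 156) (nat_lit 76) (nat_lit 0) (XT.nd (nat_lit 78) (nat_lit 152) (nat_lit 0) (XT.lf (nat_lit 0) (nat_lit 22279655640) (nat_lit 152) (nat_lit 529964381) (nat_lit 0) (nat_lit 3372508670) (nat_lit 62) (nat_lit 5) (nat_lit 64) (nat_lit 4) (nat_lit 62) (nat_lit 4) (nat_lit 510) (nat_lit 384) (nat_lit 306)) (XT.lf (nat_lit 0) (nat_lit 4101449302) (nat_lit 152) (nat_lit 10642189375) (nat_lit 76) (nat_lit 11965397507) (nat_lit 60) (nat_lit 5) (nat_lit 62) (nat_lit 5) (nat_lit 61) (nat_lit 4) (nat_lit 511) (nat_lit 384) (nat_lit 305))) (XT.nd (nat_lit 78) (nat_lit 0) (nat_lit 0) (XT.lf (nat_lit 0) (nat_lit 5917068666) (nat_lit 76) (nat_lit 6370817229) (nat_lit 152) (nat_lit 14962081307) (nat_lit 59) (nat_lit 5) (nat_lit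 60) (nat_lit 5) (nat_lit 61) (nat_lit 4) (nat_lit 512) (nat_lit 384) (nat_lit 304)) (XT.lf (nat_lit 0) (nat_lit 20808721529) (nat_lit 152) (nat_lit 4715974114) (nat_lit 0) (nat_lit 2279766739) (nat_lit 59) (nat_lit 5) (nat_lit 61) (nat_lit 4) (nat_lit 59) (nat_lit 4) (nat_lit 513) (nat_lit 384) (nat_lit 303)))) (XT.nd (nat_lit 156) (nat_lit 76) (nat_lit 0) (XT.nd (nat_lit 78) (nat_lit 76) (nat_lit 0) (XT.lf (nat_lit 0) (nat_lit 1330480598) (nat_lit 152) (nat_lit 15882263104) (nat_lit 76) (nat_lit 11158165455) (nat_lit 57) (nat_lit 5) (nat_lit 59) (nat_lit 5) (nat_lit 58) (nat_lit 4) (nat_lit 514) (nat_lit 384) (nat_lit 302)) (XT.lf (nat_lit 0) (nat_lit 1229113077) (nat_lit 76) (nat_lit 8556531037) (nat_lit 152) (nat_lit 19166034767) (nat_lit 56) (nat_lit 5) (nat_lit 57) (nat_lit 5) (nat_lit 58) (nat_lit 4) (nat_lit 515) (nat_lit 384) (nat_lit 301))) (XT.nd (nat_lit 78) (nat_lit 76) (nat_lit 0) (XT.lf (nat_lit 0)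 (nat_lit 18619799633) (nat_lit 152) (nat_lit 10449054459) (nat_lit 0) (nat_lit 477257858) (nat_lit 56) (nat_lit 5) (nat_lit 58) (nat_lit 4) (nat_lit 56) (nat_lit 4) (nat_lit 516) (nat_lit 384) (nat_lit 300)) (XT.lf (nat_lit 0) (nat_lit 7324806447) (nat_lit 76) (nat_lit 20510384538) (nat_lit 76) (nat_lit 2319701044) (nat_lit 55) (nat_lit 4) (nat_lit 56) (nat_lit 5) (nat_lit 56) (nat_lit 4) (nat_lit 517) (nat_lit 384) (nat_lit 299)))))) (XT.nd (nat_lit 624) (nat_lit 532) (nat_lit 0) (XT.nd (nat_lit 312) (nat_lit 228) (nat_lit 0) (XT.nd (nat_lit 156) (nat_lit 152) (nat_lit 0) (XT.nd (nat_lit 78) (nat_lit 76) (nat_lit 0) (XT.lf (nat_lit 0) (nat_lit 6485059951) (nat_lit 152) (nat_lit 5072751325) (nat_lit 76) (nat_lit 19220207000) (nat_lit 54) (nat_lit 5) (nat_lit 56) (nat_lit 5) (nat_lit 55) (nat_lit 4) (nat_lit 518) (nat_lit 384) (nat_lit 298)) (XT.lf (nat_lit 0) (nat_lit 13381575320) (nat_lit 76) (nat_lit 2216639722)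 (nat_lit 152) (nat_lit 15818208324) (nat_lit 53) (nat_lit 5) (nat_lit 54) (nat_lit 5) (nat_lit 55) (nat_lit 4) (nat_lit 519) (nat_lit 384) (nat_lit 297))) (XT.nd (nat_lit 78) (nat_lit 76) (nat_lit 0) (XT.lf (nat_lit 0) (nat_lit 280934340) (nat_lit 76) (nat_lit 24791737553) (nat_lit 76) (nat_lit 6998671815) (nat_lit 52) (nat_lit 4) (nat_lit 53) (nat_lit 5) (nat_lit 53) (nat_lit 4) (nat_lit 520) (nat_lit 384) (nat_lit 296)) (XT.lf (nat_lit 0) (nat_lit 2212942960) (nat_lit 152) (nat_lit 13342318998) (nat_lit 76) (nat_lit 17185002997) (nat_lit 51) (nat_lit 5) (nat_lit 53) (nat_lit 5) (nat_lit 52) (nat_lit 4) (nat_lit 521) (nat_lit 384) (nat_lit 295)))) (XT.nd (nat_lit 156) (nat_lit 152) (nat_lit 0) (XT.nd (nat_lit 78) (nat_lit 0) (nat_lit 0) (XT.lf (nat_lit 0) (nat_lit 5627934742) (nat_lit 76) (nat_lit 5949821850) (nat_lit 152) (nat_lit 21848893218) (nat_lit 50) (nat_lit 5) (nat_lit 51) (nat_lit 5) (nat_lit 52) (nat_lit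 4) (nat_lit 522) (nat_lit 384) (nat_lit 294)) (XT.lf (nat_lit 0) (nat_lit 21360954058) (nat_lit 152) (nat_lit 8799881367) (nat_lit 0) (nat_lit 3968667880) (nat_lit 50) (nat_lit 5) (nat_lit 52) (nat_lit 4) (nat_lit 50) (nat_lit 4) (nat_lit 523) (nat_lit 384) (nat_lit 293))) (XT.nd (nat_lit 78) (nat_lit 76) (nat_lit 0) (XT.lf (nat_lit 0) (nat_lit 10852009190) (nat_lit 76) (nat_lit 20713391839) (nat_lit 76) (nat_lit 3284209041) (nat_lit 49) (nat_lit 4) (nat_lit 50) (nat_lit 5) (nat_lit 50) (nat_lit 4) (nat_lit 524) (nat_lit 384) (nat_lit 292)) (XT.lf (nat_lit 0) (nat_lit 6412413277) (nat_lit 152) (nat_lit 4447805805) (nat_lit 76) (nat_lit 24727602446) (nat_lit 48) (nat_lit 5) (nat_lit 50) (nat_lit 5) (nat_lit 49) (nat_lit 4) (nat_lit 525) (nat_lit 384) (nat_lit 291))))) (XT.nd (nat_lit 312) (nat_lit 228) (nat_lit 0) (XT.nd (nat_lit 156) (nat_lit 228) (nat_lit 0) (XT.nd (nat_lit 78) (nat_lit 0) (nat_lit 0) (XT.lf (nat_lit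 0) (nat_lit 15898452100) (nat_lit 76) (nat_lit 553880639) (nat_lit 152) (nat_lit 19891319097) (nat_lit 47) (nat_lit 5) (nat_lit 48) (nat_lit 5) (nat_lit 49) (nat_lit 4) (nat_lit 526) (nat_lit 384) (nat_lit 290)) (XT.lf (nat_lit 0) (nat_lit 26901149616) (nat_lit 152) (nat_lit 339490169) (nat_lit 0) (nat_lit 9878286514) (nat_lit 47) (nat_lit 5) (nat_lit 49) (nat_lit 4) (nat_lit 47) (nat_lit 4) (nat_lit 527) (nat_lit 384) (nat_lit 289))) (XT.nd (nat_lit 78) (nat_lit 152) (nat_lit 0) (XT.lf (nat_lit 0) (nat_lit 20702062471) (nat_lit 76) (nat_lit 17132476977) (nat_lit 76) (nat_lit 77786527) (nat_lit 46) (nat_lit 4) (nat_lit 47) (nat_lit 5) (nat_lit 47) (nat_lit 4) (nat_lit 528) (nat_lit 384) (nat_lit 288)) (XT.lf (nat_lit 0) (nat_lit 3556274781) (nat_lit 76) (nat_lit 6612131903) (nat_lit 152) (nat_lit 28558003057) (nat_lit 44) (nat_lit 5) (nat_lit 45) (nat_lit 5) (nat_lit 46) (nat_lit 4) (nat_lit 529) (nat_lit 384)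 (nat_lit 287)))) (XT.nd (nat_lit 156) (nat_lit 152) (nat_lit 0) (XT.nd (nat_lit 78) (nat_lit 76) (nat_lit 0) (XT.lf (nat_lit 0) (nat_lit 20903212498) (nat_lit 152) (nat_lit 14370063179) (nat_lit 0) (nat_lit 4286133744) (nat_lit 44) (nat_lit 5) (nat_lit 46) (nat_lit 4) (nat_lit 44) (nat_lit 4) (nat_lit 530) (nat_lit 384) (nat_lit 286)) (XT.lf (nat_lit 0) (nat_lit 7062404853) (nat_lit 76) (nat_lit 24998660648) (nat_lit 76) (nat_lit 8353303707) (nat_lit 43) (nat_lit 4) (nat_lit 44) (nat_lit 5) (nat_lit 44) (nat_lit 4) (nat_lit 531) (nat_lit 384) (nat_lit 285))) (XT.nd (nat_lit 78) (nat_lit 76) (nat_lit 0) (XT.lf (nat_lit 0) (nat_lit 2328812145) (nat_lit 152) (nat_lit 11945322835) (nat_lit 76) (nat_lit 27016765330) (nat_lit 42) (nat_lit 5) (nat_lit 44) (nat_lit 5) (nat_lit 43) (nat_lit 4) (nat_lit 532) (nat_lit 384) (nat_lit 284)) (XT.lf (nat_lit 0) (nat_lit 10156903949) (nat_lit 76) (nat_lit 3072835136) (nat_lit 152)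 (nat_lit 28959520049) (nat_lit 41) (nat_lit 5) (nat_lit 42) (nat_lit 5) (nat_lit 43) (nat_lit 4) (nat_lit 533) (nat_lit 384) (nat_lit 283))))))))
noncomputable def xc62 : XT := (XT.nd (nat_lit 55146) (nat_lit 0) (nat_lit 7448) (XT.nd (nat_lit 1170) (nat_lit 380) (nat_lit 0) (XT.nd (nat_lit 546) (nat_lit 380) (nat_lit 0) (XT.nd (nat_lit 234) (nat_lit 228) (nat_lit 0) (XT.nd (nat_lit 78) (nat_lit 152) (nat_lit 0) (XT.lf (nat_lit 0) (nat_lit 24629515583) (nat_lit 152) (nat_lit 10088582058) (nat_lit 0) (nat_lit 8391316612) (nat_lit 41) (nat_lit 5) (nat_lit 43) (nat_lit 4) (nat_lit 41) (nat_lit 4) (nat_lit 534) (nat_lit 384) (nat_lit 282)) (XT.nd (nat_lit 78) (nat_lit 76) (nat_lit 0) (XT.lf (nat_lit 0) (nat_lit 12669990385) (nat_lit 76) (nat_lit 23823061406) (nat_lit 76) (nat_lit 7560469423) (nat_lit 40) (nat_lit 4) (nat_lit 41) (nat_lit 5) (nat_lit 41) (nat_lit 4) (nat_lit 535) (nat_lit 384) (nat_lit 281)) (XT.lf (nat_lit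 0) (nat_lit 3687053248) (nat_lit 152) (nat_lit 8801556424) (nat_lit 76) (nat_lit 32534105313) (nat_lit 39) (nat_lit 5) (nat_lit 41) (nat_lit 5) (nat_lit 40) (nat_lit 4) (nat_lit 536) (nat_lit 384) (nat_lit 280)))) (XT.nd (nat_lit 156) (nat_lit 152) (nat_lit 0) (XT.nd (nat_lit 78) (nat_lit 0) (nat_lit 0) (XT.lf (nat_lit 0) (nat_lit 14609521618) (nat_lit 76) (nat_lit 621408869) (nat_lit 152) (nat_lit 30784481958) (nat_lit 38) (nat_lit 5) (nat_lit 39) (nat_lit 5) (nat_lit 40) (nat_lit 4) (nat_lit 537) (nat_lit 384) (nat_lit 279)) (XT.lf (nat_lit 0) (nat_lit 27292883873) (nat_lit 152) (nat_lit 8302883392) (nat_lit 0) (nat_lit 11436970927) (nat_lit 38) (nat_lit 5) (nat_lit 40) (nat_lit 4) (nat_lit 38) (nat_lit 4) (nat_lit 538) (nat_lit 384) (nat_lit 278))) (XT.nd (nat_lit 78) (nat_lit 76) (nat_lit 0) (XT.lf (nat_lit 0) (nat_lit 15737248673) (nat_lit 76) (nat_lit 24108213391) (nat_lit 76) (nat_lit 8231258818) (nat_lit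 37) (nat_lit 4) (nat_lit 38) (nat_lit 5) (nat_lit 38) (nat_lit 4) (nat_lit 539) (nat_lit 384) (nat_lit 277)) (XT.lf (nat_lit 0) (nat_lit 3607927398) (nat_lit 152) (nat_lit 8573290717) (nat_lit 76) (nat_lit 36968079722) (nat_lit 36) (nat_lit 5) (nat_lit 38) (nat_lit 5) (nat_lit 37) (nat_lit 4) (nat_lit 540) (nat_lit 384) (nat_lit 276))))) (XT.nd (nat_lit 312) (nat_lit 152) (nat_lit 0) (XT.nd (nat_lit 156) (nat_lit 152) (nat_lit 0) (XT.nd (nat_lit 78) (nat_lit 0) (nat_lit 0) (XT.lf (nat_lit 0) (nat_lit 15766702032) (nat_lit 152) (nat_lit 34167916484) (nat_lit 0) (nat_lit 313093209) (nat_lit 35) (nat_lit 5) (nat_lit 37) (nat_lit 4) (nat_lit 35) (nat_lit 4) (nat_lit 541) (nat_lit 384) (nat_lit 275)) (XT.lf (nat_lit 0) (nat_lit 28470483718) (nat_lit 152) (nat_lit 9905007452) (nat_lit 0) (nat_lit 12998179683) (nat_lit 35) (nat_lit 5) (nat_lit 37) (nat_lit 4) (nat_lit 35) (nat_lit 4) (nat_lit 542) (nat_lit 384) (nat_lit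 274))) (XT.nd (nat_lit 78) (nat_lit 76) (nat_lit 0) (XT.lf (nat_lit 0) (nat_lit 15331286425) (nat_lit 76) (nat_lit 26344482741) (nat_lit 76) (nat_lit 10854028013) (nat_lit 34) (nat_lit 4) (nat_lit 35) (nat_lit 5) (nat_lit 35) (nat_lit 4) (nat_lit 543) (nat_lit 384) (nat_lit 273)) (XT.lf (nat_lit 0) (nat_lit 1600269460) (nat_lit 152) (nat_lit 12259529753) (nat_lit 76) (nat_lit 39858138159) (nat_lit 33) (nat_lit 5) (nat_lit 35) (nat_lit 5) (nat_lit 34) (nat_lit 4) (nat_lit 544) (nat_lit 384) (nat_lit 272)))) (XT.nd (nat_lit 156) (nat_lit 76) (nat_lit 0) (XT.nd (nat_lit 78) (nat_lit 0) (nat_lit 0) (XT.lf (nat_lit 0) (nat_lit 13532096753) (nat_lit 76) (nat_lit 781835404) (nat_lit 152) (nat_lit 40621449022) (nat_lit 32) (nat_lit 5) (nat_lit 33) (nat_lit 5) (nat_lit 34) (nat_lit 4) (nat_lit 545) (nat_lit 384) (nat_lit 271)) (XT.lf (nat_lit 0) (nat_lit 27629829434) (nat_lit 152) (nat_lit 16012187120) (nat_lit 0) (nat_lit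 12540707123) (nat_lit 32) (nat_lit 5) (nat_lit 34) (nat_lit 4) (nat_lit 32) (nat_lit 4) (nat_lit 546) (nat_lit 384) (nat_lit 270))) (XT.nd (nat_lit 78) (nat_lit 0) (nat_lit 0) (XT.lf (nat_lit 0) (nat_lit 10282939831) (nat_lit 76) (nat_lit 31143445274) (nat_lit 76) (nat_lit 16038666016) (nat_lit 31) (nat_lit 4) (nat_lit 32) (nat_lit 5) (nat_lit 32) (nat_lit 4) (nat_lit 547) (nat_lit 384) (nat_lit 269)) (XT.lf (nat_lit 0) (nat_lit 37645031478) (nat_lit 76) (nat_lit 18128350433) (nat_lit 76) (nat_lit 3008370256) (nat_lit 31) (nat_lit 4) (nat_lit 32) (nat_lit 5) (nat_lit 32) (nat_lit 4) (nat_lit 548) (nat_lit 384) (nat_lit 268)))))) (XT.nd (nat_lit 53352) (nat_lit 0) (nat_lit 15428) (XT.nd (nat_lit 312) (nat_lit 152) (nat_lit 0) (XT.nd (nat_lit 156) (nat_lit 76) (nat_lit 0) (XT.nd (nat_lit 78) (nat_lit 0) (nat_lit 0) (XT.lf (nat_lit 0) (nat_lit 5651055367) (nat_lit 76) (nat_lit 4588251882) (nat_lit 152) (nat_lit 49894754321)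 (nat_lit 29) (nat_lit 5) (nat_lit 30) (nat_lit 5) (nat_lit 31) (nat_lit 4) (nat_lit 549) (nat_lit 384) (nat_lit 267)) (XT.lf (nat_lit 0) (nat_lit 24104818216) (nat_lit 152) (nat_lit 28015816020) (nat_lit 0) (nat_lit 9396986494) (nat_lit 29) (nat_lit 5) (nat_lit 31) (nat_lit 4) (nat_lit 29) (nat_lit 4) (nat_lit 550) (nat_lit 384) (nat_lit 266))) (XT.nd (nat_lit 78) (nat_lit 76) (nat_lit 0) (XT.lf (nat_lit 0) (nat_lit 38407800811) (nat_lit 152) (nat_lit 847777495) (nat_lit 0) (nat_lit 23686463270) (nat_lit 29) (nat_lit 5) (nat_lit 31) (nat_lit 4) (nat_lit 29) (nat_lit 4) (nat_lit 551) (nat_lit 384) (nat_lit 265)) (XT.lf (nat_lit 0) (nat_lit 27628076808) (nat_lit 76) (nat_lit 25754148869) (nat_lit 76) (nat_lit 11019698881) (nat_lit 28) (nat_lit 4) (nat_lit 29) (nat_lit 5) (nat_lit 29) (nat_lit 4) (nat_lit 552) (nat_lit 384) (nat_lit 264)))) (XT.nd (nat_lit 52884) (nat_lit 0) (nat_lit 18696) (XT.nd (nat_lit 78) (nat_lit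 76) (nat_lit 0) (XT.lf (nat_lit 0) (nat_lit 2829112416) (nat_lit 152) (nat_lit 9004082311) (nat_lit 76) (nat_lit 54072010175) (nat_lit 27) (nat_lit 5) (nat_lit 29) (nat_lit 5) (nat_lit 28) (nat_lit 4) (nat_lit 553) (nat_lit 384) (nat_lit 263)) (XT.lf (nat_lit 0) (nat_lit 17066830717) (nat_lit 152) (nat_lit 47640452036) (nat_lit 0) (nat_lit 2737179983) (nat_lit 26) (nat_lit 5) (nat_lit 28) (nat_lit 4) (nat_lit 26) (nat_lit 4) (nat_lit 554) (nat_lit 384) (nat_lit 262))) (XT.nd (nat_lit 78) (nat_lit 608) (nat_lit 0) (XT.lf (nat_lit 0) (nat_lit 1879327415) (nat_lit 608) (nat_lit 910548686) (nat_lit 608) (nat_lit 910548686) (nat_lit 280) (nat_lit 4) (nat_lit 288) (nat_lit 5) (nat_lit 288) (nat_lit 4) (nat_lit 430) (nat_lit 385) (nat_lit 385)) (XT.lf (nat_lit 0) (nat_lit 1833355987) (nat_lit 608) (nat_lit 5284806960) (nat_lit 0) (nat_lit 348652711) (nat_lit 272) (nat_lit 5) (nat_lit 280) (nat_lit 4) (nat_lit 272) (nat_lit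 4) (nat_lit 431) (nat_lit 385) (nat_lit 384))))) (XT.nd (nat_lit 312) (nat_lit 1444) (nat_lit 0) (XT.nd (nat_lit 156) (nat_lit 1140) (nat_lit 0) (XT.nd (nat_lit 78) (nat_lit 76) (nat_lit 0) (XT.lf (nat_lit 0) (nat_lit 578379320) (nat_lit 608) (nat_lit 4941619551) (nat_lit 608) (nat_lit 2015456784) (nat_lit 264) (nat_lit 4) (nat_lit 272) (nat_lit 5) (nat_lit 272) (nat_lit 4) (nat_lit 432) (nat_lit 385) (nat_lit 383)) (XT.lf (nat_lit 0) (nat_lit 1630849552) (nat_lit 684) (nat_lit 1015013408) (nat_lit 76) (nat_lit 4961213855) (nat_lit 263) (nat_lit 5) (nat_lit 272) (nat_lit 5) (nat_lit 264) (nat_lit 4) (nat_lit 433) (nat_lit 385) (nat_lit 382))) (XT.nd (nat_lit 78) (nat_lit 608) (nat_lit 0) (XT.lf (nat_lit 0) (nat_lit 5068456634) (nat_lit 532) (nat_lit 228493343) (nat_lit 608) (nat_lit 2384780275) (nat_lit 256) (nat_lit 5) (nat_lit 263) (nat_lit 5) (nat_lit 264) (nat_lit 4) (nat_lit 434) (nat_lit 385) (nat_lit 381))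 (XT.lf (nat_lit 0) (nat_lit 1258200703) (nat_lit 608) (nat_lit 4245358833) (nat_lit 76) (nat_lit 2255610665) (nat_lit 248) (nat_lit 5) (nat_lit 256) (nat_lit 5) (nat_lit 249) (nat_lit 4) (nat_lit 435) (nat_lit 385) (nat_lit 380)))) (XT.nd (nat_lit 156) (nat_lit 456) (nat_lit 0) (XT.nd (nat_lit 78) (nat_lit 532) (nat_lit 0) (XT.lf (nat_lit 0) (nat_lit 1933593513) (nat_lit 456) (nat_lit 2980946089) (nat_lit 532) (nat_lit 2925134266) (nat_lit 242) (nat_lit 5) (nat_lit 248) (nat_lit 5) (nat_lit 249) (nat_lit 4) (nat_lit 436) (nat_lit 385) (nat_lit 379)) (XT.lf (nat_lit 0) (nat_lit 343755091) (nat_lit 456) (nat_lit 351248987) (nat_lit 532) (nat_lit 7228823782) (nat_lit 235) (nat_lit 5) (nat_lit 241) (nat_lit 5) (nat_lit 242) (nat_lit 5) (nat_lit 437) (nat_lit 385) (nat_lit 378))) (XT.nd (nat_lit 78) (nat_lit 456) (nat_lit 0) (XT.lf (nat_lit 0) (nat_lit 4354458028) (nat_lit 532) (nat_lit 1279052131) (nat_lit 76) (nat_lit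 2376450470) (nat_lit 235) (nat_lit 5) (nat_lit 242) (nat_lit 5) (nat_lit 236) (nat_lit 4) (nat_lit 438) (nat_lit 385) (nat_lit 377)) (XT.lf (nat_lit 0) (nat_lit 5192063576) (nat_lit 456) (nat_lit 2894352275) (nat_lit 532) (nat_lit 13387809) (nat_lit 229) (nat_lit 5) (nat_lit 235) (nat_lit 5) (nat_lit 236) (nat_lit 4) (nat_lit 439) (nat_lit 385) (nat_lit 376))))))) (XT.nd (nat_lit 1170) (nat_lit 3192) (nat_lit 0) (XT.nd (nat_lit 546) (nat_lit 2128) (nat_lit 0) (XT.nd (nat_lit 234) (nat_lit 1216) (nat_lit 0) (XT.nd (nat_lit 78) (nat_lit 912) (nat_lit 0) (XT.lf (nat_lit 0) (nat_lit 3608504743) (nat_lit 456) (nat_lit 14247458) (nat_lit 532) (nat_lit 4569788156) (nat_lit 222) (nat_lit 5) (nat_lit 228) (nat_lit 5) (nat_lit 229) (nat_lit 5) (nat_lit 440) (nat_lit 385) (nat_lit 375)) (XT.nd (nat_lit 78) (nat_lit 532) (nat_lit 0) (XT.lf (nat_lit 0) (nat_lit 1983902451) (nat_lit 380) (nat_lit 5372117620) (nat_lit 456) (nat_lit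 932392940) (nat_lit 217) (nat_lit 5) (nat_lit 222) (nat_lit 5) (nat_lit 223) (nat_lit 4) (nat_lit 441) (nat_lit 385) (nat_lit 374)) (XT.lf (nat_lit 0) (nat_lit 316324227) (nat_lit 456) (nat_lit 2404611171) (nat_lit 532) (nat_lit 5666569968) (nat_lit 210) (nat_lit 5) (nat_lit 216) (nat_lit 5) (nat_lit 217) (nat_lit 5) (nat_lit 442) (nat_lit 385) (nat_lit 373)))) (XT.nd (nat_lit 156) (nat_lit 760) (nat_lit 0) (XT.nd (nat_lit 78) (nat_lit 456) (nat_lit 0) (XT.lf (nat_lit 0) (nat_lit 6448611339) (nat_lit 532) (nat_lit 1359179760) (nat_lit 76) (nat_lit 682004412) (nat_lit 210) (nat_lit 5) (nat_lit 217) (nat_lit 5) (nat_lit 211) (nat_lit 4) (nat_lit 443) (nat_lit 385) (nat_lit 372)) (XT.lf (nat_lit 0) (nat_lit 1652190401) (nat_lit 456) (nat_lit 3090379864) (nat_lit 76) (nat_lit 3852334216) (nat_lit 204) (nat_lit 5) (nat_lit 210) (nat_lit 5) (nat_lit 205) (nat_lit 5) (nat_lit 444) (nat_lit 385) (nat_lit 371))) (XT.nd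 (nat_lit 78) (nat_lit 380) (nat_lit 0) (XT.lf (nat_lit 0) (nat_lit 3836326100) (nat_lit 380) (nat_lit 1545735964) (nat_lit 456) (nat_lit 3321502757) (nat_lit 199) (nat_lit 5) (nat_lit 204) (nat_lit 5) (nat_lit 205) (nat_lit 5) (nat_lit 445) (nat_lit 385) (nat_lit 370)) (XT.lf (nat_lit 0) (nat_lit 385960714) (nat_lit 380) (nat_lit 6694141496) (nat_lit 76) (nat_lit 1735703179) (nat_lit 194) (nat_lit 5) (nat_lit 199) (nat_lit 5) (nat_lit 195) (nat_lit 5) (nat_lit 446) (nat_lit 385) (nat_lit 369))))) (XT.nd (nat_lit 312) (nat_lit 1064) (nat_lit 0) (XT.nd (nat_lit 156) (nat_lit 684) (nat_lit 0) (XT.nd (nat_lit 78) (nat_lit 0) (nat_lit 0) (XT.lf (nat_lit 0) (nat_lit 328874049) (nat_lit 380) (nat_lit 3794582524) (nat_lit 456) (nat_lit 4807408524) (nat_lit 189) (nat_lit 5) (nat_lit 194) (nat_lit 5) (nat_lit 195) (nat_lit 5) (nat_lit 447) (nat_lit 385) (nat_lit 368)) (XT.lf (nat_lit 0) (nat_lit 7582034547) (nat_lit 380)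 (nat_lit 377377862) (nat_lit 456) (nat_lit 1090379503) (nat_lit 189) (nat_lit 5) (nat_lit 194) (nat_lit 5) (nat_lit 195) (nat_lit 5) (nat_lit 448) (nat_lit 385) (nat_lit 367))) (XT.nd (nat_lit 78) (nat_lit 304) (nat_lit 0) (XT.lf (nat_lit 0) (nat_lit 2691979703) (nat_lit 380) (nat_lit 3350424646) (nat_lit 76) (nat_lit 3128880099) (nat_lit 184) (nat_lit 5) (nat_lit 189) (nat_lit 5) (nat_lit 185) (nat_lit 5) (nat_lit 449) (nat_lit 385) (nat_lit 366)) (XT.lf (nat_lit 0) (nat_lit 4008994219) (nat_lit 304) (nat_lit 2535327632) (nat_lit 380) (nat_lit 2752428115) (nat_lit 180) (nat_lit 5) (nat_lit 184) (nat_lit 5) (nat_lit 185) (nat_lit 5) (nat_lit 450) (nat_lit 385) (nat_lit 365)))) (XT.nd (nat_lit 156) (nat_lit 380) (nat_lit 0) (XT.nd (nat_lit 78) (nat_lit 304) (nat_lit 0) (XT.lf (nat_lit 0) (nat_lit 1052084077) (nat_lit 380) (nat_lit 7290199851) (nat_lit 76) (nat_lit 1083776123) (nat_lit 175) (nat_lit 5) (nat_lit 180)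 (nat_lit 5) (nat_lit 176) (nat_lit 5) (nat_lit 451) (nat_lit 385) (nat_lit 364)) (XT.lf (nat_lit 0) (nat_lit 165251302) (nat_lit 304) (nat_lit 4753165796) (nat_lit 380) (nat_lit 4639929088) (nat_lit 171) (nat_lit 5) (nat_lit 175) (nat_lit 5) (nat_lit 176) (nat_lit 5) (nat_lit 452) (nat_lit 385) (nat_lit 363))) (XT.nd (nat_lit 78) (nat_lit 380) (nat_lit 0) (XT.lf (nat_lit 0) (nat_lit 7876943479) (nat_lit 304) (nat_lit 1020941585) (nat_lit 380) (nat_lit 796805857) (nat_lit 171) (nat_lit 5) (nat_lit 175) (nat_lit 5) (nat_lit 176) (nat_lit 5) (nat_lit 453) (nat_lit 385) (nat_lit 362)) (XT.lf (nat_lit 0) (nat_lit 3109805371) (nat_lit 380) (nat_lit 3906642931) (nat_lit 76) (nat_lit 2817473411) (nat_lit 166) (nat_lit 5) (nat_lit 171) (nat_lit 5) (nat_lit 167) (nat_lit 5) (nat_lit 454) (nat_lit 385) (nat_lit 361)))))) (XT.nd (nat_lit 624) (nat_lit 1444) (nat_lit 0) (XT.nd (nat_lit 312) (nat_lit 836) (nat_lit 0) (XT.nd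 (nat_lit 156) (nat_lit 304) (nat_lit 0) (XT.nd (nat_lit 78) (nat_lit 304) (nat_lit 0) (XT.lf (nat_lit 0) (nat_lit 3907543108) (nat_lit 304) (nat_lit 3201986483) (nat_lit 380) (nat_lit 2867809269) (nat_lit 162) (nat_lit 5) (nat_lit 166) (nat_lit 5) (nat_lit 167) (nat_lit 5) (nat_lit 455) (nat_lit 385) (nat_lit 360)) (XT.lf (nat_lit 0) (nat_lit 1073295762) (nat_lit 304) (nat_lit 8311616979) (nat_lit 76) (nat_lit 740111460) (nat_lit 158) (nat_lit 5) (nat_lit 162) (nat_lit 5) (nat_lit 159) (nat_lit 5) (nat_lit 456) (nat_lit 385) (nat_lit 359))) (XT.nd (nat_lit 78) (nat_lit 304) (nat_lit 0) (XT.lf (nat_lit 0) (nat_lit 5095298519) (nat_lit 304) (nat_lit 395132041) (nat_lit 76) (nat_lit 4785252233) (nat_lit 158) (nat_lit 5) (nat_lit 162) (nat_lit 5) (nat_lit 159) (nat_lit 5) (nat_lit 457) (nat_lit 385) (nat_lit 358)) (XT.lf (nat_lit 0) (nat_lit 7797749399) (nat_lit 304) (nat_lit 1444005560) (nat_lit 380) (nat_lit 1188995927)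 (nat_lit 154) (nat_lit 5) (nat_lit 158) (nat_lit 5) (nat_lit 159) (nat_lit 5) (nat_lit 458) (nat_lit 385) (nat_lit 357)))) (XT.nd (nat_lit 156) (nat_lit 304) (nat_lit 0) (XT.nd (nat_lit 78) (nat_lit 228) (nat_lit 0) (XT.lf (nat_lit 0) (nat_lit 2878945153) (nat_lit 304) (nat_lit 4994458693) (nat_lit 76) (nat_lit 2715812868) (nat_lit 150) (nat_lit 5) (nat_lit 154) (nat_lit 5) (nat_lit 151) (nat_lit 5) (nat_lit 459) (nat_lit 385) (nat_lit 356)) (XT.lf (nat_lit 0) (nat_lit 3295519510) (nat_lit 228) (nat_lit 3752041713) (nat_lit 304) (nat_lit 3704449342) (nat_lit 147) (nat_lit 5) (nat_lit 150) (nat_lit 5) (nat_lit 151) (nat_lit 5) (nat_lit 460) (nat_lit 385) (nat_lit 355))) (XT.nd (nat_lit 78) (nat_lit 0) (nat_lit 0) (XT.lf (nat_lit 0) (nat_lit 407995531) (nat_lit 304) (nat_lit 10007487449) (nat_lit 76) (nat_lit 504246534) (nat_lit 143) (nat_lit 5) (nat_lit 147) (nat_lit 5) (nat_lit 144) (nat_lit 5) (nat_lit 461) (nat_lit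 385) (nat_lit 354)) (XT.lf (nat_lit 0) (nat_lit 4613052354) (nat_lit 304) (nat_lit 1594851951) (nat_lit 76) (nat_lit 4882167535) (nat_lit 143) (nat_lit 5) (nat_lit 147) (nat_lit 5) (nat_lit 144) (nat_lit 5) (nat_lit 462) (nat_lit 385) (nat_lit 353))))) (XT.nd (nat_lit 312) (nat_lit 684) (nat_lit 0) (XT.nd (nat_lit 156) (nat_lit 228) (nat_lit 0) (XT.nd (nat_lit 78) (nat_lit 304) (nat_lit 0) (XT.lf (nat_lit 0) (nat_lit 7097053048) (nat_lit 228) (nat_lit 1847957200) (nat_lit 304) (nat_lit 2320494595) (nat_lit 140) (nat_lit 5) (nat_lit 143) (nat_lit 5) (nat_lit 144) (nat_lit 5) (nat_lit 463) (nat_lit 385) (nat_lit 352)) (XT.lf (nat_lit 0) (nat_lit 1941433952) (nat_lit 304) (nat_lit 6876089126) (nat_lit 76) (nat_lit 2627545985) (nat_lit 136) (nat_lit 5) (nat_lit 140) (nat_lit 5) (nat_lit 137) (nat_lit 5) (nat_lit 464) (nat_lit 385) (nat_lit 351))) (XT.nd (nat_lit 78) (nat_lit 0) (nat_lit 0) (XT.lf (nat_lit 0) (nat_lit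 1908464238) (nat_lit 228) (nat_lit 4388504307) (nat_lit 304) (nat_lit 5331993415) (nat_lit 133) (nat_lit 5) (nat_lit 136) (nat_lit 5) (nat_lit 137) (nat_lit 5) (nat_lit 465) (nat_lit 385) (nat_lit 350)) (XT.lf (nat_lit 0) (nat_lit 10788634143) (nat_lit 304) (nat_lit 833892459) (nat_lit 76) (nat_lit 195683658) (nat_lit 133) (nat_lit 5) (nat_lit 137) (nat_lit 5) (nat_lit 134) (nat_lit 4) (nat_lit 466) (nat_lit 385) (nat_lit 349)))) (XT.nd (nat_lit 156) (nat_lit 228) (nat_lit 0) (XT.nd (nat_lit 78) (nat_lit 228) (nat_lit 0) (XT.lf (nat_lit 0) (nat_lit 3395233743) (nat_lit 228) (nat_lit 3715736747) (nat_lit 76) (nat_lit 4899395790) (nat_lit 130) (nat_lit 5) (nat_lit 133) (nat_lit 5) (nat_lit 131) (nat_lit 5) (nat_lit 467) (nat_lit 385) (nat_lit 348)) (XT.lf (nat_lit 0) (nat_lit 5493304346) (nat_lit 228) (nat_lit 2435908548) (nat_lit 304) (nat_lit 4278857064) (nat_lit 127) (nat_lit 5) (nat_lit 130) (nat_lit 5) (nat_lit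 131) (nat_lit 5) (nat_lit 468) (nat_lit 385) (nat_lit 347))) (XT.nd (nat_lit 78) (nat_lit 0) (nat_lit 0) (XT.lf (nat_lit 0) (nat_lit 205641414) (nat_lit 228) (nat_lit 9852213765) (nat_lit 76) (nat_lit 2353143898) (nat_lit 124) (nat_lit 5) (nat_lit 127) (nat_lit 5) (nat_lit 125) (nat_lit 5) (nat_lit 469) (nat_lit 385) (nat_lit 346)) (XT.lf (nat_lit 0) (nat_lit 4767654180) (nat_lit 228) (nat_lit 547208745) (nat_lit 76) (nat_lit 7303014940) (nat_lit 124) (nat_lit 5) (nat_lit 127) (nat_lit 5) (nat_lit 125) (nat_lit 5) (nat_lit 470) (nat_lit 385) (nat_lit 345))))))))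
noncomputable def xc63 : XT := (XT.nd (nat_lit 2418) (nat_lit 2356) (nat_lit 0) (XT.nd (nat_lit 1170) (nat_lit 1672) (nat_lit 0) (XT.nd (nat_lit 546) (nat_lit 988) (nat_lit 0) (XT.nd (nat_lit 234) (nat_lit 532) (nat_lit 0) (XT.nd (nat_lit 78) (nat_lit 456) (nat_lit 0) (XT.lf (nat_lit 0) (nat_lit 9107618816) (nat_lit 228) (nat_lit 384694288) (nat_lit 304) (nat_lit 3337878425) (nat_lit 121) (nat_lit 5) (nat_lit 124) (nat_lit 5) (nat_lit 125) (nat_lit 5) (nat_lit 471) (nat_lit 385) (nat_lit 344)) (XT.nd (nat_lit 78) (nat_lit 228) (nat_lit 0) (XT.lf (nat_lit 0) (nat_lit 1331490404) (nat_lit 228) (nat_lit 7081832030) (nat_lit 76) (nat_lit 4633760020) (nat_lit 118) (nat_lit 5) (nat_lit 121) (nat_lit 5) (nat_lit 119) (nat_lit 5) (nat_lit 472) (nat_lit 385) (nat_lit 343)) (XT.lf (nat_lit 0) (nat_lit 2657730228) (nat_lit 228) (nat_lit 3422190572) (nat_lit 304) (nat_lit 7189387710) (nat_lit 115) (nat_lit 5) (nat_lit 118)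 (nat_lit 5) (nat_lit 119) (nat_lit 5) (nat_lit 473) (nat_lit 385) (nat_lit 342)))) (XT.nd (nat_lit 156) (nat_lit 304) (nat_lit 0) (XT.nd (nat_lit 78) (nat_lit 228) (nat_lit 0) (XT.lf (nat_lit 0) (nat_lit 10998612579) (nat_lit 304) (nat_lit 786521891) (nat_lit 76) (nat_lit 1712234476) (nat_lit 115) (nat_lit 5) (nat_lit 119) (nat_lit 5) (nat_lit 116) (nat_lit 4) (nat_lit 474) (nat_lit 385) (nat_lit 341)) (XT.lf (nat_lit 0) (nat_lit 2352585492) (nat_lit 228) (nat_lit 4375741204) (nat_lit 76) (nat_lit 7001308309) (nat_lit 112) (nat_lit 5) (nat_lit 115) (nat_lit 5) (nat_lit 113) (nat_lit 5) (nat_lit 475) (nat_lit 385) (nat_lit 340))) (XT.nd (nat_lit 78) (nat_lit 152) (nat_lit 0) (XT.lf (nat_lit 0) (nat_lit 5830067121) (nat_lit 152) (nat_lit 1474228509) (nat_lit 228) (nat_lit 6663681390) (nat_lit 110) (nat_lit 5) (nat_lit 112) (nat_lit 5) (nat_lit 113) (nat_lit 5) (nat_lit 476) (nat_lit 385) (nat_lit 339)) (XT.lf (nat_lit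 0) (nat_lit 2117458801) (nat_lit 152) (nat_lit 10331195795) (nat_lit 228) (nat_lit 1763493419) (nat_lit 108) (nat_lit 5) (nat_lit 110) (nat_lit 5) (nat_lit 111) (nat_lit 4) (nat_lit 477) (nat_lit 385) (nat_lit 338))))) (XT.nd (nat_lit 312) (nat_lit 380) (nat_lit 0) (XT.nd (nat_lit 156) (nat_lit 380) (nat_lit 0) (XT.nd (nat_lit 78) (nat_lit 152) (nat_lit 0) (XT.lf (nat_lit 0) (nat_lit 3258613430) (nat_lit 228) (nat_lit 1766160342) (nat_lit 76) (nat_lit 9436755272) (nat_lit 107) (nat_lit 5) (nat_lit 110) (nat_lit 5) (nat_lit 108) (nat_lit 5) (nat_lit 478) (nat_lit 385) (nat_lit 337)) (XT.lf (nat_lit 0) (nat_lit 8429681982) (nat_lit 228) (nat_lit 5795116366) (nat_lit 76) (nat_lit 492058562) (nat_lit 105) (nat_lit 5) (nat_lit 108) (nat_lit 5) (nat_lit 106) (nat_lit 4) (nat_lit 479) (nat_lit 385) (nat_lit 336))) (XT.nd (nat_lit 78) (nat_lit 228) (nat_lit 0) (XT.lf (nat_lit 0) (nat_lit 4930968334) (nat_lit 152) (nat_lit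 8883436024) (nat_lit 228) (nat_lit 1163686063) (nat_lit 103) (nat_lit 5) (nat_lit 105) (nat_lit 5) (nat_lit 106) (nat_lit 4) (nat_lit 480) (nat_lit 385) (nat_lit 335)) (XT.lf (nat_lit 0) (nat_lit 723602967) (nat_lit 152) (nat_lit 3319168846) (nat_lit 228) (nat_lit 11202918246) (nat_lit 100) (nat_lit 5) (nat_lit 102) (nat_lit 5) (nat_lit 103) (nat_lit 5) (nat_lit 481) (nat_lit 385) (nat_lit 334)))) (XT.nd (nat_lit 156) (nat_lit 228) (nat_lit 0) (XT.nd (nat_lit 78) (nat_lit 152) (nat_lit 0) (XT.lf (nat_lit 0) (nat_lit 9451389931) (nat_lit 228) (nat_lit 3633431598) (nat_lit 76) (nat_lit 2434071184) (nat_lit 100) (nat_lit 5) (nat_lit 103) (nat_lit 5) (nat_lit 101) (nat_lit 4) (nat_lit 482) (nat_lit 385) (nat_lit 333)) (XT.lf (nat_lit 0) (nat_lit 7597417671) (nat_lit 152) (nat_lit 7476091371) (nat_lit 228) (nat_lit 725246430) (nat_lit 98) (nat_lit 5) (nat_lit 100) (nat_lit 5) (nat_lit 101) (nat_lit 4) (nat_lit 483)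 (nat_lit 385) (nat_lit 332))) (XT.nd (nat_lit 78) (nat_lit 0) (nat_lit 0) (XT.lf (nat_lit 0) (nat_lit 3067367158) (nat_lit 152) (nat_lit 1628681483) (nat_lit 228) (nat_lit 11389229246) (nat_lit 95) (nat_lit 5) (nat_lit 97) (nat_lit 5) (nat_lit 98) (nat_lit 5) (nat_lit 484) (nat_lit 385) (nat_lit 331)) (XT.lf (nat_lit 0) (nat_lit 10336940157) (nat_lit 228) (nat_lit 1686067480) (nat_lit 76) (nat_lit 4355028078) (nat_lit 95) (nat_lit 5) (nat_lit 98) (nat_lit 5) (nat_lit 96) (nat_lit 4) (nat_lit 485) (nat_lit 385) (nat_lit 330)))))) (XT.nd (nat_lit 624) (nat_lit 684) (nat_lit 0) (XT.nd (nat_lit 312) (nat_lit 532) (nat_lit 0) (XT.nd (nat_lit 156) (nat_lit 76) (nat_lit 0) (XT.nd (nat_lit 78) (nat_lit 228) (nat_lit 0) (XT.lf (nat_lit 0) (nat_lit 10068833470) (nat_lit 152) (nat_lit 6138378738) (nat_lit 228) (nat_lit 470560611) (nat_lit 93) (nat_lit 5) (nat_lit 95) (nat_lit 5) (nat_lit 96) (nat_lit 4) (nat_lit 486) (nat_lit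 385) (nat_lit 329)) (XT.lf (nat_lit 0) (nat_lit 5177845218) (nat_lit 152) (nat_lit 766461) (nat_lit 228) (nat_lit 11805943492) (nat_lit 90) (nat_lit 5) (nat_lit 92) (nat_lit 5) (nat_lit 93) (nat_lit 5) (nat_lit 487) (nat_lit 385) (nat_lit 328))) (XT.nd (nat_lit 78) (nat_lit 76) (nat_lit 0) (XT.lf (nat_lit 0) (nat_lit 11063475747) (nat_lit 228) (nat_lit 8438939) (nat_lit 76) (nat_lit 6226217364) (nat_lit 90) (nat_lit 5) (nat_lit 93) (nat_lit 5) (nat_lit 91) (nat_lit 4) (nat_lit 488) (nat_lit 385) (nat_lit 327)) (XT.lf (nat_lit 0) (nat_lit 12288884362) (nat_lit 76) (nat_lit 4903181162) (nat_lit 152) (nat_lit 427036343) (nat_lit 89) (nat_lit 5) (nat_lit 90) (nat_lit 5) (nat_lit 91) (nat_lit 4) (nat_lit 489) (nat_lit 385) (nat_lit 326)))) (XT.nd (nat_lit 156) (nat_lit 228) (nat_lit 0) (XT.nd (nat_lit 78) (nat_lit 76) (nat_lit 0) (XT.lf (nat_lit 0) (nat_lit 5477578041) (nat_lit 228) (nat_lit 10968416340) (nat_lit 76)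 (nat_lit 1501170671) (nat_lit 86) (nat_lit 5) (nat_lit 89) (nat_lit 5) (nat_lit 87) (nat_lit 4) (nat_lit 490) (nat_lit 385) (nat_lit 325)) (XT.lf (nat_lit 0) (nat_lit 1361109858) (nat_lit 76) (nat_lit 10254913905) (nat_lit 152) (nat_lit 6666962186) (nat_lit 85) (nat_lit 5) (nat_lit 86) (nat_lit 5) (nat_lit 87) (nat_lit 4) (nat_lit 491) (nat_lit 385) (nat_lit 324))) (XT.nd (nat_lit 78) (nat_lit 228) (nat_lit 0) (XT.lf (nat_lit 0) (nat_lit 14191358657) (nat_lit 76) (nat_lit 3807885194) (nat_lit 152) (nat_lit 627819905) (nat_lit 85) (nat_lit 5) (nat_lit 86) (nat_lit 5) (nat_lit 87) (nat_lit 4) (nat_lit 492) (nat_lit 385) (nat_lit 323)) (XT.lf (nat_lit 0) (nat_lit 5543523003) (nat_lit 228) (nat_lit 10563226240) (nat_lit 76) (nat_lit 2871298076) (nat_lit 82) (nat_lit 5) (nat_lit 85) (nat_lit 5) (nat_lit 83) (nat_lit 4) (nat_lit 493) (nat_lit 385) (nat_lit 322))))) (XT.nd (nat_lit 312) (nat_lit 304) (nat_lit 0) (XT.nd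 (nat_lit 156) (nat_lit 304) (nat_lit 0) (XT.nd (nat_lit 78) (nat_lit 0) (nat_lit 0) (XT.lf (nat_lit 0) (nat_lit 2311936777) (nat_lit 76) (nat_lit 9631593914) (nat_lit 152) (nat_lit 7394159758) (nat_lit 81) (nat_lit 5) (nat_lit 82) (nat_lit 5) (nat_lit 83) (nat_lit 4) (nat_lit 494) (nat_lit 385) (nat_lit 321)) (XT.lf (nat_lit 0) (nat_lit 15698406153) (nat_lit 76) (nat_lit 2895330691) (nat_lit 152) (nat_lit 1112640891) (nat_lit 81) (nat_lit 5) (nat_lit 82) (nat_lit 5) (nat_lit 83) (nat_lit 4) (nat_lit 495) (nat_lit 385) (nat_lit 320))) (XT.nd (nat_lit 78) (nat_lit 76) (nat_lit 0) (XT.lf (nat_lit 0) (nat_lit 5335900140) (nat_lit 228) (nat_lit 10679796905) (nat_lit 76) (nat_lit 4066390906) (nat_lit 78) (nat_lit 5) (nat_lit 81) (nat_lit 5) (nat_lit 79) (nat_lit 4) (nat_lit 496) (nat_lit 385) (nat_lit 319)) (XT.lf (nat_lit 0) (nat_lit 2752907123) (nat_lit 76) (nat_lit 9251232446) (nat_lit 152) (nat_lit 8463142002) (nat_lit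 77) (nat_lit 5) (nat_lit 78) (nat_lit 5) (nat_lit 79) (nat_lit 4) (nat_lit 497) (nat_lit 385) (nat_lit 318)))) (XT.nd (nat_lit 156) (nat_lit 76) (nat_lit 0) (XT.nd (nat_lit 78) (nat_lit 228) (nat_lit 0) (XT.lf (nat_lit 0) (nat_lit 16718504797) (nat_lit 76) (nat_lit 2214893759) (nat_lit 152) (nat_lit 1928803991) (nat_lit 77) (nat_lit 5) (nat_lit 78) (nat_lit 5) (nat_lit 79) (nat_lit 4) (nat_lit 498) (nat_lit 385) (nat_lit 317)) (XT.lf (nat_lit 0) (nat_lit 4806390361) (nat_lit 228) (nat_lit 11421820262) (nat_lit 76) (nat_lit 5036420881) (nat_lit 74) (nat_lit 5) (nat_lit 77) (nat_lit 5) (nat_lit 75) (nat_lit 4) (nat_lit 499) (nat_lit 385) (nat_lit 316))) (XT.nd (nat_lit 78) (nat_lit 0) (nat_lit 0) (XT.lf (nat_lit 0) (nat_lit 2577383080) (nat_lit 76) (nat_lit 9170607210) (nat_lit 152) (nat_lit 9929277282) (nat_lit 73) (nat_lit 5) (nat_lit 74) (nat_lit 5) (nat_lit 75) (nat_lit 4) (nat_lit 500) (nat_lit 385) (nat_lit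 315)) (XT.lf (nat_lit 0) (nat_lit 17144106826) (nat_lit 76) (nat_lit 1823726580) (nat_lit 152) (nat_lit 3132350100) (nat_lit 73) (nat_lit 5) (nat_lit 74) (nat_lit 5) (nat_lit 75) (nat_lit 4) (nat_lit 501) (nat_lit 385) (nat_lit 314))))))) (XT.nd (nat_lit 1248) (nat_lit 1064) (nat_lit 0) (XT.nd (nat_lit 624) (nat_lit 532) (nat_lit 0) (XT.nd (nat_lit 312) (nat_lit 228) (nat_lit 0) (XT.nd (nat_lit 156) (nat_lit 228) (nat_lit 0) (XT.nd (nat_lit 78) (nat_lit 76) (nat_lit 0) (XT.lf (nat_lit 0) (nat_lit 3897687181) (nat_lit 228) (nat_lit 12910553557) (nat_lit 76) (nat_lit 5723290485) (nat_lit 70) (nat_lit 5) (nat_lit 73) (nat_lit 5) (nat_lit 71) (nat_lit 4) (nat_lit 502) (nat_lit 385) (nat_lit 313)) (XT.lf (nat_lit 0) (nat_lit 1660399119) (nat_lit 76) (nat_lit 9455470688) (nat_lit 152) (nat_lit 11857813707) (nat_lit 69) (nat_lit 5) (nat_lit 70) (nat_lit 5) (nat_lit 71) (nat_lit 4) (nat_lit 503) (nat_lit 385) (nat_lit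 312))) (XT.nd (nat_lit 78) (nat_lit 228) (nat_lit 0) (XT.lf (nat_lit 0) (nat_lit 16848911894) (nat_lit 76) (nat_lit 1788181412) (nat_lit 152) (nat_lit 4789412774) (nat_lit 69) (nat_lit 5) (nat_lit 70) (nat_lit 5) (nat_lit 71) (nat_lit 4) (nat_lit 504) (nat_lit 385) (nat_lit 311)) (XT.lf (nat_lit 0) (nat_lit 2542086809) (nat_lit 228) (nat_lit 15287758772) (nat_lit 76) (nat_lit 6059360241) (nat_lit 66) (nat_lit 5) (nat_lit 69) (nat_lit 5) (nat_lit 67) (nat_lit 4) (nat_lit 505) (nat_lit 385) (nat_lit 310)))) (XT.nd (nat_lit 156) (nat_lit 152) (nat_lit 0) (XT.nd (nat_lit 78) (nat_lit 76) (nat_lit 0) (XT.lf (nat_lit 0) (nat_lit 10039121024) (nat_lit 228) (nat_lit 141597987) (nat_lit 76) (nat_lit 14182389905) (nat_lit 66) (nat_lit 5) (nat_lit 69) (nat_lit 5) (nat_lit 67) (nat_lit 4) (nat_lit 506) (nat_lit 385) (nat_lit 309)) (XT.lf (nat_lit 0) (nat_lit 15684706440) (nat_lit 76) (nat_lit 2185450133) (nat_lit 152) (nat_lit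 6977800324) (nat_lit 65) (nat_lit 5) (nat_lit 66) (nat_lit 5) (nat_lit 67) (nat_lit 4) (nat_lit 507) (nat_lit 385) (nat_lit 308))) (XT.nd (nat_lit 78) (nat_lit 0) (nat_lit 0) (XT.lf (nat_lit 0) (nat_lit 659844157) (nat_lit 152) (nat_lit 18719108579) (nat_lit 76) (nat_lit 5965751458) (nat_lit 63) (nat_lit 5) (nat_lit 65) (nat_lit 5) (nat_lit 64) (nat_lit 4) (nat_lit 508) (nat_lit 385) (nat_lit 307)) (XT.lf (nat_lit 0) (nat_lit 8459895650) (nat_lit 152) (nat_lit 2949702494) (nat_lit 76) (nat_lit 14442477877) (nat_lit 63) (nat_lit 5) (nat_lit 65) (nat_lit 5) (nat_lit 64) (nat_lit 4) (nat_lit 509) (nat_lit 385) (nat_lit 306))))) (XT.nd (nat_lit 312) (nat_lit 228) (nat_lit 0) (XT.nd (nat_lit 156) (nat_lit 152) (nat_lit 0) (XT.nd (nat_lit 78) (nat_lit 76) (nat_lit 0) (XT.lf (nat_lit 0) (nat_lit 13477698950) (nat_lit 76) (nat_lit 3105455552) (nat_lit 152) (nat_lit 9788838774) (nat_lit 62) (nat_lit 5) (nat_lit 63) (nat_lit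 5) (nat_lit 64) (nat_lit 4) (nat_lit 510) (nat_lit 385) (nat_lit 305)) (XT.lf (nat_lit 0) (nat_lit 3489036869) (nat_lit 76) (nat_lit 21536784227) (nat_lit 76) (nat_lit 1879416090) (nat_lit 61) (nat_lit 4) (nat_lit 62) (nat_lit 5) (nat_lit 62) (nat_lit 4) (nat_lit 511) (nat_lit 385) (nat_lit 304))) (XT.nd (nat_lit 78) (nat_lit 76) (nat_lit 0) (XT.lf (nat_lit 0) (nat_lit 6266991882) (nat_lit 152) (nat_lit 6992858345) (nat_lit 76) (nat_lit 14189161244) (nat_lit 60) (nat_lit 5) (nat_lit 62) (nat_lit 5) (nat_lit 61) (nat_lit 4) (nat_lit 512) (nat_lit 385) (nat_lit 303)) (XT.lf (nat_lit 0) (nat_lit 10024269627) (nat_lit 76) (nat_lit 4653036255) (nat_lit 152) (nat_lit 13329516615) (nat_lit 59) (nat_lit 5) (nat_lit 60) (nat_lit 5) (nat_lit 61) (nat_lit 4) (nat_lit 513) (nat_lit 385) (nat_lit 302)))) (XT.nd (nat_lit 156) (nat_lit 76) (nat_lit 0) (XT.nd (nat_lit 78) (nat_lit 152) (nat_lit 0) (XT.lf (nat_lit 0) (nat_lit 23412723929)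 (nat_lit 152) (nat_lit 1001159111) (nat_lit 0) (nat_lit 4165301361) (nat_lit 59) (nat_lit 5) (nat_lit 61) (nat_lit 4) (nat_lit 59) (nat_lit 4) (nat_lit 514) (nat_lit 385) (nat_lit 301)) (XT.lf (nat_lit 0) (nat_lit 3348591643) (nat_lit 152) (nat_lit 12500855082) (nat_lit 76) (nat_lit 13313225305) (nat_lit 57) (nat_lit 5) (nat_lit 59) (nat_lit 5) (nat_lit 58) (nat_lit 4) (nat_lit 515) (nat_lit 385) (nat_lit 300))) (XT.nd (nat_lit 78) (nat_lit 0) (nat_lit 0) (XT.lf (nat_lit 0) (nat_lit 5086040072) (nat_lit 76) (nat_lit 6950473308) (nat_lit 152) (nat_lit 17724978907) (nat_lit 56) (nat_lit 5) (nat_lit 57) (nat_lit 5) (nat_lit 58) (nat_lit 4) (nat_lit 516) (nat_lit 385) (nat_lit 299)) (XT.lf (nat_lit 0) (nat_lit 21096069223) (nat_lit 152) (nat_lit 7014094407) (nat_lit 0) (nat_lit 2264783971) (nat_lit 56) (nat_lit 5) (nat_lit 58) (nat_lit 4) (nat_lit 56) (nat_lit 4) (nat_lit 517) (nat_lit 385) (nat_lit 298)))))) (XT.nd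 (nat_lit 624) (nat_lit 532) (nat_lit 0) (XT.nd (nat_lit 312) (nat_lit 228) (nat_lit 0) (XT.nd (nat_lit 156) (nat_lit 152) (nat_lit 0) (XT.nd (nat_lit 78) (nat_lit 76) (nat_lit 0) (XT.lf (nat_lit 0) (nat_lit 11256232997) (nat_lit 76) (nat_lit 19311513652) (nat_lit 76) (nat_lit 434850211) (nat_lit 55) (nat_lit 4) (nat_lit 56) (nat_lit 5) (nat_lit 56) (nat_lit 4) (nat_lit 518) (nat_lit 385) (nat_lit 297)) (XT.lf (nat_lit 0) (nat_lit 8540100744) (nat_lit 152) (nat_lit 1584315422) (nat_lit 76) (nat_lit 21521112028) (nat_lit 54) (nat_lit 5) (nat_lit 56) (nat_lit 5) (nat_lit 55) (nat_lit 4) (nat_lit 519) (nat_lit 385) (nat_lit 296))) (XT.nd (nat_lit 78) (nat_lit 76) (nat_lit 0) (XT.lf (nat_lit 0) (nat_lit 17387948685) (nat_lit 76) (nat_lit 519165557) (nat_lit 152) (nat_lit 14396557746) (nat_lit 53) (nat_lit 5) (nat_lit 54) (nat_lit 5) (nat_lit 55) (nat_lit 4) (nat_lit 520) (nat_lit 385) (nat_lit 295)) (XT.lf (nat_lit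 0) (nat_lit 3896858381) (nat_lit 76) (nat_lit 23766466410) (nat_lit 76) (nat_lit 5314990003) (nat_lit 52) (nat_lit 4) (nat_lit 53) (nat_lit 5) (nat_lit 53) (nat_lit 4) (nat_lit 521) (nat_lit 385) (nat_lit 294)))) (XT.nd (nat_lit 156) (nat_lit 76) (nat_lit 0) (XT.nd (nat_lit 78) (nat_lit 76) (nat_lit 0) (XT.lf (nat_lit 0) (nat_lit 4081943085) (nat_lit 152) (nat_lit 10204275566) (nat_lit 76) (nat_lit 19382161716) (nat_lit 51) (nat_lit 5) (nat_lit 53) (nat_lit 5) (nat_lit 52) (nat_lit 4) (nat_lit 522) (nat_lit 385) (nat_lit 293)) (XT.lf (nat_lit 0) (nat_lit 9300396443) (nat_lit 76) (nat_lit 4408480400) (nat_lit 152) (nat_lit 20667045066) (nat_lit 50) (nat_lit 5) (nat_lit 51) (nat_lit 5) (nat_lit 52) (nat_lit 4) (nat_lit 523) (nat_lit 385) (nat_lit 292))) (XT.nd (nat_lit 78) (nat_lit 76) (nat_lit 0) (XT.lf (nat_lit 0) (nat_lit 23749665855) (nat_lit 152) (nat_lit 5626383695) (nat_lit 0) (nat_lit 5724888992) (nat_lit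 50) (nat_lit 5) (nat_lit 52) (nat_lit 4) (nat_lit 50) (nat_lit 4) (nat_lit 524) (nat_lit 385) (nat_lit 291)) (XT.lf (nat_lit 0) (nat_lit 14581362656) (nat_lit 76) (nat_lit 19660693702) (nat_lit 76) (nat_lit 1601138237) (nat_lit 49) (nat_lit 4) (nat_lit 50) (nat_lit 5) (nat_lit 50) (nat_lit 4) (nat_lit 525) (nat_lit 385) (nat_lit 290))))) (XT.nd (nat_lit 312) (nat_lit 228) (nat_lit 0) (XT.nd (nat_lit 156) (nat_lit 152) (nat_lit 0) (XT.nd (nat_lit 78) (nat_lit 76) (nat_lit 0) (XT.lf (nat_lit 0) (nat_lit 8300738781) (nat_lit 152) (nat_lit 1242821372) (nat_lit 76) (nat_lit 27061005196) (nat_lit 48) (nat_lit 5) (nat_lit 50) (nat_lit 5) (nat_lit 49) (nat_lit 4) (nat_lit 526) (nat_lit 385) (nat_lit 289)) (XT.lf (nat_lit 0) (nat_lit 18634394618) (nat_lit 152) (nat_lit 17712664034) (nat_lit 0) (nat_lit 1036236106) (nat_lit 47) (nat_lit 5) (nat_lit 49) (nat_lit 4) (nat_lit 47) (nat_lit 4) (nat_lit 527) (nat_lit 385) (nat_lit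 288))) (XT.nd (nat_lit 78) (nat_lit 76) (nat_lit 0) (XT.lf (nat_lit 0) (nat_lit 2951024541) (nat_lit 76) (nat_lit 26430163376) (nat_lit 76) (nat_lit 8801104526) (nat_lit 46) (nat_lit 4) (nat_lit 47) (nat_lit 5) (nat_lit 47) (nat_lit 4) (nat_lit 528) (nat_lit 385) (nat_lit 287)) (XT.lf (nat_lit 0) (nat_lit 1565173056) (nat_lit 152) (nat_lit 14481757873) (nat_lit 76) (nat_lit 22953465170) (nat_lit 45) (nat_lit 5) (nat_lit 47) (nat_lit 5) (nat_lit 46) (nat_lit 4) (nat_lit 529) (nat_lit 385) (nat_lit 286)))) (XT.nd (nat_lit 156) (nat_lit 152) (nat_lit 0) (XT.nd (nat_lit 78) (nat_lit 0) (nat_lit 0) (XT.lf (nat_lit 0) (nat_lit 6875202051) (nat_lit 76) (nat_lit 5224988964) (nat_lit 152) (nat_lit 27739198502) (nat_lit 44) (nat_lit 5) (nat_lit 45) (nat_lit 5) (nat_lit 46) (nat_lit 4) (nat_lit 530) (nat_lit 385) (nat_lit 285)) (XT.lf (nat_lit 0) (nat_lit 23124457409) (nat_lit 152) (nat_lit 11649892569) (nat_lit 0) (nat_lit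 5924007024) (nat_lit 44) (nat_lit 5) (nat_lit 46) (nat_lit 4) (nat_lit 44) (nat_lit 4) (nat_lit 531) (nat_lit 385) (nat_lit 284))) (XT.nd (nat_lit 78) (nat_lit 76) (nat_lit 0) (XT.lf (nat_lit 0) (nat_lit 10394654675) (nat_lit 76) (nat_lit 24205954796) (nat_lit 76) (nat_lit 6978849507) (nat_lit 43) (nat_lit 4) (nat_lit 44) (nat_lit 5) (nat_lit 44) (nat_lit 4) (nat_lit 532) (nat_lit 385) (nat_lit 283)) (XT.lf (nat_lit 0) (nat_lit 3945611138) (nat_lit 152) (nat_lit 9243393223) (nat_lit 76) (nat_lit 29294205544) (nat_lit 42) (nat_lit 5) (nat_lit 44) (nat_lit 5) (nat_lit 43) (nat_lit 4) (nat_lit 533) (nat_lit 385) (nat_lit 282))))))))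
noncomputable def xc64 : XT := (XT.nd (nat_lit 54990) (nat_lit 0) (nat_lit 7600) (XT.nd (nat_lit 1170) (nat_lit 304) (nat_lit 0) (XT.nd (nat_lit 546) (nat_lit 456) (nat_lit 0) (XT.nd (nat_lit 234) (nat_lit 228) (nat_lit 0) (XT.nd (nat_lit 78) (nat_lit 76) (nat_lit 0) (XT.lf (nat_lit 0) (nat_lit 13491897528) (nat_lit 76) (nat_lit 1665740976) (nat_lit 152) (nat_lit 28251359083) (nat_lit 41) (nat_lit 5) (nat_lit 42) (nat_lit 5) (nat_lit 43) (nat_lit 4) (nat_lit 534) (nat_lit 385) (nat_lit 281)) (XT.nd (nat_lit 78) (nat_lit 76) (nat_lit 0) (XT.lf (nat_lit 0) (nat_lit 26868808077) (nat_lit 152) (nat_lit 7418604770) (nat_lit 0) (nat_lit 10070262786) (nat_lit 41) (nat_lit 5) (nat_lit 43) (nat_lit 4) (nat_lit 41) (nat_lit 4) (nat_lit 535) (nat_lit 385) (nat_lit 280)) (XT.lf (nat_lit 0) (nat_lit 15993581368) (nat_lit 76) (nat_lit 23079262466) (nat_lit 76) (nat_lit 6257724422) (nat_lit 40) (nat_lit 4) (nat_lit 41) (nat_lit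 5) (nat_lit 41) (nat_lit 4) (nat_lit 536) (nat_lit 385) (nat_lit 279)))) (XT.nd (nat_lit 156) (nat_lit 76) (nat_lit 0) (XT.nd (nat_lit 78) (nat_lit 76) (nat_lit 0) (XT.lf (nat_lit 0) (nat_lit 5253695794) (nat_lit 152) (nat_lit 6178858643) (nat_lit 76) (nat_lit 34897152983) (nat_lit 39) (nat_lit 5) (nat_lit 41) (nat_lit 5) (nat_lit 40) (nat_lit 4) (nat_lit 537) (nat_lit 385) (nat_lit 278)) (XT.lf (nat_lit 0) (nat_lit 17136429597) (nat_lit 152) (nat_lit 29453855473) (nat_lit 0) (nat_lit 762124761) (nat_lit 38) (nat_lit 5) (nat_lit 40) (nat_lit 4) (nat_lit 38) (nat_lit 4) (nat_lit 538) (nat_lit 385) (nat_lit 277))) (XT.nd (nat_lit 78) (nat_lit 76) (nat_lit 0) (XT.lf (nat_lit 0) (nat_lit 29524023553) (nat_lit 152) (nat_lit 5748028616) (nat_lit 0) (nat_lit 13129289952) (nat_lit 38) (nat_lit 5) (nat_lit 40) (nat_lit 4) (nat_lit 38) (nat_lit 4) (nat_lit 539) (nat_lit 385) (nat_lit 276)) (XT.lf (nat_lit 0) (nat_lit 18985817791)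 (nat_lit 76) (nat_lit 23452913750) (nat_lit 76) (nat_lit 7038346398) (nat_lit 37) (nat_lit 4) (nat_lit 38) (nat_lit 5) (nat_lit 38) (nat_lit 4) (nat_lit 540) (nat_lit 385) (nat_lit 275))))) (XT.nd (nat_lit 312) (nat_lit 228) (nat_lit 0) (XT.nd (nat_lit 156) (nat_lit 76) (nat_lit 0) (XT.nd (nat_lit 78) (nat_lit 76) (nat_lit 0) (XT.lf (nat_lit 0) (nat_lit 5086799706) (nat_lit 152) (nat_lit 6107620015) (nat_lit 76) (nat_lit 39388231040) (nat_lit 36) (nat_lit 5) (nat_lit 38) (nat_lit 5) (nat_lit 37) (nat_lit 4) (nat_lit 541) (nat_lit 385) (nat_lit 274)) (XT.lf (nat_lit 0) (nat_lit 17609209985) (nat_lit 152) (nat_lit 32468950189) (nat_lit 0) (nat_lit 1635890924) (nat_lit 35) (nat_lit 5) (nat_lit 37) (nat_lit 4) (nat_lit 35) (nat_lit 4) (nat_lit 542) (nat_lit 385) (nat_lit 273))) (XT.nd (nat_lit 78) (nat_lit 76) (nat_lit 0) (XT.lf (nat_lit 0) (nat_lit 30654216572) (nat_lit 152) (nat_lit 7557493802) (nat_lit 0) (nat_lit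 14663275480) (nat_lit 35) (nat_lit 5) (nat_lit 37) (nat_lit 4) (nat_lit 35) (nat_lit 4) (nat_lit 543) (nat_lit 385) (nat_lit 272)) (XT.lf (nat_lit 0) (nat_lit 18409960815) (nat_lit 76) (nat_lit 25832145911) (nat_lit 76) (nat_lit 9824096051) (nat_lit 34) (nat_lit 4) (nat_lit 35) (nat_lit 5) (nat_lit 35) (nat_lit 4) (nat_lit 544) (nat_lit 385) (nat_lit 271)))) (XT.nd (nat_lit 156) (nat_lit 76) (nat_lit 0) (XT.nd (nat_lit 78) (nat_lit 76) (nat_lit 0) (XT.lf (nat_lit 0) (nat_lit 2938666947) (nat_lit 152) (nat_lit 10059166410) (nat_lit 76) (nat_lit 42292924437) (nat_lit 33) (nat_lit 5) (nat_lit 35) (nat_lit 5) (nat_lit 34) (nat_lit 4) (nat_lit 545) (nat_lit 385) (nat_lit 270)) (XT.lf (nat_lit 0) (nat_lit 16025025908) (nat_lit 152) (nat_lit 40068514264) (nat_lit 0) (nat_lit 451446326) (nat_lit 32) (nat_lit 5) (nat_lit 34) (nat_lit 4) (nat_lit 32) (nat_lit 4) (nat_lit 546) (nat_lit 385) (nat_lit 269))) (XT.nd (nat_lit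 78) (nat_lit 76) (nat_lit 0) (XT.lf (nat_lit 0) (nat_lit 29710585221) (nat_lit 152) (nat_lit 13998253947) (nat_lit 0) (nat_lit 14121804721) (nat_lit 32) (nat_lit 5) (nat_lit 34) (nat_lit 4) (nat_lit 32) (nat_lit 4) (nat_lit 547) (nat_lit 385) (nat_lit 268)) (XT.lf (nat_lit 0) (nat_lit 13061272903) (nat_lit 76) (nat_lit 30847044351) (nat_lit 76) (nat_lit 15243505677) (nat_lit 31) (nat_lit 4) (nat_lit 32) (nat_lit 5) (nat_lit 32) (nat_lit 4) (nat_lit 548) (nat_lit 385) (nat_lit 267)))))) (XT.nd (nat_lit 53196) (nat_lit 0) (nat_lit 16264) (XT.nd (nat_lit 312) (nat_lit 76) (nat_lit 0) (XT.nd (nat_lit 156) (nat_lit 76) (nat_lit 0) (XT.nd (nat_lit 78) (nat_lit 152) (nat_lit 0) (XT.lf (nat_lit 0) (nat_lit 41172290070) (nat_lit 76) (nat_lit 17477342420) (nat_lit 76) (nat_lit 1859475422) (nat_lit 31) (nat_lit 4) (nat_lit 32) (nat_lit 5) (nat_lit 32) (nat_lit 4) (nat_lit 549) (nat_lit 385) (nat_lit 266)) (XT.lf (nat_lit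 0) (nat_lit 8218934057) (nat_lit 76) (nat_lit 3530185178) (nat_lit 152) (nat_lit 50152880160) (nat_lit 29) (nat_lit 5) (nat_lit 30) (nat_lit 5) (nat_lit 31) (nat_lit 4) (nat_lit 550) (nat_lit 385) (nat_lit 265))) (XT.nd (nat_lit 78) (nat_lit 76) (nat_lit 0) (XT.lf (nat_lit 0) (nat_lit 26006726555) (nat_lit 152) (nat_lit 26503924370) (nat_lit 0) (nat_lit 10817130621) (nat_lit 29) (nat_lit 5) (nat_lit 31) (nat_lit 4) (nat_lit 29) (nat_lit 4) (nat_lit 551) (nat_lit 385) (nat_lit 264)) (XT.lf (nat_lit 0) (nat_lit 1438714290) (nat_lit 76) (nat_lit 39279581213) (nat_lit 76) (nat_lit 24077254749) (nat_lit 28) (nat_lit 4) (nat_lit 29) (nat_lit 5) (nat_lit 29) (nat_lit 4) (nat_lit 552) (nat_lit 385) (nat_lit 263)))) (XT.nd (nat_lit 52728) (nat_lit 0) (nat_lit 19836) (XT.nd (nat_lit 78) (nat_lit 76) (nat_lit 0) (XT.lf (nat_lit 0) (nat_lit 30718379033) (nat_lit 76) (nat_lit 25398149879) (nat_lit 76) (nat_lit 10183463677)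 (nat_lit 28) (nat_lit 4) (nat_lit 29) (nat_lit 5) (nat_lit 29) (nat_lit 4) (nat_lit 553) (nat_lit 385) (nat_lit 262)) (XT.lf (nat_lit 0) (nat_lit 4024720924) (nat_lit 152) (nat_lit 7056502471) (nat_lit 76) (nat_lit 56767811254) (nat_lit 27) (nat_lit 5) (nat_lit 29) (nat_lit 5) (nat_lit 28) (nat_lit 4) (nat_lit 554) (nat_lit 385) (nat_lit 261))) (XT.nd (nat_lit 78) (nat_lit 684) (nat_lit 0) (XT.lf (nat_lit 0) (nat_lit 3479876578) (nat_lit 836) (nat_lit 79361000) (nat_lit 836) (nat_lit 79361000) (nat_lit 297) (nat_lit 4) (nat_lit 308) (nat_lit 5) (nat_lit 308) (nat_lit 4) (nat_lit 428) (nat_lit 386) (nat_lit 386)) (XT.lf (nat_lit 0) (nat_lit 3450737021) (nat_lit 684) (nat_lit 2011623829) (nat_lit 0) (nat_lit 1875615316) (nat_lit 288) (nat_lit 5) (nat_lit 297) (nat_lit 4) (nat_lit 288) (nat_lit 4) (nat_lit 429) (nat_lit 386) (nat_lit 385))))) (XT.nd (nat_lit 312) (nat_lit 1672) (nat_lit 0) (XT.nd (nat_lit 156) (nat_lit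 684) (nat_lit 0) (XT.nd (nat_lit 78) (nat_lit 608) (nat_lit 0) (XT.lf (nat_lit 0) (nat_lit 3702210885) (nat_lit 608) (nat_lit 3402261182) (nat_lit 608) (nat_lit 297895103) (nat_lit 280) (nat_lit 4) (nat_lit 288) (nat_lit 5) (nat_lit 288) (nat_lit 4) (nat_lit 430) (nat_lit 386) (nat_lit 384)) (XT.lf (nat_lit 0) (nat_lit 2054581863) (nat_lit 532) (nat_lit 1218152726) (nat_lit 608) (nat_lit 4196787640) (nat_lit 272) (nat_lit 5) (nat_lit 279) (nat_lit 5) (nat_lit 280) (nat_lit 4) (nat_lit 431) (nat_lit 386) (nat_lit 383))) (XT.nd (nat_lit 78) (nat_lit 76) (nat_lit 0) (XT.lf (nat_lit 0) (nat_lit 399833771) (nat_lit 608) (nat_lit 6497538034) (nat_lit 608) (nat_lit 642655659) (nat_lit 264) (nat_lit 4) (nat_lit 272) (nat_lit 5) (nat_lit 272) (nat_lit 4) (nat_lit 432) (nat_lit 386) (nat_lit 382)) (XT.lf (nat_lit 0) (nat_lit 2928681337) (nat_lit 684) (nat_lit 1268373079) (nat_lit 76) (nat_lit 3415648532) (nat_lit 263) (nat_lit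 5) (nat_lit 272) (nat_lit 5) (nat_lit 264) (nat_lit 4) (nat_lit 433) (nat_lit 386) (nat_lit 381)))) (XT.nd (nat_lit 156) (nat_lit 532) (nat_lit 0) (XT.nd (nat_lit 78) (nat_lit 608) (nat_lit 0) (XT.lf (nat_lit 0) (nat_lit 4753567776) (nat_lit 532) (nat_lit 1791409366) (nat_lit 608) (nat_lit 1143878019) (nat_lit 256) (nat_lit 5) (nat_lit 263) (nat_lit 5) (nat_lit 264) (nat_lit 4) (nat_lit 434) (nat_lit 386) (nat_lit 380)) (XT.lf (nat_lit 0) (nat_lit 2409632588) (nat_lit 608) (nat_lit 4636071002) (nat_lit 76) (nat_lit 722195720) (nat_lit 248) (nat_lit 5) (nat_lit 256) (nat_lit 5) (nat_lit 249) (nat_lit 4) (nat_lit 435) (nat_lit 386) (nat_lit 379))) (XT.nd (nat_lit 78) (nat_lit 76) (nat_lit 0) (XT.lf (nat_lit 0) (nat_lit 1477479233) (nat_lit 456) (nat_lit 4538434077) (nat_lit 532) (nat_lit 1833995657) (nat_lit 242) (nat_lit 5) (nat_lit 248) (nat_lit 5) (nat_lit 249) (nat_lit 4) (nat_lit 436) (nat_lit 386) (nat_lit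 378)) (XT.lf (nat_lit 0) (nat_lit 1716216620) (nat_lit 532) (nat_lit 196644769) (nat_lit 76) (nat_lit 6022349932) (nat_lit 241) (nat_lit 5) (nat_lit 248) (nat_lit 5) (nat_lit 242) (nat_lit 5) (nat_lit 437) (nat_lit 386) (nat_lit 377))))))) (XT.nd (nat_lit 1170) (nat_lit 3648) (nat_lit 0) (XT.nd (nat_lit 546) (nat_lit 2204) (nat_lit 0) (XT.nd (nat_lit 234) (nat_lit 1368) (nat_lit 0) (XT.nd (nat_lit 78) (nat_lit 988) (nat_lit 0) (XT.lf (nat_lit 0) (nat_lit 5314048995) (nat_lit 532) (nat_lit 1877300633) (nat_lit 76) (nat_lit 831846994) (nat_lit 235) (nat_lit 5) (nat_lit 242) (nat_lit 5) (nat_lit 236) (nat_lit 4) (nat_lit 438) (nat_lit 386) (nat_lit 376)) (XT.nd (nat_lit 78) (nat_lit 456) (nat_lit 0) (XT.lf (nat_lit 0) (nat_lit 864489829) (nat_lit 532) (nat_lit 3598063345) (nat_lit 76) (nat_lit 3651729246) (nat_lit 228) (nat_lit 5) (nat_lit 235) (nat_lit 5) (nat_lit 229) (nat_lit 5) (nat_lit 439) (nat_lit 386) (nat_lit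 375)) (XT.lf (nat_lit 0) (nat_lit 2847032251) (nat_lit 456) (nat_lit 1602959778) (nat_lit 532) (nat_lit 3758538079) (nat_lit 222) (nat_lit 5) (nat_lit 228) (nat_lit 5) (nat_lit 229) (nat_lit 5) (nat_lit 440) (nat_lit 386) (nat_lit 374)))) (XT.nd (nat_lit 156) (nat_lit 912) (nat_lit 0) (XT.nd (nat_lit 78) (nat_lit 76) (nat_lit 0) (XT.lf (nat_lit 0) (nat_lit 1148656380) (nat_lit 380) (nat_lit 6968838043) (nat_lit 456) (nat_lit 188884755) (nat_lit 217) (nat_lit 5) (nat_lit 222) (nat_lit 5) (nat_lit 223) (nat_lit 4) (nat_lit 441) (nat_lit 386) (nat_lit 373)) (XT.lf (nat_lit 0) (nat_lit 3404709232) (nat_lit 456) (nat_lit 607250913) (nat_lit 76) (nat_lit 4394657005) (nat_lit 216) (nat_lit 5) (nat_lit 222) (nat_lit 5) (nat_lit 217) (nat_lit 5) (nat_lit 442) (nat_lit 386) (nat_lit 372))) (XT.nd (nat_lit 78) (nat_lit 456) (nat_lit 0) (XT.lf (nat_lit 0) (nat_lit 6145358057) (nat_lit 456) (nat_lit 932887962) (nat_lit 532)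 (nat_lit 1432288608) (nat_lit 210) (nat_lit 5) (nat_lit 216) (nat_lit 5) (nat_lit 217) (nat_lit 5) (nat_lit 443) (nat_lit 386) (nat_lit 371)) (XT.lf (nat_lit 0) (nat_lit 2188888965) (nat_lit 456) (nat_lit 4192071073) (nat_lit 76) (nat_lit 2236320402) (nat_lit 204) (nat_lit 5) (nat_lit 210) (nat_lit 5) (nat_lit 205) (nat_lit 5) (nat_lit 444) (nat_lit 386) (nat_lit 370))))) (XT.nd (nat_lit 312) (nat_lit 1064) (nat_lit 0) (XT.nd (nat_lit 156) (nat_lit 380) (nat_lit 0) (XT.nd (nat_lit 78) (nat_lit 380) (nat_lit 0) (XT.lf (nat_lit 0) (nat_lit 2655426080) (nat_lit 380) (nat_lit 3211801073) (nat_lit 456) (nat_lit 2860262522) (nat_lit 199) (nat_lit 5) (nat_lit 204) (nat_lit 5) (nat_lit 205) (nat_lit 5) (nat_lit 445) (nat_lit 386) (nat_lit 369)) (XT.lf (nat_lit 0) (nat_lit 769598929) (nat_lit 380) (nat_lit 7994114107) (nat_lit 76) (nat_lit 77944965) (nat_lit 194) (nat_lit 5) (nat_lit 199) (nat_lit 5) (nat_lit 195) (nat_lit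 5) (nat_lit 446) (nat_lit 386) (nat_lit 368))) (XT.nd (nat_lit 78) (nat_lit 380) (nat_lit 0) (XT.lf (nat_lit 0) (nat_lit 4464460280) (nat_lit 380) (nat_lit 1034398225) (nat_lit 76) (nat_lit 3459140885) (nat_lit 194) (nat_lit 5) (nat_lit 199) (nat_lit 5) (nat_lit 195) (nat_lit 5) (nat_lit 447) (nat_lit 386) (nat_lit 367)) (XT.lf (nat_lit 0) (nat_lit 6141851241) (nat_lit 380) (nat_lit 2109558824) (nat_lit 456) (nat_lit 826988891) (nat_lit 189) (nat_lit 5) (nat_lit 194) (nat_lit 5) (nat_lit 195) (nat_lit 5) (nat_lit 448) (nat_lit 386) (nat_lit 366)))) (XT.nd (nat_lit 156) (nat_lit 380) (nat_lit 0) (XT.nd (nat_lit 78) (nat_lit 304) (nat_lit 0) (XT.lf (nat_lit 0) (nat_lit 2880212810) (nat_lit 380) (nat_lit 4920762614) (nat_lit 76) (nat_lit 1400943067) (nat_lit 184) (nat_lit 5) (nat_lit 189) (nat_lit 5) (nat_lit 185) (nat_lit 5) (nat_lit 449) (nat_lit 386) (nat_lit 365)) (XT.lf (nat_lit 0) (nat_lit 2350429293) (nat_lit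 304) (nat_lit 4328488793) (nat_lit 380) (nat_lit 2650077380) (nat_lit 180) (nat_lit 5) (nat_lit 184) (nat_lit 5) (nat_lit 185) (nat_lit 5) (nat_lit 450) (nat_lit 386) (nat_lit 364))) (XT.nd (nat_lit 78) (nat_lit 0) (nat_lit 0) (XT.lf (nat_lit 0) (nat_lit 364160941) (nat_lit 304) (nat_lit 723018114) (nat_lit 380) (nat_lit 8373056951) (nat_lit 175) (nat_lit 5) (nat_lit 179) (nat_lit 5) (nat_lit 180) (nat_lit 5) (nat_lit 451) (nat_lit 386) (nat_lit 363)) (XT.lf (nat_lit 0) (nat_lit 4907856050) (nat_lit 380) (nat_lit 1693343794) (nat_lit 76) (nat_lit 2992694127) (nat_lit 175) (nat_lit 5) (nat_lit 180) (nat_lit 5) (nat_lit 176) (nat_lit 5) (nat_lit 452) (nat_lit 386) (nat_lit 362)))))) (XT.nd (nat_lit 624) (nat_lit 1520) (nat_lit 0) (XT.nd (nat_lit 312) (nat_lit 1064) (nat_lit 0) (XT.nd (nat_lit 156) (nat_lit 380) (nat_lit 0) (XT.nd (nat_lit 78) (nat_lit 380) (nat_lit 0) (XT.lf (nat_lit 0) (nat_lit 5928755578) (nat_lit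 304) (nat_lit 2905393415) (nat_lit 380) (nat_lit 897687053) (nat_lit 171) (nat_lit 5) (nat_lit 175) (nat_lit 5) (nat_lit 176) (nat_lit 5) (nat_lit 453) (nat_lit 386) (nat_lit 361)) (XT.lf (nat_lit 0) (nat_lit 2936531421) (nat_lit 380) (nat_lit 6006918877) (nat_lit 76) (nat_lit 929878440) (nat_lit 166) (nat_lit 5) (nat_lit 171) (nat_lit 5) (nat_lit 167) (nat_lit 5) (nat_lit 454) (nat_lit 386) (nat_lit 360))) (XT.nd (nat_lit 78) (nat_lit 76) (nat_lit 0) (XT.lf (nat_lit 0) (nat_lit 1709047365) (nat_lit 304) (nat_lit 5170550676) (nat_lit 380) (nat_lit 3138849482) (nat_lit 162) (nat_lit 5) (nat_lit 166) (nat_lit 5) (nat_lit 167) (nat_lit 5) (nat_lit 455) (nat_lit 386) (nat_lit 359)) (XT.lf (nat_lit 0) (nat_lit 747420415) (nat_lit 380) (nat_lit 507132557) (nat_lit 76) (nat_lit 8913463578) (nat_lit 161) (nat_lit 5) (nat_lit 166) (nat_lit 5) (nat_lit 162) (nat_lit 5) (nat_lit 456) (nat_lit 386) (nat_lit 358)))) (XT.nd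 (nat_lit 156) (nat_lit 532) (nat_lit 0) (XT.nd (nat_lit 78) (nat_lit 304) (nat_lit 0) (XT.lf (nat_lit 0) (nat_lit 4717286795) (nat_lit 304) (nat_lit 2812590716) (nat_lit 76) (nat_lit 2790363472) (nat_lit 158) (nat_lit 5) (nat_lit 162) (nat_lit 5) (nat_lit 159) (nat_lit 5) (nat_lit 457) (nat_lit 386) (nat_lit 357)) (XT.lf (nat_lit 0) (nat_lit 5276932334) (nat_lit 304) (nat_lit 3528544572) (nat_lit 380) (nat_lit 1671581857) (nat_lit 154) (nat_lit 5) (nat_lit 158) (nat_lit 5) (nat_lit 159) (nat_lit 5) (nat_lit 458) (nat_lit 386) (nat_lit 356))) (XT.nd (nat_lit 78) (nat_lit 228) (nat_lit 0) (XT.lf (nat_lit 0) (nat_lit 2325694355) (nat_lit 304) (nat_lit 7691038385) (nat_lit 76) (nat_lit 621335074) (nat_lit 150) (nat_lit 5) (nat_lit 154) (nat_lit 5) (nat_lit 151) (nat_lit 5) (nat_lit 459) (nat_lit 386) (nat_lit 355)) (XT.lf (nat_lit 0) (nat_lit 489596862) (nat_lit 228) (nat_lit 5944122955) (nat_lit 304) (nat_lit 4368961121)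 (nat_lit 147) (nat_lit 5) (nat_lit 150) (nat_lit 5) (nat_lit 151) (nat_lit 5) (nat_lit 460) (nat_lit 386) (nat_lit 354))))) (XT.nd (nat_lit 312) (nat_lit 684) (nat_lit 0) (XT.nd (nat_lit 156) (nat_lit 532) (nat_lit 0) (XT.nd (nat_lit 78) (nat_lit 304) (nat_lit 0) (XT.lf (nat_lit 0) (nat_lit 8963580069) (nat_lit 228) (nat_lit 1711758039) (nat_lit 304) (nat_lit 296586848) (nat_lit 147) (nat_lit 5) (nat_lit 150) (nat_lit 5) (nat_lit 151) (nat_lit 5) (nat_lit 461) (nat_lit 386) (nat_lit 353)) (XT.lf (nat_lit 0) (nat_lit 3844681019) (nat_lit 304) (nat_lit 4643669347) (nat_lit 76) (nat_lit 2656091162) (nat_lit 143) (nat_lit 5) (nat_lit 147) (nat_lit 5) (nat_lit 144) (nat_lit 5) (nat_lit 462) (nat_lit 386) (nat_lit 352))) (XT.nd (nat_lit 78) (nat_lit 304) (nat_lit 0) (XT.lf (nat_lit 0) (nat_lit 3933122482) (nat_lit 228) (nat_lit 4180833509) (nat_lit 304) (nat_lit 3207800407) (nat_lit 140) (nat_lit 5) (nat_lit 143) (nat_lit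 5) (nat_lit 144) (nat_lit 5) (nat_lit 463) (nat_lit 386) (nat_lit 351)) (XT.lf (nat_lit 0) (nat_lit 984245951) (nat_lit 304) (nat_lit 10241618300) (nat_lit 76) (nat_lit 278329451) (nat_lit 136) (nat_lit 5) (nat_lit 140) (nat_lit 5) (nat_lit 137) (nat_lit 5) (nat_lit 464) (nat_lit 386) (nat_lit 350)))) (XT.nd (nat_lit 156) (nat_lit 456) (nat_lit 0) (XT.nd (nat_lit 78) (nat_lit 228) (nat_lit 0) (XT.lf (nat_lit 0) (nat_lit 5289504447) (nat_lit 304) (nat_lit 1548021853) (nat_lit 76) (nat_lit 4852069845) (nat_lit 136) (nat_lit 5) (nat_lit 140) (nat_lit 5) (nat_lit 137) (nat_lit 5) (nat_lit 465) (nat_lit 386) (nat_lit 349)) (XT.lf (nat_lit 0) (nat_lit 7445809779) (nat_lit 228) (nat_lit 2286753074) (nat_lit 304) (nat_lit 2147741034) (nat_lit 133) (nat_lit 5) (nat_lit 136) (nat_lit 5) (nat_lit 137) (nat_lit 5) (nat_lit 466) (nat_lit 386) (nat_lit 348))) (XT.nd (nat_lit 78) (nat_lit 228) (nat_lit 0) (XT.lf (nat_lit 0) (nat_lit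 2209636076) (nat_lit 228) (nat_lit 7472099665) (nat_lit 76) (nat_lit 2393725341) (nat_lit 130) (nat_lit 5) (nat_lit 133) (nat_lit 5) (nat_lit 131) (nat_lit 5) (nat_lit 467) (nat_lit 386) (nat_lit 347)) (XT.lf (nat_lit 0) (nat_lit 1608682871) (nat_lit 228) (nat_lit 5066891014) (nat_lit 304) (nat_lit 5599633240) (nat_lit 127) (nat_lit 5) (nat_lit 130) (nat_lit 5) (nat_lit 131) (nat_lit 5) (nat_lit 468) (nat_lit 386) (nat_lit 346))))))))
noncomputable def xc65 : XT := (XT.nd (nat_lit 2418) (nat_lit 2204) (nat_lit 0) (XT.nd (nat_lit 1170) (nat_lit 1824) (nat_lit 0) (XT.nd (nat_lit 546) (nat_lit 1064) (nat_lit 0) (XT.nd (nat_lit 234) (nat_lit 684) (nat_lit 0) (XT.nd (nat_lit 78) (nat_lit 456) (nat_lit 0) (XT.lf (nat_lit 0) (nat_lit 11009618702) (nat_lit 228) (nat_lit 279805322) (nat_lit 304) (nat_lit 1191105709) (nat_lit 127) (nat_lit 5) (nat_lit 130) (nat_lit 5) (nat_lit 131) (nat_lit 5) (nat_lit 469) (nat_lit 386)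 (nat_lit 345)) (XT.nd (nat_lit 78) (nat_lit 228) (nat_lit 0) (XT.lf (nat_lit 0) (nat_lit 3346471940) (nat_lit 228) (nat_lit 4714594323) (nat_lit 76) (nat_lit 4628117111) (nat_lit 124) (nat_lit 5) (nat_lit 127) (nat_lit 5) (nat_lit 125) (nat_lit 5) (nat_lit 470) (nat_lit 386) (nat_lit 344)) (XT.lf (nat_lit 0) (nat_lit 4805077076) (nat_lit 228) (nat_lit 3195156539) (nat_lit 304) (nat_lit 4903391338) (nat_lit 121) (nat_lit 5) (nat_lit 124) (nat_lit 5) (nat_lit 125) (nat_lit 5) (nat_lit 471) (nat_lit 386) (nat_lit 343)))) (XT.nd (nat_lit 156) (nat_lit 456) (nat_lit 0) (XT.nd (nat_lit 78) (nat_lit 76) (nat_lit 0) (XT.lf (nat_lit 0) (nat_lit 1490796399) (nat_lit 152) (nat_lit 11323059013) (nat_lit 228) (nat_lit 310038915) (nat_lit 119) (nat_lit 5) (nat_lit 121) (nat_lit 5) (nat_lit 122) (nat_lit 4) (nat_lit 472) (nat_lit 386) (nat_lit 342)) (XT.lf (nat_lit 0) (nat_lit 4389599691) (nat_lit 228) (nat_lit 1993862721) (nat_lit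 76) (nat_lit 6964393544) (nat_lit 118) (nat_lit 5) (nat_lit 121) (nat_lit 5) (nat_lit 119) (nat_lit 5) (nat_lit 473) (nat_lit 386) (nat_lit 341))) (XT.nd (nat_lit 78) (nat_lit 228) (nat_lit 0) (XT.lf (nat_lit 0) (nat_lit 7985921460) (nat_lit 228) (nat_lit 1257105234) (nat_lit 304) (nat_lit 4334848527) (nat_lit 115) (nat_lit 5) (nat_lit 118) (nat_lit 5) (nat_lit 119) (nat_lit 5) (nat_lit 474) (nat_lit 386) (nat_lit 340)) (XT.lf (nat_lit 0) (nat_lit 463589266) (nat_lit 228) (nat_lit 9380201893) (nat_lit 76) (nat_lit 3969542431) (nat_lit 112) (nat_lit 5) (nat_lit 115) (nat_lit 5) (nat_lit 113) (nat_lit 5) (nat_lit 475) (nat_lit 386) (nat_lit 339))))) (XT.nd (nat_lit 312) (nat_lit 532) (nat_lit 0) (XT.nd (nat_lit 156) (nat_lit 380) (nat_lit 0) (XT.nd (nat_lit 78) (nat_lit 0) (nat_lit 0) (XT.lf (nat_lit 0) (nat_lit 674842614) (nat_lit 152) (nat_lit 4662678085) (nat_lit 228) (nat_lit 8716489079) (nat_lit 110) (nat_lit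 5) (nat_lit 112) (nat_lit 5) (nat_lit 113) (nat_lit 5) (nat_lit 476) (nat_lit 386) (nat_lit 338)) (XT.lf (nat_lit 0) (nat_lit 10402787517) (nat_lit 228) (nat_lit 3184771011) (nat_lit 76) (nat_lit 712995797) (nat_lit 110) (nat_lit 5) (nat_lit 113) (nat_lit 5) (nat_lit 111) (nat_lit 4) (nat_lit 477) (nat_lit 386) (nat_lit 337))) (XT.nd (nat_lit 78) (nat_lit 152) (nat_lit 0) (XT.lf (nat_lit 0) (nat_lit 1106430323) (nat_lit 228) (nat_lit 7250659222) (nat_lit 76) (nat_lit 6195248741) (nat_lit 107) (nat_lit 5) (nat_lit 110) (nat_lit 5) (nat_lit 108) (nat_lit 5) (nat_lit 478) (nat_lit 386) (nat_lit 336)) (XT.lf (nat_lit 0) (nat_lit 3283184059) (nat_lit 152) (nat_lit 2908033256) (nat_lit 228) (nat_lit 8619038005) (nat_lit 105) (nat_lit 5) (nat_lit 107) (nat_lit 5) (nat_lit 108) (nat_lit 5) (nat_lit 479) (nat_lit 386) (nat_lit 335)))) (XT.nd (nat_lit 156) (nat_lit 304) (nat_lit 0) (XT.nd (nat_lit 78) (nat_lit 228) (nat_lit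 0) (XT.lf (nat_lit 0) (nat_lit 11473497938) (nat_lit 228) (nat_lit 918275310) (nat_lit 76) (nat_lit 2682789535) (nat_lit 105) (nat_lit 5) (nat_lit 108) (nat_lit 5) (nat_lit 106) (nat_lit 4) (nat_lit 480) (nat_lit 386) (nat_lit 334)) (XT.lf (nat_lit 0) (nat_lit 1609875750) (nat_lit 228) (nat_lit 5280339619) (nat_lit 76) (nat_lit 8453942979) (nat_lit 102) (nat_lit 5) (nat_lit 105) (nat_lit 5) (nat_lit 103) (nat_lit 5) (nat_lit 481) (nat_lit 386) (nat_lit 333))) (XT.nd (nat_lit 78) (nat_lit 152) (nat_lit 0) (XT.lf (nat_lit 0) (nat_lit 5752410304) (nat_lit 152) (nat_lit 1163740487) (nat_lit 228) (nat_lit 8704281142) (nat_lit 100) (nat_lit 5) (nat_lit 102) (nat_lit 5) (nat_lit 103) (nat_lit 5) (nat_lit 482) (nat_lit 386) (nat_lit 332)) (XT.lf (nat_lit 0) (nat_lit 1201448491) (nat_lit 152) (nat_lit 11238015007) (nat_lit 228) (nat_lit 3463796008) (nat_lit 98) (nat_lit 5) (nat_lit 100) (nat_lit 5) (nat_lit 101) (nat_lit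 4) (nat_lit 483) (nat_lit 386) (nat_lit 331)))))) (XT.nd (nat_lit 624) (nat_lit 912) (nat_lit 0) (XT.nd (nat_lit 312) (nat_lit 456) (nat_lit 0) (XT.nd (nat_lit 156) (nat_lit 228) (nat_lit 0) (XT.nd (nat_lit 78) (nat_lit 152) (nat_lit 0) (XT.lf (nat_lit 0) (nat_lit 1955365148) (nat_lit 228) (nat_lit 3514445728) (nat_lit 76) (nat_lit 10722428556) (nat_lit 97) (nat_lit 5) (nat_lit 100) (nat_lit 5) (nat_lit 98) (nat_lit 5) (nat_lit 484) (nat_lit 386) (nat_lit 330)) (XT.lf (nat_lit 0) (nat_lit 7498546956) (nat_lit 228) (nat_lit 8456462522) (nat_lit 76) (nat_lit 532919641) (nat_lit 95) (nat_lit 5) (nat_lit 98) (nat_lit 5) (nat_lit 96) (nat_lit 4) (nat_lit 485) (nat_lit 386) (nat_lit 329))) (XT.nd (nat_lit 78) (nat_lit 76) (nat_lit 0) (XT.lf (nat_lit 0) (nat_lit 3116256951) (nat_lit 152) (nat_lit 10160496696) (nat_lit 228) (nat_lit 3513675088) (nat_lit 93) (nat_lit 5) (nat_lit 95) (nat_lit 5) (nat_lit 96) (nat_lit 4)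 (nat_lit 486) (nat_lit 386) (nat_lit 328)) (XT.lf (nat_lit 0) (nat_lit 2119918531) (nat_lit 228) (nat_lit 2005730834) (nat_lit 76) (nat_lit 12974688637) (nat_lit 92) (nat_lit 5) (nat_lit 95) (nat_lit 5) (nat_lit 93) (nat_lit 5) (nat_lit 487) (nat_lit 386) (nat_lit 327)))) (XT.nd (nat_lit 156) (nat_lit 228) (nat_lit 0) (XT.nd (nat_lit 78) (nat_lit 76) (nat_lit 0) (XT.lf (nat_lit 0) (nat_lit 7920171465) (nat_lit 228) (nat_lit 7355104784) (nat_lit 76) (nat_lit 2141177471) (nat_lit 90) (nat_lit 5) (nat_lit 93) (nat_lit 5) (nat_lit 91) (nat_lit 4) (nat_lit 488) (nat_lit 386) (nat_lit 326)) (XT.lf (nat_lit 0) (nat_lit 4749818106) (nat_lit 76) (nat_lit 9202102616) (nat_lit 152) (nat_lit 3788408520) (nat_lit 89) (nat_lit 5) (nat_lit 90) (nat_lit 5) (nat_lit 91) (nat_lit 4) (nat_lit 489) (nat_lit 386) (nat_lit 325))) (XT.nd (nat_lit 78) (nat_lit 152) (nat_lit 0) (XT.lf (nat_lit 0) (nat_lit 2075520632) (nat_lit 152) (nat_lit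 815877583) (nat_lit 76) (nat_lit 15181152353) (nat_lit 88) (nat_lit 5) (nat_lit 90) (nat_lit 5) (nat_lit 89) (nat_lit 5) (nat_lit 490) (nat_lit 386) (nat_lit 324)) (XT.lf (nat_lit 0) (nat_lit 8140757018) (nat_lit 228) (nat_lit 6619470784) (nat_lit 76) (nat_lit 3650340392) (nat_lit 86) (nat_lit 5) (nat_lit 89) (nat_lit 5) (nat_lit 87) (nat_lit 4) (nat_lit 491) (nat_lit 386) (nat_lit 323))))) (XT.nd (nat_lit 312) (nat_lit 532) (nat_lit 0) (XT.nd (nat_lit 156) (nat_lit 228) (nat_lit 0) (XT.nd (nat_lit 78) (nat_lit 76) (nat_lit 0) (XT.lf (nat_lit 0) (nat_lit 6034078473) (nat_lit 76) (nat_lit 8401022471) (nat_lit 152) (nat_lit 4322211778) (nat_lit 85) (nat_lit 5) (nat_lit 86) (nat_lit 5) (nat_lit 87) (nat_lit 4) (nat_lit 492) (nat_lit 386) (nat_lit 322)) (XT.lf (nat_lit 0) (nat_lit 1788393040) (nat_lit 152) (nat_lit 17088037) (nat_lit 76) (nat_lit 17307865870) (nat_lit 84) (nat_lit 5) (nat_lit 86) (nat_lit 5) (nat_lit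 85) (nat_lit 5) (nat_lit 493) (nat_lit 386) (nat_lit 321))) (XT.nd (nat_lit 78) (nat_lit 76) (nat_lit 0) (XT.lf (nat_lit 0) (nat_lit 8125208936) (nat_lit 228) (nat_lit 6327561008) (nat_lit 76) (nat_lit 5022116287) (nat_lit 82) (nat_lit 5) (nat_lit 85) (nat_lit 5) (nat_lit 83) (nat_lit 4) (nat_lit 494) (nat_lit 386) (nat_lit 320)) (XT.lf (nat_lit 0) (nat_lit 6889223939) (nat_lit 76) (nat_lit 7800975007) (nat_lit 152) (nat_lit 5155931444) (nat_lit 81) (nat_lit 5) (nat_lit 82) (nat_lit 5) (nat_lit 83) (nat_lit 4) (nat_lit 495) (nat_lit 386) (nat_lit 319)))) (XT.nd (nat_lit 156) (nat_lit 304) (nat_lit 0) (XT.nd (nat_lit 78) (nat_lit 0) (nat_lit 0) (XT.lf (nat_lit 0) (nat_lit 312171173) (nat_lit 152) (nat_lit 908967236) (nat_lit 228) (nat_lit 19006379669) (nat_lit 78) (nat_lit 5) (nat_lit 80) (nat_lit 5) (nat_lit 81) (nat_lit 5) (nat_lit 496) (nat_lit 386) (nat_lit 318)) (XT.lf (nat_lit 0) (nat_lit 7831509195) (nat_lit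 228) (nat_lit 6570617505) (nat_lit 76) (nat_lit 6212321411) (nat_lit 78) (nat_lit 5) (nat_lit 81) (nat_lit 5) (nat_lit 79) (nat_lit 4) (nat_lit 497) (nat_lit 386) (nat_lit 317))) (XT.nd (nat_lit 78) (nat_lit 228) (nat_lit 0) (XT.lf (nat_lit 0) (nat_lit 7221640454) (nat_lit 76) (nat_lit 7452292467) (nat_lit 152) (nat_lit 6338041569) (nat_lit 77) (nat_lit 5) (nat_lit 78) (nat_lit 5) (nat_lit 79) (nat_lit 4) (nat_lit 498) (nat_lit 386) (nat_lit 316)) (XT.lf (nat_lit 0) (nat_lit 55673111) (nat_lit 152) (nat_lit 261593940) (nat_lit 228) (nat_lit 21103386023) (nat_lit 74) (nat_lit 5) (nat_lit 76) (nat_lit 5) (nat_lit 77) (nat_lit 5) (nat_lit 499) (nat_lit 386) (nat_lit 315))))))) (XT.nd (nat_lit 1170) (nat_lit 1064) (nat_lit 0) (XT.nd (nat_lit 546) (nat_lit 532) (nat_lit 0) (XT.nd (nat_lit 234) (nat_lit 532) (nat_lit 0) (XT.nd (nat_lit 78) (nat_lit 76) (nat_lit 0) (XT.lf (nat_lit 0) (nat_lit 7209650679) (nat_lit 228)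 (nat_lit 7455379740) (nat_lit 76) (nat_lit 7169735528) (nat_lit 74) (nat_lit 5) (nat_lit 77) (nat_lit 5) (nat_lit 75) (nat_lit 4) (nat_lit 500) (nat_lit 386) (nat_lit 314)) (XT.nd (nat_lit 78) (nat_lit 0) (nat_lit 0) (XT.lf (nat_lit 0) (nat_lit 6921553673) (nat_lit 76) (nat_lit 7413162383) (nat_lit 152) (nat_lit 7925809463) (nat_lit 73) (nat_lit 5) (nat_lit 74) (nat_lit 5) (nat_lit 75) (nat_lit 4) (nat_lit 501) (nat_lit 386) (nat_lit 313)) (XT.lf (nat_lit 0) (nat_lit 21706990638) (nat_lit 152) (nat_lit 897992630) (nat_lit 0) (nat_lit 93071494) (nat_lit 73) (nat_lit 5) (nat_lit 75) (nat_lit 4) (nat_lit 73) (nat_lit 4) (nat_lit 502) (nat_lit 386) (nat_lit 312)))) (XT.nd (nat_lit 156) (nat_lit 228) (nat_lit 0) (XT.nd (nat_lit 78) (nat_lit 76) (nat_lit 0) (XT.lf (nat_lit 0) (nat_lit 6200391023) (nat_lit 228) (nat_lit 9106696293) (nat_lit 76) (nat_lit 7834787820) (nat_lit 70) (nat_lit 5) (nat_lit 73) (nat_lit 5) (nat_lit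 71) (nat_lit 4) (nat_lit 503) (nat_lit 386) (nat_lit 311)) (XT.lf (nat_lit 0) (nat_lit 5860295024) (nat_lit 76) (nat_lit 7751053952) (nat_lit 152) (nat_lit 9986656963) (nat_lit 69) (nat_lit 5) (nat_lit 70) (nat_lit 5) (nat_lit 71) (nat_lit 4) (nat_lit 504) (nat_lit 386) (nat_lit 310))) (XT.nd (nat_lit 78) (nat_lit 228) (nat_lit 0) (XT.lf (nat_lit 0) (nat_lit 21296087479) (nat_lit 152) (nat_lit 2683565438) (nat_lit 0) (nat_lit 86624732) (nat_lit 69) (nat_lit 5) (nat_lit 71) (nat_lit 4) (nat_lit 69) (nat_lit 4) (nat_lit 505) (nat_lit 386) (nat_lit 309)) (XT.lf (nat_lit 0) (nat_lit 4733798120) (nat_lit 228) (nat_lit 11670550301) (nat_lit 76) (nat_lit 8138044502) (nat_lit 66) (nat_lit 5) (nat_lit 69) (nat_lit 5) (nat_lit 67) (nat_lit 4) (nat_lit 506) (nat_lit 386) (nat_lit 308))))) (XT.nd (nat_lit 312) (nat_lit 228) (nat_lit 0) (XT.nd (nat_lit 156) (nat_lit 228) (nat_lit 0) (XT.nd (nat_lit 78) (nat_lit 0) (nat_lit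 0) (XT.lf (nat_lit 0) (nat_lit 3887133458) (nat_lit 76) (nat_lit 8544360396) (nat_lit 152) (nat_lit 12599747487) (nat_lit 65) (nat_lit 5) (nat_lit 66) (nat_lit 5) (nat_lit 67) (nat_lit 4) (nat_lit 507) (nat_lit 386) (nat_lit 307)) (XT.lf (nat_lit 0) (nat_lit 20073579678) (nat_lit 76) (nat_lit 364360294) (nat_lit 152) (nat_lit 5094481129) (nat_lit 65) (nat_lit 5) (nat_lit 66) (nat_lit 5) (nat_lit 67) (nat_lit 4) (nat_lit 508) (nat_lit 386) (nat_lit 306))) (XT.nd (nat_lit 78) (nat_lit 76) (nat_lit 0) (XT.lf (nat_lit 0) (nat_lit 2727554767) (nat_lit 152) (nat_lit 15317565678) (nat_lit 76) (nat_lit 7998464660) (nat_lit 63) (nat_lit 5) (nat_lit 65) (nat_lit 5) (nat_lit 64) (nat_lit 4) (nat_lit 509) (nat_lit 386) (nat_lit 305)) (XT.lf (nat_lit 0) (nat_lit 825602500) (nat_lit 76) (nat_lit 9884293483) (nat_lit 152) (nat_lit 15857834121) (nat_lit 62) (nat_lit 5) (nat_lit 63) (nat_lit 5) (nat_lit 64) (nat_lit 4) (nat_lit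 510) (nat_lit 386) (nat_lit 304)))) (XT.nd (nat_lit 156) (nat_lit 76) (nat_lit 0) (XT.nd (nat_lit 78) (nat_lit 152) (nat_lit 0) (XT.lf (nat_lit 0) (nat_lit 17691993102) (nat_lit 76) (nat_lit 1355636302) (nat_lit 152) (nat_lit 8056492813) (nat_lit 62) (nat_lit 5) (nat_lit 63) (nat_lit 5) (nat_lit 64) (nat_lit 4) (nat_lit 511) (nat_lit 386) (nat_lit 303)) (XT.lf (nat_lit 0) (nat_lit 84984666) (nat_lit 152) (nat_lit 20247071730) (nat_lit 76) (nat_lit 7321385664) (nat_lit 60) (nat_lit 5) (nat_lit 62) (nat_lit 5) (nat_lit 61) (nat_lit 4) (nat_lit 512) (nat_lit 386) (nat_lit 302))) (XT.nd (nat_lit 78) (nat_lit 76) (nat_lit 0) (XT.lf (nat_lit 0) (nat_lit 8380252936) (nat_lit 152) (nat_lit 3461861070) (nat_lit 76) (nat_lit 16372590641) (nat_lit 60) (nat_lit 5) (nat_lit 62) (nat_lit 5) (nat_lit 61) (nat_lit 4) (nat_lit 513) (nat_lit 386) (nat_lit 301)) (XT.lf (nat_lit 0) (nat_lit 14029106397) (nat_lit 76) (nat_lit 2993300837)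 (nat_lit 152) (nat_lit 11767457415) (nat_lit 59) (nat_lit 5) (nat_lit 60) (nat_lit 5) (nat_lit 61) (nat_lit 4) (nat_lit 514) (nat_lit 386) (nat_lit 300)))))) (XT.nd (nat_lit 624) (nat_lit 532) (nat_lit 0) (XT.nd (nat_lit 312) (nat_lit 304) (nat_lit 0) (XT.nd (nat_lit 156) (nat_lit 76) (nat_lit 0) (XT.nd (nat_lit 78) (nat_lit 76) (nat_lit 0) (XT.lf (nat_lit 0) (nat_lit 2655552675) (nat_lit 76) (nat_lit 23351175305) (nat_lit 76) (nat_lit 3373064780) (nat_lit 58) (nat_lit 4) (nat_lit 59) (nat_lit 5) (nat_lit 59) (nat_lit 4) (nat_lit 515) (nat_lit 386) (nat_lit 299)) (XT.lf (nat_lit 0) (nat_lit 5313689441) (nat_lit 152) (nat_lit 9239462679) (nat_lit 76) (nat_lit 15428443430) (nat_lit 57) (nat_lit 5) (nat_lit 59) (nat_lit 5) (nat_lit 58) (nat_lit 4) (nat_lit 516) (nat_lit 386) (nat_lit 298))) (XT.nd (nat_lit 78) (nat_lit 0) (nat_lit 0) (XT.lf (nat_lit 0) (nat_lit 8839388173) (nat_lit 76) (nat_lit 5403163526) (nat_lit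 152) (nat_lit 16356420136) (nat_lit 56) (nat_lit 5) (nat_lit 57) (nat_lit 5) (nat_lit 58) (nat_lit 4) (nat_lit 517) (nat_lit 386) (nat_lit 297)) (XT.lf (nat_lit 0) (nat_lit 23536544477) (nat_lit 152) (nat_lit 3691260865) (nat_lit 0) (nat_lit 4004146451) (nat_lit 56) (nat_lit 5) (nat_lit 58) (nat_lit 4) (nat_lit 56) (nat_lit 4) (nat_lit 518) (nat_lit 386) (nat_lit 296)))) (XT.nd (nat_lit 156) (nat_lit 76) (nat_lit 0) (XT.nd (nat_lit 78) (nat_lit 76) (nat_lit 0) (XT.lf (nat_lit 0) (nat_lit 1367144335) (nat_lit 152) (nat_lit 16799868319) (nat_lit 76) (nat_lit 13711586780) (nat_lit 54) (nat_lit 5) (nat_lit 56) (nat_lit 5) (nat_lit 55) (nat_lit 4) (nat_lit 519) (nat_lit 386) (nat_lit 295)) (XT.lf (nat_lit 0) (nat_lit 1835606459) (nat_lit 76) (nat_lit 8732031594) (nat_lit 152) (nat_lit 21974100914) (nat_lit 53) (nat_lit 5) (nat_lit 54) (nat_lit 5) (nat_lit 55) (nat_lit 4) (nat_lit 520) (nat_lit 386) (nat_lit 294))) (XT.nd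 (nat_lit 78) (nat_lit 76) (nat_lit 0) (XT.lf (nat_lit 0) (nat_lit 20190444972) (nat_lit 152) (nat_lit 11923976333) (nat_lit 0) (nat_lit 1105962717) (nat_lit 53) (nat_lit 5) (nat_lit 55) (nat_lit 4) (nat_lit 53) (nat_lit 4) (nat_lit 521) (nat_lit 386) (nat_lit 293)) (XT.lf (nat_lit 0) (nat_lit 7414175114) (nat_lit 76) (nat_lit 22811986305) (nat_lit 76) (nat_lit 3689500531) (nat_lit 52) (nat_lit 4) (nat_lit 53) (nat_lit 5) (nat_lit 53) (nat_lit 4) (nat_lit 522) (nat_lit 386) (nat_lit 292))))) (XT.nd (nat_lit 312) (nat_lit 228) (nat_lit 0) (XT.nd (nat_lit 156) (nat_lit 152) (nat_lit 0) (XT.nd (nat_lit 78) (nat_lit 76) (nat_lit 0) (XT.lf (nat_lit 0) (nat_lit 5903535921) (nat_lit 152) (nat_lit 7175204472) (nat_lit 76) (nat_lit 21548703982) (nat_lit 51) (nat_lit 5) (nat_lit 53) (nat_lit 5) (nat_lit 52) (nat_lit 4) (nat_lit 523) (nat_lit 386) (nat_lit 291)) (XT.lf (nat_lit 0) (nat_lit 12881909664) (nat_lit 76) (nat_lit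 2919624334) (nat_lit 152) (nat_lit 19555210865) (nat_lit 50) (nat_lit 5) (nat_lit 51) (nat_lit 5) (nat_lit 52) (nat_lit 4) (nat_lit 524) (nat_lit 386) (nat_lit 290))) (XT.nd (nat_lit 78) (nat_lit 152) (nat_lit 0) (XT.lf (nat_lit 0) (nat_lit 26109703360) (nat_lit 152) (nat_lit 2555007318) (nat_lit 0) (nat_lit 7439816995) (nat_lit 50) (nat_lit 5) (nat_lit 52) (nat_lit 4) (nat_lit 50) (nat_lit 4) (nat_lit 525) (nat_lit 386) (nat_lit 289)) (XT.lf (nat_lit 0) (nat_lit 29565321) (nat_lit 152) (nat_lit 18642650931) (nat_lit 76) (nat_lit 18197341199) (nat_lit 48) (nat_lit 5) (nat_lit 50) (nat_lit 5) (nat_lit 49) (nat_lit 4) (nat_lit 526) (nat_lit 386) (nat_lit 288)))) (XT.nd (nat_lit 156) (nat_lit 152) (nat_lit 0) (XT.nd (nat_lit 78) (nat_lit 0) (nat_lit 0) (XT.lf (nat_lit 0) (nat_lit 1903824176) (nat_lit 76) (nat_lit 8262835951) (nat_lit 152) (nat_lit 27487523677) (nat_lit 47) (nat_lit 5) (nat_lit 48) (nat_lit 5) (nat_lit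 49) (nat_lit 4) (nat_lit 527) (nat_lit 386) (nat_lit 287)) (XT.lf (nat_lit 0) (nat_lit 20790161174) (nat_lit 152) (nat_lit 15095389297) (nat_lit 0) (nat_lit 2571329893) (nat_lit 47) (nat_lit 5) (nat_lit 49) (nat_lit 4) (nat_lit 47) (nat_lit 4) (nat_lit 528) (nat_lit 386) (nat_lit 286))) (XT.nd (nat_lit 78) (nat_lit 76) (nat_lit 0) (XT.lf (nat_lit 0) (nat_lit 6157340772) (nat_lit 76) (nat_lit 25685480725) (nat_lit 76) (nat_lit 7437522911) (nat_lit 46) (nat_lit 4) (nat_lit 47) (nat_lit 5) (nat_lit 47) (nat_lit 4) (nat_lit 529) (nat_lit 386) (nat_lit 285)) (XT.lf (nat_lit 0) (nat_lit 3161501184) (nat_lit 152) (nat_lit 11858388596) (nat_lit 76) (nat_lit 25104026769) (nat_lit 45) (nat_lit 5) (nat_lit 47) (nat_lit 5) (nat_lit 46) (nat_lit 4) (nat_lit 530) (nat_lit 386) (nat_lit 284))))))))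
noncomputable def xc66 : XT := (XT.nd (nat_lit 54834) (nat_lit 0) (nat_lit 8512) (XT.nd (nat_lit 1170) (nat_lit 456) (nat_lit 0) (XT.nd (nat_lit 546) (nat_lit 456) (nat_lit 0) (XT.nd (nat_lit 234) (nat_lit 228) (nat_lit 0) (XT.nd (nat_lit 78) (nat_lit 76) (nat_lit 0) (XT.lf (nat_lit 0) (nat_lit 10109301478) (nat_lit 76) (nat_lit 3887246319) (nat_lit 152) (nat_lit 26992012928) (nat_lit 44) (nat_lit 5) (nat_lit 45) (nat_lit 5) (nat_lit 46) (nat_lit 4) (nat_lit 531) (nat_lit 386) (nat_lit 283)) (XT.nd (nat_lit 78) (nat_lit 76) (nat_lit 0) (XT.lf (nat_lit 0) (nat_lit 25320829021) (nat_lit 152) (nat_lit 9029012775) (nat_lit 0) (nat_lit 7524377124) (nat_lit 44) (nat_lit 5) (nat_lit 46) (nat_lit 4) (nat_lit 44) (nat_lit 4) (nat_lit 532) (nat_lit 386) (nat_lit 282)) (XT.lf (nat_lit 0) (nat_lit 13647749548) (nat_lit 76) (nat_lit 23478023088) (nat_lit 76) (nat_lit 5656446389) (nat_lit 43) (nat_lit 4) (nat_lit 44) (nat_lit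 5) (nat_lit 44) (nat_lit 4) (nat_lit 533) (nat_lit 386) (nat_lit 281)))) (XT.nd (nat_lit 156) (nat_lit 76) (nat_lit 0) (XT.nd (nat_lit 78) (nat_lit 76) (nat_lit 0) (XT.lf (nat_lit 0) (nat_lit 5522113726) (nat_lit 152) (nat_lit 6636078847) (nat_lit 76) (nat_lit 31555760765) (nat_lit 42) (nat_lit 5) (nat_lit 44) (nat_lit 5) (nat_lit 43) (nat_lit 4) (nat_lit 534) (nat_lit 386) (nat_lit 280)) (XT.lf (nat_lit 0) (nat_lit 16752990076) (nat_lit 76) (nat_lit 302498753) (nat_lit 152) (nat_lit 27612476472) (nat_lit 41) (nat_lit 5) (nat_lit 42) (nat_lit 5) (nat_lit 43) (nat_lit 4) (nat_lit 535) (nat_lit 386) (nat_lit 279))) (XT.nd (nat_lit 78) (nat_lit 76) (nat_lit 0) (XT.lf (nat_lit 0) (nat_lit 29089149844) (nat_lit 152) (nat_lit 4839169559) (nat_lit 0) (nat_lit 11717649843) (nat_lit 41) (nat_lit 5) (nat_lit 43) (nat_lit 4) (nat_lit 41) (nat_lit 4) (nat_lit 536) (nat_lit 386) (nat_lit 278)) (XT.lf (nat_lit 0) (nat_lit 19247911640)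 (nat_lit 76) (nat_lit 22396872896) (nat_lit 76) (nat_lit 5003700019) (nat_lit 40) (nat_lit 4) (nat_lit 41) (nat_lit 5) (nat_lit 41) (nat_lit 4) (nat_lit 537) (nat_lit 386) (nat_lit 277))))) (XT.nd (nat_lit 312) (nat_lit 228) (nat_lit 0) (XT.nd (nat_lit 156) (nat_lit 76) (nat_lit 0) (XT.nd (nat_lit 78) (nat_lit 76) (nat_lit 0) (XT.lf (nat_lit 0) (nat_lit 6783755483) (nat_lit 152) (nat_lit 3643190870) (nat_lit 76) (nat_lit 37251471201) (nat_lit 39) (nat_lit 5) (nat_lit 41) (nat_lit 5) (nat_lit 40) (nat_lit 4) (nat_lit 538) (nat_lit 386) (nat_lit 276)) (XT.lf (nat_lit 0) (nat_lit 19021739148) (nat_lit 152) (nat_lit 27615198052) (nat_lit 0) (nat_lit 2094901025) (nat_lit 38) (nat_lit 5) (nat_lit 40) (nat_lit 4) (nat_lit 38) (nat_lit 4) (nat_lit 539) (nat_lit 386) (nat_lit 275))) (XT.nd (nat_lit 78) (nat_lit 76) (nat_lit 0) (XT.lf (nat_lit 0) (nat_lit 31741022573) (nat_lit 152) (nat_lit 3277485897) (nat_lit 0) (nat_lit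 14794928380) (nat_lit 38) (nat_lit 5) (nat_lit 40) (nat_lit 4) (nat_lit 38) (nat_lit 4) (nat_lit 540) (nat_lit 386) (nat_lit 274)) (XT.lf (nat_lit 0) (nat_lit 22172464299) (nat_lit 76) (nat_lit 22857089302) (nat_lit 76) (nat_lit 5892299897) (nat_lit 37) (nat_lit 4) (nat_lit 38) (nat_lit 5) (nat_lit 38) (nat_lit 4) (nat_lit 541) (nat_lit 386) (nat_lit 273)))) (XT.nd (nat_lit 156) (nat_lit 76) (nat_lit 0) (XT.nd (nat_lit 78) (nat_lit 76) (nat_lit 0) (XT.lf (nat_lit 0) (nat_lit 6531358157) (nat_lit 152) (nat_lit 3724283036) (nat_lit 76) (nat_lit 41805723882) (nat_lit 36) (nat_lit 5) (nat_lit 38) (nat_lit 5) (nat_lit 37) (nat_lit 4) (nat_lit 542) (nat_lit 386) (nat_lit 272)) (XT.lf (nat_lit 0) (nat_lit 19428377879) (nat_lit 152) (nat_lit 30875383865) (nat_lit 0) (nat_lit 2922977755) (nat_lit 35) (nat_lit 5) (nat_lit 37) (nat_lit 4) (nat_lit 35) (nat_lit 4) (nat_lit 543) (nat_lit 386) (nat_lit 271))) (XT.nd (nat_lit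 78) (nat_lit 76) (nat_lit 0) (XT.lf (nat_lit 0) (nat_lit 32827135879) (nat_lit 152) (nat_lit 5291369267) (nat_lit 0) (nat_lit 16305125300) (nat_lit 35) (nat_lit 5) (nat_lit 37) (nat_lit 4) (nat_lit 35) (nat_lit 4) (nat_lit 544) (nat_lit 386) (nat_lit 270)) (XT.lf (nat_lit 0) (nat_lit 21430669288) (nat_lit 76) (nat_lit 25379217638) (nat_lit 76) (nat_lit 8841080405) (nat_lit 34) (nat_lit 4) (nat_lit 35) (nat_lit 5) (nat_lit 35) (nat_lit 4) (nat_lit 545) (nat_lit 386) (nat_lit 269)))))) (XT.nd (nat_lit 624) (nat_lit 0) (nat_lit 0) (XT.nd (nat_lit 312) (nat_lit 228) (nat_lit 0) (XT.nd (nat_lit 156) (nat_lit 76) (nat_lit 0) (XT.nd (nat_lit 78) (nat_lit 76) (nat_lit 0) (XT.lf (nat_lit 0) (nat_lit 4243142729) (nat_lit 152) (nat_lit 7940214438) (nat_lit 76) (nat_lit 44729628215) (nat_lit 33) (nat_lit 5) (nat_lit 35) (nat_lit 5) (nat_lit 34) (nat_lit 4) (nat_lit 546) (nat_lit 386) (nat_lit 268)) (XT.lf (nat_lit 0) (nat_lit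 17721175621) (nat_lit 152) (nat_lit 38848920384) (nat_lit 0) (nat_lit 1634772613) (nat_lit 32) (nat_lit 5) (nat_lit 34) (nat_lit 4) (nat_lit 32) (nat_lit 4) (nat_lit 547) (nat_lit 386) (nat_lit 267))) (XT.nd (nat_lit 78) (nat_lit 76) (nat_lit 0) (XT.lf (nat_lit 0) (nat_lit 31781901744) (nat_lit 152) (nat_lit 12067085733) (nat_lit 0) (nat_lit 15681170413) (nat_lit 32) (nat_lit 5) (nat_lit 34) (nat_lit 4) (nat_lit 32) (nat_lit 4) (nat_lit 548) (nat_lit 386) (nat_lit 266)) (XT.lf (nat_lit 0) (nat_lit 15781176768) (nat_lit 76) (nat_lit 30612398860) (nat_lit 76) (nat_lit 14497756534) (nat_lit 31) (nat_lit 4) (nat_lit 32) (nat_lit 5) (nat_lit 32) (nat_lit 4) (nat_lit 549) (nat_lit 386) (nat_lit 265)))) (XT.nd (nat_lit 156) (nat_lit 76) (nat_lit 0) (XT.nd (nat_lit 78) (nat_lit 152) (nat_lit 0) (XT.lf (nat_lit 0) (nat_lit 44667716711) (nat_lit 76) (nat_lit 16875393934) (nat_lit 76) (nat_lit 747245789) (nat_lit 31) (nat_lit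 4) (nat_lit 32) (nat_lit 5) (nat_lit 32) (nat_lit 4) (nat_lit 550) (nat_lit 386) (nat_lit 264)) (XT.lf (nat_lit 0) (nat_lit 10726174177) (nat_lit 76) (nat_lit 2509015363) (nat_lit 152) (nat_lit 50489857184) (nat_lit 29) (nat_lit 5) (nat_lit 30) (nat_lit 5) (nat_lit 31) (nat_lit 4) (nat_lit 551) (nat_lit 386) (nat_lit 263))) (XT.nd (nat_lit 78) (nat_lit 76) (nat_lit 0) (XT.lf (nat_lit 0) (nat_lit 27898026279) (nat_lit 152) (nat_lit 25081711409) (nat_lit 0) (nat_lit 12214539754) (nat_lit 29) (nat_lit 5) (nat_lit 31) (nat_lit 4) (nat_lit 29) (nat_lit 4) (nat_lit 552) (nat_lit 386) (nat_lit 262)) (XT.lf (nat_lit 0) (nat_lit 3677467874) (nat_lit 76) (nat_lit 39362217721) (nat_lit 76) (nat_lit 23666731450) (nat_lit 28) (nat_lit 4) (nat_lit 29) (nat_lit 5) (nat_lit 29) (nat_lit 4) (nat_lit 553) (nat_lit 386) (nat_lit 261))))) (XT.nd (nat_lit 52728) (nat_lit 0) (nat_lit 17860) (XT.nd (nat_lit 52572) (nat_lit 0) (nat_lit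 20368) (XT.nd (nat_lit 52494) (nat_lit 0) (nat_lit 21280) (XT.lf (nat_lit 0) (nat_lit 33771573273) (nat_lit 76) (nat_lit 25096258523) (nat_lit 76) (nat_lit 9389122013) (nat_lit 28) (nat_lit 4) (nat_lit 29) (nat_lit 5) (nat_lit 29) (nat_lit 4) (nat_lit 554) (nat_lit 386) (nat_lit 260)) (XT.lf (nat_lit 0) (nat_lit 779765041) (nat_lit 1292) (nat_lit 2021068693) (nat_lit 0) (nat_lit 779765041) (nat_lit 308) (nat_lit 5) (nat_lit 325) (nat_lit 4) (nat_lit 308) (nat_lit 4) (nat_lit 426) (nat_lit 387) (nat_lit 387))) (XT.nd (nat_lit 78) (nat_lit 76) (nat_lit 0) (XT.lf (nat_lit 0) (nat_lit 1363789306) (nat_lit 836) (nat_lit 3762716225) (nat_lit 836) (nat_lit 2091669608) (nat_lit 297) (nat_lit 4) (nat_lit 308) (nat_lit 5) (nat_lit 308) (nat_lit 4) (nat_lit 427) (nat_lit 387) (nat_lit 386)) (XT.lf (nat_lit 0) (nat_lit 1432032357) (nat_lit 912) (nat_lit 386396286) (nat_lit 76) (nat_lit 5459861539) (nat_lit 296) (nat_lit 5)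 (nat_lit 308) (nat_lit 5) (nat_lit 297) (nat_lit 4) (nat_lit 428) (nat_lit 387) (nat_lit 385)))) (XT.nd (nat_lit 156) (nat_lit 1216) (nat_lit 0) (XT.nd (nat_lit 78) (nat_lit 684) (nat_lit 0) (XT.lf (nat_lit 0) (nat_lit 4971898064) (nat_lit 684) (nat_lit 2123969148) (nat_lit 0) (nat_lit 245156628) (nat_lit 288) (nat_lit 5) (nat_lit 297) (nat_lit 4) (nat_lit 288) (nat_lit 4) (nat_lit 429) (nat_lit 387) (nat_lit 384)) (XT.lf (nat_lit 0) (nat_lit 1145871490) (nat_lit 684) (nat_lit 3885325585) (nat_lit 76) (nat_lit 2375387182) (nat_lit 279) (nat_lit 5) (nat_lit 288) (nat_lit 5) (nat_lit 280) (nat_lit 4) (nat_lit 430) (nat_lit 387) (nat_lit 383))) (XT.nd (nat_lit 78) (nat_lit 684) (nat_lit 0) (XT.lf (nat_lit 0) (nat_lit 1807564945) (nat_lit 532) (nat_lit 2852764683) (nat_lit 608) (nat_lit 2814839605) (nat_lit 272) (nat_lit 5) (nat_lit 279) (nat_lit 5) (nat_lit 280) (nat_lit 4) (nat_lit 431) (nat_lit 387) (nat_lit 382))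 (XT.lf (nat_lit 0) (nat_lit 89749701) (nat_lit 608) (nat_lit 574240811) (nat_lit 684) (nat_lit 6883301807) (nat_lit 263) (nat_lit 5) (nat_lit 271) (nat_lit 5) (nat_lit 272) (nat_lit 5) (nat_lit 432) (nat_lit 387) (nat_lit 381))))))) (XT.nd (nat_lit 1170) (nat_lit 4104) (nat_lit 0) (XT.nd (nat_lit 546) (nat_lit 2584) (nat_lit 0) (XT.nd (nat_lit 234) (nat_lit 1520) (nat_lit 0) (XT.nd (nat_lit 78) (nat_lit 1140) (nat_lit 0) (XT.lf (nat_lit 0) (nat_lit 4170489315) (nat_lit 684) (nat_lit 1641764219) (nat_lit 76) (nat_lit 1809102509) (nat_lit 263) (nat_lit 5) (nat_lit 272) (nat_lit 5) (nat_lit 264) (nat_lit 4) (nat_lit 433) (nat_lit 387) (nat_lit 380)) (XT.nd (nat_lit 78) (nat_lit 532) (nat_lit 0) (XT.lf (nat_lit 0) (nat_lit 37436090) (nat_lit 608) (nat_lit 3381464039) (nat_lit 76) (nat_lit 4280089713) (nat_lit 255) (nat_lit 5) (nat_lit 263) (nat_lit 5) (nat_lit 256) (nat_lit 5) (nat_lit 434) (nat_lit 387) (nat_lit 379))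 (XT.lf (nat_lit 0) (nat_lit 2617627451) (nat_lit 532) (nat_lit 893854587) (nat_lit 608) (nat_lit 4267940633) (nat_lit 248) (nat_lit 5) (nat_lit 255) (nat_lit 5) (nat_lit 256) (nat_lit 5) (nat_lit 435) (nat_lit 387) (nat_lit 378)))) (XT.nd (nat_lit 156) (nat_lit 988) (nat_lit 0) (XT.nd (nat_lit 78) (nat_lit 76) (nat_lit 0) (XT.lf (nat_lit 0) (nat_lit 894107613) (nat_lit 456) (nat_lit 6165111722) (nat_lit 532) (nat_lit 803973418) (nat_lit 242) (nat_lit 5) (nat_lit 248) (nat_lit 5) (nat_lit 249) (nat_lit 4) (nat_lit 436) (nat_lit 387) (nat_lit 377)) (XT.lf (nat_lit 0) (nat_lit 2682130058) (nat_lit 532) (nat_lit 858399329) (nat_lit 76) (nat_lit 4408992847) (nat_lit 241) (nat_lit 5) (nat_lit 248) (nat_lit 5) (nat_lit 242) (nat_lit 5) (nat_lit 437) (nat_lit 387) (nat_lit 376))) (XT.nd (nat_lit 78) (nat_lit 532) (nat_lit 0) (XT.lf (nat_lit 0) (nat_lit 5424714444) (nat_lit 456) (nat_lit 797351910) (nat_lit 532) (nat_lit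 1817181836) (nat_lit 235) (nat_lit 5) (nat_lit 241) (nat_lit 5) (nat_lit 242) (nat_lit 5) (nat_lit 438) (nat_lit 387) (nat_lit 375)) (XT.lf (nat_lit 0) (nat_lit 1681029355) (nat_lit 532) (nat_lit 4423236637) (nat_lit 76) (nat_lit 2027554951) (nat_lit 228) (nat_lit 5) (nat_lit 235) (nat_lit 5) (nat_lit 229) (nat_lit 5) (nat_lit 439) (nat_lit 387) (nat_lit 374))))) (XT.nd (nat_lit 312) (nat_lit 1216) (nat_lit 0) (XT.nd (nat_lit 156) (nat_lit 456) (nat_lit 0) (XT.nd (nat_lit 78) (nat_lit 456) (nat_lit 0) (XT.lf (nat_lit 0) (nat_lit 1949825526) (nat_lit 456) (nat_lit 3266278784) (nat_lit 532) (nat_lit 3011480590) (nat_lit 222) (nat_lit 5) (nat_lit 228) (nat_lit 5) (nat_lit 229) (nat_lit 5) (nat_lit 440) (nat_lit 387) (nat_lit 373)) (XT.lf (nat_lit 0) (nat_lit 166282081) (nat_lit 380) (nat_lit 316798083) (nat_lit 456) (nat_lit 7844122112) (nat_lit 216) (nat_lit 5) (nat_lit 221) (nat_lit 5) (nat_lit 222) (nat_lit 5)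 (nat_lit 441) (nat_lit 387) (nat_lit 372))) (XT.nd (nat_lit 78) (nat_lit 456) (nat_lit 0) (XT.lf (nat_lit 0) (nat_lit 4028986638) (nat_lit 456) (nat_lit 1664600500) (nat_lit 76) (nat_lit 2735121849) (nat_lit 216) (nat_lit 5) (nat_lit 222) (nat_lit 5) (nat_lit 217) (nat_lit 5) (nat_lit 442) (nat_lit 387) (nat_lit 371)) (XT.lf (nat_lit 0) (nat_lit 5012126328) (nat_lit 456) (nat_lit 2639740251) (nat_lit 532) (nat_lit 882282658) (nat_lit 210) (nat_lit 5) (nat_lit 216) (nat_lit 5) (nat_lit 217) (nat_lit 5) (nat_lit 443) (nat_lit 387) (nat_lit 370)))) (XT.nd (nat_lit 156) (nat_lit 380) (nat_lit 0) (XT.nd (nat_lit 78) (nat_lit 380) (nat_lit 0) (XT.lf (nat_lit 0) (nat_lit 2660119144) (nat_lit 456) (nat_lit 5440828371) (nat_lit 76) (nat_lit 541833110) (nat_lit 204) (nat_lit 5) (nat_lit 210) (nat_lit 5) (nat_lit 205) (nat_lit 5) (nat_lit 444) (nat_lit 387) (nat_lit 369)) (XT.lf (nat_lit 0) (nat_lit 1326201503) (nat_lit 380)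 (nat_lit 4960466915) (nat_lit 456) (nat_lit 2467877915) (nat_lit 199) (nat_lit 5) (nat_lit 204) (nat_lit 5) (nat_lit 205) (nat_lit 5) (nat_lit 445) (nat_lit 387) (nat_lit 368))) (XT.nd (nat_lit 78) (nat_lit 304) (nat_lit 0) (XT.lf (nat_lit 0) (nat_lit 1106630678) (nat_lit 456) (nat_lit 583045187) (nat_lit 76) (nat_lit 7180359166) (nat_lit 198) (nat_lit 5) (nat_lit 204) (nat_lit 5) (nat_lit 199) (nat_lit 5) (nat_lit 446) (nat_lit 387) (nat_lit 367)) (XT.lf (nat_lit 0) (nat_lit 4741153640) (nat_lit 380) (nat_lit 2544066156) (nat_lit 76) (nat_lit 1702969345) (nat_lit 194) (nat_lit 5) (nat_lit 199) (nat_lit 5) (nat_lit 195) (nat_lit 5) (nat_lit 447) (nat_lit 387) (nat_lit 366)))))) (XT.nd (nat_lit 624) (nat_lit 1976) (nat_lit 0) (XT.nd (nat_lit 312) (nat_lit 988) (nat_lit 0) (XT.nd (nat_lit 156) (nat_lit 380) (nat_lit 0) (XT.nd (nat_lit 78) (nat_lit 380) (nat_lit 0) (XT.lf (nat_lit 0) (nat_lit 4547453999) (nat_lit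 380) (nat_lit 3928115855) (nat_lit 456) (nat_lit 634597352) (nat_lit 189) (nat_lit 5) (nat_lit 194) (nat_lit 5) (nat_lit 195) (nat_lit 5) (nat_lit 448) (nat_lit 387) (nat_lit 365)) (XT.lf (nat_lit 0) (nat_lit 2579985844) (nat_lit 304) (nat_lit 421641869) (nat_lit 380) (nat_lit 6234022568) (nat_lit 184) (nat_lit 5) (nat_lit 188) (nat_lit 5) (nat_lit 189) (nat_lit 5) (nat_lit 449) (nat_lit 387) (nat_lit 364))) (XT.nd (nat_lit 78) (nat_lit 76) (nat_lit 0) (XT.lf (nat_lit 0) (nat_lit 529818552) (nat_lit 304) (nat_lit 6212364677) (nat_lit 380) (nat_lit 2622290802) (nat_lit 180) (nat_lit 5) (nat_lit 184) (nat_lit 5) (nat_lit 185) (nat_lit 5) (nat_lit 450) (nat_lit 387) (nat_lit 363)) (XT.lf (nat_lit 0) (nat_lit 1074517624) (nat_lit 380) (nat_lit 1553731849) (nat_lit 76) (nat_lit 6868656409) (nat_lit 179) (nat_lit 5) (nat_lit 184) (nat_lit 5) (nat_lit 180) (nat_lit 5) (nat_lit 451) (nat_lit 387) (nat_lit 362)))) (XT.nd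 (nat_lit 156) (nat_lit 380) (nat_lit 0) (XT.nd (nat_lit 78) (nat_lit 304) (nat_lit 0) (XT.lf (nat_lit 0) (nat_lit 4825460541) (nat_lit 380) (nat_lit 3715621973) (nat_lit 76) (nat_lit 1091575445) (nat_lit 175) (nat_lit 5) (nat_lit 180) (nat_lit 5) (nat_lit 176) (nat_lit 5) (nat_lit 452) (nat_lit 387) (nat_lit 361)) (XT.lf (nat_lit 0) (nat_lit 3811966078) (nat_lit 304) (nat_lit 4884452786) (nat_lit 380) (nat_lit 1075843235) (nat_lit 171) (nat_lit 5) (nat_lit 175) (nat_lit 5) (nat_lit 176) (nat_lit 5) (nat_lit 453) (nat_lit 387) (nat_lit 360))) (XT.nd (nat_lit 78) (nat_lit 0) (nat_lit 0) (XT.lf (nat_lit 0) (nat_lit 1622957372) (nat_lit 304) (nat_lit 1073304784) (nat_lit 380) (nat_lit 7219513608) (nat_lit 166) (nat_lit 5) (nat_lit 170) (nat_lit 5) (nat_lit 171) (nat_lit 5) (nat_lit 454) (nat_lit 387) (nat_lit 359)) (XT.lf (nat_lit 0) (nat_lit 6578093481) (nat_lit 380) (nat_lit 653592545) (nat_lit 76) (nat_lit 2831047439)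 (nat_lit 166) (nat_lit 5) (nat_lit 171) (nat_lit 5) (nat_lit 167) (nat_lit 5) (nat_lit 455) (nat_lit 387) (nat_lit 358))))) (XT.nd (nat_lit 312) (nat_lit 760) (nat_lit 0) (XT.nd (nat_lit 156) (nat_lit 608) (nat_lit 0) (XT.nd (nat_lit 78) (nat_lit 228) (nat_lit 0) (XT.lf (nat_lit 0) (nat_lit 367571669) (nat_lit 380) (nat_lit 2977737536) (nat_lit 76) (nat_lit 6868318930) (nat_lit 161) (nat_lit 5) (nat_lit 166) (nat_lit 5) (nat_lit 162) (nat_lit 5) (nat_lit 456) (nat_lit 387) (nat_lit 357)) (XT.lf (nat_lit 0) (nat_lit 4258844293) (nat_lit 304) (nat_lit 5412534534) (nat_lit 76) (nat_lit 696833251) (nat_lit 158) (nat_lit 5) (nat_lit 162) (nat_lit 5) (nat_lit 159) (nat_lit 5) (nat_lit 457) (nat_lit 387) (nat_lit 356))) (XT.nd (nat_lit 78) (nat_lit 304) (nat_lit 0) (XT.lf (nat_lit 0) (nat_lit 2571607429) (nat_lit 304) (nat_lit 5716378347) (nat_lit 380) (nat_lit 2238817188) (nat_lit 154) (nat_lit 5) (nat_lit 158) (nat_lit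 5) (nat_lit 159) (nat_lit 5) (nat_lit 458) (nat_lit 387) (nat_lit 355)) (XT.lf (nat_lit 0) (nat_lit 95183682) (nat_lit 228) (nat_lit 1607872931) (nat_lit 304) (nat_lit 8986914671) (nat_lit 150) (nat_lit 5) (nat_lit 153) (nat_lit 5) (nat_lit 154) (nat_lit 5) (nat_lit 459) (nat_lit 387) (nat_lit 354)))) (XT.nd (nat_lit 156) (nat_lit 532) (nat_lit 0) (XT.nd (nat_lit 78) (nat_lit 228) (nat_lit 0) (XT.lf (nat_lit 0) (nat_lit 5758280725) (nat_lit 304) (nat_lit 2461249616) (nat_lit 76) (nat_lit 2636639617) (nat_lit 150) (nat_lit 5) (nat_lit 154) (nat_lit 5) (nat_lit 151) (nat_lit 5) (nat_lit 460) (nat_lit 387) (nat_lit 353)) (XT.lf (nat_lit 0) (nat_lit 5911270179) (nat_lit 228) (nat_lit 4032305939) (nat_lit 304) (nat_lit 1083529009) (nat_lit 147) (nat_lit 5) (nat_lit 150) (nat_lit 5) (nat_lit 151) (nat_lit 5) (nat_lit 461) (nat_lit 387) (nat_lit 352))) (XT.nd (nat_lit 78) (nat_lit 228) (nat_lit 0) (XT.lf (nat_lit 0) (nat_lit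 2987751894) (nat_lit 304) (nat_lit 7892299447) (nat_lit 76) (nat_lit 322358967) (nat_lit 143) (nat_lit 5) (nat_lit 147) (nat_lit 5) (nat_lit 144) (nat_lit 5) (nat_lit 462) (nat_lit 387) (nat_lit 351)) (XT.lf (nat_lit 0) (nat_lit 566988053) (nat_lit 228) (nat_lit 6626352066) (nat_lit 304) (nat_lit 4188297001) (nat_lit 140) (nat_lit 5) (nat_lit 143) (nat_lit 5) (nat_lit 144) (nat_lit 5) (nat_lit 463) (nat_lit 387) (nat_lit 350))))))))
noncomputable def xc67 : XT := (XT.nd (nat_lit 2418) (nat_lit 2508) (nat_lit 0) (XT.nd (nat_lit 1170) (nat_lit 1976) (nat_lit 0) (XT.nd (nat_lit 546) (nat_lit 1216) (nat_lit 0) (XT.nd (nat_lit 234) (nat_lit 684) (nat_lit 0) (XT.nd (nat_lit 78) (nat_lit 532) (nat_lit 0) (XT.lf (nat_lit 0) (nat_lit 9337677468) (nat_lit 228) (nat_lit 2204367713) (nat_lit 304) (nat_lit 23689723) (nat_lit 140) (nat_lit 5) (nat_lit 143) (nat_lit 5) (nat_lit 144) (nat_lit 5) (nat_lit 464) (nat_lit 387) (nat_lit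 349)) (XT.nd (nat_lit 78) (nat_lit 228) (nat_lit 0) (XT.lf (nat_lit 0) (nat_lit 4207780588) (nat_lit 304) (nat_lit 5175711561) (nat_lit 76) (nat_lit 2369880772) (nat_lit 136) (nat_lit 5) (nat_lit 140) (nat_lit 5) (nat_lit 137) (nat_lit 5) (nat_lit 465) (nat_lit 387) (nat_lit 348)) (XT.lf (nat_lit 0) (nat_lit 3694281855) (nat_lit 228) (nat_lit 4890397343) (nat_lit 304) (nat_lit 3361387450) (nat_lit 133) (nat_lit 5) (nat_lit 136) (nat_lit 5) (nat_lit 137) (nat_lit 5) (nat_lit 466) (nat_lit 387) (nat_lit 347)))) (XT.nd (nat_lit 156) (nat_lit 456) (nat_lit 0) (XT.nd (nat_lit 78) (nat_lit 0) (nat_lit 0) (XT.lf (nat_lit 0) (nat_lit 694425735) (nat_lit 152) (nat_lit 233972865) (nat_lit 228) (nat_lit 11215914566) (nat_lit 130) (nat_lit 5) (nat_lit 132) (nat_lit 5) (nat_lit 133) (nat_lit 5) (nat_lit 467) (nat_lit 387) (nat_lit 346)) (XT.lf (nat_lit 0) (nat_lit 5346817863) (nat_lit 228) (nat_lit 2449174768) (nat_lit 76)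 (nat_lit 4549493221) (nat_lit 130) (nat_lit 5) (nat_lit 133) (nat_lit 5) (nat_lit 131) (nat_lit 5) (nat_lit 468) (nat_lit 387) (nat_lit 345))) (XT.nd (nat_lit 78) (nat_lit 228) (nat_lit 0) (XT.lf (nat_lit 0) (nat_lit 6852589206) (nat_lit 228) (nat_lit 3054644849) (nat_lit 304) (nat_lit 2645178483) (nat_lit 127) (nat_lit 5) (nat_lit 130) (nat_lit 5) (nat_lit 131) (nat_lit 5) (nat_lit 469) (nat_lit 387) (nat_lit 344)) (XT.lf (nat_lit 0) (nat_lit 1822690904) (nat_lit 228) (nat_lit 9110933561) (nat_lit 76) (nat_lit 1830804508) (nat_lit 124) (nat_lit 5) (nat_lit 127) (nat_lit 5) (nat_lit 125) (nat_lit 5) (nat_lit 470) (nat_lit 387) (nat_lit 343))))) (XT.nd (nat_lit 312) (nat_lit 532) (nat_lit 0) (XT.nd (nat_lit 156) (nat_lit 456) (nat_lit 0) (XT.nd (nat_lit 78) (nat_lit 0) (nat_lit 0) (XT.lf (nat_lit 0) (nat_lit 270545933) (nat_lit 228) (nat_lit 6133639720) (nat_lit 304) (nat_lit 6576853874) (nat_lit 121) (nat_lit 5)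 (nat_lit 124) (nat_lit 5) (nat_lit 125) (nat_lit 5) (nat_lit 471) (nat_lit 387) (nat_lit 342)) (XT.lf (nat_lit 0) (nat_lit 10020319338) (nat_lit 228) (nat_lit 1137326833) (nat_lit 304) (nat_lit 2045468509) (nat_lit 121) (nat_lit 5) (nat_lit 124) (nat_lit 5) (nat_lit 125) (nat_lit 5) (nat_lit 472) (nat_lit 387) (nat_lit 341))) (XT.nd (nat_lit 78) (nat_lit 228) (nat_lit 0) (XT.lf (nat_lit 0) (nat_lit 2617148261) (nat_lit 228) (nat_lit 6832978194) (nat_lit 76) (nat_lit 3979577791) (nat_lit 118) (nat_lit 5) (nat_lit 121) (nat_lit 5) (nat_lit 119) (nat_lit 5) (nat_lit 473) (nat_lit 387) (nat_lit 340)) (XT.lf (nat_lit 0) (nat_lit 3001040743) (nat_lit 228) (nat_lit 4394004359) (nat_lit 304) (nat_lit 6266945174) (nat_lit 115) (nat_lit 5) (nat_lit 118) (nat_lit 5) (nat_lit 119) (nat_lit 5) (nat_lit 474) (nat_lit 387) (nat_lit 339)))) (XT.nd (nat_lit 156) (nat_lit 304) (nat_lit 0) (XT.nd (nat_lit 78) (nat_lit 228) (nat_lit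 0) (XT.lf (nat_lit 0) (nat_lit 12338021989) (nat_lit 304) (nat_lit 736263000) (nat_lit 76) (nat_lit 826309299) (nat_lit 115) (nat_lit 5) (nat_lit 119) (nat_lit 5) (nat_lit 116) (nat_lit 4) (nat_lit 475) (nat_lit 387) (nat_lit 338)) (XT.lf (nat_lit 0) (nat_lit 3300672325) (nat_lit 228) (nat_lit 4643464799) (nat_lit 76) (nat_lit 6198820098) (nat_lit 112) (nat_lit 5) (nat_lit 115) (nat_lit 5) (nat_lit 113) (nat_lit 5) (nat_lit 476) (nat_lit 387) (nat_lit 337))) (XT.nd (nat_lit 78) (nat_lit 152) (nat_lit 0) (XT.lf (nat_lit 0) (nat_lit 5664033562) (nat_lit 152) (nat_lit 2622324276) (nat_lit 228) (nat_lit 6105532136) (nat_lit 110) (nat_lit 5) (nat_lit 112) (nat_lit 5) (nat_lit 113) (nat_lit 5) (nat_lit 477) (nat_lit 387) (nat_lit 336)) (XT.lf (nat_lit 0) (nat_lit 1636798529) (nat_lit 152) (nat_lit 11821640756) (nat_lit 228) (nat_lit 1188748167) (nat_lit 108) (nat_lit 5) (nat_lit 110) (nat_lit 5) (nat_lit 111) (nat_lit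 4) (nat_lit 478) (nat_lit 387) (nat_lit 335)))))) (XT.nd (nat_lit 624) (nat_lit 988) (nat_lit 0) (XT.nd (nat_lit 312) (nat_lit 532) (nat_lit 0) (XT.nd (nat_lit 156) (nat_lit 228) (nat_lit 0) (XT.nd (nat_lit 78) (nat_lit 152) (nat_lit 0) (XT.lf (nat_lit 0) (nat_lit 3861259649) (nat_lit 228) (nat_lit 2576662042) (nat_lit 76) (nat_lit 8469265582) (nat_lit 107) (nat_lit 5) (nat_lit 110) (nat_lit 5) (nat_lit 108) (nat_lit 5) (nat_lit 479) (nat_lit 387) (nat_lit 334)) (XT.lf (nat_lit 0) (nat_lit 8225240488) (nat_lit 152) (nat_lit 840638069) (nat_lit 228) (nat_lit 6107946710) (nat_lit 105) (nat_lit 5) (nat_lit 107) (nat_lit 5) (nat_lit 108) (nat_lit 5) (nat_lit 480) (nat_lit 387) (nat_lit 333))) (XT.nd (nat_lit 78) (nat_lit 76) (nat_lit 0) (XT.lf (nat_lit 0) (nat_lit 3890865243) (nat_lit 152) (nat_lit 10594953965) (nat_lit 228) (nat_lit 960869035) (nat_lit 103) (nat_lit 5) (nat_lit 105) (nat_lit 5) (nat_lit 106) (nat_lit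 4) (nat_lit 481) (nat_lit 387) (nat_lit 332)) (XT.lf (nat_lit 0) (nat_lit 4283380297) (nat_lit 228) (nat_lit 672349121) (nat_lit 76) (nat_lit 10769933399) (nat_lit 102) (nat_lit 5) (nat_lit 105) (nat_lit 5) (nat_lit 103) (nat_lit 5) (nat_lit 482) (nat_lit 387) (nat_lit 331)))) (XT.nd (nat_lit 156) (nat_lit 228) (nat_lit 0) (XT.nd (nat_lit 78) (nat_lit 152) (nat_lit 0) (XT.lf (nat_lit 0) (nat_lit 9726659551) (nat_lit 228) (nat_lit 5375415386) (nat_lit 76) (nat_lit 908817058) (nat_lit 100) (nat_lit 5) (nat_lit 103) (nat_lit 5) (nat_lit 101) (nat_lit 4) (nat_lit 483) (nat_lit 387) (nat_lit 330)) (XT.lf (nat_lit 0) (nat_lit 5967782099) (nat_lit 152) (nat_lit 9428730328) (nat_lit 228) (nat_lit 906268556) (nat_lit 98) (nat_lit 5) (nat_lit 100) (nat_lit 5) (nat_lit 101) (nat_lit 4) (nat_lit 484) (nat_lit 387) (nat_lit 329))) (XT.nd (nat_lit 78) (nat_lit 0) (nat_lit 0) (XT.lf (nat_lit 0) (nat_lit 1043476138) (nat_lit 152)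 (nat_lit 3514082461) (nat_lit 228) (nat_lit 12044085148) (nat_lit 95) (nat_lit 5) (nat_lit 97) (nat_lit 5) (nat_lit 98) (nat_lit 5) (nat_lit 485) (nat_lit 387) (nat_lit 328)) (XT.lf (nat_lit 0) (nat_lit 10247532411) (nat_lit 228) (nat_lit 4057634982) (nat_lit 76) (nat_lit 2601623493) (nat_lit 95) (nat_lit 5) (nat_lit 98) (nat_lit 5) (nat_lit 96) (nat_lit 4) (nat_lit 486) (nat_lit 387) (nat_lit 327))))) (XT.nd (nat_lit 312) (nat_lit 532) (nat_lit 0) (XT.nd (nat_lit 156) (nat_lit 76) (nat_lit 0) (XT.nd (nat_lit 78) (nat_lit 228) (nat_lit 0) (XT.lf (nat_lit 0) (nat_lit 7816653120) (nat_lit 152) (nat_lit 8353201196) (nat_lit 228) (nat_lit 1049389713) (nat_lit 93) (nat_lit 5) (nat_lit 95) (nat_lit 5) (nat_lit 96) (nat_lit 4) (nat_lit 487) (nat_lit 387) (nat_lit 326)) (XT.lf (nat_lit 0) (nat_lit 2504428379) (nat_lit 152) (nat_lit 2149328417) (nat_lit 228) (nat_lit 12885433576) (nat_lit 90) (nat_lit 5) (nat_lit 92) (nat_lit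 5) (nat_lit 93) (nat_lit 5) (nat_lit 488) (nat_lit 387) (nat_lit 325))) (XT.nd (nat_lit 78) (nat_lit 76) (nat_lit 0) (XT.lf (nat_lit 0) (nat_lit 10595526654) (nat_lit 228) (nat_lit 3045831564) (nat_lit 76) (nat_lit 4224407537) (nat_lit 90) (nat_lit 5) (nat_lit 93) (nat_lit 5) (nat_lit 91) (nat_lit 4) (nat_lit 489) (nat_lit 387) (nat_lit 324)) (XT.lf (nat_lit 0) (nat_lit 9377827971) (nat_lit 76) (nat_lit 7402515507) (nat_lit 152) (nat_lit 1419852042) (nat_lit 89) (nat_lit 5) (nat_lit 90) (nat_lit 5) (nat_lit 91) (nat_lit 4) (nat_lit 490) (nat_lit 387) (nat_lit 323)))) (XT.nd (nat_lit 156) (nat_lit 304) (nat_lit 0) (XT.nd (nat_lit 78) (nat_lit 0) (nat_lit 0) (XT.lf (nat_lit 0) (nat_lit 3632468846) (nat_lit 152) (nat_lit 903120258) (nat_lit 228) (nat_lit 14007158984) (nat_lit 86) (nat_lit 5) (nat_lit 88) (nat_lit 5) (nat_lit 89) (nat_lit 5) (nat_lit 491) (nat_lit 387) (nat_lit 322)) (XT.lf (nat_lit 0) (nat_lit 10740387059)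 (nat_lit 228) (nat_lit 2408593087) (nat_lit 76) (nat_lit 5743199271) (nat_lit 86) (nat_lit 5) (nat_lit 89) (nat_lit 5) (nat_lit 87) (nat_lit 4) (nat_lit 492) (nat_lit 387) (nat_lit 321))) (XT.nd (nat_lit 78) (nat_lit 228) (nat_lit 0) (XT.lf (nat_lit 0) (nat_lit 10581332630) (nat_lit 76) (nat_lit 6615595467) (nat_lit 152) (nat_lit 2053198450) (nat_lit 85) (nat_lit 5) (nat_lit 86) (nat_lit 5) (nat_lit 87) (nat_lit 4) (nat_lit 493) (nat_lit 387) (nat_lit 320)) (XT.lf (nat_lit 0) (nat_lit 4169023879) (nat_lit 228) (nat_lit 15266862617) (nat_lit 76) (nat_lit 181011586) (nat_lit 82) (nat_lit 5) (nat_lit 85) (nat_lit 5) (nat_lit 83) (nat_lit 4) (nat_lit 494) (nat_lit 387) (nat_lit 319))))))) (XT.nd (nat_lit 1248) (nat_lit 1064) (nat_lit 0) (XT.nd (nat_lit 624) (nat_lit 760) (nat_lit 0) (XT.nd (nat_lit 312) (nat_lit 380) (nat_lit 0) (XT.nd (nat_lit 156) (nat_lit 228) (nat_lit 0) (XT.nd (nat_lit 78) (nat_lit 76) (nat_lit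 0) (XT.lf (nat_lit 0) (nat_lit 10645692739) (nat_lit 228) (nat_lit 2226161503) (nat_lit 76) (nat_lit 7118938009) (nat_lit 82) (nat_lit 5) (nat_lit 85) (nat_lit 5) (nat_lit 83) (nat_lit 4) (nat_lit 495) (nat_lit 387) (nat_lit 318)) (XT.lf (nat_lit 0) (nat_lit 11345056146) (nat_lit 76) (nat_lit 6037109333) (nat_lit 152) (nat_lit 2991773393) (nat_lit 81) (nat_lit 5) (nat_lit 82) (nat_lit 5) (nat_lit 83) (nat_lit 4) (nat_lit 496) (nat_lit 387) (nat_lit 317))) (XT.nd (nat_lit 78) (nat_lit 0) (nat_lit 0) (XT.lf (nat_lit 0) (nat_lit 3516279731) (nat_lit 228) (nat_lit 16203251027) (nat_lit 76) (nat_lit 1047022193) (nat_lit 78) (nat_lit 5) (nat_lit 81) (nat_lit 5) (nat_lit 79) (nat_lit 4) (nat_lit 497) (nat_lit 387) (nat_lit 316)) (XT.lf (nat_lit 0) (nat_lit 10267917427) (nat_lit 228) (nat_lit 2592438352) (nat_lit 76) (nat_lit 8306447465) (nat_lit 78) (nat_lit 5) (nat_lit 81) (nat_lit 5) (nat_lit 79) (nat_lit 4) (nat_lit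 498) (nat_lit 387) (nat_lit 315)))) (XT.nd (nat_lit 156) (nat_lit 76) (nat_lit 0) (XT.nd (nat_lit 78) (nat_lit 228) (nat_lit 0) (XT.lf (nat_lit 0) (nat_lit 11572653055) (nat_lit 76) (nat_lit 5718582560) (nat_lit 152) (nat_lit 4285752150) (nat_lit 77) (nat_lit 5) (nat_lit 78) (nat_lit 5) (nat_lit 79) (nat_lit 4) (nat_lit 499) (nat_lit 387) (nat_lit 314)) (XT.lf (nat_lit 0) (nat_lit 2517465517) (nat_lit 228) (nat_lit 17819751818) (nat_lit 76) (nat_lit 1660303418) (nat_lit 74) (nat_lit 5) (nat_lit 77) (nat_lit 5) (nat_lit 75) (nat_lit 4) (nat_lit 500) (nat_lit 387) (nat_lit 313))) (XT.nd (nat_lit 78) (nat_lit 76) (nat_lit 0) (XT.lf (nat_lit 0) (nat_lit 9555329027) (nat_lit 228) (nat_lit 3617305690) (nat_lit 76) (nat_lit 9253261961) (nat_lit 74) (nat_lit 5) (nat_lit 77) (nat_lit 5) (nat_lit 75) (nat_lit 4) (nat_lit 501) (nat_lit 387) (nat_lit 312)) (XT.lf (nat_lit 0) (nat_lit 11151114789) (nat_lit 76) (nat_lit 5719671644)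 (nat_lit 152) (nat_lit 5994344292) (nat_lit 73) (nat_lit 5) (nat_lit 74) (nat_lit 5) (nat_lit 75) (nat_lit 4) (nat_lit 502) (nat_lit 387) (nat_lit 311))))) (XT.nd (nat_lit 312) (nat_lit 304) (nat_lit 0) (XT.nd (nat_lit 156) (nat_lit 228) (nat_lit 0) (XT.nd (nat_lit 78) (nat_lit 0) (nat_lit 0) (XT.lf (nat_lit 0) (nat_lit 1112075541) (nat_lit 228) (nat_lit 20243605679) (nat_lit 76) (nat_lit 1960193008) (nat_lit 70) (nat_lit 5) (nat_lit 73) (nat_lit 5) (nat_lit 71) (nat_lit 4) (nat_lit 503) (nat_lit 387) (nat_lit 310)) (XT.lf (nat_lit 0) (nat_lit 8446703656) (nat_lit 228) (nat_lit 5429313836) (nat_lit 76) (nat_lit 9898277699) (nat_lit 70) (nat_lit 5) (nat_lit 73) (nat_lit 5) (nat_lit 71) (nat_lit 4) (nat_lit 504) (nat_lit 387) (nat_lit 309))) (XT.nd (nat_lit 78) (nat_lit 152) (nat_lit 0) (XT.lf (nat_lit 0) (nat_lit 9947956011) (nat_lit 76) (nat_lit 6109628688) (nat_lit 152) (nat_lit 8187198180) (nat_lit 69) (nat_lit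 5) (nat_lit 70) (nat_lit 5) (nat_lit 71) (nat_lit 4) (nat_lit 505) (nat_lit 387) (nat_lit 308)) (XT.lf (nat_lit 0) (nat_lit 1097144365) (nat_lit 152) (nat_lit 22844400194) (nat_lit 152) (nat_lit 786498573) (nat_lit 67) (nat_lit 4) (nat_lit 69) (nat_lit 5) (nat_lit 69) (nat_lit 4) (nat_lit 506) (nat_lit 387) (nat_lit 307)))) (XT.nd (nat_lit 156) (nat_lit 152) (nat_lit 0) (XT.nd (nat_lit 78) (nat_lit 76) (nat_lit 0) (XT.lf (nat_lit 0) (nat_lit 6869825360) (nat_lit 228) (nat_lit 8178795537) (nat_lit 76) (nat_lit 10170199273) (nat_lit 66) (nat_lit 5) (nat_lit 69) (nat_lit 5) (nat_lit 67) (nat_lit 4) (nat_lit 507) (nat_lit 387) (nat_lit 306)) (XT.lf (nat_lit 0) (nat_lit 7807953331) (nat_lit 76) (nat_lit 6968988932) (nat_lit 152) (nat_lit 10946037771) (nat_lit 65) (nat_lit 5) (nat_lit 66) (nat_lit 5) (nat_lit 67) (nat_lit 4) (nat_lit 508) (nat_lit 387) (nat_lit 305))) (XT.nd (nat_lit 78) (nat_lit 152) (nat_lit 0) (XT.lf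 (nat_lit 0) (nat_lit 22979617281) (nat_lit 152) (nat_lit 1885215670) (nat_lit 0) (nat_lit 1375681854) (nat_lit 65) (nat_lit 5) (nat_lit 67) (nat_lit 4) (nat_lit 65) (nat_lit 4) (nat_lit 509) (nat_lit 387) (nat_lit 304)) (XT.lf (nat_lit 0) (nat_lit 4739737980) (nat_lit 152) (nat_lit 12041475569) (nat_lit 76) (nat_lit 9985746962) (nat_lit 63) (nat_lit 5) (nat_lit 65) (nat_lit 5) (nat_lit 64) (nat_lit 4) (nat_lit 510) (nat_lit 387) (nat_lit 303)))))) (XT.nd (nat_lit 624) (nat_lit 532) (nat_lit 0) (XT.nd (nat_lit 312) (nat_lit 304) (nat_lit 0) (XT.nd (nat_lit 156) (nat_lit 152) (nat_lit 0) (XT.nd (nat_lit 78) (nat_lit 0) (nat_lit 0) (XT.lf (nat_lit 0) (nat_lit 4549363957) (nat_lit 76) (nat_lit 8391518485) (nat_lit 152) (nat_lit 14366568053) (nat_lit 62) (nat_lit 5) (nat_lit 63) (nat_lit 5) (nat_lit 64) (nat_lit 4) (nat_lit 511) (nat_lit 387) (nat_lit 302)) (XT.lf (nat_lit 0) (nat_lit 21476402614) (nat_lit 152) (nat_lit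 6050871806) (nat_lit 0) (nat_lit 334230915) (nat_lit 62) (nat_lit 5) (nat_lit 64) (nat_lit 4) (nat_lit 62) (nat_lit 4) (nat_lit 512) (nat_lit 387) (nat_lit 301))) (XT.nd (nat_lit 78) (nat_lit 0) (nat_lit 0) (XT.lf (nat_lit 0) (nat_lit 1956710222) (nat_lit 152) (nat_lit 17222655702) (nat_lit 76) (nat_lit 9247585059) (nat_lit 60) (nat_lit 5) (nat_lit 62) (nat_lit 5) (nat_lit 61) (nat_lit 4) (nat_lit 513) (nat_lit 387) (nat_lit 300)) (XT.lf (nat_lit 0) (nat_lit 10446394521) (nat_lit 152) (nat_lit 39670126) (nat_lit 76) (nat_lit 18520620617) (nat_lit 60) (nat_lit 5) (nat_lit 62) (nat_lit 5) (nat_lit 61) (nat_lit 4) (nat_lit 514) (nat_lit 387) (nat_lit 299)))) (XT.nd (nat_lit 156) (nat_lit 152) (nat_lit 0) (XT.nd (nat_lit 78) (nat_lit 76) (nat_lit 0) (XT.lf (nat_lit 0) (nat_lit 17941457279) (nat_lit 76) (nat_lit 1387062058) (nat_lit 152) (nat_lit 10271160090) (nat_lit 59) (nat_lit 5) (nat_lit 60) (nat_lit 5) (nat_lit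 61) (nat_lit 4) (nat_lit 515) (nat_lit 387) (nat_lit 298)) (XT.lf (nat_lit 0) (nat_lit 6229676170) (nat_lit 76) (nat_lit 22349818526) (nat_lit 76) (nat_lit 1627897460) (nat_lit 58) (nat_lit 4) (nat_lit 59) (nat_lit 5) (nat_lit 59) (nat_lit 4) (nat_lit 516) (nat_lit 387) (nat_lit 297))) (XT.nd (nat_lit 78) (nat_lit 76) (nat_lit 0) (XT.lf (nat_lit 0) (nat_lit 7230702205) (nat_lit 152) (nat_lit 6088973776) (nat_lit 76) (nat_lit 17508622933) (nat_lit 57) (nat_lit 5) (nat_lit 59) (nat_lit 5) (nat_lit 58) (nat_lit 4) (nat_lit 517) (nat_lit 387) (nat_lit 296)) (XT.lf (nat_lit 0) (nat_lit 12498637967) (nat_lit 76) (nat_lit 3910225931) (nat_lit 152) (nat_lit 15055890062) (nat_lit 56) (nat_lit 5) (nat_lit 57) (nat_lit 5) (nat_lit 58) (nat_lit 4) (nat_lit 518) (nat_lit 387) (nat_lit 295))))) (XT.nd (nat_lit 312) (nat_lit 304) (nat_lit 0) (XT.nd (nat_lit 156) (nat_lit 76) (nat_lit 0) (XT.nd (nat_lit 78) (nat_lit 152) (nat_lit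 0) (XT.lf (nat_lit 0) (nat_lit 25946470745) (nat_lit 152) (nat_lit 471565688) (nat_lit 0) (nat_lit 5699743521) (nat_lit 56) (nat_lit 5) (nat_lit 58) (nat_lit 4) (nat_lit 56) (nat_lit 4) (nat_lit 519) (nat_lit 387) (nat_lit 294)) (XT.lf (nat_lit 0) (nat_lit 3110769650) (nat_lit 152) (nat_lit 13972182766) (nat_lit 76) (nat_lit 15700912065) (nat_lit 54) (nat_lit 5) (nat_lit 56) (nat_lit 5) (nat_lit 55) (nat_lit 4) (nat_lit 520) (nat_lit 387) (nat_lit 293))) (XT.nd (nat_lit 78) (nat_lit 0) (nat_lit 0) (XT.lf (nat_lit 0) (nat_lit 5189692710) (nat_lit 76) (nat_lit 7379707038) (nat_lit 152) (nat_lit 20898035230) (nat_lit 53) (nat_lit 5) (nat_lit 54) (nat_lit 5) (nat_lit 55) (nat_lit 4) (nat_lit 521) (nat_lit 387) (nat_lit 292)) (XT.lf (nat_lit 0) (nat_lit 22446886529) (nat_lit 152) (nat_lit 9044747355) (nat_lit 0) (nat_lit 2675826045) (nat_lit 53) (nat_lit 5) (nat_lit 55) (nat_lit 4) (nat_lit 53) (nat_lit 4) (nat_lit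 522) (nat_lit 387) (nat_lit 291)))) (XT.nd (nat_lit 156) (nat_lit 152) (nat_lit 0) (XT.nd (nat_lit 78) (nat_lit 76) (nat_lit 0) (XT.lf (nat_lit 0) (nat_lit 10841813847) (nat_lit 76) (nat_lit 21924591631) (nat_lit 76) (nat_lit 2117709186) (nat_lit 52) (nat_lit 4) (nat_lit 53) (nat_lit 5) (nat_lit 53) (nat_lit 4) (nat_lit 523) (nat_lit 387) (nat_lit 290)) (XT.lf (nat_lit 0) (nat_lit 7682239268) (nat_lit 152) (nat_lit 4246715333) (nat_lit 76) (nat_lit 23689252589) (nat_lit 51) (nat_lit 5) (nat_lit 53) (nat_lit 5) (nat_lit 52) (nat_lit 4) (nat_lit 524) (nat_lit 387) (nat_lit 289))) (XT.nd (nat_lit 78) (nat_lit 76) (nat_lit 0) (XT.lf (nat_lit 0) (nat_lit 16381291195) (nat_lit 76) (nat_lit 1479160960) (nat_lit 152) (nat_lit 18509436657) (nat_lit 50) (nat_lit 5) (nat_lit 51) (nat_lit 5) (nat_lit 52) (nat_lit 4) (nat_lit 525) (nat_lit 387) (nat_lit 288)) (XT.lf (nat_lit 0) (nat_lit 430920265) (nat_lit 76) (nat_lit 28019188027)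 (nat_lit 76) (nat_lit 8690829920) (nat_lit 49) (nat_lit 4) (nat_lit 50) (nat_lit 5) (nat_lit 50) (nat_lit 4) (nat_lit 526) (nat_lit 387) (nat_lit 287))))))))
noncomputable def xc68 : XT := (XT.nd (nat_lit 54678) (nat_lit 0) (nat_lit 9880) (XT.nd (nat_lit 1170) (nat_lit 760) (nat_lit 0) (XT.nd (nat_lit 546) (nat_lit 456) (nat_lit 0) (XT.nd (nat_lit 234) (nat_lit 228) (nat_lit 0) (XT.nd (nat_lit 78) (nat_lit 76) (nat_lit 0) (XT.lf (nat_lit 0) (nat_lit 1582489620) (nat_lit 152) (nat_lit 16146804514) (nat_lit 76) (nat_lit 20199777725) (nat_lit 48) (nat_lit 5) (nat_lit 50) (nat_lit 5) (nat_lit 49) (nat_lit 4) (nat_lit 527) (nat_lit 387) (nat_lit 286)) (XT.nd (nat_lit 78) (nat_lit 0) (nat_lit 0) (XT.lf (nat_lit 0) (nat_lit 4986112630) (nat_lit 76) (nat_lit 7021459489) (nat_lit 152) (nat_lit 26730148964) (nat_lit 47) (nat_lit 5) (nat_lit 48) (nat_lit 5) (nat_lit 49) (nat_lit 4) (nat_lit 528) (nat_lit 387) (nat_lit 285))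 (XT.lf (nat_lit 0) (nat_lit 22918941623) (nat_lit 152) (nat_lit 12580341976) (nat_lit 0) (nat_lit 4066140356) (nat_lit 47) (nat_lit 5) (nat_lit 49) (nat_lit 4) (nat_lit 47) (nat_lit 4) (nat_lit 529) (nat_lit 387) (nat_lit 284)))) (XT.nd (nat_lit 156) (nat_lit 76) (nat_lit 0) (XT.nd (nat_lit 78) (nat_lit 76) (nat_lit 0) (XT.lf (nat_lit 0) (nat_lit 9280872849) (nat_lit 76) (nat_lit 25006721411) (nat_lit 76) (nat_lit 6126465594) (nat_lit 46) (nat_lit 4) (nat_lit 47) (nat_lit 5) (nat_lit 47) (nat_lit 4) (nat_lit 530) (nat_lit 387) (nat_lit 283)) (XT.lf (nat_lit 0) (nat_lit 4716778810) (nat_lit 152) (nat_lit 9331849734) (nat_lit 76) (nat_lit 27235182867) (nat_lit 45) (nat_lit 5) (nat_lit 47) (nat_lit 5) (nat_lit 46) (nat_lit 4) (nat_lit 531) (nat_lit 387) (nat_lit 282))) (XT.nd (nat_lit 78) (nat_lit 0) (nat_lit 0) (XT.lf (nat_lit 0) (nat_lit 13266613292) (nat_lit 76) (nat_lit 2595161367) (nat_lit 152) (nat_lit 26313073599)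 (nat_lit 44) (nat_lit 5) (nat_lit 45) (nat_lit 5) (nat_lit 46) (nat_lit 4) (nat_lit 532) (nat_lit 387) (nat_lit 281)) (XT.lf (nat_lit 0) (nat_lit 27496834219) (nat_lit 152) (nat_lit 6500018353) (nat_lit 0) (nat_lit 9091092404) (nat_lit 44) (nat_lit 5) (nat_lit 46) (nat_lit 4) (nat_lit 44) (nat_lit 4) (nat_lit 533) (nat_lit 387) (nat_lit 280))))) (XT.nd (nat_lit 312) (nat_lit 228) (nat_lit 0) (XT.nd (nat_lit 156) (nat_lit 76) (nat_lit 0) (XT.nd (nat_lit 78) (nat_lit 76) (nat_lit 0) (XT.lf (nat_lit 0) (nat_lit 16829597185) (nat_lit 76) (nat_lit 22811725313) (nat_lit 76) (nat_lit 4382300962) (nat_lit 43) (nat_lit 4) (nat_lit 44) (nat_lit 5) (nat_lit 44) (nat_lit 4) (nat_lit 534) (nat_lit 387) (nat_lit 279)) (XT.lf (nat_lit 0) (nat_lit 7062208519) (nat_lit 152) (nat_lit 4116133809) (nat_lit 76) (nat_lit 33805788339) (nat_lit 42) (nat_lit 5) (nat_lit 44) (nat_lit 5) (nat_lit 43) (nat_lit 4) (nat_lit 535) (nat_lit 387)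 (nat_lit 278))) (XT.nd (nat_lit 78) (nat_lit 0) (nat_lit 0) (XT.lf (nat_lit 0) (nat_lit 18937243432) (nat_lit 152) (nat_lit 26029047548) (nat_lit 0) (nat_lit 1000602494) (nat_lit 41) (nat_lit 5) (nat_lit 43) (nat_lit 4) (nat_lit 41) (nat_lit 4) (nat_lit 536) (nat_lit 387) (nat_lit 277)) (XT.lf (nat_lit 0) (nat_lit 31294916549) (nat_lit 152) (nat_lit 2343197173) (nat_lit 0) (nat_lit 13337233984) (nat_lit 41) (nat_lit 5) (nat_lit 43) (nat_lit 4) (nat_lit 41) (nat_lit 4) (nat_lit 537) (nat_lit 387) (nat_lit 276)))) (XT.nd (nat_lit 156) (nat_lit 76) (nat_lit 0) (XT.nd (nat_lit 78) (nat_lit 76) (nat_lit 0) (XT.lf (nat_lit 0) (nat_lit 22440602860) (nat_lit 76) (nat_lit 21772928913) (nat_lit 76) (nat_lit 3794817585) (nat_lit 40) (nat_lit 4) (nat_lit 41) (nat_lit 5) (nat_lit 41) (nat_lit 4) (nat_lit 538) (nat_lit 387) (nat_lit 275)) (XT.lf (nat_lit 0) (nat_lit 8280932787) (nat_lit 152) (nat_lit 1187651521) (nat_lit 76)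 (nat_lit 39601368649) (nat_lit 39) (nat_lit 5) (nat_lit 41) (nat_lit 5) (nat_lit 40) (nat_lit 4) (nat_lit 539) (nat_lit 387) (nat_lit 274))) (XT.nd (nat_lit 78) (nat_lit 0) (nat_lit 0) (XT.lf (nat_lit 0) (nat_lit 20884894540) (nat_lit 152) (nat_lit 25877650520) (nat_lit 0) (nat_lit 3392466240) (nat_lit 38) (nat_lit 5) (nat_lit 40) (nat_lit 4) (nat_lit 38) (nat_lit 4) (nat_lit 540) (nat_lit 387) (nat_lit 273)) (XT.lf (nat_lit 0) (nat_lit 33948110742) (nat_lit 152) (nat_lit 884544965) (nat_lit 0) (nat_lit 16437531750) (nat_lit 38) (nat_lit 5) (nat_lit 40) (nat_lit 4) (nat_lit 38) (nat_lit 4) (nat_lit 541) (nat_lit 387) (nat_lit 272)))))) (XT.nd (nat_lit 624) (nat_lit 304) (nat_lit 0) (XT.nd (nat_lit 312) (nat_lit 228) (nat_lit 0) (XT.nd (nat_lit 156) (nat_lit 76) (nat_lit 0) (XT.nd (nat_lit 78) (nat_lit 76) (nat_lit 0) (XT.lf (nat_lit 0) (nat_lit 25304479564) (nat_lit 76) (nat_lit 22317981677) (nat_lit 76) (nat_lit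 4789780654) (nat_lit 37) (nat_lit 4) (nat_lit 38) (nat_lit 5) (nat_lit 38) (nat_lit 4) (nat_lit 542) (nat_lit 387) (nat_lit 271)) (XT.lf (nat_lit 0) (nat_lit 7945089890) (nat_lit 152) (nat_lit 1416777311) (nat_lit 76) (nat_lit 44224798898) (nat_lit 36) (nat_lit 5) (nat_lit 38) (nat_lit 5) (nat_lit 37) (nat_lit 4) (nat_lit 543) (nat_lit 387) (nat_lit 270))) (XT.nd (nat_lit 78) (nat_lit 0) (nat_lit 0) (XT.lf (nat_lit 0) (nat_lit 21228018351) (nat_lit 152) (nat_lit 29381403295) (nat_lit 0) (nat_lit 4177610346) (nat_lit 35) (nat_lit 5) (nat_lit 37) (nat_lit 4) (nat_lit 35) (nat_lit 4) (nat_lit 544) (nat_lit 387) (nat_lit 269)) (XT.lf (nat_lit 0) (nat_lit 34993298631) (nat_lit 152) (nat_lit 3100360747) (nat_lit 0) (nat_lit 17927233680) (nat_lit 35) (nat_lit 5) (nat_lit 37) (nat_lit 4) (nat_lit 35) (nat_lit 4) (nat_lit 545) (nat_lit 387) (nat_lit 268)))) (XT.nd (nat_lit 156) (nat_lit 76) (nat_lit 0) (XT.nd (nat_lit 78)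 (nat_lit 76) (nat_lit 0) (XT.lf (nat_lit 0) (nat_lit 24400302204) (nat_lit 76) (nat_lit 24983187579) (nat_lit 76) (nat_lit 7901921709) (nat_lit 34) (nat_lit 4) (nat_lit 35) (nat_lit 5) (nat_lit 35) (nat_lit 4) (nat_lit 546) (nat_lit 387) (nat_lit 267)) (XT.lf (nat_lit 0) (nat_lit 5516931282) (nat_lit 152) (nat_lit 5896653539) (nat_lit 76) (nat_lit 47172389948) (nat_lit 33) (nat_lit 5) (nat_lit 35) (nat_lit 5) (nat_lit 34) (nat_lit 4) (nat_lit 547) (nat_lit 387) (nat_lit 266))) (XT.nd (nat_lit 78) (nat_lit 0) (nat_lit 0) (XT.lf (nat_lit 0) (nat_lit 19398440954) (nat_lit 152) (nat_lit 37731751265) (nat_lit 0) (nat_lit 2786448365) (nat_lit 32) (nat_lit 5) (nat_lit 34) (nat_lit 4) (nat_lit 32) (nat_lit 4) (nat_lit 548) (nat_lit 387) (nat_lit 265)) (XT.lf (nat_lit 0) (nat_lit 33847620995) (nat_lit 152) (nat_lit 10212946139) (nat_lit 0) (nat_lit 17222122587) (nat_lit 32) (nat_lit 5) (nat_lit 34) (nat_lit 4) (nat_lit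 32) (nat_lit 4) (nat_lit 549) (nat_lit 387) (nat_lit 264))))) (XT.nd (nat_lit 312) (nat_lit 76) (nat_lit 0) (XT.nd (nat_lit 156) (nat_lit 76) (nat_lit 0) (XT.nd (nat_lit 78) (nat_lit 76) (nat_lit 0) (XT.lf (nat_lit 0) (nat_lit 18449037255) (nat_lit 76) (nat_lit 30437306012) (nat_lit 76) (nat_lit 13798695157) (nat_lit 31) (nat_lit 4) (nat_lit 32) (nat_lit 5) (nat_lit 32) (nat_lit 4) (nat_lit 550) (nat_lit 387) (nat_lit 263)) (XT.lf (nat_lit 0) (nat_lit 324837062) (nat_lit 152) (nat_lit 15991922148) (nat_lit 76) (nat_lit 47810140820) (nat_lit 30) (nat_lit 5) (nat_lit 32) (nat_lit 5) (nat_lit 31) (nat_lit 4) (nat_lit 551) (nat_lit 387) (nat_lit 262))) (XT.nd (nat_lit 78) (nat_lit 0) (nat_lit 0) (XT.lf (nat_lit 0) (nat_lit 13178859674) (nat_lit 76) (nat_lit 1521909191) (nat_lit 152) (nat_lit 50903969075) (nat_lit 29) (nat_lit 5) (nat_lit 30) (nat_lit 5) (nat_lit 31) (nat_lit 4) (nat_lit 552) (nat_lit 387) (nat_lit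 261)) (XT.lf (nat_lit 0) (nat_lit 29782283429) (nat_lit 152) (nat_lit 23744115912) (nat_lit 0) (nat_lit 13592282586) (nat_lit 29) (nat_lit 5) (nat_lit 31) (nat_lit 4) (nat_lit 29) (nat_lit 4) (nat_lit 553) (nat_lit 387) (nat_lit 260)))) (XT.nd (nat_lit 52416) (nat_lit 0) (nat_lit 21280) (XT.nd (nat_lit 52338) (nat_lit 0) (nat_lit 23712) (XT.lf (nat_lit 0) (nat_lit 5857348094) (nat_lit 76) (nat_lit 39510233910) (nat_lit 76) (nat_lit 23308922156) (nat_lit 28) (nat_lit 4) (nat_lit 29) (nat_lit 5) (nat_lit 29) (nat_lit 4) (nat_lit 554) (nat_lit 387) (nat_lit 259)) (XT.lf (nat_lit 0) (nat_lit 1662818418) (nat_lit 1140) (nat_lit 201598821) (nat_lit 0) (nat_lit 1662818418) (nat_lit 340) (nat_lit 5) (nat_lit 355) (nat_lit 4) (nat_lit 340) (nat_lit 4) (nat_lit 424) (nat_lit 388) (nat_lit 388))) (XT.nd (nat_lit 78) (nat_lit 1292) (nat_lit 0) (XT.lf (nat_lit 0) (nat_lit 4866894174) (nat_lit 1140) (nat_lit 2006573965) (nat_lit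 1140) (nat_lit 233760609) (nat_lit 325) (nat_lit 4) (nat_lit 340) (nat_lit 5) (nat_lit 340) (nat_lit 4) (nat_lit 425) (nat_lit 388) (nat_lit 387)) (XT.lf (nat_lit 0) (nat_lit 3065033003) (nat_lit 1216) (nat_lit 166013486) (nat_lit 1292) (nat_lit 3931646962) (nat_lit 308) (nat_lit 5) (nat_lit 324) (nat_lit 5) (nat_lit 325) (nat_lit 4) (nat_lit 426) (nat_lit 388) (nat_lit 386))))))) (XT.nd (nat_lit 1170) (nat_lit 4788) (nat_lit 0) (XT.nd (nat_lit 546) (nat_lit 3192) (nat_lit 0) (XT.nd (nat_lit 234) (nat_lit 1900) (nat_lit 0) (XT.nd (nat_lit 78) (nat_lit 684) (nat_lit 0) (XT.lf (nat_lit 0) (nat_lit 1255390269) (nat_lit 836) (nat_lit 5490229352) (nat_lit 836) (nat_lit 475629363) (nat_lit 297) (nat_lit 4) (nat_lit 308) (nat_lit 5) (nat_lit 308) (nat_lit 4) (nat_lit 427) (nat_lit 388) (nat_lit 385)) (XT.nd (nat_lit 78) (nat_lit 608) (nat_lit 0) (XT.lf (nat_lit 0) (nat_lit 2967235548) (nat_lit 912) (nat_lit 566233531)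 (nat_lit 76) (nat_lit 3748913527) (nat_lit 296) (nat_lit 5) (nat_lit 308) (nat_lit 5) (nat_lit 297) (nat_lit 4) (nat_lit 428) (nat_lit 388) (nat_lit 384)) (XT.lf (nat_lit 0) (nat_lit 4983801883) (nat_lit 608) (nat_lit 1470763609) (nat_lit 684) (nat_lit 892132219) (nat_lit 288) (nat_lit 5) (nat_lit 296) (nat_lit 5) (nat_lit 297) (nat_lit 4) (nat_lit 429) (nat_lit 388) (nat_lit 383)))) (XT.nd (nat_lit 156) (nat_lit 684) (nat_lit 0) (XT.nd (nat_lit 78) (nat_lit 532) (nat_lit 0) (XT.lf (nat_lit 0) (nat_lit 2529556022) (nat_lit 684) (nat_lit 4188952092) (nat_lit 76) (nat_lit 695263776) (nat_lit 279) (nat_lit 5) (nat_lit 288) (nat_lit 5) (nat_lit 280) (nat_lit 4) (nat_lit 430) (nat_lit 388) (nat_lit 382)) (XT.lf (nat_lit 0) (nat_lit 1444262816) (nat_lit 532) (nat_lit 4549672587) (nat_lit 608) (nat_lit 1489928749) (nat_lit 272) (nat_lit 5) (nat_lit 279) (nat_lit 5) (nat_lit 280) (nat_lit 4) (nat_lit 431) (nat_lit 388)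 (nat_lit 381))) (XT.nd (nat_lit 78) (nat_lit 608) (nat_lit 0) (XT.lf (nat_lit 0) (nat_lit 1915997274) (nat_lit 608) (nat_lit 349729138) (nat_lit 76) (nat_lit 5291294895) (nat_lit 271) (nat_lit 5) (nat_lit 279) (nat_lit 5) (nat_lit 272) (nat_lit 5) (nat_lit 432) (nat_lit 388) (nat_lit 380)) (XT.lf (nat_lit 0) (nat_lit 5357358561) (nat_lit 684) (nat_lit 2135513093) (nat_lit 76) (nat_lit 140172007) (nat_lit 263) (nat_lit 5) (nat_lit 272) (nat_lit 5) (nat_lit 264) (nat_lit 4) (nat_lit 433) (nat_lit 388) (nat_lit 379))))) (XT.nd (nat_lit 312) (nat_lit 1520) (nat_lit 0) (XT.nd (nat_lit 156) (nat_lit 532) (nat_lit 0) (XT.nd (nat_lit 78) (nat_lit 532) (nat_lit 0) (XT.lf (nat_lit 0) (nat_lit 1139746876) (nat_lit 608) (nat_lit 3962266050) (nat_lit 76) (nat_lit 2609828047) (nat_lit 255) (nat_lit 5) (nat_lit 263) (nat_lit 5) (nat_lit 256) (nat_lit 5) (nat_lit 434) (nat_lit 388) (nat_lit 378)) (XT.lf (nat_lit 0) (nat_lit 1971652086)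 (nat_lit 532) (nat_lit 2592193158) (nat_lit 608) (nat_lit 3229931106) (nat_lit 248) (nat_lit 5) (nat_lit 255) (nat_lit 5) (nat_lit 256) (nat_lit 5) (nat_lit 435) (nat_lit 388) (nat_lit 377))) (XT.nd (nat_lit 78) (nat_lit 0) (nat_lit 0) (XT.lf (nat_lit 0) (nat_lit 162596482) (nat_lit 532) (nat_lit 7698162005) (nat_lit 76) (nat_lit 18730521) (nat_lit 241) (nat_lit 5) (nat_lit 248) (nat_lit 5) (nat_lit 242) (nat_lit 5) (nat_lit 436) (nat_lit 388) (nat_lit 376)) (XT.lf (nat_lit 0) (nat_lit 3590284010) (nat_lit 532) (nat_lit 1648794722) (nat_lit 76) (nat_lit 2727793506) (nat_lit 241) (nat_lit 5) (nat_lit 248) (nat_lit 5) (nat_lit 242) (nat_lit 5) (nat_lit 437) (nat_lit 388) (nat_lit 375)))) (XT.nd (nat_lit 156) (nat_lit 532) (nat_lit 0) (XT.nd (nat_lit 78) (nat_lit 532) (nat_lit 0) (XT.lf (nat_lit 0) (nat_lit 4565523784) (nat_lit 456) (nat_lit 2514954416) (nat_lit 532) (nat_lit 977615919) (nat_lit 235) (nat_lit 5) (nat_lit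 241) (nat_lit 5) (nat_lit 242) (nat_lit 5) (nat_lit 438) (nat_lit 388) (nat_lit 374)) (XT.lf (nat_lit 0) (nat_lit 2437205494) (nat_lit 532) (nat_lit 5383852295) (nat_lit 76) (nat_lit 331380627) (nat_lit 228) (nat_lit 5) (nat_lit 235) (nat_lit 5) (nat_lit 229) (nat_lit 5) (nat_lit 439) (nat_lit 388) (nat_lit 373))) (XT.nd (nat_lit 78) (nat_lit 76) (nat_lit 0) (XT.lf (nat_lit 0) (nat_lit 916100601) (nat_lit 456) (nat_lit 5005657862) (nat_lit 532) (nat_lit 2327962921) (nat_lit 222) (nat_lit 5) (nat_lit 228) (nat_lit 5) (nat_lit 229) (nat_lit 5) (nat_lit 440) (nat_lit 388) (nat_lit 372)) (XT.lf (nat_lit 0) (nat_lit 1111356253) (nat_lit 532) (nat_lit 952618366) (nat_lit 76) (nat_lit 6286427299) (nat_lit 221) (nat_lit 5) (nat_lit 228) (nat_lit 5) (nat_lit 222) (nat_lit 5) (nat_lit 441) (nat_lit 388) (nat_lit 371)))))) (XT.nd (nat_lit 624) (nat_lit 1976) (nat_lit 0) (XT.nd (nat_lit 312) (nat_lit 1520) (nat_lit 0) (XT.nd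 (nat_lit 156) (nat_lit 456) (nat_lit 0) (XT.nd (nat_lit 78) (nat_lit 456) (nat_lit 0) (XT.lf (nat_lit 0) (nat_lit 4591272402) (nat_lit 456) (nat_lit 2862821055) (nat_lit 76) (nat_lit 999797948) (nat_lit 216) (nat_lit 5) (nat_lit 222) (nat_lit 5) (nat_lit 217) (nat_lit 5) (nat_lit 442) (nat_lit 388) (nat_lit 370)) (XT.lf (nat_lit 0) (nat_lit 3736817270) (nat_lit 456) (nat_lit 4426470654) (nat_lit 532) (nat_lit 397572640) (nat_lit 210) (nat_lit 5) (nat_lit 216) (nat_lit 5) (nat_lit 217) (nat_lit 5) (nat_lit 443) (nat_lit 388) (nat_lit 369))) (XT.nd (nat_lit 78) (nat_lit 0) (nat_lit 0) (XT.lf (nat_lit 0) (nat_lit 1821237487) (nat_lit 380) (nat_lit 1257139601) (nat_lit 456) (nat_lit 5592687699) (nat_lit 204) (nat_lit 5) (nat_lit 209) (nat_lit 5) (nat_lit 210) (nat_lit 5) (nat_lit 444) (nat_lit 388) (nat_lit 368)) (XT.lf (nat_lit 0) (nat_lit 6642218374) (nat_lit 456) (nat_lit 149533085) (nat_lit 76) (nat_lit 1992963001)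 (nat_lit 204) (nat_lit 5) (nat_lit 210) (nat_lit 5) (nat_lit 205) (nat_lit 5) (nat_lit 445) (nat_lit 388) (nat_lit 367)))) (XT.nd (nat_lit 156) (nat_lit 760) (nat_lit 0) (XT.nd (nat_lit 78) (nat_lit 304) (nat_lit 0) (XT.lf (nat_lit 0) (nat_lit 1386534864) (nat_lit 456) (nat_lit 2148255027) (nat_lit 76) (nat_lit 5366495850) (nat_lit 198) (nat_lit 5) (nat_lit 204) (nat_lit 5) (nat_lit 199) (nat_lit 5) (nat_lit 446) (nat_lit 388) (nat_lit 366)) (XT.lf (nat_lit 0) (nat_lit 4812306475) (nat_lit 304) (nat_lit 139653039) (nat_lit 380) (nat_lit 4069555778) (nat_lit 194) (nat_lit 5) (nat_lit 198) (nat_lit 5) (nat_lit 199) (nat_lit 5) (nat_lit 447) (nat_lit 388) (nat_lit 365))) (XT.nd (nat_lit 78) (nat_lit 380) (nat_lit 0) (XT.lf (nat_lit 0) (nat_lit 2797449658) (nat_lit 380) (nat_lit 5834637986) (nat_lit 456) (nat_lit 513036778) (nat_lit 189) (nat_lit 5) (nat_lit 194) (nat_lit 5) (nat_lit 195) (nat_lit 5) (nat_lit 448)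 (nat_lit 388) (nat_lit 364)) (XT.lf (nat_lit 0) (nat_lit 705006101) (nat_lit 304) (nat_lit 2361865316) (nat_lit 380) (nat_lit 6205321649) (nat_lit 184) (nat_lit 5) (nat_lit 188) (nat_lit 5) (nat_lit 189) (nat_lit 5) (nat_lit 449) (nat_lit 388) (nat_lit 363))))) (XT.nd (nat_lit 312) (nat_lit 988) (nat_lit 0) (XT.nd (nat_lit 156) (nat_lit 608) (nat_lit 0) (XT.nd (nat_lit 78) (nat_lit 380) (nat_lit 0) (XT.lf (nat_lit 0) (nat_lit 6748153421) (nat_lit 380) (nat_lit 1426047683) (nat_lit 76) (nat_lit 1228596134) (nat_lit 184) (nat_lit 5) (nat_lit 189) (nat_lit 5) (nat_lit 185) (nat_lit 5) (nat_lit 450) (nat_lit 388) (nat_lit 362)) (XT.lf (nat_lit 0) (nat_lit 993331742) (nat_lit 380) (nat_lit 3629117383) (nat_lit 76) (nat_lit 4914275307) (nat_lit 179) (nat_lit 5) (nat_lit 184) (nat_lit 5) (nat_lit 180) (nat_lit 5) (nat_lit 451) (nat_lit 388) (nat_lit 361))) (XT.nd (nat_lit 78) (nat_lit 304) (nat_lit 0) (XT.lf (nat_lit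 0) (nat_lit 3759042127) (nat_lit 304) (nat_lit 919365452) (nat_lit 380) (nat_lit 4996046969) (nat_lit 175) (nat_lit 5) (nat_lit 179) (nat_lit 5) (nat_lit 180) (nat_lit 5) (nat_lit 452) (nat_lit 388) (nat_lit 360)) (XT.lf (nat_lit 0) (nat_lit 1524725357) (nat_lit 304) (nat_lit 6959848975) (nat_lit 380) (nat_lit 1331430073) (nat_lit 171) (nat_lit 5) (nat_lit 175) (nat_lit 5) (nat_lit 176) (nat_lit 5) (nat_lit 453) (nat_lit 388) (nat_lit 359)))) (XT.nd (nat_lit 156) (nat_lit 608) (nat_lit 0) (XT.nd (nat_lit 78) (nat_lit 304) (nat_lit 0) (XT.lf (nat_lit 0) (nat_lit 2396258581) (nat_lit 380) (nat_lit 789062192) (nat_lit 76) (nat_lit 6775754982) (nat_lit 170) (nat_lit 5) (nat_lit 175) (nat_lit 5) (nat_lit 171) (nat_lit 5) (nat_lit 454) (nat_lit 388) (nat_lit 358)) (XT.lf (nat_lit 0) (nat_lit 6216490345) (nat_lit 380) (nat_lit 3158613156) (nat_lit 76) (nat_lit 734779742) (nat_lit 166) (nat_lit 5) (nat_lit 171) (nat_lit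 5) (nat_lit 167) (nat_lit 5) (nat_lit 455) (nat_lit 388) (nat_lit 357))) (XT.nd (nat_lit 78) (nat_lit 304) (nat_lit 0) (XT.lf (nat_lit 0) (nat_lit 4633094454) (nat_lit 304) (nat_lit 5536360593) (nat_lit 380) (nat_lit 93159678) (nat_lit 162) (nat_lit 5) (nat_lit 166) (nat_lit 5) (nat_lit 167) (nat_lit 5) (nat_lit 456) (nat_lit 388) (nat_lit 356)) (XT.lf (nat_lit 0) (nat_lit 2207284248) (nat_lit 228) (nat_lit 1526964301) (nat_lit 304) (nat_lit 6684949102) (nat_lit 158) (nat_lit 5) (nat_lit 161) (nat_lit 5) (nat_lit 162) (nat_lit 5) (nat_lit 457) (nat_lit 388) (nat_lit 355))))))))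
noncomputable def xc69 : XT := (XT.nd (nat_lit 2418) (nat_lit 2812) (nat_lit 0) (XT.nd (nat_lit 1170) (nat_lit 2204) (nat_lit 0) (XT.nd (nat_lit 546) (nat_lit 1444) (nat_lit 0) (XT.nd (nat_lit 234) (nat_lit 760) (nat_lit 0) (XT.nd (nat_lit 78) (nat_lit 608) (nat_lit 0) (XT.lf (nat_lit 0) (nat_lit 7691911093) (nat_lit 304) (nat_lit 314333342) (nat_lit 76) (nat_lit 2573690072) (nat_lit 158) (nat_lit 5) (nat_lit 162) (nat_lit 5) (nat_lit 159) (nat_lit 5) (nat_lit 458) (nat_lit 388) (nat_lit 354)) (XT.nd (nat_lit 78) (nat_lit 228) (nat_lit 0) (XT.lf (nat_lit 0) (nat_lit 1030544287) (nat_lit 380) (nat_lit 2897018669) (nat_lit 76) (nat_lit 6816807829) (nat_lit 153) (nat_lit 5) (nat_lit 158) (nat_lit 5) (nat_lit 154) (nat_lit 5) (nat_lit 459) (nat_lit 388) (nat_lit 353)) (XT.lf (nat_lit 0) (nat_lit 5003098234) (nat_lit 304) (nat_lit 5595236046) (nat_lit 76) (nat_lit 314716748) (nat_lit 150) (nat_lit 5) (nat_lit 154) (nat_lit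 5) (nat_lit 151) (nat_lit 5) (nat_lit 460) (nat_lit 388) (nat_lit 352)))) (XT.nd (nat_lit 156) (nat_lit 456) (nat_lit 0) (XT.nd (nat_lit 78) (nat_lit 76) (nat_lit 0) (XT.lf (nat_lit 0) (nat_lit 2663960090) (nat_lit 228) (nat_lit 6462452841) (nat_lit 304) (nat_lit 1959434110) (nat_lit 147) (nat_lit 5) (nat_lit 150) (nat_lit 5) (nat_lit 151) (nat_lit 5) (nat_lit 461) (nat_lit 388) (nat_lit 351)) (XT.lf (nat_lit 0) (nat_lit 2063281585) (nat_lit 304) (nat_lit 99000356) (nat_lit 76) (nat_lit 9101093930) (nat_lit 146) (nat_lit 5) (nat_lit 150) (nat_lit 5) (nat_lit 147) (nat_lit 5) (nat_lit 462) (nat_lit 388) (nat_lit 350))) (XT.nd (nat_lit 78) (nat_lit 228) (nat_lit 0) (XT.lf (nat_lit 0) (nat_lit 6211237300) (nat_lit 304) (nat_lit 2945666972) (nat_lit 76) (nat_lit 2287428689) (nat_lit 143) (nat_lit 5) (nat_lit 147) (nat_lit 5) (nat_lit 144) (nat_lit 5) (nat_lit 463) (nat_lit 388) (nat_lit 349)) (XT.lf (nat_lit 0) (nat_lit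 5716581492) (nat_lit 228) (nat_lit 4784471948) (nat_lit 304) (nat_lit 1129145236) (nat_lit 140) (nat_lit 5) (nat_lit 143) (nat_lit 5) (nat_lit 144) (nat_lit 5) (nat_lit 464) (nat_lit 388) (nat_lit 348))))) (XT.nd (nat_lit 312) (nat_lit 684) (nat_lit 0) (XT.nd (nat_lit 156) (nat_lit 456) (nat_lit 0) (XT.nd (nat_lit 78) (nat_lit 0) (nat_lit 0) (XT.lf (nat_lit 0) (nat_lit 2803594197) (nat_lit 228) (nat_lit 231134052) (nat_lit 304) (nat_lit 8786103470) (nat_lit 136) (nat_lit 5) (nat_lit 139) (nat_lit 5) (nat_lit 140) (nat_lit 5) (nat_lit 465) (nat_lit 388) (nat_lit 347)) (XT.lf (nat_lit 0) (nat_lit 7344672181) (nat_lit 304) (nat_lit 266268714) (nat_lit 76) (nat_lit 4404594348) (nat_lit 136) (nat_lit 5) (nat_lit 140) (nat_lit 5) (nat_lit 137) (nat_lit 5) (nat_lit 466) (nat_lit 388) (nat_lit 346))) (XT.nd (nat_lit 78) (nat_lit 228) (nat_lit 0) (XT.lf (nat_lit 0) (nat_lit 8820170444) (nat_lit 228) (nat_lit 2993226058)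 (nat_lit 304) (nat_lit 401801187) (nat_lit 133) (nat_lit 5) (nat_lit 136) (nat_lit 5) (nat_lit 137) (nat_lit 5) (nat_lit 467) (nat_lit 388) (nat_lit 345)) (XT.lf (nat_lit 0) (nat_lit 3935383222) (nat_lit 228) (nat_lit 6696807406) (nat_lit 76) (nat_lit 1786968940) (nat_lit 130) (nat_lit 5) (nat_lit 133) (nat_lit 5) (nat_lit 131) (nat_lit 5) (nat_lit 468) (nat_lit 388) (nat_lit 344)))) (XT.nd (nat_lit 156) (nat_lit 380) (nat_lit 0) (XT.nd (nat_lit 78) (nat_lit 76) (nat_lit 0) (XT.lf (nat_lit 0) (nat_lit 2471460665) (nat_lit 228) (nat_lit 5954129826) (nat_lit 304) (nat_lit 4202603058) (nat_lit 127) (nat_lit 5) (nat_lit 130) (nat_lit 5) (nat_lit 131) (nat_lit 5) (nat_lit 469) (nat_lit 388) (nat_lit 343)) (XT.lf (nat_lit 0) (nat_lit 214401853) (nat_lit 304) (nat_lit 889701376) (nat_lit 76) (nat_lit 11738994513) (nat_lit 126) (nat_lit 5) (nat_lit 130) (nat_lit 5) (nat_lit 127) (nat_lit 5) (nat_lit 470) (nat_lit 388)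 (nat_lit 342))) (XT.nd (nat_lit 78) (nat_lit 228) (nat_lit 0) (XT.lf (nat_lit 0) (nat_lit 4746030760) (nat_lit 228) (nat_lit 4412126849) (nat_lit 76) (nat_lit 3903047604) (nat_lit 124) (nat_lit 5) (nat_lit 127) (nat_lit 5) (nat_lit 125) (nat_lit 5) (nat_lit 471) (nat_lit 388) (nat_lit 341)) (XT.lf (nat_lit 0) (nat_lit 5202050612) (nat_lit 228) (nat_lit 4226693182) (nat_lit 304) (nat_lit 3856659909) (nat_lit 121) (nat_lit 5) (nat_lit 124) (nat_lit 5) (nat_lit 125) (nat_lit 5) (nat_lit 472) (nat_lit 388) (nat_lit 340)))))) (XT.nd (nat_lit 624) (nat_lit 988) (nat_lit 0) (XT.nd (nat_lit 312) (nat_lit 532) (nat_lit 0) (XT.nd (nat_lit 156) (nat_lit 456) (nat_lit 0) (XT.nd (nat_lit 78) (nat_lit 0) (nat_lit 0) (XT.lf (nat_lit 0) (nat_lit 735470037) (nat_lit 228) (nat_lit 11915706432) (nat_lit 76) (nat_lit 864514859) (nat_lit 118) (nat_lit 5) (nat_lit 121) (nat_lit 5) (nat_lit 119) (nat_lit 5) (nat_lit 473) (nat_lit 388)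 (nat_lit 339)) (XT.lf (nat_lit 0) (nat_lit 5457710846) (nat_lit 228) (nat_lit 2187328479) (nat_lit 76) (nat_lit 6104608550) (nat_lit 118) (nat_lit 5) (nat_lit 121) (nat_lit 5) (nat_lit 119) (nat_lit 5) (nat_lit 474) (nat_lit 388) (nat_lit 338))) (XT.nd (nat_lit 78) (nat_lit 228) (nat_lit 0) (XT.lf (nat_lit 0) (nat_lit 7894155741) (nat_lit 228) (nat_lit 2450511027) (nat_lit 304) (nat_lit 3645266559) (nat_lit 115) (nat_lit 5) (nat_lit 118) (nat_lit 5) (nat_lit 119) (nat_lit 5) (nat_lit 475) (nat_lit 388) (nat_lit 337)) (XT.lf (nat_lit 0) (nat_lit 1155395234) (nat_lit 228) (nat_lit 10203750456) (nat_lit 76) (nat_lit 2876848649) (nat_lit 112) (nat_lit 5) (nat_lit 115) (nat_lit 5) (nat_lit 113) (nat_lit 5) (nat_lit 476) (nat_lit 388) (nat_lit 336)))) (XT.nd (nat_lit 156) (nat_lit 380) (nat_lit 0) (XT.nd (nat_lit 78) (nat_lit 152) (nat_lit 0) (XT.lf (nat_lit 0) (nat_lit 6060806060) (nat_lit 228) (nat_lit 52687537) (nat_lit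 76) (nat_lit 8373842476) (nat_lit 112) (nat_lit 5) (nat_lit 115) (nat_lit 5) (nat_lit 113) (nat_lit 5) (nat_lit 477) (nat_lit 388) (nat_lit 335)) (XT.lf (nat_lit 0) (nat_lit 10517662429) (nat_lit 152) (nat_lit 645914212) (nat_lit 228) (nat_lit 3581136959) (nat_lit 110) (nat_lit 5) (nat_lit 112) (nat_lit 5) (nat_lit 113) (nat_lit 5) (nat_lit 478) (nat_lit 388) (nat_lit 334))) (XT.nd (nat_lit 78) (nat_lit 152) (nat_lit 0) (XT.lf (nat_lit 0) (nat_lit 1441847501) (nat_lit 228) (nat_lit 8639885219) (nat_lit 76) (nat_lit 4925882516) (nat_lit 107) (nat_lit 5) (nat_lit 110) (nat_lit 5) (nat_lit 108) (nat_lit 5) (nat_lit 479) (nat_lit 388) (nat_lit 333)) (XT.lf (nat_lit 0) (nat_lit 1995705368) (nat_lit 152) (nat_lit 4565979362) (nat_lit 228) (nat_lit 8715112609) (nat_lit 105) (nat_lit 5) (nat_lit 107) (nat_lit 5) (nat_lit 108) (nat_lit 5) (nat_lit 480) (nat_lit 388) (nat_lit 332))))) (XT.nd (nat_lit 312) (nat_lit 608) (nat_lit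 0) (XT.nd (nat_lit 156) (nat_lit 152) (nat_lit 0) (XT.nd (nat_lit 78) (nat_lit 228) (nat_lit 0) (XT.lf (nat_lit 0) (nat_lit 11883623955) (nat_lit 228) (nat_lit 2526618185) (nat_lit 76) (nat_lit 1142358860) (nat_lit 105) (nat_lit 5) (nat_lit 108) (nat_lit 5) (nat_lit 106) (nat_lit 4) (nat_lit 481) (nat_lit 388) (nat_lit 331)) (XT.lf (nat_lit 0) (nat_lit 1578363306) (nat_lit 228) (nat_lit 7265410655) (nat_lit 76) (nat_lit 6990075792) (nat_lit 102) (nat_lit 5) (nat_lit 105) (nat_lit 5) (nat_lit 103) (nat_lit 5) (nat_lit 482) (nat_lit 388) (nat_lit 330))) (XT.nd (nat_lit 78) (nat_lit 0) (nat_lit 0) (XT.lf (nat_lit 0) (nat_lit 3875903020) (nat_lit 152) (nat_lit 3047746816) (nat_lit 228) (nat_lit 9198369464) (nat_lit 100) (nat_lit 5) (nat_lit 102) (nat_lit 5) (nat_lit 103) (nat_lit 5) (nat_lit 483) (nat_lit 388) (nat_lit 329)) (XT.lf (nat_lit 0) (nat_lit 12482920097) (nat_lit 228) (nat_lit 1033779640) (nat_lit 76) (nat_lit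 2900526598) (nat_lit 100) (nat_lit 5) (nat_lit 103) (nat_lit 5) (nat_lit 101) (nat_lit 4) (nat_lit 484) (nat_lit 388) (nat_lit 328)))) (XT.nd (nat_lit 156) (nat_lit 228) (nat_lit 0) (XT.nd (nat_lit 78) (nat_lit 152) (nat_lit 0) (XT.lf (nat_lit 0) (nat_lit 1544469134) (nat_lit 228) (nat_lit 6128315448) (nat_lit 76) (nat_lit 9045502465) (nat_lit 97) (nat_lit 5) (nat_lit 100) (nat_lit 5) (nat_lit 98) (nat_lit 5) (nat_lit 485) (nat_lit 388) (nat_lit 327)) (XT.lf (nat_lit 0) (nat_lit 5538347140) (nat_lit 152) (nat_lit 1586913341) (nat_lit 228) (nat_lit 9901449699) (nat_lit 95) (nat_lit 5) (nat_lit 97) (nat_lit 5) (nat_lit 98) (nat_lit 5) (nat_lit 486) (nat_lit 388) (nat_lit 326))) (XT.nd (nat_lit 78) (nat_lit 76) (nat_lit 0) (XT.lf (nat_lit 0) (nat_lit 210185090) (nat_lit 152) (nat_lit 12725933174) (nat_lit 228) (nat_lit 4406389487) (nat_lit 93) (nat_lit 5) (nat_lit 95) (nat_lit 5) (nat_lit 96) (nat_lit 4) (nat_lit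 487) (nat_lit 388) (nat_lit 325)) (XT.lf (nat_lit 0) (nat_lit 1315139329) (nat_lit 228) (nat_lit 5284510949) (nat_lit 76) (nat_lit 11065186125) (nat_lit 92) (nat_lit 5) (nat_lit 95) (nat_lit 5) (nat_lit 93) (nat_lit 5) (nat_lit 488) (nat_lit 388) (nat_lit 324))))))) (XT.nd (nat_lit 1248) (nat_lit 1140) (nat_lit 0) (XT.nd (nat_lit 624) (nat_lit 836) (nat_lit 0) (XT.nd (nat_lit 312) (nat_lit 380) (nat_lit 0) (XT.nd (nat_lit 156) (nat_lit 228) (nat_lit 0) (XT.nd (nat_lit 78) (nat_lit 76) (nat_lit 0) (XT.lf (nat_lit 0) (nat_lit 6926291983) (nat_lit 152) (nat_lit 214607594) (nat_lit 228) (nat_lit 10853992958) (nat_lit 90) (nat_lit 5) (nat_lit 92) (nat_lit 5) (nat_lit 93) (nat_lit 5) (nat_lit 489) (nat_lit 388) (nat_lit 323)) (XT.lf (nat_lit 0) (nat_lit 1155226171) (nat_lit 76) (nat_lit 12067084242) (nat_lit 152) (nat_lit 5110114516) (nat_lit 89) (nat_lit 5) (nat_lit 90) (nat_lit 5) (nat_lit 91) (nat_lit 4) (nat_lit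 490) (nat_lit 388) (nat_lit 322))) (XT.nd (nat_lit 78) (nat_lit 152) (nat_lit 0) (XT.lf (nat_lit 0) (nat_lit 860153454) (nat_lit 152) (nat_lit 4799252279) (nat_lit 76) (nat_lit 13018351884) (nat_lit 88) (nat_lit 5) (nat_lit 90) (nat_lit 5) (nat_lit 89) (nat_lit 5) (nat_lit 491) (nat_lit 388) (nat_lit 321)) (XT.lf (nat_lit 0) (nat_lit 6949518226) (nat_lit 228) (nat_lit 11067614941) (nat_lit 76) (nat_lit 1013519187) (nat_lit 86) (nat_lit 5) (nat_lit 89) (nat_lit 5) (nat_lit 87) (nat_lit 4) (nat_lit 492) (nat_lit 388) (nat_lit 320)))) (XT.nd (nat_lit 156) (nat_lit 228) (nat_lit 0) (XT.nd (nat_lit 78) (nat_lit 76) (nat_lit 0) (XT.lf (nat_lit 0) (nat_lit 1708835325) (nat_lit 76) (nat_lit 11590387030) (nat_lit 152) (nat_lit 6092582635) (nat_lit 85) (nat_lit 5) (nat_lit 86) (nat_lit 5) (nat_lit 87) (nat_lit 4) (nat_lit 493) (nat_lit 388) (nat_lit 319)) (XT.lf (nat_lit 0) (nat_lit 143338532) (nat_lit 152) (nat_lit 4748778088)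 (nat_lit 76) (nat_lit 14869578874) (nat_lit 84) (nat_lit 5) (nat_lit 86) (nat_lit 5) (nat_lit 85) (nat_lit 5) (nat_lit 494) (nat_lit 388) (nat_lit 318))) (XT.nd (nat_lit 78) (nat_lit 76) (nat_lit 0) (XT.lf (nat_lit 0) (nat_lit 6504509679) (nat_lit 228) (nat_lit 11558629335) (nat_lit 76) (nat_lit 2075915946) (nat_lit 82) (nat_lit 5) (nat_lit 85) (nat_lit 5) (nat_lit 83) (nat_lit 4) (nat_lit 495) (nat_lit 388) (nat_lit 317)) (XT.lf (nat_lit 0) (nat_lit 1786813201) (nat_lit 76) (nat_lit 11341460323) (nat_lit 152) (nat_lit 7397309677) (nat_lit 81) (nat_lit 5) (nat_lit 82) (nat_lit 5) (nat_lit 83) (nat_lit 4) (nat_lit 496) (nat_lit 388) (nat_lit 316))))) (XT.nd (nat_lit 312) (nat_lit 532) (nat_lit 0) (XT.nd (nat_lit 156) (nat_lit 76) (nat_lit 0) (XT.nd (nat_lit 78) (nat_lit 228) (nat_lit 0) (XT.lf (nat_lit 0) (nat_lit 15690644411) (nat_lit 76) (nat_lit 4335015031) (nat_lit 152) (nat_lit 895801272) (nat_lit 81) (nat_lit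 5) (nat_lit 82) (nat_lit 5) (nat_lit 83) (nat_lit 4) (nat_lit 497) (nat_lit 388) (nat_lit 315)) (XT.lf (nat_lit 0) (nat_lit 5759110799) (nat_lit 228) (nat_lit 12635661492) (nat_lit 76) (nat_lit 2930623550) (nat_lit 78) (nat_lit 5) (nat_lit 81) (nat_lit 5) (nat_lit 79) (nat_lit 4) (nat_lit 498) (nat_lit 388) (nat_lit 314))) (XT.nd (nat_lit 78) (nat_lit 0) (nat_lit 0) (XT.lf (nat_lit 0) (nat_lit 1290591089) (nat_lit 76) (nat_lit 11372859789) (nat_lit 152) (nat_lit 9075699141) (nat_lit 77) (nat_lit 5) (nat_lit 78) (nat_lit 5) (nat_lit 79) (nat_lit 4) (nat_lit 499) (nat_lit 388) (nat_lit 313)) (XT.lf (nat_lit 0) (nat_lit 15816866662) (nat_lit 76) (nat_lit 4045217159) (nat_lit 152) (nat_lit 2300618743) (nat_lit 77) (nat_lit 5) (nat_lit 78) (nat_lit 5) (nat_lit 79) (nat_lit 4) (nat_lit 500) (nat_lit 388) (nat_lit 312)))) (XT.nd (nat_lit 156) (nat_lit 228) (nat_lit 0) (XT.nd (nat_lit 78) (nat_lit 76) (nat_lit 0) (XT.lf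 (nat_lit 0) (nat_lit 4660357277) (nat_lit 228) (nat_lit 14410911905) (nat_lit 76) (nat_lit 3524126469) (nat_lit 74) (nat_lit 5) (nat_lit 77) (nat_lit 5) (nat_lit 75) (nat_lit 4) (nat_lit 501) (nat_lit 388) (nat_lit 311)) (XT.lf (nat_lit 0) (nat_lit 104795284) (nat_lit 76) (nat_lit 11745354168) (nat_lit 152) (nat_lit 11188250483) (nat_lit 73) (nat_lit 5) (nat_lit 74) (nat_lit 5) (nat_lit 75) (nat_lit 4) (nat_lit 502) (nat_lit 388) (nat_lit 310))) (XT.nd (nat_lit 78) (nat_lit 228) (nat_lit 0) (XT.lf (nat_lit 0) (nat_lit 15276688393) (nat_lit 76) (nat_lit 4085355855) (nat_lit 152) (nat_lit 4129458385) (nat_lit 73) (nat_lit 5) (nat_lit 74) (nat_lit 5) (nat_lit 75) (nat_lit 4) (nat_lit 503) (nat_lit 388) (nat_lit 309)) (XT.lf (nat_lit 0) (nat_lit 3145729945) (nat_lit 228) (nat_lit 17015396038) (nat_lit 76) (nat_lit 3794189326) (nat_lit 70) (nat_lit 5) (nat_lit 73) (nat_lit 5) (nat_lit 71) (nat_lit 4) (nat_lit 504) (nat_lit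 388) (nat_lit 308)))))) (XT.nd (nat_lit 624) (nat_lit 532) (nat_lit 0) (XT.nd (nat_lit 312) (nat_lit 304) (nat_lit 0) (XT.nd (nat_lit 156) (nat_lit 228) (nat_lit 0) (XT.nd (nat_lit 78) (nat_lit 76) (nat_lit 0) (XT.lf (nat_lit 0) (nat_lit 10642135968) (nat_lit 228) (nat_lit 1868389550) (nat_lit 76) (nat_lit 11918711979) (nat_lit 70) (nat_lit 5) (nat_lit 73) (nat_lit 5) (nat_lit 71) (nat_lit 4) (nat_lit 505) (nat_lit 388) (nat_lit 307)) (XT.lf (nat_lit 0) (nat_lit 13933690512) (nat_lit 76) (nat_lit 4526533458) (nat_lit 152) (nat_lit 6454250178) (nat_lit 69) (nat_lit 5) (nat_lit 70) (nat_lit 5) (nat_lit 71) (nat_lit 4) (nat_lit 506) (nat_lit 388) (nat_lit 306))) (XT.nd (nat_lit 78) (nat_lit 0) (nat_lit 0) (XT.lf (nat_lit 0) (nat_lit 1141649550) (nat_lit 228) (nat_lit 20602066506) (nat_lit 76) (nat_lit 3668300487) (nat_lit 66) (nat_lit 5) (nat_lit 69) (nat_lit 5) (nat_lit 67) (nat_lit 4) (nat_lit 507) (nat_lit 388)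 (nat_lit 305)) (XT.lf (nat_lit 0) (nat_lit 8955468897) (nat_lit 228) (nat_lit 4802827257) (nat_lit 76) (nat_lit 12160679401) (nat_lit 66) (nat_lit 5) (nat_lit 69) (nat_lit 5) (nat_lit 67) (nat_lit 4) (nat_lit 508) (nat_lit 388) (nat_lit 304)))) (XT.nd (nat_lit 156) (nat_lit 152) (nat_lit 0) (XT.nd (nat_lit 78) (nat_lit 76) (nat_lit 0) (XT.lf (nat_lit 0) (nat_lit 11628020820) (nat_lit 76) (nat_lit 5451503529) (nat_lit 152) (nat_lit 9359344778) (nat_lit 65) (nat_lit 5) (nat_lit 66) (nat_lit 5) (nat_lit 67) (nat_lit 4) (nat_lit 509) (nat_lit 388) (nat_lit 303)) (XT.lf (nat_lit 0) (nat_lit 1609075745) (nat_lit 76) (nat_lit 23896630990) (nat_lit 76) (nat_lit 1466901036) (nat_lit 64) (nat_lit 4) (nat_lit 65) (nat_lit 5) (nat_lit 65) (nat_lit 4) (nat_lit 510) (nat_lit 388) (nat_lit 302))) (XT.nd (nat_lit 78) (nat_lit 76) (nat_lit 0) (XT.lf (nat_lit 0) (nat_lit 6701476326) (nat_lit 152) (nat_lit 8881542460) (nat_lit 76)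 (nat_lit 11932343937) (nat_lit 63) (nat_lit 5) (nat_lit 65) (nat_lit 5) (nat_lit 64) (nat_lit 4) (nat_lit 511) (nat_lit 388) (nat_lit 301)) (XT.lf (nat_lit 0) (nat_lit 8172500906) (nat_lit 76) (nat_lit 6956673595) (nat_lit 152) (nat_lit 12943477912) (nat_lit 62) (nat_lit 5) (nat_lit 63) (nat_lit 5) (nat_lit 64) (nat_lit 4) (nat_lit 512) (nat_lit 388) (nat_lit 300))))) (XT.nd (nat_lit 312) (nat_lit 304) (nat_lit 0) (XT.nd (nat_lit 156) (nat_lit 76) (nat_lit 0) (XT.nd (nat_lit 78) (nat_lit 152) (nat_lit 0) (XT.lf (nat_lit 0) (nat_lit 23884071512) (nat_lit 152) (nat_lit 2810587195) (nat_lit 0) (nat_lit 1949771425) (nat_lit 62) (nat_lit 5) (nat_lit 64) (nat_lit 4) (nat_lit 62) (nat_lit 4) (nat_lit 513) (nat_lit 388) (nat_lit 299)) (XT.lf (nat_lit 0) (nat_lit 3777289196) (nat_lit 152) (nat_lit 14315988989) (nat_lit 76) (nat_lit 11133607034) (nat_lit 60) (nat_lit 5) (nat_lit 62) (nat_lit 5) (nat_lit 61) (nat_lit 4) (nat_lit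 514) (nat_lit 388) (nat_lit 298))) (XT.nd (nat_lit 78) (nat_lit 0) (nat_lit 0) (XT.lf (nat_lit 0) (nat_lit 3348110736) (nat_lit 76) (nat_lit 9154420551) (nat_lit 152) (nat_lit 17322054747) (nat_lit 59) (nat_lit 5) (nat_lit 60) (nat_lit 5) (nat_lit 61) (nat_lit 4) (nat_lit 515) (nat_lit 388) (nat_lit 297)) (XT.lf (nat_lit 0) (nat_lit 21602383396) (nat_lit 152) (nat_lit 8667762250) (nat_lit 0) (nat_lit 166686977) (nat_lit 59) (nat_lit 5) (nat_lit 61) (nat_lit 4) (nat_lit 59) (nat_lit 4) (nat_lit 516) (nat_lit 388) (nat_lit 296)))) (XT.nd (nat_lit 156) (nat_lit 152) (nat_lit 0) (XT.nd (nat_lit 78) (nat_lit 0) (nat_lit 0) (XT.lf (nat_lit 0) (nat_lit 62394530) (nat_lit 152) (nat_lit 21353092016) (nat_lit 76) (nat_lit 9647402655) (nat_lit 57) (nat_lit 5) (nat_lit 59) (nat_lit 5) (nat_lit 58) (nat_lit 4) (nat_lit 517) (nat_lit 388) (nat_lit 295)) (XT.lf (nat_lit 0) (nat_lit 9104331803) (nat_lit 152) (nat_lit 3040732645)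 (nat_lit 76) (nat_lit 19558366681) (nat_lit 57) (nat_lit 5) (nat_lit 59) (nat_lit 5) (nat_lit 58) (nat_lit 4) (nat_lit 518) (nat_lit 388) (nat_lit 294))) (XT.nd (nat_lit 78) (nat_lit 76) (nat_lit 0) (XT.lf (nat_lit 0) (nat_lit 16072831857) (nat_lit 76) (nat_lit 2467505844) (nat_lit 152) (nat_lit 13819167596) (nat_lit 56) (nat_lit 5) (nat_lit 57) (nat_lit 5) (nat_lit 58) (nat_lit 4) (nat_lit 519) (nat_lit 388) (nat_lit 293)) (XT.lf (nat_lit 0) (nat_lit 2706350511) (nat_lit 76) (nat_lit 25650552578) (nat_lit 76) (nat_lit 4675434510) (nat_lit 55) (nat_lit 4) (nat_lit 56) (nat_lit 5) (nat_lit 56) (nat_lit 4) (nat_lit 520) (nat_lit 388) (nat_lit 292))))))))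
noncomputable def xc70 : XT := (XT.nd (nat_lit 2418) (nat_lit 152) (nat_lit 0) (XT.nd (nat_lit 1170) (nat_lit 912) (nat_lit 0) (XT.nd (nat_lit 546) (nat_lit 456) (nat_lit 0) (XT.nd (nat_lit 234) (nat_lit 304) (nat_lit 0) (XT.nd (nat_lit 78) (nat_lit 76) (nat_lit 0) (XT.lf (nat_lit 0) (nat_lit 4808966889) (nat_lit 152) (nat_lit 11250918800) (nat_lit 76) (nat_lit 17659334734) (nat_lit 54) (nat_lit 5) (nat_lit 56) (nat_lit 5) (nat_lit 55) (nat_lit 4) (nat_lit 521) (nat_lit 388) (nat_lit 291)) (XT.nd (nat_lit 78) (nat_lit 0) (nat_lit 0) (XT.lf (nat_lit 0) (nat_lit 8455024417) (nat_lit 76) (nat_lit 6079479337) (nat_lit 152) (nat_lit 19889300246) (nat_lit 53) (nat_lit 5) (nat_lit 54) (nat_lit 5) (nat_lit 55) (nat_lit 4) (nat_lit 522) (nat_lit 388) (nat_lit 290)) (XT.lf (nat_lit 0) (nat_lit 24676262780) (nat_lit 152) (nat_lit 6264955581) (nat_lit 0) (nat_lit 4204573298) (nat_lit 53) (nat_lit 5) (nat_lit 55) (nat_lit 4)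 (nat_lit 53) (nat_lit 4) (nat_lit 523) (nat_lit 388) (nat_lit 289)))) (XT.nd (nat_lit 156) (nat_lit 152) (nat_lit 0) (XT.nd (nat_lit 78) (nat_lit 76) (nat_lit 0) (XT.lf (nat_lit 0) (nat_lit 14188289377) (nat_lit 76) (nat_lit 21100800242) (nat_lit 76) (nat_lit 595345126) (nat_lit 52) (nat_lit 4) (nat_lit 53) (nat_lit 5) (nat_lit 53) (nat_lit 4) (nat_lit 524) (nat_lit 388) (nat_lit 288)) (XT.lf (nat_lit 0) (nat_lit 9422365480) (nat_lit 152) (nat_lit 1410835358) (nat_lit 76) (nat_lit 25808250919) (nat_lit 51) (nat_lit 5) (nat_lit 53) (nat_lit 5) (nat_lit 52) (nat_lit 4) (nat_lit 525) (nat_lit 388) (nat_lit 287))) (XT.nd (nat_lit 78) (nat_lit 76) (nat_lit 0) (XT.lf (nat_lit 0) (nat_lit 19806959587) (nat_lit 76) (nat_lit 83200126) (nat_lit 152) (nat_lit 17525997414) (nat_lit 50) (nat_lit 5) (nat_lit 51) (nat_lit 5) (nat_lit 52) (nat_lit 4) (nat_lit 526) (nat_lit 388) (nat_lit 286)) (XT.lf (nat_lit 0) (nat_lit 3379989779)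 (nat_lit 76) (nat_lit 27415670395) (nat_lit 76) (nat_lit 7414733531) (nat_lit 49) (nat_lit 4) (nat_lit 50) (nat_lit 5) (nat_lit 50) (nat_lit 4) (nat_lit 527) (nat_lit 388) (nat_lit 285))))) (XT.nd (nat_lit 312) (nat_lit 228) (nat_lit 0) (XT.nd (nat_lit 156) (nat_lit 76) (nat_lit 0) (XT.nd (nat_lit 78) (nat_lit 76) (nat_lit 0) (XT.lf (nat_lit 0) (nat_lit 3092908356) (nat_lit 152) (nat_lit 13751459433) (nat_lit 76) (nat_lit 22178677354) (nat_lit 48) (nat_lit 5) (nat_lit 50) (nat_lit 5) (nat_lit 49) (nat_lit 4) (nat_lit 528) (nat_lit 388) (nat_lit 284)) (XT.lf (nat_lit 0) (nat_lit 7987212390) (nat_lit 76) (nat_lit 5828331438) (nat_lit 152) (nat_lit 26040866306) (nat_lit 47) (nat_lit 5) (nat_lit 48) (nat_lit 5) (nat_lit 49) (nat_lit 4) (nat_lit 529) (nat_lit 388) (nat_lit 283))) (XT.nd (nat_lit 78) (nat_lit 76) (nat_lit 0) (XT.lf (nat_lit 0) (nat_lit 25025187988) (nat_lit 152) (nat_lit 10160213353) (nat_lit 0) (nat_lit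 5524415043) (nat_lit 47) (nat_lit 5) (nat_lit 49) (nat_lit 4) (nat_lit 47) (nat_lit 4) (nat_lit 530) (nat_lit 388) (nat_lit 282)) (XT.lf (nat_lit 0) (nat_lit 12329411064) (nat_lit 76) (nat_lit 24390796429) (nat_lit 76) (nat_lit 4864144937) (nat_lit 46) (nat_lit 4) (nat_lit 47) (nat_lit 5) (nat_lit 47) (nat_lit 4) (nat_lit 531) (nat_lit 388) (nat_lit 281)))) (XT.nd (nat_lit 156) (nat_lit 76) (nat_lit 0) (XT.nd (nat_lit 78) (nat_lit 76) (nat_lit 0) (XT.lf (nat_lit 0) (nat_lit 6234879961) (nat_lit 152) (nat_lit 6894969973) (nat_lit 76) (nat_lit 29351168785) (nat_lit 45) (nat_lit 5) (nat_lit 47) (nat_lit 5) (nat_lit 46) (nat_lit 4) (nat_lit 532) (nat_lit 388) (nat_lit 280)) (XT.lf (nat_lit 0) (nat_lit 16354811304) (nat_lit 76) (nat_lit 1345179143) (nat_lit 152) (nat_lit 25699223545) (nat_lit 44) (nat_lit 5) (nat_lit 45) (nat_lit 5) (nat_lit 46) (nat_lit 4) (nat_lit 533) (nat_lit 388) (nat_lit 279))) (XT.nd (nat_lit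 78) (nat_lit 76) (nat_lit 0) (XT.lf (nat_lit 0) (nat_lit 29656813547) (nat_lit 152) (nat_lit 4055877792) (nat_lit 0) (nat_lit 10627831176) (nat_lit 44) (nat_lit 5) (nat_lit 46) (nat_lit 4) (nat_lit 44) (nat_lit 4) (nat_lit 534) (nat_lit 388) (nat_lit 278)) (XT.lf (nat_lit 0) (nat_lit 19947752280) (nat_lit 76) (nat_lit 22204118859) (nat_lit 76) (nat_lit 3152813426) (nat_lit 43) (nat_lit 4) (nat_lit 44) (nat_lit 5) (nat_lit 44) (nat_lit 4) (nat_lit 535) (nat_lit 388) (nat_lit 277)))))) (XT.nd (nat_lit 624) (nat_lit 456) (nat_lit 0) (XT.nd (nat_lit 312) (nat_lit 228) (nat_lit 0) (XT.nd (nat_lit 156) (nat_lit 76) (nat_lit 0) (XT.nd (nat_lit 78) (nat_lit 76) (nat_lit 0) (XT.lf (nat_lit 0) (nat_lit 8569608173) (nat_lit 152) (nat_lit 1676673716) (nat_lit 76) (nat_lit 36048498845) (nat_lit 42) (nat_lit 5) (nat_lit 44) (nat_lit 5) (nat_lit 43) (nat_lit 4) (nat_lit 536) (nat_lit 388) (nat_lit 276)) (XT.lf (nat_lit 0) (nat_lit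 20799625016) (nat_lit 152) (nat_lit 24245698127) (nat_lit 0) (nat_lit 2261741584) (nat_lit 41) (nat_lit 5) (nat_lit 43) (nat_lit 4) (nat_lit 41) (nat_lit 4) (nat_lit 537) (nat_lit 388) (nat_lit 275))) (XT.nd (nat_lit 78) (nat_lit 0) (nat_lit 0) (XT.lf (nat_lit 0) (nat_lit 77555093) (nat_lit 76) (nat_lit 33413521722) (nat_lit 76) (nat_lit 14855804539) (nat_lit 40) (nat_lit 4) (nat_lit 41) (nat_lit 5) (nat_lit 41) (nat_lit 4) (nat_lit 538) (nat_lit 388) (nat_lit 274)) (XT.lf (nat_lit 0) (nat_lit 25578948545) (nat_lit 76) (nat_lit 21204653712) (nat_lit 76) (nat_lit 2627680460) (nat_lit 40) (nat_lit 4) (nat_lit 41) (nat_lit 5) (nat_lit 41) (nat_lit 4) (nat_lit 539) (nat_lit 388) (nat_lit 273)))) (XT.nd (nat_lit 156) (nat_lit 76) (nat_lit 0) (XT.nd (nat_lit 78) (nat_lit 0) (nat_lit 0) (XT.lf (nat_lit 0) (nat_lit 1218091332) (nat_lit 76) (nat_lit 8542381474) (nat_lit 152) (nat_lit 40744638606) (nat_lit 38) (nat_lit 5)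 (nat_lit 39) (nat_lit 5) (nat_lit 40) (nat_lit 4) (nat_lit 540) (nat_lit 388) (nat_lit 272)) (XT.lf (nat_lit 0) (nat_lit 22729749621) (nat_lit 152) (nat_lit 24235275658) (nat_lit 0) (nat_lit 4658080536) (nat_lit 38) (nat_lit 5) (nat_lit 40) (nat_lit 4) (nat_lit 38) (nat_lit 4) (nat_lit 541) (nat_lit 388) (nat_lit 271))) (XT.nd (nat_lit 78) (nat_lit 0) (nat_lit 0) (XT.lf (nat_lit 0) (nat_lit 1465777970) (nat_lit 76) (nat_lit 34697689588) (nat_lit 76) (nat_lit 16608911735) (nat_lit 37) (nat_lit 4) (nat_lit 38) (nat_lit 5) (nat_lit 38) (nat_lit 4) (nat_lit 542) (nat_lit 388) (nat_lit 270)) (XT.lf (nat_lit 0) (nat_lit 28388848504) (nat_lit 76) (nat_lit 21833010519) (nat_lit 76) (nat_lit 3727622213) (nat_lit 37) (nat_lit 4) (nat_lit 38) (nat_lit 5) (nat_lit 38) (nat_lit 4) (nat_lit 543) (nat_lit 388) (nat_lit 269))))) (XT.nd (nat_lit 312) (nat_lit 228) (nat_lit 0) (XT.nd (nat_lit 156) (nat_lit 76) (nat_lit 0) (XT.nd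 (nat_lit 78) (nat_lit 0) (nat_lit 0) (XT.lf (nat_lit 0) (nat_lit 837420738) (nat_lit 76) (nat_lit 8501956453) (nat_lit 152) (nat_lit 45820205011) (nat_lit 35) (nat_lit 5) (nat_lit 36) (nat_lit 5) (nat_lit 37) (nat_lit 4) (nat_lit 544) (nat_lit 388) (nat_lit 268)) (XT.lf (nat_lit 0) (nat_lit 23011799363) (nat_lit 152) (nat_lit 27981535104) (nat_lit 0) (nat_lit 5402894598) (nat_lit 35) (nat_lit 5) (nat_lit 37) (nat_lit 4) (nat_lit 35) (nat_lit 4) (nat_lit 545) (nat_lit 388) (nat_lit 267))) (XT.nd (nat_lit 78) (nat_lit 76) (nat_lit 0) (XT.lf (nat_lit 0) (nat_lit 37156632018) (nat_lit 152) (nat_lit 978507211) (nat_lit 0) (nat_lit 19532969080) (nat_lit 35) (nat_lit 5) (nat_lit 37) (nat_lit 4) (nat_lit 35) (nat_lit 4) (nat_lit 546) (nat_lit 388) (nat_lit 266)) (XT.lf (nat_lit 0) (nat_lit 27325461273) (nat_lit 76) (nat_lit 24641716490) (nat_lit 76) (nat_lit 7003725229) (nat_lit 34) (nat_lit 4) (nat_lit 35) (nat_lit 5)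 (nat_lit 35) (nat_lit 4) (nat_lit 547) (nat_lit 388) (nat_lit 265)))) (XT.nd (nat_lit 156) (nat_lit 76) (nat_lit 0) (XT.nd (nat_lit 78) (nat_lit 76) (nat_lit 0) (XT.lf (nat_lit 0) (nat_lit 6763120031) (nat_lit 152) (nat_lit 3922768591) (nat_lit 76) (nat_lit 49625239926) (nat_lit 33) (nat_lit 5) (nat_lit 35) (nat_lit 5) (nat_lit 34) (nat_lit 4) (nat_lit 548) (nat_lit 388) (nat_lit 264)) (XT.lf (nat_lit 0) (nat_lit 21060260395) (nat_lit 152) (nat_lit 36712099758) (nat_lit 0) (nat_lit 3909378769) (nat_lit 32) (nat_lit 5) (nat_lit 34) (nat_lit 4) (nat_lit 32) (nat_lit 4) (nat_lit 549) (nat_lit 388) (nat_lit 263))) (XT.nd (nat_lit 78) (nat_lit 76) (nat_lit 0) (XT.lf (nat_lit 0) (nat_lit 35911463424) (nat_lit 152) (nat_lit 8430398557) (nat_lit 0) (nat_lit 18747851267) (nat_lit 32) (nat_lit 5) (nat_lit 34) (nat_lit 4) (nat_lit 32) (nat_lit 4) (nat_lit 550) (nat_lit 388) (nat_lit 262)) (XT.lf (nat_lit 0) (nat_lit 21070964574)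 (nat_lit 76) (nat_lit 30319729731) (nat_lit 76) (nat_lit 13143757837) (nat_lit 31) (nat_lit 4) (nat_lit 32) (nat_lit 5) (nat_lit 32) (nat_lit 4) (nat_lit 551) (nat_lit 388) (nat_lit 261))))))) (XT.nd (nat_lit 53274) (nat_lit 0) (nat_lit 12084) (XT.nd (nat_lit 52650) (nat_lit 0) (nat_lit 17784) (XT.nd (nat_lit 52338) (nat_lit 0) (nat_lit 22420) (XT.nd (nat_lit 78) (nat_lit 76) (nat_lit 0) (XT.lf (nat_lit 0) (nat_lit 1352096855) (nat_lit 152) (nat_lit 14443215024) (nat_lit 76) (nat_lit 50224865365) (nat_lit 30) (nat_lit 5) (nat_lit 32) (nat_lit 5) (nat_lit 31) (nat_lit 4) (nat_lit 552) (nat_lit 388) (nat_lit 260)) (XT.nd (nat_lit 78) (nat_lit 0) (nat_lit 0) (XT.lf (nat_lit 0) (nat_lit 15582803343) (nat_lit 76) (nat_lit 566174598) (nat_lit 152) (nat_lit 51393682336) (nat_lit 29) (nat_lit 5) (nat_lit 30) (nat_lit 5) (nat_lit 31) (nat_lit 4) (nat_lit 553) (nat_lit 388) (nat_lit 259)) (XT.lf (nat_lit 0) (nat_lit 31662948050)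 (nat_lit 152) (nat_lit 22486369789) (nat_lit 0) (nat_lit 14953304565) (nat_lit 29) (nat_lit 5) (nat_lit 31) (nat_lit 4) (nat_lit 29) (nat_lit 4) (nat_lit 554) (nat_lit 388) (nat_lit 258)))) (XT.nd (nat_lit 156) (nat_lit 1216) (nat_lit 0) (XT.nd (nat_lit 78) (nat_lit 1140) (nat_lit 0) (XT.lf (nat_lit 0) (nat_lit 1697945903) (nat_lit 988) (nat_lit 890100154) (nat_lit 988) (nat_lit 890100154) (nat_lit 355) (nat_lit 4) (nat_lit 368) (nat_lit 5) (nat_lit 368) (nat_lit 4) (nat_lit 422) (nat_lit 389) (nat_lit 389)) (XT.lf (nat_lit 0) (nat_lit 1475353038) (nat_lit 1064) (nat_lit 177913329) (nat_lit 1140) (nat_lit 5351612945) (nat_lit 340) (nat_lit 5) (nat_lit 354) (nat_lit 5) (nat_lit 355) (nat_lit 4) (nat_lit 423) (nat_lit 389) (nat_lit 388))) (XT.nd (nat_lit 78) (nat_lit 1216) (nat_lit 0) (XT.lf (nat_lit 0) (nat_lit 5100386785) (nat_lit 1140) (nat_lit 454052712) (nat_lit 0) (nat_lit 1501575672) (nat_lit 340) (nat_lit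 5) (nat_lit 355) (nat_lit 4) (nat_lit 340) (nat_lit 4) (nat_lit 424) (nat_lit 389) (nat_lit 387)) (XT.lf (nat_lit 0) (nat_lit 1458159102) (nat_lit 1216) (nat_lit 2359926150) (nat_lit 76) (nat_lit 3291786848) (nat_lit 324) (nat_lit 5) (nat_lit 340) (nat_lit 5) (nat_lit 325) (nat_lit 4) (nat_lit 425) (nat_lit 389) (nat_lit 386))))) (XT.nd (nat_lit 312) (nat_lit 1824) (nat_lit 0) (XT.nd (nat_lit 156) (nat_lit 684) (nat_lit 0) (XT.nd (nat_lit 78) (nat_lit 912) (nat_lit 0) (XT.lf (nat_lit 0) (nat_lit 2889900778) (nat_lit 1216) (nat_lit 1977555636) (nat_lit 1292) (nat_lit 2299347301) (nat_lit 308) (nat_lit 5) (nat_lit 324) (nat_lit 5) (nat_lit 325) (nat_lit 4) (nat_lit 426) (nat_lit 389) (nat_lit 385)) (XT.lf (nat_lit 0) (nat_lit 1027354484) (nat_lit 836) (nat_lit 38625685) (nat_lit 912) (nat_lit 6161094639) (nat_lit 296) (nat_lit 5) (nat_lit 307) (nat_lit 5) (nat_lit 308) (nat_lit 5) (nat_lit 427) (nat_lit 389) (nat_lit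 384))) (XT.nd (nat_lit 78) (nat_lit 684) (nat_lit 0) (XT.lf (nat_lit 0) (nat_lit 4451326246) (nat_lit 912) (nat_lit 855587142) (nat_lit 76) (nat_lit 1982610384) (nat_lit 296) (nat_lit 5) (nat_lit 308) (nat_lit 5) (nat_lit 297) (nat_lit 4) (nat_lit 428) (nat_lit 389) (nat_lit 383)) (XT.lf (nat_lit 0) (nat_lit 523110114) (nat_lit 684) (nat_lit 2722565379) (nat_lit 76) (nat_lit 4109508665) (nat_lit 287) (nat_lit 5) (nat_lit 296) (nat_lit 5) (nat_lit 288) (nat_lit 5) (nat_lit 429) (nat_lit 389) (nat_lit 382)))) (XT.nd (nat_lit 156) (nat_lit 684) (nat_lit 0) (XT.nd (nat_lit 78) (nat_lit 532) (nat_lit 0) (XT.lf (nat_lit 0) (nat_lit 2805036328) (nat_lit 608) (nat_lit 1065385351) (nat_lit 684) (nat_lit 3553293347) (nat_lit 279) (nat_lit 5) (nat_lit 287) (nat_lit 5) (nat_lit 288) (nat_lit 5) (nat_lit 430) (nat_lit 389) (nat_lit 381)) (XT.lf (nat_lit 0) (nat_lit 964358025) (nat_lit 532) (nat_lit 6310359173) (nat_lit 608)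 (nat_lit 220897382) (nat_lit 272) (nat_lit 5) (nat_lit 279) (nat_lit 5) (nat_lit 280) (nat_lit 4) (nat_lit 431) (nat_lit 389) (nat_lit 380))) (XT.nd (nat_lit 78) (nat_lit 608) (nat_lit 0) (XT.lf (nat_lit 0) (nat_lit 3115422956) (nat_lit 608) (nat_lit 905034131) (nat_lit 76) (nat_lit 3549298462) (nat_lit 271) (nat_lit 5) (nat_lit 279) (nat_lit 5) (nat_lit 272) (nat_lit 5) (nat_lit 432) (nat_lit 389) (nat_lit 379)) (XT.lf (nat_lit 0) (nat_lit 4881642735) (nat_lit 608) (nat_lit 1624297148) (nat_lit 684) (nat_lit 1141367721) (nat_lit 263) (nat_lit 5) (nat_lit 271) (nat_lit 5) (nat_lit 272) (nat_lit 5) (nat_lit 433) (nat_lit 389) (nat_lit 378)))))) (XT.nd (nat_lit 624) (nat_lit 2508) (nat_lit 0) (XT.nd (nat_lit 312) (nat_lit 1520) (nat_lit 0) (XT.nd (nat_lit 156) (nat_lit 532) (nat_lit 0) (XT.nd (nat_lit 78) (nat_lit 532) (nat_lit 0) (XT.lf (nat_lit 0) (nat_lit 2186338704) (nat_lit 608) (nat_lit 4667205259) (nat_lit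 76) (nat_lit 874205690) (nat_lit 255) (nat_lit 5) (nat_lit 263) (nat_lit 5) (nat_lit 256) (nat_lit 5) (nat_lit 434) (nat_lit 389) (nat_lit 377)) (XT.lf (nat_lit 0) (nat_lit 1200630530) (nat_lit 532) (nat_lit 4359930867) (nat_lit 608) (nat_lit 2250623906) (nat_lit 248) (nat_lit 5) (nat_lit 255) (nat_lit 5) (nat_lit 256) (nat_lit 5) (nat_lit 435) (nat_lit 389) (nat_lit 376))) (XT.nd (nat_lit 78) (nat_lit 456) (nat_lit 0) (XT.lf (nat_lit 0) (nat_lit 1078735471) (nat_lit 608) (nat_lit 671248913) (nat_lit 76) (nat_lit 6147956687) (nat_lit 247) (nat_lit 5) (nat_lit 255) (nat_lit 5) (nat_lit 248) (nat_lit 5) (nat_lit 436) (nat_lit 389) (nat_lit 375)) (XT.lf (nat_lit 0) (nat_lit 4441472010) (nat_lit 532) (nat_lit 2568521584) (nat_lit 76) (nat_lit 977282899) (nat_lit 241) (nat_lit 5) (nat_lit 248) (nat_lit 5) (nat_lit 242) (nat_lit 5) (nat_lit 437) (nat_lit 389) (nat_lit 374)))) (XT.nd (nat_lit 156) (nat_lit 532) (nat_lit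 0) (XT.nd (nat_lit 78) (nat_lit 532) (nat_lit 0) (XT.lf (nat_lit 0) (nat_lit 3575973283) (nat_lit 456) (nat_lit 4305905956) (nat_lit 532) (nat_lit 198116299) (nat_lit 235) (nat_lit 5) (nat_lit 241) (nat_lit 5) (nat_lit 242) (nat_lit 5) (nat_lit 438) (nat_lit 389) (nat_lit 373)) (XT.lf (nat_lit 0) (nat_lit 1680879397) (nat_lit 456) (nat_lit 1466900328) (nat_lit 532) (nat_lit 5027950106) (nat_lit 228) (nat_lit 5) (nat_lit 234) (nat_lit 5) (nat_lit 235) (nat_lit 5) (nat_lit 439) (nat_lit 389) (nat_lit 372))) (XT.nd (nat_lit 78) (nat_lit 532) (nat_lit 0) (XT.lf (nat_lit 0) (nat_lit 6570022734) (nat_lit 532) (nat_lit 250068917) (nat_lit 76) (nat_lit 1454793699) (nat_lit 228) (nat_lit 5) (nat_lit 235) (nat_lit 5) (nat_lit 229) (nat_lit 5) (nat_lit 440) (nat_lit 389) (nat_lit 371)) (XT.lf (nat_lit 0) (nat_lit 1680690352) (nat_lit 532) (nat_lit 2206641288) (nat_lit 76) (nat_lit 4489305841) (nat_lit 221) (nat_lit 5) (nat_lit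 228) (nat_lit 5) (nat_lit 222) (nat_lit 5) (nat_lit 441) (nat_lit 389) (nat_lit 370))))) (XT.nd (nat_lit 312) (nat_lit 1216) (nat_lit 0) (XT.nd (nat_lit 156) (nat_lit 380) (nat_lit 0) (XT.nd (nat_lit 78) (nat_lit 532) (nat_lit 0) (XT.lf (nat_lit 0) (nat_lit 4271018840) (nat_lit 380) (nat_lit 829007932) (nat_lit 456) (nat_lit 3381920565) (nat_lit 216) (nat_lit 5) (nat_lit 221) (nat_lit 5) (nat_lit 222) (nat_lit 5) (nat_lit 442) (nat_lit 389) (nat_lit 369)) (XT.lf (nat_lit 0) (nat_lit 21830507) (nat_lit 532) (nat_lit 6272589438) (nat_lit 76) (nat_lit 2296265582) (nat_lit 209) (nat_lit 5) (nat_lit 216) (nat_lit 5) (nat_lit 210) (nat_lit 5) (nat_lit 443) (nat_lit 389) (nat_lit 368))) (XT.nd (nat_lit 78) (nat_lit 0) (nat_lit 0) (XT.lf (nat_lit 0) (nat_lit 288021929) (nat_lit 380) (nat_lit 3150022535) (nat_lit 456) (nat_lit 5264292690) (nat_lit 204) (nat_lit 5) (nat_lit 209) (nat_lit 5) (nat_lit 210) (nat_lit 5) (nat_lit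 444) (nat_lit 389) (nat_lit 367)) (XT.lf (nat_lit 0) (nat_lit 6946918033) (nat_lit 456) (nat_lit 1747224575) (nat_lit 76) (nat_lit 123495897) (nat_lit 204) (nat_lit 5) (nat_lit 210) (nat_lit 5) (nat_lit 205) (nat_lit 5) (nat_lit 445) (nat_lit 389) (nat_lit 366)))) (XT.nd (nat_lit 156) (nat_lit 456) (nat_lit 0) (XT.nd (nat_lit 78) (nat_lit 304) (nat_lit 0) (XT.lf (nat_lit 0) (nat_lit 1600637221) (nat_lit 456) (nat_lit 3865220186) (nat_lit 76) (nat_lit 3469847596) (nat_lit 198) (nat_lit 5) (nat_lit 204) (nat_lit 5) (nat_lit 199) (nat_lit 5) (nat_lit 446) (nat_lit 389) (nat_lit 365)) (XT.lf (nat_lit 0) (nat_lit 3010051338) (nat_lit 304) (nat_lit 2103199543) (nat_lit 380) (nat_lit 3944270422) (nat_lit 194) (nat_lit 5) (nat_lit 198) (nat_lit 5) (nat_lit 199) (nat_lit 5) (nat_lit 447) (nat_lit 389) (nat_lit 364))) (XT.nd (nat_lit 78) (nat_lit 76) (nat_lit 0) (XT.lf (nat_lit 0) (nat_lit 890309088) (nat_lit 380) (nat_lit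 7830791111) (nat_lit 456) (nat_lit 462200950) (nat_lit 189) (nat_lit 5) (nat_lit 194) (nat_lit 5) (nat_lit 195) (nat_lit 5) (nat_lit 448) (nat_lit 389) (nat_lit 363)) (XT.lf (nat_lit 0) (nat_lit 3075063225) (nat_lit 456) (nat_lit 1305296935) (nat_lit 76) (nat_lit 4931246749) (nat_lit 188) (nat_lit 5) (nat_lit 194) (nat_lit 5) (nat_lit 189) (nat_lit 5) (nat_lit 449) (nat_lit 389) (nat_lit 362))))))))
noncomputable def xc71 : XT := (XT.nd (nat_lit 2418) (nat_lit 3344) (nat_lit 0) (XT.nd (nat_lit 1170) (nat_lit 2508) (nat_lit 0) (XT.nd (nat_lit 546) (nat_lit 1672) (nat_lit 0) (XT.nd (nat_lit 234) (nat_lit 988) (nat_lit 0) (XT.nd (nat_lit 78) (nat_lit 684) (nat_lit 0) (XT.lf (nat_lit 0) (nat_lit 5902632544) (nat_lit 304) (nat_lit 794528332) (nat_lit 380) (nat_lit 2746827885) (nat_lit 184) (nat_lit 5) (nat_lit 188) (nat_lit 5) (nat_lit 189) (nat_lit 5) (nat_lit 450) (nat_lit 389) (nat_lit 361)) (XT.nd (nat_lit 78) (nat_lit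 304) (nat_lit 0) (XT.lf (nat_lit 0) (nat_lit 840049932) (nat_lit 380) (nat_lit 5870915197) (nat_lit 76) (nat_lit 2868866336) (nat_lit 179) (nat_lit 5) (nat_lit 184) (nat_lit 5) (nat_lit 180) (nat_lit 5) (nat_lit 451) (nat_lit 389) (nat_lit 360)) (XT.lf (nat_lit 0) (nat_lit 1421825369) (nat_lit 304) (nat_lit 3047517677) (nat_lit 380) (nat_lit 5249893985) (nat_lit 175) (nat_lit 5) (nat_lit 179) (nat_lit 5) (nat_lit 180) (nat_lit 5) (nat_lit 452) (nat_lit 389) (nat_lit 359)))) (XT.nd (nat_lit 156) (nat_lit 608) (nat_lit 0) (XT.nd (nat_lit 78) (nat_lit 380) (nat_lit 0) (XT.lf (nat_lit 0) (nat_lit 8207417744) (nat_lit 380) (nat_lit 916720607) (nat_lit 76) (nat_lit 738693209) (nat_lit 175) (nat_lit 5) (nat_lit 180) (nat_lit 5) (nat_lit 176) (nat_lit 5) (nat_lit 453) (nat_lit 389) (nat_lit 358)) (XT.lf (nat_lit 0) (nat_lit 2036701751) (nat_lit 380) (nat_lit 3342960383) (nat_lit 76) (nat_lit 4629592863) (nat_lit 170) (nat_lit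 5) (nat_lit 175) (nat_lit 5) (nat_lit 171) (nat_lit 5) (nat_lit 454) (nat_lit 389) (nat_lit 357))) (XT.nd (nat_lit 78) (nat_lit 304) (nat_lit 0) (XT.lf (nat_lit 0) (nat_lit 4304143201) (nat_lit 304) (nat_lit 1488206614) (nat_lit 380) (nat_lit 4367651930) (nat_lit 166) (nat_lit 5) (nat_lit 170) (nat_lit 5) (nat_lit 171) (nat_lit 5) (nat_lit 455) (nat_lit 389) (nat_lit 356)) (XT.lf (nat_lit 0) (nat_lit 1846630249) (nat_lit 304) (nat_lit 7826030624) (nat_lit 380) (nat_lit 642253661) (nat_lit 162) (nat_lit 5) (nat_lit 166) (nat_lit 5) (nat_lit 167) (nat_lit 5) (nat_lit 456) (nat_lit 389) (nat_lit 355))))) (XT.nd (nat_lit 312) (nat_lit 760) (nat_lit 0) (XT.nd (nat_lit 156) (nat_lit 608) (nat_lit 0) (XT.nd (nat_lit 78) (nat_lit 228) (nat_lit 0) (XT.lf (nat_lit 0) (nat_lit 3143230534) (nat_lit 380) (nat_lit 718569094) (nat_lit 76) (nat_lit 6611436944) (nat_lit 161) (nat_lit 5) (nat_lit 166) (nat_lit 5) (nat_lit 162) (nat_lit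 5) (nat_lit 457) (nat_lit 389) (nat_lit 354)) (XT.lf (nat_lit 0) (nat_lit 7040188101) (nat_lit 304) (nat_lit 3335795816) (nat_lit 76) (nat_lit 259812213) (nat_lit 158) (nat_lit 5) (nat_lit 162) (nat_lit 5) (nat_lit 159) (nat_lit 5) (nat_lit 458) (nat_lit 389) (nat_lit 353))) (XT.nd (nat_lit 78) (nat_lit 228) (nat_lit 0) (XT.lf (nat_lit 0) (nat_lit 275834952) (nat_lit 380) (nat_lit 6077973746) (nat_lit 76) (nat_lit 4448457195) (nat_lit 153) (nat_lit 5) (nat_lit 158) (nat_lit 5) (nat_lit 154) (nat_lit 5) (nat_lit 459) (nat_lit 389) (nat_lit 352)) (XT.lf (nat_lit 0) (nat_lit 2027513671) (nat_lit 228) (nat_lit 2156017458) (nat_lit 304) (nat_lit 6789362162) (nat_lit 150) (nat_lit 5) (nat_lit 153) (nat_lit 5) (nat_lit 154) (nat_lit 5) (nat_lit 460) (nat_lit 389) (nat_lit 351)))) (XT.nd (nat_lit 156) (nat_lit 456) (nat_lit 0) (XT.nd (nat_lit 78) (nat_lit 304) (nat_lit 0) (XT.lf (nat_lit 0) (nat_lit 8230643774) (nat_lit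 304) (nat_lit 765943867) (nat_lit 76) (nat_lit 2151389106) (nat_lit 150) (nat_lit 5) (nat_lit 154) (nat_lit 5) (nat_lit 151) (nat_lit 5) (nat_lit 461) (nat_lit 389) (nat_lit 350)) (XT.lf (nat_lit 0) (nat_lit 1086737013) (nat_lit 304) (nat_lit 3645840667) (nat_lit 76) (nat_lit 6594325568) (nat_lit 146) (nat_lit 5) (nat_lit 150) (nat_lit 5) (nat_lit 147) (nat_lit 5) (nat_lit 462) (nat_lit 389) (nat_lit 349))) (XT.nd (nat_lit 78) (nat_lit 228) (nat_lit 0) (XT.lf (nat_lit 0) (nat_lit 4856191968) (nat_lit 228) (nat_lit 291951725) (nat_lit 304) (nat_lit 6362314380) (nat_lit 143) (nat_lit 5) (nat_lit 146) (nat_lit 5) (nat_lit 147) (nat_lit 5) (nat_lit 463) (nat_lit 389) (nat_lit 348)) (XT.lf (nat_lit 0) (nat_lit 1888670798) (nat_lit 228) (nat_lit 7481015555) (nat_lit 304) (nat_lit 2328686865) (nat_lit 140) (nat_lit 5) (nat_lit 143) (nat_lit 5) (nat_lit 144) (nat_lit 5) (nat_lit 464) (nat_lit 389) (nat_lit 347)))))) (XT.nd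 (nat_lit 624) (nat_lit 1064) (nat_lit 0) (XT.nd (nat_lit 312) (nat_lit 684) (nat_lit 0) (XT.nd (nat_lit 156) (nat_lit 456) (nat_lit 0) (XT.nd (nat_lit 78) (nat_lit 228) (nat_lit 0) (XT.lf (nat_lit 0) (nat_lit 1803075752) (nat_lit 304) (nat_lit 1183194990) (nat_lit 76) (nat_lit 8904748146) (nat_lit 139) (nat_lit 5) (nat_lit 143) (nat_lit 5) (nat_lit 140) (nat_lit 5) (nat_lit 465) (nat_lit 389) (nat_lit 346)) (XT.lf (nat_lit 0) (nat_lit 6046450744) (nat_lit 304) (nat_lit 4368267946) (nat_lit 76) (nat_lit 1673001912) (nat_lit 136) (nat_lit 5) (nat_lit 140) (nat_lit 5) (nat_lit 137) (nat_lit 5) (nat_lit 466) (nat_lit 389) (nat_lit 345))) (XT.nd (nat_lit 78) (nat_lit 228) (nat_lit 0) (XT.lf (nat_lit 0) (nat_lit 4589275397) (nat_lit 228) (nat_lit 5857685952) (nat_lit 304) (nat_lit 1842469200) (nat_lit 133) (nat_lit 5) (nat_lit 136) (nat_lit 5) (nat_lit 137) (nat_lit 5) (nat_lit 467) (nat_lit 389) (nat_lit 344)) (XT.lf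 (nat_lit 0) (nat_lit 1316359891) (nat_lit 152) (nat_lit 1118969354) (nat_lit 228) (nat_lit 10061104626) (nat_lit 130) (nat_lit 5) (nat_lit 132) (nat_lit 5) (nat_lit 133) (nat_lit 5) (nat_lit 468) (nat_lit 389) (nat_lit 343)))) (XT.nd (nat_lit 156) (nat_lit 456) (nat_lit 0) (XT.nd (nat_lit 78) (nat_lit 228) (nat_lit 0) (XT.lf (nat_lit 0) (nat_lit 6863746565) (nat_lit 228) (nat_lit 2095882912) (nat_lit 76) (nat_lit 3747693070) (nat_lit 130) (nat_lit 5) (nat_lit 133) (nat_lit 5) (nat_lit 131) (nat_lit 5) (nat_lit 469) (nat_lit 389) (nat_lit 342)) (XT.lf (nat_lit 0) (nat_lit 7300356449) (nat_lit 228) (nat_lit 4152155735) (nat_lit 304) (nat_lit 1471202791) (nat_lit 127) (nat_lit 5) (nat_lit 130) (nat_lit 5) (nat_lit 131) (nat_lit 5) (nat_lit 470) (nat_lit 389) (nat_lit 341))) (XT.nd (nat_lit 78) (nat_lit 228) (nat_lit 0) (XT.lf (nat_lit 0) (nat_lit 2985934952) (nat_lit 228) (nat_lit 9324954698) (nat_lit 76) (nat_lit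 834453960) (nat_lit 124) (nat_lit 5) (nat_lit 127) (nat_lit 5) (nat_lit 125) (nat_lit 5) (nat_lit 471) (nat_lit 389) (nat_lit 340)) (XT.lf (nat_lit 0) (nat_lit 145053711) (nat_lit 228) (nat_lit 7448738676) (nat_lit 304) (nat_lit 5777996266) (nat_lit 121) (nat_lit 5) (nat_lit 124) (nat_lit 5) (nat_lit 125) (nat_lit 5) (nat_lit 472) (nat_lit 389) (nat_lit 339))))) (XT.nd (nat_lit 312) (nat_lit 608) (nat_lit 0) (XT.nd (nat_lit 156) (nat_lit 228) (nat_lit 0) (XT.nd (nat_lit 78) (nat_lit 228) (nat_lit 0) (XT.lf (nat_lit 0) (nat_lit 9998877801) (nat_lit 228) (nat_lit 2382567660) (nat_lit 304) (nat_lit 1222336535) (nat_lit 121) (nat_lit 5) (nat_lit 124) (nat_lit 5) (nat_lit 125) (nat_lit 5) (nat_lit 473) (nat_lit 389) (nat_lit 338)) (XT.lf (nat_lit 0) (nat_lit 3439134271) (nat_lit 228) (nat_lit 7563819313) (nat_lit 76) (nat_lit 2837676931) (nat_lit 118) (nat_lit 5) (nat_lit 121) (nat_lit 5) (nat_lit 119) (nat_lit 5) (nat_lit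 474) (nat_lit 389) (nat_lit 337))) (XT.nd (nat_lit 78) (nat_lit 0) (nat_lit 0) (XT.lf (nat_lit 0) (nat_lit 2365401709) (nat_lit 228) (nat_lit 5882273425) (nat_lit 304) (nat_lit 5835594073) (nat_lit 115) (nat_lit 5) (nat_lit 118) (nat_lit 5) (nat_lit 119) (nat_lit 5) (nat_lit 475) (nat_lit 389) (nat_lit 336)) (XT.lf (nat_lit 0) (nat_lit 12658347532) (nat_lit 228) (nat_lit 567844377) (nat_lit 304) (nat_lit 1106225111) (nat_lit 115) (nat_lit 5) (nat_lit 118) (nat_lit 5) (nat_lit 119) (nat_lit 5) (nat_lit 476) (nat_lit 389) (nat_lit 335)))) (XT.nd (nat_lit 156) (nat_lit 228) (nat_lit 0) (XT.nd (nat_lit 78) (nat_lit 152) (nat_lit 0) (XT.lf (nat_lit 0) (nat_lit 3773662493) (nat_lit 228) (nat_lit 5917551120) (nat_lit 76) (nat_lit 4894278162) (nat_lit 112) (nat_lit 5) (nat_lit 115) (nat_lit 5) (nat_lit 113) (nat_lit 5) (nat_lit 477) (nat_lit 389) (nat_lit 334)) (XT.lf (nat_lit 0) (nat_lit 4491940977) (nat_lit 152) (nat_lit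 4302223308) (nat_lit 228) (nat_lit 6051173779) (nat_lit 110) (nat_lit 5) (nat_lit 112) (nat_lit 5) (nat_lit 113) (nat_lit 5) (nat_lit 478) (nat_lit 389) (nat_lit 333))) (XT.nd (nat_lit 78) (nat_lit 76) (nat_lit 0) (XT.lf (nat_lit 0) (nat_lit 125608739) (nat_lit 152) (nat_lit 13864042186) (nat_lit 228) (nat_lit 1122599102) (nat_lit 108) (nat_lit 5) (nat_lit 110) (nat_lit 5) (nat_lit 111) (nat_lit 4) (nat_lit 479) (nat_lit 389) (nat_lit 332)) (XT.lf (nat_lit 0) (nat_lit 3975785792) (nat_lit 228) (nat_lit 4422650831) (nat_lit 76) (nat_lit 6984620629) (nat_lit 107) (nat_lit 5) (nat_lit 110) (nat_lit 5) (nat_lit 108) (nat_lit 5) (nat_lit 480) (nat_lit 389) (nat_lit 331))))))) (XT.nd (nat_lit 1248) (nat_lit 1444) (nat_lit 0) (XT.nd (nat_lit 624) (nat_lit 836) (nat_lit 0) (XT.nd (nat_lit 312) (nat_lit 532) (nat_lit 0) (XT.nd (nat_lit 156) (nat_lit 228) (nat_lit 0) (XT.nd (nat_lit 78) (nat_lit 152) (nat_lit 0) (XT.lf (nat_lit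 0) (nat_lit 6488120896) (nat_lit 152) (nat_lit 2731161410) (nat_lit 228) (nat_lit 6441932510) (nat_lit 105) (nat_lit 5) (nat_lit 107) (nat_lit 5) (nat_lit 108) (nat_lit 5) (nat_lit 481) (nat_lit 389) (nat_lit 330)) (XT.lf (nat_lit 0) (nat_lit 1789271892) (nat_lit 152) (nat_lit 12875537207) (nat_lit 228) (nat_lit 1281567470) (nat_lit 103) (nat_lit 5) (nat_lit 105) (nat_lit 5) (nat_lit 106) (nat_lit 4) (nat_lit 482) (nat_lit 389) (nat_lit 329))) (XT.nd (nat_lit 78) (nat_lit 152) (nat_lit 0) (XT.lf (nat_lit 0) (nat_lit 4028151662) (nat_lit 228) (nat_lit 3121441141) (nat_lit 76) (nat_lit 9087140720) (nat_lit 102) (nat_lit 5) (nat_lit 105) (nat_lit 5) (nat_lit 103) (nat_lit 5) (nat_lit 483) (nat_lit 389) (nat_lit 328)) (XT.lf (nat_lit 0) (nat_lit 8311347906) (nat_lit 152) (nat_lit 1193993458) (nat_lit 228) (nat_lit 7029062162) (nat_lit 100) (nat_lit 5) (nat_lit 102) (nat_lit 5) (nat_lit 103) (nat_lit 5) (nat_lit 484)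 (nat_lit 389) (nat_lit 327)))) (XT.nd (nat_lit 156) (nat_lit 304) (nat_lit 0) (XT.nd (nat_lit 78) (nat_lit 76) (nat_lit 0) (XT.lf (nat_lit 0) (nat_lit 3242901081) (nat_lit 152) (nat_lit 11968669997) (nat_lit 228) (nat_lit 1627491910) (nat_lit 98) (nat_lit 5) (nat_lit 100) (nat_lit 5) (nat_lit 101) (nat_lit 4) (nat_lit 485) (nat_lit 389) (nat_lit 326)) (XT.lf (nat_lit 0) (nat_lit 3909316402) (nat_lit 228) (nat_lit 2063168354) (nat_lit 76) (nat_lit 11177743442) (nat_lit 97) (nat_lit 5) (nat_lit 100) (nat_lit 5) (nat_lit 98) (nat_lit 5) (nat_lit 486) (nat_lit 389) (nat_lit 325))) (XT.nd (nat_lit 78) (nat_lit 152) (nat_lit 0) (XT.lf (nat_lit 0) (nat_lit 9633150412) (nat_lit 228) (nat_lit 7559585750) (nat_lit 76) (nat_lit 275900812) (nat_lit 95) (nat_lit 5) (nat_lit 98) (nat_lit 5) (nat_lit 96) (nat_lit 4) (nat_lit 487) (nat_lit 389) (nat_lit 324)) (XT.lf (nat_lit 0) (nat_lit 4432464497) (nat_lit 152) (nat_lit 11174830952)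 (nat_lit 228) (nat_lit 2186945651) (nat_lit 93) (nat_lit 5) (nat_lit 95) (nat_lit 5) (nat_lit 96) (nat_lit 4) (nat_lit 488) (nat_lit 389) (nat_lit 323))))) (XT.nd (nat_lit 312) (nat_lit 456) (nat_lit 0) (XT.nd (nat_lit 156) (nat_lit 152) (nat_lit 0) (XT.nd (nat_lit 78) (nat_lit 152) (nat_lit 0) (XT.lf (nat_lit 0) (nat_lit 3593182482) (nat_lit 228) (nat_lit 1305269210) (nat_lit 76) (nat_lit 13229125876) (nat_lit 92) (nat_lit 5) (nat_lit 95) (nat_lit 5) (nat_lit 93) (nat_lit 5) (nat_lit 489) (nat_lit 389) (nat_lit 322)) (XT.lf (nat_lit 0) (nat_lit 9583888358) (nat_lit 228) (nat_lit 7253009412) (nat_lit 76) (nat_lit 1630933776) (nat_lit 90) (nat_lit 5) (nat_lit 93) (nat_lit 5) (nat_lit 91) (nat_lit 4) (nat_lit 490) (nat_lit 389) (nat_lit 321))) (XT.nd (nat_lit 78) (nat_lit 76) (nat_lit 0) (XT.lf (nat_lit 0) (nat_lit 5294764890) (nat_lit 76) (nat_lit 10529582813) (nat_lit 152) (nat_lit 2991845332) (nat_lit 89) (nat_lit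 5) (nat_lit 90) (nat_lit 5) (nat_lit 91) (nat_lit 4) (nat_lit 491) (nat_lit 389) (nat_lit 320)) (XT.lf (nat_lit 0) (nat_lit 3048332870) (nat_lit 152) (nat_lit 914830982) (nat_lit 76) (nat_lit 15210014149) (nat_lit 88) (nat_lit 5) (nat_lit 90) (nat_lit 5) (nat_lit 89) (nat_lit 5) (nat_lit 492) (nat_lit 389) (nat_lit 319)))) (XT.nd (nat_lit 156) (nat_lit 228) (nat_lit 0) (XT.nd (nat_lit 78) (nat_lit 76) (nat_lit 0) (XT.lf (nat_lit 0) (nat_lit 9313535145) (nat_lit 228) (nat_lit 7364361182) (nat_lit 76) (nat_lit 2858969753) (nat_lit 86) (nat_lit 5) (nat_lit 89) (nat_lit 5) (nat_lit 87) (nat_lit 4) (nat_lit 493) (nat_lit 389) (nat_lit 318)) (XT.lf (nat_lit 0) (nat_lit 5755821002) (nat_lit 76) (nat_lit 10073536241) (nat_lit 152) (nat_lit 4080228410) (nat_lit 85) (nat_lit 5) (nat_lit 86) (nat_lit 5) (nat_lit 87) (nat_lit 4) (nat_lit 494) (nat_lit 389) (nat_lit 317))) (XT.nd (nat_lit 78) (nat_lit 152) (nat_lit 0) (XT.lf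 (nat_lit 0) (nat_lit 2237247210) (nat_lit 152) (nat_lit 970277201) (nat_lit 76) (nat_lit 17084297174) (nat_lit 84) (nat_lit 5) (nat_lit 86) (nat_lit 5) (nat_lit 85) (nat_lit 5) (nat_lit 495) (nat_lit 389) (nat_lit 316)) (XT.lf (nat_lit 0) (nat_lit 8783173184) (nat_lit 228) (nat_lit 7978308226) (nat_lit 76) (nat_lit 3919203899) (nat_lit 82) (nat_lit 5) (nat_lit 85) (nat_lit 5) (nat_lit 83) (nat_lit 4) (nat_lit 496) (nat_lit 389) (nat_lit 315)))))) (XT.nd (nat_lit 624) (nat_lit 760) (nat_lit 0) (XT.nd (nat_lit 312) (nat_lit 304) (nat_lit 0) (XT.nd (nat_lit 156) (nat_lit 228) (nat_lit 0) (XT.nd (nat_lit 78) (nat_lit 76) (nat_lit 0) (XT.lf (nat_lit 0) (nat_lit 5728996802) (nat_lit 76) (nat_lit 9853347257) (nat_lit 152) (nat_lit 5497165548) (nat_lit 81) (nat_lit 5) (nat_lit 82) (nat_lit 5) (nat_lit 83) (nat_lit 4) (nat_lit 497) (nat_lit 389) (nat_lit 314)) (XT.lf (nat_lit 0) (nat_lit 1115382145) (nat_lit 152) (nat_lit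 1563316402) (nat_lit 76) (nat_lit 18810038042) (nat_lit 80) (nat_lit 5) (nat_lit 82) (nat_lit 5) (nat_lit 81) (nat_lit 5) (nat_lit 498) (nat_lit 389) (nat_lit 313))) (XT.nd (nat_lit 78) (nat_lit 76) (nat_lit 0) (XT.lf (nat_lit 0) (nat_lit 7946534586) (nat_lit 228) (nat_lit 9193742491) (nat_lit 76) (nat_lit 4764409625) (nat_lit 78) (nat_lit 5) (nat_lit 81) (nat_lit 5) (nat_lit 79) (nat_lit 4) (nat_lit 499) (nat_lit 389) (nat_lit 312)) (XT.lf (nat_lit 0) (nat_lit 5112836992) (nat_lit 76) (nat_lit 9922858323) (nat_lit 152) (nat_lit 7295828395) (nat_lit 77) (nat_lit 5) (nat_lit 78) (nat_lit 5) (nat_lit 79) (nat_lit 4) (nat_lit 500) (nat_lit 389) (nat_lit 311)))) (XT.nd (nat_lit 156) (nat_lit 76) (nat_lit 0) (XT.nd (nat_lit 78) (nat_lit 228) (nat_lit 0) (XT.lf (nat_lit 0) (nat_lit 19964700983) (nat_lit 76) (nat_lit 2427556916) (nat_lit 152) (nat_lit 377266703) (nat_lit 77) (nat_lit 5) (nat_lit 78) (nat_lit 5) (nat_lit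 79) (nat_lit 4) (nat_lit 501) (nat_lit 389) (nat_lit 310)) (XT.lf (nat_lit 0) (nat_lit 6748860420) (nat_lit 228) (nat_lit 11126175950) (nat_lit 76) (nat_lit 5339732390) (nat_lit 74) (nat_lit 5) (nat_lit 77) (nat_lit 5) (nat_lit 75) (nat_lit 4) (nat_lit 502) (nat_lit 389) (nat_lit 309))) (XT.nd (nat_lit 78) (nat_lit 0) (nat_lit 0) (XT.lf (nat_lit 0) (nat_lit 3788560657) (nat_lit 76) (nat_lit 10344408057) (nat_lit 152) (nat_lit 9538736603) (nat_lit 73) (nat_lit 5) (nat_lit 74) (nat_lit 5) (nat_lit 75) (nat_lit 4) (nat_lit 503) (nat_lit 389) (nat_lit 308)) (XT.lf (nat_lit 0) (nat_lit 19308407992) (nat_lit 76) (nat_lit 2505676981) (nat_lit 152) (nat_lit 2326000976) (nat_lit 73) (nat_lit 5) (nat_lit 74) (nat_lit 5) (nat_lit 75) (nat_lit 4) (nat_lit 504) (nat_lit 389) (nat_lit 307))))) (XT.nd (nat_lit 312) (nat_lit 228) (nat_lit 0) (XT.nd (nat_lit 156) (nat_lit 228) (nat_lit 0) (XT.nd (nat_lit 78) (nat_lit 76) (nat_lit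 0) (XT.lf (nat_lit 0) (nat_lit 5125569030) (nat_lit 228) (nat_lit 13910514521) (nat_lit 76) (nat_lit 5581302336) (nat_lit 70) (nat_lit 5) (nat_lit 73) (nat_lit 5) (nat_lit 71) (nat_lit 4) (nat_lit 505) (nat_lit 389) (nat_lit 306)) (XT.lf (nat_lit 0) (nat_lit 1617157463) (nat_lit 76) (nat_lit 11190338357) (nat_lit 152) (nat_lit 12299211788) (nat_lit 69) (nat_lit 5) (nat_lit 70) (nat_lit 5) (nat_lit 71) (nat_lit 4) (nat_lit 506) (nat_lit 389) (nat_lit 305))) (XT.nd (nat_lit 78) (nat_lit 228) (nat_lit 0) (XT.lf (nat_lit 0) (nat_lit 17827331184) (nat_lit 76) (nat_lit 2997343043) (nat_lit 152) (nat_lit 4782891400) (nat_lit 69) (nat_lit 5) (nat_lit 70) (nat_lit 5) (nat_lit 71) (nat_lit 4) (nat_lit 507) (nat_lit 389) (nat_lit 304)) (XT.lf (nat_lit 0) (nat_lit 3000703674) (nat_lit 228) (nat_lit 17704272049) (nat_lit 76) (nat_lit 5414635084) (nat_lit 66) (nat_lit 5) (nat_lit 69) (nat_lit 5) (nat_lit 67) (nat_lit 4) (nat_lit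 508) (nat_lit 389) (nat_lit 303)))) (XT.nd (nat_lit 156) (nat_lit 152) (nat_lit 0) (XT.nd (nat_lit 78) (nat_lit 76) (nat_lit 0) (XT.lf (nat_lit 0) (nat_lit 10995787952) (nat_lit 228) (nat_lit 1533459209) (nat_lit 76) (nat_lit 14114126563) (nat_lit 66) (nat_lit 5) (nat_lit 69) (nat_lit 5) (nat_lit 67) (nat_lit 4) (nat_lit 509) (nat_lit 389) (nat_lit 302)) (XT.lf (nat_lit 0) (nat_lit 15356849087) (nat_lit 76) (nat_lit 3987604888) (nat_lit 152) (nat_lit 7834984085) (nat_lit 65) (nat_lit 5) (nat_lit 66) (nat_lit 5) (nat_lit 67) (nat_lit 4) (nat_lit 510) (nat_lit 389) (nat_lit 301))) (XT.nd (nat_lit 78) (nat_lit 0) (nat_lit 0) (XT.lf (nat_lit 0) (nat_lit 285124906) (nat_lit 152) (nat_lit 22691295402) (nat_lit 76) (nat_lit 4752785289) (nat_lit 63) (nat_lit 5) (nat_lit 65) (nat_lit 5) (nat_lit 64) (nat_lit 4) (nat_lit 511) (nat_lit 389) (nat_lit 300)) (XT.lf (nat_lit 0) (nat_lit 8617617426) (nat_lit 152) (nat_lit 5828941343)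 (nat_lit 76) (nat_lit 13842792873) (nat_lit 63) (nat_lit 5) (nat_lit 65) (nat_lit 5) (nat_lit 64) (nat_lit 4) (nat_lit 512) (nat_lit 389) (nat_lit 299))))))))
noncomputable def xc72 : XT := (XT.nd (nat_lit 2418) (nat_lit 608) (nat_lit 0) (XT.nd (nat_lit 1170) (nat_lit 988) (nat_lit 0) (XT.nd (nat_lit 546) (nat_lit 532) (nat_lit 0) (XT.nd (nat_lit 234) (nat_lit 228) (nat_lit 0) (XT.nd (nat_lit 78) (nat_lit 152) (nat_lit 0) (XT.lf (nat_lit 0) (nat_lit 11704183643) (nat_lit 76) (nat_lit 5575600549) (nat_lit 152) (nat_lit 11584127256) (nat_lit 62) (nat_lit 5) (nat_lit 63) (nat_lit 5) (nat_lit 64) (nat_lit 4) (nat_lit 513) (nat_lit 389) (nat_lit 298)) (XT.nd (nat_lit 78) (nat_lit 76) (nat_lit 0) (XT.lf (nat_lit 0) (nat_lit 337057217) (nat_lit 76) (nat_lit 25928928217) (nat_lit 76) (nat_lit 3187797886) (nat_lit 61) (nat_lit 4) (nat_lit 62) (nat_lit 5) (nat_lit 62) (nat_lit 4) (nat_lit 514) (nat_lit 389) (nat_lit 297))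 (XT.lf (nat_lit 0) (nat_lit 5551346553) (nat_lit 152) (nat_lit 11518636361) (nat_lit 76) (nat_lit 12983869769) (nat_lit 60) (nat_lit 5) (nat_lit 62) (nat_lit 5) (nat_lit 61) (nat_lit 4) (nat_lit 515) (nat_lit 389) (nat_lit 296)))) (XT.nd (nat_lit 156) (nat_lit 152) (nat_lit 0) (XT.nd (nat_lit 78) (nat_lit 0) (nat_lit 0) (XT.lf (nat_lit 0) (nat_lit 6643750745) (nat_lit 76) (nat_lit 7876938317) (nat_lit 152) (nat_lit 16149325658) (nat_lit 59) (nat_lit 5) (nat_lit 60) (nat_lit 5) (nat_lit 61) (nat_lit 4) (nat_lit 516) (nat_lit 389) (nat_lit 295)) (XT.lf (nat_lit 0) (nat_lit 23860165300) (nat_lit 152) (nat_lit 5792275017) (nat_lit 0) (nat_lit 1649190013) (nat_lit 59) (nat_lit 5) (nat_lit 61) (nat_lit 4) (nat_lit 59) (nat_lit 4) (nat_lit 517) (nat_lit 389) (nat_lit 294))) (XT.nd (nat_lit 78) (nat_lit 0) (nat_lit 0) (XT.lf (nat_lit 0) (nat_lit 1672721251) (nat_lit 152) (nat_lit 18856878617) (nat_lit 76) (nat_lit 11416907317)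 (nat_lit 57) (nat_lit 5) (nat_lit 59) (nat_lit 5) (nat_lit 58) (nat_lit 4) (nat_lit 518) (nat_lit 389) (nat_lit 293)) (XT.lf (nat_lit 0) (nat_lit 10939068442) (nat_lit 152) (nat_lit 86511752) (nat_lit 76) (nat_lit 21582091063) (nat_lit 57) (nat_lit 5) (nat_lit 59) (nat_lit 5) (nat_lit 58) (nat_lit 4) (nat_lit 519) (nat_lit 389) (nat_lit 292))))) (XT.nd (nat_lit 312) (nat_lit 228) (nat_lit 0) (XT.nd (nat_lit 156) (nat_lit 152) (nat_lit 0) (XT.nd (nat_lit 78) (nat_lit 76) (nat_lit 0) (XT.lf (nat_lit 0) (nat_lit 19570602403) (nat_lit 76) (nat_lit 1071056078) (nat_lit 152) (nat_lit 12642264476) (nat_lit 56) (nat_lit 5) (nat_lit 57) (nat_lit 5) (nat_lit 58) (nat_lit 4) (nat_lit 520) (nat_lit 389) (nat_lit 291)) (XT.lf (nat_lit 0) (nat_lit 5805478443) (nat_lit 76) (nat_lit 24944972827) (nat_lit 76) (nat_lit 3226557456) (nat_lit 55) (nat_lit 4) (nat_lit 56) (nat_lit 5) (nat_lit 56) (nat_lit 4) (nat_lit 521) (nat_lit 389)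 (nat_lit 290))) (XT.nd (nat_lit 78) (nat_lit 76) (nat_lit 0) (XT.lf (nat_lit 0) (nat_lit 6465983704) (nat_lit 152) (nat_lit 8628290412) (nat_lit 76) (nat_lit 19591127508) (nat_lit 54) (nat_lit 5) (nat_lit 56) (nat_lit 5) (nat_lit 55) (nat_lit 4) (nat_lit 522) (nat_lit 389) (nat_lit 289)) (XT.lf (nat_lit 0) (nat_lit 11639809965) (nat_lit 76) (nat_lit 4827591955) (nat_lit 152) (nat_lit 18944197709) (nat_lit 53) (nat_lit 5) (nat_lit 54) (nat_lit 5) (nat_lit 55) (nat_lit 4) (nat_lit 523) (nat_lit 389) (nat_lit 288)))) (XT.nd (nat_lit 156) (nat_lit 76) (nat_lit 0) (XT.nd (nat_lit 78) (nat_lit 152) (nat_lit 0) (XT.lf (nat_lit 0) (nat_lit 26883201296) (nat_lit 152) (nat_lit 3576917638) (nat_lit 0) (nat_lit 5696034724) (nat_lit 53) (nat_lit 5) (nat_lit 55) (nat_lit 4) (nat_lit 53) (nat_lit 4) (nat_lit 524) (nat_lit 389) (nat_lit 287)) (XT.lf (nat_lit 0) (nat_lit 864448749) (nat_lit 152) (nat_lit 19464162957) (nat_lit 76)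 (nat_lit 16588550735) (nat_lit 51) (nat_lit 5) (nat_lit 53) (nat_lit 5) (nat_lit 52) (nat_lit 4) (nat_lit 525) (nat_lit 389) (nat_lit 286))) (XT.nd (nat_lit 78) (nat_lit 0) (nat_lit 0) (XT.lf (nat_lit 0) (nat_lit 1366685494) (nat_lit 76) (nat_lit 9774486797) (nat_lit 152) (nat_lit 26556427750) (nat_lit 50) (nat_lit 5) (nat_lit 51) (nat_lit 5) (nat_lit 52) (nat_lit 4) (nat_lit 526) (nat_lit 389) (nat_lit 285)) (XT.lf (nat_lit 0) (nat_lit 21907229713) (nat_lit 152) (nat_lit 15341652419) (nat_lit 0) (nat_lit 1247137883) (nat_lit 50) (nat_lit 5) (nat_lit 52) (nat_lit 4) (nat_lit 50) (nat_lit 4) (nat_lit 527) (nat_lit 389) (nat_lit 284)))))) (XT.nd (nat_lit 624) (nat_lit 532) (nat_lit 0) (XT.nd (nat_lit 312) (nat_lit 228) (nat_lit 0) (XT.nd (nat_lit 156) (nat_lit 76) (nat_lit 0) (XT.nd (nat_lit 78) (nat_lit 76) (nat_lit 0) (XT.lf (nat_lit 0) (nat_lit 6248984822) (nat_lit 76) (nat_lit 26876944096) (nat_lit 76) (nat_lit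 6188574079) (nat_lit 49) (nat_lit 4) (nat_lit 50) (nat_lit 5) (nat_lit 50) (nat_lit 4) (nat_lit 528) (nat_lit 389) (nat_lit 283)) (XT.lf (nat_lit 0) (nat_lit 4564660680) (nat_lit 152) (nat_lit 11449563385) (nat_lit 76) (nat_lit 24138133533) (nat_lit 48) (nat_lit 5) (nat_lit 50) (nat_lit 5) (nat_lit 49) (nat_lit 4) (nat_lit 529) (nat_lit 389) (nat_lit 282))) (XT.nd (nat_lit 78) (nat_lit 0) (nat_lit 0) (XT.lf (nat_lit 0) (nat_lit 10914656438) (nat_lit 76) (nat_lit 4679991792) (nat_lit 152) (nat_lit 25416505410) (nat_lit 47) (nat_lit 5) (nat_lit 48) (nat_lit 5) (nat_lit 49) (nat_lit 4) (nat_lit 530) (nat_lit 389) (nat_lit 281)) (XT.lf (nat_lit 0) (nat_lit 27113183816) (nat_lit 152) (nat_lit 7828071047) (nat_lit 0) (nat_lit 6949729431) (nat_lit 47) (nat_lit 5) (nat_lit 49) (nat_lit 4) (nat_lit 47) (nat_lit 4) (nat_lit 531) (nat_lit 389) (nat_lit 280)))) (XT.nd (nat_lit 156) (nat_lit 76) (nat_lit 0) (XT.nd (nat_lit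 78) (nat_lit 76) (nat_lit 0) (XT.lf (nat_lit 0) (nat_lit 15310389664) (nat_lit 76) (nat_lit 23834814954) (nat_lit 76) (nat_lit 3646967556) (nat_lit 46) (nat_lit 4) (nat_lit 47) (nat_lit 5) (nat_lit 47) (nat_lit 4) (nat_lit 532) (nat_lit 389) (nat_lit 279)) (XT.lf (nat_lit 0) (nat_lit 7719501801) (nat_lit 152) (nat_lit 4540941277) (nat_lit 76) (nat_lit 31456070359) (nat_lit 45) (nat_lit 5) (nat_lit 47) (nat_lit 5) (nat_lit 46) (nat_lit 4) (nat_lit 533) (nat_lit 389) (nat_lit 278))) (XT.nd (nat_lit 78) (nat_lit 0) (nat_lit 0) (XT.lf (nat_lit 0) (nat_lit 19381226794) (nat_lit 76) (nat_lit 133920733) (nat_lit 152) (nat_lit 25147509835) (nat_lit 44) (nat_lit 5) (nat_lit 45) (nat_lit 5) (nat_lit 46) (nat_lit 4) (nat_lit 534) (nat_lit 389) (nat_lit 277)) (XT.lf (nat_lit 0) (nat_lit 31804953530) (nat_lit 152) (nat_lit 1689910510) (nat_lit 0) (nat_lit 12138112997) (nat_lit 44) (nat_lit 5) (nat_lit 46) (nat_lit 4) (nat_lit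 44) (nat_lit 4) (nat_lit 535) (nat_lit 389) (nat_lit 276))))) (XT.nd (nat_lit 312) (nat_lit 228) (nat_lit 0) (XT.nd (nat_lit 156) (nat_lit 76) (nat_lit 0) (XT.nd (nat_lit 78) (nat_lit 152) (nat_lit 0) (XT.lf (nat_lit 0) (nat_lit 23009439800) (nat_lit 76) (nat_lit 21652447898) (nat_lit 76) (nat_lit 1964565739) (nat_lit 43) (nat_lit 4) (nat_lit 44) (nat_lit 5) (nat_lit 44) (nat_lit 4) (nat_lit 536) (nat_lit 389) (nat_lit 275)) (XT.lf (nat_lit 0) (nat_lit 702556103) (nat_lit 76) (nat_lit 9352058195) (nat_lit 152) (nat_lit 37592164920) (nat_lit 41) (nat_lit 5) (nat_lit 42) (nat_lit 5) (nat_lit 43) (nat_lit 4) (nat_lit 537) (nat_lit 389) (nat_lit 274))) (XT.nd (nat_lit 78) (nat_lit 76) (nat_lit 0) (XT.lf (nat_lit 0) (nat_lit 22643581983) (nat_lit 152) (nat_lit 22556044990) (nat_lit 0) (nat_lit 3490043464) (nat_lit 41) (nat_lit 5) (nat_lit 43) (nat_lit 4) (nat_lit 41) (nat_lit 4) (nat_lit 538) (nat_lit 389) (nat_lit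 273)) (XT.lf (nat_lit 0) (nat_lit 2473209512) (nat_lit 76) (nat_lit 33230040899) (nat_lit 76) (nat_lit 14057807168) (nat_lit 40) (nat_lit 4) (nat_lit 41) (nat_lit 5) (nat_lit 41) (nat_lit 4) (nat_lit 539) (nat_lit 389) (nat_lit 272)))) (XT.nd (nat_lit 156) (nat_lit 76) (nat_lit 0) (XT.nd (nat_lit 78) (nat_lit 152) (nat_lit 0) (XT.lf (nat_lit 0) (nat_lit 28669936192) (nat_lit 76) (nat_lit 20689447232) (nat_lit 76) (nat_lit 1499062809) (nat_lit 40) (nat_lit 4) (nat_lit 41) (nat_lit 5) (nat_lit 41) (nat_lit 4) (nat_lit 540) (nat_lit 389) (nat_lit 271)) (XT.lf (nat_lit 0) (nat_lit 3578809857) (nat_lit 76) (nat_lit 7646222808) (nat_lit 152) (nat_lit 40760073335) (nat_lit 38) (nat_lit 5) (nat_lit 39) (nat_lit 5) (nat_lit 40) (nat_lit 4) (nat_lit 541) (nat_lit 389) (nat_lit 270))) (XT.nd (nat_lit 78) (nat_lit 76) (nat_lit 0) (XT.lf (nat_lit 0) (nat_lit 24560014477) (nat_lit 152) (nat_lit 22682473077) (nat_lit 0) (nat_lit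 5894854067) (nat_lit 38) (nat_lit 5) (nat_lit 40) (nat_lit 4) (nat_lit 38) (nat_lit 4) (nat_lit 542) (nat_lit 389) (nat_lit 269)) (XT.lf (nat_lit 0) (nat_lit 3767260583) (nat_lit 76) (nat_lit 34617736190) (nat_lit 76) (nat_lit 15936449125) (nat_lit 37) (nat_lit 4) (nat_lit 38) (nat_lit 5) (nat_lit 38) (nat_lit 4) (nat_lit 543) (nat_lit 389) (nat_lit 268))))))) (XT.nd (nat_lit 53118) (nat_lit 0) (nat_lit 15124) (XT.nd (nat_lit 546) (nat_lit 228) (nat_lit 0) (XT.nd (nat_lit 234) (nat_lit 228) (nat_lit 0) (XT.nd (nat_lit 78) (nat_lit 152) (nat_lit 0) (XT.lf (nat_lit 0) (nat_lit 31432270536) (nat_lit 76) (nat_lit 21399763859) (nat_lit 76) (nat_lit 2702819848) (nat_lit 37) (nat_lit 4) (nat_lit 38) (nat_lit 5) (nat_lit 38) (nat_lit 4) (nat_lit 544) (nat_lit 389) (nat_lit 267)) (XT.nd (nat_lit 78) (nat_lit 0) (nat_lit 0) (XT.lf (nat_lit 0) (nat_lit 3054780061) (nat_lit 76) (nat_lit 7667843086) (nat_lit 152) (nat_lit 46058649075)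 (nat_lit 35) (nat_lit 5) (nat_lit 36) (nat_lit 5) (nat_lit 37) (nat_lit 4) (nat_lit 545) (nat_lit 389) (nat_lit 266)) (XT.lf (nat_lit 0) (nat_lit 24783254731) (nat_lit 152) (nat_lit 26670627411) (nat_lit 0) (nat_lit 6601795407) (nat_lit 35) (nat_lit 5) (nat_lit 37) (nat_lit 4) (nat_lit 35) (nat_lit 4) (nat_lit 546) (nat_lit 389) (nat_lit 265)))) (XT.nd (nat_lit 156) (nat_lit 152) (nat_lit 0) (XT.nd (nat_lit 78) (nat_lit 0) (nat_lit 0) (XT.lf (nat_lit 0) (nat_lit 1101350981) (nat_lit 76) (nat_lit 38230179855) (nat_lit 76) (nat_lit 20034809537) (nat_lit 34) (nat_lit 4) (nat_lit 35) (nat_lit 5) (nat_lit 35) (nat_lit 4) (nat_lit 547) (nat_lit 389) (nat_lit 264)) (XT.lf (nat_lit 0) (nat_lit 30212479331) (nat_lit 76) (nat_lit 24352627222) (nat_lit 76) (nat_lit 6143751085) (nat_lit 34) (nat_lit 4) (nat_lit 35) (nat_lit 5) (nat_lit 35) (nat_lit 4) (nat_lit 548) (nat_lit 389) (nat_lit 263))) (XT.nd (nat_lit 78) (nat_lit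 76) (nat_lit 0) (XT.lf (nat_lit 0) (nat_lit 7984658943) (nat_lit 152) (nat_lit 2013130927) (nat_lit 76) (nat_lit 52092108425) (nat_lit 33) (nat_lit 5) (nat_lit 35) (nat_lit 5) (nat_lit 34) (nat_lit 4) (nat_lit 549) (nat_lit 389) (nat_lit 262)) (XT.lf (nat_lit 0) (nat_lit 22709945682) (nat_lit 152) (nat_lit 35785369581) (nat_lit 0) (nat_lit 5006334892) (nat_lit 32) (nat_lit 5) (nat_lit 34) (nat_lit 4) (nat_lit 32) (nat_lit 4) (nat_lit 550) (nat_lit 389) (nat_lit 261))))) (XT.nd (nat_lit 52260) (nat_lit 0) (nat_lit 23636) (XT.nd (nat_lit 156) (nat_lit 152) (nat_lit 0) (XT.nd (nat_lit 78) (nat_lit 76) (nat_lit 0) (XT.lf (nat_lit 0) (nat_lit 37977037884) (nat_lit 152) (nat_lit 6714288019) (nat_lit 0) (nat_lit 20261427349) (nat_lit 32) (nat_lit 5) (nat_lit 34) (nat_lit 4) (nat_lit 32) (nat_lit 4) (nat_lit 551) (nat_lit 389) (nat_lit 260)) (XT.lf (nat_lit 0) (nat_lit 23652811864) (nat_lit 76) (nat_lit 30257792299) (nat_lit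 76) (nat_lit 12530531525) (nat_lit 31) (nat_lit 4) (nat_lit 32) (nat_lit 5) (nat_lit 32) (nat_lit 4) (nat_lit 552) (nat_lit 389) (nat_lit 259))) (XT.nd (nat_lit 78) (nat_lit 76) (nat_lit 0) (XT.lf (nat_lit 0) (nat_lit 2351764936) (nat_lit 152) (nat_lit 12964488863) (nat_lit 76) (nat_lit 52655751509) (nat_lit 30) (nat_lit 5) (nat_lit 32) (nat_lit 5) (nat_lit 31) (nat_lit 4) (nat_lit 553) (nat_lit 389) (nat_lit 258)) (XT.lf (nat_lit 0) (nat_lit 17586284424) (nat_lit 152) (nat_lit 51600358021) (nat_lit 0) (nat_lit 353708548) (nat_lit 29) (nat_lit 5) (nat_lit 31) (nat_lit 4) (nat_lit 29) (nat_lit 4) (nat_lit 554) (nat_lit 389) (nat_lit 257)))) (XT.nd (nat_lit 156) (nat_lit 2128) (nat_lit 0) (XT.nd (nat_lit 78) (nat_lit 0) (nat_lit 0) (XT.lf (nat_lit 0) (nat_lit 111710258) (nat_lit 988) (nat_lit 3210240028) (nat_lit 0) (nat_lit 111710258) (nat_lit 368) (nat_lit 5) (nat_lit 381) (nat_lit 4) (nat_lit 368) (nat_lit 4)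 (nat_lit 420) (nat_lit 390) (nat_lit 390)) (XT.lf (nat_lit 0) (nat_lit 3627409626) (nat_lit 988) (nat_lit 1593228749) (nat_lit 0) (nat_lit 1690208606) (nat_lit 368) (nat_lit 5) (nat_lit 381) (nat_lit 4) (nat_lit 368) (nat_lit 4) (nat_lit 421) (nat_lit 390) (nat_lit 389))) (XT.nd (nat_lit 78) (nat_lit 1064) (nat_lit 0) (XT.lf (nat_lit 0) (nat_lit 101620299) (nat_lit 1064) (nat_lit 3611689501) (nat_lit 76) (nat_lit 3244513465) (nat_lit 354) (nat_lit 5) (nat_lit 368) (nat_lit 5) (nat_lit 355) (nat_lit 4) (nat_lit 422) (nat_lit 390) (nat_lit 388)) (XT.lf (nat_lit 0) (nat_lit 1356298803) (nat_lit 1064) (nat_lit 2092112659) (nat_lit 1140) (nat_lit 3559049862) (nat_lit 340) (nat_lit 5) (nat_lit 354) (nat_lit 5) (nat_lit 355) (nat_lit 4) (nat_lit 423) (nat_lit 390) (nat_lit 387)))))) (XT.nd (nat_lit 624) (nat_lit 3268) (nat_lit 0) (XT.nd (nat_lit 312) (nat_lit 1900) (nat_lit 0) (XT.nd (nat_lit 156) (nat_lit 2128) (nat_lit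 0) (XT.nd (nat_lit 78) (nat_lit 1216) (nat_lit 0) (XT.lf (nat_lit 0) (nat_lit 6450215213) (nat_lit 1064) (nat_lit 380821749) (nat_lit 1140) (nat_lit 229501299) (nat_lit 340) (nat_lit 5) (nat_lit 354) (nat_lit 5) (nat_lit 355) (nat_lit 4) (nat_lit 424) (nat_lit 390) (nat_lit 386)) (XT.lf (nat_lit 0) (nat_lit 3096130511) (nat_lit 1216) (nat_lit 2586668495) (nat_lit 76) (nat_lit 1432738466) (nat_lit 324) (nat_lit 5) (nat_lit 340) (nat_lit 5) (nat_lit 325) (nat_lit 4) (nat_lit 425) (nat_lit 390) (nat_lit 385))) (XT.nd (nat_lit 78) (nat_lit 912) (nat_lit 0) (XT.lf (nat_lit 0) (nat_lit 2609258659) (nat_lit 1216) (nat_lit 3845641562) (nat_lit 1292) (nat_lit 719090400) (nat_lit 308) (nat_lit 5) (nat_lit 324) (nat_lit 5) (nat_lit 325) (nat_lit 4) (nat_lit 426) (nat_lit 390) (nat_lit 384)) (XT.lf (nat_lit 0) (nat_lit 668434461) (nat_lit 836) (nat_lit 1896148473) (nat_lit 912) (nat_lit 4670752973) (nat_lit 296) (nat_lit 5)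 (nat_lit 307) (nat_lit 5) (nat_lit 308) (nat_lit 5) (nat_lit 427) (nat_lit 390) (nat_lit 383)))) (XT.nd (nat_lit 156) (nat_lit 1216) (nat_lit 0) (XT.nd (nat_lit 78) (nat_lit 684) (nat_lit 0) (XT.lf (nat_lit 0) (nat_lit 5885601231) (nat_lit 912) (nat_lit 1254709955) (nat_lit 76) (nat_lit 159408740) (nat_lit 296) (nat_lit 5) (nat_lit 308) (nat_lit 5) (nat_lit 297) (nat_lit 4) (nat_lit 428) (nat_lit 390) (nat_lit 382)) (XT.lf (nat_lit 0) (nat_lit 1869399379) (nat_lit 684) (nat_lit 3203825948) (nat_lit 76) (nat_lit 2293249252) (nat_lit 287) (nat_lit 5) (nat_lit 296) (nat_lit 5) (nat_lit 288) (nat_lit 5) (nat_lit 429) (nat_lit 390) (nat_lit 381))) (XT.nd (nat_lit 78) (nat_lit 608) (nat_lit 0) (XT.lf (nat_lit 0) (nat_lit 2264459674) (nat_lit 608) (nat_lit 2902347199) (nat_lit 684) (nat_lit 2269700473) (nat_lit 279) (nat_lit 5) (nat_lit 287) (nat_lit 5) (nat_lit 288) (nat_lit 5) (nat_lit 430) (nat_lit 390) (nat_lit 380))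 (XT.lf (nat_lit 0) (nat_lit 351371695) (nat_lit 532) (nat_lit 628650537) (nat_lit 608) (nat_lit 6529940801) (nat_lit 271) (nat_lit 5) (nat_lit 278) (nat_lit 5) (nat_lit 279) (nat_lit 5) (nat_lit 431) (nat_lit 390) (nat_lit 379))))) (XT.nd (nat_lit 312) (nat_lit 1520) (nat_lit 0) (XT.nd (nat_lit 156) (nat_lit 1140) (nat_lit 0) (XT.nd (nat_lit 78) (nat_lit 608) (nat_lit 0) (XT.lf (nat_lit 0) (nat_lit 4262452868) (nat_lit 608) (nat_lit 1578401833) (nat_lit 76) (nat_lit 1744677345) (nat_lit 271) (nat_lit 5) (nat_lit 279) (nat_lit 5) (nat_lit 272) (nat_lit 5) (nat_lit 432) (nat_lit 390) (nat_lit 378)) (XT.lf (nat_lit 0) (nat_lit 4145410933) (nat_lit 608) (nat_lit 3458213572) (nat_lit 684) (nat_lit 60944201) (nat_lit 263) (nat_lit 5) (nat_lit 271) (nat_lit 5) (nat_lit 272) (nat_lit 5) (nat_lit 433) (nat_lit 390) (nat_lit 377))) (XT.nd (nat_lit 78) (nat_lit 532) (nat_lit 0) (XT.lf (nat_lit 0) (nat_lit 2240458201) (nat_lit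 532) (nat_lit 946768791) (nat_lit 608) (nat_lit 4559229762) (nat_lit 255) (nat_lit 5) (nat_lit 262) (nat_lit 5) (nat_lit 263) (nat_lit 5) (nat_lit 434) (nat_lit 390) (nat_lit 376)) (XT.lf (nat_lit 0) (nat_lit 303889073) (nat_lit 532) (nat_lit 6198612337) (nat_lit 608) (nat_lit 1329163325) (nat_lit 248) (nat_lit 5) (nat_lit 255) (nat_lit 5) (nat_lit 256) (nat_lit 5) (nat_lit 435) (nat_lit 390) (nat_lit 375)))) (XT.nd (nat_lit 156) (nat_lit 988) (nat_lit 0) (XT.nd (nat_lit 78) (nat_lit 456) (nat_lit 0) (XT.lf (nat_lit 0) (nat_lit 1941312197) (nat_lit 608) (nat_lit 1647209793) (nat_lit 76) (nat_lit 4330863532) (nat_lit 247) (nat_lit 5) (nat_lit 255) (nat_lit 5) (nat_lit 248) (nat_lit 5) (nat_lit 436) (nat_lit 390) (nat_lit 374)) (XT.lf (nat_lit 0) (nat_lit 4383845831) (nat_lit 456) (nat_lit 860867163) (nat_lit 532) (nat_lit 2765791578) (nat_lit 241) (nat_lit 5) (nat_lit 247) (nat_lit 5) (nat_lit 248) (nat_lit 5) (nat_lit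 437) (nat_lit 390) (nat_lit 373))) (XT.nd (nat_lit 78) (nat_lit 456) (nat_lit 0) (XT.lf (nat_lit 0) (nat_lit 511812075) (nat_lit 532) (nat_lit 5654791063) (nat_lit 76) (nat_lit 1938217911) (nat_lit 234) (nat_lit 5) (nat_lit 241) (nat_lit 5) (nat_lit 235) (nat_lit 5) (nat_lit 438) (nat_lit 390) (nat_lit 372)) (XT.lf (nat_lit 0) (nat_lit 454946231) (nat_lit 456) (nat_lit 3348298045) (nat_lit 532) (nat_lit 4398775124) (nat_lit 228) (nat_lit 5) (nat_lit 234) (nat_lit 5) (nat_lit 235) (nat_lit 5) (nat_lit 439) (nat_lit 390) (nat_lit 371))))))))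
noncomputable def xc73 : XT := (XT.nd (nat_lit 2418) (nat_lit 3800) (nat_lit 0) (XT.nd (nat_lit 1170) (nat_lit 3268) (nat_lit 0) (XT.nd (nat_lit 546) (nat_lit 2128) (nat_lit 0) (XT.nd (nat_lit 234) (nat_lit 1368) (nat_lit 0) (XT.nd (nat_lit 78) (nat_lit 912) (nat_lit 0) (XT.lf (nat_lit 0) (nat_lit 6764719962) (nat_lit 456) (nat_lit 408352073) (nat_lit 532) (nat_lit 1129678499) (nat_lit 228) (nat_lit 5) (nat_lit 234) (nat_lit 5) (nat_lit 235) (nat_lit 5) (nat_lit 440) (nat_lit 390) (nat_lit 370)) (XT.nd (nat_lit 78) (nat_lit 380) (nat_lit 0) (XT.lf (nat_lit 0) (nat_lit 2189981533) (nat_lit 532) (nat_lit 3600127193) (nat_lit 76) (nat_lit 2615871117) (nat_lit 221) (nat_lit 5) (nat_lit 228) (nat_lit 5) (nat_lit 222) (nat_lit 5) (nat_lit 441) (nat_lit 390) (nat_lit 369)) (XT.lf (nat_lit 0) (nat_lit 2800123063) (nat_lit 380) (nat_lit 2758170694) (nat_lit 456) (nat_lit 2954529558) (nat_lit 216) (nat_lit 5) (nat_lit 221)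 (nat_lit 5) (nat_lit 222) (nat_lit 5) (nat_lit 442) (nat_lit 390) (nat_lit 368)))) (XT.nd (nat_lit 156) (nat_lit 836) (nat_lit 0) (XT.nd (nat_lit 78) (nat_lit 0) (nat_lit 0) (XT.lf (nat_lit 0) (nat_lit 370228765) (nat_lit 532) (nat_lit 7871914493) (nat_lit 76) (nat_lit 381417305) (nat_lit 209) (nat_lit 5) (nat_lit 216) (nat_lit 5) (nat_lit 210) (nat_lit 5) (nat_lit 443) (nat_lit 390) (nat_lit 367)) (XT.lf (nat_lit 0) (nat_lit 3747519233) (nat_lit 532) (nat_lit 1366369243) (nat_lit 76) (nat_lit 3622494065) (nat_lit 209) (nat_lit 5) (nat_lit 216) (nat_lit 5) (nat_lit 210) (nat_lit 5) (nat_lit 444) (nat_lit 390) (nat_lit 366))) (XT.nd (nat_lit 78) (nat_lit 456) (nat_lit 0) (XT.lf (nat_lit 0) (nat_lit 5341115388) (nat_lit 380) (nat_lit 1865098457) (nat_lit 456) (nat_lit 1646977984) (nat_lit 204) (nat_lit 5) (nat_lit 209) (nat_lit 5) (nat_lit 210) (nat_lit 5) (nat_lit 445) (nat_lit 390) (nat_lit 365)) (XT.lf (nat_lit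 0) (nat_lit 1749124829) (nat_lit 456) (nat_lit 5735440922) (nat_lit 76) (nat_lit 1488757139) (nat_lit 198) (nat_lit 5) (nat_lit 204) (nat_lit 5) (nat_lit 199) (nat_lit 5) (nat_lit 446) (nat_lit 390) (nat_lit 364))))) (XT.nd (nat_lit 312) (nat_lit 1064) (nat_lit 0) (XT.nd (nat_lit 156) (nat_lit 760) (nat_lit 0) (XT.nd (nat_lit 78) (nat_lit 0) (nat_lit 0) (XT.lf (nat_lit 0) (nat_lit 1052979439) (nat_lit 304) (nat_lit 4155493457) (nat_lit 380) (nat_lit 3888266613) (nat_lit 194) (nat_lit 5) (nat_lit 198) (nat_lit 5) (nat_lit 199) (nat_lit 5) (nat_lit 447) (nat_lit 390) (nat_lit 363)) (XT.lf (nat_lit 0) (nat_lit 8064808661) (nat_lit 304) (nat_lit 695866645) (nat_lit 380) (nat_lit 463515737) (nat_lit 194) (nat_lit 5) (nat_lit 198) (nat_lit 5) (nat_lit 199) (nat_lit 5) (nat_lit 448) (nat_lit 390) (nat_lit 362))) (XT.nd (nat_lit 78) (nat_lit 304) (nat_lit 0) (XT.lf (nat_lit 0) (nat_lit 3021746662) (nat_lit 456) (nat_lit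 3461741012) (nat_lit 76) (nat_lit 2870572482) (nat_lit 188) (nat_lit 5) (nat_lit 194) (nat_lit 5) (nat_lit 189) (nat_lit 5) (nat_lit 449) (nat_lit 390) (nat_lit 361)) (XT.lf (nat_lit 0) (nat_lit 3654491956) (nat_lit 304) (nat_lit 2934868747) (nat_lit 380) (nat_lit 2898717903) (nat_lit 184) (nat_lit 5) (nat_lit 188) (nat_lit 5) (nat_lit 189) (nat_lit 5) (nat_lit 450) (nat_lit 390) (nat_lit 360)))) (XT.nd (nat_lit 156) (nat_lit 684) (nat_lit 0) (XT.nd (nat_lit 78) (nat_lit 0) (nat_lit 0) (XT.lf (nat_lit 0) (nat_lit 614538258) (nat_lit 380) (nat_lit 8281084142) (nat_lit 76) (nat_lit 730642246) (nat_lit 179) (nat_lit 5) (nat_lit 184) (nat_lit 5) (nat_lit 180) (nat_lit 5) (nat_lit 451) (nat_lit 390) (nat_lit 359)) (XT.lf (nat_lit 0) (nat_lit 4197818320) (nat_lit 380) (nat_lit 1064449118) (nat_lit 76) (nat_lit 4504785076) (nat_lit 179) (nat_lit 5) (nat_lit 184) (nat_lit 5) (nat_lit 180) (nat_lit 5) (nat_lit 452) (nat_lit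 390) (nat_lit 358))) (XT.nd (nat_lit 78) (nat_lit 380) (nat_lit 0) (XT.lf (nat_lit 0) (nat_lit 6398224708) (nat_lit 304) (nat_lit 1488126636) (nat_lit 380) (nat_lit 2025783805) (nat_lit 175) (nat_lit 5) (nat_lit 179) (nat_lit 5) (nat_lit 180) (nat_lit 5) (nat_lit 453) (nat_lit 390) (nat_lit 357)) (XT.lf (nat_lit 0) (nat_lit 1601676630) (nat_lit 380) (nat_lit 6072638507) (nat_lit 76) (nat_lit 2386508477) (nat_lit 170) (nat_lit 5) (nat_lit 175) (nat_lit 5) (nat_lit 171) (nat_lit 5) (nat_lit 454) (nat_lit 390) (nat_lit 356)))))) (XT.nd (nat_lit 624) (nat_lit 1444) (nat_lit 0) (XT.nd (nat_lit 312) (nat_lit 912) (nat_lit 0) (XT.nd (nat_lit 156) (nat_lit 608) (nat_lit 0) (XT.nd (nat_lit 78) (nat_lit 0) (nat_lit 0) (XT.lf (nat_lit 0) (nat_lit 1471769278) (nat_lit 304) (nat_lit 3827394099) (nat_lit 380) (nat_lit 4914153521) (nat_lit 166) (nat_lit 5) (nat_lit 170) (nat_lit 5) (nat_lit 171) (nat_lit 5) (nat_lit 455) (nat_lit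 390) (nat_lit 355)) (XT.lf (nat_lit 0) (nat_lit 9108594210) (nat_lit 380) (nat_lit 1100326384) (nat_lit 76) (nat_lit 161437150) (nat_lit 166) (nat_lit 5) (nat_lit 171) (nat_lit 5) (nat_lit 167) (nat_lit 5) (nat_lit 456) (nat_lit 390) (nat_lit 354))) (XT.nd (nat_lit 78) (nat_lit 228) (nat_lit 0) (XT.lf (nat_lit 0) (nat_lit 2494409319) (nat_lit 380) (nat_lit 3784989001) (nat_lit 76) (nat_lit 4250703675) (nat_lit 161) (nat_lit 5) (nat_lit 166) (nat_lit 5) (nat_lit 162) (nat_lit 5) (nat_lit 457) (nat_lit 390) (nat_lit 353)) (XT.lf (nat_lit 0) (nat_lit 4127785747) (nat_lit 228) (nat_lit 2200898104) (nat_lit 304) (nat_lit 4365859702) (nat_lit 158) (nat_lit 5) (nat_lit 161) (nat_lit 5) (nat_lit 162) (nat_lit 5) (nat_lit 458) (nat_lit 390) (nat_lit 352)))) (XT.nd (nat_lit 156) (nat_lit 532) (nat_lit 0) (XT.nd (nat_lit 78) (nat_lit 76) (nat_lit 0) (XT.lf (nat_lit 0) (nat_lit 1405734628) (nat_lit 304) (nat_lit 8883990970)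 (nat_lit 380) (nat_lit 573843564) (nat_lit 154) (nat_lit 5) (nat_lit 158) (nat_lit 5) (nat_lit 159) (nat_lit 5) (nat_lit 459) (nat_lit 390) (nat_lit 351)) (XT.lf (nat_lit 0) (nat_lit 3296324381) (nat_lit 380) (nat_lit 1433246156) (nat_lit 76) (nat_lit 6306254667) (nat_lit 153) (nat_lit 5) (nat_lit 158) (nat_lit 5) (nat_lit 154) (nat_lit 5) (nat_lit 460) (nat_lit 390) (nat_lit 350))) (XT.nd (nat_lit 78) (nat_lit 304) (nat_lit 0) (XT.lf (nat_lit 0) (nat_lit 6868081699) (nat_lit 228) (nat_lit 411381155) (nat_lit 304) (nat_lit 3933366370) (nat_lit 150) (nat_lit 5) (nat_lit 153) (nat_lit 5) (nat_lit 154) (nat_lit 5) (nat_lit 461) (nat_lit 390) (nat_lit 349)) (XT.lf (nat_lit 0) (nat_lit 22254403) (nat_lit 304) (nat_lit 7394909764) (nat_lit 76) (nat_lit 3976934095) (nat_lit 146) (nat_lit 5) (nat_lit 150) (nat_lit 5) (nat_lit 147) (nat_lit 5) (nat_lit 462) (nat_lit 390) (nat_lit 348))))) (XT.nd (nat_lit 312) (nat_lit 684)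 (nat_lit 0) (XT.nd (nat_lit 156) (nat_lit 532) (nat_lit 0) (XT.nd (nat_lit 78) (nat_lit 0) (nat_lit 0) (XT.lf (nat_lit 0) (nat_lit 985768094) (nat_lit 228) (nat_lit 3032641954) (nat_lit 304) (nat_lit 7561201796) (nat_lit 143) (nat_lit 5) (nat_lit 146) (nat_lit 5) (nat_lit 147) (nat_lit 5) (nat_lit 463) (nat_lit 390) (nat_lit 347)) (XT.lf (nat_lit 0) (nat_lit 8167616689) (nat_lit 304) (nat_lit 2107456865) (nat_lit 76) (nat_lit 1494624706) (nat_lit 143) (nat_lit 5) (nat_lit 147) (nat_lit 5) (nat_lit 144) (nat_lit 5) (nat_lit 464) (nat_lit 390) (nat_lit 346))) (XT.nd (nat_lit 78) (nat_lit 228) (nat_lit 0) (XT.lf (nat_lit 0) (nat_lit 505927357) (nat_lit 304) (nat_lit 5326907037) (nat_lit 76) (nat_lit 6131335943) (nat_lit 139) (nat_lit 5) (nat_lit 143) (nat_lit 5) (nat_lit 140) (nat_lit 5) (nat_lit 465) (nat_lit 390) (nat_lit 345)) (XT.lf (nat_lit 0) (nat_lit 3464476834) (nat_lit 228) (nat_lit 1200431267) (nat_lit 304)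 (nat_lit 7498496869) (nat_lit 136) (nat_lit 5) (nat_lit 139) (nat_lit 5) (nat_lit 140) (nat_lit 5) (nat_lit 466) (nat_lit 390) (nat_lit 344)))) (XT.nd (nat_lit 156) (nat_lit 380) (nat_lit 0) (XT.nd (nat_lit 78) (nat_lit 76) (nat_lit 0) (XT.lf (nat_lit 0) (nat_lit 138313970) (nat_lit 228) (nat_lit 8846038573) (nat_lit 304) (nat_lit 3383195417) (nat_lit 133) (nat_lit 5) (nat_lit 136) (nat_lit 5) (nat_lit 137) (nat_lit 5) (nat_lit 467) (nat_lit 390) (nat_lit 343)) (XT.lf (nat_lit 0) (nat_lit 885361351) (nat_lit 304) (nat_lit 3268672098) (nat_lit 76) (nat_lit 8422142345) (nat_lit 132) (nat_lit 5) (nat_lit 136) (nat_lit 5) (nat_lit 133) (nat_lit 5) (nat_lit 468) (nat_lit 390) (nat_lit 342))) (XT.nd (nat_lit 78) (nat_lit 228) (nat_lit 0) (XT.lf (nat_lit 0) (nat_lit 5225758611) (nat_lit 228) (nat_lit 6842427668) (nat_lit 76) (nat_lit 721519762) (nat_lit 130) (nat_lit 5) (nat_lit 133) (nat_lit 5) (nat_lit 131) (nat_lit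 5) (nat_lit 469) (nat_lit 390) (nat_lit 341)) (XT.lf (nat_lit 0) (nat_lit 2414541098) (nat_lit 228) (nat_lit 7327306932) (nat_lit 304) (nat_lit 3266431666) (nat_lit 127) (nat_lit 5) (nat_lit 130) (nat_lit 5) (nat_lit 131) (nat_lit 5) (nat_lit 470) (nat_lit 390) (nat_lit 340))))))) (XT.nd (nat_lit 1170) (nat_lit 1748) (nat_lit 0) (XT.nd (nat_lit 546) (nat_lit 912) (nat_lit 0) (XT.nd (nat_lit 234) (nat_lit 684) (nat_lit 0) (XT.nd (nat_lit 78) (nat_lit 380) (nat_lit 0) (XT.lf (nat_lit 0) (nat_lit 1155119394) (nat_lit 304) (nat_lit 1243033012) (nat_lit 76) (nat_lit 10834393057) (nat_lit 126) (nat_lit 5) (nat_lit 130) (nat_lit 5) (nat_lit 127) (nat_lit 5) (nat_lit 471) (nat_lit 390) (nat_lit 339)) (XT.nd (nat_lit 78) (nat_lit 228) (nat_lit 0) (XT.lf (nat_lit 0) (nat_lit 5700742476) (nat_lit 228) (nat_lit 5054495721) (nat_lit 76) (nat_lit 2705620200) (nat_lit 124) (nat_lit 5) (nat_lit 127) (nat_lit 5) (nat_lit 125) (nat_lit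 5) (nat_lit 472) (nat_lit 390) (nat_lit 338)) (XT.lf (nat_lit 0) (nat_lit 4655003062) (nat_lit 228) (nat_lit 5758680140) (nat_lit 304) (nat_lit 3281410745) (nat_lit 121) (nat_lit 5) (nat_lit 124) (nat_lit 5) (nat_lit 125) (nat_lit 5) (nat_lit 473) (nat_lit 390) (nat_lit 337)))) (XT.nd (nat_lit 156) (nat_lit 456) (nat_lit 0) (XT.nd (nat_lit 78) (nat_lit 0) (nat_lit 0) (XT.lf (nat_lit 0) (nat_lit 738491898) (nat_lit 152) (nat_lit 575746261) (nat_lit 228) (nat_lit 12621478942) (nat_lit 118) (nat_lit 5) (nat_lit 120) (nat_lit 5) (nat_lit 121) (nat_lit 5) (nat_lit 474) (nat_lit 390) (nat_lit 336)) (XT.lf (nat_lit 0) (nat_lit 6069973615) (nat_lit 228) (nat_lit 3351712013) (nat_lit 76) (nat_lit 4758255091) (nat_lit 118) (nat_lit 5) (nat_lit 121) (nat_lit 5) (nat_lit 119) (nat_lit 5) (nat_lit 475) (nat_lit 390) (nat_lit 335))) (XT.nd (nat_lit 78) (nat_lit 228) (nat_lit 0) (XT.lf (nat_lit 0) (nat_lit 6831865817) (nat_lit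 228) (nat_lit 4159535822) (nat_lit 304) (nat_lit 3439400299) (nat_lit 115) (nat_lit 5) (nat_lit 118) (nat_lit 5) (nat_lit 119) (nat_lit 5) (nat_lit 476) (nat_lit 390) (nat_lit 334)) (XT.lf (nat_lit 0) (nat_lit 1368482509) (nat_lit 228) (nat_lit 12046207519) (nat_lit 76) (nat_lit 1273386205) (nat_lit 112) (nat_lit 5) (nat_lit 115) (nat_lit 5) (nat_lit 113) (nat_lit 5) (nat_lit 477) (nat_lit 390) (nat_lit 333))))) (XT.nd (nat_lit 312) (nat_lit 532) (nat_lit 0) (XT.nd (nat_lit 156) (nat_lit 228) (nat_lit 0) (XT.nd (nat_lit 78) (nat_lit 152) (nat_lit 0) (XT.lf (nat_lit 0) (nat_lit 6322168252) (nat_lit 228) (nat_lit 1766383290) (nat_lit 76) (nat_lit 6861376140) (nat_lit 112) (nat_lit 5) (nat_lit 115) (nat_lit 5) (nat_lit 113) (nat_lit 5) (nat_lit 478) (nat_lit 390) (nat_lit 332)) (XT.lf (nat_lit 0) (nat_lit 8912955390) (nat_lit 152) (nat_lit 2550600876) (nat_lit 228) (nat_lit 3754906997) (nat_lit 110) (nat_lit 5) (nat_lit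 112) (nat_lit 5) (nat_lit 113) (nat_lit 5) (nat_lit 479) (nat_lit 390) (nat_lit 331))) (XT.nd (nat_lit 78) (nat_lit 0) (nat_lit 0) (XT.lf (nat_lit 0) (nat_lit 1284424760) (nat_lit 228) (nat_lit 11079076224) (nat_lit 76) (nat_lit 3129841795) (nat_lit 107) (nat_lit 5) (nat_lit 110) (nat_lit 5) (nat_lit 108) (nat_lit 5) (nat_lit 480) (nat_lit 390) (nat_lit 330)) (XT.lf (nat_lit 0) (nat_lit 6442766847) (nat_lit 228) (nat_lit 335864860) (nat_lit 76) (nat_lit 8995423871) (nat_lit 107) (nat_lit 5) (nat_lit 110) (nat_lit 5) (nat_lit 108) (nat_lit 5) (nat_lit 481) (nat_lit 390) (nat_lit 329)))) (XT.nd (nat_lit 156) (nat_lit 152) (nat_lit 0) (XT.nd (nat_lit 78) (nat_lit 228) (nat_lit 0) (XT.lf (nat_lit 0) (nat_lit 10860862709) (nat_lit 152) (nat_lit 954488152) (nat_lit 228) (nat_lit 4246055339) (nat_lit 105) (nat_lit 5) (nat_lit 107) (nat_lit 5) (nat_lit 108) (nat_lit 5) (nat_lit 482) (nat_lit 390) (nat_lit 328)) (XT.lf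 (nat_lit 0) (nat_lit 1038207292) (nat_lit 228) (nat_lit 10334243757) (nat_lit 76) (nat_lit 4982666683) (nat_lit 102) (nat_lit 5) (nat_lit 105) (nat_lit 5) (nat_lit 103) (nat_lit 5) (nat_lit 483) (nat_lit 390) (nat_lit 327))) (XT.nd (nat_lit 78) (nat_lit 0) (nat_lit 0) (XT.lf (nat_lit 0) (nat_lit 914295932) (nat_lit 152) (nat_lit 5508016769) (nat_lit 228) (nat_lit 10233268098) (nat_lit 100) (nat_lit 5) (nat_lit 102) (nat_lit 5) (nat_lit 103) (nat_lit 5) (nat_lit 484) (nat_lit 390) (nat_lit 326)) (XT.lf (nat_lit 0) (nat_lit 12034010596) (nat_lit 228) (nat_lit 4337135833) (nat_lit 76) (nat_lit 591930306) (nat_lit 100) (nat_lit 5) (nat_lit 103) (nat_lit 5) (nat_lit 101) (nat_lit 4) (nat_lit 485) (nat_lit 390) (nat_lit 325)))))) (XT.nd (nat_lit 624) (nat_lit 684) (nat_lit 0) (XT.nd (nat_lit 312) (nat_lit 532) (nat_lit 0) (XT.nd (nat_lit 156) (nat_lit 152) (nat_lit 0) (XT.nd (nat_lit 78) (nat_lit 152) (nat_lit 0) (XT.lf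 (nat_lit 0) (nat_lit 607377991) (nat_lit 228) (nat_lit 9862693608) (nat_lit 76) (nat_lit 6807066634) (nat_lit 97) (nat_lit 5) (nat_lit 100) (nat_lit 5) (nat_lit 98) (nat_lit 5) (nat_lit 486) (nat_lit 390) (nat_lit 324)) (XT.lf (nat_lit 0) (nat_lit 1917439518) (nat_lit 152) (nat_lit 4313009029) (nat_lit 228) (nat_lit 11368121842) (nat_lit 95) (nat_lit 5) (nat_lit 97) (nat_lit 5) (nat_lit 98) (nat_lit 5) (nat_lit 487) (nat_lit 390) (nat_lit 323))) (XT.nd (nat_lit 78) (nat_lit 152) (nat_lit 0) (XT.lf (nat_lit 0) (nat_lit 12099394552) (nat_lit 228) (nat_lit 3773067479) (nat_lit 76) (nat_lit 2054868917) (nat_lit 95) (nat_lit 5) (nat_lit 98) (nat_lit 5) (nat_lit 96) (nat_lit 4) (nat_lit 488) (nat_lit 390) (nat_lit 322)) (XT.lf (nat_lit 0) (nat_lit 8539398139) (nat_lit 152) (nat_lit 9688150894) (nat_lit 228) (nat_lit 35911999) (nat_lit 93) (nat_lit 5) (nat_lit 95) (nat_lit 5) (nat_lit 96) (nat_lit 4) (nat_lit 489) (nat_lit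 390) (nat_lit 321)))) (XT.nd (nat_lit 156) (nat_lit 304) (nat_lit 0) (XT.nd (nat_lit 78) (nat_lit 0) (nat_lit 0) (XT.lf (nat_lit 0) (nat_lit 2606690367) (nat_lit 152) (nat_lit 3229429499) (nat_lit 228) (nat_lit 12771187169) (nat_lit 90) (nat_lit 5) (nat_lit 92) (nat_lit 5) (nat_lit 93) (nat_lit 5) (nat_lit 490) (nat_lit 390) (nat_lit 320)) (XT.lf (nat_lit 0) (nat_lit 11974229612) (nat_lit 228) (nat_lit 3563045420) (nat_lit 76) (nat_lit 3421464389) (nat_lit 90) (nat_lit 5) (nat_lit 93) (nat_lit 5) (nat_lit 91) (nat_lit 4) (nat_lit 491) (nat_lit 390) (nat_lit 319))) (XT.nd (nat_lit 78) (nat_lit 228) (nat_lit 0) (XT.lf (nat_lit 0) (nat_lit 9322852756) (nat_lit 76) (nat_lit 9054996212) (nat_lit 152) (nat_lit 940425633) (nat_lit 89) (nat_lit 5) (nat_lit 90) (nat_lit 5) (nat_lit 91) (nat_lit 4) (nat_lit 492) (nat_lit 390) (nat_lit 318)) (XT.lf (nat_lit 0) (nat_lit 2911694015) (nat_lit 152) (nat_lit 2294323476) (nat_lit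 228) (nat_lit 14480330070) (nat_lit 86) (nat_lit 5) (nat_lit 88) (nat_lit 5) (nat_lit 89) (nat_lit 5) (nat_lit 493) (nat_lit 390) (nat_lit 317))))) (XT.nd (nat_lit 312) (nat_lit 380) (nat_lit 0) (XT.nd (nat_lit 156) (nat_lit 228) (nat_lit 0) (XT.nd (nat_lit 78) (nat_lit 76) (nat_lit 0) (XT.lf (nat_lit 0) (nat_lit 11624736254) (nat_lit 228) (nat_lit 3781651516) (nat_lit 76) (nat_lit 4655592828) (nat_lit 86) (nat_lit 5) (nat_lit 89) (nat_lit 5) (nat_lit 87) (nat_lit 4) (nat_lit 494) (nat_lit 390) (nat_lit 316)) (XT.lf (nat_lit 0) (nat_lit 9694845539) (nat_lit 76) (nat_lit 8618213437) (nat_lit 152) (nat_lit 2133513098) (nat_lit 85) (nat_lit 5) (nat_lit 86) (nat_lit 5) (nat_lit 87) (nat_lit 4) (nat_lit 495) (nat_lit 390) (nat_lit 315))) (XT.nd (nat_lit 78) (nat_lit 0) (nat_lit 0) (XT.lf (nat_lit 0) (nat_lit 2750164947) (nat_lit 152) (nat_lit 1550292392) (nat_lit 228) (nat_lit 16540201693) (nat_lit 82) (nat_lit 5) (nat_lit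 84) (nat_lit 5) (nat_lit 85) (nat_lit 5) (nat_lit 496) (nat_lit 390) (nat_lit 314)) (XT.lf (nat_lit 0) (nat_lit 11010593551) (nat_lit 228) (nat_lit 4516007940) (nat_lit 76) (nat_lit 5715553203) (nat_lit 82) (nat_lit 5) (nat_lit 85) (nat_lit 5) (nat_lit 83) (nat_lit 4) (nat_lit 497) (nat_lit 390) (nat_lit 313)))) (XT.nd (nat_lit 156) (nat_lit 76) (nat_lit 0) (XT.nd (nat_lit 78) (nat_lit 228) (nat_lit 0) (XT.lf (nat_lit 0) (nat_lit 9566225557) (nat_lit 76) (nat_lit 8425545963) (nat_lit 152) (nat_lit 3661832215) (nat_lit 81) (nat_lit 5) (nat_lit 82) (nat_lit 5) (nat_lit 83) (nat_lit 4) (nat_lit 498) (nat_lit 390) (nat_lit 312)) (XT.lf (nat_lit 0) (nat_lit 2025842185) (nat_lit 152) (nat_lit 1046568504) (nat_lit 228) (nat_lit 19003250402) (nat_lit 78) (nat_lit 5) (nat_lit 80) (nat_lit 5) (nat_lit 81) (nat_lit 5) (nat_lit 499) (nat_lit 390) (nat_lit 311))) (XT.nd (nat_lit 78) (nat_lit 76) (nat_lit 0) (XT.lf (nat_lit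 0) (nat_lit 10083931908) (nat_lit 228) (nat_lit 5867906311) (nat_lit 76) (nat_lit 6552989354) (nat_lit 78) (nat_lit 5) (nat_lit 81) (nat_lit 5) (nat_lit 79) (nat_lit 4) (nat_lit 500) (nat_lit 390) (nat_lit 310)) (XT.lf (nat_lit 0) (nat_lit 8832560277) (nat_lit 76) (nat_lit 8532178289) (nat_lit 152) (nat_lit 5580362856) (nat_lit 77) (nat_lit 5) (nat_lit 78) (nat_lit 5) (nat_lit 79) (nat_lit 4) (nat_lit 501) (nat_lit 390) (nat_lit 309))))))))
noncomputable def xc74 : XT := (XT.nd (nat_lit 2418) (nat_lit 1292) (nat_lit 0) (XT.nd (nat_lit 1170) (nat_lit 988) (nat_lit 0) (XT.nd (nat_lit 546) (nat_lit 684) (nat_lit 0) (XT.nd (nat_lit 234) (nat_lit 304) (nat_lit 0) (XT.nd (nat_lit 78) (nat_lit 76) (nat_lit 0) (XT.lf (nat_lit 0) (nat_lit 626122869) (nat_lit 152) (nat_lit 840247616) (nat_lit 228) (nat_lit 21930903567) (nat_lit 74) (nat_lit 5) (nat_lit 76) (nat_lit 5) (nat_lit 77) (nat_lit 5) (nat_lit 502) (nat_lit 390)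 (nat_lit 308)) (XT.nd (nat_lit 78) (nat_lit 76) (nat_lit 0) (XT.lf (nat_lit 0) (nat_lit 8788155741) (nat_lit 228) (nat_lit 7956272556) (nat_lit 76) (nat_lit 7111652260) (nat_lit 74) (nat_lit 5) (nat_lit 77) (nat_lit 5) (nat_lit 75) (nat_lit 4) (nat_lit 503) (nat_lit 390) (nat_lit 307)) (XT.lf (nat_lit 0) (nat_lit 7371556260) (nat_lit 76) (nat_lit 9002080542) (nat_lit 152) (nat_lit 7953693692) (nat_lit 73) (nat_lit 5) (nat_lit 74) (nat_lit 5) (nat_lit 75) (nat_lit 4) (nat_lit 504) (nat_lit 390) (nat_lit 306)))) (XT.nd (nat_lit 156) (nat_lit 76) (nat_lit 0) (XT.nd (nat_lit 78) (nat_lit 228) (nat_lit 0) (XT.lf (nat_lit 0) (nat_lit 23255950313) (nat_lit 76) (nat_lit 976323255) (nat_lit 152) (nat_lit 579077113) (nat_lit 73) (nat_lit 5) (nat_lit 74) (nat_lit 5) (nat_lit 75) (nat_lit 4) (nat_lit 505) (nat_lit 390) (nat_lit 305)) (XT.lf (nat_lit 0) (nat_lit 7056569758) (nat_lit 228) (nat_lit 10920022060) (nat_lit 76) (nat_lit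 7325975198) (nat_lit 70) (nat_lit 5) (nat_lit 73) (nat_lit 5) (nat_lit 71) (nat_lit 4) (nat_lit 506) (nat_lit 390) (nat_lit 304))) (XT.nd (nat_lit 78) (nat_lit 0) (nat_lit 0) (XT.lf (nat_lit 0) (nat_lit 5040070203) (nat_lit 76) (nat_lit 9909556840) (nat_lit 152) (nat_lit 10857521847) (nat_lit 69) (nat_lit 5) (nat_lit 70) (nat_lit 5) (nat_lit 71) (nat_lit 4) (nat_lit 507) (nat_lit 390) (nat_lit 303)) (XT.lf (nat_lit 0) (nat_lit 21638265698) (nat_lit 76) (nat_lit 1517853948) (nat_lit 152) (nat_lit 3168449701) (nat_lit 69) (nat_lit 5) (nat_lit 70) (nat_lit 5) (nat_lit 71) (nat_lit 4) (nat_lit 508) (nat_lit 390) (nat_lit 302))))) (XT.nd (nat_lit 312) (nat_lit 228) (nat_lit 0) (XT.nd (nat_lit 156) (nat_lit 152) (nat_lit 0) (XT.nd (nat_lit 78) (nat_lit 76) (nat_lit 0) (XT.lf (nat_lit 0) (nat_lit 4810778170) (nat_lit 228) (nat_lit 14921368302) (nat_lit 76) (nat_lit 7119430233) (nat_lit 66) (nat_lit 5) (nat_lit 69) (nat_lit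 5) (nat_lit 67) (nat_lit 4) (nat_lit 509) (nat_lit 390) (nat_lit 301)) (XT.lf (nat_lit 0) (nat_lit 1670644004) (nat_lit 76) (nat_lit 11341031582) (nat_lit 152) (nat_lit 14380398711) (nat_lit 65) (nat_lit 5) (nat_lit 66) (nat_lit 5) (nat_lit 67) (nat_lit 4) (nat_lit 510) (nat_lit 390) (nat_lit 300))) (XT.nd (nat_lit 78) (nat_lit 152) (nat_lit 0) (XT.lf (nat_lit 0) (nat_lit 19003517084) (nat_lit 76) (nat_lit 2573211216) (nat_lit 152) (nat_lit 6368515051) (nat_lit 65) (nat_lit 5) (nat_lit 66) (nat_lit 5) (nat_lit 67) (nat_lit 4) (nat_lit 511) (nat_lit 390) (nat_lit 299)) (XT.lf (nat_lit 0) (nat_lit 1958821187) (nat_lit 152) (nat_lit 20149658157) (nat_lit 76) (nat_lit 6402629642) (nat_lit 63) (nat_lit 5) (nat_lit 65) (nat_lit 5) (nat_lit 64) (nat_lit 4) (nat_lit 512) (nat_lit 390) (nat_lit 298)))) (XT.nd (nat_lit 156) (nat_lit 152) (nat_lit 0) (XT.nd (nat_lit 78) (nat_lit 76) (nat_lit 0) (XT.lf (nat_lit 0) (nat_lit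 10492789186) (nat_lit 152) (nat_lit 2875289090) (nat_lit 76) (nat_lit 15721436653) (nat_lit 63) (nat_lit 5) (nat_lit 65) (nat_lit 5) (nat_lit 64) (nat_lit 4) (nat_lit 513) (nat_lit 390) (nat_lit 297)) (XT.lf (nat_lit 0) (nat_lit 15153157876) (nat_lit 76) (nat_lit 4244354801) (nat_lit 152) (nat_lit 10284318626) (nat_lit 62) (nat_lit 5) (nat_lit 63) (nat_lit 5) (nat_lit 64) (nat_lit 4) (nat_lit 514) (nat_lit 390) (nat_lit 296))) (XT.nd (nat_lit 78) (nat_lit 76) (nat_lit 0) (XT.lf (nat_lit 0) (nat_lit 3447910108) (nat_lit 76) (nat_lit 25202598575) (nat_lit 76) (nat_lit 1638974893) (nat_lit 61) (nat_lit 4) (nat_lit 62) (nat_lit 5) (nat_lit 62) (nat_lit 4) (nat_lit 515) (nat_lit 390) (nat_lit 295)) (XT.lf (nat_lit 0) (nat_lit 7283292437) (nat_lit 152) (nat_lit 8822596528) (nat_lit 76) (nat_lit 14802601173) (nat_lit 60) (nat_lit 5) (nat_lit 62) (nat_lit 5) (nat_lit 61) (nat_lit 4) (nat_lit 516) (nat_lit 390) (nat_lit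 294)))))) (XT.nd (nat_lit 624) (nat_lit 456) (nat_lit 0) (XT.nd (nat_lit 312) (nat_lit 228) (nat_lit 0) (XT.nd (nat_lit 156) (nat_lit 228) (nat_lit 0) (XT.nd (nat_lit 78) (nat_lit 0) (nat_lit 0) (XT.lf (nat_lit 0) (nat_lit 9854842593) (nat_lit 76) (nat_lit 6650229359) (nat_lit 152) (nat_lit 15038564847) (nat_lit 59) (nat_lit 5) (nat_lit 60) (nat_lit 5) (nat_lit 61) (nat_lit 4) (nat_lit 517) (nat_lit 390) (nat_lit 293)) (XT.lf (nat_lit 0) (nat_lit 26093276700) (nat_lit 152) (nat_lit 3010514847) (nat_lit 0) (nat_lit 3091353456) (nat_lit 59) (nat_lit 5) (nat_lit 61) (nat_lit 4) (nat_lit 59) (nat_lit 4) (nat_lit 518) (nat_lit 390) (nat_lit 292))) (XT.nd (nat_lit 78) (nat_lit 76) (nat_lit 0) (XT.lf (nat_lit 0) (nat_lit 3239025883) (nat_lit 152) (nat_lit 16465844323) (nat_lit 76) (nat_lit 13154534324) (nat_lit 57) (nat_lit 5) (nat_lit 59) (nat_lit 5) (nat_lit 58) (nat_lit 4) (nat_lit 519) (nat_lit 390) (nat_lit 291))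 (XT.lf (nat_lit 0) (nat_lit 2836872488) (nat_lit 76) (nat_lit 9929601833) (nat_lit 152) (nat_lit 20774436291) (nat_lit 56) (nat_lit 5) (nat_lit 57) (nat_lit 5) (nat_lit 58) (nat_lit 4) (nat_lit 520) (nat_lit 390) (nat_lit 290)))) (XT.nd (nat_lit 156) (nat_lit 152) (nat_lit 0) (XT.nd (nat_lit 78) (nat_lit 76) (nat_lit 0) (XT.lf (nat_lit 0) (nat_lit 22720042388) (nat_lit 152) (nat_lit 11241254891) (nat_lit 0) (nat_lit 277355975) (nat_lit 56) (nat_lit 5) (nat_lit 58) (nat_lit 4) (nat_lit 56) (nat_lit 4) (nat_lit 521) (nat_lit 390) (nat_lit 289)) (XT.lf (nat_lit 0) (nat_lit 8824338260) (nat_lit 76) (nat_lit 24302902248) (nat_lit 76) (nat_lit 1825437232) (nat_lit 55) (nat_lit 4) (nat_lit 56) (nat_lit 5) (nat_lit 56) (nat_lit 4) (nat_lit 522) (nat_lit 390) (nat_lit 288))) (XT.nd (nat_lit 78) (nat_lit 76) (nat_lit 0) (XT.lf (nat_lit 0) (nat_lit 8085873110) (nat_lit 152) (nat_lit 6096908234) (nat_lit 76) (nat_lit 21500392799)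 (nat_lit 54) (nat_lit 5) (nat_lit 56) (nat_lit 5) (nat_lit 55) (nat_lit 4) (nat_lit 523) (nat_lit 390) (nat_lit 287)) (XT.lf (nat_lit 0) (nat_lit 14751879949) (nat_lit 76) (nat_lit 3620481019) (nat_lit 152) (nat_lit 18059246664) (nat_lit 53) (nat_lit 5) (nat_lit 54) (nat_lit 5) (nat_lit 55) (nat_lit 4) (nat_lit 524) (nat_lit 390) (nat_lit 286))))) (XT.nd (nat_lit 312) (nat_lit 228) (nat_lit 0) (XT.nd (nat_lit 156) (nat_lit 76) (nat_lit 0) (XT.nd (nat_lit 78) (nat_lit 152) (nat_lit 0) (XT.lf (nat_lit 0) (nat_lit 29072156220) (nat_lit 152) (nat_lit 973331954) (nat_lit 0) (nat_lit 7153864797) (nat_lit 53) (nat_lit 5) (nat_lit 55) (nat_lit 4) (nat_lit 53) (nat_lit 4) (nat_lit 525) (nat_lit 390) (nat_lit 285)) (XT.lf (nat_lit 0) (nat_lit 2271934085) (nat_lit 152) (nat_lit 17336265557) (nat_lit 76) (nat_lit 18375020248) (nat_lit 51) (nat_lit 5) (nat_lit 53) (nat_lit 5) (nat_lit 52) (nat_lit 4) (nat_lit 526) (nat_lit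 390) (nat_lit 284))) (XT.nd (nat_lit 78) (nat_lit 0) (nat_lit 0) (XT.lf (nat_lit 0) (nat_lit 4092921855) (nat_lit 76) (nat_lit 8749610232) (nat_lit 152) (nat_lit 25944971664) (nat_lit 50) (nat_lit 5) (nat_lit 51) (nat_lit 5) (nat_lit 52) (nat_lit 4) (nat_lit 527) (nat_lit 390) (nat_lit 283)) (XT.lf (nat_lit 0) (nat_lit 23904053516) (nat_lit 152) (nat_lit 13167348986) (nat_lit 0) (nat_lit 2539299662) (nat_lit 50) (nat_lit 5) (nat_lit 52) (nat_lit 4) (nat_lit 50) (nat_lit 4) (nat_lit 528) (nat_lit 390) (nat_lit 282)))) (XT.nd (nat_lit 156) (nat_lit 76) (nat_lit 0) (XT.nd (nat_lit 78) (nat_lit 76) (nat_lit 0) (XT.lf (nat_lit 0) (nat_lit 9045178421) (nat_lit 76) (nat_lit 26400194250) (nat_lit 76) (nat_lit 5008785492) (nat_lit 49) (nat_lit 4) (nat_lit 50) (nat_lit 5) (nat_lit 50) (nat_lit 4) (nat_lit 529) (nat_lit 390) (nat_lit 281)) (XT.lf (nat_lit 0) (nat_lit 6001407338) (nat_lit 152) (nat_lit 9234430406) (nat_lit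 76) (nat_lit 26082087002) (nat_lit 48) (nat_lit 5) (nat_lit 50) (nat_lit 5) (nat_lit 49) (nat_lit 4) (nat_lit 530) (nat_lit 390) (nat_lit 280))) (XT.nd (nat_lit 78) (nat_lit 0) (nat_lit 0) (XT.lf (nat_lit 0) (nat_lit 13775631503) (nat_lit 76) (nat_lit 3573158452) (nat_lit 152) (nat_lit 24854100124) (nat_lit 47) (nat_lit 5) (nat_lit 48) (nat_lit 5) (nat_lit 49) (nat_lit 4) (nat_lit 531) (nat_lit 390) (nat_lit 279)) (XT.lf (nat_lit 0) (nat_lit 29187056462) (nat_lit 152) (nat_lit 5577336116) (nat_lit 0) (nat_lit 8345498094) (nat_lit 47) (nat_lit 5) (nat_lit 49) (nat_lit 4) (nat_lit 47) (nat_lit 4) (nat_lit 532) (nat_lit 390) (nat_lit 278))))))) (XT.nd (nat_lit 1170) (nat_lit 380) (nat_lit 0) (XT.nd (nat_lit 546) (nat_lit 456) (nat_lit 0) (XT.nd (nat_lit 234) (nat_lit 228) (nat_lit 0) (XT.nd (nat_lit 78) (nat_lit 152) (nat_lit 0) (XT.lf (nat_lit 0) (nat_lit 18230910015) (nat_lit 76) (nat_lit 23336073591) (nat_lit 76)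 (nat_lit 2471522469) (nat_lit 46) (nat_lit 4) (nat_lit 47) (nat_lit 5) (nat_lit 47) (nat_lit 4) (nat_lit 533) (nat_lit 390) (nat_lit 277)) (XT.nd (nat_lit 78) (nat_lit 76) (nat_lit 0) (XT.lf (nat_lit 0) (nat_lit 9174176158) (nat_lit 152) (nat_lit 2263296581) (nat_lit 76) (nat_lit 33553835334) (nat_lit 45) (nat_lit 5) (nat_lit 47) (nat_lit 5) (nat_lit 46) (nat_lit 4) (nat_lit 534) (nat_lit 390) (nat_lit 276)) (XT.lf (nat_lit 0) (nat_lit 21321058118) (nat_lit 152) (nat_lit 23623359561) (nat_lit 0) (nat_lit 1021497867) (nat_lit 44) (nat_lit 5) (nat_lit 46) (nat_lit 4) (nat_lit 44) (nat_lit 4) (nat_lit 535) (nat_lit 390) (nat_lit 275)))) (XT.nd (nat_lit 156) (nat_lit 152) (nat_lit 0) (XT.nd (nat_lit 78) (nat_lit 0) (nat_lit 0) (XT.lf (nat_lit 0) (nat_lit 616260327) (nat_lit 76) (nat_lit 33334961905) (nat_lit 76) (nat_lit 13014972890) (nat_lit 43) (nat_lit 4) (nat_lit 44) (nat_lit 5) (nat_lit 44) (nat_lit 4) (nat_lit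 536) (nat_lit 390) (nat_lit 274)) (XT.lf (nat_lit 0) (nat_lit 26021577036) (nat_lit 76) (nat_lit 21154133196) (nat_lit 76) (nat_lit 814310430) (nat_lit 43) (nat_lit 4) (nat_lit 44) (nat_lit 5) (nat_lit 44) (nat_lit 4) (nat_lit 537) (nat_lit 390) (nat_lit 273))) (XT.nd (nat_lit 78) (nat_lit 0) (nat_lit 0) (XT.lf (nat_lit 0) (nat_lit 3046095034) (nat_lit 76) (nat_lit 8483547265) (nat_lit 152) (nat_lit 37511331632) (nat_lit 41) (nat_lit 5) (nat_lit 42) (nat_lit 5) (nat_lit 43) (nat_lit 4) (nat_lit 538) (nat_lit 390) (nat_lit 272)) (XT.lf (nat_lit 0) (nat_lit 24472826493) (nat_lit 152) (nat_lit 20954449328) (nat_lit 0) (nat_lit 4688579845) (nat_lit 41) (nat_lit 5) (nat_lit 43) (nat_lit 4) (nat_lit 41) (nat_lit 4) (nat_lit 539) (nat_lit 390) (nat_lit 271))))) (XT.nd (nat_lit 312) (nat_lit 228) (nat_lit 0) (XT.nd (nat_lit 156) (nat_lit 152) (nat_lit 0) (XT.nd (nat_lit 78) (nat_lit 0) (nat_lit 0) (XT.lf (nat_lit 0) (nat_lit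 4803346760) (nat_lit 76) (nat_lit 33109130387) (nat_lit 76) (nat_lit 13307261708) (nat_lit 40) (nat_lit 4) (nat_lit 41) (nat_lit 5) (nat_lit 41) (nat_lit 4) (nat_lit 540) (nat_lit 390) (nat_lit 270)) (XT.lf (nat_lit 0) (nat_lit 31720268222) (nat_lit 76) (nat_lit 20224876533) (nat_lit 76) (nat_lit 405899086) (nat_lit 40) (nat_lit 4) (nat_lit 41) (nat_lit 5) (nat_lit 41) (nat_lit 4) (nat_lit 541) (nat_lit 390) (nat_lit 269))) (XT.nd (nat_lit 78) (nat_lit 0) (nat_lit 0) (XT.lf (nat_lit 0) (nat_lit 5876932741) (nat_lit 76) (nat_lit 6789333585) (nat_lit 152) (nat_lit 40845252356) (nat_lit 38) (nat_lit 5) (nat_lit 39) (nat_lit 5) (nat_lit 40) (nat_lit 4) (nat_lit 542) (nat_lit 390) (nat_lit 268)) (XT.lf (nat_lit 0) (nat_lit 26379266007) (nat_lit 152) (nat_lit 21213959757) (nat_lit 0) (nat_lit 7105756730) (nat_lit 38) (nat_lit 5) (nat_lit 40) (nat_lit 4) (nat_lit 38) (nat_lit 4) (nat_lit 543) (nat_lit 390) (nat_lit 267))))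 (XT.nd (nat_lit 156) (nat_lit 152) (nat_lit 0) (XT.nd (nat_lit 78) (nat_lit 0) (nat_lit 0) (XT.lf (nat_lit 0) (nat_lit 6008197407) (nat_lit 76) (nat_lit 34599727522) (nat_lit 76) (nat_lit 15311017326) (nat_lit 37) (nat_lit 4) (nat_lit 38) (nat_lit 5) (nat_lit 38) (nat_lit 4) (nat_lit 544) (nat_lit 390) (nat_lit 266)) (XT.lf (nat_lit 0) (nat_lit 34441179435) (nat_lit 76) (nat_lit 21015989053) (nat_lit 76) (nat_lit 1712520683) (nat_lit 37) (nat_lit 4) (nat_lit 38) (nat_lit 5) (nat_lit 38) (nat_lit 4) (nat_lit 545) (nat_lit 390) (nat_lit 265))) (XT.nd (nat_lit 78) (nat_lit 0) (nat_lit 0) (XT.lf (nat_lit 0) (nat_lit 5212816809) (nat_lit 76) (nat_lit 6871229251) (nat_lit 152) (nat_lit 46369466812) (nat_lit 35) (nat_lit 5) (nat_lit 36) (nat_lit 5) (nat_lit 37) (nat_lit 4) (nat_lit 546) (nat_lit 390) (nat_lit 264)) (XT.lf (nat_lit 0) (nat_lit 26545794118) (nat_lit 152) (nat_lit 25443831589) (nat_lit 0) (nat_lit 7777145877)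 (nat_lit 35) (nat_lit 5) (nat_lit 37) (nat_lit 4) (nat_lit 35) (nat_lit 4) (nat_lit 547) (nat_lit 390) (nat_lit 263)))))) (XT.nd (nat_lit 52416) (nat_lit 0) (nat_lit 21052) (XT.nd (nat_lit 312) (nat_lit 152) (nat_lit 0) (XT.nd (nat_lit 156) (nat_lit 152) (nat_lit 0) (XT.nd (nat_lit 78) (nat_lit 0) (nat_lit 0) (XT.lf (nat_lit 0) (nat_lit 3141434442) (nat_lit 76) (nat_lit 38378696160) (nat_lit 76) (nat_lit 19596935473) (nat_lit 34) (nat_lit 4) (nat_lit 35) (nat_lit 5) (nat_lit 35) (nat_lit 4) (nat_lit 548) (nat_lit 390) (nat_lit 262)) (XT.lf (nat_lit 0) (nat_lit 33067439082) (nat_lit 76) (nat_lit 24113896242) (nat_lit 76) (nat_lit 5319405025) (nat_lit 34) (nat_lit 4) (nat_lit 35) (nat_lit 5) (nat_lit 35) (nat_lit 4) (nat_lit 549) (nat_lit 390) (nat_lit 261))) (XT.nd (nat_lit 78) (nat_lit 76) (nat_lit 0) (XT.lf (nat_lit 0) (nat_lit 9184369614) (nat_lit 152) (nat_lit 162580636) (nat_lit 76) (nat_lit 54576835388) (nat_lit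 33) (nat_lit 5) (nat_lit 35) (nat_lit 5) (nat_lit 34) (nat_lit 4) (nat_lit 550) (nat_lit 390) (nat_lit 260)) (XT.lf (nat_lit 0) (nat_lit 24350691195) (nat_lit 152) (nat_lit 34947258342) (nat_lit 0) (nat_lit 6079962360) (nat_lit 32) (nat_lit 5) (nat_lit 34) (nat_lit 4) (nat_lit 32) (nat_lit 4) (nat_lit 551) (nat_lit 390) (nat_lit 259)))) (XT.nd (nat_lit 156) (nat_lit 76) (nat_lit 0) (XT.nd (nat_lit 78) (nat_lit 76) (nat_lit 0) (XT.lf (nat_lit 0) (nat_lit 40047851101) (nat_lit 152) (nat_lit 5059724110) (nat_lit 0) (nat_lit 21765811355) (nat_lit 32) (nat_lit 5) (nat_lit 34) (nat_lit 4) (nat_lit 32) (nat_lit 4) (nat_lit 552) (nat_lit 390) (nat_lit 258)) (XT.lf (nat_lit 0) (nat_lit 26200192764) (nat_lit 76) (nat_lit 30249766500) (nat_lit 76) (nat_lit 11956745287) (nat_lit 31) (nat_lit 4) (nat_lit 32) (nat_lit 5) (nat_lit 32) (nat_lit 4) (nat_lit 553) (nat_lit 390) (nat_lit 257))) (XT.nd (nat_lit 51870) (nat_lit 0) (nat_lit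 27512) (XT.lf (nat_lit 0) (nat_lit 3326366499) (nat_lit 152) (nat_lit 11551158837) (nat_lit 76) (nat_lit 55106514810) (nat_lit 30) (nat_lit 5) (nat_lit 32) (nat_lit 5) (nat_lit 31) (nat_lit 4) (nat_lit 554) (nat_lit 390) (nat_lit 256)) (XT.lf (nat_lit 0) (nat_lit 1149845066) (nat_lit 836) (nat_lit 1093257506) (nat_lit 0) (nat_lit 1149845066) (nat_lit 392) (nat_lit 5) (nat_lit 403) (nat_lit 4) (nat_lit 392) (nat_lit 4) (nat_lit 418) (nat_lit 391) (nat_lit 391))))) (XT.nd (nat_lit 312) (nat_lit 3572) (nat_lit 0) (XT.nd (nat_lit 156) (nat_lit 1064) (nat_lit 0) (XT.nd (nat_lit 78) (nat_lit 988) (nat_lit 0) (XT.lf (nat_lit 0) (nat_lit 2492642899) (nat_lit 836) (nat_lit 3194099884) (nat_lit 836) (nat_lit 1138923322) (nat_lit 381) (nat_lit 4) (nat_lit 392) (nat_lit 5) (nat_lit 392) (nat_lit 4) (nat_lit 419) (nat_lit 391) (nat_lit 390)) (XT.lf (nat_lit 0) (nat_lit 381380047) (nat_lit 912) (nat_lit 1801808947) (nat_lit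 988) (nat_lit 4685205567) (nat_lit 368) (nat_lit 5) (nat_lit 380) (nat_lit 5) (nat_lit 381) (nat_lit 4) (nat_lit 420) (nat_lit 391) (nat_lit 389))) (XT.nd (nat_lit 78) (nat_lit 1064) (nat_lit 0) (XT.lf (nat_lit 0) (nat_lit 5220786108) (nat_lit 912) (nat_lit 300632975) (nat_lit 988) (nat_lit 1392480953) (nat_lit 368) (nat_lit 5) (nat_lit 380) (nat_lit 5) (nat_lit 381) (nat_lit 4) (nat_lit 421) (nat_lit 391) (nat_lit 388)) (XT.lf (nat_lit 0) (nat_lit 1901005529) (nat_lit 1064) (nat_lit 3780252292) (nat_lit 76) (nat_lit 1280719764) (nat_lit 354) (nat_lit 5) (nat_lit 368) (nat_lit 5) (nat_lit 355) (nat_lit 4) (nat_lit 422) (nat_lit 391) (nat_lit 387)))) (XT.nd (nat_lit 156) (nat_lit 2432) (nat_lit 0) (XT.nd (nat_lit 78) (nat_lit 76) (nat_lit 0) (XT.lf (nat_lit 0) (nat_lit 1136525303) (nat_lit 1064) (nat_lit 4059845226) (nat_lit 1140) (nat_lit 1816794133) (nat_lit 340) (nat_lit 5) (nat_lit 354) (nat_lit 5) (nat_lit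 355) (nat_lit 4) (nat_lit 423) (nat_lit 391) (nat_lit 386)) (XT.lf (nat_lit 0) (nat_lit 1434426883) (nat_lit 1140) (nat_lit 897780780) (nat_lit 76) (nat_lit 4735067814) (nat_lit 339) (nat_lit 5) (nat_lit 354) (nat_lit 5) (nat_lit 340) (nat_lit 5) (nat_lit 424) (nat_lit 391) (nat_lit 385))) (XT.nd (nat_lit 78) (nat_lit 1292) (nat_lit 0) (XT.lf (nat_lit 0) (nat_lit 4200933830) (nat_lit 1140) (nat_lit 489921965) (nat_lit 1216) (nat_lit 2433300149) (nat_lit 324) (nat_lit 5) (nat_lit 339) (nat_lit 5) (nat_lit 340) (nat_lit 5) (nat_lit 425) (nat_lit 391) (nat_lit 384)) (XT.lf (nat_lit 0) (nat_lit 794688683) (nat_lit 1292) (nat_lit 4969190090) (nat_lit 76) (nat_lit 1420147942) (nat_lit 307) (nat_lit 5) (nat_lit 324) (nat_lit 5) (nat_lit 308) (nat_lit 5) (nat_lit 426) (nat_lit 391) (nat_lit 383))))))))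
noncomputable def xc75 : XT := (XT.nd (nat_lit 2418) (nat_lit 5016) (nat_lit 0) (XT.nd (nat_lit 1170) (nat_lit 4560) (nat_lit 0) (XT.nd (nat_lit 546) (nat_lit 3116) (nat_lit 0) (XT.nd (nat_lit 234) (nat_lit 1900) (nat_lit 0) (XT.nd (nat_lit 78) (nat_lit 684) (nat_lit 0) (XT.lf (nat_lit 0) (nat_lit 200459520) (nat_lit 836) (nat_lit 3813384156) (nat_lit 912) (nat_lit 3232840765) (nat_lit 296) (nat_lit 5) (nat_lit 307) (nat_lit 5) (nat_lit 308) (nat_lit 5) (nat_lit 427) (nat_lit 391) (nat_lit 382)) (XT.nd (nat_lit 78) (nat_lit 684) (nat_lit 0) (XT.lf (nat_lit 0) (nat_lit 5531637562) (nat_lit 836) (nat_lit 1756561332) (nat_lit 912) (nat_lit 24274526) (nat_lit 296) (nat_lit 5) (nat_lit 307) (nat_lit 5) (nat_lit 308) (nat_lit 5) (nat_lit 428) (nat_lit 391) (nat_lit 381)) (XT.lf (nat_lit 0) (nat_lit 3165320656) (nat_lit 684) (nat_lit 3798522334) (nat_lit 76) (nat_lit 416993121) (nat_lit 287) (nat_lit 5) (nat_lit 296)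 (nat_lit 5) (nat_lit 288) (nat_lit 5) (nat_lit 429) (nat_lit 391) (nat_lit 380)))) (XT.nd (nat_lit 156) (nat_lit 1216) (nat_lit 0) (XT.nd (nat_lit 78) (nat_lit 76) (nat_lit 0) (XT.lf (nat_lit 0) (nat_lit 1609638289) (nat_lit 608) (nat_lit 4803389767) (nat_lit 684) (nat_lit 1039336463) (nat_lit 279) (nat_lit 5) (nat_lit 287) (nat_lit 5) (nat_lit 288) (nat_lit 5) (nat_lit 430) (nat_lit 391) (nat_lit 379)) (XT.lf (nat_lit 0) (nat_lit 2139981713) (nat_lit 684) (nat_lit 385733806) (nat_lit 76) (nat_lit 5001146120) (nat_lit 278) (nat_lit 5) (nat_lit 287) (nat_lit 5) (nat_lit 279) (nat_lit 5) (nat_lit 431) (nat_lit 391) (nat_lit 378))) (XT.nd (nat_lit 78) (nat_lit 684) (nat_lit 0) (XT.lf (nat_lit 0) (nat_lit 5232690341) (nat_lit 532) (nat_lit 126616042) (nat_lit 608) (nat_lit 2245021694) (nat_lit 271) (nat_lit 5) (nat_lit 278) (nat_lit 5) (nat_lit 279) (nat_lit 5) (nat_lit 432) (nat_lit 391) (nat_lit 377)) (XT.lf (nat_lit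 0) (nat_lit 946281203) (nat_lit 684) (nat_lit 4404553230) (nat_lit 76) (nat_lit 2333770527) (nat_lit 262) (nat_lit 5) (nat_lit 271) (nat_lit 5) (nat_lit 263) (nat_lit 5) (nat_lit 433) (nat_lit 391) (nat_lit 376))))) (XT.nd (nat_lit 312) (nat_lit 1520) (nat_lit 0) (XT.nd (nat_lit 156) (nat_lit 1064) (nat_lit 0) (XT.nd (nat_lit 78) (nat_lit 0) (nat_lit 0) (XT.lf (nat_lit 0) (nat_lit 1288462906) (nat_lit 532) (nat_lit 2854956268) (nat_lit 608) (nat_lit 3624555462) (nat_lit 255) (nat_lit 5) (nat_lit 262) (nat_lit 5) (nat_lit 263) (nat_lit 5) (nat_lit 434) (nat_lit 391) (nat_lit 375)) (XT.lf (nat_lit 0) (nat_lit 7147205230) (nat_lit 532) (nat_lit 252626399) (nat_lit 608) (nat_lit 455120619) (nat_lit 255) (nat_lit 5) (nat_lit 262) (nat_lit 5) (nat_lit 263) (nat_lit 5) (nat_lit 435) (nat_lit 391) (nat_lit 374))) (XT.nd (nat_lit 78) (nat_lit 456) (nat_lit 0) (XT.lf (nat_lit 0) (nat_lit 2749151892) (nat_lit 608) (nat_lit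 2750761310) (nat_lit 76) (nat_lit 2443985752) (nat_lit 247) (nat_lit 5) (nat_lit 255) (nat_lit 5) (nat_lit 248) (nat_lit 5) (nat_lit 436) (nat_lit 391) (nat_lit 373)) (XT.lf (nat_lit 0) (nat_lit 3210376811) (nat_lit 456) (nat_lit 2792340927) (nat_lit 532) (nat_lit 2033798765) (nat_lit 241) (nat_lit 5) (nat_lit 247) (nat_lit 5) (nat_lit 248) (nat_lit 5) (nat_lit 437) (nat_lit 391) (nat_lit 372)))) (XT.nd (nat_lit 156) (nat_lit 988) (nat_lit 0) (XT.nd (nat_lit 78) (nat_lit 0) (nat_lit 0) (XT.lf (nat_lit 0) (nat_lit 1160265073) (nat_lit 532) (nat_lit 6942199752) (nat_lit 76) (nat_lit 30237998) (nat_lit 234) (nat_lit 5) (nat_lit 241) (nat_lit 5) (nat_lit 235) (nat_lit 5) (nat_lit 438) (nat_lit 391) (nat_lit 371)) (XT.lf (nat_lit 0) (nat_lit 4409641100) (nat_lit 532) (nat_lit 889240652) (nat_lit 76) (nat_lit 2932284266) (nat_lit 234) (nat_lit 5) (nat_lit 241) (nat_lit 5) (nat_lit 235) (nat_lit 5) (nat_lit 439) (nat_lit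 391) (nat_lit 370))) (XT.nd (nat_lit 78) (nat_lit 532) (nat_lit 0) (XT.lf (nat_lit 0) (nat_lit 5355404505) (nat_lit 456) (nat_lit 2378304982) (nat_lit 532) (nat_lit 599563513) (nat_lit 228) (nat_lit 5) (nat_lit 234) (nat_lit 5) (nat_lit 235) (nat_lit 5) (nat_lit 440) (nat_lit 391) (nat_lit 369)) (XT.lf (nat_lit 0) (nat_lit 2639674808) (nat_lit 532) (nat_lit 5134293691) (nat_lit 76) (nat_lit 664486143) (nat_lit 221) (nat_lit 5) (nat_lit 228) (nat_lit 5) (nat_lit 222) (nat_lit 5) (nat_lit 441) (nat_lit 391) (nat_lit 368)))))) (XT.nd (nat_lit 624) (nat_lit 2052) (nat_lit 0) (XT.nd (nat_lit 312) (nat_lit 1216) (nat_lit 0) (XT.nd (nat_lit 156) (nat_lit 836) (nat_lit 0) (XT.nd (nat_lit 78) (nat_lit 76) (nat_lit 0) (XT.lf (nat_lit 0) (nat_lit 1187193770) (nat_lit 380) (nat_lit 4769478076) (nat_lit 456) (nat_lit 2590168531) (nat_lit 216) (nat_lit 5) (nat_lit 221) (nat_lit 5) (nat_lit 222) (nat_lit 5) (nat_lit 442) (nat_lit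 391) (nat_lit 367)) (XT.lf (nat_lit 0) (nat_lit 680908938) (nat_lit 456) (nat_lit 957229318) (nat_lit 76) (nat_lit 7020734066) (nat_lit 215) (nat_lit 5) (nat_lit 221) (nat_lit 5) (nat_lit 216) (nat_lit 5) (nat_lit 443) (nat_lit 391) (nat_lit 366))) (XT.nd (nat_lit 78) (nat_lit 380) (nat_lit 0) (XT.lf (nat_lit 0) (nat_lit 3997873308) (nat_lit 532) (nat_lit 3162054570) (nat_lit 76) (nat_lit 1613578772) (nat_lit 209) (nat_lit 5) (nat_lit 216) (nat_lit 5) (nat_lit 210) (nat_lit 5) (nat_lit 444) (nat_lit 391) (nat_lit 365)) (XT.lf (nat_lit 0) (nat_lit 3462157441) (nat_lit 380) (nat_lit 3942269375) (nat_lit 456) (nat_lit 1487455848) (nat_lit 204) (nat_lit 5) (nat_lit 209) (nat_lit 5) (nat_lit 210) (nat_lit 5) (nat_lit 445) (nat_lit 391) (nat_lit 364)))) (XT.nd (nat_lit 156) (nat_lit 760) (nat_lit 0) (XT.nd (nat_lit 78) (nat_lit 0) (nat_lit 0) (XT.lf (nat_lit 0) (nat_lit 1247779082) (nat_lit 380) (nat_lit 590019984) (nat_lit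 456) (nat_lit 7176203060) (nat_lit 198) (nat_lit 5) (nat_lit 203) (nat_lit 5) (nat_lit 204) (nat_lit 5) (nat_lit 446) (nat_lit 391) (nat_lit 363)) (XT.lf (nat_lit 0) (nat_lit 5247904085) (nat_lit 456) (nat_lit 1039922781) (nat_lit 76) (nat_lit 2851071452) (nat_lit 198) (nat_lit 5) (nat_lit 204) (nat_lit 5) (nat_lit 199) (nat_lit 5) (nat_lit 447) (nat_lit 391) (nat_lit 362))) (XT.nd (nat_lit 78) (nat_lit 456) (nat_lit 0) (XT.lf (nat_lit 0) (nat_lit 5904428805) (nat_lit 304) (nat_lit 2852557402) (nat_lit 380) (nat_lit 510659468) (nat_lit 194) (nat_lit 5) (nat_lit 198) (nat_lit 5) (nat_lit 199) (nat_lit 5) (nat_lit 448) (nat_lit 391) (nat_lit 361)) (XT.lf (nat_lit 0) (nat_lit 2900098193) (nat_lit 456) (nat_lit 5779967609) (nat_lit 76) (nat_lit 719727411) (nat_lit 188) (nat_lit 5) (nat_lit 194) (nat_lit 5) (nat_lit 189) (nat_lit 5) (nat_lit 449) (nat_lit 391) (nat_lit 360))))) (XT.nd (nat_lit 312) (nat_lit 1064) (nat_lit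 0) (XT.nd (nat_lit 156) (nat_lit 608) (nat_lit 0) (XT.nd (nat_lit 78) (nat_lit 76) (nat_lit 0) (XT.lf (nat_lit 0) (nat_lit 1242769806) (nat_lit 304) (nat_lit 5169843839) (nat_lit 380) (nat_lit 3122853002) (nat_lit 184) (nat_lit 5) (nat_lit 188) (nat_lit 5) (nat_lit 189) (nat_lit 5) (nat_lit 450) (nat_lit 391) (nat_lit 359)) (XT.lf (nat_lit 0) (nat_lit 342870929) (nat_lit 380) (nat_lit 1177402947) (nat_lit 76) (nat_lit 8155002536) (nat_lit 183) (nat_lit 5) (nat_lit 188) (nat_lit 5) (nat_lit 184) (nat_lit 5) (nat_lit 451) (nat_lit 391) (nat_lit 358))) (XT.nd (nat_lit 78) (nat_lit 304) (nat_lit 0) (XT.lf (nat_lit 0) (nat_lit 3868476241) (nat_lit 380) (nat_lit 3692047215) (nat_lit 76) (nat_lit 2257272922) (nat_lit 179) (nat_lit 5) (nat_lit 184) (nat_lit 5) (nat_lit 180) (nat_lit 5) (nat_lit 452) (nat_lit 391) (nat_lit 357)) (XT.lf (nat_lit 0) (nat_lit 3671840524) (nat_lit 304) (nat_lit 3828472241) (nat_lit 380) (nat_lit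 2464268944) (nat_lit 175) (nat_lit 5) (nat_lit 179) (nat_lit 5) (nat_lit 180) (nat_lit 5) (nat_lit 453) (nat_lit 391) (nat_lit 356)))) (XT.nd (nat_lit 156) (nat_lit 684) (nat_lit 0) (XT.nd (nat_lit 78) (nat_lit 0) (nat_lit 0) (XT.lf (nat_lit 0) (nat_lit 1090803101) (nat_lit 380) (nat_lit 8980481719) (nat_lit 76) (nat_lit 44541846) (nat_lit 170) (nat_lit 5) (nat_lit 175) (nat_lit 5) (nat_lit 171) (nat_lit 5) (nat_lit 454) (nat_lit 391) (nat_lit 355)) (XT.lf (nat_lit 0) (nat_lit 4744108510) (nat_lit 380) (nat_lit 1510838095) (nat_lit 76) (nat_lit 4014700434) (nat_lit 170) (nat_lit 5) (nat_lit 175) (nat_lit 5) (nat_lit 171) (nat_lit 5) (nat_lit 455) (nat_lit 391) (nat_lit 354))) (XT.nd (nat_lit 78) (nat_lit 380) (nat_lit 0) (XT.lf (nat_lit 0) (nat_lit 6213392320) (nat_lit 304) (nat_lit 2294154875) (nat_lit 380) (nat_lit 1920522054) (nat_lit 166) (nat_lit 5) (nat_lit 170) (nat_lit 5) (nat_lit 171) (nat_lit 5) (nat_lit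 456) (nat_lit 391) (nat_lit 353)) (XT.lf (nat_lit 0) (nat_lit 1766000207) (nat_lit 380) (nat_lit 7037726932) (nat_lit 76) (nat_lit 1786753001) (nat_lit 161) (nat_lit 5) (nat_lit 166) (nat_lit 5) (nat_lit 162) (nat_lit 5) (nat_lit 457) (nat_lit 391) (nat_lit 352))))))) (XT.nd (nat_lit 1248) (nat_lit 2204) (nat_lit 0) (XT.nd (nat_lit 624) (nat_lit 1216) (nat_lit 0) (XT.nd (nat_lit 312) (nat_lit 760) (nat_lit 0) (XT.nd (nat_lit 156) (nat_lit 608) (nat_lit 0) (XT.nd (nat_lit 78) (nat_lit 0) (nat_lit 0) (XT.lf (nat_lit 0) (nat_lit 764301772) (nat_lit 228) (nat_lit 4774886374) (nat_lit 304) (nat_lit 5217567615) (nat_lit 158) (nat_lit 5) (nat_lit 161) (nat_lit 5) (nat_lit 162) (nat_lit 5) (nat_lit 458) (nat_lit 391) (nat_lit 351)) (XT.lf (nat_lit 0) (nat_lit 8853977580) (nat_lit 228) (nat_lit 585117773) (nat_lit 304) (nat_lit 1488521475) (nat_lit 158) (nat_lit 5) (nat_lit 161) (nat_lit 5) (nat_lit 162) (nat_lit 5) (nat_lit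 459) (nat_lit 391) (nat_lit 350))) (XT.nd (nat_lit 78) (nat_lit 228) (nat_lit 0) (XT.lf (nat_lit 0) (nat_lit 2344954797) (nat_lit 380) (nat_lit 5049415327) (nat_lit 76) (nat_lit 3707404070) (nat_lit 153) (nat_lit 5) (nat_lit 158) (nat_lit 5) (nat_lit 154) (nat_lit 5) (nat_lit 460) (nat_lit 391) (nat_lit 349)) (XT.lf (nat_lit 0) (nat_lit 3134903131) (nat_lit 228) (nat_lit 3129746540) (nat_lit 304) (nat_lit 5016033151) (nat_lit 150) (nat_lit 5) (nat_lit 153) (nat_lit 5) (nat_lit 154) (nat_lit 5) (nat_lit 461) (nat_lit 391) (nat_lit 348)))) (XT.nd (nat_lit 156) (nat_lit 456) (nat_lit 0) (XT.nd (nat_lit 78) (nat_lit 76) (nat_lit 0) (XT.lf (nat_lit 0) (nat_lit 104114239) (nat_lit 228) (nat_lit 10206965301) (nat_lit 304) (nat_lit 1153607410) (nat_lit 147) (nat_lit 5) (nat_lit 150) (nat_lit 5) (nat_lit 151) (nat_lit 5) (nat_lit 462) (nat_lit 391) (nat_lit 347)) (XT.lf (nat_lit 0) (nat_lit 2828354189) (nat_lit 304) (nat_lit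 3032535604) (nat_lit 76) (nat_lit 5790745758) (nat_lit 146) (nat_lit 5) (nat_lit 150) (nat_lit 5) (nat_lit 147) (nat_lit 5) (nat_lit 463) (nat_lit 391) (nat_lit 346))) (XT.nd (nat_lit 78) (nat_lit 228) (nat_lit 0) (XT.lf (nat_lit 0) (nat_lit 5554619242) (nat_lit 228) (nat_lit 1351697964) (nat_lit 304) (nat_lit 4937543228) (nat_lit 143) (nat_lit 5) (nat_lit 146) (nat_lit 5) (nat_lit 147) (nat_lit 5) (nat_lit 464) (nat_lit 391) (nat_lit 345)) (XT.lf (nat_lit 0) (nat_lit 2346352854) (nat_lit 228) (nat_lit 8792135911) (nat_lit 304) (nat_lit 902409486) (nat_lit 140) (nat_lit 5) (nat_lit 143) (nat_lit 5) (nat_lit 144) (nat_lit 5) (nat_lit 465) (nat_lit 391) (nat_lit 344))))) (XT.nd (nat_lit 312) (nat_lit 456) (nat_lit 0) (XT.nd (nat_lit 156) (nat_lit 456) (nat_lit 0) (XT.nd (nat_lit 78) (nat_lit 228) (nat_lit 0) (XT.lf (nat_lit 0) (nat_lit 3214733727) (nat_lit 304) (nat_lit 1005584877) (nat_lit 76) (nat_lit 8021858975)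 (nat_lit 139) (nat_lit 5) (nat_lit 143) (nat_lit 5) (nat_lit 140) (nat_lit 5) (nat_lit 466) (nat_lit 391) (nat_lit 343)) (XT.lf (nat_lit 0) (nat_lit 7467900681) (nat_lit 304) (nat_lit 4448077560) (nat_lit 76) (nat_lit 532331682) (nat_lit 136) (nat_lit 5) (nat_lit 140) (nat_lit 5) (nat_lit 137) (nat_lit 5) (nat_lit 467) (nat_lit 391) (nat_lit 342))) (XT.nd (nat_lit 78) (nat_lit 228) (nat_lit 0) (XT.lf (nat_lit 0) (nat_lit 4598279362) (nat_lit 228) (nat_lit 7295455975) (nat_lit 304) (nat_lit 765540741) (nat_lit 133) (nat_lit 5) (nat_lit 136) (nat_lit 5) (nat_lit 137) (nat_lit 5) (nat_lit 468) (nat_lit 391) (nat_lit 341)) (XT.lf (nat_lit 0) (nat_lit 1031033670) (nat_lit 152) (nat_lit 2479236454) (nat_lit 228) (nat_lit 9365143651) (nat_lit 130) (nat_lit 5) (nat_lit 132) (nat_lit 5) (nat_lit 133) (nat_lit 5) (nat_lit 469) (nat_lit 391) (nat_lit 340)))) (XT.nd (nat_lit 156) (nat_lit 228) (nat_lit 0) (XT.nd (nat_lit 78)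 (nat_lit 228) (nat_lit 0) (XT.lf (nat_lit 0) (nat_lit 7954355663) (nat_lit 228) (nat_lit 2653346999) (nat_lit 76) (nat_lit 2488445797) (nat_lit 130) (nat_lit 5) (nat_lit 133) (nat_lit 5) (nat_lit 131) (nat_lit 5) (nat_lit 470) (nat_lit 391) (nat_lit 339)) (XT.lf (nat_lit 0) (nat_lit 6838248933) (nat_lit 228) (nat_lit 5734598413) (nat_lit 304) (nat_lit 749427129) (nat_lit 127) (nat_lit 5) (nat_lit 130) (nat_lit 5) (nat_lit 131) (nat_lit 5) (nat_lit 471) (nat_lit 391) (nat_lit 338))) (XT.nd (nat_lit 78) (nat_lit 0) (nat_lit 0) (XT.lf (nat_lit 0) (nat_lit 3053422628) (nat_lit 152) (nat_lit 654992459) (nat_lit 228) (nat_lit 9845461423) (nat_lit 124) (nat_lit 5) (nat_lit 126) (nat_lit 5) (nat_lit 127) (nat_lit 5) (nat_lit 472) (nat_lit 391) (nat_lit 337)) (XT.lf (nat_lit 0) (nat_lit 8346295314) (nat_lit 228) (nat_lit 917123507) (nat_lit 76) (nat_lit 4526945863) (nat_lit 124) (nat_lit 5) (nat_lit 127) (nat_lit 5) (nat_lit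 125) (nat_lit 5) (nat_lit 473) (nat_lit 391) (nat_lit 336)))))) (XT.nd (nat_lit 624) (nat_lit 912) (nat_lit 0) (XT.nd (nat_lit 312) (nat_lit 608) (nat_lit 0) (XT.nd (nat_lit 156) (nat_lit 228) (nat_lit 0) (XT.nd (nat_lit 78) (nat_lit 228) (nat_lit 0) (XT.lf (nat_lit 0) (nat_lit 9041611151) (nat_lit 228) (nat_lit 4127763763) (nat_lit 304) (nat_lit 863192300) (nat_lit 121) (nat_lit 5) (nat_lit 124) (nat_lit 5) (nat_lit 125) (nat_lit 5) (nat_lit 474) (nat_lit 391) (nat_lit 335)) (XT.lf (nat_lit 0) (nat_lit 3802008841) (nat_lit 228) (nat_lit 9277711522) (nat_lit 76) (nat_lit 1200541486) (nat_lit 118) (nat_lit 5) (nat_lit 121) (nat_lit 5) (nat_lit 119) (nat_lit 5) (nat_lit 475) (nat_lit 391) (nat_lit 334))) (XT.nd (nat_lit 78) (nat_lit 0) (nat_lit 0) (XT.lf (nat_lit 0) (nat_lit 746507540) (nat_lit 228) (nat_lit 7895308156) (nat_lit 304) (nat_lit 5891756727) (nat_lit 115) (nat_lit 5) (nat_lit 118) (nat_lit 5) (nat_lit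 119) (nat_lit 5) (nat_lit 476) (nat_lit 391) (nat_lit 333)) (XT.lf (nat_lit 0) (nat_lit 11180004049) (nat_lit 228) (nat_lit 2494138272) (nat_lit 304) (nat_lit 1118921646) (nat_lit 115) (nat_lit 5) (nat_lit 118) (nat_lit 5) (nat_lit 119) (nat_lit 5) (nat_lit 477) (nat_lit 391) (nat_lit 332)))) (XT.nd (nat_lit 156) (nat_lit 228) (nat_lit 0) (XT.nd (nat_lit 78) (nat_lit 152) (nat_lit 0) (XT.lf (nat_lit 0) (nat_lit 3773901919) (nat_lit 228) (nat_lit 8204977858) (nat_lit 76) (nat_lit 3078839862) (nat_lit 112) (nat_lit 5) (nat_lit 115) (nat_lit 5) (nat_lit 113) (nat_lit 5) (nat_lit 478) (nat_lit 391) (nat_lit 331)) (XT.lf (nat_lit 0) (nat_lit 2305829854) (nat_lit 152) (nat_lit 6523668429) (nat_lit 228) (nat_lit 6499331326) (nat_lit 110) (nat_lit 5) (nat_lit 112) (nat_lit 5) (nat_lit 113) (nat_lit 5) (nat_lit 479) (nat_lit 391) (nat_lit 330))) (XT.nd (nat_lit 78) (nat_lit 228) (nat_lit 0) (XT.lf (nat_lit 0) (nat_lit 13220551595)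 (nat_lit 152) (nat_lit 854389021) (nat_lit 228) (nat_lit 1531988182) (nat_lit 110) (nat_lit 5) (nat_lit 112) (nat_lit 5) (nat_lit 113) (nat_lit 5) (nat_lit 480) (nat_lit 391) (nat_lit 329)) (XT.lf (nat_lit 0) (nat_lit 3602285154) (nat_lit 228) (nat_lit 7314880069) (nat_lit 76) (nat_lit 4972537654) (nat_lit 107) (nat_lit 5) (nat_lit 110) (nat_lit 5) (nat_lit 108) (nat_lit 5) (nat_lit 481) (nat_lit 391) (nat_lit 328))))) (XT.nd (nat_lit 312) (nat_lit 380) (nat_lit 0) (XT.nd (nat_lit 156) (nat_lit 380) (nat_lit 0) (XT.nd (nat_lit 78) (nat_lit 0) (nat_lit 0) (XT.lf (nat_lit 0) (nat_lit 3703580299) (nat_lit 152) (nat_lit 5181010099) (nat_lit 228) (nat_lit 7295172032) (nat_lit 105) (nat_lit 5) (nat_lit 107) (nat_lit 5) (nat_lit 108) (nat_lit 5) (nat_lit 482) (nat_lit 391) (nat_lit 327)) (XT.lf (nat_lit 0) (nat_lit 14363543370) (nat_lit 228) (nat_lit 1360044504) (nat_lit 76) (nat_lit 753791662) (nat_lit 105) (nat_lit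 5) (nat_lit 108) (nat_lit 5) (nat_lit 106) (nat_lit 4) (nat_lit 483) (nat_lit 391) (nat_lit 326))) (XT.nd (nat_lit 78) (nat_lit 152) (nat_lit 0) (XT.lf (nat_lit 0) (nat_lit 3267924111) (nat_lit 228) (nat_lit 6652485534) (nat_lit 76) (nat_lit 6859350874) (nat_lit 102) (nat_lit 5) (nat_lit 105) (nat_lit 5) (nat_lit 103) (nat_lit 5) (nat_lit 484) (nat_lit 391) (nat_lit 325)) (XT.lf (nat_lit 0) (nat_lit 4894375193) (nat_lit 152) (nat_lit 3893136746) (nat_lit 228) (nat_lit 8302508324) (nat_lit 100) (nat_lit 5) (nat_lit 102) (nat_lit 5) (nat_lit 103) (nat_lit 5) (nat_lit 485) (nat_lit 391) (nat_lit 324)))) (XT.nd (nat_lit 156) (nat_lit 152) (nat_lit 0) (XT.nd (nat_lit 78) (nat_lit 228) (nat_lit 0) (XT.lf (nat_lit 0) (nat_lit 14520896413) (nat_lit 228) (nat_lit 583010359) (nat_lit 76) (nat_lit 2304235752) (nat_lit 100) (nat_lit 5) (nat_lit 103) (nat_lit 5) (nat_lit 101) (nat_lit 4) (nat_lit 486) (nat_lit 391) (nat_lit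 323)) (XT.lf (nat_lit 0) (nat_lit 2747367342) (nat_lit 228) (nat_lit 6270140657) (nat_lit 76) (nat_lit 8714243694) (nat_lit 97) (nat_lit 5) (nat_lit 100) (nat_lit 5) (nat_lit 98) (nat_lit 5) (nat_lit 487) (nat_lit 391) (nat_lit 322))) (XT.nd (nat_lit 78) (nat_lit 0) (nat_lit 0) (XT.lf (nat_lit 0) (nat_lit 5825274564) (nat_lit 152) (nat_lit 2689067935) (nat_lit 228) (nat_lit 9549229328) (nat_lit 95) (nat_lit 5) (nat_lit 97) (nat_lit 5) (nat_lit 98) (nat_lit 5) (nat_lit 488) (nat_lit 391) (nat_lit 321)) (XT.lf (nat_lit 0) (nat_lit 14514642980) (nat_lit 228) (nat_lit 103333833) (nat_lit 76) (nat_lit 3785561154) (nat_lit 95) (nat_lit 5) (nat_lit 98) (nat_lit 5) (nat_lit 96) (nat_lit 4) (nat_lit 489) (nat_lit 391) (nat_lit 320))))))))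
noncomputable def xc76 : XT := (XT.nd (nat_lit 2418) (nat_lit 1900) (nat_lit 0) (XT.nd (nat_lit 1170) (nat_lit 1292) (nat_lit 0) (XT.nd (nat_lit 546) (nat_lit 836) (nat_lit 0) (XT.nd (nat_lit 234) (nat_lit 304) (nat_lit 0) (XT.nd (nat_lit 78) (nat_lit 228) (nat_lit 0) (XT.lf (nat_lit 0) (nat_lit 2012358462) (nat_lit 228) (nat_lit 6228777045) (nat_lit 76) (nat_lit 10508738909) (nat_lit 92) (nat_lit 5) (nat_lit 95) (nat_lit 5) (nat_lit 93) (nat_lit 5) (nat_lit 490) (nat_lit 391) (nat_lit 319)) (XT.nd (nat_lit 78) (nat_lit 76) (nat_lit 0) (XT.lf (nat_lit 0) (nat_lit 6434419208) (nat_lit 152) (nat_lit 1601784319) (nat_lit 228) (nat_lit 11068531616) (nat_lit 90) (nat_lit 5) (nat_lit 92) (nat_lit 5) (nat_lit 93) (nat_lit 5) (nat_lit 491) (nat_lit 391) (nat_lit 318)) (XT.lf (nat_lit 0) (nat_lit 13572743) (nat_lit 76) (nat_lit 14302128095) (nat_lit 152) (nat_lit 5152293533) (nat_lit 89) (nat_lit 5) (nat_lit 90) (nat_lit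 5) (nat_lit 91) (nat_lit 4) (nat_lit 492) (nat_lit 391) (nat_lit 317)))) (XT.nd (nat_lit 156) (nat_lit 76) (nat_lit 0) (XT.nd (nat_lit 78) (nat_lit 152) (nat_lit 0) (XT.lf (nat_lit 0) (nat_lit 1029142495) (nat_lit 152) (nat_lit 6599417734) (nat_lit 76) (nat_lit 12210137954) (nat_lit 88) (nat_lit 5) (nat_lit 90) (nat_lit 5) (nat_lit 89) (nat_lit 5) (nat_lit 493) (nat_lit 391) (nat_lit 316)) (XT.lf (nat_lit 0) (nat_lit 6649457756) (nat_lit 152) (nat_lit 669072275) (nat_lit 228) (nat_lit 12899681480) (nat_lit 86) (nat_lit 5) (nat_lit 88) (nat_lit 5) (nat_lit 89) (nat_lit 5) (nat_lit 494) (nat_lit 391) (nat_lit 315))) (XT.nd (nat_lit 78) (nat_lit 76) (nat_lit 0) (XT.lf (nat_lit 0) (nat_lit 13888640047) (nat_lit 228) (nat_lit 309805086) (nat_lit 76) (nat_lit 6407904578) (nat_lit 86) (nat_lit 5) (nat_lit 89) (nat_lit 5) (nat_lit 87) (nat_lit 4) (nat_lit 495) (nat_lit 391) (nat_lit 314)) (XT.lf (nat_lit 0) (nat_lit 13535836921)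 (nat_lit 76) (nat_lit 7220120297) (nat_lit 152) (nat_lit 247172404) (nat_lit 85) (nat_lit 5) (nat_lit 86) (nat_lit 5) (nat_lit 87) (nat_lit 4) (nat_lit 496) (nat_lit 391) (nat_lit 313))))) (XT.nd (nat_lit 312) (nat_lit 304) (nat_lit 0) (XT.nd (nat_lit 156) (nat_lit 304) (nat_lit 0) (XT.nd (nat_lit 78) (nat_lit 0) (nat_lit 0) (XT.lf (nat_lit 0) (nat_lit 6320845098) (nat_lit 228) (nat_lit 15024024980) (nat_lit 76) (nat_lit 64235059) (nat_lit 82) (nat_lit 5) (nat_lit 85) (nat_lit 5) (nat_lit 83) (nat_lit 4) (nat_lit 497) (nat_lit 391) (nat_lit 312)) (XT.lf (nat_lit 0) (nat_lit 13192099191) (nat_lit 228) (nat_lit 1162328472) (nat_lit 76) (nat_lit 7469424538) (nat_lit 82) (nat_lit 5) (nat_lit 85) (nat_lit 5) (nat_lit 83) (nat_lit 4) (nat_lit 498) (nat_lit 391) (nat_lit 311))) (XT.nd (nat_lit 78) (nat_lit 228) (nat_lit 0) (XT.lf (nat_lit 0) (nat_lit 13308164583) (nat_lit 76) (nat_lit 7053840939) (nat_lit 152) (nat_lit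 1886261318) (nat_lit 81) (nat_lit 5) (nat_lit 82) (nat_lit 5) (nat_lit 83) (nat_lit 4) (nat_lit 499) (nat_lit 391) (nat_lit 310)) (XT.lf (nat_lit 0) (nat_lit 4997911514) (nat_lit 228) (nat_lit 17144205338) (nat_lit 76) (nat_lit 540785391) (nat_lit 78) (nat_lit 5) (nat_lit 81) (nat_lit 5) (nat_lit 79) (nat_lit 4) (nat_lit 500) (nat_lit 391) (nat_lit 309)))) (XT.nd (nat_lit 156) (nat_lit 228) (nat_lit 0) (XT.nd (nat_lit 78) (nat_lit 76) (nat_lit 0) (XT.lf (nat_lit 0) (nat_lit 12176440708) (nat_lit 228) (nat_lit 2649044401) (nat_lit 76) (nat_lit 8300759579) (nat_lit 78) (nat_lit 5) (nat_lit 81) (nat_lit 5) (nat_lit 79) (nat_lit 4) (nat_lit 501) (nat_lit 391) (nat_lit 308)) (XT.lf (nat_lit 0) (nat_lit 12459152861) (nat_lit 76) (nat_lit 7196696957) (nat_lit 152) (nat_lit 3924472403) (nat_lit 77) (nat_lit 5) (nat_lit 78) (nat_lit 5) (nat_lit 79) (nat_lit 4) (nat_lit 502) (nat_lit 391) (nat_lit 307))) (XT.nd (nat_lit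 78) (nat_lit 0) (nat_lit 0) (XT.lf (nat_lit 0) (nat_lit 3285371937) (nat_lit 228) (nat_lit 20044326948) (nat_lit 76) (nat_lit 716217466) (nat_lit 74) (nat_lit 5) (nat_lit 77) (nat_lit 5) (nat_lit 75) (nat_lit 4) (nat_lit 503) (nat_lit 391) (nat_lit 306)) (XT.lf (nat_lit 0) (nat_lit 10783188393) (nat_lit 228) (nat_lit 4892398123) (nat_lit 76) (nat_lit 8844209952) (nat_lit 74) (nat_lit 5) (nat_lit 77) (nat_lit 5) (nat_lit 75) (nat_lit 4) (nat_lit 504) (nat_lit 391) (nat_lit 305)))))) (XT.nd (nat_lit 624) (nat_lit 608) (nat_lit 0) (XT.nd (nat_lit 312) (nat_lit 304) (nat_lit 0) (XT.nd (nat_lit 156) (nat_lit 76) (nat_lit 0) (XT.nd (nat_lit 78) (nat_lit 228) (nat_lit 0) (XT.lf (nat_lit 0) (nat_lit 10862887492) (nat_lit 76) (nat_lit 7714352632) (nat_lit 152) (nat_lit 6428514316) (nat_lit 73) (nat_lit 5) (nat_lit 74) (nat_lit 5) (nat_lit 75) (nat_lit 4) (nat_lit 505) (nat_lit 391) (nat_lit 304)) (XT.lf (nat_lit 0) (nat_lit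 1115130448) (nat_lit 228) (nat_lit 23866002090) (nat_lit 76) (nat_lit 523709680) (nat_lit 70) (nat_lit 5) (nat_lit 73) (nat_lit 5) (nat_lit 71) (nat_lit 4) (nat_lit 506) (nat_lit 391) (nat_lit 303))) (XT.nd (nat_lit 78) (nat_lit 76) (nat_lit 0) (XT.lf (nat_lit 0) (nat_lit 8943480025) (nat_lit 228) (nat_lit 8035436938) (nat_lit 76) (nat_lit 9032448574) (nat_lit 70) (nat_lit 5) (nat_lit 73) (nat_lit 5) (nat_lit 71) (nat_lit 4) (nat_lit 507) (nat_lit 391) (nat_lit 302)) (XT.lf (nat_lit 0) (nat_lit 8371966075) (nat_lit 76) (nat_lit 8683145111) (nat_lit 152) (nat_lit 9476520861) (nat_lit 69) (nat_lit 5) (nat_lit 70) (nat_lit 5) (nat_lit 71) (nat_lit 4) (nat_lit 508) (nat_lit 391) (nat_lit 301)))) (XT.nd (nat_lit 156) (nat_lit 76) (nat_lit 0) (XT.nd (nat_lit 78) (nat_lit 228) (nat_lit 0) (XT.lf (nat_lit 0) (nat_lit 25375465869) (nat_lit 76) (nat_lit 84070699) (nat_lit 152) (nat_lit 1606487034) (nat_lit 69) (nat_lit 5)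 (nat_lit 70) (nat_lit 5) (nat_lit 71) (nat_lit 4) (nat_lit 509) (nat_lit 391) (nat_lit 300)) (XT.lf (nat_lit 0) (nat_lit 6576416800) (nat_lit 228) (nat_lit 12245216431) (nat_lit 76) (nat_lit 8786831687) (nat_lit 66) (nat_lit 5) (nat_lit 69) (nat_lit 5) (nat_lit 67) (nat_lit 4) (nat_lit 510) (nat_lit 391) (nat_lit 299))) (XT.nd (nat_lit 78) (nat_lit 0) (nat_lit 0) (XT.lf (nat_lit 0) (nat_lit 4813930823) (nat_lit 76) (nat_lit 10191920958) (nat_lit 152) (nat_lit 13159850908) (nat_lit 65) (nat_lit 5) (nat_lit 66) (nat_lit 5) (nat_lit 67) (nat_lit 4) (nat_lit 511) (nat_lit 391) (nat_lit 298)) (XT.lf (nat_lit 0) (nat_lit 22576697838) (nat_lit 76) (nat_lit 1204444862) (nat_lit 152) (nat_lit 4955726071) (nat_lit 65) (nat_lit 5) (nat_lit 66) (nat_lit 5) (nat_lit 67) (nat_lit 4) (nat_lit 512) (nat_lit 391) (nat_lit 297))))) (XT.nd (nat_lit 312) (nat_lit 304) (nat_lit 0) (XT.nd (nat_lit 156) (nat_lit 152) (nat_lit 0) (XT.nd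 (nat_lit 78) (nat_lit 0) (nat_lit 0) (XT.lf (nat_lit 0) (nat_lit 3587142364) (nat_lit 152) (nat_lit 17716749365) (nat_lit 76) (nat_lit 8015446389) (nat_lit 63) (nat_lit 5) (nat_lit 65) (nat_lit 5) (nat_lit 64) (nat_lit 4) (nat_lit 513) (nat_lit 391) (nat_lit 296)) (XT.lf (nat_lit 0) (nat_lit 12331414164) (nat_lit 152) (nat_lit 12617145) (nat_lit 76) (nat_lit 17572436897) (nat_lit 63) (nat_lit 5) (nat_lit 65) (nat_lit 5) (nat_lit 64) (nat_lit 4) (nat_lit 514) (nat_lit 391) (nat_lit 295))) (XT.nd (nat_lit 78) (nat_lit 76) (nat_lit 0) (XT.lf (nat_lit 0) (nat_lit 18527772146) (nat_lit 76) (nat_lit 2959192500) (nat_lit 152) (nat_lit 9040079359) (nat_lit 62) (nat_lit 5) (nat_lit 63) (nat_lit 5) (nat_lit 64) (nat_lit 4) (nat_lit 515) (nat_lit 391) (nat_lit 294)) (XT.lf (nat_lit 0) (nat_lit 6474093356) (nat_lit 76) (nat_lit 24540826134) (nat_lit 76) (nat_lit 138085765) (nat_lit 61) (nat_lit 4) (nat_lit 62) (nat_lit 5)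 (nat_lit 62) (nat_lit 4) (nat_lit 516) (nat_lit 391) (nat_lit 293)))) (XT.nd (nat_lit 156) (nat_lit 152) (nat_lit 0) (XT.nd (nat_lit 78) (nat_lit 76) (nat_lit 0) (XT.lf (nat_lit 0) (nat_lit 8977336018) (nat_lit 152) (nat_lit 6220275721) (nat_lit 76) (nat_lit 16593851714) (nat_lit 60) (nat_lit 5) (nat_lit 62) (nat_lit 5) (nat_lit 61) (nat_lit 4) (nat_lit 517) (nat_lit 391) (nat_lit 292)) (XT.lf (nat_lit 0) (nat_lit 12989378743) (nat_lit 76) (nat_lit 5470702298) (nat_lit 152) (nat_lit 13986054548) (nat_lit 59) (nat_lit 5) (nat_lit 60) (nat_lit 5) (nat_lit 61) (nat_lit 4) (nat_lit 518) (nat_lit 391) (nat_lit 291))) (XT.nd (nat_lit 78) (nat_lit 152) (nat_lit 0) (XT.lf (nat_lit 0) (nat_lit 28306281844) (nat_lit 152) (nat_lit 314961293) (nat_lit 0) (nat_lit 4496835829) (nat_lit 59) (nat_lit 5) (nat_lit 61) (nat_lit 4) (nat_lit 59) (nat_lit 4) (nat_lit 519) (nat_lit 391) (nat_lit 290)) (XT.lf (nat_lit 0) (nat_lit 4765287992)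 (nat_lit 152) (nat_lit 14172808009) (nat_lit 76) (nat_lit 14864204558) (nat_lit 57) (nat_lit 5) (nat_lit 59) (nat_lit 5) (nat_lit 58) (nat_lit 4) (nat_lit 520) (nat_lit 391) (nat_lit 289))))))) (XT.nd (nat_lit 1170) (nat_lit 988) (nat_lit 0) (XT.nd (nat_lit 546) (nat_lit 456) (nat_lit 0) (XT.nd (nat_lit 234) (nat_lit 304) (nat_lit 0) (XT.nd (nat_lit 78) (nat_lit 76) (nat_lit 0) (XT.lf (nat_lit 0) (nat_lit 5681666663) (nat_lit 76) (nat_lit 8881797011) (nat_lit 152) (nat_lit 19941241426) (nat_lit 56) (nat_lit 5) (nat_lit 57) (nat_lit 5) (nat_lit 58) (nat_lit 4) (nat_lit 521) (nat_lit 391) (nat_lit 288)) (XT.nd (nat_lit 78) (nat_lit 76) (nat_lit 0) (XT.lf (nat_lit 0) (nat_lit 24787013316) (nat_lit 152) (nat_lit 8870545733) (nat_lit 0) (nat_lit 1566680113) (nat_lit 56) (nat_lit 5) (nat_lit 58) (nat_lit 4) (nat_lit 56) (nat_lit 4) (nat_lit 522) (nat_lit 391) (nat_lit 287)) (XT.lf (nat_lit 0) (nat_lit 11770466714) (nat_lit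 76) (nat_lit 23721385334) (nat_lit 76) (nat_lit 468269963) (nat_lit 55) (nat_lit 4) (nat_lit 56) (nat_lit 5) (nat_lit 56) (nat_lit 4) (nat_lit 523) (nat_lit 391) (nat_lit 286)))) (XT.nd (nat_lit 156) (nat_lit 152) (nat_lit 0) (XT.nd (nat_lit 78) (nat_lit 76) (nat_lit 0) (XT.lf (nat_lit 0) (nat_lit 9672506138) (nat_lit 152) (nat_lit 3649755257) (nat_lit 76) (nat_lit 23391074736) (nat_lit 54) (nat_lit 5) (nat_lit 56) (nat_lit 5) (nat_lit 55) (nat_lit 4) (nat_lit 524) (nat_lit 391) (nat_lit 285)) (XT.lf (nat_lit 0) (nat_lit 17798711667) (nat_lit 76) (nat_lit 2454763566) (nat_lit 152) (nat_lit 17231171131) (nat_lit 53) (nat_lit 5) (nat_lit 54) (nat_lit 5) (nat_lit 55) (nat_lit 4) (nat_lit 525) (nat_lit 391) (nat_lit 284))) (XT.nd (nat_lit 78) (nat_lit 76) (nat_lit 0) (XT.lf (nat_lit 0) (nat_lit 1583647609) (nat_lit 76) (nat_lit 29678996377) (nat_lit 76) (nat_lit 7013129013) (nat_lit 52) (nat_lit 4) (nat_lit 53) (nat_lit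 5) (nat_lit 53) (nat_lit 4) (nat_lit 526) (nat_lit 391) (nat_lit 283)) (XT.lf (nat_lit 0) (nat_lit 3642337252) (nat_lit 152) (nat_lit 15300200928) (nat_lit 76) (nat_lit 20141100708) (nat_lit 51) (nat_lit 5) (nat_lit 53) (nat_lit 5) (nat_lit 52) (nat_lit 4) (nat_lit 527) (nat_lit 391) (nat_lit 282))))) (XT.nd (nat_lit 312) (nat_lit 228) (nat_lit 0) (XT.nd (nat_lit 156) (nat_lit 152) (nat_lit 0) (XT.nd (nat_lit 78) (nat_lit 0) (nat_lit 0) (XT.lf (nat_lit 0) (nat_lit 6746801787) (nat_lit 76) (nat_lit 7769652344) (nat_lit 152) (nat_lit 25396005403) (nat_lit 50) (nat_lit 5) (nat_lit 51) (nat_lit 5) (nat_lit 52) (nat_lit 4) (nat_lit 528) (nat_lit 391) (nat_lit 281)) (XT.lf (nat_lit 0) (nat_lit 25883883116) (nat_lit 152) (nat_lit 11079050571) (nat_lit 0) (nat_lit 3798198646) (nat_lit 50) (nat_lit 5) (nat_lit 52) (nat_lit 4) (nat_lit 50) (nat_lit 4) (nat_lit 529) (nat_lit 391) (nat_lit 280))) (XT.nd (nat_lit 78) (nat_lit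 76) (nat_lit 0) (XT.lf (nat_lit 0) (nat_lit 11775506396) (nat_lit 76) (nat_lit 25982794697) (nat_lit 76) (nat_lit 3871985424) (nat_lit 49) (nat_lit 4) (nat_lit 50) (nat_lit 5) (nat_lit 50) (nat_lit 4) (nat_lit 530) (nat_lit 391) (nat_lit 279)) (XT.lf (nat_lit 0) (nat_lit 7406642166) (nat_lit 152) (nat_lit 7099718686) (nat_lit 76) (nat_lit 28014337021) (nat_lit 48) (nat_lit 5) (nat_lit 50) (nat_lit 5) (nat_lit 49) (nat_lit 4) (nat_lit 531) (nat_lit 391) (nat_lit 278)))) (XT.nd (nat_lit 156) (nat_lit 152) (nat_lit 0) (XT.nd (nat_lit 78) (nat_lit 0) (nat_lit 0) (XT.lf (nat_lit 0) (nat_lit 16577000525) (nat_lit 76) (nat_lit 2504716393) (nat_lit 152) (nat_lit 24350877385) (nat_lit 47) (nat_lit 5) (nat_lit 48) (nat_lit 5) (nat_lit 49) (nat_lit 4) (nat_lit 532) (nat_lit 391) (nat_lit 277)) (XT.lf (nat_lit 0) (nat_lit 31250788744) (nat_lit 152) (nat_lit 3401761428) (nat_lit 0) (nat_lit 9714985274) (nat_lit 47) (nat_lit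 5) (nat_lit 49) (nat_lit 4) (nat_lit 47) (nat_lit 4) (nat_lit 533) (nat_lit 391) (nat_lit 276))) (XT.nd (nat_lit 78) (nat_lit 76) (nat_lit 0) (XT.lf (nat_lit 0) (nat_lit 21097762530) (nat_lit 76) (nat_lit 22892046257) (nat_lit 76) (nat_lit 1334569912) (nat_lit 46) (nat_lit 4) (nat_lit 47) (nat_lit 5) (nat_lit 47) (nat_lit 4) (nat_lit 534) (nat_lit 391) (nat_lit 275)) (XT.lf (nat_lit 0) (nat_lit 10602280416) (nat_lit 152) (nat_lit 55888726) (nat_lit 76) (nat_lit 35648284181) (nat_lit 45) (nat_lit 5) (nat_lit 47) (nat_lit 5) (nat_lit 46) (nat_lit 4) (nat_lit 535) (nat_lit 391) (nat_lit 274)))))) (XT.nd (nat_lit 624) (nat_lit 456) (nat_lit 0) (XT.nd (nat_lit 312) (nat_lit 228) (nat_lit 0) (XT.nd (nat_lit 156) (nat_lit 152) (nat_lit 0) (XT.nd (nat_lit 78) (nat_lit 76) (nat_lit 0) (XT.lf (nat_lit 0) (nat_lit 23112336682) (nat_lit 152) (nat_lit 22055514042) (nat_lit 0) (nat_lit 2142485482) (nat_lit 44) (nat_lit 5) (nat_lit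 46) (nat_lit 4) (nat_lit 44) (nat_lit 4) (nat_lit 536) (nat_lit 391) (nat_lit 273)) (XT.lf (nat_lit 0) (nat_lit 2888975361) (nat_lit 76) (nat_lit 33220556258) (nat_lit 76) (nat_lit 12231448989) (nat_lit 43) (nat_lit 4) (nat_lit 44) (nat_lit 5) (nat_lit 44) (nat_lit 4) (nat_lit 537) (nat_lit 391) (nat_lit 272))) (XT.nd (nat_lit 78) (nat_lit 76) (nat_lit 0) (XT.lf (nat_lit 0) (nat_lit 295165579) (nat_lit 152) (nat_lit 20408616355) (nat_lit 76) (nat_lit 28692648295) (nat_lit 42) (nat_lit 5) (nat_lit 44) (nat_lit 5) (nat_lit 43) (nat_lit 4) (nat_lit 538) (nat_lit 391) (nat_lit 271)) (XT.lf (nat_lit 0) (nat_lit 5326621298) (nat_lit 76) (nat_lit 7654942480) (nat_lit 152) (nat_lit 37497451829) (nat_lit 41) (nat_lit 5) (nat_lit 42) (nat_lit 5) (nat_lit 43) (nat_lit 4) (nat_lit 539) (nat_lit 391) (nat_lit 270)))) (XT.nd (nat_lit 156) (nat_lit 152) (nat_lit 0) (XT.nd (nat_lit 78) (nat_lit 76) (nat_lit 0) (XT.lf (nat_lit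 0) (nat_lit 26290937247) (nat_lit 152) (nat_lit 19435588218) (nat_lit 0) (nat_lit 5860281709) (nat_lit 41) (nat_lit 5) (nat_lit 43) (nat_lit 4) (nat_lit 41) (nat_lit 4) (nat_lit 540) (nat_lit 391) (nat_lit 269)) (XT.lf (nat_lit 0) (nat_lit 7073887884) (nat_lit 76) (nat_lit 33048759526) (nat_lit 76) (nat_lit 12601493533) (nat_lit 40) (nat_lit 4) (nat_lit 41) (nat_lit 5) (nat_lit 41) (nat_lit 4) (nat_lit 541) (nat_lit 391) (nat_lit 268))) (XT.nd (nat_lit 78) (nat_lit 76) (nat_lit 0) (XT.lf (nat_lit 0) (nat_lit 641949846) (nat_lit 152) (nat_lit 19160234458) (nat_lit 76) (nat_lit 34087949542) (nat_lit 39) (nat_lit 5) (nat_lit 41) (nat_lit 5) (nat_lit 40) (nat_lit 4) (nat_lit 542) (nat_lit 391) (nat_lit 267)) (XT.lf (nat_lit 0) (nat_lit 8118240806) (nat_lit 76) (nat_lit 5969094366) (nat_lit 152) (nat_lit 40998290973) (nat_lit 38) (nat_lit 5) (nat_lit 39) (nat_lit 5) (nat_lit 40) (nat_lit 4) (nat_lit 543) (nat_lit 391)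 (nat_lit 266))))) (XT.nd (nat_lit 312) (nat_lit 228) (nat_lit 0) (XT.nd (nat_lit 156) (nat_lit 152) (nat_lit 0) (XT.nd (nat_lit 78) (nat_lit 76) (nat_lit 0) (XT.lf (nat_lit 0) (nat_lit 28190957962) (nat_lit 152) (nat_lit 19824751713) (nat_lit 0) (nat_lit 8293627368) (nat_lit 38) (nat_lit 5) (nat_lit 40) (nat_lit 4) (nat_lit 38) (nat_lit 4) (nat_lit 544) (nat_lit 391) (nat_lit 265)) (XT.lf (nat_lit 0) (nat_lit 8194211080) (nat_lit 76) (nat_lit 34641828356) (nat_lit 76) (nat_lit 14730169437) (nat_lit 37) (nat_lit 4) (nat_lit 38) (nat_lit 5) (nat_lit 38) (nat_lit 4) (nat_lit 545) (nat_lit 391) (nat_lit 264))) (XT.nd (nat_lit 78) (nat_lit 152) (nat_lit 0) (XT.lf (nat_lit 0) (nat_lit 37421762149) (nat_lit 76) (nat_lit 20679584266) (nat_lit 76) (nat_lit 754014354) (nat_lit 37) (nat_lit 4) (nat_lit 38) (nat_lit 5) (nat_lit 38) (nat_lit 4) (nat_lit 546) (nat_lit 391) (nat_lit 263)) (XT.lf (nat_lit 0) (nat_lit 7316975228)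 (nat_lit 76) (nat_lit 6109650860) (nat_lit 152) (nat_lit 46751085518) (nat_lit 35) (nat_lit 5) (nat_lit 36) (nat_lit 5) (nat_lit 37) (nat_lit 4) (nat_lit 547) (nat_lit 391) (nat_lit 262)))) (XT.nd (nat_lit 156) (nat_lit 152) (nat_lit 0) (XT.nd (nat_lit 78) (nat_lit 76) (nat_lit 0) (XT.lf (nat_lit 0) (nat_lit 28302712521) (nat_lit 152) (nat_lit 24296585085) (nat_lit 0) (nat_lit 8931656038) (nat_lit 35) (nat_lit 5) (nat_lit 37) (nat_lit 4) (nat_lit 35) (nat_lit 4) (nat_lit 548) (nat_lit 391) (nat_lit 261)) (XT.lf (nat_lit 0) (nat_lit 5127507933) (nat_lit 76) (nat_lit 38588979572) (nat_lit 76) (nat_lit 19205563351) (nat_lit 34) (nat_lit 4) (nat_lit 35) (nat_lit 5) (nat_lit 35) (nat_lit 4) (nat_lit 549) (nat_lit 391) (nat_lit 260))) (XT.nd (nat_lit 78) (nat_lit 152) (nat_lit 0) (XT.lf (nat_lit 0) (nat_lit 35896190854) (nat_lit 76) (nat_lit 23923645680) (nat_lit 76) (nat_lit 4528229713) (nat_lit 34) (nat_lit 4) (nat_lit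 35) (nat_lit 5) (nat_lit 35) (nat_lit 4) (nat_lit 550) (nat_lit 391) (nat_lit 259)) (XT.lf (nat_lit 0) (nat_lit 1666305774) (nat_lit 76) (nat_lit 8714665644) (nat_lit 152) (nat_lit 55432891448) (nat_lit 32) (nat_lit 5) (nat_lit 33) (nat_lit 5) (nat_lit 34) (nat_lit 4) (nat_lit 551) (nat_lit 391) (nat_lit 258))))))))
noncomputable def xc77 : XT := (XT.nd (nat_lit 54132) (nat_lit 0) (nat_lit 6536) (XT.nd (nat_lit 52884) (nat_lit 0) (nat_lit 13452) (XT.nd (nat_lit 52260) (nat_lit 0) (nat_lit 19988) (XT.nd (nat_lit 51948) (nat_lit 0) (nat_lit 25536) (XT.nd (nat_lit 78) (nat_lit 0) (nat_lit 0) (XT.lf (nat_lit 0) (nat_lit 25985582883) (nat_lit 152) (nat_lit 34193741579) (nat_lit 0) (nat_lit 7132789566) (nat_lit 32) (nat_lit 5) (nat_lit 34) (nat_lit 4) (nat_lit 32) (nat_lit 4) (nat_lit 552) (nat_lit 391) (nat_lit 257)) (XT.nd (nat_lit 51792) (nat_lit 0) (nat_lit 28196) (XT.lf (nat_lit 0) (nat_lit 42127316685) (nat_lit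 152) (nat_lit 3462064849) (nat_lit 0) (nat_lit 23263861749) (nat_lit 32) (nat_lit 5) (nat_lit 34) (nat_lit 4) (nat_lit 32) (nat_lit 4) (nat_lit 553) (nat_lit 391) (nat_lit 256)) (XT.lf (nat_lit 0) (nat_lit 1101366416) (nat_lit 684) (nat_lit 1127713895) (nat_lit 684) (nat_lit 1127713895) (nat_lit 403) (nat_lit 4) (nat_lit 412) (nat_lit 5) (nat_lit 412) (nat_lit 4) (nat_lit 416) (nat_lit 392) (nat_lit 392)))) (XT.nd (nat_lit 156) (nat_lit 1824) (nat_lit 0) (XT.nd (nat_lit 78) (nat_lit 760) (nat_lit 0) (XT.lf (nat_lit 0) (nat_lit 1057649394) (nat_lit 760) (nat_lit 33308543) (nat_lit 76) (nat_lit 5658453714) (nat_lit 402) (nat_lit 5) (nat_lit 412) (nat_lit 5) (nat_lit 403) (nat_lit 4) (nat_lit 417) (nat_lit 392) (nat_lit 391)) (XT.lf (nat_lit 0) (nat_lit 4363473628) (nat_lit 836) (nat_lit 2232555336) (nat_lit 0) (nat_lit 191465207) (nat_lit 392) (nat_lit 5) (nat_lit 403) (nat_lit 4) (nat_lit 392) (nat_lit 4) (nat_lit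 418) (nat_lit 392) (nat_lit 390))) (XT.nd (nat_lit 78) (nat_lit 912) (nat_lit 0) (XT.lf (nat_lit 0) (nat_lit 852326430) (nat_lit 912) (nat_lit 4437102817) (nat_lit 76) (nat_lit 1539164081) (nat_lit 380) (nat_lit 5) (nat_lit 392) (nat_lit 5) (nat_lit 381) (nat_lit 4) (nat_lit 419) (nat_lit 392) (nat_lit 389)) (XT.lf (nat_lit 0) (nat_lit 217880312) (nat_lit 912) (nat_lit 3881827472) (nat_lit 988) (nat_lit 2772867565) (nat_lit 368) (nat_lit 5) (nat_lit 380) (nat_lit 5) (nat_lit 381) (nat_lit 4) (nat_lit 420) (nat_lit 392) (nat_lit 388))))) (XT.nd (nat_lit 312) (nat_lit 3344) (nat_lit 0) (XT.nd (nat_lit 156) (nat_lit 1140) (nat_lit 0) (XT.nd (nat_lit 78) (nat_lit 988) (nat_lit 0) (XT.lf (nat_lit 0) (nat_lit 459330121) (nat_lit 988) (nat_lit 1911638459) (nat_lit 76) (nat_lit 4548480228) (nat_lit 367) (nat_lit 5) (nat_lit 380) (nat_lit 5) (nat_lit 368) (nat_lit 5) (nat_lit 421) (nat_lit 392) (nat_lit 387)) (XT.lf (nat_lit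 0) (nat_lit 2912735334) (nat_lit 988) (nat_lit 748727671) (nat_lit 1064) (nat_lit 3307593461) (nat_lit 354) (nat_lit 5) (nat_lit 367) (nat_lit 5) (nat_lit 368) (nat_lit 5) (nat_lit 422) (nat_lit 392) (nat_lit 386))) (XT.nd (nat_lit 78) (nat_lit 76) (nat_lit 0) (XT.lf (nat_lit 0) (nat_lit 815840502) (nat_lit 1064) (nat_lit 6082830410) (nat_lit 1140) (nat_lit 123323398) (nat_lit 340) (nat_lit 5) (nat_lit 354) (nat_lit 5) (nat_lit 355) (nat_lit 4) (nat_lit 423) (nat_lit 392) (nat_lit 385)) (XT.lf (nat_lit 0) (nat_lit 3047465246) (nat_lit 1140) (nat_lit 1289631548) (nat_lit 76) (nat_lit 2739947275) (nat_lit 339) (nat_lit 5) (nat_lit 354) (nat_lit 5) (nat_lit 340) (nat_lit 5) (nat_lit 424) (nat_lit 392) (nat_lit 384)))) (XT.nd (nat_lit 156) (nat_lit 912) (nat_lit 0) (XT.nd (nat_lit 78) (nat_lit 1292) (nat_lit 0) (XT.lf (nat_lit 0) (nat_lit 3755678366) (nat_lit 1140) (nat_lit 2497929259) (nat_lit 1216) (nat_lit 881831045)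 (nat_lit 324) (nat_lit 5) (nat_lit 339) (nat_lit 5) (nat_lit 340) (nat_lit 5) (nat_lit 425) (nat_lit 392) (nat_lit 383)) (XT.lf (nat_lit 0) (nat_lit 1702253904) (nat_lit 1216) (nat_lit 549097178) (nat_lit 1292) (nat_lit 4945452128) (nat_lit 307) (nat_lit 5) (nat_lit 323) (nat_lit 5) (nat_lit 324) (nat_lit 5) (nat_lit 426) (nat_lit 392) (nat_lit 382))) (XT.nd (nat_lit 78) (nat_lit 912) (nat_lit 0) (XT.lf (nat_lit 0) (nat_lit 5418652494) (nat_lit 1292) (nat_lit 369623028) (nat_lit 76) (nat_lit 1472746090) (nat_lit 307) (nat_lit 5) (nat_lit 324) (nat_lit 5) (nat_lit 308) (nat_lit 5) (nat_lit 427) (nat_lit 392) (nat_lit 381)) (XT.lf (nat_lit 0) (nat_lit 1291653054) (nat_lit 912) (nat_lit 2432340342) (nat_lit 76) (nat_lit 3603864531) (nat_lit 295) (nat_lit 5) (nat_lit 307) (nat_lit 5) (nat_lit 296) (nat_lit 5) (nat_lit 428) (nat_lit 392) (nat_lit 380)))))) (XT.nd (nat_lit 624) (nat_lit 2888) (nat_lit 0) (XT.nd (nat_lit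 312) (nat_lit 1824) (nat_lit 0) (XT.nd (nat_lit 156) (nat_lit 532) (nat_lit 0) (XT.nd (nat_lit 78) (nat_lit 684) (nat_lit 0) (XT.lf (nat_lit 0) (nat_lit 2875749029) (nat_lit 608) (nat_lit 1551168050) (nat_lit 684) (nat_lit 2970916900) (nat_lit 287) (nat_lit 5) (nat_lit 295) (nat_lit 5) (nat_lit 296) (nat_lit 5) (nat_lit 429) (nat_lit 392) (nat_lit 379)) (XT.lf (nat_lit 0) (nat_lit 136163829) (nat_lit 684) (nat_lit 6632635342) (nat_lit 76) (nat_lit 702461182) (nat_lit 278) (nat_lit 5) (nat_lit 287) (nat_lit 5) (nat_lit 279) (nat_lit 5) (nat_lit 430) (nat_lit 392) (nat_lit 378))) (XT.nd (nat_lit 78) (nat_lit 532) (nat_lit 0) (XT.lf (nat_lit 0) (nat_lit 3253435666) (nat_lit 684) (nat_lit 1231986475) (nat_lit 76) (nat_lit 3061292807) (nat_lit 278) (nat_lit 5) (nat_lit 287) (nat_lit 5) (nat_lit 279) (nat_lit 5) (nat_lit 431) (nat_lit 392) (nat_lit 377)) (XT.lf (nat_lit 0) (nat_lit 4323697203) (nat_lit 532) (nat_lit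 2099776653) (nat_lit 608) (nat_lit 1202190246) (nat_lit 271) (nat_lit 5) (nat_lit 278) (nat_lit 5) (nat_lit 279) (nat_lit 5) (nat_lit 432) (nat_lit 392) (nat_lit 376)))) (XT.nd (nat_lit 156) (nat_lit 608) (nat_lit 0) (XT.nd (nat_lit 78) (nat_lit 532) (nat_lit 0) (XT.lf (nat_lit 0) (nat_lit 1899892026) (nat_lit 684) (nat_lit 5413411370) (nat_lit 76) (nat_lit 394406881) (nat_lit 262) (nat_lit 5) (nat_lit 271) (nat_lit 5) (nat_lit 263) (nat_lit 5) (nat_lit 433) (nat_lit 392) (nat_lit 375)) (XT.lf (nat_lit 0) (nat_lit 212554432) (nat_lit 532) (nat_lit 4834625683) (nat_lit 608) (nat_lit 2745399107) (nat_lit 255) (nat_lit 5) (nat_lit 262) (nat_lit 5) (nat_lit 263) (nat_lit 5) (nat_lit 434) (nat_lit 392) (nat_lit 374))) (XT.nd (nat_lit 78) (nat_lit 532) (nat_lit 0) (XT.lf (nat_lit 0) (nat_lit 376578310) (nat_lit 608) (nat_lit 1858723502) (nat_lit 76) (nat_lit 5645311783) (nat_lit 254) (nat_lit 5) (nat_lit 262) (nat_lit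 5) (nat_lit 255) (nat_lit 5) (nat_lit 435) (nat_lit 392) (nat_lit 373)) (XT.lf (nat_lit 0) (nat_lit 3502960435) (nat_lit 608) (nat_lit 3982867732) (nat_lit 76) (nat_lit 485674618) (nat_lit 247) (nat_lit 5) (nat_lit 255) (nat_lit 5) (nat_lit 248) (nat_lit 5) (nat_lit 436) (nat_lit 392) (nat_lit 372))))) (XT.nd (nat_lit 312) (nat_lit 1444) (nat_lit 0) (XT.nd (nat_lit 156) (nat_lit 912) (nat_lit 0) (XT.nd (nat_lit 78) (nat_lit 76) (nat_lit 0) (XT.lf (nat_lit 0) (nat_lit 1907191128) (nat_lit 456) (nat_lit 4799376242) (nat_lit 532) (nat_lit 1359055082) (nat_lit 241) (nat_lit 5) (nat_lit 247) (nat_lit 5) (nat_lit 248) (nat_lit 5) (nat_lit 437) (nat_lit 392) (nat_lit 371)) (XT.lf (nat_lit 0) (nat_lit 1772955386) (nat_lit 532) (nat_lit 217150482) (nat_lit 76) (nat_lit 6172978082) (nat_lit 240) (nat_lit 5) (nat_lit 247) (nat_lit 5) (nat_lit 241) (nat_lit 5) (nat_lit 438) (nat_lit 392) (nat_lit 370))) (XT.nd (nat_lit 78)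 (nat_lit 456) (nat_lit 0) (XT.lf (nat_lit 0) (nat_lit 4964465902) (nat_lit 532) (nat_lit 2359015120) (nat_lit 76) (nat_lit 939805154) (nat_lit 234) (nat_lit 5) (nat_lit 241) (nat_lit 5) (nat_lit 235) (nat_lit 5) (nat_lit 439) (nat_lit 392) (nat_lit 369)) (XT.lf (nat_lit 0) (nat_lit 3810329185) (nat_lit 456) (nat_lit 4427833097) (nat_lit 532) (nat_lit 128745014) (nat_lit 228) (nat_lit 5) (nat_lit 234) (nat_lit 5) (nat_lit 235) (nat_lit 5) (nat_lit 440) (nat_lit 392) (nat_lit 368)))) (XT.nd (nat_lit 156) (nat_lit 912) (nat_lit 0) (XT.nd (nat_lit 78) (nat_lit 0) (nat_lit 0) (XT.lf (nat_lit 0) (nat_lit 1649809422) (nat_lit 456) (nat_lit 1393751279) (nat_lit 532) (nat_lit 5430127627) (nat_lit 221) (nat_lit 5) (nat_lit 227) (nat_lit 5) (nat_lit 228) (nat_lit 5) (nat_lit 441) (nat_lit 392) (nat_lit 367)) (XT.lf (nat_lit 0) (nat_lit 6300980425) (nat_lit 532) (nat_lit 558071674) (nat_lit 76) (nat_lit 1724812008) (nat_lit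 221) (nat_lit 5) (nat_lit 228) (nat_lit 5) (nat_lit 222) (nat_lit 5) (nat_lit 442) (nat_lit 392) (nat_lit 366))) (XT.nd (nat_lit 78) (nat_lit 456) (nat_lit 0) (XT.lf (nat_lit 0) (nat_lit 942138919) (nat_lit 456) (nat_lit 2799840119) (nat_lit 76) (nat_lit 4955032728) (nat_lit 215) (nat_lit 5) (nat_lit 221) (nat_lit 5) (nat_lit 216) (nat_lit 5) (nat_lit 443) (nat_lit 392) (nat_lit 365)) (XT.lf (nat_lit 0) (nat_lit 3702765029) (nat_lit 456) (nat_lit 488487413) (nat_lit 532) (nat_lit 4622431670) (nat_lit 209) (nat_lit 5) (nat_lit 215) (nat_lit 5) (nat_lit 216) (nat_lit 5) (nat_lit 444) (nat_lit 392) (nat_lit 364))))))) (XT.nd (nat_lit 1248) (nat_lit 2660) (nat_lit 0) (XT.nd (nat_lit 624) (nat_lit 1976) (nat_lit 0) (XT.nd (nat_lit 312) (nat_lit 1140) (nat_lit 0) (XT.nd (nat_lit 156) (nat_lit 684) (nat_lit 0) (XT.nd (nat_lit 78) (nat_lit 76) (nat_lit 0) (XT.lf (nat_lit 0) (nat_lit 1433145347) (nat_lit 380) (nat_lit 6107374052)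 (nat_lit 456) (nat_lit 1393261744) (nat_lit 204) (nat_lit 5) (nat_lit 209) (nat_lit 5) (nat_lit 210) (nat_lit 5) (nat_lit 445) (nat_lit 392) (nat_lit 363)) (XT.lf (nat_lit 0) (nat_lit 1885282251) (nat_lit 456) (nat_lit 893848492) (nat_lit 76) (nat_lit 6278091165) (nat_lit 203) (nat_lit 5) (nat_lit 209) (nat_lit 5) (nat_lit 204) (nat_lit 5) (nat_lit 446) (nat_lit 392) (nat_lit 362))) (XT.nd (nat_lit 78) (nat_lit 304) (nat_lit 0) (XT.lf (nat_lit 0) (nat_lit 5233018937) (nat_lit 456) (nat_lit 3267560799) (nat_lit 76) (nat_lit 683411630) (nat_lit 198) (nat_lit 5) (nat_lit 204) (nat_lit 5) (nat_lit 199) (nat_lit 5) (nat_lit 447) (nat_lit 392) (nat_lit 361)) (XT.lf (nat_lit 0) (nat_lit 3587037848) (nat_lit 304) (nat_lit 5101257638) (nat_lit 380) (nat_lit 626059555) (nat_lit 194) (nat_lit 5) (nat_lit 198) (nat_lit 5) (nat_lit 199) (nat_lit 5) (nat_lit 448) (nat_lit 392) (nat_lit 360)))) (XT.nd (nat_lit 156) (nat_lit 684)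 (nat_lit 0) (XT.nd (nat_lit 78) (nat_lit 0) (nat_lit 0) (XT.lf (nat_lit 0) (nat_lit 1171462669) (nat_lit 380) (nat_lit 1553481870) (nat_lit 456) (nat_lit 6723453510) (nat_lit 188) (nat_lit 5) (nat_lit 193) (nat_lit 5) (nat_lit 194) (nat_lit 5) (nat_lit 449) (nat_lit 392) (nat_lit 359)) (XT.lf (nat_lit 0) (nat_lit 6179594653) (nat_lit 456) (nat_lit 1308597575) (nat_lit 76) (nat_lit 2097617183) (nat_lit 188) (nat_lit 5) (nat_lit 194) (nat_lit 5) (nat_lit 189) (nat_lit 5) (nat_lit 450) (nat_lit 392) (nat_lit 358))) (XT.nd (nat_lit 78) (nat_lit 304) (nat_lit 0) (XT.lf (nat_lit 0) (nat_lit 21265534) (nat_lit 380) (nat_lit 3847945667) (nat_lit 76) (nat_lit 5857804737) (nat_lit 183) (nat_lit 5) (nat_lit 188) (nat_lit 5) (nat_lit 184) (nat_lit 5) (nat_lit 451) (nat_lit 392) (nat_lit 357)) (XT.lf (nat_lit 0) (nat_lit 3380040210) (nat_lit 304) (nat_lit 88168902) (nat_lit 380) (nat_lit 6403688446) (nat_lit 179) (nat_lit 5)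 (nat_lit 183) (nat_lit 5) (nat_lit 184) (nat_lit 5) (nat_lit 452) (nat_lit 392) (nat_lit 356))))) (XT.nd (nat_lit 312) (nat_lit 988) (nat_lit 0) (XT.nd (nat_lit 156) (nat_lit 608) (nat_lit 0) (XT.nd (nat_lit 78) (nat_lit 76) (nat_lit 0) (XT.lf (nat_lit 0) (nat_lit 772035475) (nat_lit 304) (nat_lit 6269687124) (nat_lit 380) (nat_lit 2978711729) (nat_lit 175) (nat_lit 5) (nat_lit 179) (nat_lit 5) (nat_lit 180) (nat_lit 5) (nat_lit 453) (nat_lit 392) (nat_lit 355)) (XT.lf (nat_lit 0) (nat_lit 545594035) (nat_lit 380) (nat_lit 1881491926) (nat_lit 76) (nat_lit 7745967474) (nat_lit 174) (nat_lit 5) (nat_lit 179) (nat_lit 5) (nat_lit 175) (nat_lit 5) (nat_lit 454) (nat_lit 392) (nat_lit 354))) (XT.nd (nat_lit 78) (nat_lit 304) (nat_lit 0) (XT.lf (nat_lit 0) (nat_lit 4127781155) (nat_lit 380) (nat_lit 4644090765) (nat_lit 76) (nat_lit 1557137037) (nat_lit 170) (nat_lit 5) (nat_lit 175) (nat_lit 5) (nat_lit 171) (nat_lit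 5) (nat_lit 455) (nat_lit 392) (nat_lit 353)) (XT.lf (nat_lit 0) (nat_lit 2973516511) (nat_lit 304) (nat_lit 4858249932) (nat_lit 380) (nat_lit 2657449880) (nat_lit 166) (nat_lit 5) (nat_lit 170) (nat_lit 5) (nat_lit 171) (nat_lit 5) (nat_lit 456) (nat_lit 392) (nat_lit 352)))) (XT.nd (nat_lit 156) (nat_lit 608) (nat_lit 0) (XT.nd (nat_lit 78) (nat_lit 0) (nat_lit 0) (XT.lf (nat_lit 0) (nat_lit 166896278) (nat_lit 304) (nat_lit 798142681) (nat_lit 380) (nat_lit 9689154639) (nat_lit 161) (nat_lit 5) (nat_lit 165) (nat_lit 5) (nat_lit 166) (nat_lit 5) (nat_lit 457) (nat_lit 392) (nat_lit 351)) (XT.lf (nat_lit 0) (nat_lit 4695290516) (nat_lit 380) (nat_lit 2736309066) (nat_lit 76) (nat_lit 3390159151) (nat_lit 161) (nat_lit 5) (nat_lit 166) (nat_lit 5) (nat_lit 162) (nat_lit 5) (nat_lit 458) (nat_lit 392) (nat_lit 350))) (XT.nd (nat_lit 78) (nat_lit 380) (nat_lit 0) (XT.lf (nat_lit 0) (nat_lit 5255539815) (nat_lit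 228) (nat_lit 3285310369) (nat_lit 304) (nat_lit 2453401422) (nat_lit 158) (nat_lit 5) (nat_lit 161) (nat_lit 5) (nat_lit 162) (nat_lit 5) (nat_lit 459) (nat_lit 392) (nat_lit 349)) (XT.lf (nat_lit 0) (nat_lit 1309101381) (nat_lit 380) (nat_lit 8863717695) (nat_lit 76) (nat_lit 998563500) (nat_lit 153) (nat_lit 5) (nat_lit 158) (nat_lit 5) (nat_lit 154) (nat_lit 5) (nat_lit 460) (nat_lit 392) (nat_lit 348)))))) (XT.nd (nat_lit 624) (nat_lit 1368) (nat_lit 0) (XT.nd (nat_lit 312) (nat_lit 532) (nat_lit 0) (XT.nd (nat_lit 156) (nat_lit 532) (nat_lit 0) (XT.nd (nat_lit 78) (nat_lit 228) (nat_lit 0) (XT.lf (nat_lit 0) (nat_lit 5171906307) (nat_lit 380) (nat_lit 783447863) (nat_lit 76) (nat_lit 5396644997) (nat_lit 153) (nat_lit 5) (nat_lit 158) (nat_lit 5) (nat_lit 154) (nat_lit 5) (nat_lit 461) (nat_lit 392) (nat_lit 347)) (XT.lf (nat_lit 0) (nat_lit 7603091816) (nat_lit 228) (nat_lit 1567857732) (nat_lit 304) (nat_lit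 2366476573) (nat_lit 150) (nat_lit 5) (nat_lit 153) (nat_lit 5) (nat_lit 154) (nat_lit 5) (nat_lit 462) (nat_lit 392) (nat_lit 346))) (XT.nd (nat_lit 78) (nat_lit 228) (nat_lit 0) (XT.lf (nat_lit 0) (nat_lit 1558691271) (nat_lit 304) (nat_lit 7239267599) (nat_lit 76) (nat_lit 2929180609) (nat_lit 146) (nat_lit 5) (nat_lit 150) (nat_lit 5) (nat_lit 147) (nat_lit 5) (nat_lit 463) (nat_lit 392) (nat_lit 345)) (XT.lf (nat_lit 0) (nat_lit 1221390441) (nat_lit 228) (nat_lit 4347943998) (nat_lit 304) (nat_lit 6352050641) (nat_lit 143) (nat_lit 5) (nat_lit 146) (nat_lit 5) (nat_lit 147) (nat_lit 5) (nat_lit 464) (nat_lit 392) (nat_lit 344)))) (XT.nd (nat_lit 156) (nat_lit 228) (nat_lit 0) (XT.nd (nat_lit 78) (nat_lit 304) (nat_lit 0) (XT.lf (nat_lit 0) (nat_lit 9724675998) (nat_lit 304) (nat_lit 2123518163) (nat_lit 76) (nat_lit 272534726) (nat_lit 143) (nat_lit 5) (nat_lit 147) (nat_lit 5) (nat_lit 144) (nat_lit 5) (nat_lit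 465) (nat_lit 392) (nat_lit 343)) (XT.lf (nat_lit 0) (nat_lit 1703829115) (nat_lit 304) (nat_lit 5625835972) (nat_lit 76) (nat_lit 4994167117) (nat_lit 139) (nat_lit 5) (nat_lit 143) (nat_lit 5) (nat_lit 140) (nat_lit 5) (nat_lit 466) (nat_lit 392) (nat_lit 342))) (XT.nd (nat_lit 78) (nat_lit 0) (nat_lit 0) (XT.lf (nat_lit 0) (nat_lit 3251592062) (nat_lit 228) (nat_lit 2629843220) (nat_lit 304) (nat_lit 6650797085) (nat_lit 136) (nat_lit 5) (nat_lit 139) (nat_lit 5) (nat_lit 140) (nat_lit 5) (nat_lit 467) (nat_lit 392) (nat_lit 341)) (XT.lf (nat_lit 0) (nat_lit 10213316525) (nat_lit 304) (nat_lit 339901485) (nat_lit 76) (nat_lit 2192800084) (nat_lit 136) (nat_lit 5) (nat_lit 140) (nat_lit 5) (nat_lit 137) (nat_lit 5) (nat_lit 468) (nat_lit 392) (nat_lit 340))))) (XT.nd (nat_lit 312) (nat_lit 608) (nat_lit 0) (XT.nd (nat_lit 156) (nat_lit 304) (nat_lit 0) (XT.nd (nat_lit 78) (nat_lit 152) (nat_lit 0) (XT.lf (nat_lit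 0) (nat_lit 1739925285) (nat_lit 304) (nat_lit 4045104529) (nat_lit 76) (nat_lit 7178766531) (nat_lit 132) (nat_lit 5) (nat_lit 136) (nat_lit 5) (nat_lit 133) (nat_lit 5) (nat_lit 469) (nat_lit 392) (nat_lit 339)) (XT.lf (nat_lit 0) (nat_lit 5270439094) (nat_lit 152) (nat_lit 825443698) (nat_lit 228) (nat_lit 7091292963) (nat_lit 130) (nat_lit 5) (nat_lit 132) (nat_lit 5) (nat_lit 133) (nat_lit 5) (nat_lit 470) (nat_lit 392) (nat_lit 338))) (XT.nd (nat_lit 78) (nat_lit 76) (nat_lit 0) (XT.lf (nat_lit 0) (nat_lit 1437197114) (nat_lit 228) (nat_lit 9193795495) (nat_lit 304) (nat_lit 2784811479) (nat_lit 127) (nat_lit 5) (nat_lit 130) (nat_lit 5) (nat_lit 131) (nat_lit 5) (nat_lit 471) (nat_lit 392) (nat_lit 337)) (XT.lf (nat_lit 0) (nat_lit 1659939930) (nat_lit 304) (nat_lit 2521453075) (nat_lit 76) (nat_lit 9468185144) (nat_lit 126) (nat_lit 5) (nat_lit 130) (nat_lit 5) (nat_lit 127) (nat_lit 5) (nat_lit 472) (nat_lit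 392) (nat_lit 336)))) (XT.nd (nat_lit 156) (nat_lit 228) (nat_lit 0) (XT.nd (nat_lit 78) (nat_lit 228) (nat_lit 0) (XT.lf (nat_lit 0) (nat_lit 6215639324) (nat_lit 228) (nat_lit 6644897875) (nat_lit 76) (nat_lit 1027995337) (nat_lit 124) (nat_lit 5) (nat_lit 127) (nat_lit 5) (nat_lit 125) (nat_lit 5) (nat_lit 473) (nat_lit 392) (nat_lit 335)) (XT.lf (nat_lit 0) (nat_lit 3159822845) (nat_lit 228) (nat_lit 7799717864) (nat_lit 304) (nat_lit 3173570467) (nat_lit 121) (nat_lit 5) (nat_lit 124) (nat_lit 5) (nat_lit 125) (nat_lit 5) (nat_lit 474) (nat_lit 392) (nat_lit 334))) (XT.nd (nat_lit 78) (nat_lit 152) (nat_lit 0) (XT.lf (nat_lit 0) (nat_lit 1454165333) (nat_lit 304) (nat_lit 1082608769) (nat_lit 76) (nat_lit 11847175167) (nat_lit 120) (nat_lit 5) (nat_lit 124) (nat_lit 5) (nat_lit 121) (nat_lit 5) (nat_lit 475) (nat_lit 392) (nat_lit 333)) (XT.lf (nat_lit 0) (nat_lit 6229240938) (nat_lit 228) (nat_lit 5493709019)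 (nat_lit 76) (nat_lit 2916252524) (nat_lit 118) (nat_lit 5) (nat_lit 121) (nat_lit 5) (nat_lit 119) (nat_lit 5) (nat_lit 476) (nat_lit 392) (nat_lit 332))))))))
noncomputable def xc78 : XT := (XT.nd (nat_lit 2418) (nat_lit 2052) (nat_lit 0) (XT.nd (nat_lit 1170) (nat_lit 1672) (nat_lit 0) (XT.nd (nat_lit 546) (nat_lit 988) (nat_lit 0) (XT.nd (nat_lit 234) (nat_lit 532) (nat_lit 0) (XT.nd (nat_lit 78) (nat_lit 228) (nat_lit 0) (XT.lf (nat_lit 0) (nat_lit 4791409812) (nat_lit 228) (nat_lit 6394125047) (nat_lit 304) (nat_lit 3715440825) (nat_lit 115) (nat_lit 5) (nat_lit 118) (nat_lit 5) (nat_lit 119) (nat_lit 5) (nat_lit 477) (nat_lit 392) (nat_lit 331)) (XT.nd (nat_lit 78) (nat_lit 0) (nat_lit 0) (XT.lf (nat_lit 0) (nat_lit 244387659) (nat_lit 152) (nat_lit 867914630) (nat_lit 228) (nat_lit 14057550924) (nat_lit 112) (nat_lit 5) (nat_lit 114) (nat_lit 5) (nat_lit 115) (nat_lit 5) (nat_lit 478) (nat_lit 392) (nat_lit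 330)) (XT.lf (nat_lit 0) (nat_lit 6115759693) (nat_lit 228) (nat_lit 4489758652) (nat_lit 76) (nat_lit 4837009630) (nat_lit 112) (nat_lit 5) (nat_lit 115) (nat_lit 5) (nat_lit 113) (nat_lit 5) (nat_lit 479) (nat_lit 392) (nat_lit 329)))) (XT.nd (nat_lit 156) (nat_lit 152) (nat_lit 0) (XT.nd (nat_lit 78) (nat_lit 228) (nat_lit 0) (XT.lf (nat_lit 0) (nat_lit 6297536346) (nat_lit 152) (nat_lit 4998281510) (nat_lit 228) (nat_lit 4426771436) (nat_lit 110) (nat_lit 5) (nat_lit 112) (nat_lit 5) (nat_lit 113) (nat_lit 5) (nat_lit 480) (nat_lit 392) (nat_lit 328)) (XT.lf (nat_lit 0) (nat_lit 632987465) (nat_lit 228) (nat_lit 14581629504) (nat_lit 76) (nat_lit 795511824) (nat_lit 107) (nat_lit 5) (nat_lit 110) (nat_lit 5) (nat_lit 108) (nat_lit 5) (nat_lit 481) (nat_lit 392) (nat_lit 327))) (XT.nd (nat_lit 78) (nat_lit 152) (nat_lit 0) (XT.lf (nat_lit 0) (nat_lit 5858838628) (nat_lit 228) (nat_lit 3672917815) (nat_lit 76)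 (nat_lit 6770126079) (nat_lit 107) (nat_lit 5) (nat_lit 110) (nat_lit 5) (nat_lit 108) (nat_lit 5) (nat_lit 482) (nat_lit 392) (nat_lit 326)) (XT.lf (nat_lit 0) (nat_lit 7638239416) (nat_lit 152) (nat_lit 3635550702) (nat_lit 228) (nat_lit 5327630091) (nat_lit 105) (nat_lit 5) (nat_lit 107) (nat_lit 5) (nat_lit 108) (nat_lit 5) (nat_lit 483) (nat_lit 392) (nat_lit 325))))) (XT.nd (nat_lit 312) (nat_lit 456) (nat_lit 0) (XT.nd (nat_lit 156) (nat_lit 304) (nat_lit 0) (XT.nd (nat_lit 78) (nat_lit 76) (nat_lit 0) (XT.lf (nat_lit 0) (nat_lit 2404261031) (nat_lit 152) (nat_lit 14490010546) (nat_lit 228) (nat_lit 14381061) (nat_lit 103) (nat_lit 5) (nat_lit 105) (nat_lit 5) (nat_lit 106) (nat_lit 4) (nat_lit 484) (nat_lit 392) (nat_lit 324)) (XT.lf (nat_lit 0) (nat_lit 5438325488) (nat_lit 228) (nat_lit 3089419384) (nat_lit 76) (nat_lit 8693187005) (nat_lit 102) (nat_lit 5) (nat_lit 105) (nat_lit 5) (nat_lit 103) (nat_lit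 5) (nat_lit 485) (nat_lit 392) (nat_lit 323))) (XT.nd (nat_lit 78) (nat_lit 152) (nat_lit 0) (XT.lf (nat_lit 0) (nat_lit 8766958530) (nat_lit 152) (nat_lit 2331996522) (nat_lit 228) (nat_lit 6442282210) (nat_lit 100) (nat_lit 5) (nat_lit 102) (nat_lit 5) (nat_lit 103) (nat_lit 5) (nat_lit 486) (nat_lit 392) (nat_lit 322)) (XT.lf (nat_lit 0) (nat_lit 3121682916) (nat_lit 152) (nat_lit 13868680038) (nat_lit 228) (nat_lit 878961011) (nat_lit 98) (nat_lit 5) (nat_lit 100) (nat_lit 5) (nat_lit 101) (nat_lit 4) (nat_lit 487) (nat_lit 392) (nat_lit 321)))) (XT.nd (nat_lit 156) (nat_lit 228) (nat_lit 0) (XT.nd (nat_lit 78) (nat_lit 152) (nat_lit 0) (XT.lf (nat_lit 0) (nat_lit 4829758210) (nat_lit 228) (nat_lit 2793023121) (nat_lit 76) (nat_lit 10580878906) (nat_lit 97) (nat_lit 5) (nat_lit 100) (nat_lit 5) (nat_lit 98) (nat_lit 5) (nat_lit 488) (nat_lit 392) (nat_lit 320)) (XT.lf (nat_lit 0) (nat_lit 9629321009) (nat_lit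 152) (nat_lit 1117057002) (nat_lit 228) (nat_lit 7799759210) (nat_lit 95) (nat_lit 5) (nat_lit 97) (nat_lit 5) (nat_lit 98) (nat_lit 5) (nat_lit 489) (nat_lit 392) (nat_lit 319))) (XT.nd (nat_lit 78) (nat_lit 76) (nat_lit 0) (XT.lf (nat_lit 0) (nat_lit 3528183989) (nat_lit 152) (nat_lit 13390271437) (nat_lit 228) (nat_lit 1978095153) (nat_lit 93) (nat_lit 5) (nat_lit 95) (nat_lit 5) (nat_lit 96) (nat_lit 4) (nat_lit 490) (nat_lit 392) (nat_lit 318)) (XT.lf (nat_lit 0) (nat_lit 4003755728) (nat_lit 228) (nat_lit 2846357511) (nat_lit 76) (nat_lit 12404286712) (nat_lit 92) (nat_lit 5) (nat_lit 95) (nat_lit 5) (nat_lit 93) (nat_lit 5) (nat_lit 491) (nat_lit 392) (nat_lit 317)))))) (XT.nd (nat_lit 624) (nat_lit 836) (nat_lit 0) (XT.nd (nat_lit 312) (nat_lit 380) (nat_lit 0) (XT.nd (nat_lit 156) (nat_lit 228) (nat_lit 0) (XT.nd (nat_lit 78) (nat_lit 76) (nat_lit 0) (XT.lf (nat_lit 0) (nat_lit 10161741661) (nat_lit 152)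 (nat_lit 24304750) (nat_lit 228) (nat_lit 9434529342) (nat_lit 90) (nat_lit 5) (nat_lit 92) (nat_lit 5) (nat_lit 93) (nat_lit 5) (nat_lit 492) (nat_lit 392) (nat_lit 316)) (XT.lf (nat_lit 0) (nat_lit 3554887141) (nat_lit 76) (nat_lit 13092654512) (nat_lit 152) (nat_lit 3347383843) (nat_lit 89) (nat_lit 5) (nat_lit 90) (nat_lit 5) (nat_lit 91) (nat_lit 4) (nat_lit 493) (nat_lit 392) (nat_lit 315))) (XT.nd (nat_lit 78) (nat_lit 152) (nat_lit 0) (XT.lf (nat_lit 0) (nat_lit 2925300277) (nat_lit 152) (nat_lit 3322468018) (nat_lit 76) (nat_lit 14130096874) (nat_lit 88) (nat_lit 5) (nat_lit 90) (nat_lit 5) (nat_lit 89) (nat_lit 5) (nat_lit 494) (nat_lit 392) (nat_lit 314)) (XT.lf (nat_lit 0) (nat_lit 9390841752) (nat_lit 228) (nat_lit 10488322011) (nat_lit 76) (nat_lit 889976998) (nat_lit 86) (nat_lit 5) (nat_lit 89) (nat_lit 5) (nat_lit 87) (nat_lit 4) (nat_lit 495) (nat_lit 392) (nat_lit 313)))) (XT.nd (nat_lit 156)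 (nat_lit 228) (nat_lit 0) (XT.nd (nat_lit 78) (nat_lit 76) (nat_lit 0) (XT.lf (nat_lit 0) (nat_lit 3121293764) (nat_lit 76) (nat_lit 13019232859) (nat_lit 152) (nat_lit 5028923341) (nat_lit 85) (nat_lit 5) (nat_lit 86) (nat_lit 5) (nat_lit 87) (nat_lit 4) (nat_lit 496) (nat_lit 392) (nat_lit 312)) (XT.lf (nat_lit 0) (nat_lit 1552895011) (nat_lit 152) (nat_lit 4306606044) (nat_lit 76) (nat_lit 15719688934) (nat_lit 84) (nat_lit 5) (nat_lit 86) (nat_lit 5) (nat_lit 85) (nat_lit 5) (nat_lit 497) (nat_lit 392) (nat_lit 311))) (XT.nd (nat_lit 78) (nat_lit 76) (nat_lit 0) (XT.lf (nat_lit 0) (nat_lit 8307740191) (nat_lit 228) (nat_lit 12087212034) (nat_lit 76) (nat_lit 1602477391) (nat_lit 82) (nat_lit 5) (nat_lit 85) (nat_lit 5) (nat_lit 83) (nat_lit 4) (nat_lit 498) (nat_lit 392) (nat_lit 310)) (XT.lf (nat_lit 0) (nat_lit 2133297660) (nat_lit 76) (nat_lit 13219993147) (nat_lit 152) (nat_lit 7072284409) (nat_lit 81)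 (nat_lit 5) (nat_lit 82) (nat_lit 5) (nat_lit 83) (nat_lit 4) (nat_lit 499) (nat_lit 392) (nat_lit 309))))) (XT.nd (nat_lit 312) (nat_lit 532) (nat_lit 0) (XT.nd (nat_lit 156) (nat_lit 76) (nat_lit 0) (XT.nd (nat_lit 78) (nat_lit 228) (nat_lit 0) (XT.lf (nat_lit 0) (nat_lit 16964033385) (nat_lit 76) (nat_lit 5734236068) (nat_lit 152) (nat_lit 165654452) (nat_lit 81) (nat_lit 5) (nat_lit 82) (nat_lit 5) (nat_lit 83) (nat_lit 4) (nat_lit 500) (nat_lit 392) (nat_lit 308)) (XT.lf (nat_lit 0) (nat_lit 6885704046) (nat_lit 228) (nat_lit 14362512955) (nat_lit 76) (nat_lit 2063009481) (nat_lit 78) (nat_lit 5) (nat_lit 81) (nat_lit 5) (nat_lit 79) (nat_lit 4) (nat_lit 501) (nat_lit 392) (nat_lit 307))) (XT.nd (nat_lit 78) (nat_lit 0) (nat_lit 0) (XT.lf (nat_lit 0) (nat_lit 480886089) (nat_lit 76) (nat_lit 13752708457) (nat_lit 152) (nat_lit 9535655284) (nat_lit 77) (nat_lit 5) (nat_lit 78) (nat_lit 5) (nat_lit 79) (nat_lit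 4) (nat_lit 502) (nat_lit 392) (nat_lit 306)) (XT.lf (nat_lit 0) (nat_lit 16001572724) (nat_lit 76) (nat_lit 5912506735) (nat_lit 152) (nat_lit 2323570192) (nat_lit 77) (nat_lit 5) (nat_lit 78) (nat_lit 5) (nat_lit 79) (nat_lit 4) (nat_lit 503) (nat_lit 392) (nat_lit 305)))) (XT.nd (nat_lit 156) (nat_lit 304) (nat_lit 0) (XT.nd (nat_lit 78) (nat_lit 0) (nat_lit 0) (XT.lf (nat_lit 0) (nat_lit 5064892299) (nat_lit 228) (nat_lit 17439285292) (nat_lit 76) (nat_lit 2212663334) (nat_lit 74) (nat_lit 5) (nat_lit 77) (nat_lit 5) (nat_lit 75) (nat_lit 4) (nat_lit 504) (nat_lit 392) (nat_lit 304)) (XT.lf (nat_lit 0) (nat_lit 12738683272) (nat_lit 228) (nat_lit 1926188062) (nat_lit 76) (nat_lit 10541535612) (nat_lit 74) (nat_lit 5) (nat_lit 77) (nat_lit 5) (nat_lit 75) (nat_lit 4) (nat_lit 505) (nat_lit 392) (nat_lit 303))) (XT.nd (nat_lit 78) (nat_lit 228) (nat_lit 0) (XT.lf (nat_lit 0) (nat_lit 14271236691) (nat_lit 76)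 (nat_lit 6477416423) (nat_lit 152) (nat_lit 4958828330) (nat_lit 73) (nat_lit 5) (nat_lit 74) (nat_lit 5) (nat_lit 75) (nat_lit 4) (nat_lit 506) (nat_lit 392) (nat_lit 302)) (XT.lf (nat_lit 0) (nat_lit 2775004919) (nat_lit 228) (nat_lit 21463355178) (nat_lit 76) (nat_lit 1982813320) (nat_lit 70) (nat_lit 5) (nat_lit 73) (nat_lit 5) (nat_lit 71) (nat_lit 4) (nat_lit 507) (nat_lit 392) (nat_lit 301))))))) (XT.nd (nat_lit 1170) (nat_lit 988) (nat_lit 0) (XT.nd (nat_lit 546) (nat_lit 532) (nat_lit 0) (XT.nd (nat_lit 234) (nat_lit 304) (nat_lit 0) (XT.nd (nat_lit 78) (nat_lit 228) (nat_lit 0) (XT.lf (nat_lit 0) (nat_lit 10790833511) (nat_lit 228) (nat_lit 5248706868) (nat_lit 76) (nat_lit 10704773827) (nat_lit 70) (nat_lit 5) (nat_lit 73) (nat_lit 5) (nat_lit 71) (nat_lit 4) (nat_lit 508) (nat_lit 392) (nat_lit 300)) (XT.nd (nat_lit 78) (nat_lit 152) (nat_lit 0) (XT.lf (nat_lit 0) (nat_lit 11621233989) (nat_lit 76)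 (nat_lit 7507407554) (nat_lit 152) (nat_lit 8152062936) (nat_lit 69) (nat_lit 5) (nat_lit 70) (nat_lit 5) (nat_lit 71) (nat_lit 4) (nat_lit 509) (nat_lit 392) (nat_lit 299)) (XT.lf (nat_lit 0) (nat_lit 1226381781) (nat_lit 152) (nat_lit 26537686515) (nat_lit 152) (nat_lit 67694015) (nat_lit 67) (nat_lit 4) (nat_lit 69) (nat_lit 5) (nat_lit 69) (nat_lit 4) (nat_lit 510) (nat_lit 392) (nat_lit 298)))) (XT.nd (nat_lit 156) (nat_lit 152) (nat_lit 0) (XT.nd (nat_lit 78) (nat_lit 76) (nat_lit 0) (XT.lf (nat_lit 0) (nat_lit 8301954460) (nat_lit 228) (nat_lit 9668098496) (nat_lit 76) (nat_lit 10420800052) (nat_lit 66) (nat_lit 5) (nat_lit 69) (nat_lit 5) (nat_lit 67) (nat_lit 4) (nat_lit 511) (nat_lit 392) (nat_lit 297)) (XT.lf (nat_lit 0) (nat_lit 7873955779) (nat_lit 76) (nat_lit 9093831314) (nat_lit 152) (nat_lit 11997515920) (nat_lit 65) (nat_lit 5) (nat_lit 66) (nat_lit 5) (nat_lit 67) (nat_lit 4) (nat_lit 512) (nat_lit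 392) (nat_lit 296))) (XT.nd (nat_lit 78) (nat_lit 152) (nat_lit 0) (XT.lf (nat_lit 0) (nat_lit 25963481297) (nat_lit 152) (nat_lit 3471416740) (nat_lit 0) (nat_lit 119992228) (nat_lit 65) (nat_lit 5) (nat_lit 67) (nat_lit 4) (nat_lit 65) (nat_lit 4) (nat_lit 513) (nat_lit 392) (nat_lit 295)) (XT.lf (nat_lit 0) (nat_lit 5174214209) (nat_lit 152) (nat_lit 15385212411) (nat_lit 76) (nat_lit 9595091474) (nat_lit 63) (nat_lit 5) (nat_lit 65) (nat_lit 5) (nat_lit 64) (nat_lit 4) (nat_lit 514) (nat_lit 392) (nat_lit 294))))) (XT.nd (nat_lit 312) (nat_lit 304) (nat_lit 0) (XT.nd (nat_lit 156) (nat_lit 152) (nat_lit 0) (XT.nd (nat_lit 78) (nat_lit 0) (nat_lit 0) (XT.lf (nat_lit 0) (nat_lit 2821716121) (nat_lit 76) (nat_lit 11343131106) (nat_lit 152) (nat_lit 16605194345) (nat_lit 62) (nat_lit 5) (nat_lit 63) (nat_lit 5) (nat_lit 64) (nat_lit 4) (nat_lit 515) (nat_lit 392) (nat_lit 293)) (XT.lf (nat_lit 0) (nat_lit 21836003777)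 (nat_lit 76) (nat_lit 1716558204) (nat_lit 152) (nat_lit 7847648196) (nat_lit 62) (nat_lit 5) (nat_lit 63) (nat_lit 5) (nat_lit 64) (nat_lit 4) (nat_lit 516) (nat_lit 392) (nat_lit 292))) (XT.nd (nat_lit 78) (nat_lit 0) (nat_lit 0) (XT.lf (nat_lit 0) (nat_lit 1293114823) (nat_lit 152) (nat_lit 22634418185) (nat_lit 76) (nat_lit 8117111781) (nat_lit 60) (nat_lit 5) (nat_lit 62) (nat_lit 5) (nat_lit 61) (nat_lit 4) (nat_lit 517) (nat_lit 392) (nat_lit 291)) (XT.lf (nat_lit 0) (nat_lit 10637498599) (nat_lit 152) (nat_lit 3704462744) (nat_lit 76) (nat_lit 18361506558) (nat_lit 60) (nat_lit 5) (nat_lit 62) (nat_lit 5) (nat_lit 61) (nat_lit 4) (nat_lit 518) (nat_lit 392) (nat_lit 290)))) (XT.nd (nat_lit 156) (nat_lit 152) (nat_lit 0) (XT.nd (nat_lit 78) (nat_lit 76) (nat_lit 0) (XT.lf (nat_lit 0) (nat_lit 16054987028) (nat_lit 76) (nat_lit 4334951615) (nat_lit 152) (nat_lit 12988285590) (nat_lit 59) (nat_lit 5) (nat_lit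 60) (nat_lit 5) (nat_lit 61) (nat_lit 4) (nat_lit 519) (nat_lit 392) (nat_lit 289)) (XT.lf (nat_lit 0) (nat_lit 2347343719) (nat_lit 76) (nat_lit 28178797803) (nat_lit 76) (nat_lit 3544346309) (nat_lit 58) (nat_lit 4) (nat_lit 59) (nat_lit 5) (nat_lit 59) (nat_lit 4) (nat_lit 520) (nat_lit 392) (nat_lit 288))) (XT.nd (nat_lit 78) (nat_lit 76) (nat_lit 0) (XT.lf (nat_lit 0) (nat_lit 6255302276) (nat_lit 152) (nat_lit 11970966475) (nat_lit 76) (nat_lit 16549676556) (nat_lit 57) (nat_lit 5) (nat_lit 59) (nat_lit 5) (nat_lit 58) (nat_lit 4) (nat_lit 521) (nat_lit 392) (nat_lit 287)) (XT.lf (nat_lit 0) (nat_lit 8453387282) (nat_lit 76) (nat_lit 7879806320) (nat_lit 152) (nat_lit 19166655637) (nat_lit 56) (nat_lit 5) (nat_lit 57) (nat_lit 5) (nat_lit 58) (nat_lit 4) (nat_lit 522) (nat_lit 392) (nat_lit 286)))))) (XT.nd (nat_lit 624) (nat_lit 532) (nat_lit 0) (XT.nd (nat_lit 312) (nat_lit 228) (nat_lit 0) (XT.nd (nat_lit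 156) (nat_lit 76) (nat_lit 0) (XT.nd (nat_lit 78) (nat_lit 152) (nat_lit 0) (XT.lf (nat_lit 0) (nat_lit 26836467485) (nat_lit 152) (nat_lit 6584162525) (nat_lit 0) (nat_lit 2821149137) (nat_lit 56) (nat_lit 5) (nat_lit 58) (nat_lit 4) (nat_lit 56) (nat_lit 4) (nat_lit 523) (nat_lit 392) (nat_lit 285)) (XT.lf (nat_lit 0) (nat_lit 832003248) (nat_lit 152) (nat_lit 22357252092) (nat_lit 76) (nat_lit 13810650939) (nat_lit 54) (nat_lit 5) (nat_lit 56) (nat_lit 5) (nat_lit 55) (nat_lit 4) (nat_lit 524) (nat_lit 392) (nat_lit 284))) (XT.nd (nat_lit 78) (nat_lit 76) (nat_lit 0) (XT.lf (nat_lit 0) (nat_lit 11229583796) (nat_lit 152) (nat_lit 1280163908) (nat_lit 76) (nat_lit 25266970569) (nat_lit 54) (nat_lit 5) (nat_lit 56) (nat_lit 5) (nat_lit 55) (nat_lit 4) (nat_lit 525) (nat_lit 392) (nat_lit 283)) (XT.lf (nat_lit 0) (nat_lit 20787452279) (nat_lit 76) (nat_lit 1327226452) (nat_lit 152) (nat_lit 16456888494) (nat_lit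 53) (nat_lit 5) (nat_lit 54) (nat_lit 5) (nat_lit 55) (nat_lit 4) (nat_lit 526) (nat_lit 392) (nat_lit 282)))) (XT.nd (nat_lit 156) (nat_lit 76) (nat_lit 0) (XT.nd (nat_lit 78) (nat_lit 76) (nat_lit 0) (XT.lf (nat_lit 0) (nat_lit 4087686279) (nat_lit 76) (nat_lit 29364747503) (nat_lit 76) (nat_lit 5934044848) (nat_lit 52) (nat_lit 4) (nat_lit 53) (nat_lit 5) (nat_lit 53) (nat_lit 4) (nat_lit 527) (nat_lit 392) (nat_lit 281)) (XT.lf (nat_lit 0) (nat_lit 4979098315) (nat_lit 152) (nat_lit 13349787976) (nat_lit 76) (nat_lit 21890427379) (nat_lit 51) (nat_lit 5) (nat_lit 53) (nat_lit 5) (nat_lit 52) (nat_lit 4) (nat_lit 528) (nat_lit 392) (nat_lit 280))) (XT.nd (nat_lit 78) (nat_lit 0) (nat_lit 0) (XT.lf (nat_lit 0) (nat_lit 9335003066) (nat_lit 76) (nat_lit 6831617214) (nat_lit 152) (nat_lit 24906763490) (nat_lit 50) (nat_lit 5) (nat_lit 51) (nat_lit 5) (nat_lit 52) (nat_lit 4) (nat_lit 529) (nat_lit 392) (nat_lit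 279)) (XT.lf (nat_lit 0) (nat_lit 27850623000) (nat_lit 152) (nat_lit 9070655865) (nat_lit 0) (nat_lit 5026971634) (nat_lit 50) (nat_lit 5) (nat_lit 52) (nat_lit 4) (nat_lit 50) (nat_lit 4) (nat_lit 530) (nat_lit 392) (nat_lit 278))))) (XT.nd (nat_lit 312) (nat_lit 304) (nat_lit 0) (XT.nd (nat_lit 156) (nat_lit 76) (nat_lit 0) (XT.nd (nat_lit 78) (nat_lit 76) (nat_lit 0) (XT.lf (nat_lit 0) (nat_lit 14446589121) (nat_lit 76) (nat_lit 25622297973) (nat_lit 76) (nat_lit 2774964071) (nat_lit 49) (nat_lit 4) (nat_lit 50) (nat_lit 5) (nat_lit 50) (nat_lit 4) (nat_lit 531) (nat_lit 392) (nat_lit 277)) (XT.lf (nat_lit 0) (nat_lit 8783702971) (nat_lit 152) (nat_lit 5039409622) (nat_lit 76) (nat_lit 29938552040) (nat_lit 48) (nat_lit 5) (nat_lit 50) (nat_lit 5) (nat_lit 49) (nat_lit 4) (nat_lit 532) (nat_lit 392) (nat_lit 276))) (XT.nd (nat_lit 78) (nat_lit 0) (nat_lit 0) (XT.lf (nat_lit 0) (nat_lit 19325323904) (nat_lit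 76) (nat_lit 1471707435) (nat_lit 152) (nat_lit 23904246818) (nat_lit 47) (nat_lit 5) (nat_lit 48) (nat_lit 5) (nat_lit 49) (nat_lit 4) (nat_lit 533) (nat_lit 392) (nat_lit 275)) (XT.lf (nat_lit 0) (nat_lit 33308230011) (nat_lit 152) (nat_lit 1295411244) (nat_lit 0) (nat_lit 11061314874) (nat_lit 47) (nat_lit 5) (nat_lit 49) (nat_lit 4) (nat_lit 47) (nat_lit 4) (nat_lit 534) (nat_lit 392) (nat_lit 274)))) (XT.nd (nat_lit 156) (nat_lit 76) (nat_lit 0) (XT.nd (nat_lit 78) (nat_lit 152) (nat_lit 0) (XT.lf (nat_lit 0) (nat_lit 23917447423) (nat_lit 76) (nat_lit 22500374672) (nat_lit 76) (nat_lit 233030771) (nat_lit 46) (nat_lit 4) (nat_lit 47) (nat_lit 5) (nat_lit 47) (nat_lit 4) (nat_lit 535) (nat_lit 392) (nat_lit 273)) (XT.lf (nat_lit 0) (nat_lit 2128667416) (nat_lit 76) (nat_lit 9898842469) (nat_lit 152) (nat_lit 35634915021) (nat_lit 44) (nat_lit 5) (nat_lit 45) (nat_lit 5) (nat_lit 46) (nat_lit 4) (nat_lit 536)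 (nat_lit 392) (nat_lit 272))) (XT.nd (nat_lit 78) (nat_lit 76) (nat_lit 0) (XT.lf (nat_lit 0) (nat_lit 24891244365) (nat_lit 152) (nat_lit 20571316229) (nat_lit 0) (nat_lit 3234512596) (nat_lit 44) (nat_lit 5) (nat_lit 46) (nat_lit 4) (nat_lit 44) (nat_lit 4) (nat_lit 537) (nat_lit 392) (nat_lit 271)) (XT.lf (nat_lit 0) (nat_lit 5100469982) (nat_lit 76) (nat_lit 33166692690) (nat_lit 76) (nat_lit 11491810229) (nat_lit 43) (nat_lit 4) (nat_lit 44) (nat_lit 5) (nat_lit 44) (nat_lit 4) (nat_lit 538) (nat_lit 392) (nat_lit 270))))))))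
noncomputable def xc79 : XT := (XT.nd (nat_lit 53976) (nat_lit 0) (nat_lit 9196) (XT.nd (nat_lit 52728) (nat_lit 0) (nat_lit 19380) (XT.nd (nat_lit 546) (nat_lit 456) (nat_lit 0) (XT.nd (nat_lit 234) (nat_lit 228) (nat_lit 0) (XT.nd (nat_lit 78) (nat_lit 76) (nat_lit 0) (XT.lf (nat_lit 0) (nat_lit 1357407755) (nat_lit 152) (nat_lit 18936966748) (nat_lit 76) (nat_lit 30552340633) (nat_lit 42) (nat_lit 5) (nat_lit 44) (nat_lit 5) (nat_lit 43) (nat_lit 4) (nat_lit 539) (nat_lit 392) (nat_lit 269)) (XT.nd (nat_lit 78) (nat_lit 0) (nat_lit 0) (XT.lf (nat_lit 0) (nat_lit 7549897564) (nat_lit 76) (nat_lit 6863654565) (nat_lit 152) (nat_lit 37548551506) (nat_lit 41) (nat_lit 5) (nat_lit 42) (nat_lit 5) (nat_lit 43) (nat_lit 4) (nat_lit 540) (nat_lit 392) (nat_lit 268)) (XT.lf (nat_lit 0) (nat_lit 28101369539) (nat_lit 152) (nat_lit 17994436249) (nat_lit 0) (nat_lit 7007948458) (nat_lit 41) (nat_lit 5) (nat_lit 43) (nat_lit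 4) (nat_lit 41) (nat_lit 4) (nat_lit 541) (nat_lit 392) (nat_lit 267)))) (XT.nd (nat_lit 156) (nat_lit 76) (nat_lit 0) (XT.nd (nat_lit 78) (nat_lit 76) (nat_lit 0) (XT.lf (nat_lit 0) (nat_lit 9290478846) (nat_lit 76) (nat_lit 33047061060) (nat_lit 76) (nat_lit 11937983032) (nat_lit 40) (nat_lit 4) (nat_lit 41) (nat_lit 5) (nat_lit 41) (nat_lit 4) (nat_lit 542) (nat_lit 392) (nat_lit 266)) (XT.lf (nat_lit 0) (nat_lit 1652694567) (nat_lit 152) (nat_lit 17769308974) (nat_lit 76) (nat_lit 36055084227) (nat_lit 39) (nat_lit 5) (nat_lit 41) (nat_lit 5) (nat_lit 40) (nat_lit 4) (nat_lit 543) (nat_lit 392) (nat_lit 265))) (XT.nd (nat_lit 78) (nat_lit 0) (nat_lit 0) (XT.lf (nat_lit 0) (nat_lit 10308248660) (nat_lit 76) (nat_lit 5183025122) (nat_lit 152) (nat_lit 41217476243) (nat_lit 38) (nat_lit 5) (nat_lit 39) (nat_lit 5) (nat_lit 40) (nat_lit 4) (nat_lit 544) (nat_lit 392) (nat_lit 264)) (XT.lf (nat_lit 0) (nat_lit 29998430480)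 (nat_lit 152) (nat_lit 18510146694) (nat_lit 0) (nat_lit 9461182476) (nat_lit 38) (nat_lit 5) (nat_lit 40) (nat_lit 4) (nat_lit 38) (nat_lit 4) (nat_lit 545) (nat_lit 392) (nat_lit 263))))) (XT.nd (nat_lit 312) (nat_lit 228) (nat_lit 0) (XT.nd (nat_lit 156) (nat_lit 76) (nat_lit 0) (XT.nd (nat_lit 78) (nat_lit 76) (nat_lit 0) (XT.lf (nat_lit 0) (nat_lit 10330665889) (nat_lit 76) (nat_lit 34742360432) (nat_lit 76) (nat_lit 14191606608) (nat_lit 37) (nat_lit 4) (nat_lit 38) (nat_lit 5) (nat_lit 38) (nat_lit 4) (nat_lit 546) (nat_lit 392) (nat_lit 262)) (XT.lf (nat_lit 0) (nat_lit 171855547) (nat_lit 152) (nat_lit 20214999508) (nat_lit 76) (nat_lit 40206385690) (nat_lit 36) (nat_lit 5) (nat_lit 38) (nat_lit 5) (nat_lit 37) (nat_lit 4) (nat_lit 547) (nat_lit 392) (nat_lit 261))) (XT.nd (nat_lit 78) (nat_lit 0) (nat_lit 0) (XT.lf (nat_lit 0) (nat_lit 9372448208) (nat_lit 76) (nat_lit 5380775933) (nat_lit 152) (nat_lit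 47202100223) (nat_lit 35) (nat_lit 5) (nat_lit 36) (nat_lit 5) (nat_lit 37) (nat_lit 4) (nat_lit 548) (nat_lit 392) (nat_lit 260)) (XT.lf (nat_lit 0) (nat_lit 30057199289) (nat_lit 152) (nat_lit 23224595228) (nat_lit 0) (nat_lit 10067921097) (nat_lit 35) (nat_lit 5) (nat_lit 37) (nat_lit 4) (nat_lit 35) (nat_lit 4) (nat_lit 549) (nat_lit 392) (nat_lit 259)))) (XT.nd (nat_lit 156) (nat_lit 152) (nat_lit 0) (XT.nd (nat_lit 78) (nat_lit 0) (nat_lit 0) (XT.lf (nat_lit 0) (nat_lit 7064564821) (nat_lit 76) (nat_lit 38859593184) (nat_lit 76) (nat_lit 18858664753) (nat_lit 34) (nat_lit 4) (nat_lit 35) (nat_lit 5) (nat_lit 35) (nat_lit 4) (nat_lit 550) (nat_lit 392) (nat_lit 258)) (XT.lf (nat_lit 0) (nat_lit 38704369444) (nat_lit 76) (nat_lit 23780135851) (nat_lit 76) (nat_lit 3767896510) (nat_lit 34) (nat_lit 4) (nat_lit 35) (nat_lit 5) (nat_lit 35) (nat_lit 4) (nat_lit 551) (nat_lit 392) (nat_lit 257))) (XT.nd (nat_lit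 78) (nat_lit 0) (nat_lit 0) (XT.lf (nat_lit 0) (nat_lit 3447934663) (nat_lit 76) (nat_lit 8114210889) (nat_lit 152) (nat_lit 56200036872) (nat_lit 32) (nat_lit 5) (nat_lit 33) (nat_lit 5) (nat_lit 34) (nat_lit 4) (nat_lit 552) (nat_lit 392) (nat_lit 256)) (XT.lf (nat_lit 0) (nat_lit 27617606730) (nat_lit 152) (nat_lit 33521057725) (nat_lit 0) (nat_lit 8167235441) (nat_lit 32) (nat_lit 5) (nat_lit 34) (nat_lit 4) (nat_lit 32) (nat_lit 4) (nat_lit 553) (nat_lit 392) (nat_lit 255)))))) (XT.nd (nat_lit 624) (nat_lit 6080) (nat_lit 0) (XT.nd (nat_lit 312) (nat_lit 2660) (nat_lit 0) (XT.nd (nat_lit 156) (nat_lit 760) (nat_lit 0) (XT.nd (nat_lit 78) (nat_lit 0) (nat_lit 0) (XT.lf (nat_lit 0) (nat_lit 28292205) (nat_lit 684) (nat_lit 3268634593) (nat_lit 0) (nat_lit 28292205) (nat_lit 412) (nat_lit 5) (nat_lit 421) (nat_lit 4) (nat_lit 412) (nat_lit 4) (nat_lit 414) (nat_lit 393) (nat_lit 393)) (XT.lf (nat_lit 0) (nat_lit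 3347755096) (nat_lit 684) (nat_lit 2231280482) (nat_lit 0) (nat_lit 1102008177) (nat_lit 412) (nat_lit 5) (nat_lit 421) (nat_lit 4) (nat_lit 412) (nat_lit 4) (nat_lit 415) (nat_lit 393) (nat_lit 392))) (XT.nd (nat_lit 78) (nat_lit 76) (nat_lit 0) (XT.lf (nat_lit 0) (nat_lit 2159027258) (nat_lit 684) (nat_lit 4491132607) (nat_lit 684) (nat_lit 65048873) (nat_lit 403) (nat_lit 4) (nat_lit 412) (nat_lit 5) (nat_lit 412) (nat_lit 4) (nat_lit 416) (nat_lit 393) (nat_lit 391)) (XT.lf (nat_lit 0) (nat_lit 3152579747) (nat_lit 760) (nat_lit 143178704) (nat_lit 76) (nat_lit 3456230504) (nat_lit 402) (nat_lit 5) (nat_lit 412) (nat_lit 5) (nat_lit 403) (nat_lit 4) (nat_lit 417) (nat_lit 393) (nat_lit 390)))) (XT.nd (nat_lit 156) (nat_lit 988) (nat_lit 0) (XT.nd (nat_lit 78) (nat_lit 912) (nat_lit 0) (XT.lf (nat_lit 0) (nat_lit 4401752830) (nat_lit 760) (nat_lit 2002111694) (nat_lit 836) (nat_lit 387850362) (nat_lit 392) (nat_lit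 5) (nat_lit 402) (nat_lit 5) (nat_lit 403) (nat_lit 4) (nat_lit 418) (nat_lit 393) (nat_lit 389)) (XT.lf (nat_lit 0) (nat_lit 2180923565) (nat_lit 836) (nat_lit 601886926) (nat_lit 912) (nat_lit 4051401769) (nat_lit 380) (nat_lit 5) (nat_lit 391) (nat_lit 5) (nat_lit 392) (nat_lit 5) (nat_lit 419) (nat_lit 393) (nat_lit 388))) (XT.nd (nat_lit 78) (nat_lit 988) (nat_lit 0) (XT.lf (nat_lit 0) (nat_lit 5972860473) (nat_lit 912) (nat_lit 40734234) (nat_lit 76) (nat_lit 866326128) (nat_lit 380) (nat_lit 5) (nat_lit 392) (nat_lit 5) (nat_lit 381) (nat_lit 4) (nat_lit 420) (nat_lit 393) (nat_lit 387)) (XT.lf (nat_lit 0) (nat_lit 2239410206) (nat_lit 988) (nat_lit 2240863971) (nat_lit 76) (nat_lit 2447467848) (nat_lit 367) (nat_lit 5) (nat_lit 380) (nat_lit 5) (nat_lit 368) (nat_lit 5) (nat_lit 421) (nat_lit 393) (nat_lit 386))))) (XT.nd (nat_lit 312) (nat_lit 2736) (nat_lit 0) (XT.nd (nat_lit 156) (nat_lit 1216) (nat_lit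 0) (XT.nd (nat_lit 78) (nat_lit 1140) (nat_lit 0) (XT.lf (nat_lit 0) (nat_lit 2532882497) (nat_lit 988) (nat_lit 2857518742) (nat_lit 1064) (nat_lit 1588488752) (nat_lit 354) (nat_lit 5) (nat_lit 367) (nat_lit 5) (nat_lit 368) (nat_lit 5) (nat_lit 422) (nat_lit 393) (nat_lit 385)) (XT.lf (nat_lit 0) (nat_lit 367634912) (nat_lit 1064) (nat_lit 1136414943) (nat_lit 1140) (nat_lit 5529141254) (nat_lit 339) (nat_lit 5) (nat_lit 353) (nat_lit 5) (nat_lit 354) (nat_lit 5) (nat_lit 423) (nat_lit 393) (nat_lit 384))) (XT.nd (nat_lit 78) (nat_lit 1216) (nat_lit 0) (XT.lf (nat_lit 0) (nat_lit 4615501636) (nat_lit 1140) (nat_lit 1784011640) (nat_lit 76) (nat_lit 690405479) (nat_lit 339) (nat_lit 5) (nat_lit 354) (nat_lit 5) (nat_lit 340) (nat_lit 5) (nat_lit 424) (nat_lit 393) (nat_lit 383)) (XT.lf (nat_lit 0) (nat_lit 609752875) (nat_lit 1216) (nat_lit 3948613496) (nat_lit 76) (nat_lit 2591271193) (nat_lit 323) (nat_lit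 5) (nat_lit 339) (nat_lit 5) (nat_lit 324) (nat_lit 5) (nat_lit 425) (nat_lit 393) (nat_lit 382)))) (XT.nd (nat_lit 156) (nat_lit 1520) (nat_lit 0) (XT.nd (nat_lit 78) (nat_lit 0) (nat_lit 0) (XT.lf (nat_lit 0) (nat_lit 1068687654) (nat_lit 1216) (nat_lit 2606732118) (nat_lit 1292) (nat_lit 3536842324) (nat_lit 307) (nat_lit 5) (nat_lit 323) (nat_lit 5) (nat_lit 324) (nat_lit 5) (nat_lit 426) (nat_lit 393) (nat_lit 381)) (XT.lf (nat_lit 0) (nat_lit 6229261111) (nat_lit 1216) (nat_lit 555674361) (nat_lit 1292) (nat_lit 493283519) (nat_lit 307) (nat_lit 5) (nat_lit 323) (nat_lit 5) (nat_lit 324) (nat_lit 5) (nat_lit 427) (nat_lit 393) (nat_lit 380))) (XT.nd (nat_lit 78) (nat_lit 608) (nat_lit 0) (XT.lf (nat_lit 0) (nat_lit 2559408669) (nat_lit 912) (nat_lit 3195321230) (nat_lit 76) (nat_lit 1591591132) (nat_lit 295) (nat_lit 5) (nat_lit 307) (nat_lit 5) (nat_lit 296) (nat_lit 5) (nat_lit 428) (nat_lit 393) (nat_lit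 379)) (XT.lf (nat_lit 0) (nat_lit 2052858203) (nat_lit 608) (nat_lit 3592218053) (nat_lit 684) (nat_lit 1772713224) (nat_lit 287) (nat_lit 5) (nat_lit 295) (nat_lit 5) (nat_lit 296) (nat_lit 5) (nat_lit 429) (nat_lit 393) (nat_lit 378))))))) (XT.nd (nat_lit 1248) (nat_lit 4256) (nat_lit 0) (XT.nd (nat_lit 624) (nat_lit 2432) (nat_lit 0) (XT.nd (nat_lit 312) (nat_lit 1596) (nat_lit 0) (XT.nd (nat_lit 156) (nat_lit 1216) (nat_lit 0) (XT.nd (nat_lit 78) (nat_lit 608) (nat_lit 0) (XT.lf (nat_lit 0) (nat_lit 1254671118) (nat_lit 684) (nat_lit 69397332) (nat_lit 76) (nat_lit 6168495565) (nat_lit 286) (nat_lit 5) (nat_lit 295) (nat_lit 5) (nat_lit 287) (nat_lit 5) (nat_lit 430) (nat_lit 393) (nat_lit 377)) (XT.lf (nat_lit 0) (nat_lit 4317979415) (nat_lit 684) (nat_lit 2194982283) (nat_lit 76) (nat_lit 1056679941) (nat_lit 278) (nat_lit 5) (nat_lit 287) (nat_lit 5) (nat_lit 279) (nat_lit 5) (nat_lit 431) (nat_lit 393)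 (nat_lit 376))) (XT.nd (nat_lit 78) (nat_lit 684) (nat_lit 0) (XT.lf (nat_lit 0) (nat_lit 3296974356) (nat_lit 532) (nat_lit 4141806109) (nat_lit 608) (nat_lit 211291443) (nat_lit 271) (nat_lit 5) (nat_lit 278) (nat_lit 5) (nat_lit 279) (nat_lit 5) (nat_lit 432) (nat_lit 393) (nat_lit 375)) (XT.lf (nat_lit 0) (nat_lit 1171596136) (nat_lit 608) (nat_lit 1646138313) (nat_lit 684) (nat_lit 4915713262) (nat_lit 262) (nat_lit 5) (nat_lit 270) (nat_lit 5) (nat_lit 271) (nat_lit 5) (nat_lit 433) (nat_lit 393) (nat_lit 374)))) (XT.nd (nat_lit 156) (nat_lit 988) (nat_lit 0) (XT.nd (nat_lit 78) (nat_lit 608) (nat_lit 0) (XT.lf (nat_lit 0) (nat_lit 5908798761) (nat_lit 684) (nat_lit 968923850) (nat_lit 76) (nat_lit 942284420) (nat_lit 262) (nat_lit 5) (nat_lit 271) (nat_lit 5) (nat_lit 263) (nat_lit 5) (nat_lit 434) (nat_lit 393) (nat_lit 373)) (XT.lf (nat_lit 0) (nat_lit 1146856063) (nat_lit 608) (nat_lit 3140159002) (nat_lit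 76) (nat_lit 3622218278) (nat_lit 254) (nat_lit 5) (nat_lit 262) (nat_lit 5) (nat_lit 255) (nat_lit 5) (nat_lit 435) (nat_lit 393) (nat_lit 372))) (XT.nd (nat_lit 78) (nat_lit 456) (nat_lit 0) (XT.lf (nat_lit 0) (nat_lit 2642006122) (nat_lit 532) (nat_lit 1576545086) (nat_lit 608) (nat_lit 3783215285) (nat_lit 247) (nat_lit 5) (nat_lit 254) (nat_lit 5) (nat_lit 255) (nat_lit 5) (nat_lit 436) (nat_lit 393) (nat_lit 371)) (XT.lf (nat_lit 0) (nat_lit 473150078) (nat_lit 456) (nat_lit 6883726828) (nat_lit 532) (nat_lit 740970946) (nat_lit 241) (nat_lit 5) (nat_lit 247) (nat_lit 5) (nat_lit 248) (nat_lit 5) (nat_lit 437) (nat_lit 393) (nat_lit 370))))) (XT.nd (nat_lit 312) (nat_lit 1368) (nat_lit 0) (XT.nd (nat_lit 156) (nat_lit 532) (nat_lit 0) (XT.nd (nat_lit 78) (nat_lit 456) (nat_lit 0) (XT.lf (nat_lit 0) (nat_lit 2342916862) (nat_lit 532) (nat_lit 1733964408) (nat_lit 76) (nat_lit 4119334751) (nat_lit 240) (nat_lit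 5) (nat_lit 247) (nat_lit 5) (nat_lit 241) (nat_lit 5) (nat_lit 438) (nat_lit 393) (nat_lit 369)) (XT.lf (nat_lit 0) (nat_lit 4322590987) (nat_lit 456) (nat_lit 1152316038) (nat_lit 532) (nat_lit 2823299811) (nat_lit 234) (nat_lit 5) (nat_lit 240) (nat_lit 5) (nat_lit 241) (nat_lit 5) (nat_lit 439) (nat_lit 393) (nat_lit 368))) (XT.nd (nat_lit 78) (nat_lit 0) (nat_lit 0) (XT.lf (nat_lit 0) (nat_lit 277662366) (nat_lit 532) (nat_lit 6278261057) (nat_lit 76) (nat_lit 1847677724) (nat_lit 227) (nat_lit 5) (nat_lit 234) (nat_lit 5) (nat_lit 228) (nat_lit 5) (nat_lit 440) (nat_lit 393) (nat_lit 367)) (XT.lf (nat_lit 0) (nat_lit 3397360390) (nat_lit 532) (nat_lit 149394949) (nat_lit 76) (nat_lit 4965095301) (nat_lit 227) (nat_lit 5) (nat_lit 234) (nat_lit 5) (nat_lit 228) (nat_lit 5) (nat_lit 441) (nat_lit 393) (nat_lit 366)))) (XT.nd (nat_lit 156) (nat_lit 456) (nat_lit 0) (XT.nd (nat_lit 78) (nat_lit 456) (nat_lit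 0) (XT.lf (nat_lit 0) (nat_lit 6197374157) (nat_lit 456) (nat_lit 405372452) (nat_lit 532) (nat_lit 2020843459) (nat_lit 221) (nat_lit 5) (nat_lit 227) (nat_lit 5) (nat_lit 228) (nat_lit 5) (nat_lit 442) (nat_lit 393) (nat_lit 365)) (XT.lf (nat_lit 0) (nat_lit 1143145277) (nat_lit 456) (nat_lit 4788687290) (nat_lit 76) (nat_lit 2806509702) (nat_lit 215) (nat_lit 5) (nat_lit 221) (nat_lit 5) (nat_lit 216) (nat_lit 5) (nat_lit 443) (nat_lit 393) (nat_lit 364))) (XT.nd (nat_lit 78) (nat_lit 0) (nat_lit 0) (XT.lf (nat_lit 0) (nat_lit 1629968264) (nat_lit 456) (nat_lit 2709814720) (nat_lit 532) (nat_lit 4516808328) (nat_lit 209) (nat_lit 5) (nat_lit 215) (nat_lit 5) (nat_lit 216) (nat_lit 5) (nat_lit 444) (nat_lit 393) (nat_lit 363)) (XT.lf (nat_lit 0) (nat_lit 7621797801) (nat_lit 532) (nat_lit 733103615) (nat_lit 76) (nat_lit 623806840) (nat_lit 209) (nat_lit 5) (nat_lit 216) (nat_lit 5) (nat_lit 210) (nat_lit 5)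 (nat_lit 445) (nat_lit 393) (nat_lit 362)))))) (XT.nd (nat_lit 624) (nat_lit 1976) (nat_lit 0) (XT.nd (nat_lit 312) (nat_lit 1064) (nat_lit 0) (XT.nd (nat_lit 156) (nat_lit 380) (nat_lit 0) (XT.nd (nat_lit 78) (nat_lit 380) (nat_lit 0) (XT.lf (nat_lit 0) (nat_lit 1881744930) (nat_lit 456) (nat_lit 3164247381) (nat_lit 76) (nat_lit 4057323821) (nat_lit 203) (nat_lit 5) (nat_lit 209) (nat_lit 5) (nat_lit 204) (nat_lit 5) (nat_lit 446) (nat_lit 393) (nat_lit 361)) (XT.lf (nat_lit 0) (nat_lit 3564041414) (nat_lit 380) (nat_lit 1605070066) (nat_lit 456) (nat_lit 4062787365) (nat_lit 198) (nat_lit 5) (nat_lit 203) (nat_lit 5) (nat_lit 204) (nat_lit 5) (nat_lit 447) (nat_lit 393) (nat_lit 360))) (XT.nd (nat_lit 78) (nat_lit 76) (nat_lit 0) (XT.lf (nat_lit 0) (nat_lit 1110610885) (nat_lit 304) (nat_lit 7443932236) (nat_lit 380) (nat_lit 809816835) (nat_lit 194) (nat_lit 5) (nat_lit 198) (nat_lit 5) (nat_lit 199) (nat_lit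 5) (nat_lit 448) (nat_lit 393) (nat_lit 359)) (XT.lf (nat_lit 0) (nat_lit 2503080889) (nat_lit 380) (nat_lit 1419481249) (nat_lit 76) (nat_lit 5577146548) (nat_lit 193) (nat_lit 5) (nat_lit 198) (nat_lit 5) (nat_lit 194) (nat_lit 5) (nat_lit 449) (nat_lit 393) (nat_lit 358)))) (XT.nd (nat_lit 156) (nat_lit 380) (nat_lit 0) (XT.nd (nat_lit 78) (nat_lit 304) (nat_lit 0) (XT.lf (nat_lit 0) (nat_lit 5636205980) (nat_lit 380) (nat_lit 257085415) (nat_lit 456) (nat_lit 3745763753) (nat_lit 188) (nat_lit 5) (nat_lit 193) (nat_lit 5) (nat_lit 194) (nat_lit 5) (nat_lit 450) (nat_lit 393) (nat_lit 357)) (XT.lf (nat_lit 0) (nat_lit 3090593424) (nat_lit 304) (nat_lit 6313329069) (nat_lit 380) (nat_lit 378101848) (nat_lit 184) (nat_lit 5) (nat_lit 188) (nat_lit 5) (nat_lit 189) (nat_lit 5) (nat_lit 451) (nat_lit 393) (nat_lit 356))) (XT.nd (nat_lit 78) (nat_lit 0) (nat_lit 0) (XT.lf (nat_lit 0) (nat_lit 440164861) (nat_lit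 304) (nat_lit 2578747483) (nat_lit 380) (nat_lit 6909823627) (nat_lit 179) (nat_lit 5) (nat_lit 183) (nat_lit 5) (nat_lit 184) (nat_lit 5) (nat_lit 452) (nat_lit 393) (nat_lit 355)) (XT.lf (nat_lit 0) (nat_lit 6532324945) (nat_lit 380) (nat_lit 2258770289) (nat_lit 76) (nat_lit 1287982232) (nat_lit 179) (nat_lit 5) (nat_lit 184) (nat_lit 5) (nat_lit 180) (nat_lit 5) (nat_lit 453) (nat_lit 393) (nat_lit 354))))) (XT.nd (nat_lit 312) (nat_lit 912) (nat_lit 0) (XT.nd (nat_lit 156) (nat_lit 380) (nat_lit 0) (XT.nd (nat_lit 78) (nat_lit 380) (nat_lit 0) (XT.lf (nat_lit 0) (nat_lit 5178764695) (nat_lit 304) (nat_lit 4991048595) (nat_lit 380) (nat_lit 63559061) (nat_lit 175) (nat_lit 5) (nat_lit 179) (nat_lit 5) (nat_lit 180) (nat_lit 5) (nat_lit 454) (nat_lit 393) (nat_lit 353)) (XT.lf (nat_lit 0) (nat_lit 2422303943) (nat_lit 304) (nat_lit 1023025230) (nat_lit 380) (nat_lit 6946254758) (nat_lit 170) (nat_lit 5) (nat_lit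 174) (nat_lit 5) (nat_lit 175) (nat_lit 5) (nat_lit 455) (nat_lit 393) (nat_lit 352))) (XT.nd (nat_lit 78) (nat_lit 380) (nat_lit 0) (XT.lf (nat_lit 0) (nat_lit 7083412084) (nat_lit 380) (nat_lit 442000155) (nat_lit 76) (nat_lit 3028357638) (nat_lit 170) (nat_lit 5) (nat_lit 175) (nat_lit 5) (nat_lit 171) (nat_lit 5) (nat_lit 456) (nat_lit 393) (nat_lit 351)) (XT.lf (nat_lit 0) (nat_lit 134657933) (nat_lit 380) (nat_lit 3359770394) (nat_lit 76) (nat_lit 7225554749) (nat_lit 165) (nat_lit 5) (nat_lit 170) (nat_lit 5) (nat_lit 166) (nat_lit 5) (nat_lit 457) (nat_lit 393) (nat_lit 350)))) (XT.nd (nat_lit 156) (nat_lit 380) (nat_lit 0) (XT.nd (nat_lit 78) (nat_lit 228) (nat_lit 0) (XT.lf (nat_lit 0) (nat_lit 3778622000) (nat_lit 380) (nat_lit 6412897651) (nat_lit 76) (nat_lit 698618564) (nat_lit 161) (nat_lit 5) (nat_lit 166) (nat_lit 5) (nat_lit 162) (nat_lit 5) (nat_lit 458) (nat_lit 393) (nat_lit 349)) (XT.lf (nat_lit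 0) (nat_lit 1463674075) (nat_lit 228) (nat_lit 6097743211) (nat_lit 304) (nat_lit 3503098075) (nat_lit 158) (nat_lit 5) (nat_lit 161) (nat_lit 5) (nat_lit 162) (nat_lit 5) (nat_lit 459) (nat_lit 393) (nat_lit 348))) (XT.nd (nat_lit 78) (nat_lit 304) (nat_lit 0) (XT.lf (nat_lit 0) (nat_lit 221619356) (nat_lit 304) (nat_lit 1620920503) (nat_lit 76) (nat_lit 9401158507) (nat_lit 157) (nat_lit 5) (nat_lit 161) (nat_lit 5) (nat_lit 158) (nat_lit 5) (nat_lit 460) (nat_lit 393) (nat_lit 347)) (XT.lf (nat_lit 0) (nat_lit 4024687885) (nat_lit 380) (nat_lit 4840842893) (nat_lit 76) (nat_lit 2560577498) (nat_lit 153) (nat_lit 5) (nat_lit 158) (nat_lit 5) (nat_lit 154) (nat_lit 5) (nat_lit 461) (nat_lit 393) (nat_lit 346))))))))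
noncomputable def xc80 : XT := (XT.nd (nat_lit 2418) (nat_lit 2584) (nat_lit 0) (XT.nd (nat_lit 1170) (nat_lit 2128) (nat_lit 0) (XT.nd (nat_lit 546) (nat_lit 1368) (nat_lit 0) (XT.nd (nat_lit 234) (nat_lit 760) (nat_lit 0) (XT.nd (nat_lit 78) (nat_lit 304) (nat_lit 0) (XT.lf (nat_lit 0) (nat_lit 3423728196) (nat_lit 228) (nat_lit 4534608855) (nat_lit 304) (nat_lit 3655161192) (nat_lit 150) (nat_lit 5) (nat_lit 153) (nat_lit 5) (nat_lit 154) (nat_lit 5) (nat_lit 462) (nat_lit 393) (nat_lit 345)) (XT.nd (nat_lit 78) (nat_lit 0) (nat_lit 0) (XT.lf (nat_lit 0) (nat_lit 148632426) (nat_lit 228) (nat_lit 50690920) (nat_lit 304) (nat_lit 11607135912) (nat_lit 146) (nat_lit 5) (nat_lit 149) (nat_lit 5) (nat_lit 150) (nat_lit 5) (nat_lit 463) (nat_lit 393) (nat_lit 344)) (XT.lf (nat_lit 0) (nat_lit 4172819846) (nat_lit 304) (nat_lit 3261233600) (nat_lit 76) (nat_lit 4567766901) (nat_lit 146) (nat_lit 5) (nat_lit 150) (nat_lit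 5) (nat_lit 147) (nat_lit 5) (nat_lit 464) (nat_lit 393) (nat_lit 343)))) (XT.nd (nat_lit 156) (nat_lit 228) (nat_lit 0) (XT.nd (nat_lit 78) (nat_lit 304) (nat_lit 0) (XT.lf (nat_lit 0) (nat_lit 5412114651) (nat_lit 228) (nat_lit 2856821536) (nat_lit 304) (nat_lit 3934005782) (nat_lit 143) (nat_lit 5) (nat_lit 146) (nat_lit 5) (nat_lit 147) (nat_lit 5) (nat_lit 465) (nat_lit 393) (nat_lit 342)) (XT.lf (nat_lit 0) (nat_lit 97571385) (nat_lit 304) (nat_lit 10467917984) (nat_lit 76) (nat_lit 1843949903) (nat_lit 139) (nat_lit 5) (nat_lit 143) (nat_lit 5) (nat_lit 140) (nat_lit 5) (nat_lit 466) (nat_lit 393) (nat_lit 341))) (XT.nd (nat_lit 78) (nat_lit 228) (nat_lit 0) (XT.lf (nat_lit 0) (nat_lit 4219995689) (nat_lit 304) (nat_lit 1693742883) (nat_lit 76) (nat_lit 6705757287) (nat_lit 139) (nat_lit 5) (nat_lit 143) (nat_lit 5) (nat_lit 140) (nat_lit 5) (nat_lit 467) (nat_lit 393) (nat_lit 340)) (XT.lf (nat_lit 0) (nat_lit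 7409803402) (nat_lit 228) (nat_lit 1080362599) (nat_lit 304) (nat_lit 4344967852) (nat_lit 136) (nat_lit 5) (nat_lit 139) (nat_lit 5) (nat_lit 140) (nat_lit 5) (nat_lit 468) (nat_lit 393) (nat_lit 339))))) (XT.nd (nat_lit 312) (nat_lit 684) (nat_lit 0) (XT.nd (nat_lit 156) (nat_lit 380) (nat_lit 0) (XT.nd (nat_lit 78) (nat_lit 76) (nat_lit 0) (XT.lf (nat_lit 0) (nat_lit 3720636646) (nat_lit 228) (nat_lit 9211485776) (nat_lit 304) (nat_lit 123809989) (nat_lit 133) (nat_lit 5) (nat_lit 136) (nat_lit 5) (nat_lit 137) (nat_lit 5) (nat_lit 469) (nat_lit 393) (nat_lit 338)) (XT.lf (nat_lit 0) (nat_lit 4160909581) (nat_lit 304) (nat_lit 160290753) (nat_lit 76) (nat_lit 8960357670) (nat_lit 132) (nat_lit 5) (nat_lit 136) (nat_lit 5) (nat_lit 133) (nat_lit 5) (nat_lit 470) (nat_lit 393) (nat_lit 337))) (XT.nd (nat_lit 78) (nat_lit 228) (nat_lit 0) (XT.lf (nat_lit 0) (nat_lit 8624170119) (nat_lit 228) (nat_lit 4124610099)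 (nat_lit 76) (nat_lit 763562431) (nat_lit 130) (nat_lit 5) (nat_lit 133) (nat_lit 5) (nat_lit 131) (nat_lit 5) (nat_lit 471) (nat_lit 393) (nat_lit 336)) (XT.lf (nat_lit 0) (nat_lit 5462342942) (nat_lit 228) (nat_lit 7810889728) (nat_lit 304) (nat_lit 475262684) (nat_lit 127) (nat_lit 5) (nat_lit 130) (nat_lit 5) (nat_lit 131) (nat_lit 5) (nat_lit 472) (nat_lit 393) (nat_lit 335)))) (XT.nd (nat_lit 156) (nat_lit 456) (nat_lit 0) (XT.nd (nat_lit 78) (nat_lit 0) (nat_lit 0) (XT.lf (nat_lit 0) (nat_lit 1340526785) (nat_lit 152) (nat_lit 2660150968) (nat_lit 228) (nat_lit 9989580800) (nat_lit 124) (nat_lit 5) (nat_lit 126) (nat_lit 5) (nat_lit 127) (nat_lit 5) (nat_lit 473) (nat_lit 393) (nat_lit 334)) (XT.lf (nat_lit 0) (nat_lit 8666654510) (nat_lit 228) (nat_lit 2919195750) (nat_lit 76) (nat_lit 2651325414) (nat_lit 124) (nat_lit 5) (nat_lit 127) (nat_lit 5) (nat_lit 125) (nat_lit 5) (nat_lit 474) (nat_lit 393) (nat_lit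 333))) (XT.nd (nat_lit 78) (nat_lit 228) (nat_lit 0) (XT.lf (nat_lit 0) (nat_lit 7141185719) (nat_lit 228) (nat_lit 6383089639) (nat_lit 304) (nat_lit 965676470) (nat_lit 121) (nat_lit 5) (nat_lit 124) (nat_lit 5) (nat_lit 125) (nat_lit 5) (nat_lit 475) (nat_lit 393) (nat_lit 332)) (XT.lf (nat_lit 0) (nat_lit 2755757682) (nat_lit 152) (nat_lit 960910322) (nat_lit 228) (nat_lit 11032163443) (nat_lit 118) (nat_lit 5) (nat_lit 120) (nat_lit 5) (nat_lit 121) (nat_lit 5) (nat_lit 476) (nat_lit 393) (nat_lit 331)))))) (XT.nd (nat_lit 624) (nat_lit 1140) (nat_lit 0) (XT.nd (nat_lit 312) (nat_lit 532) (nat_lit 0) (XT.nd (nat_lit 156) (nat_lit 228) (nat_lit 0) (XT.nd (nat_lit 78) (nat_lit 228) (nat_lit 0) (XT.lf (nat_lit 0) (nat_lit 8596504471) (nat_lit 228) (nat_lit 1829381022) (nat_lit 76) (nat_lit 4587013540) (nat_lit 118) (nat_lit 5) (nat_lit 121) (nat_lit 5) (nat_lit 119) (nat_lit 5) (nat_lit 477) (nat_lit 393) (nat_lit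 330)) (XT.lf (nat_lit 0) (nat_lit 8726750793) (nat_lit 228) (nat_lit 4947677187) (nat_lit 304) (nat_lit 1608911210) (nat_lit 115) (nat_lit 5) (nat_lit 118) (nat_lit 5) (nat_lit 119) (nat_lit 5) (nat_lit 478) (nat_lit 393) (nat_lit 329))) (XT.nd (nat_lit 78) (nat_lit 0) (nat_lit 0) (XT.lf (nat_lit 0) (nat_lit 3300806995) (nat_lit 228) (nat_lit 11518647432) (nat_lit 76) (nat_lit 740778147) (nat_lit 112) (nat_lit 5) (nat_lit 115) (nat_lit 5) (nat_lit 113) (nat_lit 5) (nat_lit 479) (nat_lit 393) (nat_lit 328)) (XT.lf (nat_lit 0) (nat_lit 8399940105) (nat_lit 228) (nat_lit 890481628) (nat_lit 76) (nat_lit 6552300494) (nat_lit 112) (nat_lit 5) (nat_lit 115) (nat_lit 5) (nat_lit 113) (nat_lit 5) (nat_lit 480) (nat_lit 393) (nat_lit 327)))) (XT.nd (nat_lit 156) (nat_lit 152) (nat_lit 0) (XT.nd (nat_lit 78) (nat_lit 228) (nat_lit 0) (XT.lf (nat_lit 0) (nat_lit 10183824672) (nat_lit 152) (nat_lit 3525930990) (nat_lit 228)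 (nat_lit 2422200812) (nat_lit 110) (nat_lit 5) (nat_lit 112) (nat_lit 5) (nat_lit 113) (nat_lit 5) (nat_lit 481) (nat_lit 393) (nat_lit 326)) (XT.lf (nat_lit 0) (nat_lit 2737884778) (nat_lit 228) (nat_lit 11270137948) (nat_lit 76) (nat_lit 2419777466) (nat_lit 107) (nat_lit 5) (nat_lit 110) (nat_lit 5) (nat_lit 108) (nat_lit 5) (nat_lit 482) (nat_lit 393) (nat_lit 325))) (XT.nd (nat_lit 78) (nat_lit 152) (nat_lit 0) (XT.lf (nat_lit 0) (nat_lit 8059756883) (nat_lit 228) (nat_lit 143357348) (nat_lit 76) (nat_lit 8527016548) (nat_lit 107) (nat_lit 5) (nat_lit 110) (nat_lit 5) (nat_lit 108) (nat_lit 5) (nat_lit 483) (nat_lit 393) (nat_lit 324)) (XT.lf (nat_lit 0) (nat_lit 11471450796) (nat_lit 152) (nat_lit 2141365549) (nat_lit 228) (nat_lit 3426570029) (nat_lit 105) (nat_lit 5) (nat_lit 107) (nat_lit 5) (nat_lit 108) (nat_lit 5) (nat_lit 484) (nat_lit 393) (nat_lit 323))))) (XT.nd (nat_lit 312) (nat_lit 532) (nat_lit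 0) (XT.nd (nat_lit 156) (nat_lit 228) (nat_lit 0) (XT.nd (nat_lit 78) (nat_lit 152) (nat_lit 0) (XT.lf (nat_lit 0) (nat_lit 1997480099) (nat_lit 228) (nat_lit 11286331730) (nat_lit 76) (nat_lit 4071695478) (nat_lit 102) (nat_lit 5) (nat_lit 105) (nat_lit 5) (nat_lit 103) (nat_lit 5) (nat_lit 485) (nat_lit 393) (nat_lit 322)) (XT.lf (nat_lit 0) (nat_lit 371802995) (nat_lit 152) (nat_lit 7186647757) (nat_lit 228) (nat_lit 10120352170) (nat_lit 100) (nat_lit 5) (nat_lit 102) (nat_lit 5) (nat_lit 103) (nat_lit 5) (nat_lit 486) (nat_lit 393) (nat_lit 321))) (XT.nd (nat_lit 78) (nat_lit 228) (nat_lit 0) (XT.lf (nat_lit 0) (nat_lit 12541845957) (nat_lit 152) (nat_lit 820342387) (nat_lit 228) (nat_lit 4647331839) (nat_lit 100) (nat_lit 5) (nat_lit 102) (nat_lit 5) (nat_lit 103) (nat_lit 5) (nat_lit 487) (nat_lit 393) (nat_lit 320)) (XT.lf (nat_lit 0) (nat_lit 1054054703) (nat_lit 228) (nat_lit 11622899973) (nat_lit 76)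 (nat_lit 5670414933) (nat_lit 97) (nat_lit 5) (nat_lit 100) (nat_lit 5) (nat_lit 98) (nat_lit 5) (nat_lit 488) (nat_lit 393) (nat_lit 319)))) (XT.nd (nat_lit 156) (nat_lit 380) (nat_lit 0) (XT.nd (nat_lit 78) (nat_lit 0) (nat_lit 0) (XT.lf (nat_lit 0) (nat_lit 589512733) (nat_lit 152) (nat_lit 6275968376) (nat_lit 228) (nat_lit 11827521697) (nat_lit 95) (nat_lit 5) (nat_lit 97) (nat_lit 5) (nat_lit 98) (nat_lit 5) (nat_lit 489) (nat_lit 393) (nat_lit 318)) (XT.lf (nat_lit 0) (nat_lit 12935824036) (nat_lit 228) (nat_lit 5711347854) (nat_lit 76) (nat_lit 399296707) (nat_lit 95) (nat_lit 5) (nat_lit 98) (nat_lit 5) (nat_lit 96) (nat_lit 4) (nat_lit 490) (nat_lit 393) (nat_lit 317))) (XT.nd (nat_lit 78) (nat_lit 228) (nat_lit 0) (XT.lf (nat_lit 0) (nat_lit 7062002061) (nat_lit 152) (nat_lit 12220371082) (nat_lit 228) (nat_lit 125343127) (nat_lit 93) (nat_lit 5) (nat_lit 95) (nat_lit 5) (nat_lit 96) (nat_lit 4) (nat_lit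 491) (nat_lit 393) (nat_lit 316)) (XT.lf (nat_lit 0) (nat_lit 441253620) (nat_lit 152) (nat_lit 5507034070) (nat_lit 228) (nat_lit 13828974068) (nat_lit 90) (nat_lit 5) (nat_lit 92) (nat_lit 5) (nat_lit 93) (nat_lit 5) (nat_lit 492) (nat_lit 393) (nat_lit 315))))))) (XT.nd (nat_lit 1170) (nat_lit 1292) (nat_lit 0) (XT.nd (nat_lit 546) (nat_lit 684) (nat_lit 0) (XT.nd (nat_lit 234) (nat_lit 456) (nat_lit 0) (XT.nd (nat_lit 78) (nat_lit 152) (nat_lit 0) (XT.lf (nat_lit 0) (nat_lit 12305302137) (nat_lit 228) (nat_lit 6371667832) (nat_lit 76) (nat_lit 1477776310) (nat_lit 90) (nat_lit 5) (nat_lit 93) (nat_lit 5) (nat_lit 91) (nat_lit 4) (nat_lit 493) (nat_lit 393) (nat_lit 314)) (XT.nd (nat_lit 78) (nat_lit 76) (nat_lit 0) (XT.lf (nat_lit 0) (nat_lit 6999178411) (nat_lit 76) (nat_lit 11940955474) (nat_lit 152) (nat_lit 1600808944) (nat_lit 89) (nat_lit 5) (nat_lit 90) (nat_lit 5) (nat_lit 91) (nat_lit 4) (nat_lit 494)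 (nat_lit 393) (nat_lit 313)) (XT.lf (nat_lit 0) (nat_lit 4771267890) (nat_lit 152) (nat_lit 146685137) (nat_lit 76) (nat_lit 16018468422) (nat_lit 88) (nat_lit 5) (nat_lit 90) (nat_lit 5) (nat_lit 89) (nat_lit 5) (nat_lit 495) (nat_lit 393) (nat_lit 312)))) (XT.nd (nat_lit 156) (nat_lit 228) (nat_lit 0) (XT.nd (nat_lit 78) (nat_lit 76) (nat_lit 0) (XT.lf (nat_lit 0) (nat_lit 11425211266) (nat_lit 228) (nat_lit 7521917962) (nat_lit 76) (nat_lit 2392473983) (nat_lit 86) (nat_lit 5) (nat_lit 89) (nat_lit 5) (nat_lit 87) (nat_lit 4) (nat_lit 496) (nat_lit 393) (nat_lit 311)) (XT.lf (nat_lit 0) (nat_lit 6463819092) (nat_lit 76) (nat_lit 11893749984) (nat_lit 152) (nat_lit 3394948087) (nat_lit 85) (nat_lit 5) (nat_lit 86) (nat_lit 5) (nat_lit 87) (nat_lit 4) (nat_lit 497) (nat_lit 393) (nat_lit 310))) (XT.nd (nat_lit 78) (nat_lit 152) (nat_lit 0) (XT.lf (nat_lit 0) (nat_lit 3298524812) (nat_lit 152) (nat_lit 1247701494)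 (nat_lit 76) (nat_lit 17629338401) (nat_lit 84) (nat_lit 5) (nat_lit 86) (nat_lit 5) (nat_lit 85) (nat_lit 5) (nat_lit 498) (nat_lit 393) (nat_lit 309)) (XT.lf (nat_lit 0) (nat_lit 10251071502) (nat_lit 228) (nat_lit 9256752991) (nat_lit 76) (nat_lit 3098676211) (nat_lit 82) (nat_lit 5) (nat_lit 85) (nat_lit 5) (nat_lit 83) (nat_lit 4) (nat_lit 499) (nat_lit 393) (nat_lit 308))))) (XT.nd (nat_lit 312) (nat_lit 304) (nat_lit 0) (XT.nd (nat_lit 156) (nat_lit 228) (nat_lit 0) (XT.nd (nat_lit 78) (nat_lit 76) (nat_lit 0) (XT.lf (nat_lit 0) (nat_lit 5359067333) (nat_lit 76) (nat_lit 12129971486) (nat_lit 152) (nat_lit 5559021188) (nat_lit 81) (nat_lit 5) (nat_lit 82) (nat_lit 5) (nat_lit 83) (nat_lit 4) (nat_lit 500) (nat_lit 393) (nat_lit 307)) (XT.lf (nat_lit 0) (nat_lit 1475193137) (nat_lit 152) (nat_lit 2972851654) (nat_lit 76) (nat_lit 19052545024) (nat_lit 80) (nat_lit 5) (nat_lit 82) (nat_lit 5) (nat_lit 81)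 (nat_lit 5) (nat_lit 501) (nat_lit 393) (nat_lit 306))) (XT.nd (nat_lit 78) (nat_lit 76) (nat_lit 0) (XT.lf (nat_lit 0) (nat_lit 8730370357) (nat_lit 228) (nat_lit 11686574748) (nat_lit 76) (nat_lit 3544449703) (nat_lit 78) (nat_lit 5) (nat_lit 81) (nat_lit 5) (nat_lit 79) (nat_lit 4) (nat_lit 502) (nat_lit 393) (nat_lit 305)) (XT.lf (nat_lit 0) (nat_lit 3571667310) (nat_lit 76) (nat_lit 12708890554) (nat_lit 152) (nat_lit 8153145929) (nat_lit 77) (nat_lit 5) (nat_lit 78) (nat_lit 5) (nat_lit 79) (nat_lit 4) (nat_lit 503) (nat_lit 393) (nat_lit 304)))) (XT.nd (nat_lit 156) (nat_lit 76) (nat_lit 0) (XT.nd (nat_lit 78) (nat_lit 228) (nat_lit 0) (XT.lf (nat_lit 0) (nat_lit 19468371982) (nat_lit 76) (nat_lit 4675902173) (nat_lit 152) (nat_lit 773297673) (nat_lit 77) (nat_lit 5) (nat_lit 78) (nat_lit 5) (nat_lit 79) (nat_lit 4) (nat_lit 504) (nat_lit 393) (nat_lit 303)) (XT.lf (nat_lit 0) (nat_lit 6801304337) (nat_lit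 228) (nat_lit 14940151224) (nat_lit 76) (nat_lit 3669333877) (nat_lit 74) (nat_lit 5) (nat_lit 77) (nat_lit 5) (nat_lit 75) (nat_lit 4) (nat_lit 505) (nat_lit 393) (nat_lit 302))) (XT.nd (nat_lit 78) (nat_lit 0) (nat_lit 0) (XT.lf (nat_lit 0) (nat_lit 969223439) (nat_lit 76) (nat_lit 13699252895) (nat_lit 152) (nat_lit 11247671751) (nat_lit 73) (nat_lit 5) (nat_lit 74) (nat_lit 5) (nat_lit 75) (nat_lit 4) (nat_lit 506) (nat_lit 393) (nat_lit 301)) (XT.lf (nat_lit 0) (nat_lit 17604890404) (nat_lit 76) (nat_lit 5287662387) (nat_lit 152) (nat_lit 3540488444) (nat_lit 73) (nat_lit 5) (nat_lit 74) (nat_lit 5) (nat_lit 75) (nat_lit 4) (nat_lit 507) (nat_lit 393) (nat_lit 300)))))) (XT.nd (nat_lit 624) (nat_lit 532) (nat_lit 0) (XT.nd (nat_lit 312) (nat_lit 228) (nat_lit 0) (XT.nd (nat_lit 156) (nat_lit 304) (nat_lit 0) (XT.nd (nat_lit 78) (nat_lit 0) (nat_lit 0) (XT.lf (nat_lit 0) (nat_lit 4391312431) (nat_lit 228) (nat_lit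 19167650806) (nat_lit 76) (nat_lit 3402833444) (nat_lit 70) (nat_lit 5) (nat_lit 73) (nat_lit 5) (nat_lit 71) (nat_lit 4) (nat_lit 508) (nat_lit 393) (nat_lit 299)) (XT.lf (nat_lit 0) (nat_lit 12602963725) (nat_lit 228) (nat_lit 2552182610) (nat_lit 76) (nat_lit 12346825512) (nat_lit 70) (nat_lit 5) (nat_lit 73) (nat_lit 5) (nat_lit 71) (nat_lit 4) (nat_lit 509) (nat_lit 393) (nat_lit 298))) (XT.nd (nat_lit 78) (nat_lit 228) (nat_lit 0) (XT.lf (nat_lit 0) (nat_lit 14795876223) (nat_lit 76) (nat_lit 6378843458) (nat_lit 152) (nat_lit 6880220308) (nat_lit 69) (nat_lit 5) (nat_lit 70) (nat_lit 5) (nat_lit 71) (nat_lit 4) (nat_lit 510) (nat_lit 393) (nat_lit 297)) (XT.lf (nat_lit 0) (nat_lit 1415368906) (nat_lit 228) (nat_lit 24544158673) (nat_lit 76) (nat_lit 2662677751) (nat_lit 66) (nat_lit 5) (nat_lit 69) (nat_lit 5) (nat_lit 67) (nat_lit 4) (nat_lit 511) (nat_lit 393) (nat_lit 296)))) (XT.nd (nat_lit 156) (nat_lit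 152) (nat_lit 0) (XT.nd (nat_lit 78) (nat_lit 76) (nat_lit 0) (XT.lf (nat_lit 0) (nat_lit 9991530725) (nat_lit 228) (nat_lit 7182691901) (nat_lit 76) (nat_lit 12025123003) (nat_lit 66) (nat_lit 5) (nat_lit 69) (nat_lit 5) (nat_lit 67) (nat_lit 4) (nat_lit 512) (nat_lit 393) (nat_lit 295)) (XT.lf (nat_lit 0) (nat_lit 10858413713) (nat_lit 76) (nat_lit 8043385558) (nat_lit 152) (nat_lit 10889696544) (nat_lit 65) (nat_lit 5) (nat_lit 66) (nat_lit 5) (nat_lit 67) (nat_lit 4) (nat_lit 513) (nat_lit 393) (nat_lit 294))) (XT.nd (nat_lit 78) (nat_lit 152) (nat_lit 0) (XT.lf (nat_lit 0) (nat_lit 28138209576) (nat_lit 152) (nat_lit 878194622) (nat_lit 0) (nat_lit 1383241619) (nat_lit 65) (nat_lit 5) (nat_lit 67) (nat_lit 4) (nat_lit 65) (nat_lit 4) (nat_lit 514) (nat_lit 393) (nat_lit 293)) (XT.lf (nat_lit 0) (nat_lit 6723971293) (nat_lit 152) (nat_lit 13148079524) (nat_lit 76) (nat_lit 11145251405) (nat_lit 63) (nat_lit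 5) (nat_lit 65) (nat_lit 5) (nat_lit 64) (nat_lit 4) (nat_lit 515) (nat_lit 393) (nat_lit 292))))) (XT.nd (nat_lit 312) (nat_lit 304) (nat_lit 0) (XT.nd (nat_lit 156) (nat_lit 152) (nat_lit 0) (XT.nd (nat_lit 78) (nat_lit 0) (nat_lit 0) (XT.lf (nat_lit 0) (nat_lit 5578599126) (nat_lit 76) (nat_lit 10390793902) (nat_lit 152) (nat_lit 15682346736) (nat_lit 62) (nat_lit 5) (nat_lit 63) (nat_lit 5) (nat_lit 64) (nat_lit 4) (nat_lit 516) (nat_lit 393) (nat_lit 291)) (XT.lf (nat_lit 0) (nat_lit 25085483425) (nat_lit 76) (nat_lit 513073263) (nat_lit 152) (nat_lit 6703462652) (nat_lit 62) (nat_lit 5) (nat_lit 63) (nat_lit 5) (nat_lit 64) (nat_lit 4) (nat_lit 517) (nat_lit 393) (nat_lit 290))) (XT.nd (nat_lit 78) (nat_lit 0) (nat_lit 0) (XT.lf (nat_lit 0) (nat_lit 2682240792) (nat_lit 152) (nat_lit 20689740781) (nat_lit 76) (nat_lit 9593478817) (nat_lit 60) (nat_lit 5) (nat_lit 62) (nat_lit 5) (nat_lit 61) (nat_lit 4) (nat_lit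 518) (nat_lit 393) (nat_lit 289)) (XT.lf (nat_lit 0) (nat_lit 12267626007) (nat_lit 152) (nat_lit 1268305413) (nat_lit 76) (nat_lit 20109297077) (nat_lit 60) (nat_lit 5) (nat_lit 62) (nat_lit 5) (nat_lit 61) (nat_lit 4) (nat_lit 519) (nat_lit 393) (nat_lit 288)))) (XT.nd (nat_lit 156) (nat_lit 152) (nat_lit 0) (XT.nd (nat_lit 78) (nat_lit 76) (nat_lit 0) (XT.lf (nat_lit 0) (nat_lit 19058954409) (nat_lit 76) (nat_lit 3239746368) (nat_lit 152) (nat_lit 12041945287) (nat_lit 59) (nat_lit 5) (nat_lit 60) (nat_lit 5) (nat_lit 61) (nat_lit 4) (nat_lit 520) (nat_lit 393) (nat_lit 287)) (XT.lf (nat_lit 0) (nat_lit 4942234056) (nat_lit 76) (nat_lit 27794678719) (nat_lit 76) (nat_lit 2316827482) (nat_lit 58) (nat_lit 4) (nat_lit 59) (nat_lit 5) (nat_lit 59) (nat_lit 4) (nat_lit 521) (nat_lit 393) (nat_lit 286))) (XT.nd (nat_lit 78) (nat_lit 76) (nat_lit 0) (XT.lf (nat_lit 0) (nat_lit 7712690484) (nat_lit 152) (nat_lit 9853871721)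 (nat_lit 76) (nat_lit 18214557711) (nat_lit 57) (nat_lit 5) (nat_lit 59) (nat_lit 5) (nat_lit 58) (nat_lit 4) (nat_lit 522) (nat_lit 393) (nat_lit 285)) (XT.lf (nat_lit 0) (nat_lit 11158935945) (nat_lit 76) (nat_lit 6920569817) (nat_lit 152) (nat_lit 18447637933) (nat_lit 56) (nat_lit 5) (nat_lit 57) (nat_lit 5) (nat_lit 58) (nat_lit 4) (nat_lit 523) (nat_lit 393) (nat_lit 284))))))))
noncomputable def xc81 : XT := (XT.nd (nat_lit 53820) (nat_lit 0) (nat_lit 13908) (XT.nd (nat_lit 1170) (nat_lit 912) (nat_lit 0) (XT.nd (nat_lit 546) (nat_lit 456) (nat_lit 0) (XT.nd (nat_lit 234) (nat_lit 228) (nat_lit 0) (XT.nd (nat_lit 78) (nat_lit 228) (nat_lit 0) (XT.lf (nat_lit 0) (nat_lit 28872444506) (nat_lit 152) (nat_lit 4375711739) (nat_lit 0) (nat_lit 4043938592) (nat_lit 56) (nat_lit 5) (nat_lit 58) (nat_lit 4) (nat_lit 56) (nat_lit 4) (nat_lit 524) (nat_lit 393) (nat_lit 283)) (XT.nd (nat_lit 78) (nat_lit 76) (nat_lit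 0) (XT.lf (nat_lit 0) (nat_lit 2086965747) (nat_lit 152) (nat_lit 20621091978) (nat_lit 76) (nat_lit 15364935119) (nat_lit 54) (nat_lit 5) (nat_lit 56) (nat_lit 5) (nat_lit 55) (nat_lit 4) (nat_lit 525) (nat_lit 393) (nat_lit 282)) (XT.lf (nat_lit 0) (nat_lit 1038469905) (nat_lit 76) (nat_lit 11732160901) (nat_lit 152) (nat_lit 26103253986) (nat_lit 53) (nat_lit 5) (nat_lit 54) (nat_lit 5) (nat_lit 55) (nat_lit 4) (nat_lit 526) (nat_lit 393) (nat_lit 281)))) (XT.nd (nat_lit 156) (nat_lit 152) (nat_lit 0) (XT.nd (nat_lit 78) (nat_lit 76) (nat_lit 0) (XT.lf (nat_lit 0) (nat_lit 23724940737) (nat_lit 76) (nat_lit 234815873) (nat_lit 152) (nat_lit 15733498561) (nat_lit 53) (nat_lit 5) (nat_lit 54) (nat_lit 5) (nat_lit 55) (nat_lit 4) (nat_lit 527) (nat_lit 393) (nat_lit 280)) (XT.lf (nat_lit 0) (nat_lit 6525831282) (nat_lit 76) (nat_lit 29110221207) (nat_lit 76) (nat_lit 4896609473) (nat_lit 52) (nat_lit 4) (nat_lit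 53) (nat_lit 5) (nat_lit 53) (nat_lit 4) (nat_lit 528) (nat_lit 393) (nat_lit 279))) (XT.nd (nat_lit 78) (nat_lit 76) (nat_lit 0) (XT.lf (nat_lit 0) (nat_lit 6285499208) (nat_lit 152) (nat_lit 11479173142) (nat_lit 76) (nat_lit 23626500790) (nat_lit 51) (nat_lit 5) (nat_lit 53) (nat_lit 5) (nat_lit 52) (nat_lit 4) (nat_lit 529) (nat_lit 393) (nat_lit 278)) (XT.lf (nat_lit 0) (nat_lit 11863895862) (nat_lit 76) (nat_lit 5932668379) (nat_lit 152) (nat_lit 24474663844) (nat_lit 50) (nat_lit 5) (nat_lit 51) (nat_lit 5) (nat_lit 52) (nat_lit 4) (nat_lit 530) (nat_lit 393) (nat_lit 277))))) (XT.nd (nat_lit 312) (nat_lit 228) (nat_lit 0) (XT.nd (nat_lit 156) (nat_lit 152) (nat_lit 0) (XT.nd (nat_lit 78) (nat_lit 76) (nat_lit 0) (XT.lf (nat_lit 0) (nat_lit 29808041388) (nat_lit 152) (nat_lit 7136378876) (nat_lit 0) (nat_lit 6228612180) (nat_lit 50) (nat_lit 5) (nat_lit 52) (nat_lit 4) (nat_lit 50) (nat_lit 4) (nat_lit 531)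 (nat_lit 393) (nat_lit 276)) (XT.lf (nat_lit 0) (nat_lit 17064752121) (nat_lit 76) (nat_lit 25316425895) (nat_lit 76) (nat_lit 1714673625) (nat_lit 49) (nat_lit 4) (nat_lit 50) (nat_lit 5) (nat_lit 50) (nat_lit 4) (nat_lit 532) (nat_lit 393) (nat_lit 275))) (XT.nd (nat_lit 78) (nat_lit 76) (nat_lit 0) (XT.lf (nat_lit 0) (nat_lit 10135781824) (nat_lit 152) (nat_lit 3047788042) (nat_lit 76) (nat_lit 31858279823) (nat_lit 48) (nat_lit 5) (nat_lit 50) (nat_lit 5) (nat_lit 49) (nat_lit 4) (nat_lit 533) (nat_lit 393) (nat_lit 274)) (XT.lf (nat_lit 0) (nat_lit 22026879609) (nat_lit 76) (nat_lit 471320578) (nat_lit 152) (nat_lit 23511790956) (nat_lit 47) (nat_lit 5) (nat_lit 48) (nat_lit 5) (nat_lit 49) (nat_lit 4) (nat_lit 534) (nat_lit 393) (nat_lit 273)))) (XT.nd (nat_lit 156) (nat_lit 76) (nat_lit 0) (XT.nd (nat_lit 78) (nat_lit 76) (nat_lit 0) (XT.lf (nat_lit 0) (nat_lit 762231968) (nat_lit 76) (nat_lit 34608201737)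 (nat_lit 76) (nat_lit 11632575003) (nat_lit 46) (nat_lit 4) (nat_lit 47) (nat_lit 5) (nat_lit 47) (nat_lit 4) (nat_lit 535) (nat_lit 393) (nat_lit 272)) (XT.lf (nat_lit 0) (nat_lit 819709570) (nat_lit 152) (nat_lit 21330872375) (nat_lit 76) (nat_lit 25868207321) (nat_lit 45) (nat_lit 5) (nat_lit 47) (nat_lit 5) (nat_lit 46) (nat_lit 4) (nat_lit 536) (nat_lit 393) (nat_lit 271))) (XT.nd (nat_lit 78) (nat_lit 0) (nat_lit 0) (XT.lf (nat_lit 0) (nat_lit 4254341436) (nat_lit 76) (nat_lit 9178131199) (nat_lit 152) (nat_lit 35628494122) (nat_lit 44) (nat_lit 5) (nat_lit 45) (nat_lit 5) (nat_lit 46) (nat_lit 4) (nat_lit 537) (nat_lit 393) (nat_lit 270)) (XT.lf (nat_lit 0) (nat_lit 26661204980) (nat_lit 152) (nat_lit 19165773809) (nat_lit 0) (nat_lit 4300303323) (nat_lit 44) (nat_lit 5) (nat_lit 46) (nat_lit 4) (nat_lit 44) (nat_lit 4) (nat_lit 538) (nat_lit 393) (nat_lit 269)))))) (XT.nd (nat_lit 624) (nat_lit 456) (nat_lit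 0) (XT.nd (nat_lit 312) (nat_lit 228) (nat_lit 0) (XT.nd (nat_lit 156) (nat_lit 76) (nat_lit 0) (XT.nd (nat_lit 78) (nat_lit 76) (nat_lit 0) (XT.lf (nat_lit 0) (nat_lit 7256335774) (nat_lit 76) (nat_lit 33171515078) (nat_lit 76) (nat_lit 10793504653) (nat_lit 43) (nat_lit 4) (nat_lit 44) (nat_lit 5) (nat_lit 44) (nat_lit 4) (nat_lit 539) (nat_lit 393) (nat_lit 268)) (XT.lf (nat_lit 0) (nat_lit 2391048461) (nat_lit 152) (nat_lit 17540792503) (nat_lit 76) (nat_lit 32410482054) (nat_lit 42) (nat_lit 5) (nat_lit 44) (nat_lit 5) (nat_lit 43) (nat_lit 4) (nat_lit 540) (nat_lit 393) (nat_lit 267))) (XT.nd (nat_lit 78) (nat_lit 0) (nat_lit 0) (XT.lf (nat_lit 0) (nat_lit 9721420060) (nat_lit 76) (nat_lit 6107233927) (nat_lit 152) (nat_lit 37662826056) (nat_lit 41) (nat_lit 5) (nat_lit 42) (nat_lit 5) (nat_lit 43) (nat_lit 4) (nat_lit 541) (nat_lit 393) (nat_lit 266)) (XT.lf (nat_lit 0) (nat_lit 29907464801) (nat_lit 152)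 (nat_lit 16626248207) (nat_lit 0) (nat_lit 8134256568) (nat_lit 41) (nat_lit 5) (nat_lit 43) (nat_lit 4) (nat_lit 41) (nat_lit 4) (nat_lit 542) (nat_lit 393) (nat_lit 265)))) (XT.nd (nat_lit 156) (nat_lit 76) (nat_lit 0) (XT.nd (nat_lit 78) (nat_lit 76) (nat_lit 0) (XT.lf (nat_lit 0) (nat_lit 11458508251) (nat_lit 76) (nat_lit 33102323158) (nat_lit 76) (nat_lit 11314356750) (nat_lit 40) (nat_lit 4) (nat_lit 41) (nat_lit 5) (nat_lit 41) (nat_lit 4) (nat_lit 543) (nat_lit 393) (nat_lit 264)) (XT.lf (nat_lit 0) (nat_lit 2636846264) (nat_lit 152) (nat_lit 16449496814) (nat_lit 76) (nat_lit 38027015007) (nat_lit 39) (nat_lit 5) (nat_lit 41) (nat_lit 5) (nat_lit 40) (nat_lit 4) (nat_lit 544) (nat_lit 393) (nat_lit 263))) (XT.nd (nat_lit 78) (nat_lit 0) (nat_lit 0) (XT.lf (nat_lit 0) (nat_lit 12452221947) (nat_lit 76) (nat_lit 4428776905) (nat_lit 152) (nat_lit 41501259028) (nat_lit 38) (nat_lit 5) (nat_lit 39) (nat_lit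 5) (nat_lit 40) (nat_lit 4) (nat_lit 545) (nat_lit 393) (nat_lit 262)) (XT.lf (nat_lit 0) (nat_lit 31804919146) (nat_lit 152) (nat_lit 17265707886) (nat_lit 0) (nat_lit 10611024443) (nat_lit 38) (nat_lit 5) (nat_lit 40) (nat_lit 4) (nat_lit 38) (nat_lit 4) (nat_lit 546) (nat_lit 393) (nat_lit 261))))) (XT.nd (nat_lit 312) (nat_lit 228) (nat_lit 0) (XT.nd (nat_lit 156) (nat_lit 76) (nat_lit 0) (XT.nd (nat_lit 78) (nat_lit 76) (nat_lit 0) (XT.lf (nat_lit 0) (nat_lit 12422684534) (nat_lit 76) (nat_lit 34899794997) (nat_lit 76) (nat_lit 13693169763) (nat_lit 37) (nat_lit 4) (nat_lit 38) (nat_lit 5) (nat_lit 38) (nat_lit 4) (nat_lit 547) (nat_lit 393) (nat_lit 260)) (XT.lf (nat_lit 0) (nat_lit 1056769334) (nat_lit 152) (nat_lit 19073743223) (nat_lit 76) (nat_lit 42254128190) (nat_lit 36) (nat_lit 5) (nat_lit 38) (nat_lit 5) (nat_lit 37) (nat_lit 4) (nat_lit 548) (nat_lit 393) (nat_lit 259))) (XT.nd (nat_lit 78) (nat_lit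 0) (nat_lit 0) (XT.lf (nat_lit 0) (nat_lit 11384193550) (nat_lit 76) (nat_lit 4682396729) (nat_lit 152) (nat_lit 47721266386) (nat_lit 35) (nat_lit 5) (nat_lit 36) (nat_lit 5) (nat_lit 37) (nat_lit 4) (nat_lit 549) (nat_lit 393) (nat_lit 258)) (XT.lf (nat_lit 0) (nat_lit 31812346686) (nat_lit 152) (nat_lit 22223823981) (nat_lit 0) (nat_lit 11188429253) (nat_lit 35) (nat_lit 5) (nat_lit 37) (nat_lit 4) (nat_lit 35) (nat_lit 4) (nat_lit 550) (nat_lit 393) (nat_lit 257)))) (XT.nd (nat_lit 156) (nat_lit 152) (nat_lit 0) (XT.nd (nat_lit 78) (nat_lit 0) (nat_lit 0) (XT.lf (nat_lit 0) (nat_lit 8957368624) (nat_lit 76) (nat_lit 39189245834) (nat_lit 76) (nat_lit 18554346934) (nat_lit 34) (nat_lit 4) (nat_lit 35) (nat_lit 5) (nat_lit 35) (nat_lit 4) (nat_lit 551) (nat_lit 393) (nat_lit 256)) (XT.lf (nat_lit 0) (nat_lit 41497410098) (nat_lit 76) (nat_lit 23681758232) (nat_lit 76) (nat_lit 3036197714) (nat_lit 34) (nat_lit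 4) (nat_lit 35) (nat_lit 5) (nat_lit 35) (nat_lit 4) (nat_lit 552) (nat_lit 393) (nat_lit 255))) (XT.nd (nat_lit 51480) (nat_lit 0) (nat_lit 30096) (XT.lf (nat_lit 0) (nat_lit 5183609215) (nat_lit 76) (nat_lit 7545218774) (nat_lit 152) (nat_lit 57041621616) (nat_lit 32) (nat_lit 5) (nat_lit 33) (nat_lit 5) (nat_lit 34) (nat_lit 4) (nat_lit 553) (nat_lit 393) (nat_lit 254)) (XT.lf (nat_lit 0) (nat_lit 1228292876) (nat_lit 532) (nat_lit 840716151) (nat_lit 0) (nat_lit 1228292876) (nat_lit 428) (nat_lit 5) (nat_lit 435) (nat_lit 4) (nat_lit 428) (nat_lit 4) (nat_lit 412) (nat_lit 394) (nat_lit 394))))))) (XT.nd (nat_lit 1170) (nat_lit 6916) (nat_lit 0) (XT.nd (nat_lit 546) (nat_lit 5624) (nat_lit 0) (XT.nd (nat_lit 234) (nat_lit 2432) (nat_lit 0) (XT.nd (nat_lit 78) (nat_lit 684) (nat_lit 0) (XT.lf (nat_lit 0) (nat_lit 2481708129) (nat_lit 532) (nat_lit 3261184318) (nat_lit 532) (nat_lit 878671411) (nat_lit 421) (nat_lit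 4) (nat_lit 428) (nat_lit 5) (nat_lit 428) (nat_lit 4) (nat_lit 413) (nat_lit 394) (nat_lit 393)) (XT.nd (nat_lit 78) (nat_lit 0) (nat_lit 0) (XT.lf (nat_lit 0) (nat_lit 48025566) (nat_lit 608) (nat_lit 2288751674) (nat_lit 684) (nat_lit 4314656694) (nat_lit 412) (nat_lit 5) (nat_lit 420) (nat_lit 5) (nat_lit 421) (nat_lit 4) (nat_lit 414) (nat_lit 394) (nat_lit 392)) (XT.lf (nat_lit 0) (nat_lit 4354053763) (nat_lit 608) (nat_lit 1210198904) (nat_lit 684) (nat_lit 1119705771) (nat_lit 412) (nat_lit 5) (nat_lit 420) (nat_lit 5) (nat_lit 421) (nat_lit 4) (nat_lit 415) (nat_lit 394) (nat_lit 391)))) (XT.nd (nat_lit 156) (nat_lit 1672) (nat_lit 0) (XT.nd (nat_lit 78) (nat_lit 0) (nat_lit 0) (XT.lf (nat_lit 0) (nat_lit 2006915632) (nat_lit 684) (nat_lit 34710371) (nat_lit 760) (nat_lit 4677834743) (nat_lit 402) (nat_lit 5) (nat_lit 411) (nat_lit 5) (nat_lit 412) (nat_lit 5) (nat_lit 416) (nat_lit 394) (nat_lit 390))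 (XT.lf (nat_lit 0) (nat_lit 5206480385) (nat_lit 760) (nat_lit 342056299) (nat_lit 76) (nat_lit 1209237893) (nat_lit 402) (nat_lit 5) (nat_lit 412) (nat_lit 5) (nat_lit 403) (nat_lit 4) (nat_lit 417) (nat_lit 394) (nat_lit 389))) (XT.nd (nat_lit 78) (nat_lit 836) (nat_lit 0) (XT.lf (nat_lit 0) (nat_lit 1575312370) (nat_lit 836) (nat_lit 2657403941) (nat_lit 76) (nat_lit 2565888860) (nat_lit 391) (nat_lit 5) (nat_lit 402) (nat_lit 5) (nat_lit 392) (nat_lit 5) (nat_lit 418) (nat_lit 394) (nat_lit 388)) (XT.lf (nat_lit 0) (nat_lit 1861954485) (nat_lit 836) (nat_lit 2824272163) (nat_lit 912) (nat_lit 2156336009) (nat_lit 380) (nat_lit 5) (nat_lit 391) (nat_lit 5) (nat_lit 392) (nat_lit 5) (nat_lit 419) (nat_lit 394) (nat_lit 387))))) (XT.nd (nat_lit 312) (nat_lit 3572) (nat_lit 0) (XT.nd (nat_lit 156) (nat_lit 1064) (nat_lit 0) (XT.nd (nat_lit 78) (nat_lit 912) (nat_lit 0) (XT.lf (nat_lit 0) (nat_lit 911588691) (nat_lit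 912) (nat_lit 411113313) (nat_lit 76) (nat_lit 5567004657) (nat_lit 379) (nat_lit 5) (nat_lit 391) (nat_lit 5) (nat_lit 380) (nat_lit 5) (nat_lit 420) (nat_lit 394) (nat_lit 386)) (XT.lf (nat_lit 0) (nat_lit 3976487030) (nat_lit 988) (nat_lit 2667692756) (nat_lit 76) (nat_lit 295008706) (nat_lit 367) (nat_lit 5) (nat_lit 380) (nat_lit 5) (nat_lit 368) (nat_lit 5) (nat_lit 421) (nat_lit 394) (nat_lit 385))) (XT.nd (nat_lit 78) (nat_lit 0) (nat_lit 0) (XT.lf (nat_lit 0) (nat_lit 83254514) (nat_lit 1064) (nat_lit 4937912022) (nat_lit 76) (nat_lit 1970672407) (nat_lit 353) (nat_lit 5) (nat_lit 367) (nat_lit 5) (nat_lit 354) (nat_lit 5) (nat_lit 422) (nat_lit 394) (nat_lit 384)) (XT.lf (nat_lit 0) (nat_lit 3095645612) (nat_lit 1064) (nat_lit 189171420) (nat_lit 76) (nat_lit 3762344995) (nat_lit 353) (nat_lit 5) (nat_lit 367) (nat_lit 5) (nat_lit 354) (nat_lit 5) (nat_lit 423) (nat_lit 394) (nat_lit 383)))) (XT.nd (nat_lit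 156) (nat_lit 1292) (nat_lit 0) (XT.nd (nat_lit 78) (nat_lit 1216) (nat_lit 0) (XT.lf (nat_lit 0) (nat_lit 4710265503) (nat_lit 1064) (nat_lit 1443516644) (nat_lit 1140) (nat_lit 951712359) (nat_lit 339) (nat_lit 5) (nat_lit 353) (nat_lit 5) (nat_lit 354) (nat_lit 5) (nat_lit 424) (nat_lit 394) (nat_lit 382)) (XT.lf (nat_lit 0) (nat_lit 2038599254) (nat_lit 1216) (nat_lit 4632325879) (nat_lit 76) (nat_lit 495778483) (nat_lit 323) (nat_lit 5) (nat_lit 339) (nat_lit 5) (nat_lit 324) (nat_lit 5) (nat_lit 425) (nat_lit 394) (nat_lit 381))) (XT.nd (nat_lit 78) (nat_lit 76) (nat_lit 0) (XT.lf (nat_lit 0) (nat_lit 327924983) (nat_lit 1216) (nat_lit 4726291082) (nat_lit 1292) (nat_lit 2176618508) (nat_lit 307) (nat_lit 5) (nat_lit 323) (nat_lit 5) (nat_lit 324) (nat_lit 5) (nat_lit 426) (nat_lit 394) (nat_lit 380)) (XT.lf (nat_lit 0) (nat_lit 807517317) (nat_lit 1292) (nat_lit 1859654915) (nat_lit 76) (nat_lit 4630649042)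 (nat_lit 306) (nat_lit 5) (nat_lit 323) (nat_lit 5) (nat_lit 307) (nat_lit 5) (nat_lit 427) (nat_lit 394) (nat_lit 379)))))) (XT.nd (nat_lit 624) (nat_lit 2964) (nat_lit 0) (XT.nd (nat_lit 312) (nat_lit 1824) (nat_lit 0) (XT.nd (nat_lit 156) (nat_lit 684) (nat_lit 0) (XT.nd (nat_lit 78) (nat_lit 608) (nat_lit 0) (XT.lf (nat_lit 0) (nat_lit 3292797662) (nat_lit 836) (nat_lit 492510396) (nat_lit 912) (nat_lit 3582435779) (nat_lit 295) (nat_lit 5) (nat_lit 306) (nat_lit 5) (nat_lit 307) (nat_lit 5) (nat_lit 428) (nat_lit 394) (nat_lit 378)) (XT.lf (nat_lit 0) (nat_lit 1117133081) (nat_lit 608) (nat_lit 5699641347) (nat_lit 684) (nat_lit 624068266) (nat_lit 287) (nat_lit 5) (nat_lit 295) (nat_lit 5) (nat_lit 296) (nat_lit 5) (nat_lit 429) (nat_lit 394) (nat_lit 377))) (XT.nd (nat_lit 78) (nat_lit 608) (nat_lit 0) (XT.lf (nat_lit 0) (nat_lit 2340806070) (nat_lit 684) (nat_lit 1082176970) (nat_lit 76) (nat_lit 4093509941)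 (nat_lit 286) (nat_lit 5) (nat_lit 295) (nat_lit 5) (nat_lit 287) (nat_lit 5) (nat_lit 430) (nat_lit 394) (nat_lit 376)) (XT.lf (nat_lit 0) (nat_lit 4309855164) (nat_lit 608) (nat_lit 1034633508) (nat_lit 684) (nat_lit 2250874704) (nat_lit 278) (nat_lit 5) (nat_lit 286) (nat_lit 5) (nat_lit 287) (nat_lit 5) (nat_lit 431) (nat_lit 394) (nat_lit 375)))) (XT.nd (nat_lit 156) (nat_lit 1216) (nat_lit 0) (XT.nd (nat_lit 78) (nat_lit 0) (nat_lit 0) (XT.lf (nat_lit 0) (nat_lit 714324098) (nat_lit 608) (nat_lit 5532951336) (nat_lit 76) (nat_lit 1430087291) (nat_lit 270) (nat_lit 5) (nat_lit 278) (nat_lit 5) (nat_lit 271) (nat_lit 5) (nat_lit 432) (nat_lit 394) (nat_lit 374)) (XT.lf (nat_lit 0) (nat_lit 3690078184) (nat_lit 608) (nat_lit 75911971) (nat_lit 76) (nat_lit 3996165566) (nat_lit 270) (nat_lit 5) (nat_lit 278) (nat_lit 5) (nat_lit 271) (nat_lit 5) (nat_lit 433) (nat_lit 394) (nat_lit 373))) (XT.nd (nat_lit 78)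 (nat_lit 608) (nat_lit 0) (XT.lf (nat_lit 0) (nat_lit 5569237528) (nat_lit 608) (nat_lit 1164732476) (nat_lit 684) (nat_lit 1116163765) (nat_lit 262) (nat_lit 5) (nat_lit 270) (nat_lit 5) (nat_lit 271) (nat_lit 5) (nat_lit 434) (nat_lit 394) (nat_lit 372)) (XT.lf (nat_lit 0) (nat_lit 1865266741) (nat_lit 608) (nat_lit 4548798322) (nat_lit 76) (nat_lit 1526902686) (nat_lit 254) (nat_lit 5) (nat_lit 262) (nat_lit 5) (nat_lit 255) (nat_lit 5) (nat_lit 435) (nat_lit 394) (nat_lit 371))))) (XT.nd (nat_lit 312) (nat_lit 1444) (nat_lit 0) (XT.nd (nat_lit 156) (nat_lit 988) (nat_lit 0) (XT.nd (nat_lit 78) (nat_lit 0) (nat_lit 0) (XT.lf (nat_lit 0) (nat_lit 1162036279) (nat_lit 532) (nat_lit 3724841272) (nat_lit 608) (nat_lit 3148129132) (nat_lit 247) (nat_lit 5) (nat_lit 254) (nat_lit 5) (nat_lit 255) (nat_lit 5) (nat_lit 436) (nat_lit 394) (nat_lit 370)) (XT.lf (nat_lit 0) (nat_lit 7052111191) (nat_lit 532) (nat_lit 921467675)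 (nat_lit 608) (nat_lit 159061065) (nat_lit 247) (nat_lit 5) (nat_lit 254) (nat_lit 5) (nat_lit 255) (nat_lit 5) (nat_lit 437) (nat_lit 394) (nat_lit 369))) (XT.nd (nat_lit 78) (nat_lit 456) (nat_lit 0) (XT.lf (nat_lit 0) (nat_lit 2858904296) (nat_lit 532) (nat_lit 3384195696) (nat_lit 76) (nat_lit 1989380295) (nat_lit 240) (nat_lit 5) (nat_lit 247) (nat_lit 5) (nat_lit 241) (nat_lit 5) (nat_lit 438) (nat_lit 394) (nat_lit 368)) (XT.lf (nat_lit 0) (nat_lit 2596634570) (nat_lit 456) (nat_lit 3343677411) (nat_lit 532) (nat_lit 2395679485) (nat_lit 234) (nat_lit 5) (nat_lit 240) (nat_lit 5) (nat_lit 241) (nat_lit 5) (nat_lit 439) (nat_lit 394) (nat_lit 367)))) (XT.nd (nat_lit 156) (nat_lit 912) (nat_lit 0) (XT.nd (nat_lit 78) (nat_lit 0) (nat_lit 0) (XT.lf (nat_lit 0) (nat_lit 297813291) (nat_lit 456) (nat_lit 329528693) (nat_lit 532) (nat_lit 7816011089) (nat_lit 227) (nat_lit 5) (nat_lit 233) (nat_lit 5) (nat_lit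 234) (nat_lit 5) (nat_lit 440) (nat_lit 394) (nat_lit 366)) (XT.lf (nat_lit 0) (nat_lit 3710633118) (nat_lit 532) (nat_lit 2056311993) (nat_lit 76) (nat_lit 2785752307) (nat_lit 227) (nat_lit 5) (nat_lit 234) (nat_lit 5) (nat_lit 228) (nat_lit 5) (nat_lit 441) (nat_lit 394) (nat_lit 365))) (XT.nd (nat_lit 78) (nat_lit 456) (nat_lit 0) (XT.lf (nat_lit 0) (nat_lit 4210119443) (nat_lit 456) (nat_lit 2654526061) (nat_lit 532) (nat_lit 1801335126) (nat_lit 221) (nat_lit 5) (nat_lit 227) (nat_lit 5) (nat_lit 228) (nat_lit 5) (nat_lit 442) (nat_lit 394) (nat_lit 364)) (XT.lf (nat_lit 0) (nat_lit 1284103647) (nat_lit 456) (nat_lit 6925508660) (nat_lit 76) (nat_lit 573287640) (nat_lit 215) (nat_lit 5) (nat_lit 221) (nat_lit 5) (nat_lit 216) (nat_lit 5) (nat_lit 443) (nat_lit 394) (nat_lit 363))))))))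
noncomputable def xc82 : XT := (XT.nd (nat_lit 2418) (nat_lit 3648) (nat_lit 0) (XT.nd (nat_lit 1170) (nat_lit 2812) (nat_lit 0) (XT.nd (nat_lit 546) (nat_lit 2052) (nat_lit 0) (XT.nd (nat_lit 234) (nat_lit 1140) (nat_lit 0) (XT.nd (nat_lit 78) (nat_lit 912) (nat_lit 0) (XT.lf (nat_lit 0) (nat_lit 4433470358) (nat_lit 456) (nat_lit 580894477) (nat_lit 76) (nat_lit 3888204634) (nat_lit 215) (nat_lit 5) (nat_lit 221) (nat_lit 5) (nat_lit 216) (nat_lit 5) (nat_lit 444) (nat_lit 394) (nat_lit 362)) (XT.nd (nat_lit 78) (nat_lit 456) (nat_lit 0) (XT.lf (nat_lit 0) (nat_lit 5987659435) (nat_lit 456) (nat_lit 1684930660) (nat_lit 532) (nat_lit 1353385453) (nat_lit 209) (nat_lit 5) (nat_lit 215) (nat_lit 5) (nat_lit 216) (nat_lit 5) (nat_lit 445) (nat_lit 394) (nat_lit 361)) (XT.lf (nat_lit 0) (nat_lit 1815189597) (nat_lit 456) (nat_lit 5589750092) (nat_lit 76) (nat_lit 1747745216) (nat_lit 203) (nat_lit 5) (nat_lit 209)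 (nat_lit 5) (nat_lit 204) (nat_lit 5) (nat_lit 446) (nat_lit 394) (nat_lit 360)))) (XT.nd (nat_lit 156) (nat_lit 760) (nat_lit 0) (XT.nd (nat_lit 78) (nat_lit 0) (nat_lit 0) (XT.lf (nat_lit 0) (nat_lit 1047833441) (nat_lit 380) (nat_lit 4000446947) (nat_lit 456) (nat_lit 4234617590) (nat_lit 198) (nat_lit 5) (nat_lit 203) (nat_lit 5) (nat_lit 204) (nat_lit 5) (nat_lit 447) (nat_lit 394) (nat_lit 359)) (XT.lf (nat_lit 0) (nat_lit 7915498786) (nat_lit 380) (nat_lit 459206237) (nat_lit 456) (nat_lit 1042426304) (nat_lit 198) (nat_lit 5) (nat_lit 203) (nat_lit 5) (nat_lit 204) (nat_lit 5) (nat_lit 448) (nat_lit 394) (nat_lit 358))) (XT.nd (nat_lit 78) (nat_lit 380) (nat_lit 0) (XT.lf (nat_lit 0) (nat_lit 2226183676) (nat_lit 380) (nat_lit 4150181563) (nat_lit 76) (nat_lit 3177648612) (nat_lit 193) (nat_lit 5) (nat_lit 198) (nat_lit 5) (nat_lit 194) (nat_lit 5) (nat_lit 449) (nat_lit 394) (nat_lit 357)) (XT.lf (nat_lit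 0) (nat_lit 2809418310) (nat_lit 380) (nat_lit 2751118620) (nat_lit 456) (nat_lit 4134500956) (nat_lit 188) (nat_lit 5) (nat_lit 193) (nat_lit 5) (nat_lit 194) (nat_lit 5) (nat_lit 450) (nat_lit 394) (nat_lit 356))))) (XT.nd (nat_lit 312) (nat_lit 1064) (nat_lit 0) (XT.nd (nat_lit 156) (nat_lit 608) (nat_lit 0) (XT.nd (nat_lit 78) (nat_lit 76) (nat_lit 0) (XT.lf (nat_lit 0) (nat_lit 132824304) (nat_lit 304) (nat_lit 8857581033) (nat_lit 380) (nat_lit 850026424) (nat_lit 184) (nat_lit 5) (nat_lit 188) (nat_lit 5) (nat_lit 189) (nat_lit 5) (nat_lit 451) (nat_lit 394) (nat_lit 355)) (XT.lf (nat_lit 0) (nat_lit 2523763996) (nat_lit 380) (nat_lit 2621479100) (nat_lit 76) (nat_lit 4843011068) (nat_lit 183) (nat_lit 5) (nat_lit 188) (nat_lit 5) (nat_lit 184) (nat_lit 5) (nat_lit 452) (nat_lit 394) (nat_lit 354))) (XT.nd (nat_lit 78) (nat_lit 304) (nat_lit 0) (XT.lf (nat_lit 0) (nat_lit 4678488115) (nat_lit 304) (nat_lit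 1292586049) (nat_lit 380) (nat_lit 4169506217) (nat_lit 179) (nat_lit 5) (nat_lit 183) (nat_lit 5) (nat_lit 184) (nat_lit 5) (nat_lit 453) (nat_lit 394) (nat_lit 353)) (XT.lf (nat_lit 0) (nat_lit 1883055438) (nat_lit 304) (nat_lit 7654312641) (nat_lit 380) (nat_lit 759644620) (nat_lit 175) (nat_lit 5) (nat_lit 179) (nat_lit 5) (nat_lit 180) (nat_lit 5) (nat_lit 454) (nat_lit 394) (nat_lit 352)))) (XT.nd (nat_lit 156) (nat_lit 684) (nat_lit 0) (XT.nd (nat_lit 78) (nat_lit 304) (nat_lit 0) (XT.lf (nat_lit 0) (nat_lit 2712590912) (nat_lit 380) (nat_lit 1018264402) (nat_lit 76) (nat_lit 6726078285) (nat_lit 174) (nat_lit 5) (nat_lit 179) (nat_lit 5) (nat_lit 175) (nat_lit 5) (nat_lit 455) (nat_lit 394) (nat_lit 351)) (XT.lf (nat_lit 0) (nat_lit 6287878042) (nat_lit 380) (nat_lit 3983265025) (nat_lit 76) (nat_lit 349861816) (nat_lit 170) (nat_lit 5) (nat_lit 175) (nat_lit 5) (nat_lit 171) (nat_lit 5) (nat_lit 456) (nat_lit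 394) (nat_lit 350))) (XT.nd (nat_lit 78) (nat_lit 380) (nat_lit 0) (XT.lf (nat_lit 0) (nat_lit 3709320490) (nat_lit 304) (nat_lit 6291490947) (nat_lit 380) (nat_lit 788278124) (nat_lit 166) (nat_lit 5) (nat_lit 170) (nat_lit 5) (nat_lit 171) (nat_lit 5) (nat_lit 457) (nat_lit 394) (nat_lit 349)) (XT.lf (nat_lit 0) (nat_lit 657352918) (nat_lit 304) (nat_lit 2144294038) (nat_lit 380) (nat_lit 8159909041) (nat_lit 161) (nat_lit 5) (nat_lit 165) (nat_lit 5) (nat_lit 166) (nat_lit 5) (nat_lit 458) (nat_lit 394) (nat_lit 348)))))) (XT.nd (nat_lit 624) (nat_lit 1444) (nat_lit 0) (XT.nd (nat_lit 312) (nat_lit 760) (nat_lit 0) (XT.nd (nat_lit 156) (nat_lit 380) (nat_lit 0) (XT.nd (nat_lit 78) (nat_lit 228) (nat_lit 0) (XT.lf (nat_lit 0) (nat_lit 6524212043) (nat_lit 380) (nat_lit 2475662385) (nat_lit 76) (nat_lit 2137866922) (nat_lit 161) (nat_lit 5) (nat_lit 166) (nat_lit 5) (nat_lit 162) (nat_lit 5) (nat_lit 459) (nat_lit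 394) (nat_lit 347)) (XT.lf (nat_lit 0) (nat_lit 5596720001) (nat_lit 228) (nat_lit 4786411527) (nat_lit 304) (nat_lit 935342976) (nat_lit 158) (nat_lit 5) (nat_lit 161) (nat_lit 5) (nat_lit 162) (nat_lit 5) (nat_lit 460) (nat_lit 394) (nat_lit 346))) (XT.nd (nat_lit 78) (nat_lit 0) (nat_lit 0) (XT.lf (nat_lit 0) (nat_lit 2398041424) (nat_lit 304) (nat_lit 397638292) (nat_lit 380) (nat_lit 8708184554) (nat_lit 153) (nat_lit 5) (nat_lit 157) (nat_lit 5) (nat_lit 158) (nat_lit 5) (nat_lit 461) (nat_lit 394) (nat_lit 345)) (XT.lf (nat_lit 0) (nat_lit 6668110642) (nat_lit 380) (nat_lit 943475726) (nat_lit 76) (nat_lit 4081505572) (nat_lit 153) (nat_lit 5) (nat_lit 158) (nat_lit 5) (nat_lit 154) (nat_lit 5) (nat_lit 462) (nat_lit 394) (nat_lit 344)))) (XT.nd (nat_lit 156) (nat_lit 228) (nat_lit 0) (XT.nd (nat_lit 78) (nat_lit 304) (nat_lit 0) (XT.lf (nat_lit 0) (nat_lit 7529399235) (nat_lit 228) (nat_lit 3155372763)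 (nat_lit 304) (nat_lit 1202384997) (nat_lit 150) (nat_lit 5) (nat_lit 153) (nat_lit 5) (nat_lit 154) (nat_lit 5) (nat_lit 463) (nat_lit 394) (nat_lit 343)) (XT.lf (nat_lit 0) (nat_lit 2697391289) (nat_lit 304) (nat_lit 7934038362) (nat_lit 76) (nat_lit 1454351726) (nat_lit 146) (nat_lit 5) (nat_lit 150) (nat_lit 5) (nat_lit 147) (nat_lit 5) (nat_lit 464) (nat_lit 394) (nat_lit 342))) (XT.nd (nat_lit 78) (nat_lit 0) (nat_lit 0) (XT.lf (nat_lit 0) (nat_lit 607167102) (nat_lit 228) (nat_lit 6116664221) (nat_lit 304) (nat_lit 5565162992) (nat_lit 143) (nat_lit 5) (nat_lit 146) (nat_lit 5) (nat_lit 147) (nat_lit 5) (nat_lit 465) (nat_lit 394) (nat_lit 341)) (XT.lf (nat_lit 0) (nat_lit 9490099259) (nat_lit 228) (nat_lit 1414049622) (nat_lit 304) (nat_lit 1593164255) (nat_lit 143) (nat_lit 5) (nat_lit 146) (nat_lit 5) (nat_lit 147) (nat_lit 5) (nat_lit 466) (nat_lit 394) (nat_lit 340))))) (XT.nd (nat_lit 312) (nat_lit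 608) (nat_lit 0) (XT.nd (nat_lit 156) (nat_lit 304) (nat_lit 0) (XT.nd (nat_lit 78) (nat_lit 228) (nat_lit 0) (XT.lf (nat_lit 0) (nat_lit 2493752605) (nat_lit 304) (nat_lit 6800530117) (nat_lit 76) (nat_lit 3415545250) (nat_lit 139) (nat_lit 5) (nat_lit 143) (nat_lit 5) (nat_lit 140) (nat_lit 5) (nat_lit 467) (nat_lit 394) (nat_lit 339)) (XT.lf (nat_lit 0) (nat_lit 2163116585) (nat_lit 228) (nat_lit 4527819822) (nat_lit 304) (nat_lit 6236720067) (nat_lit 136) (nat_lit 5) (nat_lit 139) (nat_lit 5) (nat_lit 140) (nat_lit 5) (nat_lit 468) (nat_lit 394) (nat_lit 338))) (XT.nd (nat_lit 78) (nat_lit 304) (nat_lit 0) (XT.lf (nat_lit 0) (nat_lit 11041593123) (nat_lit 304) (nat_lit 1695712003) (nat_lit 76) (nat_lit 413889783) (nat_lit 136) (nat_lit 5) (nat_lit 140) (nat_lit 5) (nat_lit 137) (nat_lit 5) (nat_lit 469) (nat_lit 394) (nat_lit 337)) (XT.lf (nat_lit 0) (nat_lit 2174756923) (nat_lit 304) (nat_lit 5724646358) (nat_lit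 76) (nat_lit 5479164040) (nat_lit 132) (nat_lit 5) (nat_lit 136) (nat_lit 5) (nat_lit 133) (nat_lit 5) (nat_lit 470) (nat_lit 394) (nat_lit 336)))) (XT.nd (nat_lit 156) (nat_lit 456) (nat_lit 0) (XT.nd (nat_lit 78) (nat_lit 0) (nat_lit 0) (XT.lf (nat_lit 0) (nat_lit 3682964979) (nat_lit 152) (nat_lit 2870983302) (nat_lit 228) (nat_lit 7057926572) (nat_lit 130) (nat_lit 5) (nat_lit 132) (nat_lit 5) (nat_lit 133) (nat_lit 5) (nat_lit 471) (nat_lit 394) (nat_lit 335)) (XT.lf (nat_lit 0) (nat_lit 11101373451) (nat_lit 228) (nat_lit 457740472) (nat_lit 76) (nat_lit 2291963544) (nat_lit 130) (nat_lit 5) (nat_lit 133) (nat_lit 5) (nat_lit 131) (nat_lit 5) (nat_lit 472) (nat_lit 394) (nat_lit 334))) (XT.nd (nat_lit 78) (nat_lit 152) (nat_lit 0) (XT.lf (nat_lit 0) (nat_lit 1731734328) (nat_lit 304) (nat_lit 4732492630) (nat_lit 76) (nat_lit 7630436888) (nat_lit 126) (nat_lit 5) (nat_lit 130) (nat_lit 5) (nat_lit 127) (nat_lit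 5) (nat_lit 473) (nat_lit 394) (nat_lit 333)) (XT.lf (nat_lit 0) (nat_lit 5141050600) (nat_lit 152) (nat_lit 1163077930) (nat_lit 228) (nat_lit 8040260635) (nat_lit 124) (nat_lit 5) (nat_lit 126) (nat_lit 5) (nat_lit 127) (nat_lit 5) (nat_lit 474) (nat_lit 394) (nat_lit 332))))))) (XT.nd (nat_lit 1170) (nat_lit 1596) (nat_lit 0) (XT.nd (nat_lit 546) (nat_lit 988) (nat_lit 0) (XT.nd (nat_lit 234) (nat_lit 608) (nat_lit 0) (XT.nd (nat_lit 78) (nat_lit 228) (nat_lit 0) (XT.lf (nat_lit 0) (nat_lit 706754899) (nat_lit 228) (nat_lit 10361244808) (nat_lit 304) (nat_lit 3531978801) (nat_lit 121) (nat_lit 5) (nat_lit 124) (nat_lit 5) (nat_lit 125) (nat_lit 5) (nat_lit 475) (nat_lit 394) (nat_lit 331)) (XT.nd (nat_lit 78) (nat_lit 152) (nat_lit 0) (XT.lf (nat_lit 0) (nat_lit 1153294107) (nat_lit 304) (nat_lit 3853774776) (nat_lit 76) (nat_lit 9853944450) (nat_lit 120) (nat_lit 5) (nat_lit 124) (nat_lit 5) (nat_lit 121) (nat_lit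 5) (nat_lit 476) (nat_lit 394) (nat_lit 330)) (XT.lf (nat_lit 0) (nat_lit 5935533989) (nat_lit 228) (nat_lit 8625741075) (nat_lit 76) (nat_lit 566734394) (nat_lit 118) (nat_lit 5) (nat_lit 121) (nat_lit 5) (nat_lit 119) (nat_lit 5) (nat_lit 477) (nat_lit 394) (nat_lit 329)))) (XT.nd (nat_lit 156) (nat_lit 304) (nat_lit 0) (XT.nd (nat_lit 78) (nat_lit 76) (nat_lit 0) (XT.lf (nat_lit 0) (nat_lit 1759400801) (nat_lit 228) (nat_lit 9167134452) (nat_lit 304) (nat_lit 4474522649) (nat_lit 115) (nat_lit 5) (nat_lit 118) (nat_lit 5) (nat_lit 119) (nat_lit 5) (nat_lit 478) (nat_lit 394) (nat_lit 328)) (XT.lf (nat_lit 0) (nat_lit 425033432) (nat_lit 304) (nat_lit 3122553946) (nat_lit 76) (nat_lit 12133173291) (nat_lit 114) (nat_lit 5) (nat_lit 118) (nat_lit 5) (nat_lit 115) (nat_lit 5) (nat_lit 479) (nat_lit 394) (nat_lit 327))) (XT.nd (nat_lit 78) (nat_lit 152) (nat_lit 0) (XT.lf (nat_lit 0) (nat_lit 5439353168) (nat_lit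 228) (nat_lit 8238993474) (nat_lit 76) (nat_lit 2287448652) (nat_lit 112) (nat_lit 5) (nat_lit 115) (nat_lit 5) (nat_lit 113) (nat_lit 5) (nat_lit 480) (nat_lit 394) (nat_lit 326)) (XT.lf (nat_lit 0) (nat_lit 2654221995) (nat_lit 152) (nat_lit 8003348729) (nat_lit 228) (nat_lit 5600207306) (nat_lit 110) (nat_lit 5) (nat_lit 112) (nat_lit 5) (nat_lit 113) (nat_lit 5) (nat_lit 481) (nat_lit 394) (nat_lit 325))))) (XT.nd (nat_lit 312) (nat_lit 608) (nat_lit 0) (XT.nd (nat_lit 156) (nat_lit 152) (nat_lit 0) (XT.nd (nat_lit 78) (nat_lit 228) (nat_lit 0) (XT.lf (nat_lit 0) (nat_lit 13974457930) (nat_lit 152) (nat_lit 2102536551) (nat_lit 228) (nat_lit 480187066) (nat_lit 110) (nat_lit 5) (nat_lit 112) (nat_lit 5) (nat_lit 113) (nat_lit 5) (nat_lit 482) (nat_lit 394) (nat_lit 324)) (XT.lf (nat_lit 0) (nat_lit 4786189376) (nat_lit 228) (nat_lit 8074506162) (nat_lit 76) (nat_lit 4000901553) (nat_lit 107) (nat_lit 5) (nat_lit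 110) (nat_lit 5) (nat_lit 108) (nat_lit 5) (nat_lit 483) (nat_lit 394) (nat_lit 323))) (XT.nd (nat_lit 78) (nat_lit 0) (nat_lit 0) (XT.lf (nat_lit 0) (nat_lit 3348494700) (nat_lit 152) (nat_lit 6894143692) (nat_lit 228) (nat_lit 6931113098) (nat_lit 105) (nat_lit 5) (nat_lit 107) (nat_lit 5) (nat_lit 108) (nat_lit 5) (nat_lit 484) (nat_lit 394) (nat_lit 322)) (XT.lf (nat_lit 0) (nat_lit 15212770489) (nat_lit 152) (nat_lit 694388046) (nat_lit 228) (nat_lit 1586781623) (nat_lit 105) (nat_lit 5) (nat_lit 107) (nat_lit 5) (nat_lit 108) (nat_lit 5) (nat_lit 485) (nat_lit 394) (nat_lit 321)))) (XT.nd (nat_lit 156) (nat_lit 228) (nat_lit 0) (XT.nd (nat_lit 78) (nat_lit 152) (nat_lit 0) (XT.lf (nat_lit 0) (nat_lit 3953910815) (nat_lit 228) (nat_lit 8181572414) (nat_lit 76) (nat_lit 5683747849) (nat_lit 102) (nat_lit 5) (nat_lit 105) (nat_lit 5) (nat_lit 103) (nat_lit 5) (nat_lit 486) (nat_lit 394) (nat_lit 320)) (XT.lf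 (nat_lit 0) (nat_lit 3792548027) (nat_lit 152) (nat_lit 5866699586) (nat_lit 228) (nat_lit 8493653185) (nat_lit 100) (nat_lit 5) (nat_lit 102) (nat_lit 5) (nat_lit 103) (nat_lit 5) (nat_lit 487) (nat_lit 394) (nat_lit 319))) (XT.nd (nat_lit 78) (nat_lit 228) (nat_lit 0) (XT.lf (nat_lit 0) (nat_lit 15588722046) (nat_lit 228) (nat_lit 2273003095) (nat_lit 76) (nat_lit 633267002) (nat_lit 100) (nat_lit 5) (nat_lit 103) (nat_lit 5) (nat_lit 101) (nat_lit 4) (nat_lit 488) (nat_lit 394) (nat_lit 318)) (XT.lf (nat_lit 0) (nat_lit 2915932069) (nat_lit 228) (nat_lit 8617389854) (nat_lit 76) (nat_lit 7309520003) (nat_lit 97) (nat_lit 5) (nat_lit 100) (nat_lit 5) (nat_lit 98) (nat_lit 5) (nat_lit 489) (nat_lit 394) (nat_lit 317)))))) (XT.nd (nat_lit 624) (nat_lit 760) (nat_lit 0) (XT.nd (nat_lit 312) (nat_lit 304) (nat_lit 0) (XT.nd (nat_lit 156) (nat_lit 380) (nat_lit 0) (XT.nd (nat_lit 78) (nat_lit 0) (nat_lit 0) (XT.lf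 (nat_lit 0) (nat_lit 3928510948) (nat_lit 152) (nat_lit 4951808391) (nat_lit 228) (nat_lit 10319167435) (nat_lit 95) (nat_lit 5) (nat_lit 97) (nat_lit 5) (nat_lit 98) (nat_lit 5) (nat_lit 490) (nat_lit 394) (nat_lit 316)) (XT.lf (nat_lit 0) (nat_lit 15094201947) (nat_lit 228) (nat_lit 2619503376) (nat_lit 76) (nat_lit 1851009495) (nat_lit 95) (nat_lit 5) (nat_lit 98) (nat_lit 5) (nat_lit 96) (nat_lit 4) (nat_lit 491) (nat_lit 394) (nat_lit 315))) (XT.nd (nat_lit 78) (nat_lit 152) (nat_lit 0) (XT.lf (nat_lit 0) (nat_lit 1640578657) (nat_lit 228) (nat_lit 9448445189) (nat_lit 76) (nat_lit 8847909742) (nat_lit 92) (nat_lit 5) (nat_lit 95) (nat_lit 5) (nat_lit 93) (nat_lit 5) (nat_lit 492) (nat_lit 394) (nat_lit 314)) (XT.lf (nat_lit 0) (nat_lit 3688867131) (nat_lit 152) (nat_lit 4184652035) (nat_lit 228) (nat_lit 12444621506) (nat_lit 90) (nat_lit 5) (nat_lit 92) (nat_lit 5) (nat_lit 93) (nat_lit 5) (nat_lit 493)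 (nat_lit 394) (nat_lit 313)))) (XT.nd (nat_lit 156) (nat_lit 152) (nat_lit 0) (XT.nd (nat_lit 78) (nat_lit 152) (nat_lit 0) (XT.lf (nat_lit 0) (nat_lit 14384250036) (nat_lit 228) (nat_lit 3385618656) (nat_lit 76) (nat_lit 2938191889) (nat_lit 90) (nat_lit 5) (nat_lit 93) (nat_lit 5) (nat_lit 91) (nat_lit 4) (nat_lit 494) (nat_lit 394) (nat_lit 312)) (XT.lf (nat_lit 0) (nat_lit 90340106) (nat_lit 152) (nat_lit 10752112493) (nat_lit 76) (nat_lit 10263951597) (nat_lit 88) (nat_lit 5) (nat_lit 90) (nat_lit 5) (nat_lit 89) (nat_lit 5) (nat_lit 495) (nat_lit 394) (nat_lit 311))) (XT.nd (nat_lit 78) (nat_lit 0) (nat_lit 0) (XT.lf (nat_lit 0) (nat_lit 2994785658) (nat_lit 152) (nat_lit 3605688217) (nat_lit 228) (nat_lit 14913426678) (nat_lit 86) (nat_lit 5) (nat_lit 88) (nat_lit 5) (nat_lit 89) (nat_lit 5) (nat_lit 496) (nat_lit 394) (nat_lit 310)) (XT.lf (nat_lit 0) (nat_lit 13420002915) (nat_lit 228) (nat_lit 4654867698)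 (nat_lit 76) (nat_lit 3855329053) (nat_lit 86) (nat_lit 5) (nat_lit 89) (nat_lit 5) (nat_lit 87) (nat_lit 4) (nat_lit 497) (nat_lit 394) (nat_lit 309))))) (XT.nd (nat_lit 312) (nat_lit 380) (nat_lit 0) (XT.nd (nat_lit 156) (nat_lit 76) (nat_lit 0) (XT.nd (nat_lit 78) (nat_lit 228) (nat_lit 0) (XT.lf (nat_lit 0) (nat_lit 9720120804) (nat_lit 76) (nat_lit 10821530661) (nat_lit 152) (nat_lit 1814410862) (nat_lit 85) (nat_lit 5) (nat_lit 86) (nat_lit 5) (nat_lit 87) (nat_lit 4) (nat_lit 498) (nat_lit 394) (nat_lit 308)) (XT.lf (nat_lit 0) (nat_lit 1754190629) (nat_lit 152) (nat_lit 3261663216) (nat_lit 228) (nat_lit 17776398618) (nat_lit 82) (nat_lit 5) (nat_lit 84) (nat_lit 5) (nat_lit 85) (nat_lit 5) (nat_lit 499) (nat_lit 394) (nat_lit 307))) (XT.nd (nat_lit 78) (nat_lit 76) (nat_lit 0) (XT.lf (nat_lit 0) (nat_lit 12155454534) (nat_lit 228) (nat_lit 6524675768) (nat_lit 76) (nat_lit 4556632725) (nat_lit 82) (nat_lit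 5) (nat_lit 85) (nat_lit 5) (nat_lit 83) (nat_lit 4) (nat_lit 500) (nat_lit 394) (nat_lit 306)) (XT.lf (nat_lit 0) (nat_lit 8500111520) (nat_lit 76) (nat_lit 11092587328) (nat_lit 152) (nat_lit 4099406911) (nat_lit 81) (nat_lit 5) (nat_lit 82) (nat_lit 5) (nat_lit 83) (nat_lit 4) (nat_lit 501) (nat_lit 394) (nat_lit 305)))) (XT.nd (nat_lit 156) (nat_lit 152) (nat_lit 0) (XT.nd (nat_lit 78) (nat_lit 152) (nat_lit 0) (XT.lf (nat_lit 0) (nat_lit 3067651149) (nat_lit 152) (nat_lit 137731953) (nat_lit 76) (nat_lit 20953753474) (nat_lit 80) (nat_lit 5) (nat_lit 82) (nat_lit 5) (nat_lit 81) (nat_lit 5) (nat_lit 502) (nat_lit 394) (nat_lit 304)) (XT.lf (nat_lit 0) (nat_lit 10536343293) (nat_lit 228) (nat_lit 9108702205) (nat_lit 76) (nat_lit 4988845158) (nat_lit 78) (nat_lit 5) (nat_lit 81) (nat_lit 5) (nat_lit 79) (nat_lit 4) (nat_lit 503) (nat_lit 394) (nat_lit 303))) (XT.nd (nat_lit 78) (nat_lit 76) (nat_lit 0) (XT.lf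 (nat_lit 0) (nat_lit 6578576627) (nat_lit 76) (nat_lit 11717361384) (nat_lit 152) (nat_lit 6824944555) (nat_lit 77) (nat_lit 5) (nat_lit 78) (nat_lit 5) (nat_lit 79) (nat_lit 4) (nat_lit 504) (nat_lit 394) (nat_lit 302)) (XT.lf (nat_lit 0) (nat_lit 716235080) (nat_lit 152) (nat_lit 2759900048) (nat_lit 76) (nat_lit 22144255780) (nat_lit 76) (nat_lit 5) (nat_lit 78) (nat_lit 5) (nat_lit 77) (nat_lit 5) (nat_lit 505) (nat_lit 394) (nat_lit 301))))))))
noncomputable def xc83 : XT := (XT.nd (nat_lit 2418) (nat_lit 912) (nat_lit 0) (XT.nd (nat_lit 1170) (nat_lit 988) (nat_lit 0) (XT.nd (nat_lit 546) (nat_lit 532) (nat_lit 0) (XT.nd (nat_lit 234) (nat_lit 532) (nat_lit 0) (XT.nd (nat_lit 78) (nat_lit 76) (nat_lit 0) (XT.lf (nat_lit 0) (nat_lit 8498853948) (nat_lit 228) (nat_lit 12539536243) (nat_lit 76) (nat_lit 5089896166) (nat_lit 74) (nat_lit 5) (nat_lit 77) (nat_lit 5) (nat_lit 75) (nat_lit 4) (nat_lit 506) (nat_lit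 394) (nat_lit 300)) (XT.nd (nat_lit 78) (nat_lit 0) (nat_lit 0) (XT.lf (nat_lit 0) (nat_lit 3819190056) (nat_lit 76) (nat_lit 12766466862) (nat_lit 152) (nat_lit 10063640994) (nat_lit 73) (nat_lit 5) (nat_lit 74) (nat_lit 5) (nat_lit 75) (nat_lit 4) (nat_lit 507) (nat_lit 394) (nat_lit 299)) (XT.lf (nat_lit 0) (nat_lit 20871765188) (nat_lit 76) (nat_lit 4141667385) (nat_lit 152) (nat_lit 2169556583) (nat_lit 73) (nat_lit 5) (nat_lit 74) (nat_lit 5) (nat_lit 75) (nat_lit 4) (nat_lit 508) (nat_lit 394) (nat_lit 298)))) (XT.nd (nat_lit 156) (nat_lit 228) (nat_lit 0) (XT.nd (nat_lit 78) (nat_lit 76) (nat_lit 0) (XT.lf (nat_lit 0) (nat_lit 5968105404) (nat_lit 228) (nat_lit 16971820657) (nat_lit 76) (nat_lit 4787353855) (nat_lit 70) (nat_lit 5) (nat_lit 73) (nat_lit 5) (nat_lit 71) (nat_lit 4) (nat_lit 509) (nat_lit 394) (nat_lit 297)) (XT.lf (nat_lit 0) (nat_lit 62629052) (nat_lit 76) (nat_lit 14321990273) (nat_lit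 152) (nat_lit 13900286173) (nat_lit 69) (nat_lit 5) (nat_lit 70) (nat_lit 5) (nat_lit 71) (nat_lit 4) (nat_lit 510) (nat_lit 394) (nat_lit 296))) (XT.nd (nat_lit 78) (nat_lit 228) (nat_lit 0) (XT.lf (nat_lit 0) (nat_lit 17903533464) (nat_lit 76) (nat_lit 5294135311) (nat_lit 152) (nat_lit 5657270224) (nat_lit 69) (nat_lit 5) (nat_lit 70) (nat_lit 5) (nat_lit 71) (nat_lit 4) (nat_lit 511) (nat_lit 394) (nat_lit 295)) (XT.lf (nat_lit 0) (nat_lit 2856390780) (nat_lit 228) (nat_lit 22585872220) (nat_lit 76) (nat_lit 3996634733) (nat_lit 66) (nat_lit 5) (nat_lit 69) (nat_lit 5) (nat_lit 67) (nat_lit 4) (nat_lit 512) (nat_lit 394) (nat_lit 294))))) (XT.nd (nat_lit 312) (nat_lit 304) (nat_lit 0) (XT.nd (nat_lit 156) (nat_lit 152) (nat_lit 0) (XT.nd (nat_lit 78) (nat_lit 76) (nat_lit 0) (XT.lf (nat_lit 0) (nat_lit 11649102673) (nat_lit 228) (nat_lit 4782045266) (nat_lit 76) (nat_lit 13603426838) (nat_lit 66) (nat_lit 5)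 (nat_lit 69) (nat_lit 5) (nat_lit 67) (nat_lit 4) (nat_lit 513) (nat_lit 394) (nat_lit 293)) (XT.lf (nat_lit 0) (nat_lit 13774645208) (nat_lit 76) (nat_lit 7037387006) (nat_lit 152) (nat_lit 9832897145) (nat_lit 65) (nat_lit 5) (nat_lit 66) (nat_lit 5) (nat_lit 67) (nat_lit 4) (nat_lit 514) (nat_lit 394) (nat_lit 292))) (XT.nd (nat_lit 78) (nat_lit 76) (nat_lit 0) (XT.lf (nat_lit 0) (nat_lit 1670583496) (nat_lit 76) (nat_lit 28643528880) (nat_lit 76) (nat_lit 957554626) (nat_lit 64) (nat_lit 4) (nat_lit 65) (nat_lit 5) (nat_lit 65) (nat_lit 4) (nat_lit 515) (nat_lit 394) (nat_lit 291)) (XT.lf (nat_lit 0) (nat_lit 8240169325) (nat_lit 152) (nat_lit 10998748455) (nat_lit 76) (nat_lit 12669454536) (nat_lit 63) (nat_lit 5) (nat_lit 65) (nat_lit 5) (nat_lit 64) (nat_lit 4) (nat_lit 516) (nat_lit 394) (nat_lit 290)))) (XT.nd (nat_lit 156) (nat_lit 228) (nat_lit 0) (XT.nd (nat_lit 78) (nat_lit 0) (nat_lit 0) (XT.lf (nat_lit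 0) (nat_lit 8264791600) (nat_lit 76) (nat_lit 9484088897) (nat_lit 152) (nat_lit 14813385108) (nat_lit 62) (nat_lit 5) (nat_lit 63) (nat_lit 5) (nat_lit 64) (nat_lit 4) (nat_lit 517) (nat_lit 394) (nat_lit 289)) (XT.lf (nat_lit 0) (nat_lit 27635334390) (nat_lit 152) (nat_lit 4955963159) (nat_lit 0) (nat_lit 641703974) (nat_lit 62) (nat_lit 5) (nat_lit 64) (nat_lit 4) (nat_lit 62) (nat_lit 4) (nat_lit 518) (nat_lit 394) (nat_lit 288))) (XT.nd (nat_lit 78) (nat_lit 76) (nat_lit 0) (XT.lf (nat_lit 0) (nat_lit 4035525929) (nat_lit 152) (nat_lit 18837334739) (nat_lit 76) (nat_lit 11043366019) (nat_lit 60) (nat_lit 5) (nat_lit 62) (nat_lit 5) (nat_lit 61) (nat_lit 4) (nat_lit 519) (nat_lit 394) (nat_lit 287)) (XT.lf (nat_lit 0) (nat_lit 1116498610) (nat_lit 76) (nat_lit 12765634192) (nat_lit 152) (nat_lit 20735045611) (nat_lit 59) (nat_lit 5) (nat_lit 60) (nat_lit 5) (nat_lit 61) (nat_lit 4) (nat_lit 520) (nat_lit 394)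 (nat_lit 286)))))) (XT.nd (nat_lit 624) (nat_lit 532) (nat_lit 0) (XT.nd (nat_lit 312) (nat_lit 228) (nat_lit 0) (XT.nd (nat_lit 156) (nat_lit 152) (nat_lit 0) (XT.nd (nat_lit 78) (nat_lit 76) (nat_lit 0) (XT.lf (nat_lit 0) (nat_lit 22008249453) (nat_lit 76) (nat_lit 2182019544) (nat_lit 152) (nat_lit 11143906000) (nat_lit 59) (nat_lit 5) (nat_lit 60) (nat_lit 5) (nat_lit 61) (nat_lit 4) (nat_lit 521) (nat_lit 394) (nat_lit 285)) (XT.lf (nat_lit 0) (nat_lit 7470056196) (nat_lit 76) (nat_lit 27469613416) (nat_lit 76) (nat_lit 1129051492) (nat_lit 58) (nat_lit 4) (nat_lit 59) (nat_lit 5) (nat_lit 59) (nat_lit 4) (nat_lit 522) (nat_lit 394) (nat_lit 284))) (XT.nd (nat_lit 78) (nat_lit 76) (nat_lit 0) (XT.lf (nat_lit 0) (nat_lit 9140912691) (nat_lit 152) (nat_lit 7815409498) (nat_lit 76) (nat_lit 19862314886) (nat_lit 57) (nat_lit 5) (nat_lit 59) (nat_lit 5) (nat_lit 58) (nat_lit 4) (nat_lit 523) (nat_lit 394) (nat_lit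 283)) (XT.lf (nat_lit 0) (nat_lit 13804899277) (nat_lit 76) (nat_lit 6001190312) (nat_lit 152) (nat_lit 17781331589) (nat_lit 56) (nat_lit 5) (nat_lit 57) (nat_lit 5) (nat_lit 58) (nat_lit 4) (nat_lit 524) (nat_lit 394) (nat_lit 282)))) (XT.nd (nat_lit 156) (nat_lit 76) (nat_lit 0) (XT.nd (nat_lit 78) (nat_lit 152) (nat_lit 0) (XT.lf (nat_lit 0) (nat_lit 30898843118) (nat_lit 152) (nat_lit 2239120275) (nat_lit 0) (nat_lit 5238076980) (nat_lit 56) (nat_lit 5) (nat_lit 58) (nat_lit 4) (nat_lit 56) (nat_lit 4) (nat_lit 525) (nat_lit 394) (nat_lit 281)) (XT.lf (nat_lit 0) (nat_lit 3308969951) (nat_lit 152) (nat_lit 18971011686) (nat_lit 76) (nat_lit 16900409189) (nat_lit 54) (nat_lit 5) (nat_lit 56) (nat_lit 5) (nat_lit 55) (nat_lit 4) (nat_lit 526) (nat_lit 394) (nat_lit 280))) (XT.nd (nat_lit 78) (nat_lit 0) (nat_lit 0) (XT.lf (nat_lit 0) (nat_lit 3316094770) (nat_lit 76) (nat_lit 10984875851) (nat_lit 152) (nat_lit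 25704704432) (nat_lit 53) (nat_lit 5) (nat_lit 54) (nat_lit 5) (nat_lit 55) (nat_lit 4) (nat_lit 527) (nat_lit 394) (nat_lit 279)) (XT.lf (nat_lit 0) (nat_lit 25800289984) (nat_lit 152) (nat_lit 14240834697) (nat_lit 0) (nat_lit 809266549) (nat_lit 53) (nat_lit 5) (nat_lit 55) (nat_lit 4) (nat_lit 53) (nat_lit 4) (nat_lit 528) (nat_lit 394) (nat_lit 278))))) (XT.nd (nat_lit 312) (nat_lit 304) (nat_lit 0) (XT.nd (nat_lit 156) (nat_lit 76) (nat_lit 0) (XT.nd (nat_lit 78) (nat_lit 76) (nat_lit 0) (XT.lf (nat_lit 0) (nat_lit 8904200635) (nat_lit 76) (nat_lit 28913239672) (nat_lit 76) (nat_lit 3897823225) (nat_lit 52) (nat_lit 4) (nat_lit 53) (nat_lit 5) (nat_lit 53) (nat_lit 4) (nat_lit 529) (nat_lit 394) (nat_lit 277)) (XT.lf (nat_lit 0) (nat_lit 7564673991) (nat_lit 152) (nat_lit 9682810779) (nat_lit 76) (nat_lit 25352696689) (nat_lit 51) (nat_lit 5) (nat_lit 53) (nat_lit 5) (nat_lit 52) (nat_lit 4) (nat_lit 530)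 (nat_lit 394) (nat_lit 276))) (XT.nd (nat_lit 78) (nat_lit 0) (nat_lit 0) (XT.lf (nat_lit 0) (nat_lit 14339562672) (nat_lit 76) (nat_lit 5070119302) (nat_lit 152) (nat_lit 24097298000) (nat_lit 50) (nat_lit 5) (nat_lit 51) (nat_lit 5) (nat_lit 52) (nat_lit 4) (nat_lit 531) (nat_lit 394) (nat_lit 275)) (XT.lf (nat_lit 0) (nat_lit 31759780696) (nat_lit 152) (nat_lit 5270729771) (nat_lit 0) (nat_lit 7405979921) (nat_lit 50) (nat_lit 5) (nat_lit 52) (nat_lit 4) (nat_lit 50) (nat_lit 4) (nat_lit 532) (nat_lit 394) (nat_lit 274)))) (XT.nd (nat_lit 156) (nat_lit 152) (nat_lit 0) (XT.nd (nat_lit 78) (nat_lit 76) (nat_lit 0) (XT.lf (nat_lit 0) (nat_lit 19636045543) (nat_lit 76) (nat_lit 25063060705) (nat_lit 76) (nat_lit 688218304) (nat_lit 49) (nat_lit 4) (nat_lit 50) (nat_lit 5) (nat_lit 50) (nat_lit 4) (nat_lit 533) (nat_lit 394) (nat_lit 273)) (XT.lf (nat_lit 0) (nat_lit 11465934799) (nat_lit 152) (nat_lit 1119423522)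 (nat_lit 76) (nat_lit 33776957071) (nat_lit 48) (nat_lit 5) (nat_lit 50) (nat_lit 5) (nat_lit 49) (nat_lit 4) (nat_lit 534) (nat_lit 394) (nat_lit 272))) (XT.nd (nat_lit 78) (nat_lit 76) (nat_lit 0) (XT.lf (nat_lit 0) (nat_lit 24193362908) (nat_lit 152) (nat_lit 22676936729) (nat_lit 0) (nat_lit 489377553) (nat_lit 47) (nat_lit 5) (nat_lit 49) (nat_lit 4) (nat_lit 47) (nat_lit 4) (nat_lit 535) (nat_lit 394) (nat_lit 271)) (XT.lf (nat_lit 0) (nat_lit 2786286796) (nat_lit 76) (nat_lit 34659528849) (nat_lit 76) (nat_lit 10936848280) (nat_lit 46) (nat_lit 4) (nat_lit 47) (nat_lit 5) (nat_lit 47) (nat_lit 4) (nat_lit 536) (nat_lit 394) (nat_lit 270))))))) (XT.nd (nat_lit 1248) (nat_lit 0) (nat_lit 0) (XT.nd (nat_lit 624) (nat_lit 456) (nat_lit 0) (XT.nd (nat_lit 312) (nat_lit 228) (nat_lit 0) (XT.nd (nat_lit 156) (nat_lit 76) (nat_lit 0) (XT.nd (nat_lit 78) (nat_lit 76) (nat_lit 0) (XT.lf (nat_lit 0) (nat_lit 1838784387)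 (nat_lit 152) (nat_lit 20008098954) (nat_lit 76) (nat_lit 27582628521) (nat_lit 45) (nat_lit 5) (nat_lit 47) (nat_lit 5) (nat_lit 46) (nat_lit 4) (nat_lit 537) (nat_lit 394) (nat_lit 269)) (XT.lf (nat_lit 0) (nat_lit 6325429118) (nat_lit 76) (nat_lit 8494217388) (nat_lit 152) (nat_lit 35683616879) (nat_lit 44) (nat_lit 5) (nat_lit 45) (nat_lit 5) (nat_lit 46) (nat_lit 4) (nat_lit 538) (nat_lit 394) (nat_lit 268))) (XT.nd (nat_lit 78) (nat_lit 76) (nat_lit 0) (XT.lf (nat_lit 0) (nat_lit 28425527211) (nat_lit 152) (nat_lit 17834175332) (nat_lit 0) (nat_lit 5342457251) (nat_lit 44) (nat_lit 5) (nat_lit 46) (nat_lit 4) (nat_lit 44) (nat_lit 4) (nat_lit 539) (nat_lit 394) (nat_lit 267)) (XT.lf (nat_lit 0) (nat_lit 9361905659) (nat_lit 76) (nat_lit 33233322429) (nat_lit 76) (nat_lit 10134125814) (nat_lit 43) (nat_lit 4) (nat_lit 44) (nat_lit 5) (nat_lit 44) (nat_lit 4) (nat_lit 540) (nat_lit 394) (nat_lit 266)))) (XT.nd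 (nat_lit 156) (nat_lit 76) (nat_lit 0) (XT.nd (nat_lit 78) (nat_lit 76) (nat_lit 0) (XT.lf (nat_lit 0) (nat_lit 3398700806) (nat_lit 152) (nat_lit 16215490924) (nat_lit 76) (nat_lit 34270317680) (nat_lit 42) (nat_lit 5) (nat_lit 44) (nat_lit 5) (nat_lit 43) (nat_lit 4) (nat_lit 541) (nat_lit 394) (nat_lit 265)) (XT.lf (nat_lit 0) (nat_lit 11846435806) (nat_lit 76) (nat_lit 5383362364) (nat_lit 152) (nat_lit 37838632230) (nat_lit 41) (nat_lit 5) (nat_lit 42) (nat_lit 5) (nat_lit 43) (nat_lit 4) (nat_lit 542) (nat_lit 394) (nat_lit 264))) (XT.nd (nat_lit 78) (nat_lit 76) (nat_lit 0) (XT.lf (nat_lit 0) (nat_lit 31712459672) (nat_lit 152) (nat_lit 15326542742) (nat_lit 0) (nat_lit 9241767775) (nat_lit 41) (nat_lit 5) (nat_lit 43) (nat_lit 4) (nat_lit 41) (nat_lit 4) (nat_lit 543) (nat_lit 394) (nat_lit 263)) (XT.lf (nat_lit 0) (nat_lit 13583124126) (nat_lit 76) (nat_lit 33212981943) (nat_lit 76) (nat_lit 10728379052)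 (nat_lit 40) (nat_lit 4) (nat_lit 41) (nat_lit 5) (nat_lit 41) (nat_lit 4) (nat_lit 544) (nat_lit 394) (nat_lit 262))))) (XT.nd (nat_lit 312) (nat_lit 228) (nat_lit 0) (XT.nd (nat_lit 156) (nat_lit 76) (nat_lit 0) (XT.nd (nat_lit 78) (nat_lit 76) (nat_lit 0) (XT.lf (nat_lit 0) (nat_lit 3596874321) (nat_lit 152) (nat_lit 15196453837) (nat_lit 76) (nat_lit 40006998096) (nat_lit 39) (nat_lit 5) (nat_lit 41) (nat_lit 5) (nat_lit 40) (nat_lit 4) (nat_lit 545) (nat_lit 394) (nat_lit 261)) (XT.lf (nat_lit 0) (nat_lit 14555193665) (nat_lit 76) (nat_lit 3704123980) (nat_lit 152) (nat_lit 41848246557) (nat_lit 38) (nat_lit 5) (nat_lit 39) (nat_lit 5) (nat_lit 40) (nat_lit 4) (nat_lit 546) (nat_lit 394) (nat_lit 260))) (XT.nd (nat_lit 78) (nat_lit 76) (nat_lit 0) (XT.lf (nat_lit 0) (nat_lit 33613563611) (nat_lit 152) (nat_lit 16087248536) (nat_lit 0) (nat_lit 11745649353) (nat_lit 38) (nat_lit 5) (nat_lit 40) (nat_lit 4)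 (nat_lit 38) (nat_lit 4) (nat_lit 547) (nat_lit 394) (nat_lit 259)) (XT.lf (nat_lit 0) (nat_lit 14475163983) (nat_lit 76) (nat_lit 35112745820) (nat_lit 76) (nat_lit 13232831815) (nat_lit 37) (nat_lit 4) (nat_lit 38) (nat_lit 5) (nat_lit 38) (nat_lit 4) (nat_lit 548) (nat_lit 394) (nat_lit 258)))) (XT.nd (nat_lit 156) (nat_lit 76) (nat_lit 0) (XT.nd (nat_lit 78) (nat_lit 76) (nat_lit 0) (XT.lf (nat_lit 0) (nat_lit 1917728819) (nat_lit 152) (nat_lit 17998574739) (nat_lit 76) (nat_lit 44314994498) (nat_lit 36) (nat_lit 5) (nat_lit 38) (nat_lit 5) (nat_lit 37) (nat_lit 4) (nat_lit 549) (nat_lit 394) (nat_lit 257)) (XT.lf (nat_lit 0) (nat_lit 13356949345) (nat_lit 76) (nat_lit 4012422328) (nat_lit 152) (nat_lit 48307493083) (nat_lit 35) (nat_lit 5) (nat_lit 36) (nat_lit 5) (nat_lit 37) (nat_lit 4) (nat_lit 550) (nat_lit 394) (nat_lit 256))) (XT.nd (nat_lit 78) (nat_lit 76) (nat_lit 0) (XT.lf (nat_lit 0) (nat_lit 33571158050)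 (nat_lit 152) (nat_lit 21290473563) (nat_lit 0) (nat_lit 12295569097) (nat_lit 35) (nat_lit 5) (nat_lit 37) (nat_lit 4) (nat_lit 35) (nat_lit 4) (nat_lit 551) (nat_lit 394) (nat_lit 255)) (XT.lf (nat_lit 0) (nat_lit 10810467907) (nat_lit 76) (nat_lit 39576785641) (nat_lit 76) (nat_lit 18290845603) (nat_lit 34) (nat_lit 4) (nat_lit 35) (nat_lit 5) (nat_lit 35) (nat_lit 4) (nat_lit 552) (nat_lit 394) (nat_lit 254)))))) (XT.nd (nat_lit 51870) (nat_lit 0) (nat_lit 23104) (XT.nd (nat_lit 51558) (nat_lit 0) (nat_lit 27968) (XT.nd (nat_lit 51402) (nat_lit 0) (nat_lit 29944) (XT.nd (nat_lit 51324) (nat_lit 0) (nat_lit 30476) (XT.lf (nat_lit 0) (nat_lit 44280563687) (nat_lit 76) (nat_lit 23627028875) (nat_lit 76) (nat_lit 2331039238) (nat_lit 34) (nat_lit 4) (nat_lit 35) (nat_lit 5) (nat_lit 35) (nat_lit 4) (nat_lit 553) (nat_lit 394) (nat_lit 253)) (XT.lf (nat_lit 0) (nat_lit 1687443332) (nat_lit 380) (nat_lit 793262825)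 (nat_lit 380) (nat_lit 793262825) (nat_lit 435) (nat_lit 4) (nat_lit 440) (nat_lit 5) (nat_lit 440) (nat_lit 4) (nat_lit 410) (nat_lit 395) (nat_lit 395))) (XT.nd (nat_lit 78) (nat_lit 0) (nat_lit 0) (XT.lf (nat_lit 0) (nat_lit 805962971) (nat_lit 456) (nat_lit 836190188) (nat_lit 532) (nat_lit 4928627802) (nat_lit 428) (nat_lit 5) (nat_lit 434) (nat_lit 5) (nat_lit 435) (nat_lit 4) (nat_lit 411) (nat_lit 395) (nat_lit 394)) (XT.lf (nat_lit 0) (nat_lit 4855253048) (nat_lit 532) (nat_lit 1722267169) (nat_lit 0) (nat_lit 18751848) (nat_lit 428) (nat_lit 5) (nat_lit 435) (nat_lit 4) (nat_lit 428) (nat_lit 4) (nat_lit 412) (nat_lit 395) (nat_lit 393)))) (XT.nd (nat_lit 156) (nat_lit 1368) (nat_lit 0) (XT.nd (nat_lit 78) (nat_lit 0) (nat_lit 0) (XT.lf (nat_lit 0) (nat_lit 1433653050) (nat_lit 608) (nat_lit 4239304834) (nat_lit 76) (nat_lit 951495910) (nat_lit 420) (nat_lit 5) (nat_lit 428) (nat_lit 5) (nat_lit 421)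 (nat_lit 4) (nat_lit 413) (nat_lit 395) (nat_lit 392)) (XT.lf (nat_lit 0) (nat_lit 4578443300) (nat_lit 608) (nat_lit 101127546) (nat_lit 76) (nat_lit 1976112901) (nat_lit 420) (nat_lit 5) (nat_lit 428) (nat_lit 5) (nat_lit 421) (nat_lit 4) (nat_lit 414) (nat_lit 395) (nat_lit 391))) (XT.nd (nat_lit 78) (nat_lit 684) (nat_lit 0) (XT.lf (nat_lit 0) (nat_lit 1042488054) (nat_lit 684) (nat_lit 2537060029) (nat_lit 76) (nat_lit 3109947644) (nat_lit 411) (nat_lit 5) (nat_lit 420) (nat_lit 5) (nat_lit 412) (nat_lit 5) (nat_lit 415) (nat_lit 395) (nat_lit 390)) (XT.lf (nat_lit 0) (nat_lit 1744085950) (nat_lit 684) (nat_lit 2384473829) (nat_lit 760) (nat_lit 2597724900) (nat_lit 402) (nat_lit 5) (nat_lit 411) (nat_lit 5) (nat_lit 412) (nat_lit 5) (nat_lit 416) (nat_lit 395) (nat_lit 389))))) (XT.nd (nat_lit 312) (nat_lit 3116) (nat_lit 0) (XT.nd (nat_lit 156) (nat_lit 912) (nat_lit 0) (XT.nd (nat_lit 78) (nat_lit 760)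 (nat_lit 0) (XT.lf (nat_lit 0) (nat_lit 456243462) (nat_lit 760) (nat_lit 645220309) (nat_lit 76) (nat_lit 5664856644) (nat_lit 401) (nat_lit 5) (nat_lit 411) (nat_lit 5) (nat_lit 402) (nat_lit 5) (nat_lit 417) (nat_lit 395) (nat_lit 388)) (XT.lf (nat_lit 0) (nat_lit 3489877029) (nat_lit 836) (nat_lit 3021105835) (nat_lit 76) (nat_lit 297608448) (nat_lit 391) (nat_lit 5) (nat_lit 402) (nat_lit 5) (nat_lit 392) (nat_lit 5) (nat_lit 418) (nat_lit 395) (nat_lit 387))) (XT.nd (nat_lit 78) (nat_lit 76) (nat_lit 0) (XT.lf (nat_lit 0) (nat_lit 1449847099) (nat_lit 836) (nat_lit 5099301136) (nat_lit 912) (nat_lit 304956276) (nat_lit 380) (nat_lit 5) (nat_lit 391) (nat_lit 5) (nat_lit 392) (nat_lit 5) (nat_lit 419) (nat_lit 395) (nat_lit 386)) (XT.lf (nat_lit 0) (nat_lit 2679696021) (nat_lit 912) (nat_lit 893471552) (nat_lit 76) (nat_lit 3328967456) (nat_lit 379) (nat_lit 5) (nat_lit 391) (nat_lit 5) (nat_lit 380) (nat_lit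 5) (nat_lit 420) (nat_lit 395) (nat_lit 385)))) (XT.nd (nat_lit 156) (nat_lit 1140) (nat_lit 0) (XT.nd (nat_lit 78) (nat_lit 1064) (nat_lit 0) (XT.lf (nat_lit 0) (nat_lit 3742005330) (nat_lit 912) (nat_lit 1948806215) (nat_lit 988) (nat_lit 1262424676) (nat_lit 367) (nat_lit 5) (nat_lit 379) (nat_lit 5) (nat_lit 380) (nat_lit 5) (nat_lit 421) (nat_lit 395) (nat_lit 384)) (XT.lf (nat_lit 0) (nat_lit 1458784249) (nat_lit 988) (nat_lit 223990536) (nat_lit 1064) (nat_lit 5324654442) (nat_lit 353) (nat_lit 5) (nat_lit 366) (nat_lit 5) (nat_lit 367) (nat_lit 5) (nat_lit 422) (nat_lit 395) (nat_lit 383))) (XT.nd (nat_lit 78) (nat_lit 1140) (nat_lit 0) (XT.lf (nat_lit 0) (nat_lit 4648724942) (nat_lit 1064) (nat_lit 838972987) (nat_lit 76) (nat_lit 1576452986) (nat_lit 353) (nat_lit 5) (nat_lit 367) (nat_lit 5) (nat_lit 354) (nat_lit 5) (nat_lit 423) (nat_lit 395) (nat_lit 382)) (XT.lf (nat_lit 0) (nat_lit 522716121) (nat_lit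 1140) (nat_lit 3122392109) (nat_lit 76) (nat_lit 3478719471) (nat_lit 338) (nat_lit 5) (nat_lit 353) (nat_lit 5) (nat_lit 339) (nat_lit 5) (nat_lit 424) (nat_lit 395) (nat_lit 381))))))))
noncomputable def xc84 : XT := (XT.nd (nat_lit 2418) (nat_lit 5472) (nat_lit 0) (XT.nd (nat_lit 1170) (nat_lit 4560) (nat_lit 0) (XT.nd (nat_lit 546) (nat_lit 3344) (nat_lit 0) (XT.nd (nat_lit 234) (nat_lit 2128) (nat_lit 0) (XT.nd (nat_lit 78) (nat_lit 1292) (nat_lit 0) (XT.lf (nat_lit 0) (nat_lit 1747132429) (nat_lit 1140) (nat_lit 1692299282) (nat_lit 1216) (nat_lit 3746986308) (nat_lit 323) (nat_lit 5) (nat_lit 338) (nat_lit 5) (nat_lit 339) (nat_lit 5) (nat_lit 425) (nat_lit 395) (nat_lit 380)) (XT.nd (nat_lit 78) (nat_lit 1292) (nat_lit 0) (XT.lf (nat_lit 0) (nat_lit 6393949841) (nat_lit 1216) (nat_lit 510521008) (nat_lit 76) (nat_lit 347915865) (nat_lit 323) (nat_lit 5) (nat_lit 339) (nat_lit 5) (nat_lit 324) (nat_lit 5)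 (nat_lit 426) (nat_lit 395) (nat_lit 379)) (XT.lf (nat_lit 0) (nat_lit 2053654000) (nat_lit 1292) (nat_lit 2784360258) (nat_lit 76) (nat_lit 2482373200) (nat_lit 306) (nat_lit 5) (nat_lit 323) (nat_lit 5) (nat_lit 307) (nat_lit 5) (nat_lit 427) (nat_lit 395) (nat_lit 378)))) (XT.nd (nat_lit 156) (nat_lit 608) (nat_lit 0) (XT.nd (nat_lit 78) (nat_lit 684) (nat_lit 0) (XT.lf (nat_lit 0) (nat_lit 2308323355) (nat_lit 836) (nat_lit 2673592175) (nat_lit 912) (nat_lit 2409884739) (nat_lit 295) (nat_lit 5) (nat_lit 306) (nat_lit 5) (nat_lit 307) (nat_lit 5) (nat_lit 428) (nat_lit 395) (nat_lit 377)) (XT.lf (nat_lit 0) (nat_lit 58966479) (nat_lit 608) (nat_lit 411724011) (nat_lit 684) (nat_lit 6996067269) (nat_lit 286) (nat_lit 5) (nat_lit 294) (nat_lit 5) (nat_lit 295) (nat_lit 5) (nat_lit 429) (nat_lit 395) (nat_lit 376))) (XT.nd (nat_lit 78) (nat_lit 608) (nat_lit 0) (XT.lf (nat_lit 0) (nat_lit 3380501296) (nat_lit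 684) (nat_lit 2210008388) (nat_lit 76) (nat_lit 1953008967) (nat_lit 286) (nat_lit 5) (nat_lit 295) (nat_lit 5) (nat_lit 287) (nat_lit 5) (nat_lit 430) (nat_lit 395) (nat_lit 375)) (XT.lf (nat_lit 0) (nat_lit 3118278031) (nat_lit 608) (nat_lit 3216657556) (nat_lit 684) (nat_lit 1288934792) (nat_lit 278) (nat_lit 5) (nat_lit 286) (nat_lit 5) (nat_lit 287) (nat_lit 5) (nat_lit 431) (nat_lit 395) (nat_lit 374))))) (XT.nd (nat_lit 312) (nat_lit 1520) (nat_lit 0) (XT.nd (nat_lit 156) (nat_lit 1216) (nat_lit 0) (XT.nd (nat_lit 78) (nat_lit 0) (nat_lit 0) (XT.lf (nat_lit 0) (nat_lit 863396831) (nat_lit 532) (nat_lit 730173498) (nat_lit 608) (nat_lit 6113943342) (nat_lit 270) (nat_lit 5) (nat_lit 277) (nat_lit 5) (nat_lit 278) (nat_lit 5) (nat_lit 432) (nat_lit 395) (nat_lit 373)) (XT.lf (nat_lit 0) (nat_lit 4525522386) (nat_lit 608) (nat_lit 1421574329) (nat_lit 76) (nat_lit 1846527567) (nat_lit 270) (nat_lit 5) (nat_lit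 278) (nat_lit 5) (nat_lit 271) (nat_lit 5) (nat_lit 433) (nat_lit 395) (nat_lit 372))) (XT.nd (nat_lit 78) (nat_lit 608) (nat_lit 0) (XT.lf (nat_lit 0) (nat_lit 4155685138) (nat_lit 608) (nat_lit 3364429335) (nat_lit 684) (nat_lit 362970301) (nat_lit 262) (nat_lit 5) (nat_lit 270) (nat_lit 5) (nat_lit 271) (nat_lit 5) (nat_lit 434) (nat_lit 395) (nat_lit 371)) (XT.lf (nat_lit 0) (nat_lit 1883484583) (nat_lit 532) (nat_lit 655252182) (nat_lit 608) (nat_lit 5436918816) (nat_lit 254) (nat_lit 5) (nat_lit 261) (nat_lit 5) (nat_lit 262) (nat_lit 5) (nat_lit 435) (nat_lit 395) (nat_lit 370)))) (XT.nd (nat_lit 156) (nat_lit 912) (nat_lit 0) (XT.nd (nat_lit 78) (nat_lit 608) (nat_lit 0) (XT.lf (nat_lit 0) (nat_lit 5508065134) (nat_lit 608) (nat_lit 438927769) (nat_lit 76) (nat_lit 2124273243) (nat_lit 254) (nat_lit 5) (nat_lit 262) (nat_lit 5) (nat_lit 255) (nat_lit 5) (nat_lit 436) (nat_lit 395) (nat_lit 369)) (XT.lf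 (nat_lit 0) (nat_lit 378677633) (nat_lit 608) (nat_lit 2772168700) (nat_lit 76) (nat_lit 5019099605) (nat_lit 246) (nat_lit 5) (nat_lit 254) (nat_lit 5) (nat_lit 247) (nat_lit 5) (nat_lit 437) (nat_lit 395) (nat_lit 368))) (XT.nd (nat_lit 78) (nat_lit 456) (nat_lit 0) (XT.lf (nat_lit 0) (nat_lit 3100413228) (nat_lit 456) (nat_lit 223099894) (nat_lit 532) (nat_lit 4948330973) (nat_lit 240) (nat_lit 5) (nat_lit 246) (nat_lit 5) (nat_lit 247) (nat_lit 5) (nat_lit 438) (nat_lit 395) (nat_lit 367)) (XT.lf (nat_lit 0) (nat_lit 734383876) (nat_lit 456) (nat_lit 5617489782) (nat_lit 532) (nat_lit 2025075836) (nat_lit 234) (nat_lit 5) (nat_lit 240) (nat_lit 5) (nat_lit 241) (nat_lit 5) (nat_lit 439) (nat_lit 395) (nat_lit 366)))))) (XT.nd (nat_lit 624) (nat_lit 2204) (nat_lit 0) (XT.nd (nat_lit 312) (nat_lit 1292) (nat_lit 0) (XT.nd (nat_lit 156) (nat_lit 532) (nat_lit 0) (XT.nd (nat_lit 78) (nat_lit 456) (nat_lit 0) (XT.lf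 (nat_lit 0) (nat_lit 955098485) (nat_lit 532) (nat_lit 1655844467) (nat_lit 76) (nat_lit 5874332380) (nat_lit 233) (nat_lit 5) (nat_lit 240) (nat_lit 5) (nat_lit 234) (nat_lit 5) (nat_lit 440) (nat_lit 395) (nat_lit 365)) (XT.lf (nat_lit 0) (nat_lit 3967793644) (nat_lit 532) (nat_lit 4104801670) (nat_lit 76) (nat_lit 524144811) (nat_lit 227) (nat_lit 5) (nat_lit 234) (nat_lit 5) (nat_lit 228) (nat_lit 5) (nat_lit 441) (nat_lit 395) (nat_lit 364))) (XT.nd (nat_lit 78) (nat_lit 76) (nat_lit 0) (XT.lf (nat_lit 0) (nat_lit 2079709074) (nat_lit 456) (nat_lit 4990286959) (nat_lit 532) (nat_lit 1641584098) (nat_lit 221) (nat_lit 5) (nat_lit 227) (nat_lit 5) (nat_lit 228) (nat_lit 5) (nat_lit 442) (nat_lit 395) (nat_lit 363)) (XT.lf (nat_lit 0) (nat_lit 1386096825) (nat_lit 532) (nat_lit 391297122) (nat_lit 76) (nat_lit 7052700997) (nat_lit 220) (nat_lit 5) (nat_lit 227) (nat_lit 5) (nat_lit 221) (nat_lit 5) (nat_lit 443)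 (nat_lit 395) (nat_lit 362)))) (XT.nd (nat_lit 156) (nat_lit 456) (nat_lit 0) (XT.nd (nat_lit 78) (nat_lit 456) (nat_lit 0) (XT.lf (nat_lit 0) (nat_lit 4483821633) (nat_lit 456) (nat_lit 2908561850) (nat_lit 76) (nat_lit 1558932522) (nat_lit 215) (nat_lit 5) (nat_lit 221) (nat_lit 5) (nat_lit 216) (nat_lit 5) (nat_lit 444) (nat_lit 395) (nat_lit 361)) (XT.lf (nat_lit 0) (nat_lit 3573064245) (nat_lit 456) (nat_lit 4096877943) (nat_lit 532) (nat_lit 1406372088) (nat_lit 209) (nat_lit 5) (nat_lit 215) (nat_lit 5) (nat_lit 216) (nat_lit 5) (nat_lit 445) (nat_lit 395) (nat_lit 360))) (XT.nd (nat_lit 78) (nat_lit 0) (nat_lit 0) (XT.lf (nat_lit 0) (nat_lit 1026304755) (nat_lit 380) (nat_lit 665651993) (nat_lit 456) (nat_lit 7513222657) (nat_lit 203) (nat_lit 5) (nat_lit 208) (nat_lit 5) (nat_lit 209) (nat_lit 5) (nat_lit 446) (nat_lit 395) (nat_lit 359)) (XT.lf (nat_lit 0) (nat_lit 4879364405) (nat_lit 456) (nat_lit 1595732653)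 (nat_lit 76) (nat_lit 2861667942) (nat_lit 203) (nat_lit 5) (nat_lit 209) (nat_lit 5) (nat_lit 204) (nat_lit 5) (nat_lit 447) (nat_lit 395) (nat_lit 358))))) (XT.nd (nat_lit 312) (nat_lit 1064) (nat_lit 0) (XT.nd (nat_lit 156) (nat_lit 380) (nat_lit 0) (XT.nd (nat_lit 78) (nat_lit 380) (nat_lit 0) (XT.lf (nat_lit 0) (nat_lit 5200177308) (nat_lit 380) (nat_lit 2961221588) (nat_lit 456) (nat_lit 1310933126) (nat_lit 198) (nat_lit 5) (nat_lit 203) (nat_lit 5) (nat_lit 204) (nat_lit 5) (nat_lit 448) (nat_lit 395) (nat_lit 357)) (XT.lf (nat_lit 0) (nat_lit 1882750135) (nat_lit 380) (nat_lit 7045883777) (nat_lit 76) (nat_lit 683064909) (nat_lit 193) (nat_lit 5) (nat_lit 198) (nat_lit 5) (nat_lit 194) (nat_lit 5) (nat_lit 449) (nat_lit 395) (nat_lit 356))) (XT.nd (nat_lit 78) (nat_lit 380) (nat_lit 0) (XT.lf (nat_lit 0) (nat_lit 5162248572) (nat_lit 380) (nat_lit 180840285) (nat_lit 76) (nat_lit 4411281444) (nat_lit 193)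 (nat_lit 5) (nat_lit 198) (nat_lit 5) (nat_lit 194) (nat_lit 5) (nat_lit 450) (nat_lit 395) (nat_lit 355)) (XT.lf (nat_lit 0) (nat_lit 6947411832) (nat_lit 380) (nat_lit 1604616097) (nat_lit 456) (nat_lit 1348940668) (nat_lit 188) (nat_lit 5) (nat_lit 193) (nat_lit 5) (nat_lit 194) (nat_lit 5) (nat_lit 451) (nat_lit 395) (nat_lit 354)))) (XT.nd (nat_lit 156) (nat_lit 380) (nat_lit 0) (XT.nd (nat_lit 78) (nat_lit 304) (nat_lit 0) (XT.lf (nat_lit 0) (nat_lit 1962537498) (nat_lit 380) (nat_lit 5847748547) (nat_lit 76) (nat_lit 2240811914) (nat_lit 183) (nat_lit 5) (nat_lit 188) (nat_lit 5) (nat_lit 184) (nat_lit 5) (nat_lit 452) (nat_lit 395) (nat_lit 353)) (XT.lf (nat_lit 0) (nat_lit 1348195383) (nat_lit 304) (nat_lit 4003056771) (nat_lit 380) (nat_lit 4853931488) (nat_lit 179) (nat_lit 5) (nat_lit 183) (nat_lit 5) (nat_lit 184) (nat_lit 5) (nat_lit 453) (nat_lit 395) (nat_lit 352))) (XT.nd (nat_lit 78) (nat_lit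 380) (nat_lit 0) (XT.lf (nat_lit 0) (nat_lit 8801421990) (nat_lit 304) (nat_lit 46111619) (nat_lit 380) (nat_lit 1516184279) (nat_lit 179) (nat_lit 5) (nat_lit 183) (nat_lit 5) (nat_lit 184) (nat_lit 5) (nat_lit 454) (nat_lit 395) (nat_lit 351)) (XT.lf (nat_lit 0) (nat_lit 1928736351) (nat_lit 380) (nat_lit 4593464272) (nat_lit 76) (nat_lit 4002920131) (nat_lit 174) (nat_lit 5) (nat_lit 179) (nat_lit 5) (nat_lit 175) (nat_lit 5) (nat_lit 455) (nat_lit 395) (nat_lit 350))))))) (XT.nd (nat_lit 1170) (nat_lit 2280) (nat_lit 0) (XT.nd (nat_lit 546) (nat_lit 1596) (nat_lit 0) (XT.nd (nat_lit 234) (nat_lit 912) (nat_lit 0) (XT.nd (nat_lit 78) (nat_lit 380) (nat_lit 0) (XT.lf (nat_lit 0) (nat_lit 2955847947) (nat_lit 304) (nat_lit 2483914893) (nat_lit 380) (nat_lit 5251358439) (nat_lit 170) (nat_lit 5) (nat_lit 174) (nat_lit 5) (nat_lit 175) (nat_lit 5) (nat_lit 456) (nat_lit 395) (nat_lit 349)) (XT.nd (nat_lit 78) (nat_lit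 380) (nat_lit 0) (XT.lf (nat_lit 0) (nat_lit 9068010241) (nat_lit 380) (nat_lit 129754774) (nat_lit 76) (nat_lit 1663982903) (nat_lit 170) (nat_lit 5) (nat_lit 175) (nat_lit 5) (nat_lit 171) (nat_lit 5) (nat_lit 457) (nat_lit 395) (nat_lit 348)) (XT.lf (nat_lit 0) (nat_lit 1783169964) (nat_lit 380) (nat_lit 3298834011) (nat_lit 76) (nat_lit 5953480761) (nat_lit 165) (nat_lit 5) (nat_lit 170) (nat_lit 5) (nat_lit 166) (nat_lit 5) (nat_lit 458) (nat_lit 395) (nat_lit 347)))) (XT.nd (nat_lit 156) (nat_lit 380) (nat_lit 0) (XT.nd (nat_lit 78) (nat_lit 228) (nat_lit 0) (XT.lf (nat_lit 0) (nat_lit 4623523146) (nat_lit 304) (nat_lit 804237861) (nat_lit 380) (nat_lit 5786249565) (nat_lit 161) (nat_lit 5) (nat_lit 165) (nat_lit 5) (nat_lit 166) (nat_lit 5) (nat_lit 459) (nat_lit 395) (nat_lit 346)) (XT.lf (nat_lit 0) (nat_lit 1369353755) (nat_lit 228) (nat_lit 7844878249) (nat_lit 304) (nat_lit 2182686404) (nat_lit 158)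 (nat_lit 5) (nat_lit 161) (nat_lit 5) (nat_lit 162) (nat_lit 5) (nat_lit 460) (nat_lit 395) (nat_lit 345))) (XT.nd (nat_lit 78) (nat_lit 304) (nat_lit 0) (XT.lf (nat_lit 0) (nat_lit 1525648957) (nat_lit 304) (nat_lit 1980461738) (nat_lit 76) (nat_lit 8077969167) (nat_lit 157) (nat_lit 5) (nat_lit 161) (nat_lit 5) (nat_lit 158) (nat_lit 5) (nat_lit 461) (nat_lit 395) (nat_lit 344)) (XT.lf (nat_lit 0) (nat_lit 5324819038) (nat_lit 380) (nat_lit 5450213478) (nat_lit 76) (nat_lit 1000473964) (nat_lit 153) (nat_lit 5) (nat_lit 158) (nat_lit 5) (nat_lit 154) (nat_lit 5) (nat_lit 462) (nat_lit 395) (nat_lit 343))))) (XT.nd (nat_lit 312) (nat_lit 836) (nat_lit 0) (XT.nd (nat_lit 156) (nat_lit 456) (nat_lit 0) (XT.nd (nat_lit 78) (nat_lit 76) (nat_lit 0) (XT.lf (nat_lit 0) (nat_lit 2895247823) (nat_lit 228) (nat_lit 6378606879) (nat_lit 304) (nat_lit 2697746693) (nat_lit 150) (nat_lit 5) (nat_lit 153) (nat_lit 5) (nat_lit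 154) (nat_lit 5) (nat_lit 463) (nat_lit 395) (nat_lit 342)) (XT.lf (nat_lit 0) (nat_lit 1153915283) (nat_lit 304) (nat_lit 656174969) (nat_lit 76) (nat_lit 10362886608) (nat_lit 149) (nat_lit 5) (nat_lit 153) (nat_lit 5) (nat_lit 150) (nat_lit 5) (nat_lit 464) (nat_lit 395) (nat_lit 341))) (XT.nd (nat_lit 78) (nat_lit 228) (nat_lit 0) (XT.lf (nat_lit 0) (nat_lit 5127818290) (nat_lit 304) (nat_lit 4332846217) (nat_lit 76) (nat_lit 2917102399) (nat_lit 146) (nat_lit 5) (nat_lit 150) (nat_lit 5) (nat_lit 147) (nat_lit 5) (nat_lit 465) (nat_lit 395) (nat_lit 340)) (XT.lf (nat_lit 0) (nat_lit 4426956065) (nat_lit 228) (nat_lit 4816206323) (nat_lit 304) (nat_lit 3344873512) (nat_lit 143) (nat_lit 5) (nat_lit 146) (nat_lit 5) (nat_lit 147) (nat_lit 5) (nat_lit 466) (nat_lit 395) (nat_lit 339)))) (XT.nd (nat_lit 156) (nat_lit 532) (nat_lit 0) (XT.nd (nat_lit 78) (nat_lit 0) (nat_lit 0) (XT.lf (nat_lit 0) (nat_lit 667539159)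 (nat_lit 228) (nat_lit 2425527) (nat_lit 304) (nat_lit 12134279941) (nat_lit 139) (nat_lit 5) (nat_lit 142) (nat_lit 5) (nat_lit 143) (nat_lit 5) (nat_lit 467) (nat_lit 395) (nat_lit 338)) (XT.lf (nat_lit 0) (nat_lit 4824436687) (nat_lit 304) (nat_lit 3251670720) (nat_lit 76) (nat_lit 4947247964) (nat_lit 139) (nat_lit 5) (nat_lit 143) (nat_lit 5) (nat_lit 140) (nat_lit 5) (nat_lit 468) (nat_lit 395) (nat_lit 337))) (XT.nd (nat_lit 78) (nat_lit 304) (nat_lit 0) (XT.lf (nat_lit 0) (nat_lit 5944092488) (nat_lit 228) (nat_lit 3173459777) (nat_lit 304) (nat_lit 4131068634) (nat_lit 136) (nat_lit 5) (nat_lit 139) (nat_lit 5) (nat_lit 140) (nat_lit 5) (nat_lit 469) (nat_lit 395) (nat_lit 336)) (XT.lf (nat_lit 0) (nat_lit 85026662) (nat_lit 304) (nat_lit 11530335028) (nat_lit 76) (nat_lit 1864446665) (nat_lit 132) (nat_lit 5) (nat_lit 136) (nat_lit 5) (nat_lit 133) (nat_lit 5) (nat_lit 470) (nat_lit 395) (nat_lit 335))))))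 (XT.nd (nat_lit 624) (nat_lit 1216) (nat_lit 0) (XT.nd (nat_lit 312) (nat_lit 608) (nat_lit 0) (XT.nd (nat_lit 156) (nat_lit 304) (nat_lit 0) (XT.nd (nat_lit 78) (nat_lit 152) (nat_lit 0) (XT.lf (nat_lit 0) (nat_lit 4407774874) (nat_lit 304) (nat_lit 2230175512) (nat_lit 76) (nat_lit 7076859582) (nat_lit 132) (nat_lit 5) (nat_lit 136) (nat_lit 5) (nat_lit 133) (nat_lit 5) (nat_lit 471) (nat_lit 395) (nat_lit 334)) (XT.lf (nat_lit 0) (nat_lit 7423720927) (nat_lit 152) (nat_lit 1466378307) (nat_lit 228) (nat_lit 5065867137) (nat_lit 130) (nat_lit 5) (nat_lit 132) (nat_lit 5) (nat_lit 133) (nat_lit 5) (nat_lit 472) (nat_lit 395) (nat_lit 333))) (XT.nd (nat_lit 78) (nat_lit 76) (nat_lit 0) (XT.lf (nat_lit 0) (nat_lit 3163265545) (nat_lit 228) (nat_lit 10392684854) (nat_lit 304) (nat_lit 646936861) (nat_lit 127) (nat_lit 5) (nat_lit 130) (nat_lit 5) (nat_lit 131) (nat_lit 5) (nat_lit 473) (nat_lit 395) (nat_lit 332))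 (XT.lf (nat_lit 0) (nat_lit 3868428167) (nat_lit 304) (nat_lit 1294922886) (nat_lit 76) (nat_lit 9291538384) (nat_lit 126) (nat_lit 5) (nat_lit 130) (nat_lit 5) (nat_lit 127) (nat_lit 5) (nat_lit 474) (nat_lit 395) (nat_lit 331)))) (XT.nd (nat_lit 156) (nat_lit 228) (nat_lit 0) (XT.nd (nat_lit 78) (nat_lit 228) (nat_lit 0) (XT.lf (nat_lit 0) (nat_lit 8554117153) (nat_lit 228) (nat_lit 5875947188) (nat_lit 76) (nat_lit 282760585) (nat_lit 124) (nat_lit 5) (nat_lit 127) (nat_lit 5) (nat_lit 125) (nat_lit 5) (nat_lit 475) (nat_lit 395) (nat_lit 330)) (XT.lf (nat_lit 0) (nat_lit 4284718008) (nat_lit 228) (nat_lit 9161531244) (nat_lit 304) (nat_lit 1530274393) (nat_lit 121) (nat_lit 5) (nat_lit 124) (nat_lit 5) (nat_lit 125) (nat_lit 5) (nat_lit 476) (nat_lit 395) (nat_lit 329))) (XT.nd (nat_lit 78) (nat_lit 152) (nat_lit 0) (XT.lf (nat_lit 0) (nat_lit 3194238232) (nat_lit 304) (nat_lit 476228285) (nat_lit 76) (nat_lit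 11576122824) (nat_lit 120) (nat_lit 5) (nat_lit 124) (nat_lit 5) (nat_lit 121) (nat_lit 5) (nat_lit 477) (nat_lit 395) (nat_lit 328)) (XT.lf (nat_lit 0) (nat_lit 8108962350) (nat_lit 228) (nat_lit 5380308445) (nat_lit 76) (nat_lit 2032655909) (nat_lit 118) (nat_lit 5) (nat_lit 121) (nat_lit 5) (nat_lit 119) (nat_lit 5) (nat_lit 478) (nat_lit 395) (nat_lit 327))))) (XT.nd (nat_lit 312) (nat_lit 608) (nat_lit 0) (XT.nd (nat_lit 156) (nat_lit 152) (nat_lit 0) (XT.nd (nat_lit 78) (nat_lit 228) (nat_lit 0) (XT.lf (nat_lit 0) (nat_lit 5282032738) (nat_lit 228) (nat_lit 7942897884) (nat_lit 304) (nat_lit 2578980681) (nat_lit 115) (nat_lit 5) (nat_lit 118) (nat_lit 5) (nat_lit 119) (nat_lit 5) (nat_lit 479) (nat_lit 395) (nat_lit 326)) (XT.lf (nat_lit 0) (nat_lit 194869897) (nat_lit 152) (nat_lit 2176991022) (nat_lit 228) (nat_lit 13721243382) (nat_lit 112) (nat_lit 5) (nat_lit 114) (nat_lit 5) (nat_lit 115) (nat_lit 5)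 (nat_lit 480) (nat_lit 395) (nat_lit 325))) (XT.nd (nat_lit 78) (nat_lit 152) (nat_lit 0) (XT.lf (nat_lit 0) (nat_lit 7524978821) (nat_lit 228) (nat_lit 5069051975) (nat_lit 76) (nat_lit 3793009769) (nat_lit 112) (nat_lit 5) (nat_lit 115) (nat_lit 5) (nat_lit 113) (nat_lit 5) (nat_lit 481) (nat_lit 395) (nat_lit 324)) (XT.lf (nat_lit 0) (nat_lit 6117458866) (nat_lit 152) (nat_lit 6758815824) (nat_lit 228) (nat_lit 3812213749) (nat_lit 110) (nat_lit 5) (nat_lit 112) (nat_lit 5) (nat_lit 113) (nat_lit 5) (nat_lit 482) (nat_lit 395) (nat_lit 323)))) (XT.nd (nat_lit 156) (nat_lit 380) (nat_lit 0) (XT.nd (nat_lit 78) (nat_lit 0) (nat_lit 0) (XT.lf (nat_lit 0) (nat_lit 679983834) (nat_lit 152) (nat_lit 703583207) (nat_lit 228) (nat_lit 15614366782) (nat_lit 107) (nat_lit 5) (nat_lit 109) (nat_lit 5) (nat_lit 110) (nat_lit 5) (nat_lit 483) (nat_lit 395) (nat_lit 322)) (XT.lf (nat_lit 0) (nat_lit 6783077022) (nat_lit 228)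 (nat_lit 4985856321) (nat_lit 76) (nat_lit 5542863527) (nat_lit 107) (nat_lit 5) (nat_lit 110) (nat_lit 5) (nat_lit 108) (nat_lit 5) (nat_lit 484) (nat_lit 395) (nat_lit 321))) (XT.nd (nat_lit 78) (nat_lit 228) (nat_lit 0) (XT.lf (nat_lit 0) (nat_lit 6747178831) (nat_lit 152) (nat_lit 5633765606) (nat_lit 228) (nat_lit 5253041145) (nat_lit 105) (nat_lit 5) (nat_lit 107) (nat_lit 5) (nat_lit 108) (nat_lit 5) (nat_lit 485) (nat_lit 395) (nat_lit 320)) (XT.lf (nat_lit 0) (nat_lit 208637389) (nat_lit 228) (nat_lit 17049944474) (nat_lit 76) (nat_lit 706269019) (nat_lit 102) (nat_lit 5) (nat_lit 105) (nat_lit 5) (nat_lit 103) (nat_lit 5) (nat_lit 486) (nat_lit 395) (nat_lit 319))))))))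
noncomputable def xc85 : XT := (XT.nd (nat_lit 2418) (nat_lit 1976) (nat_lit 0) (XT.nd (nat_lit 1170) (nat_lit 1444) (nat_lit 0) (XT.nd (nat_lit 546) (nat_lit 760) (nat_lit 0) (XT.nd (nat_lit 234) (nat_lit 456) (nat_lit 0) (XT.nd (nat_lit 78) (nat_lit 304) (nat_lit 0) (XT.lf (nat_lit 0) (nat_lit 5860167231) (nat_lit 228) (nat_lit 5181332652) (nat_lit 76) (nat_lit 7258635351) (nat_lit 102) (nat_lit 5) (nat_lit 105) (nat_lit 5) (nat_lit 103) (nat_lit 5) (nat_lit 487) (nat_lit 395) (nat_lit 318)) (XT.nd (nat_lit 78) (nat_lit 152) (nat_lit 0) (XT.lf (nat_lit 0) (nat_lit 7120190942) (nat_lit 152) (nat_lit 4595299684) (nat_lit 228) (nat_lit 6928960895) (nat_lit 100) (nat_lit 5) (nat_lit 102) (nat_lit 5) (nat_lit 103) (nat_lit 5) (nat_lit 488) (nat_lit 395) (nat_lit 317)) (XT.lf (nat_lit 0) (nat_lit 833309894) (nat_lit 152) (nat_lit 16959607290) (nat_lit 228) (nat_lit 1204787620) (nat_lit 98) (nat_lit 5) (nat_lit 100)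 (nat_lit 5) (nat_lit 101) (nat_lit 4) (nat_lit 489) (nat_lit 395) (nat_lit 316)))) (XT.nd (nat_lit 156) (nat_lit 228) (nat_lit 0) (XT.nd (nat_lit 78) (nat_lit 152) (nat_lit 0) (XT.lf (nat_lit 0) (nat_lit 4728601590) (nat_lit 228) (nat_lit 5714259067) (nat_lit 76) (nat_lit 8913472039) (nat_lit 97) (nat_lit 5) (nat_lit 100) (nat_lit 5) (nat_lit 98) (nat_lit 5) (nat_lit 490) (nat_lit 395) (nat_lit 315)) (XT.lf (nat_lit 0) (nat_lit 7177022166) (nat_lit 152) (nat_lit 3674743794) (nat_lit 228) (nat_lit 8872516693) (nat_lit 95) (nat_lit 5) (nat_lit 97) (nat_lit 5) (nat_lit 98) (nat_lit 5) (nat_lit 491) (nat_lit 395) (nat_lit 314))) (XT.nd (nat_lit 78) (nat_lit 76) (nat_lit 0) (XT.lf (nat_lit 0) (nat_lit 385294760) (nat_lit 152) (nat_lit 16834117479) (nat_lit 228) (nat_lit 2882035980) (nat_lit 93) (nat_lit 5) (nat_lit 95) (nat_lit 5) (nat_lit 96) (nat_lit 4) (nat_lit 492) (nat_lit 395) (nat_lit 313)) (XT.lf (nat_lit 0)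 (nat_lit 3355516449) (nat_lit 228) (nat_lit 6653003808) (nat_lit 76) (nat_lit 10476515306) (nat_lit 92) (nat_lit 5) (nat_lit 95) (nat_lit 5) (nat_lit 93) (nat_lit 5) (nat_lit 493) (nat_lit 395) (nat_lit 312))))) (XT.nd (nat_lit 312) (nat_lit 304) (nat_lit 0) (XT.nd (nat_lit 156) (nat_lit 304) (nat_lit 0) (XT.nd (nat_lit 78) (nat_lit 0) (nat_lit 0) (XT.lf (nat_lit 0) (nat_lit 6848242639) (nat_lit 152) (nat_lit 2907992466) (nat_lit 228) (nat_lit 11122021058) (nat_lit 90) (nat_lit 5) (nat_lit 92) (nat_lit 5) (nat_lit 93) (nat_lit 5) (nat_lit 494) (nat_lit 395) (nat_lit 311)) (XT.lf (nat_lit 0) (nat_lit 16427417498) (nat_lit 228) (nat_lit 492372237) (nat_lit 76) (nat_lit 4361131020) (nat_lit 90) (nat_lit 5) (nat_lit 93) (nat_lit 5) (nat_lit 91) (nat_lit 4) (nat_lit 495) (nat_lit 395) (nat_lit 310))) (XT.nd (nat_lit 78) (nat_lit 152) (nat_lit 0) (XT.lf (nat_lit 0) (nat_lit 1702060249) (nat_lit 152) (nat_lit 8077168786)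 (nat_lit 76) (nat_lit 11912066407) (nat_lit 88) (nat_lit 5) (nat_lit 90) (nat_lit 5) (nat_lit 89) (nat_lit 5) (nat_lit 496) (nat_lit 395) (nat_lit 309)) (XT.lf (nat_lit 0) (nat_lit 6052748985) (nat_lit 152) (nat_lit 2336416061) (nat_lit 228) (nat_lit 13722402523) (nat_lit 86) (nat_lit 5) (nat_lit 88) (nat_lit 5) (nat_lit 89) (nat_lit 5) (nat_lit 497) (nat_lit 395) (nat_lit 308)))) (XT.nd (nat_lit 156) (nat_lit 228) (nat_lit 0) (XT.nd (nat_lit 78) (nat_lit 76) (nat_lit 0) (XT.lf (nat_lit 0) (nat_lit 15379804728) (nat_lit 228) (nat_lit 1879340005) (nat_lit 76) (nat_lit 5282216043) (nat_lit 86) (nat_lit 5) (nat_lit 89) (nat_lit 5) (nat_lit 87) (nat_lit 4) (nat_lit 498) (nat_lit 395) (nat_lit 307)) (XT.lf (nat_lit 0) (nat_lit 12898318017) (nat_lit 76) (nat_lit 9799177031) (nat_lit 152) (nat_lit 283033340) (nat_lit 85) (nat_lit 5) (nat_lit 86) (nat_lit 5) (nat_lit 87) (nat_lit 4) (nat_lit 499) (nat_lit 395) (nat_lit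 306))) (XT.nd (nat_lit 78) (nat_lit 0) (nat_lit 0) (XT.lf (nat_lit 0) (nat_lit 4695778387) (nat_lit 152) (nat_lit 2007899200) (nat_lit 228) (nat_lit 16726195625) (nat_lit 82) (nat_lit 5) (nat_lit 84) (nat_lit 5) (nat_lit 85) (nat_lit 5) (nat_lit 500) (nat_lit 395) (nat_lit 305)) (XT.lf (nat_lit 0) (nat_lit 14025303283) (nat_lit 228) (nat_lit 3883409902) (nat_lit 76) (nat_lit 5979971567) (nat_lit 82) (nat_lit 5) (nat_lit 85) (nat_lit 5) (nat_lit 83) (nat_lit 4) (nat_lit 501) (nat_lit 395) (nat_lit 304)))))) (XT.nd (nat_lit 624) (nat_lit 760) (nat_lit 0) (XT.nd (nat_lit 312) (nat_lit 304) (nat_lit 0) (XT.nd (nat_lit 156) (nat_lit 76) (nat_lit 0) (XT.nd (nat_lit 78) (nat_lit 228) (nat_lit 0) (XT.lf (nat_lit 0) (nat_lit 11564307219) (nat_lit 76) (nat_lit 10104521040) (nat_lit 152) (nat_lit 2689365354) (nat_lit 81) (nat_lit 5) (nat_lit 82) (nat_lit 5) (nat_lit 83) (nat_lit 4) (nat_lit 502) (nat_lit 395) (nat_lit 303))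 (XT.lf (nat_lit 0) (nat_lit 2666609407) (nat_lit 152) (nat_lit 1978033434) (nat_lit 228) (nat_lit 20194695529) (nat_lit 78) (nat_lit 5) (nat_lit 80) (nat_lit 5) (nat_lit 81) (nat_lit 5) (nat_lit 503) (nat_lit 395) (nat_lit 302))) (XT.nd (nat_lit 78) (nat_lit 76) (nat_lit 0) (XT.lf (nat_lit 0) (nat_lit 12307859951) (nat_lit 228) (nat_lit 6621599631) (nat_lit 76) (nat_lit 6399762246) (nat_lit 78) (nat_lit 5) (nat_lit 81) (nat_lit 5) (nat_lit 79) (nat_lit 4) (nat_lit 504) (nat_lit 395) (nat_lit 301)) (XT.lf (nat_lit 0) (nat_lit 9509235177) (nat_lit 76) (nat_lit 10774890439) (nat_lit 152) (nat_lit 5547182051) (nat_lit 77) (nat_lit 5) (nat_lit 78) (nat_lit 5) (nat_lit 79) (nat_lit 4) (nat_lit 505) (nat_lit 395) (nat_lit 300)))) (XT.nd (nat_lit 156) (nat_lit 76) (nat_lit 0) (XT.nd (nat_lit 78) (nat_lit 152) (nat_lit 0) (XT.lf (nat_lit 0) (nat_lit 2148966516) (nat_lit 152) (nat_lit 160899159) (nat_lit 76) (nat_lit 24036778804)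 (nat_lit 76) (nat_lit 5) (nat_lit 78) (nat_lit 5) (nat_lit 77) (nat_lit 5) (nat_lit 506) (nat_lit 395) (nat_lit 299)) (XT.lf (nat_lit 0) (nat_lit 10161596436) (nat_lit 228) (nat_lit 10230436707) (nat_lit 76) (nat_lit 6477848280) (nat_lit 74) (nat_lit 5) (nat_lit 77) (nat_lit 5) (nat_lit 75) (nat_lit 4) (nat_lit 507) (nat_lit 395) (nat_lit 298))) (XT.nd (nat_lit 78) (nat_lit 0) (nat_lit 0) (XT.lf (nat_lit 0) (nat_lit 6592725052) (nat_lit 76) (nat_lit 11882834778) (nat_lit 152) (nat_lit 8931427396) (nat_lit 73) (nat_lit 5) (nat_lit 74) (nat_lit 5) (nat_lit 75) (nat_lit 4) (nat_lit 508) (nat_lit 395) (nat_lit 297)) (XT.lf (nat_lit 0) (nat_lit 24079432021) (nat_lit 76) (nat_lit 3036183338) (nat_lit 152) (nat_lit 842291020) (nat_lit 73) (nat_lit 5) (nat_lit 74) (nat_lit 5) (nat_lit 75) (nat_lit 4) (nat_lit 509) (nat_lit 395) (nat_lit 296))))) (XT.nd (nat_lit 312) (nat_lit 228) (nat_lit 0) (XT.nd (nat_lit 156) (nat_lit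 228) (nat_lit 0) (XT.nd (nat_lit 78) (nat_lit 76) (nat_lit 0) (XT.lf (nat_lit 0) (nat_lit 7509250178) (nat_lit 228) (nat_lit 14869174283) (nat_lit 76) (nat_lit 6139792839) (nat_lit 70) (nat_lit 5) (nat_lit 73) (nat_lit 5) (nat_lit 71) (nat_lit 4) (nat_lit 510) (nat_lit 395) (nat_lit 295)) (XT.lf (nat_lit 0) (nat_lit 2650703025) (nat_lit 76) (nat_lit 13512743719) (nat_lit 152) (nat_lit 12929569814) (nat_lit 69) (nat_lit 5) (nat_lit 70) (nat_lit 5) (nat_lit 71) (nat_lit 4) (nat_lit 511) (nat_lit 395) (nat_lit 294))) (XT.nd (nat_lit 78) (nat_lit 228) (nat_lit 0) (XT.lf (nat_lit 0) (nat_lit 20951508498) (nat_lit 76) (nat_lit 4250137757) (nat_lit 152) (nat_lit 4479682559) (nat_lit 69) (nat_lit 5) (nat_lit 70) (nat_lit 5) (nat_lit 71) (nat_lit 4) (nat_lit 512) (nat_lit 395) (nat_lit 293)) (XT.lf (nat_lit 0) (nat_lit 4260360199) (nat_lit 228) (nat_lit 20723518880) (nat_lit 76) (nat_lit 5298621294) (nat_lit 66) (nat_lit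 5) (nat_lit 69) (nat_lit 5) (nat_lit 67) (nat_lit 4) (nat_lit 513) (nat_lit 395) (nat_lit 292)))) (XT.nd (nat_lit 156) (nat_lit 152) (nat_lit 0) (XT.nd (nat_lit 78) (nat_lit 76) (nat_lit 0) (XT.lf (nat_lit 0) (nat_lit 13278457011) (nat_lit 228) (nat_lit 2459555647) (nat_lit 76) (nat_lit 15159187429) (nat_lit 66) (nat_lit 5) (nat_lit 69) (nat_lit 5) (nat_lit 67) (nat_lit 4) (nat_lit 514) (nat_lit 395) (nat_lit 291)) (XT.lf (nat_lit 0) (nat_lit 16629659551) (nat_lit 76) (nat_lit 6072808626) (nat_lit 152) (nat_lit 8823811768) (nat_lit 65) (nat_lit 5) (nat_lit 66) (nat_lit 5) (nat_lit 67) (nat_lit 4) (nat_lit 515) (nat_lit 395) (nat_lit 290))) (XT.nd (nat_lit 78) (nat_lit 0) (nat_lit 0) (XT.lf (nat_lit 0) (nat_lit 309157734) (nat_lit 152) (nat_lit 28009952306) (nat_lit 76) (nat_lit 3852691419) (nat_lit 63) (nat_lit 5) (nat_lit 65) (nat_lit 5) (nat_lit 64) (nat_lit 4) (nat_lit 516) (nat_lit 395) (nat_lit 289)) (XT.lf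 (nat_lit 0) (nat_lit 9726396832) (nat_lit 152) (nat_lit 8930960455) (nat_lit 76) (nat_lit 14171081757) (nat_lit 63) (nat_lit 5) (nat_lit 65) (nat_lit 5) (nat_lit 64) (nat_lit 4) (nat_lit 517) (nat_lit 395) (nat_lit 288))))))) (XT.nd (nat_lit 1248) (nat_lit 988) (nat_lit 0) (XT.nd (nat_lit 624) (nat_lit 456) (nat_lit 0) (XT.nd (nat_lit 312) (nat_lit 228) (nat_lit 0) (XT.nd (nat_lit 156) (nat_lit 228) (nat_lit 0) (XT.nd (nat_lit 78) (nat_lit 0) (nat_lit 0) (XT.lf (nat_lit 0) (nat_lit 10886978444) (nat_lit 76) (nat_lit 8620125541) (nat_lit 152) (nat_lit 13995243510) (nat_lit 62) (nat_lit 5) (nat_lit 63) (nat_lit 5) (nat_lit 64) (nat_lit 4) (nat_lit 518) (nat_lit 395) (nat_lit 287)) (XT.lf (nat_lit 0) (nat_lit 29665168230) (nat_lit 152) (nat_lit 2774555428) (nat_lit 0) (nat_lit 1754231719) (nat_lit 62) (nat_lit 5) (nat_lit 64) (nat_lit 4) (nat_lit 62) (nat_lit 4) (nat_lit 519) (nat_lit 395) (nat_lit 286))) (XT.nd (nat_lit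 78) (nat_lit 76) (nat_lit 0) (XT.lf (nat_lit 0) (nat_lit 5356344665) (nat_lit 152) (nat_lit 17071322473) (nat_lit 76) (nat_lit 12470041528) (nat_lit 60) (nat_lit 5) (nat_lit 62) (nat_lit 5) (nat_lit 61) (nat_lit 4) (nat_lit 520) (nat_lit 395) (nat_lit 285)) (XT.lf (nat_lit 0) (nat_lit 3458271638) (nat_lit 76) (nat_lit 12027322426) (nat_lit 152) (nat_lit 20134477906) (nat_lit 59) (nat_lit 5) (nat_lit 60) (nat_lit 5) (nat_lit 61) (nat_lit 4) (nat_lit 521) (nat_lit 395) (nat_lit 284)))) (XT.nd (nat_lit 156) (nat_lit 76) (nat_lit 0) (XT.nd (nat_lit 78) (nat_lit 152) (nat_lit 0) (XT.lf (nat_lit 0) (nat_lit 24909543607) (nat_lit 76) (nat_lit 1158858003) (nat_lit 152) (nat_lit 10291214372) (nat_lit 59) (nat_lit 5) (nat_lit 60) (nat_lit 5) (nat_lit 61) (nat_lit 4) (nat_lit 522) (nat_lit 395) (nat_lit 283)) (XT.lf (nat_lit 0) (nat_lit 21751810) (nat_lit 152) (nat_lit 27179350619) (nat_lit 76) (nat_lit 9915145340) (nat_lit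 57) (nat_lit 5) (nat_lit 59) (nat_lit 5) (nat_lit 58) (nat_lit 4) (nat_lit 523) (nat_lit 395) (nat_lit 282))) (XT.nd (nat_lit 78) (nat_lit 76) (nat_lit 0) (XT.lf (nat_lit 0) (nat_lit 10543277966) (nat_lit 152) (nat_lit 5849779055) (nat_lit 76) (nat_lit 21496284477) (nat_lit 57) (nat_lit 5) (nat_lit 59) (nat_lit 5) (nat_lit 58) (nat_lit 4) (nat_lit 524) (nat_lit 395) (nat_lit 281)) (XT.lf (nat_lit 0) (nat_lit 16397569446) (nat_lit 76) (nat_lit 5118923637) (nat_lit 152) (nat_lit 17165053861) (nat_lit 56) (nat_lit 5) (nat_lit 57) (nat_lit 5) (nat_lit 58) (nat_lit 4) (nat_lit 525) (nat_lit 395) (nat_lit 280))))) (XT.nd (nat_lit 312) (nat_lit 228) (nat_lit 0) (XT.nd (nat_lit 156) (nat_lit 76) (nat_lit 0) (XT.nd (nat_lit 78) (nat_lit 152) (nat_lit 0) (XT.lf (nat_lit 0) (nat_lit 32919432011) (nat_lit 152) (nat_lit 168615670) (nat_lit 0) (nat_lit 6406455249) (nat_lit 56) (nat_lit 5) (nat_lit 58) (nat_lit 4) (nat_lit 56)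 (nat_lit 4) (nat_lit 526) (nat_lit 395) (nat_lit 279)) (XT.lf (nat_lit 0) (nat_lit 4501080252) (nat_lit 152) (nat_lit 17401662395) (nat_lit 76) (nat_lit 18420265293) (nat_lit 54) (nat_lit 5) (nat_lit 56) (nat_lit 5) (nat_lit 55) (nat_lit 4) (nat_lit 527) (nat_lit 395) (nat_lit 278))) (XT.nd (nat_lit 78) (nat_lit 0) (nat_lit 0) (XT.lf (nat_lit 0) (nat_lit 5533091768) (nat_lit 76) (nat_lit 10278273689) (nat_lit 152) (nat_lit 25362029774) (nat_lit 53) (nat_lit 5) (nat_lit 54) (nat_lit 5) (nat_lit 55) (nat_lit 4) (nat_lit 528) (nat_lit 395) (nat_lit 277)) (XT.lf (nat_lit 0) (nat_lit 27633838305) (nat_lit 152) (nat_lit 12590385820) (nat_lit 0) (nat_lit 1819883817) (nat_lit 53) (nat_lit 5) (nat_lit 55) (nat_lit 4) (nat_lit 53) (nat_lit 4) (nat_lit 529) (nat_lit 395) (nat_lit 276)))) (XT.nd (nat_lit 156) (nat_lit 76) (nat_lit 0) (XT.nd (nat_lit 78) (nat_lit 76) (nat_lit 0) (XT.lf (nat_lit 0) (nat_lit 11228631221) (nat_lit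 76) (nat_lit 28771787610) (nat_lit 76) (nat_lit 2934840368) (nat_lit 52) (nat_lit 4) (nat_lit 53) (nat_lit 5) (nat_lit 53) (nat_lit 4) (nat_lit 530) (nat_lit 395) (nat_lit 275)) (XT.lf (nat_lit 0) (nat_lit 8819618553) (nat_lit 152) (nat_lit 7955444639) (nat_lit 76) (nat_lit 27072275494) (nat_lit 51) (nat_lit 5) (nat_lit 53) (nat_lit 5) (nat_lit 52) (nat_lit 4) (nat_lit 531) (nat_lit 395) (nat_lit 274))) (XT.nd (nat_lit 78) (nat_lit 0) (nat_lit 0) (XT.lf (nat_lit 0) (nat_lit 16767817167) (nat_lit 76) (nat_lit 4241424382) (nat_lit 152) (nat_lit 23772421899) (nat_lit 50) (nat_lit 5) (nat_lit 51) (nat_lit 5) (nat_lit 52) (nat_lit 4) (nat_lit 532) (nat_lit 395) (nat_lit 273)) (XT.lf (nat_lit 0) (nat_lit 33709367468) (nat_lit 152) (nat_lit 3468496804) (nat_lit 0) (nat_lit 8561809404) (nat_lit 50) (nat_lit 5) (nat_lit 52) (nat_lit 4) (nat_lit 50) (nat_lit 4) (nat_lit 533) (nat_lit 395) (nat_lit 272)))))) (XT.nd (nat_lit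 624) (nat_lit 456) (nat_lit 0) (XT.nd (nat_lit 312) (nat_lit 228) (nat_lit 0) (XT.nd (nat_lit 156) (nat_lit 76) (nat_lit 0) (XT.nd (nat_lit 78) (nat_lit 76) (nat_lit 0) (XT.lf (nat_lit 0) (nat_lit 301161362) (nat_lit 152) (nat_lit 24556034250) (nat_lit 76) (nat_lit 21862060102) (nat_lit 48) (nat_lit 5) (nat_lit 50) (nat_lit 5) (nat_lit 49) (nat_lit 4) (nat_lit 534) (nat_lit 395) (nat_lit 271)) (XT.lf (nat_lit 0) (nat_lit 765790587) (nat_lit 76) (nat_lit 12018661861) (nat_lit 152) (nat_lit 34939489242) (nat_lit 47) (nat_lit 5) (nat_lit 48) (nat_lit 5) (nat_lit 49) (nat_lit 4) (nat_lit 535) (nat_lit 395) (nat_lit 270))) (XT.nd (nat_lit 78) (nat_lit 76) (nat_lit 0) (XT.lf (nat_lit 0) (nat_lit 25885214560) (nat_lit 152) (nat_lit 21452256980) (nat_lit 0) (nat_lit 1414007670) (nat_lit 47) (nat_lit 5) (nat_lit 49) (nat_lit 4) (nat_lit 47) (nat_lit 4) (nat_lit 536) (nat_lit 395) (nat_lit 269)) (XT.lf (nat_lit 0) (nat_lit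 4756186899) (nat_lit 76) (nat_lit 34769048959) (nat_lit 76) (nat_lit 10280220037) (nat_lit 46) (nat_lit 4) (nat_lit 47) (nat_lit 5) (nat_lit 47) (nat_lit 4) (nat_lit 537) (nat_lit 395) (nat_lit 268)))) (XT.nd (nat_lit 156) (nat_lit 76) (nat_lit 0) (XT.nd (nat_lit 78) (nat_lit 76) (nat_lit 0) (XT.lf (nat_lit 0) (nat_lit 2831344025) (nat_lit 152) (nat_lit 18758309316) (nat_lit 76) (nat_lit 29294615795) (nat_lit 45) (nat_lit 5) (nat_lit 47) (nat_lit 5) (nat_lit 46) (nat_lit 4) (nat_lit 538) (nat_lit 395) (nat_lit 267)) (XT.lf (nat_lit 0) (nat_lit 8347087023) (nat_lit 76) (nat_lit 7844851482) (nat_lit 152) (nat_lit 35798585686) (nat_lit 44) (nat_lit 5) (nat_lit 45) (nat_lit 5) (nat_lit 46) (nat_lit 4) (nat_lit 539) (nat_lit 395) (nat_lit 266))) (XT.nd (nat_lit 78) (nat_lit 76) (nat_lit 0) (XT.lf (nat_lit 0) (nat_lit 30187413663) (nat_lit 152) (nat_lit 16572073916) (nat_lit 0) (nat_lit 6363457548) (nat_lit 44) (nat_lit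 5) (nat_lit 46) (nat_lit 4) (nat_lit 44) (nat_lit 4) (nat_lit 540) (nat_lit 395) (nat_lit 265)) (XT.lf (nat_lit 0) (nat_lit 11422270616) (nat_lit 76) (nat_lit 33350561425) (nat_lit 76) (nat_lit 9511404392) (nat_lit 43) (nat_lit 4) (nat_lit 44) (nat_lit 5) (nat_lit 44) (nat_lit 4) (nat_lit 541) (nat_lit 395) (nat_lit 264))))) (XT.nd (nat_lit 312) (nat_lit 228) (nat_lit 0) (XT.nd (nat_lit 156) (nat_lit 76) (nat_lit 0) (XT.nd (nat_lit 78) (nat_lit 76) (nat_lit 0) (XT.lf (nat_lit 0) (nat_lit 4382857034) (nat_lit 152) (nat_lit 14956715427) (nat_lit 76) (nat_lit 36135001028) (nat_lit 42) (nat_lit 5) (nat_lit 44) (nat_lit 5) (nat_lit 43) (nat_lit 4) (nat_lit 542) (nat_lit 395) (nat_lit 263)) (XT.lf (nat_lit 0) (nat_lit 13929958906) (nat_lit 76) (nat_lit 4689845249) (nat_lit 152) (nat_lit 38074480604) (nat_lit 41) (nat_lit 5) (nat_lit 42) (nat_lit 5) (nat_lit 43) (nat_lit 4) (nat_lit 543) (nat_lit 395) (nat_lit 262)))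 (XT.nd (nat_lit 78) (nat_lit 76) (nat_lit 0) (XT.lf (nat_lit 0) (nat_lit 33519494623) (nat_lit 152) (nat_lit 14091086964) (nat_lit 0) (nat_lit 10332936832) (nat_lit 41) (nat_lit 5) (nat_lit 43) (nat_lit 4) (nat_lit 41) (nat_lit 4) (nat_lit 544) (nat_lit 395) (nat_lit 261)) (XT.lf (nat_lit 0) (nat_lit 15669249792) (nat_lit 76) (nat_lit 33377614488) (nat_lit 76) (nat_lit 10177944251) (nat_lit 40) (nat_lit 4) (nat_lit 41) (nat_lit 5) (nat_lit 41) (nat_lit 4) (nat_lit 545) (nat_lit 395) (nat_lit 260)))) (XT.nd (nat_lit 156) (nat_lit 76) (nat_lit 0) (XT.nd (nat_lit 78) (nat_lit 76) (nat_lit 0) (XT.lf (nat_lit 0) (nat_lit 4535134655) (nat_lit 152) (nat_lit 14006077415) (nat_lit 76) (nat_lit 41998208736) (nat_lit 39) (nat_lit 5) (nat_lit 41) (nat_lit 5) (nat_lit 40) (nat_lit 4) (nat_lit 546) (nat_lit 395) (nat_lit 259)) (XT.lf (nat_lit 0) (nat_lit 16621979609) (nat_lit 76) (nat_lit 3006956407) (nat_lit 152) (nat_lit 42257195469)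 (nat_lit 38) (nat_lit 5) (nat_lit 39) (nat_lit 5) (nat_lit 40) (nat_lit 4) (nat_lit 547) (nat_lit 395) (nat_lit 258))) (XT.nd (nat_lit 78) (nat_lit 76) (nat_lit 0) (XT.lf (nat_lit 0) (nat_lit 35427415793) (nat_lit 152) (nat_lit 14970817461) (nat_lit 0) (nat_lit 12867454385) (nat_lit 38) (nat_lit 5) (nat_lit 40) (nat_lit 4) (nat_lit 38) (nat_lit 4) (nat_lit 548) (nat_lit 395) (nat_lit 257)) (XT.lf (nat_lit 0) (nat_lit 16492790487) (nat_lit 76) (nat_lit 35379962649) (nat_lit 76) (nat_lit 12808690329) (nat_lit 37) (nat_lit 4) (nat_lit 38) (nat_lit 5) (nat_lit 38) (nat_lit 4) (nat_lit 549) (nat_lit 395) (nat_lit 256))))))))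
noncomputable def xc86 : XT := (XT.nd (nat_lit 53508) (nat_lit 0) (nat_lit 8512) (XT.nd (nat_lit 52260) (nat_lit 0) (nat_lit 17252) (XT.nd (nat_lit 51636) (nat_lit 0) (nat_lit 27132) (XT.nd (nat_lit 234) (nat_lit 76) (nat_lit 0) (XT.nd (nat_lit 78) (nat_lit 76) (nat_lit 0) (XT.lf (nat_lit 0) (nat_lit 2756914379) (nat_lit 152) (nat_lit 16985717596) (nat_lit 76) (nat_lit 46392151434) (nat_lit 36) (nat_lit 5) (nat_lit 38) (nat_lit 5) (nat_lit 37) (nat_lit 4) (nat_lit 550) (nat_lit 395) (nat_lit 255)) (XT.nd (nat_lit 78) (nat_lit 0) (nat_lit 0) (XT.lf (nat_lit 0) (nat_lit 15295248540) (nat_lit 76) (nat_lit 3368871629) (nat_lit 152) (nat_lit 48959836647) (nat_lit 35) (nat_lit 5) (nat_lit 36) (nat_lit 5) (nat_lit 37) (nat_lit 4) (nat_lit 551) (nat_lit 395) (nat_lit 254)) (XT.lf (nat_lit 0) (nat_lit 35336555553) (nat_lit 152) (nat_lit 20420972917) (nat_lit 0) (nat_lit 13391636629) (nat_lit 35) (nat_lit 5) (nat_lit 37)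 (nat_lit 4) (nat_lit 35) (nat_lit 4) (nat_lit 552) (nat_lit 395) (nat_lit 253)))) (XT.nd (nat_lit 51246) (nat_lit 0) (nat_lit 30400) (XT.nd (nat_lit 51168) (nat_lit 0) (nat_lit 30856) (XT.lf (nat_lit 0) (nat_lit 12628210377) (nat_lit 76) (nat_lit 40021193964) (nat_lit 76) (nat_lit 18066518149) (nat_lit 34) (nat_lit 4) (nat_lit 35) (nat_lit 5) (nat_lit 35) (nat_lit 4) (nat_lit 553) (nat_lit 395) (nat_lit 252)) (XT.lf (nat_lit 0) (nat_lit 531448777) (nat_lit 380) (nat_lit 2192029041) (nat_lit 0) (nat_lit 531448777) (nat_lit 440) (nat_lit 5) (nat_lit 445) (nat_lit 4) (nat_lit 440) (nat_lit 4) (nat_lit 408) (nat_lit 396) (nat_lit 396))) (XT.nd (nat_lit 78) (nat_lit 456) (nat_lit 0) (XT.lf (nat_lit 0) (nat_lit 4278172805) (nat_lit 380) (nat_lit 575329779) (nat_lit 0) (nat_lit 1674736624) (nat_lit 440) (nat_lit 5) (nat_lit 445) (nat_lit 4) (nat_lit 440) (nat_lit 4) (nat_lit 409) (nat_lit 396) (nat_lit 395)) (XT.lf (nat_lit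 0) (nat_lit 940309359) (nat_lit 456) (nat_lit 3222216122) (nat_lit 76) (nat_lit 2386830846) (nat_lit 434) (nat_lit 5) (nat_lit 440) (nat_lit 5) (nat_lit 435) (nat_lit 4) (nat_lit 410) (nat_lit 396) (nat_lit 394))))) (XT.nd (nat_lit 312) (nat_lit 2128) (nat_lit 0) (XT.nd (nat_lit 156) (nat_lit 608) (nat_lit 0) (XT.nd (nat_lit 78) (nat_lit 76) (nat_lit 0) (XT.lf (nat_lit 0) (nat_lit 701262023) (nat_lit 456) (nat_lit 3380656420) (nat_lit 532) (nat_lit 2491515314) (nat_lit 428) (nat_lit 5) (nat_lit 434) (nat_lit 5) (nat_lit 435) (nat_lit 4) (nat_lit 411) (nat_lit 396) (nat_lit 393)) (XT.lf (nat_lit 0) (nat_lit 627919532) (nat_lit 532) (nat_lit 1875084883) (nat_lit 76) (nat_lit 4097365561) (nat_lit 427) (nat_lit 5) (nat_lit 434) (nat_lit 5) (nat_lit 428) (nat_lit 5) (nat_lit 412) (nat_lit 396) (nat_lit 392))) (XT.nd (nat_lit 78) (nat_lit 76) (nat_lit 0) (XT.lf (nat_lit 0) (nat_lit 2183063536) (nat_lit 532) (nat_lit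 1521556479) (nat_lit 608) (nat_lit 2925357455) (nat_lit 420) (nat_lit 5) (nat_lit 427) (nat_lit 5) (nat_lit 428) (nat_lit 5) (nat_lit 413) (nat_lit 396) (nat_lit 391)) (XT.lf (nat_lit 0) (nat_lit 122224844) (nat_lit 608) (nat_lit 338899415) (nat_lit 76) (nat_lit 6201905498) (nat_lit 419) (nat_lit 5) (nat_lit 427) (nat_lit 5) (nat_lit 420) (nat_lit 5) (nat_lit 414) (nat_lit 396) (nat_lit 390)))) (XT.nd (nat_lit 156) (nat_lit 836) (nat_lit 0) (XT.nd (nat_lit 78) (nat_lit 684) (nat_lit 0) (XT.lf (nat_lit 0) (nat_lit 3143748040) (nat_lit 684) (nat_lit 2842274264) (nat_lit 76) (nat_lit 711957754) (nat_lit 411) (nat_lit 5) (nat_lit 420) (nat_lit 5) (nat_lit 412) (nat_lit 5) (nat_lit 415) (nat_lit 396) (nat_lit 389)) (XT.lf (nat_lit 0) (nat_lit 1393405096) (nat_lit 684) (nat_lit 4783641692) (nat_lit 760) (nat_lit 559312427) (nat_lit 402) (nat_lit 5) (nat_lit 411) (nat_lit 5) (nat_lit 412) (nat_lit 5) (nat_lit 416) (nat_lit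 396) (nat_lit 388))) (XT.nd (nat_lit 78) (nat_lit 760) (nat_lit 0) (XT.lf (nat_lit 0) (nat_lit 2406063208) (nat_lit 760) (nat_lit 1064793222) (nat_lit 76) (nat_lit 3306421780) (nat_lit 401) (nat_lit 5) (nat_lit 411) (nat_lit 5) (nat_lit 402) (nat_lit 5) (nat_lit 417) (nat_lit 396) (nat_lit 387)) (XT.lf (nat_lit 0) (nat_lit 3323728986) (nat_lit 760) (nat_lit 2061169124) (nat_lit 836) (nat_lit 1436301377) (nat_lit 391) (nat_lit 5) (nat_lit 401) (nat_lit 5) (nat_lit 402) (nat_lit 5) (nat_lit 418) (nat_lit 396) (nat_lit 386)))))) (XT.nd (nat_lit 624) (nat_lit 4636) (nat_lit 0) (XT.nd (nat_lit 312) (nat_lit 2356) (nat_lit 0) (XT.nd (nat_lit 156) (nat_lit 1976) (nat_lit 0) (XT.nd (nat_lit 78) (nat_lit 0) (nat_lit 0) (XT.lf (nat_lit 0) (nat_lit 923836683) (nat_lit 836) (nat_lit 556512609) (nat_lit 912) (nat_lit 5387904306) (nat_lit 379) (nat_lit 5) (nat_lit 390) (nat_lit 5) (nat_lit 391) (nat_lit 5) (nat_lit 419) (nat_lit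 396) (nat_lit 385)) (XT.lf (nat_lit 0) (nat_lit 4407929104) (nat_lit 912) (nat_lit 1470933723) (nat_lit 76) (nat_lit 1038872873) (nat_lit 379) (nat_lit 5) (nat_lit 391) (nat_lit 5) (nat_lit 380) (nat_lit 5) (nat_lit 420) (nat_lit 396) (nat_lit 384))) (XT.nd (nat_lit 78) (nat_lit 988) (nat_lit 0) (XT.lf (nat_lit 0) (nat_lit 390438728) (nat_lit 988) (nat_lit 3860465613) (nat_lit 76) (nat_lit 2719337775) (nat_lit 366) (nat_lit 5) (nat_lit 379) (nat_lit 5) (nat_lit 367) (nat_lit 5) (nat_lit 421) (nat_lit 396) (nat_lit 383)) (XT.lf (nat_lit 0) (nat_lit 744408469) (nat_lit 988) (nat_lit 2515780304) (nat_lit 1064) (nat_lit 3765412119) (nat_lit 353) (nat_lit 5) (nat_lit 366) (nat_lit 5) (nat_lit 367) (nat_lit 5) (nat_lit 422) (nat_lit 396) (nat_lit 382)))) (XT.nd (nat_lit 156) (nat_lit 1216) (nat_lit 0) (XT.nd (nat_lit 78) (nat_lit 1140) (nat_lit 0) (XT.lf (nat_lit 0) (nat_lit 5488038416) (nat_lit 988) (nat_lit 679605339)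 (nat_lit 1064) (nat_lit 916438900) (nat_lit 353) (nat_lit 5) (nat_lit 366) (nat_lit 5) (nat_lit 367) (nat_lit 5) (nat_lit 423) (nat_lit 396) (nat_lit 381)) (XT.lf (nat_lit 0) (nat_lit 1935875515) (nat_lit 1140) (nat_lit 3962968352) (nat_lit 76) (nat_lit 1246185532) (nat_lit 338) (nat_lit 5) (nat_lit 353) (nat_lit 5) (nat_lit 339) (nat_lit 5) (nat_lit 424) (nat_lit 396) (nat_lit 380))) (XT.nd (nat_lit 78) (nat_lit 76) (nat_lit 0) (XT.lf (nat_lit 0) (nat_lit 849743471) (nat_lit 1140) (nat_lit 3952912155) (nat_lit 1216) (nat_lit 2406466933) (nat_lit 323) (nat_lit 5) (nat_lit 338) (nat_lit 5) (nat_lit 339) (nat_lit 5) (nat_lit 425) (nat_lit 396) (nat_lit 379)) (XT.lf (nat_lit 0) (nat_lit 428345150) (nat_lit 1216) (nat_lit 1471538187) (nat_lit 76) (nat_lit 5376403303) (nat_lit 322) (nat_lit 5) (nat_lit 338) (nat_lit 5) (nat_lit 323) (nat_lit 5) (nat_lit 426) (nat_lit 396) (nat_lit 378))))) (XT.nd (nat_lit 312) (nat_lit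 1900) (nat_lit 0) (XT.nd (nat_lit 156) (nat_lit 684) (nat_lit 0) (XT.nd (nat_lit 78) (nat_lit 836) (nat_lit 0) (XT.lf (nat_lit 0) (nat_lit 3255841125) (nat_lit 1292) (nat_lit 3819140161) (nat_lit 76) (nat_lit 271098227) (nat_lit 306) (nat_lit 5) (nat_lit 323) (nat_lit 5) (nat_lit 307) (nat_lit 5) (nat_lit 427) (nat_lit 396) (nat_lit 377)) (XT.lf (nat_lit 0) (nat_lit 1212788609) (nat_lit 836) (nat_lit 4921884220) (nat_lit 912) (nat_lit 1284306634) (nat_lit 295) (nat_lit 5) (nat_lit 306) (nat_lit 5) (nat_lit 307) (nat_lit 5) (nat_lit 428) (nat_lit 396) (nat_lit 376))) (XT.nd (nat_lit 78) (nat_lit 608) (nat_lit 0) (XT.lf (nat_lit 0) (nat_lit 1535215315) (nat_lit 912) (nat_lit 1115479491) (nat_lit 76) (nat_lit 4844094231) (nat_lit 294) (nat_lit 5) (nat_lit 306) (nat_lit 5) (nat_lit 295) (nat_lit 5) (nat_lit 429) (nat_lit 396) (nat_lit 375)) (XT.lf (nat_lit 0) (nat_lit 4117213807) (nat_lit 608) (nat_lit 259950263) (nat_lit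 684) (nat_lit 3196425605) (nat_lit 286) (nat_lit 5) (nat_lit 294) (nat_lit 5) (nat_lit 295) (nat_lit 5) (nat_lit 430) (nat_lit 396) (nat_lit 374)))) (XT.nd (nat_lit 156) (nat_lit 1216) (nat_lit 0) (XT.nd (nat_lit 78) (nat_lit 76) (nat_lit 0) (XT.lf (nat_lit 0) (nat_lit 1809557169) (nat_lit 608) (nat_lit 5470268824) (nat_lit 684) (nat_lit 375672354) (nat_lit 278) (nat_lit 5) (nat_lit 286) (nat_lit 5) (nat_lit 287) (nat_lit 5) (nat_lit 431) (nat_lit 396) (nat_lit 373)) (XT.lf (nat_lit 0) (nat_lit 2444353403) (nat_lit 684) (nat_lit 542234874) (nat_lit 76) (nat_lit 4753633302) (nat_lit 277) (nat_lit 5) (nat_lit 286) (nat_lit 5) (nat_lit 278) (nat_lit 5) (nat_lit 432) (nat_lit 396) (nat_lit 372))) (XT.nd (nat_lit 78) (nat_lit 684) (nat_lit 0) (XT.lf (nat_lit 0) (nat_lit 4935005746) (nat_lit 532) (nat_lit 382203180) (nat_lit 608) (nat_lit 2510899611) (nat_lit 270) (nat_lit 5) (nat_lit 277) (nat_lit 5) (nat_lit 278) (nat_lit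 5) (nat_lit 433) (nat_lit 396) (nat_lit 371)) (XT.lf (nat_lit 0) (nat_lit 332889866) (nat_lit 684) (nat_lit 5303723513) (nat_lit 76) (nat_lit 2282454693) (nat_lit 261) (nat_lit 5) (nat_lit 270) (nat_lit 5) (nat_lit 262) (nat_lit 5) (nat_lit 434) (nat_lit 396) (nat_lit 370))))))) (XT.nd (nat_lit 1170) (nat_lit 3876) (nat_lit 0) (XT.nd (nat_lit 546) (nat_lit 2280) (nat_lit 0) (XT.nd (nat_lit 234) (nat_lit 1444) (nat_lit 0) (XT.nd (nat_lit 78) (nat_lit 608) (nat_lit 0) (XT.lf (nat_lit 0) (nat_lit 232009200) (nat_lit 532) (nat_lit 2945255443) (nat_lit 608) (nat_lit 4835780202) (nat_lit 254) (nat_lit 5) (nat_lit 261) (nat_lit 5) (nat_lit 262) (nat_lit 5) (nat_lit 435) (nat_lit 396) (nat_lit 369)) (XT.nd (nat_lit 78) (nat_lit 608) (nat_lit 0) (XT.lf (nat_lit 0) (nat_lit 5963264438) (nat_lit 532) (nat_lit 128753756) (nat_lit 608) (nat_lit 2018277529) (nat_lit 254) (nat_lit 5) (nat_lit 261) (nat_lit 5) (nat_lit 262) (nat_lit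 5) (nat_lit 436) (nat_lit 396) (nat_lit 368)) (XT.lf (nat_lit 0) (nat_lit 861290546) (nat_lit 608) (nat_lit 4597925441) (nat_lit 76) (nat_lit 2751155588) (nat_lit 246) (nat_lit 5) (nat_lit 254) (nat_lit 5) (nat_lit 247) (nat_lit 5) (nat_lit 437) (nat_lit 396) (nat_lit 367)))) (XT.nd (nat_lit 156) (nat_lit 988) (nat_lit 0) (XT.nd (nat_lit 78) (nat_lit 0) (nat_lit 0) (XT.lf (nat_lit 0) (nat_lit 1198423387) (nat_lit 456) (nat_lit 2556868516) (nat_lit 532) (nat_lit 4558505660) (nat_lit 240) (nat_lit 5) (nat_lit 246) (nat_lit 5) (nat_lit 247) (nat_lit 5) (nat_lit 438) (nat_lit 396) (nat_lit 366)) (XT.lf (nat_lit 0) (nat_lit 6722119205) (nat_lit 532) (nat_lit 1241088214) (nat_lit 76) (nat_lit 457544264) (nat_lit 240) (nat_lit 5) (nat_lit 247) (nat_lit 5) (nat_lit 241) (nat_lit 5) (nat_lit 439) (nat_lit 396) (nat_lit 365))) (XT.nd (nat_lit 78) (nat_lit 456) (nat_lit 0) (XT.lf (nat_lit 0) (nat_lit 1231085140) (nat_lit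 532) (nat_lit 3743080159) (nat_lit 76) (nat_lit 3556143250) (nat_lit 233) (nat_lit 5) (nat_lit 240) (nat_lit 5) (nat_lit 234) (nat_lit 5) (nat_lit 440) (nat_lit 396) (nat_lit 364)) (XT.lf (nat_lit 0) (nat_lit 2328967690) (nat_lit 456) (nat_lit 1857958817) (nat_lit 532) (nat_lit 4456554942) (nat_lit 227) (nat_lit 5) (nat_lit 233) (nat_lit 5) (nat_lit 234) (nat_lit 5) (nat_lit 441) (nat_lit 396) (nat_lit 363))))) (XT.nd (nat_lit 312) (nat_lit 912) (nat_lit 0) (XT.nd (nat_lit 156) (nat_lit 836) (nat_lit 0) (XT.nd (nat_lit 78) (nat_lit 532) (nat_lit 0) (XT.lf (nat_lit 0) (nat_lit 7220858992) (nat_lit 532) (nat_lit 191899300) (nat_lit 76) (nat_lit 1347613680) (nat_lit 227) (nat_lit 5) (nat_lit 234) (nat_lit 5) (nat_lit 228) (nat_lit 5) (nat_lit 442) (nat_lit 396) (nat_lit 362)) (XT.lf (nat_lit 0) (nat_lit 1454072257) (nat_lit 532) (nat_lit 2755928346) (nat_lit 76) (nat_lit 4669822147) (nat_lit 220) (nat_lit 5) (nat_lit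 227) (nat_lit 5) (nat_lit 221) (nat_lit 5) (nat_lit 443) (nat_lit 396) (nat_lit 361))) (XT.nd (nat_lit 78) (nat_lit 456) (nat_lit 0) (XT.lf (nat_lit 0) (nat_lit 3607797648) (nat_lit 380) (nat_lit 875833957) (nat_lit 456) (nat_lit 4519459385) (nat_lit 215) (nat_lit 5) (nat_lit 220) (nat_lit 5) (nat_lit 221) (nat_lit 5) (nat_lit 444) (nat_lit 396) (nat_lit 360)) (XT.lf (nat_lit 0) (nat_lit 1006008456) (nat_lit 456) (nat_lit 6601727553) (nat_lit 532) (nat_lit 1522215886) (nat_lit 209) (nat_lit 5) (nat_lit 215) (nat_lit 5) (nat_lit 216) (nat_lit 5) (nat_lit 445) (nat_lit 396) (nat_lit 359)))) (XT.nd (nat_lit 156) (nat_lit 456) (nat_lit 0) (XT.nd (nat_lit 78) (nat_lit 380) (nat_lit 0) (XT.lf (nat_lit 0) (nat_lit 1539777793) (nat_lit 532) (nat_lit 1652147721) (nat_lit 76) (nat_lit 6068084816) (nat_lit 208) (nat_lit 5) (nat_lit 215) (nat_lit 5) (nat_lit 209) (nat_lit 5) (nat_lit 446) (nat_lit 396) (nat_lit 358)) (XT.lf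 (nat_lit 0) (nat_lit 4658182236) (nat_lit 456) (nat_lit 4377155188) (nat_lit 76) (nat_lit 358330566) (nat_lit 203) (nat_lit 5) (nat_lit 209) (nat_lit 5) (nat_lit 204) (nat_lit 5) (nat_lit 447) (nat_lit 396) (nat_lit 357))) (XT.nd (nat_lit 78) (nat_lit 76) (nat_lit 0) (XT.lf (nat_lit 0) (nat_lit 2324566803) (nat_lit 380) (nat_lit 5560472624) (nat_lit 456) (nat_lit 1645852815) (nat_lit 198) (nat_lit 5) (nat_lit 203) (nat_lit 5) (nat_lit 204) (nat_lit 5) (nat_lit 448) (nat_lit 396) (nat_lit 356)) (XT.lf (nat_lit 0) (nat_lit 1495573055) (nat_lit 456) (nat_lit 446689105) (nat_lit 76) (nat_lit 7729859052) (nat_lit 197) (nat_lit 5) (nat_lit 203) (nat_lit 5) (nat_lit 198) (nat_lit 5) (nat_lit 449) (nat_lit 396) (nat_lit 355)))))) (XT.nd (nat_lit 624) (nat_lit 1824) (nat_lit 0) (XT.nd (nat_lit 312) (nat_lit 988) (nat_lit 0) (XT.nd (nat_lit 156) (nat_lit 380) (nat_lit 0) (XT.nd (nat_lit 78) (nat_lit 380) (nat_lit 0) (XT.lf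 (nat_lit 0) (nat_lit 4724940781) (nat_lit 380) (nat_lit 3282651819) (nat_lit 76) (nat_lit 1808705763) (nat_lit 193) (nat_lit 5) (nat_lit 198) (nat_lit 5) (nat_lit 194) (nat_lit 5) (nat_lit 450) (nat_lit 396) (nat_lit 354)) (XT.lf (nat_lit 0) (nat_lit 3745669179) (nat_lit 380) (nat_lit 4312023525) (nat_lit 456) (nat_lit 1906916475) (nat_lit 188) (nat_lit 5) (nat_lit 193) (nat_lit 5) (nat_lit 194) (nat_lit 5) (nat_lit 451) (nat_lit 396) (nat_lit 353))) (XT.nd (nat_lit 78) (nat_lit 0) (nat_lit 0) (XT.lf (nat_lit 0) (nat_lit 862720912) (nat_lit 304) (nat_lit 472330744) (nat_lit 380) (nat_lit 8782261339) (nat_lit 183) (nat_lit 5) (nat_lit 187) (nat_lit 5) (nat_lit 188) (nat_lit 5) (nat_lit 452) (nat_lit 396) (nat_lit 352)) (XT.lf (nat_lit 0) (nat_lit 4680457856) (nat_lit 380) (nat_lit 2118316237) (nat_lit 76) (nat_lit 3473925392) (nat_lit 183) (nat_lit 5) (nat_lit 188) (nat_lit 5) (nat_lit 184) (nat_lit 5) (nat_lit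 453) (nat_lit 396) (nat_lit 351)))) (XT.nd (nat_lit 156) (nat_lit 304) (nat_lit 0) (XT.nd (nat_lit 78) (nat_lit 380) (nat_lit 0) (XT.lf (nat_lit 0) (nat_lit 5255223024) (nat_lit 304) (nat_lit 2875330988) (nat_lit 380) (nat_lit 2302066787) (nat_lit 179) (nat_lit 5) (nat_lit 183) (nat_lit 5) (nat_lit 184) (nat_lit 5) (nat_lit 454) (nat_lit 396) (nat_lit 350)) (XT.lf (nat_lit 0) (nat_lit 1069795901) (nat_lit 380) (nat_lit 8353687503) (nat_lit 76) (nat_lit 1173420113) (nat_lit 174) (nat_lit 5) (nat_lit 179) (nat_lit 5) (nat_lit 175) (nat_lit 5) (nat_lit 455) (nat_lit 396) (nat_lit 349))) (XT.nd (nat_lit 78) (nat_lit 304) (nat_lit 0) (XT.lf (nat_lit 0) (nat_lit 4527744831) (nat_lit 380) (nat_lit 899247772) (nat_lit 76) (nat_lit 5337505146) (nat_lit 174) (nat_lit 5) (nat_lit 179) (nat_lit 5) (nat_lit 175) (nat_lit 5) (nat_lit 456) (nat_lit 396) (nat_lit 348)) (XT.lf (nat_lit 0) (nat_lit 6838974986) (nat_lit 304) (nat_lit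 1267587746) (nat_lit 380) (nat_lit 2830045881) (nat_lit 170) (nat_lit 5) (nat_lit 174) (nat_lit 5) (nat_lit 175) (nat_lit 5) (nat_lit 457) (nat_lit 396) (nat_lit 347))))) (XT.nd (nat_lit 312) (nat_lit 836) (nat_lit 0) (XT.nd (nat_lit 156) (nat_lit 304) (nat_lit 0) (XT.nd (nat_lit 78) (nat_lit 304) (nat_lit 0) (XT.lf (nat_lit 0) (nat_lit 691308255) (nat_lit 380) (nat_lit 7436733982) (nat_lit 76) (nat_lit 2984876575) (nat_lit 165) (nat_lit 5) (nat_lit 170) (nat_lit 5) (nat_lit 166) (nat_lit 5) (nat_lit 458) (nat_lit 396) (nat_lit 346)) (XT.lf (nat_lit 0) (nat_lit 366082611) (nat_lit 304) (nat_lit 3905294620) (nat_lit 380) (nat_lit 7022004307) (nat_lit 161) (nat_lit 5) (nat_lit 165) (nat_lit 5) (nat_lit 166) (nat_lit 5) (nat_lit 459) (nat_lit 396) (nat_lit 345))) (XT.nd (nat_lit 78) (nat_lit 304) (nat_lit 0) (XT.lf (nat_lit 0) (nat_lit 7991495682) (nat_lit 380) (nat_lit 3001049989) (nat_lit 76) (nat_lit 485735469)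 (nat_lit 161) (nat_lit 5) (nat_lit 166) (nat_lit 5) (nat_lit 162) (nat_lit 5) (nat_lit 460) (nat_lit 396) (nat_lit 344)) (XT.lf (nat_lit 0) (nat_lit 194006484) (nat_lit 304) (nat_lit 6516795808) (nat_lit 76) (nat_lit 4956607231) (nat_lit 157) (nat_lit 5) (nat_lit 161) (nat_lit 5) (nat_lit 158) (nat_lit 5) (nat_lit 461) (nat_lit 396) (nat_lit 343)))) (XT.nd (nat_lit 156) (nat_lit 532) (nat_lit 0) (XT.nd (nat_lit 78) (nat_lit 0) (nat_lit 0) (XT.lf (nat_lit 0) (nat_lit 1672355198) (nat_lit 304) (nat_lit 2243589070) (nat_lit 380) (nat_lit 7945209933) (nat_lit 153) (nat_lit 5) (nat_lit 157) (nat_lit 5) (nat_lit 158) (nat_lit 5) (nat_lit 462) (nat_lit 396) (nat_lit 342)) (XT.lf (nat_lit 0) (nat_lit 7793175112) (nat_lit 380) (nat_lit 1914175116) (nat_lit 76) (nat_lit 2352054090) (nat_lit 153) (nat_lit 5) (nat_lit 158) (nat_lit 5) (nat_lit 154) (nat_lit 5) (nat_lit 463) (nat_lit 396) (nat_lit 341))) (XT.nd (nat_lit 78)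 (nat_lit 304) (nat_lit 0) (XT.lf (nat_lit 0) (nat_lit 6645379977) (nat_lit 228) (nat_lit 5183274395) (nat_lit 304) (nat_lit 433691708) (nat_lit 150) (nat_lit 5) (nat_lit 153) (nat_lit 5) (nat_lit 154) (nat_lit 5) (nat_lit 464) (nat_lit 396) (nat_lit 340)) (XT.lf (nat_lit 0) (nat_lit 2983461376) (nat_lit 228) (nat_lit 466010644) (nat_lit 304) (nat_lit 9020766207) (nat_lit 146) (nat_lit 5) (nat_lit 149) (nat_lit 5) (nat_lit 150) (nat_lit 5) (nat_lit 465) (nat_lit 396) (nat_lit 339))))))))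
noncomputable def xc87 : XT := (XT.nd (nat_lit 2418) (nat_lit 2660) (nat_lit 0) (XT.nd (nat_lit 1170) (nat_lit 1976) (nat_lit 0) (XT.nd (nat_lit 546) (nat_lit 1140) (nat_lit 0) (XT.nd (nat_lit 234) (nat_lit 684) (nat_lit 0) (XT.nd (nat_lit 78) (nat_lit 532) (nat_lit 0) (XT.lf (nat_lit 0) (nat_lit 7496286888) (nat_lit 304) (nat_lit 844004857) (nat_lit 76) (nat_lit 4342272292) (nat_lit 146) (nat_lit 5) (nat_lit 150) (nat_lit 5) (nat_lit 147) (nat_lit 5) (nat_lit 466) (nat_lit 396) (nat_lit 338)) (XT.nd (nat_lit 78) (nat_lit 304) (nat_lit 0) (XT.lf (nat_lit 0) (nat_lit 8143112800) (nat_lit 228) (nat_lit 3561919937) (nat_lit 304) (nat_lit 1195012941) (nat_lit 143) (nat_lit 5) (nat_lit 146) (nat_lit 5) (nat_lit 147) (nat_lit 5) (nat_lit 467) (nat_lit 396) (nat_lit 337)) (XT.lf (nat_lit 0) (nat_lit 2880206121) (nat_lit 304) (nat_lit 8857214365) (nat_lit 76) (nat_lit 1385158569) (nat_lit 139) (nat_lit 5) (nat_lit 143)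 (nat_lit 5) (nat_lit 140) (nat_lit 5) (nat_lit 468) (nat_lit 396) (nat_lit 336)))) (XT.nd (nat_lit 156) (nat_lit 456) (nat_lit 0) (XT.nd (nat_lit 78) (nat_lit 0) (nat_lit 0) (XT.lf (nat_lit 0) (nat_lit 191970091) (nat_lit 228) (nat_lit 6905420280) (nat_lit 304) (nat_lit 6252732988) (nat_lit 136) (nat_lit 5) (nat_lit 139) (nat_lit 5) (nat_lit 140) (nat_lit 5) (nat_lit 469) (nat_lit 396) (nat_lit 335)) (XT.lf (nat_lit 0) (nat_lit 9625179336) (nat_lit 228) (nat_lit 1864012200) (nat_lit 304) (nat_lit 2093861061) (nat_lit 136) (nat_lit 5) (nat_lit 139) (nat_lit 5) (nat_lit 140) (nat_lit 5) (nat_lit 470) (nat_lit 396) (nat_lit 334))) (XT.nd (nat_lit 78) (nat_lit 152) (nat_lit 0) (XT.lf (nat_lit 0) (nat_lit 2192213620) (nat_lit 304) (nat_lit 8316817665) (nat_lit 76) (nat_lit 3311953483) (nat_lit 132) (nat_lit 5) (nat_lit 136) (nat_lit 5) (nat_lit 133) (nat_lit 5) (nat_lit 471) (nat_lit 396) (nat_lit 333)) (XT.lf (nat_lit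 0) (nat_lit 1181733876) (nat_lit 152) (nat_lit 5412969868) (nat_lit 228) (nat_lit 7469833196) (nat_lit 130) (nat_lit 5) (nat_lit 132) (nat_lit 5) (nat_lit 133) (nat_lit 5) (nat_lit 472) (nat_lit 396) (nat_lit 332))))) (XT.nd (nat_lit 312) (nat_lit 684) (nat_lit 0) (XT.nd (nat_lit 156) (nat_lit 152) (nat_lit 0) (XT.nd (nat_lit 78) (nat_lit 304) (nat_lit 0) (XT.lf (nat_lit 0) (nat_lit 11068307377) (nat_lit 152) (nat_lit 105209422) (nat_lit 228) (nat_lit 3140552895) (nat_lit 130) (nat_lit 5) (nat_lit 132) (nat_lit 5) (nat_lit 133) (nat_lit 5) (nat_lit 473) (nat_lit 396) (nat_lit 331)) (XT.lf (nat_lit 0) (nat_lit 1370678996) (nat_lit 304) (nat_lit 7889119107) (nat_lit 76) (nat_lit 5308577328) (nat_lit 126) (nat_lit 5) (nat_lit 130) (nat_lit 5) (nat_lit 127) (nat_lit 5) (nat_lit 474) (nat_lit 396) (nat_lit 330))) (XT.nd (nat_lit 78) (nat_lit 0) (nat_lit 0) (XT.lf (nat_lit 0) (nat_lit 2080899290) (nat_lit 152) (nat_lit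 3888653699) (nat_lit 228) (nat_lit 8859363041) (nat_lit 124) (nat_lit 5) (nat_lit 126) (nat_lit 5) (nat_lit 127) (nat_lit 5) (nat_lit 475) (nat_lit 396) (nat_lit 329)) (XT.lf (nat_lit 0) (nat_lit 10764157945) (nat_lit 228) (nat_lit 2666443804) (nat_lit 76) (nat_lit 1664939453) (nat_lit 124) (nat_lit 5) (nat_lit 127) (nat_lit 5) (nat_lit 125) (nat_lit 5) (nat_lit 476) (nat_lit 396) (nat_lit 328)))) (XT.nd (nat_lit 156) (nat_lit 228) (nat_lit 0) (XT.nd (nat_lit 78) (nat_lit 152) (nat_lit 0) (XT.lf (nat_lit 0) (nat_lit 402482435) (nat_lit 304) (nat_lit 7605991357) (nat_lit 76) (nat_lit 7359300690) (nat_lit 120) (nat_lit 5) (nat_lit 124) (nat_lit 5) (nat_lit 121) (nat_lit 5) (nat_lit 477) (nat_lit 396) (nat_lit 327)) (XT.lf (nat_lit 0) (nat_lit 2857890682) (nat_lit 152) (nat_lit 2350819363) (nat_lit 228) (nat_lit 10437657279) (nat_lit 118) (nat_lit 5) (nat_lit 120) (nat_lit 5) (nat_lit 121) (nat_lit 5) (nat_lit 478)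 (nat_lit 396) (nat_lit 326))) (XT.nd (nat_lit 78) (nat_lit 228) (nat_lit 0) (XT.lf (nat_lit 0) (nat_lit 10233051600) (nat_lit 228) (nat_lit 2238668530) (nat_lit 76) (nat_lit 3459381164) (nat_lit 118) (nat_lit 5) (nat_lit 121) (nat_lit 5) (nat_lit 119) (nat_lit 5) (nat_lit 479) (nat_lit 396) (nat_lit 325)) (XT.lf (nat_lit 0) (nat_lit 8711160054) (nat_lit 228) (nat_lit 6767997337) (nat_lit 304) (nat_lit 743089994) (nat_lit 115) (nat_lit 5) (nat_lit 118) (nat_lit 5) (nat_lit 119) (nat_lit 5) (nat_lit 480) (nat_lit 396) (nat_lit 324)))))) (XT.nd (nat_lit 624) (nat_lit 988) (nat_lit 0) (XT.nd (nat_lit 312) (nat_lit 380) (nat_lit 0) (XT.nd (nat_lit 156) (nat_lit 380) (nat_lit 0) (XT.nd (nat_lit 78) (nat_lit 0) (nat_lit 0) (XT.lf (nat_lit 0) (nat_lit 3476340236) (nat_lit 152) (nat_lit 819450720) (nat_lit 228) (nat_lit 12224469623) (nat_lit 112) (nat_lit 5) (nat_lit 114) (nat_lit 5) (nat_lit 115) (nat_lit 5) (nat_lit 481)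 (nat_lit 396) (nat_lit 323)) (XT.lf (nat_lit 0) (nat_lit 9562817034) (nat_lit 228) (nat_lit 2000168399) (nat_lit 76) (nat_lit 5261251619) (nat_lit 112) (nat_lit 5) (nat_lit 115) (nat_lit 5) (nat_lit 113) (nat_lit 5) (nat_lit 482) (nat_lit 396) (nat_lit 322))) (XT.nd (nat_lit 78) (nat_lit 228) (nat_lit 0) (XT.lf (nat_lit 0) (nat_lit 9490359776) (nat_lit 152) (nat_lit 5562170960) (nat_lit 228) (nat_lit 2082862774) (nat_lit 110) (nat_lit 5) (nat_lit 112) (nat_lit 5) (nat_lit 113) (nat_lit 5) (nat_lit 483) (nat_lit 396) (nat_lit 321)) (XT.lf (nat_lit 0) (nat_lit 3217430178) (nat_lit 228) (nat_lit 13566653362) (nat_lit 76) (nat_lit 669969968) (nat_lit 107) (nat_lit 5) (nat_lit 110) (nat_lit 5) (nat_lit 108) (nat_lit 5) (nat_lit 484) (nat_lit 396) (nat_lit 320)))) (XT.nd (nat_lit 156) (nat_lit 228) (nat_lit 0) (XT.nd (nat_lit 78) (nat_lit 152) (nat_lit 0) (XT.lf (nat_lit 0) (nat_lit 8733484183) (nat_lit 228) (nat_lit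 1995753411) (nat_lit 76) (nat_lit 7049459478) (nat_lit 107) (nat_lit 5) (nat_lit 110) (nat_lit 5) (nat_lit 108) (nat_lit 5) (nat_lit 485) (nat_lit 396) (nat_lit 319)) (XT.lf (nat_lit 0) (nat_lit 10058491633) (nat_lit 152) (nat_lit 4419799596) (nat_lit 228) (nat_lit 3632891455) (nat_lit 105) (nat_lit 5) (nat_lit 107) (nat_lit 5) (nat_lit 108) (nat_lit 5) (nat_lit 486) (nat_lit 396) (nat_lit 318))) (XT.nd (nat_lit 78) (nat_lit 0) (nat_lit 0) (XT.lf (nat_lit 0) (nat_lit 1950468445) (nat_lit 228) (nat_lit 14410290445) (nat_lit 76) (nat_lit 2090928027) (nat_lit 102) (nat_lit 5) (nat_lit 105) (nat_lit 5) (nat_lit 103) (nat_lit 5) (nat_lit 487) (nat_lit 396) (nat_lit 317)) (XT.lf (nat_lit 0) (nat_lit 7720993543) (nat_lit 228) (nat_lit 2277401405) (nat_lit 76) (nat_lit 8800152604) (nat_lit 102) (nat_lit 5) (nat_lit 105) (nat_lit 5) (nat_lit 103) (nat_lit 5) (nat_lit 488) (nat_lit 396) (nat_lit 316))))) (XT.nd (nat_lit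 312) (nat_lit 456) (nat_lit 0) (XT.nd (nat_lit 156) (nat_lit 152) (nat_lit 0) (XT.nd (nat_lit 78) (nat_lit 228) (nat_lit 0) (XT.lf (nat_lit 0) (nat_lit 10363174061) (nat_lit 152) (nat_lit 3368844518) (nat_lit 228) (nat_lit 5421774688) (nat_lit 100) (nat_lit 5) (nat_lit 102) (nat_lit 5) (nat_lit 103) (nat_lit 5) (nat_lit 489) (nat_lit 396) (nat_lit 315)) (XT.lf (nat_lit 0) (nat_lit 458227050) (nat_lit 228) (nat_lit 15627832650) (nat_lit 76) (nat_lit 3431648195) (nat_lit 97) (nat_lit 5) (nat_lit 100) (nat_lit 5) (nat_lit 98) (nat_lit 5) (nat_lit 490) (nat_lit 396) (nat_lit 314))) (XT.nd (nat_lit 78) (nat_lit 152) (nat_lit 0) (XT.lf (nat_lit 0) (nat_lit 6496618144) (nat_lit 228) (nat_lit 2905526143) (nat_lit 76) (nat_lit 10486057118) (nat_lit 97) (nat_lit 5) (nat_lit 100) (nat_lit 5) (nat_lit 98) (nat_lit 5) (nat_lit 491) (nat_lit 396) (nat_lit 313)) (XT.lf (nat_lit 0) (nat_lit 10343276265) (nat_lit 152) (nat_lit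 2441203613) (nat_lit 228) (nat_lit 7483280973) (nat_lit 95) (nat_lit 5) (nat_lit 97) (nat_lit 5) (nat_lit 98) (nat_lit 5) (nat_lit 492) (nat_lit 396) (nat_lit 312)))) (XT.nd (nat_lit 156) (nat_lit 228) (nat_lit 0) (XT.nd (nat_lit 78) (nat_lit 76) (nat_lit 0) (XT.lf (nat_lit 0) (nat_lit 3353852839) (nat_lit 152) (nat_lit 15983457708) (nat_lit 228) (nat_lit 1319107220) (nat_lit 93) (nat_lit 5) (nat_lit 95) (nat_lit 5) (nat_lit 96) (nat_lit 4) (nat_lit 493) (nat_lit 396) (nat_lit 311)) (XT.lf (nat_lit 0) (nat_lit 5026283208) (nat_lit 228) (nat_lit 3950440339) (nat_lit 76) (nat_lit 12075727600) (nat_lit 92) (nat_lit 5) (nat_lit 95) (nat_lit 5) (nat_lit 93) (nat_lit 5) (nat_lit 494) (nat_lit 396) (nat_lit 310))) (XT.nd (nat_lit 78) (nat_lit 76) (nat_lit 0) (XT.lf (nat_lit 0) (nat_lit 9927391016) (nat_lit 152) (nat_lit 1673525075) (nat_lit 228) (nat_lit 9857096439) (nat_lit 90) (nat_lit 5) (nat_lit 92) (nat_lit 5) (nat_lit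 93) (nat_lit 5) (nat_lit 495) (nat_lit 396) (nat_lit 309)) (XT.lf (nat_lit 0) (nat_lit 2361845045) (nat_lit 76) (nat_lit 16100223711) (nat_lit 152) (nat_lit 3410994178) (nat_lit 89) (nat_lit 5) (nat_lit 90) (nat_lit 5) (nat_lit 91) (nat_lit 4) (nat_lit 496) (nat_lit 396) (nat_lit 308))))))) (XT.nd (nat_lit 1248) (nat_lit 1140) (nat_lit 0) (XT.nd (nat_lit 624) (nat_lit 684) (nat_lit 0) (XT.nd (nat_lit 312) (nat_lit 456) (nat_lit 0) (XT.nd (nat_lit 156) (nat_lit 152) (nat_lit 0) (XT.nd (nat_lit 78) (nat_lit 152) (nat_lit 0) (XT.lf (nat_lit 0) (nat_lit 3269768243) (nat_lit 152) (nat_lit 5494045936) (nat_lit 76) (nat_lit 13532691914) (nat_lit 88) (nat_lit 5) (nat_lit 90) (nat_lit 5) (nat_lit 89) (nat_lit 5) (nat_lit 497) (nat_lit 396) (nat_lit 307)) (XT.lf (nat_lit 0) (nat_lit 9032068996) (nat_lit 152) (nat_lit 1108136591) (nat_lit 228) (nat_lit 12589700054) (nat_lit 86) (nat_lit 5) (nat_lit 88) (nat_lit 5) (nat_lit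 89) (nat_lit 5) (nat_lit 498) (nat_lit 396) (nat_lit 306))) (XT.nd (nat_lit 78) (nat_lit 76) (nat_lit 0) (XT.lf (nat_lit 0) (nat_lit 828273214) (nat_lit 76) (nat_lit 16488699502) (nat_lit 152) (nat_lit 5856328498) (nat_lit 85) (nat_lit 5) (nat_lit 86) (nat_lit 5) (nat_lit 87) (nat_lit 4) (nat_lit 499) (nat_lit 396) (nat_lit 305)) (XT.lf (nat_lit 0) (nat_lit 1179773724) (nat_lit 152) (nat_lit 7631788952) (nat_lit 76) (nat_lit 14814471741) (nat_lit 84) (nat_lit 5) (nat_lit 86) (nat_lit 5) (nat_lit 85) (nat_lit 5) (nat_lit 500) (nat_lit 396) (nat_lit 304)))) (XT.nd (nat_lit 156) (nat_lit 304) (nat_lit 0) (XT.nd (nat_lit 78) (nat_lit 0) (nat_lit 0) (XT.lf (nat_lit 0) (nat_lit 7559775537) (nat_lit 152) (nat_lit 794110432) (nat_lit 228) (nat_lit 15735385631) (nat_lit 82) (nat_lit 5) (nat_lit 84) (nat_lit 5) (nat_lit 85) (nat_lit 5) (nat_lit 501) (nat_lit 396) (nat_lit 303)) (XT.lf (nat_lit 0) (nat_lit 15864843711) (nat_lit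 228) (nat_lit 1325761818) (nat_lit 76) (nat_lit 7372152183) (nat_lit 82) (nat_lit 5) (nat_lit 85) (nat_lit 5) (nat_lit 83) (nat_lit 4) (nat_lit 502) (nat_lit 396) (nat_lit 302))) (XT.nd (nat_lit 78) (nat_lit 228) (nat_lit 0) (XT.lf (nat_lit 0) (nat_lit 14559169656) (nat_lit 76) (nat_lit 9162634607) (nat_lit 152) (nat_lit 1325024385) (nat_lit 81) (nat_lit 5) (nat_lit 82) (nat_lit 5) (nat_lit 83) (nat_lit 4) (nat_lit 503) (nat_lit 396) (nat_lit 301)) (XT.lf (nat_lit 0) (nat_lit 5396524449) (nat_lit 152) (nat_lit 788487917) (nat_lit 228) (nat_lit 19357453155) (nat_lit 78) (nat_lit 5) (nat_lit 80) (nat_lit 5) (nat_lit 81) (nat_lit 5) (nat_lit 504) (nat_lit 396) (nat_lit 300))))) (XT.nd (nat_lit 312) (nat_lit 380) (nat_lit 0) (XT.nd (nat_lit 156) (nat_lit 228) (nat_lit 0) (XT.nd (nat_lit 78) (nat_lit 76) (nat_lit 0) (XT.lf (nat_lit 0) (nat_lit 14048974682) (nat_lit 228) (nat_lit 4218340146) (nat_lit 76) (nat_lit 7780605838)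 (nat_lit 78) (nat_lit 5) (nat_lit 81) (nat_lit 5) (nat_lit 79) (nat_lit 4) (nat_lit 505) (nat_lit 396) (nat_lit 299)) (XT.lf (nat_lit 0) (nat_lit 12370910810) (nat_lit 76) (nat_lit 9878425787) (nat_lit 152) (nat_lit 4316188858) (nat_lit 77) (nat_lit 5) (nat_lit 78) (nat_lit 5) (nat_lit 79) (nat_lit 4) (nat_lit 506) (nat_lit 396) (nat_lit 298))) (XT.nd (nat_lit 78) (nat_lit 0) (nat_lit 0) (XT.lf (nat_lit 0) (nat_lit 2409136517) (nat_lit 152) (nat_lit 1157690271) (nat_lit 228) (nat_lit 23529595657) (nat_lit 74) (nat_lit 5) (nat_lit 76) (nat_lit 5) (nat_lit 77) (nat_lit 5) (nat_lit 507) (nat_lit 396) (nat_lit 297)) (XT.lf (nat_lit 0) (nat_lit 11793409047) (nat_lit 228) (nat_lit 8006210565) (nat_lit 76) (nat_lit 7836530254) (nat_lit 74) (nat_lit 5) (nat_lit 77) (nat_lit 5) (nat_lit 75) (nat_lit 4) (nat_lit 508) (nat_lit 396) (nat_lit 296)))) (XT.nd (nat_lit 156) (nat_lit 228) (nat_lit 0) (XT.nd (nat_lit 78) (nat_lit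 76) (nat_lit 0) (XT.lf (nat_lit 0) (nat_lit 9296830956) (nat_lit 76) (nat_lit 11045403250) (nat_lit 152) (nat_lit 7847571906) (nat_lit 73) (nat_lit 5) (nat_lit 74) (nat_lit 5) (nat_lit 75) (nat_lit 4) (nat_lit 509) (nat_lit 396) (nat_lit 295)) (XT.lf (nat_lit 0) (nat_lit 436184860) (nat_lit 152) (nat_lit 1527537064) (nat_lit 76) (nat_lit 26794549930) (nat_lit 72) (nat_lit 5) (nat_lit 74) (nat_lit 5) (nat_lit 73) (nat_lit 5) (nat_lit 510) (nat_lit 396) (nat_lit 294))) (XT.nd (nat_lit 78) (nat_lit 76) (nat_lit 0) (XT.lf (nat_lit 0) (nat_lit 9018439091) (nat_lit 228) (nat_lit 12853376580) (nat_lit 76) (nat_lit 7463413874) (nat_lit 70) (nat_lit 5) (nat_lit 73) (nat_lit 5) (nat_lit 71) (nat_lit 4) (nat_lit 511) (nat_lit 396) (nat_lit 293)) (XT.lf (nat_lit 0) (nat_lit 5167961038) (nat_lit 76) (nat_lit 12750338056) (nat_lit 152) (nat_lit 12009393052) (nat_lit 69) (nat_lit 5) (nat_lit 70) (nat_lit 5) (nat_lit 71) (nat_lit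 4) (nat_lit 512) (nat_lit 396) (nat_lit 292)))))) (XT.nd (nat_lit 624) (nat_lit 608) (nat_lit 0) (XT.nd (nat_lit 312) (nat_lit 228) (nat_lit 0) (XT.nd (nat_lit 156) (nat_lit 76) (nat_lit 0) (XT.nd (nat_lit 78) (nat_lit 228) (nat_lit 0) (XT.lf (nat_lit 0) (nat_lit 23946788629) (nat_lit 76) (nat_lit 3243867157) (nat_lit 152) (nat_lit 3344108128) (nat_lit 69) (nat_lit 5) (nat_lit 70) (nat_lit 5) (nat_lit 71) (nat_lit 4) (nat_lit 513) (nat_lit 396) (nat_lit 291)) (XT.lf (nat_lit 0) (nat_lit 5630774168) (nat_lit 228) (nat_lit 18951097284) (nat_lit 76) (nat_lit 6571810793) (nat_lit 66) (nat_lit 5) (nat_lit 69) (nat_lit 5) (nat_lit 67) (nat_lit 4) (nat_lit 514) (nat_lit 396) (nat_lit 290))) (XT.nd (nat_lit 78) (nat_lit 76) (nat_lit 0) (XT.lf (nat_lit 0) (nat_lit 14883221559) (nat_lit 228) (nat_lit 208947013) (nat_lit 76) (nat_lit 16695740586) (nat_lit 66) (nat_lit 5) (nat_lit 69) (nat_lit 5) (nat_lit 67) (nat_lit 4) (nat_lit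 515) (nat_lit 396) (nat_lit 289)) (XT.lf (nat_lit 0) (nat_lit 19430156452) (nat_lit 76) (nat_lit 5146782885) (nat_lit 152) (nat_lit 7859312913) (nat_lit 65) (nat_lit 5) (nat_lit 66) (nat_lit 5) (nat_lit 67) (nat_lit 4) (nat_lit 516) (nat_lit 396) (nat_lit 288)))) (XT.nd (nat_lit 156) (nat_lit 76) (nat_lit 0) (XT.nd (nat_lit 78) (nat_lit 0) (nat_lit 0) (XT.lf (nat_lit 0) (nat_lit 1521366862) (nat_lit 152) (nat_lit 26522337814) (nat_lit 76) (nat_lit 5057149429) (nat_lit 63) (nat_lit 5) (nat_lit 65) (nat_lit 5) (nat_lit 64) (nat_lit 4) (nat_lit 517) (nat_lit 396) (nat_lit 287)) (XT.lf (nat_lit 0) (nat_lit 11186086209) (nat_lit 152) (nat_lit 6938779501) (nat_lit 76) (nat_lit 15653376605) (nat_lit 63) (nat_lit 5) (nat_lit 65) (nat_lit 5) (nat_lit 64) (nat_lit 4) (nat_lit 518) (nat_lit 396) (nat_lit 286))) (XT.nd (nat_lit 78) (nat_lit 0) (nat_lit 0) (XT.lf (nat_lit 0) (nat_lit 13451539626) (nat_lit 76) (nat_lit 7796171080)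 (nat_lit 152) (nat_lit 13225032806) (nat_lit 62) (nat_lit 5) (nat_lit 63) (nat_lit 5) (nat_lit 64) (nat_lit 4) (nat_lit 519) (nat_lit 396) (nat_lit 285)) (XT.lf (nat_lit 0) (nat_lit 31686967757) (nat_lit 152) (nat_lit 661461969) (nat_lit 0) (nat_lit 2837376745) (nat_lit 62) (nat_lit 5) (nat_lit 64) (nat_lit 4) (nat_lit 62) (nat_lit 4) (nat_lit 520) (nat_lit 396) (nat_lit 284))))) (XT.nd (nat_lit 312) (nat_lit 228) (nat_lit 0) (XT.nd (nat_lit 156) (nat_lit 152) (nat_lit 0) (XT.nd (nat_lit 78) (nat_lit 76) (nat_lit 0) (XT.lf (nat_lit 0) (nat_lit 6647917236) (nat_lit 152) (nat_lit 15386146370) (nat_lit 76) (nat_lit 13876638323) (nat_lit 60) (nat_lit 5) (nat_lit 62) (nat_lit 5) (nat_lit 61) (nat_lit 4) (nat_lit 521) (nat_lit 396) (nat_lit 283)) (XT.lf (nat_lit 0) (nat_lit 5737793253) (nat_lit 76) (nat_lit 11331227412) (nat_lit 152) (nat_lit 19586076507) (nat_lit 59) (nat_lit 5) (nat_lit 60) (nat_lit 5) (nat_lit 61)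 (nat_lit 4) (nat_lit 522) (nat_lit 396) (nat_lit 282))) (XT.nd (nat_lit 78) (nat_lit 152) (nat_lit 0) (XT.lf (nat_lit 0) (nat_lit 27769231338) (nat_lit 76) (nat_lit 167492979) (nat_lit 152) (nat_lit 9481081156) (nat_lit 59) (nat_lit 5) (nat_lit 60) (nat_lit 5) (nat_lit 61) (nat_lit 4) (nat_lit 523) (nat_lit 396) (nat_lit 281)) (XT.lf (nat_lit 0) (nat_lit 1117683874) (nat_lit 152) (nat_lit 25858718781) (nat_lit 76) (nat_lit 11220463918) (nat_lit 57) (nat_lit 5) (nat_lit 59) (nat_lit 5) (nat_lit 58) (nat_lit 4) (nat_lit 524) (nat_lit 396) (nat_lit 280)))) (XT.nd (nat_lit 156) (nat_lit 152) (nat_lit 0) (XT.nd (nat_lit 78) (nat_lit 76) (nat_lit 0) (XT.lf (nat_lit 0) (nat_lit 11922954470) (nat_lit 152) (nat_lit 3951474022) (nat_lit 76) (nat_lit 23119681960) (nat_lit 57) (nat_lit 5) (nat_lit 59) (nat_lit 5) (nat_lit 58) (nat_lit 4) (nat_lit 525) (nat_lit 396) (nat_lit 279)) (XT.lf (nat_lit 0) (nat_lit 18942963578) (nat_lit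 76) (nat_lit 4271169465) (nat_lit 152) (nat_lit 16596286299) (nat_lit 56) (nat_lit 5) (nat_lit 57) (nat_lit 5) (nat_lit 58) (nat_lit 4) (nat_lit 526) (nat_lit 396) (nat_lit 278))) (XT.nd (nat_lit 78) (nat_lit 76) (nat_lit 0) (XT.lf (nat_lit 0) (nat_lit 1877937931) (nat_lit 76) (nat_lit 33077974059) (nat_lit 76) (nat_lit 5691949742) (nat_lit 55) (nat_lit 4) (nat_lit 56) (nat_lit 5) (nat_lit 56) (nat_lit 4) (nat_lit 527) (nat_lit 396) (nat_lit 277)) (XT.lf (nat_lit 0) (nat_lit 5666220307) (nat_lit 152) (nat_lit 15907990104) (nat_lit 76) (nat_lit 19927575700) (nat_lit 54) (nat_lit 5) (nat_lit 56) (nat_lit 5) (nat_lit 55) (nat_lit 4) (nat_lit 528) (nat_lit 396) (nat_lit 276))))))))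
noncomputable def xc88 : XT := (XT.nd (nat_lit 53352) (nat_lit 0) (nat_lit 14592) (XT.nd (nat_lit 1170) (nat_lit 532) (nat_lit 0) (XT.nd (nat_lit 546) (nat_lit 456) (nat_lit 0) (XT.nd (nat_lit 234) (nat_lit 304) (nat_lit 0) (XT.nd (nat_lit 78) (nat_lit 76) (nat_lit 0) (XT.lf (nat_lit 0) (nat_lit 7695044701) (nat_lit 76) (nat_lit 9609952622) (nat_lit 152) (nat_lit 25073012458) (nat_lit 53) (nat_lit 5) (nat_lit 54) (nat_lit 5) (nat_lit 55) (nat_lit 4) (nat_lit 529) (nat_lit 396) (nat_lit 275)) (XT.nd (nat_lit 78) (nat_lit 76) (nat_lit 0) (XT.lf (nat_lit 0) (nat_lit 29461571168) (nat_lit 152) (nat_lit 11009690458) (nat_lit 0) (nat_lit 2804199693) (nat_lit 53) (nat_lit 5) (nat_lit 55) (nat_lit 4) (nat_lit 53) (nat_lit 4) (nat_lit 530) (nat_lit 396) (nat_lit 274)) (XT.lf (nat_lit 0) (nat_lit 13504697025) (nat_lit 76) (nat_lit 28684004061) (nat_lit 76) (nat_lit 2004959711) (nat_lit 52) (nat_lit 4) (nat_lit 53) (nat_lit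 5) (nat_lit 53) (nat_lit 4) (nat_lit 531) (nat_lit 396) (nat_lit 273)))) (XT.nd (nat_lit 156) (nat_lit 152) (nat_lit 0) (XT.nd (nat_lit 78) (nat_lit 76) (nat_lit 0) (XT.lf (nat_lit 0) (nat_lit 10053199797) (nat_lit 152) (nat_lit 6292090386) (nat_lit 76) (nat_lit 28788391260) (nat_lit 51) (nat_lit 5) (nat_lit 53) (nat_lit 5) (nat_lit 52) (nat_lit 4) (nat_lit 532) (nat_lit 396) (nat_lit 272)) (XT.lf (nat_lit 0) (nat_lit 19154222043) (nat_lit 76) (nat_lit 3444170460) (nat_lit 152) (nat_lit 23497947236) (nat_lit 50) (nat_lit 5) (nat_lit 51) (nat_lit 5) (nat_lit 52) (nat_lit 4) (nat_lit 533) (nat_lit 396) (nat_lit 271))) (XT.nd (nat_lit 78) (nat_lit 152) (nat_lit 0) (XT.lf (nat_lit 0) (nat_lit 35660221827) (nat_lit 152) (nat_lit 1724729237) (nat_lit 0) (nat_lit 9698718437) (nat_lit 50) (nat_lit 5) (nat_lit 52) (nat_lit 4) (nat_lit 50) (nat_lit 4) (nat_lit 534) (nat_lit 396) (nat_lit 270)) (XT.lf (nat_lit 0) (nat_lit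 1249204317) (nat_lit 152) (nat_lit 23444313837) (nat_lit 76) (nat_lit 23399138215) (nat_lit 48) (nat_lit 5) (nat_lit 50) (nat_lit 5) (nat_lit 49) (nat_lit 4) (nat_lit 535) (nat_lit 396) (nat_lit 269))))) (XT.nd (nat_lit 312) (nat_lit 228) (nat_lit 0) (XT.nd (nat_lit 156) (nat_lit 152) (nat_lit 0) (XT.nd (nat_lit 78) (nat_lit 0) (nat_lit 0) (XT.lf (nat_lit 0) (nat_lit 2619044162) (nat_lit 76) (nat_lit 11478193993) (nat_lit 152) (nat_lit 35030537646) (nat_lit 47) (nat_lit 5) (nat_lit 48) (nat_lit 5) (nat_lit 49) (nat_lit 4) (nat_lit 536) (nat_lit 396) (nat_lit 268)) (XT.lf (nat_lit 0) (nat_lit 27572366495) (nat_lit 152) (nat_lit 20300190935) (nat_lit 0) (nat_lit 2314141907) (nat_lit 47) (nat_lit 5) (nat_lit 49) (nat_lit 4) (nat_lit 47) (nat_lit 4) (nat_lit 537) (nat_lit 396) (nat_lit 267))) (XT.nd (nat_lit 78) (nat_lit 76) (nat_lit 0) (XT.lf (nat_lit 0) (nat_lit 6676902009) (nat_lit 76) (nat_lit 34935255732) (nat_lit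 76) (nat_lit 9660420690) (nat_lit 46) (nat_lit 4) (nat_lit 47) (nat_lit 5) (nat_lit 47) (nat_lit 4) (nat_lit 538) (nat_lit 396) (nat_lit 266)) (XT.lf (nat_lit 0) (nat_lit 3799870082) (nat_lit 152) (nat_lit 17577225430) (nat_lit 76) (nat_lit 31007188285) (nat_lit 45) (nat_lit 5) (nat_lit 47) (nat_lit 5) (nat_lit 46) (nat_lit 4) (nat_lit 539) (nat_lit 396) (nat_lit 265)))) (XT.nd (nat_lit 156) (nat_lit 152) (nat_lit 0) (XT.nd (nat_lit 78) (nat_lit 0) (nat_lit 0) (XT.lf (nat_lit 0) (nat_lit 10324236397) (nat_lit 76) (nat_lit 7227908942) (nat_lit 152) (nat_lit 35971855445) (nat_lit 44) (nat_lit 5) (nat_lit 45) (nat_lit 5) (nat_lit 46) (nat_lit 4) (nat_lit 540) (nat_lit 396) (nat_lit 264)) (XT.lf (nat_lit 0) (nat_lit 31949969464) (nat_lit 152) (nat_lit 15375271880) (nat_lit 0) (nat_lit 7365678627) (nat_lit 44) (nat_lit 5) (nat_lit 46) (nat_lit 4) (nat_lit 44) (nat_lit 4) (nat_lit 541) (nat_lit 396) (nat_lit 263))) (XT.nd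 (nat_lit 78) (nat_lit 76) (nat_lit 0) (XT.lf (nat_lit 0) (nat_lit 13442295495) (nat_lit 76) (nat_lit 33521819453) (nat_lit 76) (nat_lit 8923200293) (nat_lit 43) (nat_lit 4) (nat_lit 44) (nat_lit 5) (nat_lit 44) (nat_lit 4) (nat_lit 542) (nat_lit 396) (nat_lit 262)) (XT.lf (nat_lit 0) (nat_lit 5345896334) (nat_lit 152) (nat_lit 13760360594) (nat_lit 76) (nat_lit 38007602118) (nat_lit 42) (nat_lit 5) (nat_lit 44) (nat_lit 5) (nat_lit 43) (nat_lit 4) (nat_lit 543) (nat_lit 396) (nat_lit 261)))))) (XT.nd (nat_lit 624) (nat_lit 76) (nat_lit 0) (XT.nd (nat_lit 312) (nat_lit 228) (nat_lit 0) (XT.nd (nat_lit 156) (nat_lit 152) (nat_lit 0) (XT.nd (nat_lit 78) (nat_lit 0) (nat_lit 0) (XT.lf (nat_lit 0) (nat_lit 15976785966) (nat_lit 76) (nat_lit 4024604151) (nat_lit 152) (nat_lit 38369028537) (nat_lit 41) (nat_lit 5) (nat_lit 42) (nat_lit 5) (nat_lit 43) (nat_lit 4) (nat_lit 544) (nat_lit 396) (nat_lit 260)) (XT.lf (nat_lit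 0) (nat_lit 35331622172) (nat_lit 152) (nat_lit 12915881916) (nat_lit 0) (nat_lit 11410118852) (nat_lit 41) (nat_lit 5) (nat_lit 43) (nat_lit 4) (nat_lit 41) (nat_lit 4) (nat_lit 545) (nat_lit 396) (nat_lit 259))) (XT.nd (nat_lit 78) (nat_lit 76) (nat_lit 0) (XT.lf (nat_lit 0) (nat_lit 17721598888) (nat_lit 76) (nat_lit 33594932259) (nat_lit 76) (nat_lit 9661069201) (nat_lit 40) (nat_lit 4) (nat_lit 41) (nat_lit 5) (nat_lit 41) (nat_lit 4) (nat_lit 546) (nat_lit 396) (nat_lit 258)) (XT.lf (nat_lit 0) (nat_lit 5453877077) (nat_lit 152) (nat_lit 12874492336) (nat_lit 76) (nat_lit 44003749019) (nat_lit 39) (nat_lit 5) (nat_lit 41) (nat_lit 5) (nat_lit 40) (nat_lit 4) (nat_lit 547) (nat_lit 396) (nat_lit 257)))) (XT.nd (nat_lit 156) (nat_lit 152) (nat_lit 0) (XT.nd (nat_lit 78) (nat_lit 0) (nat_lit 0) (XT.lf (nat_lit 0) (nat_lit 18657192993) (nat_lit 76) (nat_lit 2335273033) (nat_lit 152) (nat_lit 42727005325) (nat_lit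 38) (nat_lit 5) (nat_lit 39) (nat_lit 5) (nat_lit 40) (nat_lit 4) (nat_lit 548) (nat_lit 396) (nat_lit 256)) (XT.lf (nat_lit 0) (nat_lit 37249447687) (nat_lit 152) (nat_lit 13912685381) (nat_lit 0) (nat_lit 13978744820) (nat_lit 38) (nat_lit 5) (nat_lit 40) (nat_lit 4) (nat_lit 38) (nat_lit 4) (nat_lit 549) (nat_lit 396) (nat_lit 255))) (XT.nd (nat_lit 78) (nat_lit 76) (nat_lit 0) (XT.lf (nat_lit 0) (nat_lit 18480053780) (nat_lit 76) (nat_lit 35700325101) (nat_lit 76) (nat_lit 12418960615) (nat_lit 37) (nat_lit 4) (nat_lit 38) (nat_lit 5) (nat_lit 38) (nat_lit 4) (nat_lit 550) (nat_lit 396) (nat_lit 254)) (XT.lf (nat_lit 0) (nat_lit 3576405386) (nat_lit 152) (nat_lit 16031612637) (nat_lit 76) (nat_lit 48488701631) (nat_lit 36) (nat_lit 5) (nat_lit 38) (nat_lit 5) (nat_lit 37) (nat_lit 4) (nat_lit 551) (nat_lit 396) (nat_lit 253))))) (XT.nd (nat_lit 51246) (nat_lit 0) (nat_lit 29868) (XT.nd (nat_lit 51090) (nat_lit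 0) (nat_lit 31084) (XT.nd (nat_lit 78) (nat_lit 0) (nat_lit 0) (XT.lf (nat_lit 0) (nat_lit 17203432714) (nat_lit 76) (nat_lit 2749866736) (nat_lit 152) (nat_lit 49677494761) (nat_lit 35) (nat_lit 5) (nat_lit 36) (nat_lit 5) (nat_lit 37) (nat_lit 4) (nat_lit 552) (nat_lit 396) (nat_lit 252)) (XT.lf (nat_lit 0) (nat_lit 37111387596) (nat_lit 152) (nat_lit 19611964954) (nat_lit 0) (nat_lit 14478841905) (nat_lit 35) (nat_lit 5) (nat_lit 37) (nat_lit 4) (nat_lit 35) (nat_lit 4) (nat_lit 553) (nat_lit 396) (nat_lit 251))) (XT.nd (nat_lit 78) (nat_lit 76) (nat_lit 0) (XT.lf (nat_lit 0) (nat_lit 577632190) (nat_lit 228) (nat_lit 1331190503) (nat_lit 228) (nat_lit 1331190503) (nat_lit 445) (nat_lit 4) (nat_lit 448) (nat_lit 5) (nat_lit 448) (nat_lit 4) (nat_lit 406) (nat_lit 397) (nat_lit 397)) (XT.lf (nat_lit 0) (nat_lit 546973598) (nat_lit 304) (nat_lit 1651629039) (nat_lit 76) (nat_lit 4295693741) (nat_lit 444) (nat_lit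 5) (nat_lit 448) (nat_lit 5) (nat_lit 445) (nat_lit 4) (nat_lit 407) (nat_lit 397) (nat_lit 396)))) (XT.nd (nat_lit 156) (nat_lit 836) (nat_lit 0) (XT.nd (nat_lit 78) (nat_lit 76) (nat_lit 0) (XT.lf (nat_lit 0) (nat_lit 2072762567) (nat_lit 304) (nat_lit 1629842003) (nat_lit 380) (nat_lit 2808513019) (nat_lit 440) (nat_lit 5) (nat_lit 444) (nat_lit 5) (nat_lit 445) (nat_lit 4) (nat_lit 408) (nat_lit 397) (nat_lit 395)) (XT.lf (nat_lit 0) (nat_lit 318155479) (nat_lit 380) (nat_lit 664056113) (nat_lit 76) (nat_lit 5549068164) (nat_lit 439) (nat_lit 5) (nat_lit 444) (nat_lit 5) (nat_lit 440) (nat_lit 5) (nat_lit 409) (nat_lit 397) (nat_lit 394))) (XT.nd (nat_lit 78) (nat_lit 456) (nat_lit 0) (XT.lf (nat_lit 0) (nat_lit 3185385759) (nat_lit 380) (nat_lit 215889297) (nat_lit 456) (nat_lit 3152382057) (nat_lit 434) (nat_lit 5) (nat_lit 439) (nat_lit 5) (nat_lit 440) (nat_lit 5) (nat_lit 410) (nat_lit 397) (nat_lit 393))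 (XT.lf (nat_lit 0) (nat_lit 516549111) (nat_lit 456) (nat_lit 5968984731) (nat_lit 532) (nat_lit 93929586) (nat_lit 428) (nat_lit 5) (nat_lit 434) (nat_lit 5) (nat_lit 435) (nat_lit 4) (nat_lit 411) (nat_lit 397) (nat_lit 392))))))) (XT.nd (nat_lit 1170) (nat_lit 7220) (nat_lit 0) (XT.nd (nat_lit 546) (nat_lit 5168) (nat_lit 0) (XT.nd (nat_lit 234) (nat_lit 2204) (nat_lit 0) (XT.nd (nat_lit 78) (nat_lit 608) (nat_lit 0) (XT.lf (nat_lit 0) (nat_lit 2925899352) (nat_lit 532) (nat_lit 2126698173) (nat_lit 76) (nat_lit 1554703218) (nat_lit 427) (nat_lit 5) (nat_lit 434) (nat_lit 5) (nat_lit 428) (nat_lit 5) (nat_lit 412) (nat_lit 397) (nat_lit 391)) (XT.nd (nat_lit 78) (nat_lit 76) (nat_lit 0) (XT.lf (nat_lit 0) (nat_lit 1888989822) (nat_lit 532) (nat_lit 4059501281) (nat_lit 608) (nat_lit 690048064) (nat_lit 420) (nat_lit 5) (nat_lit 427) (nat_lit 5) (nat_lit 428) (nat_lit 5) (nat_lit 413) (nat_lit 397) (nat_lit 390))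 (XT.lf (nat_lit 0) (nat_lit 2263273783) (nat_lit 608) (nat_lit 700399046) (nat_lit 76) (nat_lit 3708800481) (nat_lit 419) (nat_lit 5) (nat_lit 427) (nat_lit 5) (nat_lit 420) (nat_lit 5) (nat_lit 414) (nat_lit 397) (nat_lit 389)))) (XT.nd (nat_lit 156) (nat_lit 836) (nat_lit 0) (XT.nd (nat_lit 78) (nat_lit 760) (nat_lit 0) (XT.lf (nat_lit 0) (nat_lit 3457190373) (nat_lit 608) (nat_lit 1767560227) (nat_lit 684) (nat_lit 1484481419) (nat_lit 411) (nat_lit 5) (nat_lit 419) (nat_lit 5) (nat_lit 420) (nat_lit 5) (nat_lit 415) (nat_lit 397) (nat_lit 388)) (XT.lf (nat_lit 0) (nat_lit 935563324) (nat_lit 684) (nat_lit 480152346) (nat_lit 760) (nat_lit 5333423995) (nat_lit 401) (nat_lit 5) (nat_lit 410) (nat_lit 5) (nat_lit 411) (nat_lit 5) (nat_lit 416) (nat_lit 397) (nat_lit 387))) (XT.nd (nat_lit 78) (nat_lit 836) (nat_lit 0) (XT.lf (nat_lit 0) (nat_lit 4318167454) (nat_lit 760) (nat_lit 1574257015) (nat_lit 76) (nat_lit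 899039607) (nat_lit 401) (nat_lit 5) (nat_lit 411) (nat_lit 5) (nat_lit 402) (nat_lit 5) (nat_lit 417) (nat_lit 397) (nat_lit 386)) (XT.lf (nat_lit 0) (nat_lit 400723526) (nat_lit 836) (nat_lit 4074442809) (nat_lit 76) (nat_lit 2361648520) (nat_lit 390) (nat_lit 5) (nat_lit 401) (nat_lit 5) (nat_lit 391) (nat_lit 5) (nat_lit 418) (nat_lit 397) (nat_lit 385))))) (XT.nd (nat_lit 312) (nat_lit 3344) (nat_lit 0) (XT.nd (nat_lit 156) (nat_lit 988) (nat_lit 0) (XT.nd (nat_lit 78) (nat_lit 0) (nat_lit 0) (XT.lf (nat_lit 0) (nat_lit 283033402) (nat_lit 836) (nat_lit 2954676432) (nat_lit 912) (nat_lit 3647299917) (nat_lit 379) (nat_lit 5) (nat_lit 390) (nat_lit 5) (nat_lit 391) (nat_lit 5) (nat_lit 419) (nat_lit 397) (nat_lit 384)) (XT.lf (nat_lit 0) (nat_lit 4779337132) (nat_lit 836) (nat_lit 1331257778) (nat_lit 912) (nat_lit 825543490) (nat_lit 379) (nat_lit 5) (nat_lit 390) (nat_lit 5) (nat_lit 391) (nat_lit 5) (nat_lit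 420) (nat_lit 397) (nat_lit 383))) (XT.nd (nat_lit 78) (nat_lit 0) (nat_lit 0) (XT.lf (nat_lit 0) (nat_lit 1978300216) (nat_lit 988) (nat_lit 4620980236) (nat_lit 76) (nat_lit 390790104) (nat_lit 366) (nat_lit 5) (nat_lit 379) (nat_lit 5) (nat_lit 367) (nat_lit 5) (nat_lit 421) (nat_lit 397) (nat_lit 382)) (XT.lf (nat_lit 0) (nat_lit 4798226642) (nat_lit 988) (nat_lit 68560219) (nat_lit 76) (nat_lit 2180142399) (nat_lit 366) (nat_lit 5) (nat_lit 379) (nat_lit 5) (nat_lit 367) (nat_lit 5) (nat_lit 422) (nat_lit 397) (nat_lit 381)))) (XT.nd (nat_lit 156) (nat_lit 1216) (nat_lit 0) (XT.nd (nat_lit 78) (nat_lit 1064) (nat_lit 0) (XT.lf (nat_lit 0) (nat_lit 545673481) (nat_lit 1064) (nat_lit 2475890472) (nat_lit 76) (nat_lit 4084965397) (nat_lit 352) (nat_lit 5) (nat_lit 366) (nat_lit 5) (nat_lit 353) (nat_lit 5) (nat_lit 423) (nat_lit 397) (nat_lit 380)) (XT.lf (nat_lit 0) (nat_lit 2250278952) (nat_lit 1064) (nat_lit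 1067554997) (nat_lit 1140) (nat_lit 3851250768) (nat_lit 338) (nat_lit 5) (nat_lit 352) (nat_lit 5) (nat_lit 353) (nat_lit 5) (nat_lit 424) (nat_lit 397) (nat_lit 379))) (XT.nd (nat_lit 78) (nat_lit 1216) (nat_lit 0) (XT.lf (nat_lit 0) (nat_lit 6126077769) (nat_lit 1140) (nat_lit 150570228) (nat_lit 76) (nat_lit 958290608) (nat_lit 338) (nat_lit 5) (nat_lit 353) (nat_lit 5) (nat_lit 339) (nat_lit 5) (nat_lit 425) (nat_lit 397) (nat_lit 378)) (XT.lf (nat_lit 0) (nat_lit 1659444848) (nat_lit 1216) (nat_lit 2551744641) (nat_lit 76) (nat_lit 3091778930) (nat_lit 322) (nat_lit 5) (nat_lit 338) (nat_lit 5) (nat_lit 323) (nat_lit 5) (nat_lit 426) (nat_lit 397) (nat_lit 377)))))) (XT.nd (nat_lit 624) (nat_lit 2584) (nat_lit 0) (XT.nd (nat_lit 312) (nat_lit 1900) (nat_lit 0) (XT.nd (nat_lit 156) (nat_lit 684) (nat_lit 0) (XT.nd (nat_lit 78) (nat_lit 836) (nat_lit 0) (XT.lf (nat_lit 0) (nat_lit 2389773428) (nat_lit 1216)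 (nat_lit 2045013639) (nat_lit 1292) (nat_lit 2939543082) (nat_lit 306) (nat_lit 5) (nat_lit 322) (nat_lit 5) (nat_lit 323) (nat_lit 5) (nat_lit 427) (nat_lit 397) (nat_lit 376)) (XT.lf (nat_lit 0) (nat_lit 5236160) (nat_lit 836) (nat_lit 7239351058) (nat_lit 912) (nat_lit 204717950) (nat_lit 295) (nat_lit 5) (nat_lit 306) (nat_lit 5) (nat_lit 307) (nat_lit 5) (nat_lit 428) (nat_lit 397) (nat_lit 375))) (XT.nd (nat_lit 78) (nat_lit 608) (nat_lit 0) (XT.lf (nat_lit 0) (nat_lit 2556336972) (nat_lit 912) (nat_lit 2402338842) (nat_lit 76) (nat_lit 2567253494) (nat_lit 294) (nat_lit 5) (nat_lit 306) (nat_lit 5) (nat_lit 295) (nat_lit 5) (nat_lit 429) (nat_lit 397) (nat_lit 374)) (XT.lf (nat_lit 0) (nat_lit 2766518366) (nat_lit 608) (nat_lit 2582472617) (nat_lit 684) (nat_lit 2257221576) (nat_lit 286) (nat_lit 5) (nat_lit 294) (nat_lit 5) (nat_lit 295) (nat_lit 5) (nat_lit 430) (nat_lit 397) (nat_lit 373)))) (XT.nd (nat_lit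 156) (nat_lit 1216) (nat_lit 0) (XT.nd (nat_lit 78) (nat_lit 0) (nat_lit 0) (XT.lf (nat_lit 0) (nat_lit 376665828) (nat_lit 608) (nat_lit 104493212) (nat_lit 684) (nat_lit 7208944519) (nat_lit 277) (nat_lit 5) (nat_lit 285) (nat_lit 5) (nat_lit 286) (nat_lit 5) (nat_lit 431) (nat_lit 397) (nat_lit 372)) (XT.lf (nat_lit 0) (nat_lit 3257549793) (nat_lit 684) (nat_lit 2050839192) (nat_lit 76) (nat_lit 2467422049) (nat_lit 277) (nat_lit 5) (nat_lit 286) (nat_lit 5) (nat_lit 278) (nat_lit 5) (nat_lit 432) (nat_lit 397) (nat_lit 371))) (XT.nd (nat_lit 78) (nat_lit 684) (nat_lit 0) (XT.lf (nat_lit 0) (nat_lit 3358253680) (nat_lit 532) (nat_lit 2722723250) (nat_lit 608) (nat_lit 1784207266) (nat_lit 270) (nat_lit 5) (nat_lit 277) (nat_lit 5) (nat_lit 278) (nat_lit 5) (nat_lit 433) (nat_lit 397) (nat_lit 370)) (XT.lf (nat_lit 0) (nat_lit 946879923) (nat_lit 608) (nat_lit 25919615) (nat_lit 684) (nat_lit 6985315857) (nat_lit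 261) (nat_lit 5) (nat_lit 269) (nat_lit 5) (nat_lit 270) (nat_lit 5) (nat_lit 434) (nat_lit 397) (nat_lit 369))))) (XT.nd (nat_lit 312) (nat_lit 1444) (nat_lit 0) (XT.nd (nat_lit 156) (nat_lit 608) (nat_lit 0) (XT.nd (nat_lit 78) (nat_lit 532) (nat_lit 0) (XT.lf (nat_lit 0) (nat_lit 3781321705) (nat_lit 684) (nat_lit 1518068493) (nat_lit 76) (nat_lit 2753780616) (nat_lit 261) (nat_lit 5) (nat_lit 270) (nat_lit 5) (nat_lit 262) (nat_lit 5) (nat_lit 435) (nat_lit 397) (nat_lit 368)) (XT.lf (nat_lit 0) (nat_lit 4145062017) (nat_lit 532) (nat_lit 2503364571) (nat_lit 608) (nat_lit 1503427539) (nat_lit 254) (nat_lit 5) (nat_lit 261) (nat_lit 5) (nat_lit 262) (nat_lit 5) (nat_lit 436) (nat_lit 397) (nat_lit 367))) (XT.nd (nat_lit 78) (nat_lit 0) (nat_lit 0) (XT.lf (nat_lit 0) (nat_lit 1292303230) (nat_lit 608) (nat_lit 6557865291) (nat_lit 76) (nat_lit 403829515) (nat_lit 246) (nat_lit 5) (nat_lit 254) (nat_lit 5) (nat_lit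 247) (nat_lit 5) (nat_lit 437) (nat_lit 397) (nat_lit 366)) (XT.lf (nat_lit 0) (nat_lit 4143181653) (nat_lit 608) (nat_lit 822881076) (nat_lit 76) (nat_lit 3392657707) (nat_lit 246) (nat_lit 5) (nat_lit 254) (nat_lit 5) (nat_lit 247) (nat_lit 5) (nat_lit 438) (nat_lit 397) (nat_lit 365)))) (XT.nd (nat_lit 156) (nat_lit 456) (nat_lit 0) (XT.nd (nat_lit 78) (nat_lit 532) (nat_lit 0) (XT.lf (nat_lit 0) (nat_lit 5108995647) (nat_lit 456) (nat_lit 1957416140) (nat_lit 532) (nat_lit 1400573331) (nat_lit 240) (nat_lit 5) (nat_lit 246) (nat_lit 5) (nat_lit 247) (nat_lit 5) (nat_lit 439) (nat_lit 397) (nat_lit 364)) (XT.lf (nat_lit 0) (nat_lit 1452680339) (nat_lit 532) (nat_lit 5971528992) (nat_lit 76) (nat_lit 1154368625) (nat_lit 233) (nat_lit 5) (nat_lit 240) (nat_lit 5) (nat_lit 234) (nat_lit 5) (nat_lit 440) (nat_lit 397) (nat_lit 363))) (XT.nd (nat_lit 78) (nat_lit 0) (nat_lit 0) (XT.lf (nat_lit 0) (nat_lit 17830660)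 (nat_lit 456) (nat_lit 4338501738) (nat_lit 532) (nat_lit 4336986556) (nat_lit 227) (nat_lit 5) (nat_lit 233) (nat_lit 5) (nat_lit 234) (nat_lit 5) (nat_lit 441) (nat_lit 397) (nat_lit 362)) (XT.lf (nat_lit 0) (nat_lit 6233722836) (nat_lit 456) (nat_lit 1113872121) (nat_lit 532) (nat_lit 1463896969) (nat_lit 227) (nat_lit 5) (nat_lit 233) (nat_lit 5) (nat_lit 234) (nat_lit 5) (nat_lit 442) (nat_lit 397) (nat_lit 361))))))))
noncomputable def xc89 : XT := (XT.nd (nat_lit 2418) (nat_lit 3952) (nat_lit 0) (XT.nd (nat_lit 1170) (nat_lit 3040) (nat_lit 0) (XT.nd (nat_lit 546) (nat_lit 2052) (nat_lit 0) (XT.nd (nat_lit 234) (nat_lit 1368) (nat_lit 0) (XT.nd (nat_lit 78) (nat_lit 380) (nat_lit 0) (XT.lf (nat_lit 0) (nat_lit 1464558841) (nat_lit 532) (nat_lit 5269136847) (nat_lit 76) (nat_lit 2199137043) (nat_lit 220) (nat_lit 5) (nat_lit 227) (nat_lit 5) (nat_lit 221) (nat_lit 5) (nat_lit 443) (nat_lit 397) (nat_lit 360))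 (XT.nd (nat_lit 78) (nat_lit 0) (nat_lit 0) (XT.lf (nat_lit 0) (nat_lit 1006700839) (nat_lit 380) (nat_lit 3433943927) (nat_lit 456) (nat_lit 4617062558) (nat_lit 215) (nat_lit 5) (nat_lit 220) (nat_lit 5) (nat_lit 221) (nat_lit 5) (nat_lit 444) (nat_lit 397) (nat_lit 359)) (XT.lf (nat_lit 0) (nat_lit 7502410056) (nat_lit 456) (nat_lit 1682270506) (nat_lit 76) (nat_lit 1759930) (nat_lit 215) (nat_lit 5) (nat_lit 221) (nat_lit 5) (nat_lit 216) (nat_lit 5) (nat_lit 445) (nat_lit 397) (nat_lit 358)))) (XT.nd (nat_lit 156) (nat_lit 456) (nat_lit 0) (XT.nd (nat_lit 78) (nat_lit 380) (nat_lit 0) (XT.lf (nat_lit 0) (nat_lit 1336571269) (nat_lit 532) (nat_lit 4466886090) (nat_lit 76) (nat_lit 3514426685) (nat_lit 208) (nat_lit 5) (nat_lit 215) (nat_lit 5) (nat_lit 209) (nat_lit 5) (nat_lit 446) (nat_lit 397) (nat_lit 357)) (XT.lf (nat_lit 0) (nat_lit 2112029507) (nat_lit 380) (nat_lit 2284397721) (nat_lit 456) (nat_lit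 5056872843) (nat_lit 203) (nat_lit 5) (nat_lit 208) (nat_lit 5) (nat_lit 209) (nat_lit 5) (nat_lit 447) (nat_lit 397) (nat_lit 356))) (XT.nd (nat_lit 78) (nat_lit 456) (nat_lit 0) (XT.lf (nat_lit 0) (nat_lit 7552247054) (nat_lit 456) (nat_lit 699915703) (nat_lit 76) (nat_lit 1340494541) (nat_lit 203) (nat_lit 5) (nat_lit 209) (nat_lit 5) (nat_lit 204) (nat_lit 5) (nat_lit 448) (nat_lit 397) (nat_lit 355)) (XT.lf (nat_lit 0) (nat_lit 1075216386) (nat_lit 456) (nat_lit 3580345149) (nat_lit 76) (nat_lit 5079445218) (nat_lit 197) (nat_lit 5) (nat_lit 203) (nat_lit 5) (nat_lit 198) (nat_lit 5) (nat_lit 449) (nat_lit 397) (nat_lit 354))))) (XT.nd (nat_lit 312) (nat_lit 988) (nat_lit 0) (XT.nd (nat_lit 156) (nat_lit 380) (nat_lit 0) (XT.nd (nat_lit 78) (nat_lit 380) (nat_lit 0) (XT.lf (nat_lit 0) (nat_lit 3319119440) (nat_lit 304) (nat_lit 910861917) (nat_lit 380) (nat_lit 5651442327) (nat_lit 193) (nat_lit 5) (nat_lit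 197) (nat_lit 5) (nat_lit 198) (nat_lit 5) (nat_lit 450) (nat_lit 397) (nat_lit 353)) (XT.lf (nat_lit 0) (nat_lit 372588862) (nat_lit 380) (nat_lit 7123478792) (nat_lit 456) (nat_lit 2535668464) (nat_lit 188) (nat_lit 5) (nat_lit 193) (nat_lit 5) (nat_lit 194) (nat_lit 5) (nat_lit 451) (nat_lit 397) (nat_lit 352))) (XT.nd (nat_lit 78) (nat_lit 304) (nat_lit 0) (XT.lf (nat_lit 0) (nat_lit 684936340) (nat_lit 456) (nat_lit 2624789256) (nat_lit 76) (nat_lit 6875906187) (nat_lit 187) (nat_lit 5) (nat_lit 193) (nat_lit 5) (nat_lit 188) (nat_lit 5) (nat_lit 452) (nat_lit 397) (nat_lit 351)) (XT.lf (nat_lit 0) (nat_lit 3952023008) (nat_lit 380) (nat_lit 5736422462) (nat_lit 76) (nat_lit 654923897) (nat_lit 183) (nat_lit 5) (nat_lit 188) (nat_lit 5) (nat_lit 184) (nat_lit 5) (nat_lit 453) (nat_lit 397) (nat_lit 350)))) (XT.nd (nat_lit 156) (nat_lit 608) (nat_lit 0) (XT.nd (nat_lit 78) (nat_lit 76) (nat_lit 0) (XT.lf (nat_lit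 0) (nat_lit 1528673761) (nat_lit 304) (nat_lit 5813296594) (nat_lit 380) (nat_lit 3163126254) (nat_lit 179) (nat_lit 5) (nat_lit 183) (nat_lit 5) (nat_lit 184) (nat_lit 5) (nat_lit 454) (nat_lit 397) (nat_lit 349)) (XT.lf (nat_lit 0) (nat_lit 168160589) (nat_lit 380) (nat_lit 1615544577) (nat_lit 76) (nat_lit 8887645200) (nat_lit 178) (nat_lit 5) (nat_lit 183) (nat_lit 5) (nat_lit 179) (nat_lit 5) (nat_lit 455) (nat_lit 397) (nat_lit 348))) (XT.nd (nat_lit 78) (nat_lit 304) (nat_lit 0) (XT.lf (nat_lit 0) (nat_lit 3569022196) (nat_lit 380) (nat_lit 4883889945) (nat_lit 76) (nat_lit 2387746417) (nat_lit 174) (nat_lit 5) (nat_lit 179) (nat_lit 5) (nat_lit 175) (nat_lit 5) (nat_lit 456) (nat_lit 397) (nat_lit 347)) (XT.lf (nat_lit 0) (nat_lit 2739274690) (nat_lit 304) (nat_lit 4345908262) (nat_lit 380) (nat_lit 3929467486) (nat_lit 170) (nat_lit 5) (nat_lit 174) (nat_lit 5) (nat_lit 175) (nat_lit 5) (nat_lit 457) (nat_lit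 397) (nat_lit 346)))))) (XT.nd (nat_lit 624) (nat_lit 1444) (nat_lit 0) (XT.nd (nat_lit 312) (nat_lit 684) (nat_lit 0) (XT.nd (nat_lit 156) (nat_lit 532) (nat_lit 0) (XT.nd (nat_lit 78) (nat_lit 380) (nat_lit 0) (XT.lf (nat_lit 0) (nat_lit 10620778793) (nat_lit 304) (nat_lit 88870546) (nat_lit 380) (nat_lit 484130677) (nat_lit 170) (nat_lit 5) (nat_lit 174) (nat_lit 5) (nat_lit 175) (nat_lit 5) (nat_lit 458) (nat_lit 397) (nat_lit 345)) (XT.lf (nat_lit 0) (nat_lit 3072429210) (nat_lit 380) (nat_lit 4012517504) (nat_lit 76) (nat_lit 4290425517) (nat_lit 165) (nat_lit 5) (nat_lit 170) (nat_lit 5) (nat_lit 166) (nat_lit 5) (nat_lit 459) (nat_lit 397) (nat_lit 344))) (XT.nd (nat_lit 78) (nat_lit 228) (nat_lit 0) (XT.lf (nat_lit 0) (nat_lit 3988625562) (nat_lit 304) (nat_lit 2737242241) (nat_lit 380) (nat_lit 4836405584) (nat_lit 161) (nat_lit 5) (nat_lit 165) (nat_lit 5) (nat_lit 166) (nat_lit 5) (nat_lit 460) (nat_lit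 397) (nat_lit 343)) (XT.lf (nat_lit 0) (nat_lit 480544037) (nat_lit 228) (nat_lit 10025901712) (nat_lit 304) (nat_lit 1247812020) (nat_lit 158) (nat_lit 5) (nat_lit 161) (nat_lit 5) (nat_lit 162) (nat_lit 5) (nat_lit 461) (nat_lit 397) (nat_lit 342)))) (XT.nd (nat_lit 156) (nat_lit 304) (nat_lit 0) (XT.nd (nat_lit 78) (nat_lit 304) (nat_lit 0) (XT.lf (nat_lit 0) (nat_lit 2460457884) (nat_lit 304) (nat_lit 3139875299) (nat_lit 76) (nat_lit 6349170678) (nat_lit 157) (nat_lit 5) (nat_lit 161) (nat_lit 5) (nat_lit 158) (nat_lit 5) (nat_lit 462) (nat_lit 397) (nat_lit 341)) (XT.lf (nat_lit 0) (nat_lit 5259926469) (nat_lit 304) (nat_lit 1002287364) (nat_lit 380) (nat_lit 5887805420) (nat_lit 153) (nat_lit 5) (nat_lit 157) (nat_lit 5) (nat_lit 158) (nat_lit 5) (nat_lit 463) (nat_lit 397) (nat_lit 340))) (XT.nd (nat_lit 78) (nat_lit 76) (nat_lit 0) (XT.lf (nat_lit 0) (nat_lit 1545738313) (nat_lit 228) (nat_lit 8672178392)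 (nat_lit 304) (nat_lit 2137438599) (nat_lit 150) (nat_lit 5) (nat_lit 153) (nat_lit 5) (nat_lit 154) (nat_lit 5) (nat_lit 464) (nat_lit 397) (nat_lit 339)) (XT.lf (nat_lit 0) (nat_lit 1729257443) (nat_lit 304) (nat_lit 2284964102) (nat_lit 76) (nat_lit 8551009587) (nat_lit 149) (nat_lit 5) (nat_lit 153) (nat_lit 5) (nat_lit 150) (nat_lit 5) (nat_lit 465) (nat_lit 397) (nat_lit 338))))) (XT.nd (nat_lit 312) (nat_lit 684) (nat_lit 0) (XT.nd (nat_lit 156) (nat_lit 304) (nat_lit 0) (XT.nd (nat_lit 78) (nat_lit 228) (nat_lit 0) (XT.lf (nat_lit 0) (nat_lit 5698472358) (nat_lit 304) (nat_lit 6253342164) (nat_lit 76) (nat_lit 828071331) (nat_lit 146) (nat_lit 5) (nat_lit 150) (nat_lit 5) (nat_lit 147) (nat_lit 5) (nat_lit 466) (nat_lit 397) (nat_lit 337)) (XT.lf (nat_lit 0) (nat_lit 2592352416) (nat_lit 228) (nat_lit 7241247349) (nat_lit 304) (nat_lit 3165977168) (nat_lit 143) (nat_lit 5) (nat_lit 146) (nat_lit 5) (nat_lit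 147) (nat_lit 5) (nat_lit 467) (nat_lit 397) (nat_lit 336))) (XT.nd (nat_lit 78) (nat_lit 228) (nat_lit 0) (XT.lf (nat_lit 0) (nat_lit 872801903) (nat_lit 304) (nat_lit 1468684737) (nat_lit 76) (nat_lit 10883439908) (nat_lit 142) (nat_lit 5) (nat_lit 146) (nat_lit 5) (nat_lit 143) (nat_lit 5) (nat_lit 468) (nat_lit 397) (nat_lit 335)) (XT.lf (nat_lit 0) (nat_lit 5031054295) (nat_lit 304) (nat_lit 5688518266) (nat_lit 76) (nat_lit 2734667057) (nat_lit 139) (nat_lit 5) (nat_lit 143) (nat_lit 5) (nat_lit 140) (nat_lit 5) (nat_lit 469) (nat_lit 397) (nat_lit 334)))) (XT.nd (nat_lit 156) (nat_lit 456) (nat_lit 0) (XT.nd (nat_lit 78) (nat_lit 0) (nat_lit 0) (XT.lf (nat_lit 0) (nat_lit 3598471013) (nat_lit 228) (nat_lit 5748843693) (nat_lit 304) (nat_lit 4342121161) (nat_lit 136) (nat_lit 5) (nat_lit 139) (nat_lit 5) (nat_lit 140) (nat_lit 5) (nat_lit 470) (nat_lit 397) (nat_lit 333)) (XT.lf (nat_lit 0) (nat_lit 13215625802)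 (nat_lit 228) (nat_lit 595913930) (nat_lit 304) (nat_lit 119595518) (nat_lit 136) (nat_lit 5) (nat_lit 139) (nat_lit 5) (nat_lit 140) (nat_lit 5) (nat_lit 471) (nat_lit 397) (nat_lit 332))) (XT.nd (nat_lit 78) (nat_lit 152) (nat_lit 0) (XT.lf (nat_lit 0) (nat_lit 4241801462) (nat_lit 304) (nat_lit 5211220476) (nat_lit 76) (nat_lit 4723003500) (nat_lit 132) (nat_lit 5) (nat_lit 136) (nat_lit 5) (nat_lit 133) (nat_lit 5) (nat_lit 472) (nat_lit 397) (nat_lit 331)) (XT.lf (nat_lit 0) (nat_lit 4539394457) (nat_lit 152) (nat_lit 4211125727) (nat_lit 228) (nat_lit 5677141535) (nat_lit 130) (nat_lit 5) (nat_lit 132) (nat_lit 5) (nat_lit 133) (nat_lit 5) (nat_lit 473) (nat_lit 397) (nat_lit 330))))))) (XT.nd (nat_lit 1248) (nat_lit 1672) (nat_lit 0) (XT.nd (nat_lit 624) (nat_lit 1064) (nat_lit 0) (XT.nd (nat_lit 312) (nat_lit 532) (nat_lit 0) (XT.nd (nat_lit 156) (nat_lit 380) (nat_lit 0) (XT.nd (nat_lit 78) (nat_lit 304)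 (nat_lit 0) (XT.lf (nat_lit 0) (nat_lit 13421359433) (nat_lit 228) (nat_lit 72281810) (nat_lit 76) (nat_lit 1192401457) (nat_lit 130) (nat_lit 5) (nat_lit 133) (nat_lit 5) (nat_lit 131) (nat_lit 5) (nat_lit 474) (nat_lit 397) (nat_lit 329)) (XT.lf (nat_lit 0) (nat_lit 3319633444) (nat_lit 304) (nat_lit 4850002367) (nat_lit 76) (nat_lit 6778489908) (nat_lit 126) (nat_lit 5) (nat_lit 130) (nat_lit 5) (nat_lit 127) (nat_lit 5) (nat_lit 475) (nat_lit 397) (nat_lit 328))) (XT.nd (nat_lit 78) (nat_lit 228) (nat_lit 0) (XT.lf (nat_lit 0) (nat_lit 5387000991) (nat_lit 152) (nat_lit 2645084869) (nat_lit 228) (nat_lit 7185130230) (nat_lit 124) (nat_lit 5) (nat_lit 126) (nat_lit 5) (nat_lit 127) (nat_lit 5) (nat_lit 476) (nat_lit 397) (nat_lit 327)) (XT.lf (nat_lit 0) (nat_lit 453843068) (nat_lit 228) (nat_lit 12478885367) (nat_lit 304) (nat_lit 2560247462) (nat_lit 121) (nat_lit 5) (nat_lit 124) (nat_lit 5) (nat_lit 125)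 (nat_lit 5) (nat_lit 477) (nat_lit 397) (nat_lit 326)))) (XT.nd (nat_lit 156) (nat_lit 304) (nat_lit 0) (XT.nd (nat_lit 78) (nat_lit 152) (nat_lit 0) (XT.lf (nat_lit 0) (nat_lit 2250647076) (nat_lit 304) (nat_lit 4637435101) (nat_lit 76) (nat_lit 8885584234) (nat_lit 120) (nat_lit 5) (nat_lit 124) (nat_lit 5) (nat_lit 121) (nat_lit 5) (nat_lit 478) (nat_lit 397) (nat_lit 325)) (XT.lf (nat_lit 0) (nat_lit 6109022850) (nat_lit 152) (nat_lit 1068988029) (nat_lit 228) (nat_lit 8883299388) (nat_lit 118) (nat_lit 5) (nat_lit 120) (nat_lit 5) (nat_lit 121) (nat_lit 5) (nat_lit 479) (nat_lit 397) (nat_lit 324))) (XT.nd (nat_lit 78) (nat_lit 76) (nat_lit 0) (XT.lf (nat_lit 0) (nat_lit 823685111) (nat_lit 228) (nat_lit 11497129399) (nat_lit 304) (nat_lit 4034741448) (nat_lit 115) (nat_lit 5) (nat_lit 118) (nat_lit 5) (nat_lit 119) (nat_lit 5) (nat_lit 480) (nat_lit 397) (nat_lit 323)) (XT.lf (nat_lit 0) (nat_lit 1017792392)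 (nat_lit 304) (nat_lit 4610902416) (nat_lit 76) (nat_lit 11027341462) (nat_lit 114) (nat_lit 5) (nat_lit 118) (nat_lit 5) (nat_lit 115) (nat_lit 5) (nat_lit 481) (nat_lit 397) (nat_lit 322))))) (XT.nd (nat_lit 312) (nat_lit 532) (nat_lit 0) (XT.nd (nat_lit 156) (nat_lit 228) (nat_lit 0) (XT.nd (nat_lit 78) (nat_lit 152) (nat_lit 0) (XT.lf (nat_lit 0) (nat_lit 6175860872) (nat_lit 228) (nat_lit 10299983672) (nat_lit 76) (nat_lit 487437418) (nat_lit 112) (nat_lit 5) (nat_lit 115) (nat_lit 5) (nat_lit 113) (nat_lit 5) (nat_lit 482) (nat_lit 397) (nat_lit 321)) (XT.lf (nat_lit 0) (nat_lit 995307720) (nat_lit 152) (nat_lit 10572028866) (nat_lit 228) (nat_lit 5710049450) (nat_lit 110) (nat_lit 5) (nat_lit 112) (nat_lit 5) (nat_lit 113) (nat_lit 5) (nat_lit 483) (nat_lit 397) (nat_lit 320))) (XT.nd (nat_lit 78) (nat_lit 228) (nat_lit 0) (XT.lf (nat_lit 0) (nat_lit 12781364417) (nat_lit 152) (nat_lit 4409958572) (nat_lit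 228) (nat_lit 407468190) (nat_lit 110) (nat_lit 5) (nat_lit 112) (nat_lit 5) (nat_lit 113) (nat_lit 5) (nat_lit 484) (nat_lit 397) (nat_lit 319)) (XT.lf (nat_lit 0) (nat_lit 5009986918) (nat_lit 228) (nat_lit 10925421313) (nat_lit 76) (nat_lit 1991340955) (nat_lit 107) (nat_lit 5) (nat_lit 110) (nat_lit 5) (nat_lit 108) (nat_lit 5) (nat_lit 485) (nat_lit 397) (nat_lit 318)))) (XT.nd (nat_lit 156) (nat_lit 380) (nat_lit 0) (XT.nd (nat_lit 78) (nat_lit 0) (nat_lit 0) (XT.lf (nat_lit 0) (nat_lit 921810023) (nat_lit 152) (nat_lit 9729174478) (nat_lit 228) (nat_lit 7611365005) (nat_lit 105) (nat_lit 5) (nat_lit 107) (nat_lit 5) (nat_lit 108) (nat_lit 5) (nat_lit 486) (nat_lit 397) (nat_lit 317)) (XT.lf (nat_lit 0) (nat_lit 13290680388) (nat_lit 152) (nat_lit 3248803258) (nat_lit 228) (nat_lit 2066186876) (nat_lit 105) (nat_lit 5) (nat_lit 107) (nat_lit 5) (nat_lit 108) (nat_lit 5) (nat_lit 487) (nat_lit 397) (nat_lit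 316))) (XT.nd (nat_lit 78) (nat_lit 152) (nat_lit 0) (XT.lf (nat_lit 0) (nat_lit 3644925503) (nat_lit 228) (nat_lit 11872335831) (nat_lit 76) (nat_lit 3438857996) (nat_lit 102) (nat_lit 5) (nat_lit 105) (nat_lit 5) (nat_lit 103) (nat_lit 5) (nat_lit 488) (nat_lit 397) (nat_lit 315)) (XT.lf (nat_lit 0) (nat_lit 548735154) (nat_lit 152) (nat_lit 8997457153) (nat_lit 228) (nat_lit 9768465862) (nat_lit 100) (nat_lit 5) (nat_lit 102) (nat_lit 5) (nat_lit 103) (nat_lit 5) (nat_lit 489) (nat_lit 397) (nat_lit 314)))))) (XT.nd (nat_lit 624) (nat_lit 836) (nat_lit 0) (XT.nd (nat_lit 312) (nat_lit 456) (nat_lit 0) (XT.nd (nat_lit 156) (nat_lit 152) (nat_lit 0) (XT.nd (nat_lit 78) (nat_lit 228) (nat_lit 0) (XT.lf (nat_lit 0) (nat_lit 13529548019) (nat_lit 152) (nat_lit 2183912910) (nat_lit 228) (nat_lit 3967824069) (nat_lit 100) (nat_lit 5) (nat_lit 102) (nat_lit 5) (nat_lit 103) (nat_lit 5) (nat_lit 490) (nat_lit 397) (nat_lit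 313)) (XT.lf (nat_lit 0) (nat_lit 2050768528) (nat_lit 228) (nat_lit 13203307730) (nat_lit 76) (nat_lit 4801763580) (nat_lit 97) (nat_lit 5) (nat_lit 100) (nat_lit 5) (nat_lit 98) (nat_lit 5) (nat_lit 491) (nat_lit 397) (nat_lit 312))) (XT.nd (nat_lit 78) (nat_lit 152) (nat_lit 0) (XT.lf (nat_lit 0) (nat_lit 8224327043) (nat_lit 228) (nat_lit 183604647) (nat_lit 76) (nat_lit 12030897026) (nat_lit 97) (nat_lit 5) (nat_lit 100) (nat_lit 5) (nat_lit 98) (nat_lit 5) (nat_lit 492) (nat_lit 397) (nat_lit 311)) (XT.lf (nat_lit 0) (nat_lit 13435121763) (nat_lit 152) (nat_lit 1247795839) (nat_lit 228) (nat_lit 6147395557) (nat_lit 95) (nat_lit 5) (nat_lit 97) (nat_lit 5) (nat_lit 98) (nat_lit 5) (nat_lit 493) (nat_lit 397) (nat_lit 310)))) (XT.nd (nat_lit 156) (nat_lit 228) (nat_lit 0) (XT.nd (nat_lit 78) (nat_lit 0) (nat_lit 0) (XT.lf (nat_lit 0) (nat_lit 192202472) (nat_lit 228) (nat_lit 14990956570) (nat_lit 76) (nat_lit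 6047580467) (nat_lit 92) (nat_lit 5) (nat_lit 95) (nat_lit 5) (nat_lit 93) (nat_lit 5) (nat_lit 494) (nat_lit 397) (nat_lit 309)) (XT.lf (nat_lit 0) (nat_lit 6657042734) (nat_lit 228) (nat_lit 1333395453) (nat_lit 76) (nat_lit 13649156781) (nat_lit 92) (nat_lit 5) (nat_lit 95) (nat_lit 5) (nat_lit 93) (nat_lit 5) (nat_lit 495) (nat_lit 397) (nat_lit 308))) (XT.nd (nat_lit 78) (nat_lit 76) (nat_lit 0) (XT.lf (nat_lit 0) (nat_lit 12933951645) (nat_lit 152) (nat_lit 477895062) (nat_lit 228) (nat_lit 8645989414) (nat_lit 90) (nat_lit 5) (nat_lit 92) (nat_lit 5) (nat_lit 93) (nat_lit 5) (nat_lit 496) (nat_lit 397) (nat_lit 307)) (XT.lf (nat_lit 0) (nat_lit 5146510934) (nat_lit 76) (nat_lit 15327427923) (nat_lit 152) (nat_lit 2011546897) (nat_lit 89) (nat_lit 5) (nat_lit 90) (nat_lit 5) (nat_lit 91) (nat_lit 4) (nat_lit 497) (nat_lit 397) (nat_lit 306))))) (XT.nd (nat_lit 312) (nat_lit 456) (nat_lit 0) (XT.nd (nat_lit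 156) (nat_lit 152) (nat_lit 0) (XT.nd (nat_lit 78) (nat_lit 152) (nat_lit 0) (XT.lf (nat_lit 0) (nat_lit 4797445781) (nat_lit 152) (nat_lit 2995621096) (nat_lit 76) (nat_lit 15129419692) (nat_lit 88) (nat_lit 5) (nat_lit 90) (nat_lit 5) (nat_lit 89) (nat_lit 5) (nat_lit 498) (nat_lit 397) (nat_lit 305)) (XT.lf (nat_lit 0) (nat_lit 11858500278) (nat_lit 228) (nat_lit 11430003177) (nat_lit 76) (nat_lit 80850320) (nat_lit 86) (nat_lit 5) (nat_lit 89) (nat_lit 5) (nat_lit 87) (nat_lit 4) (nat_lit 499) (nat_lit 397) (nat_lit 304))) (XT.nd (nat_lit 78) (nat_lit 76) (nat_lit 0) (XT.lf (nat_lit 0) (nat_lit 3494763457) (nat_lit 76) (nat_lit 15750665083) (nat_lit 152) (nat_lit 4580777697) (nat_lit 85) (nat_lit 5) (nat_lit 86) (nat_lit 5) (nat_lit 87) (nat_lit 4) (nat_lit 500) (nat_lit 397) (nat_lit 303)) (XT.lf (nat_lit 0) (nat_lit 2596644337) (nat_lit 152) (nat_lit 5268523353) (nat_lit 76) (nat_lit 16428179295) (nat_lit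 84) (nat_lit 5) (nat_lit 86) (nat_lit 5) (nat_lit 85) (nat_lit 5) (nat_lit 501) (nat_lit 397) (nat_lit 302)))) (XT.nd (nat_lit 156) (nat_lit 228) (nat_lit 0) (XT.nd (nat_lit 78) (nat_lit 76) (nat_lit 0) (XT.lf (nat_lit 0) (nat_lit 9974097671) (nat_lit 228) (nat_lit 14421255960) (nat_lit 76) (nat_lit 375484824) (nat_lit 82) (nat_lit 5) (nat_lit 85) (nat_lit 5) (nat_lit 83) (nat_lit 4) (nat_lit 502) (nat_lit 397) (nat_lit 301)) (XT.lf (nat_lit 0) (nat_lit 1178097460) (nat_lit 76) (nat_lit 16511353633) (nat_lit 152) (nat_lit 7569706733) (nat_lit 81) (nat_lit 5) (nat_lit 82) (nat_lit 5) (nat_lit 83) (nat_lit 4) (nat_lit 503) (nat_lit 397) (nat_lit 300))) (XT.nd (nat_lit 78) (nat_lit 228) (nat_lit 0) (XT.lf (nat_lit 0) (nat_lit 17491875767) (nat_lit 76) (nat_lit 8263960940) (nat_lit 152) (nat_lit 2703357) (nat_lit 81) (nat_lit 5) (nat_lit 82) (nat_lit 5) (nat_lit 83) (nat_lit 4) (nat_lit 504) (nat_lit 397) (nat_lit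 299)) (XT.lf (nat_lit 0) (nat_lit 7694677220) (nat_lit 228) (nat_lit 18216388731) (nat_lit 76) (nat_lit 357929275) (nat_lit 78) (nat_lit 5) (nat_lit 81) (nat_lit 5) (nat_lit 79) (nat_lit 4) (nat_lit 505) (nat_lit 397) (nat_lit 298))))))))
noncomputable def xc90 : XT := (XT.nd (nat_lit 2418) (nat_lit 988) (nat_lit 0) (XT.nd (nat_lit 1170) (nat_lit 1064) (nat_lit 0) (XT.nd (nat_lit 546) (nat_lit 608) (nat_lit 0) (XT.nd (nat_lit 234) (nat_lit 304) (nat_lit 0) (XT.nd (nat_lit 78) (nat_lit 304) (nat_lit 0) (XT.lf (nat_lit 0) (nat_lit 15763571392) (nat_lit 228) (nat_lit 1892343009) (nat_lit 76) (nat_lit 9134629842) (nat_lit 78) (nat_lit 5) (nat_lit 81) (nat_lit 5) (nat_lit 79) (nat_lit 4) (nat_lit 506) (nat_lit 397) (nat_lit 297)) (XT.nd (nat_lit 78) (nat_lit 228) (nat_lit 0) (XT.lf (nat_lit 0) (nat_lit 15170540894) (nat_lit 76) (nat_lit 9025083618) (nat_lit 152) (nat_lit 3128482842) (nat_lit 77) (nat_lit 5) (nat_lit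 78) (nat_lit 5) (nat_lit 79) (nat_lit 4) (nat_lit 507) (nat_lit 397) (nat_lit 296)) (XT.lf (nat_lit 0) (nat_lit 4911574555) (nat_lit 152) (nat_lit 39489615) (nat_lit 228) (nat_lit 22919915468) (nat_lit 74) (nat_lit 5) (nat_lit 76) (nat_lit 5) (nat_lit 77) (nat_lit 5) (nat_lit 508) (nat_lit 397) (nat_lit 295)))) (XT.nd (nat_lit 156) (nat_lit 228) (nat_lit 0) (XT.nd (nat_lit 78) (nat_lit 76) (nat_lit 0) (XT.lf (nat_lit 0) (nat_lit 13398002834) (nat_lit 228) (nat_lit 5860555386) (nat_lit 76) (nat_lit 9169134433) (nat_lit 74) (nat_lit 5) (nat_lit 77) (nat_lit 5) (nat_lit 75) (nat_lit 4) (nat_lit 509) (nat_lit 397) (nat_lit 294)) (XT.lf (nat_lit 0) (nat_lit 11938186778) (nat_lit 76) (nat_lit 10251384471) (nat_lit 152) (nat_lit 6808799504) (nat_lit 73) (nat_lit 5) (nat_lit 74) (nat_lit 5) (nat_lit 75) (nat_lit 4) (nat_lit 510) (nat_lit 397) (nat_lit 293))) (XT.nd (nat_lit 78) (nat_lit 0) (nat_lit 0) (XT.lf (nat_lit 0)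 (nat_lit 759250643) (nat_lit 152) (nat_lit 910265071) (nat_lit 228) (nat_lit 27914880497) (nat_lit 70) (nat_lit 5) (nat_lit 72) (nat_lit 5) (nat_lit 73) (nat_lit 5) (nat_lit 511) (nat_lit 397) (nat_lit 292)) (XT.lf (nat_lit 0) (nat_lit 10499201904) (nat_lit 228) (nat_lit 10918426523) (nat_lit 76) (nat_lit 8761335754) (nat_lit 70) (nat_lit 5) (nat_lit 73) (nat_lit 5) (nat_lit 71) (nat_lit 4) (nat_lit 512) (nat_lit 397) (nat_lit 291))))) (XT.nd (nat_lit 312) (nat_lit 228) (nat_lit 0) (XT.nd (nat_lit 156) (nat_lit 304) (nat_lit 0) (XT.nd (nat_lit 78) (nat_lit 0) (nat_lit 0) (XT.lf (nat_lit 0) (nat_lit 7620800720) (nat_lit 76) (nat_lit 12032096030) (nat_lit 152) (nat_lit 11136699204) (nat_lit 69) (nat_lit 5) (nat_lit 70) (nat_lit 5) (nat_lit 71) (nat_lit 4) (nat_lit 513) (nat_lit 397) (nat_lit 290)) (XT.lf (nat_lit 0) (nat_lit 26896066900) (nat_lit 76) (nat_lit 2272491747) (nat_lit 152) (nat_lit 2247367644) (nat_lit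 69) (nat_lit 5) (nat_lit 70) (nat_lit 5) (nat_lit 71) (nat_lit 4) (nat_lit 514) (nat_lit 397) (nat_lit 289))) (XT.nd (nat_lit 78) (nat_lit 76) (nat_lit 0) (XT.lf (nat_lit 0) (nat_lit 6970970051) (nat_lit 228) (nat_lit 17262935733) (nat_lit 76) (nat_lit 7819234567) (nat_lit 66) (nat_lit 5) (nat_lit 69) (nat_lit 5) (nat_lit 67) (nat_lit 4) (nat_lit 515) (nat_lit 397) (nat_lit 288)) (XT.lf (nat_lit 0) (nat_lit 2015071380) (nat_lit 76) (nat_lit 14471174844) (nat_lit 152) (nat_lit 16220590600) (nat_lit 65) (nat_lit 5) (nat_lit 66) (nat_lit 5) (nat_lit 67) (nat_lit 4) (nat_lit 516) (nat_lit 397) (nat_lit 287)))) (XT.nd (nat_lit 156) (nat_lit 76) (nat_lit 0) (XT.nd (nat_lit 78) (nat_lit 152) (nat_lit 0) (XT.lf (nat_lit 0) (nat_lit 22182546596) (nat_lit 76) (nat_lit 4256592158) (nat_lit 152) (nat_lit 6936440959) (nat_lit 65) (nat_lit 5) (nat_lit 66) (nat_lit 5) (nat_lit 67) (nat_lit 4) (nat_lit 517) (nat_lit 397) (nat_lit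 286)) (XT.lf (nat_lit 0) (nat_lit 2700888908) (nat_lit 152) (nat_lit 25123726620) (nat_lit 76) (nat_lit 6235235169) (nat_lit 63) (nat_lit 5) (nat_lit 65) (nat_lit 5) (nat_lit 64) (nat_lit 4) (nat_lit 518) (nat_lit 397) (nat_lit 285))) (XT.nd (nat_lit 78) (nat_lit 76) (nat_lit 0) (XT.lf (nat_lit 0) (nat_lit 12622524174) (nat_lit 152) (nat_lit 5016572664) (nat_lit 76) (nat_lit 17119454852) (nat_lit 63) (nat_lit 5) (nat_lit 65) (nat_lit 5) (nat_lit 64) (nat_lit 4) (nat_lit 519) (nat_lit 397) (nat_lit 284)) (XT.lf (nat_lit 0) (nat_lit 15964570054) (nat_lit 76) (nat_lit 7009641256) (nat_lit 152) (nat_lit 12500030552) (nat_lit 62) (nat_lit 5) (nat_lit 63) (nat_lit 5) (nat_lit 64) (nat_lit 4) (nat_lit 520) (nat_lit 397) (nat_lit 283)))))) (XT.nd (nat_lit 624) (nat_lit 532) (nat_lit 0) (XT.nd (nat_lit 312) (nat_lit 304) (nat_lit 0) (XT.nd (nat_lit 156) (nat_lit 76) (nat_lit 0) (XT.nd (nat_lit 78) (nat_lit 76) (nat_lit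 0) (XT.lf (nat_lit 0) (nat_lit 1416588706) (nat_lit 76) (nat_lit 32301477177) (nat_lit 76) (nat_lit 2490888580) (nat_lit 61) (nat_lit 4) (nat_lit 62) (nat_lit 5) (nat_lit 62) (nat_lit 4) (nat_lit 521) (nat_lit 397) (nat_lit 282)) (XT.lf (nat_lit 0) (nat_lit 7913319717) (nat_lit 152) (nat_lit 13776549898) (nat_lit 76) (nat_lit 15266163554) (nat_lit 60) (nat_lit 5) (nat_lit 62) (nat_lit 5) (nat_lit 61) (nat_lit 4) (nat_lit 522) (nat_lit 397) (nat_lit 281))) (XT.nd (nat_lit 78) (nat_lit 0) (nat_lit 0) (XT.lf (nat_lit 0) (nat_lit 7960802218) (nat_lit 76) (nat_lit 10674920774) (nat_lit 152) (nat_lit 19087377592) (nat_lit 59) (nat_lit 5) (nat_lit 60) (nat_lit 5) (nat_lit 61) (nat_lit 4) (nat_lit 523) (nat_lit 397) (nat_lit 280)) (XT.lf (nat_lit 0) (nat_lit 29806379554) (nat_lit 152) (nat_lit 7923801974) (nat_lit 0) (nat_lit 779201259) (nat_lit 59) (nat_lit 5) (nat_lit 61) (nat_lit 4) (nat_lit 59) (nat_lit 4) (nat_lit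 524) (nat_lit 397) (nat_lit 279)))) (XT.nd (nat_lit 156) (nat_lit 152) (nat_lit 0) (XT.nd (nat_lit 78) (nat_lit 0) (nat_lit 0) (XT.lf (nat_lit 0) (nat_lit 2183620375) (nat_lit 152) (nat_lit 24621083834) (nat_lit 76) (nat_lit 12507086525) (nat_lit 57) (nat_lit 5) (nat_lit 59) (nat_lit 5) (nat_lit 58) (nat_lit 4) (nat_lit 525) (nat_lit 397) (nat_lit 278)) (XT.lf (nat_lit 0) (nat_lit 13282979011) (nat_lit 152) (nat_lit 2115264350) (nat_lit 76) (nat_lit 24735610952) (nat_lit 57) (nat_lit 5) (nat_lit 59) (nat_lit 5) (nat_lit 58) (nat_lit 4) (nat_lit 526) (nat_lit 397) (nat_lit 277))) (XT.nd (nat_lit 78) (nat_lit 76) (nat_lit 0) (XT.lf (nat_lit 0) (nat_lit 21446842124) (nat_lit 76) (nat_lit 3455462639) (nat_lit 152) (nat_lit 16072665624) (nat_lit 56) (nat_lit 5) (nat_lit 57) (nat_lit 5) (nat_lit 58) (nat_lit 4) (nat_lit 527) (nat_lit 397) (nat_lit 276)) (XT.lf (nat_lit 0) (nat_lit 3871375256) (nat_lit 76) (nat_lit 33123505079)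 (nat_lit 76) (nat_lit 4842699682) (nat_lit 55) (nat_lit 4) (nat_lit 56) (nat_lit 5) (nat_lit 56) (nat_lit 4) (nat_lit 528) (nat_lit 397) (nat_lit 275))))) (XT.nd (nat_lit 312) (nat_lit 304) (nat_lit 0) (XT.nd (nat_lit 156) (nat_lit 76) (nat_lit 0) (XT.nd (nat_lit 78) (nat_lit 76) (nat_lit 0) (XT.lf (nat_lit 0) (nat_lit 6807182170) (nat_lit 152) (nat_lit 14485218344) (nat_lit 76) (nat_lit 21425301593) (nat_lit 54) (nat_lit 5) (nat_lit 56) (nat_lit 5) (nat_lit 55) (nat_lit 4) (nat_lit 529) (nat_lit 397) (nat_lit 274)) (XT.lf (nat_lit 0) (nat_lit 9807279942) (nat_lit 76) (nat_lit 8977646734) (nat_lit 152) (nat_lit 24835591928) (nat_lit 53) (nat_lit 5) (nat_lit 54) (nat_lit 5) (nat_lit 55) (nat_lit 4) (nat_lit 530) (nat_lit 397) (nat_lit 273))) (XT.nd (nat_lit 78) (nat_lit 76) (nat_lit 0) (XT.lf (nat_lit 0) (nat_lit 31286805533) (nat_lit 152) (nat_lit 9493994805) (nat_lit 0) (nat_lit 3764675351) (nat_lit 53) (nat_lit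 5) (nat_lit 55) (nat_lit 4) (nat_lit 53) (nat_lit 4) (nat_lit 531) (nat_lit 397) (nat_lit 272)) (XT.lf (nat_lit 0) (nat_lit 15737726397) (nat_lit 76) (nat_lit 28648174689) (nat_lit 76) (nat_lit 1105615743) (nat_lit 52) (nat_lit 4) (nat_lit 53) (nat_lit 5) (nat_lit 53) (nat_lit 4) (nat_lit 532) (nat_lit 397) (nat_lit 271)))) (XT.nd (nat_lit 156) (nat_lit 152) (nat_lit 0) (XT.nd (nat_lit 78) (nat_lit 76) (nat_lit 0) (XT.lf (nat_lit 0) (nat_lit 11268164335) (nat_lit 152) (nat_lit 4688019096) (nat_lit 76) (nat_lit 30504100214) (nat_lit 51) (nat_lit 5) (nat_lit 53) (nat_lit 5) (nat_lit 52) (nat_lit 4) (nat_lit 533) (nat_lit 397) (nat_lit 270)) (XT.lf (nat_lit 0) (nat_lit 21504105902) (nat_lit 76) (nat_lit 2676068811) (nat_lit 152) (nat_lit 23271933330) (nat_lit 50) (nat_lit 5) (nat_lit 51) (nat_lit 5) (nat_lit 52) (nat_lit 4) (nat_lit 534) (nat_lit 397) (nat_lit 269))) (XT.nd (nat_lit 78) (nat_lit 152) (nat_lit 0) (XT.lf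 (nat_lit 0) (nat_lit 37615666463) (nat_lit 152) (nat_lit 34721212) (nat_lit 0) (nat_lit 10819215998) (nat_lit 50) (nat_lit 5) (nat_lit 52) (nat_lit 4) (nat_lit 50) (nat_lit 4) (nat_lit 535) (nat_lit 397) (nat_lit 268)) (XT.lf (nat_lit 0) (nat_lit 2171785655) (nat_lit 152) (nat_lit 22405347616) (nat_lit 76) (nat_lit 24931743249) (nat_lit 48) (nat_lit 5) (nat_lit 50) (nat_lit 5) (nat_lit 49) (nat_lit 4) (nat_lit 536) (nat_lit 397) (nat_lit 267))))))) (XT.nd (nat_lit 1170) (nat_lit 152) (nat_lit 0) (XT.nd (nat_lit 546) (nat_lit 456) (nat_lit 0) (XT.nd (nat_lit 234) (nat_lit 228) (nat_lit 0) (XT.nd (nat_lit 78) (nat_lit 76) (nat_lit 0) (XT.lf (nat_lit 0) (nat_lit 4422829794) (nat_lit 76) (nat_lit 10973234766) (nat_lit 152) (nat_lit 35179261039) (nat_lit 47) (nat_lit 5) (nat_lit 48) (nat_lit 5) (nat_lit 49) (nat_lit 4) (nat_lit 537) (nat_lit 397) (nat_lit 266)) (XT.nd (nat_lit 78) (nat_lit 76) (nat_lit 0) (XT.lf (nat_lit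 0) (nat_lit 29257861082) (nat_lit 152) (nat_lit 19216639631) (nat_lit 0) (nat_lit 3192043879) (nat_lit 47) (nat_lit 5) (nat_lit 49) (nat_lit 4) (nat_lit 47) (nat_lit 4) (nat_lit 538) (nat_lit 397) (nat_lit 265)) (XT.lf (nat_lit 0) (nat_lit 8553172404) (nat_lit 76) (nat_lit 35156784328) (nat_lit 76) (nat_lit 9075310180) (nat_lit 46) (nat_lit 4) (nat_lit 47) (nat_lit 5) (nat_lit 47) (nat_lit 4) (nat_lit 539) (nat_lit 397) (nat_lit 264)))) (XT.nd (nat_lit 156) (nat_lit 76) (nat_lit 0) (XT.nd (nat_lit 78) (nat_lit 76) (nat_lit 0) (XT.lf (nat_lit 0) (nat_lit 4746730484) (nat_lit 152) (nat_lit 16460812184) (nat_lit 76) (nat_lit 32723278207) (nat_lit 45) (nat_lit 5) (nat_lit 47) (nat_lit 5) (nat_lit 46) (nat_lit 4) (nat_lit 540) (nat_lit 397) (nat_lit 263)) (XT.lf (nat_lit 0) (nat_lit 12261578497) (nat_lit 76) (nat_lit 6641382949) (nat_lit 152) (nat_lit 36202026462) (nat_lit 44) (nat_lit 5) (nat_lit 45) (nat_lit 5) (nat_lit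 46) (nat_lit 4) (nat_lit 541) (nat_lit 397) (nat_lit 262))) (XT.nd (nat_lit 78) (nat_lit 76) (nat_lit 0) (XT.lf (nat_lit 0) (nat_lit 33716210457) (nat_lit 152) (nat_lit 14239806261) (nat_lit 0) (nat_lit 8351393404) (nat_lit 44) (nat_lit 5) (nat_lit 46) (nat_lit 4) (nat_lit 44) (nat_lit 4) (nat_lit 542) (nat_lit 397) (nat_lit 261)) (XT.lf (nat_lit 0) (nat_lit 15426633980) (nat_lit 76) (nat_lit 33745818071) (nat_lit 76) (nat_lit 8367495198) (nat_lit 43) (nat_lit 4) (nat_lit 44) (nat_lit 5) (nat_lit 44) (nat_lit 4) (nat_lit 543) (nat_lit 397) (nat_lit 260))))) (XT.nd (nat_lit 312) (nat_lit 228) (nat_lit 0) (XT.nd (nat_lit 156) (nat_lit 76) (nat_lit 0) (XT.nd (nat_lit 78) (nat_lit 76) (nat_lit 0) (XT.lf (nat_lit 0) (nat_lit 6290092236) (nat_lit 152) (nat_lit 12622548077) (nat_lit 76) (nat_lit 39891115184) (nat_lit 42) (nat_lit 5) (nat_lit 44) (nat_lit 5) (nat_lit 43) (nat_lit 4) (nat_lit 544) (nat_lit 397) (nat_lit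 259)) (XT.lf (nat_lit 0) (nat_lit 17991510691) (nat_lit 76) (nat_lit 3385669870) (nat_lit 152) (nat_lit 38721073580) (nat_lit 41) (nat_lit 5) (nat_lit 42) (nat_lit 5) (nat_lit 43) (nat_lit 4) (nat_lit 545) (nat_lit 397) (nat_lit 258))) (XT.nd (nat_lit 78) (nat_lit 76) (nat_lit 0) (XT.lf (nat_lit 0) (nat_lit 37151814697) (nat_lit 152) (nat_lit 11797148875) (nat_lit 0) (nat_lit 12475576263) (nat_lit 41) (nat_lit 5) (nat_lit 43) (nat_lit 4) (nat_lit 41) (nat_lit 4) (nat_lit 546) (nat_lit 397) (nat_lit 257)) (XT.lf (nat_lit 0) (nat_lit 19744689593) (nat_lit 76) (nat_lit 33863774983) (nat_lit 76) (nat_lit 9175886311) (nat_lit 40) (nat_lit 4) (nat_lit 41) (nat_lit 5) (nat_lit 41) (nat_lit 4) (nat_lit 547) (nat_lit 397) (nat_lit 256)))) (XT.nd (nat_lit 156) (nat_lit 76) (nat_lit 0) (XT.nd (nat_lit 78) (nat_lit 76) (nat_lit 0) (XT.lf (nat_lit 0) (nat_lit 6355252256) (nat_lit 152) (nat_lit 11798037501) (nat_lit 76) (nat_lit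 46026655364) (nat_lit 39) (nat_lit 5) (nat_lit 41) (nat_lit 5) (nat_lit 40) (nat_lit 4) (nat_lit 548) (nat_lit 397) (nat_lit 255)) (XT.lf (nat_lit 0) (nat_lit 20665258294) (nat_lit 76) (nat_lit 1687174880) (nat_lit 152) (nat_lit 43256712545) (nat_lit 38) (nat_lit 5) (nat_lit 39) (nat_lit 5) (nat_lit 40) (nat_lit 4) (nat_lit 549) (nat_lit 397) (nat_lit 254))) (XT.nd (nat_lit 78) (nat_lit 76) (nat_lit 0) (XT.lf (nat_lit 0) (nat_lit 39082558811) (nat_lit 152) (nat_lit 12909332034) (nat_lit 0) (nat_lit 15081740686) (nat_lit 38) (nat_lit 5) (nat_lit 40) (nat_lit 4) (nat_lit 38) (nat_lit 4) (nat_lit 550) (nat_lit 397) (nat_lit 253)) (XT.lf (nat_lit 0) (nat_lit 20441260538) (nat_lit 76) (nat_lit 36072836950) (nat_lit 76) (nat_lit 12061969226) (nat_lit 37) (nat_lit 4) (nat_lit 38) (nat_lit 5) (nat_lit 38) (nat_lit 4) (nat_lit 551) (nat_lit 397) (nat_lit 252)))))) (XT.nd (nat_lit 51402) (nat_lit 0) (nat_lit 27816) (XT.nd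 (nat_lit 51090) (nat_lit 0) (nat_lit 30704) (XT.nd (nat_lit 50934) (nat_lit 0) (nat_lit 31388) (XT.nd (nat_lit 78) (nat_lit 76) (nat_lit 0) (XT.lf (nat_lit 0) (nat_lit 4378186732) (nat_lit 152) (nat_lit 15132905547) (nat_lit 76) (nat_lit 50607690754) (nat_lit 36) (nat_lit 5) (nat_lit 38) (nat_lit 5) (nat_lit 37) (nat_lit 4) (nat_lit 552) (nat_lit 397) (nat_lit 251)) (XT.lf (nat_lit 0) (nat_lit 19085665130) (nat_lit 76) (nat_lit 2153626719) (nat_lit 152) (nat_lit 50459800953) (nat_lit 35) (nat_lit 5) (nat_lit 36) (nat_lit 5) (nat_lit 37) (nat_lit 4) (nat_lit 553) (nat_lit 397) (nat_lit 250))) (XT.nd (nat_lit 78) (nat_lit 0) (nat_lit 0) (XT.lf (nat_lit 0) (nat_lit 122955804) (nat_lit 228) (nat_lit 2983726510) (nat_lit 0) (nat_lit 122955804) (nat_lit 448) (nat_lit 5) (nat_lit 451) (nat_lit 4) (nat_lit 448) (nat_lit 4) (nat_lit 404) (nat_lit 398) (nat_lit 398)) (XT.lf (nat_lit 0) (nat_lit 3430814686) (nat_lit 228)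 (nat_lit 2451987743) (nat_lit 0) (nat_lit 585969678) (nat_lit 448) (nat_lit 5) (nat_lit 451) (nat_lit 4) (nat_lit 448) (nat_lit 4) (nat_lit 405) (nat_lit 398) (nat_lit 397)))) (XT.nd (nat_lit 156) (nat_lit 380) (nat_lit 0) (XT.nd (nat_lit 78) (nat_lit 0) (nat_lit 0) (XT.lf (nat_lit 0) (nat_lit 119834386) (nat_lit 304) (nat_lit 5363566646) (nat_lit 76) (nat_lit 998354525) (nat_lit 444) (nat_lit 5) (nat_lit 448) (nat_lit 5) (nat_lit 445) (nat_lit 4) (nat_lit 406) (nat_lit 398) (nat_lit 396)) (XT.lf (nat_lit 0) (nat_lit 3219887722) (nat_lit 304) (nat_lit 1751997641) (nat_lit 76) (nat_lit 1525102295) (nat_lit 444) (nat_lit 5) (nat_lit 448) (nat_lit 5) (nat_lit 445) (nat_lit 4) (nat_lit 407) (nat_lit 398) (nat_lit 395))) (XT.nd (nat_lit 78) (nat_lit 76) (nat_lit 0) (XT.lf (nat_lit 0) (nat_lit 1934777562) (nat_lit 304) (nat_lit 4383736457) (nat_lit 380) (nat_lit 197014144) (nat_lit 440) (nat_lit 5) (nat_lit 444) (nat_lit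 5) (nat_lit 445) (nat_lit 4) (nat_lit 408) (nat_lit 398) (nat_lit 394)) (XT.lf (nat_lit 0) (nat_lit 2823758387) (nat_lit 380) (nat_lit 867238413) (nat_lit 76) (nat_lit 2845597147) (nat_lit 439) (nat_lit 5) (nat_lit 444) (nat_lit 5) (nat_lit 440) (nat_lit 5) (nat_lit 409) (nat_lit 398) (nat_lit 393))))) (XT.nd (nat_lit 312) (nat_lit 1368) (nat_lit 0) (XT.nd (nat_lit 156) (nat_lit 608) (nat_lit 0) (XT.nd (nat_lit 78) (nat_lit 532) (nat_lit 0) (XT.lf (nat_lit 0) (nat_lit 2942826176) (nat_lit 380) (nat_lit 2908384025) (nat_lit 456) (nat_lit 709439514) (nat_lit 434) (nat_lit 5) (nat_lit 439) (nat_lit 5) (nat_lit 440) (nat_lit 5) (nat_lit 410) (nat_lit 398) (nat_lit 392)) (XT.lf (nat_lit 0) (nat_lit 209101828) (nat_lit 456) (nat_lit 2032437361) (nat_lit 532) (nat_lit 4346096414) (nat_lit 427) (nat_lit 5) (nat_lit 433) (nat_lit 5) (nat_lit 434) (nat_lit 5) (nat_lit 411) (nat_lit 398) (nat_lit 391))) (XT.nd (nat_lit 78)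 (nat_lit 608) (nat_lit 0) (XT.lf (nat_lit 0) (nat_lit 4146756003) (nat_lit 456) (nat_lit 1052073446) (nat_lit 532) (nat_lit 1418445221) (nat_lit 427) (nat_lit 5) (nat_lit 433) (nat_lit 5) (nat_lit 434) (nat_lit 5) (nat_lit 412) (nat_lit 398) (nat_lit 390)) (XT.lf (nat_lit 0) (nat_lit 1478056153) (nat_lit 608) (nat_lit 5152637859) (nat_lit 76) (nat_lit 19297481) (nat_lit 419) (nat_lit 5) (nat_lit 427) (nat_lit 5) (nat_lit 420) (nat_lit 5) (nat_lit 413) (nat_lit 398) (nat_lit 389)))) (XT.nd (nat_lit 156) (nat_lit 684) (nat_lit 0) (XT.nd (nat_lit 78) (nat_lit 684) (nat_lit 0) (XT.lf (nat_lit 0) (nat_lit 4368746159) (nat_lit 608) (nat_lit 1146409131) (nat_lit 76) (nat_lit 1170053364) (nat_lit 419) (nat_lit 5) (nat_lit 427) (nat_lit 5) (nat_lit 420) (nat_lit 5) (nat_lit 414) (nat_lit 398) (nat_lit 388)) (XT.lf (nat_lit 0) (nat_lit 543407805) (nat_lit 684) (nat_lit 3762504104) (nat_lit 76) (nat_lit 2417476015) (nat_lit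 410) (nat_lit 5) (nat_lit 419) (nat_lit 5) (nat_lit 411) (nat_lit 5) (nat_lit 415) (nat_lit 398) (nat_lit 387))) (XT.nd (nat_lit 78) (nat_lit 0) (nat_lit 0) (XT.lf (nat_lit 0) (nat_lit 363844002) (nat_lit 684) (nat_lit 2998149435) (nat_lit 760) (nat_lit 3402459777) (nat_lit 401) (nat_lit 5) (nat_lit 410) (nat_lit 5) (nat_lit 411) (nat_lit 5) (nat_lit 416) (nat_lit 398) (nat_lit 386)) (XT.lf (nat_lit 0) (nat_lit 4619086741) (nat_lit 684) (nat_lit 1590428399) (nat_lit 760) (nat_lit 598916621) (nat_lit 401) (nat_lit 5) (nat_lit 410) (nat_lit 5) (nat_lit 411) (nat_lit 5) (nat_lit 417) (nat_lit 398) (nat_lit 385))))))))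
noncomputable def xc91 : XT := (XT.nd (nat_lit 2418) (nat_lit 6460) (nat_lit 0) (XT.nd (nat_lit 1170) (nat_lit 5624) (nat_lit 0) (XT.nd (nat_lit 546) (nat_lit 4636) (nat_lit 0) (XT.nd (nat_lit 234) (nat_lit 3040) (nat_lit 0) (XT.nd (nat_lit 78) (nat_lit 912) (nat_lit 0) (XT.lf (nat_lit 0) (nat_lit 2095380183) (nat_lit 760) (nat_lit 77032617) (nat_lit 836) (nat_lit 4682818531) (nat_lit 390) (nat_lit 5) (nat_lit 400) (nat_lit 5) (nat_lit 401) (nat_lit 5) (nat_lit 418) (nat_lit 398) (nat_lit 384)) (XT.nd (nat_lit 78) (nat_lit 912) (nat_lit 0) (XT.lf (nat_lit 0) (nat_lit 4961785356) (nat_lit 836) (nat_lit 443584625) (nat_lit 76) (nat_lit 1499490364) (nat_lit 390) (nat_lit 5) (nat_lit 401) (nat_lit 5) (nat_lit 391) (nat_lit 5) (nat_lit 419) (nat_lit 398) (nat_lit 383)) (XT.lf (nat_lit 0) (nat_lit 813496677) (nat_lit 912) (nat_lit 2957575997) (nat_lit 76) (nat_lit 3186109460) (nat_lit 378) (nat_lit 5) (nat_lit 390) (nat_lit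 5) (nat_lit 379) (nat_lit 5) (nat_lit 420) (nat_lit 398) (nat_lit 382)))) (XT.nd (nat_lit 156) (nat_lit 2128) (nat_lit 0) (XT.nd (nat_lit 78) (nat_lit 0) (nat_lit 0) (XT.lf (nat_lit 0) (nat_lit 1511649379) (nat_lit 912) (nat_lit 2035094889) (nat_lit 988) (nat_lit 3465771776) (nat_lit 366) (nat_lit 5) (nat_lit 378) (nat_lit 5) (nat_lit 379) (nat_lit 5) (nat_lit 421) (nat_lit 398) (nat_lit 381)) (XT.lf (nat_lit 0) (nat_lit 6103480666) (nat_lit 912) (nat_lit 204164853) (nat_lit 988) (nat_lit 763505053) (nat_lit 366) (nat_lit 5) (nat_lit 378) (nat_lit 5) (nat_lit 379) (nat_lit 5) (nat_lit 422) (nat_lit 398) (nat_lit 380))) (XT.nd (nat_lit 78) (nat_lit 1064) (nat_lit 0) (XT.lf (nat_lit 0) (nat_lit 1950049265) (nat_lit 1064) (nat_lit 3466889294) (nat_lit 76) (nat_lit 1714943789) (nat_lit 352) (nat_lit 5) (nat_lit 366) (nat_lit 5) (nat_lit 353) (nat_lit 5) (nat_lit 423) (nat_lit 398) (nat_lit 379)) (XT.lf (nat_lit 0)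 (nat_lit 1202640288) (nat_lit 1064) (nat_lit 3469716771) (nat_lit 1140) (nat_lit 2523580875) (nat_lit 338) (nat_lit 5) (nat_lit 352) (nat_lit 5) (nat_lit 353) (nat_lit 5) (nat_lit 424) (nat_lit 398) (nat_lit 378))))) (XT.nd (nat_lit 312) (nat_lit 2128) (nat_lit 0) (XT.nd (nat_lit 156) (nat_lit 1292) (nat_lit 0) (XT.nd (nat_lit 78) (nat_lit 1140) (nat_lit 0) (XT.lf (nat_lit 0) (nat_lit 165693080) (nat_lit 1140) (nat_lit 1254306857) (nat_lit 76) (nat_lit 5843198544) (nat_lit 337) (nat_lit 5) (nat_lit 352) (nat_lit 5) (nat_lit 338) (nat_lit 5) (nat_lit 425) (nat_lit 398) (nat_lit 377)) (XT.lf (nat_lit 0) (nat_lit 2849244424) (nat_lit 1216) (nat_lit 3740387707) (nat_lit 76) (nat_lit 743174132) (nat_lit 322) (nat_lit 5) (nat_lit 338) (nat_lit 5) (nat_lit 323) (nat_lit 5) (nat_lit 426) (nat_lit 398) (nat_lit 376))) (XT.nd (nat_lit 78) (nat_lit 76) (nat_lit 0) (XT.lf (nat_lit 0) (nat_lit 1140387815) (nat_lit 1216) (nat_lit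 4434772968) (nat_lit 1292) (nat_lit 1830494106) (nat_lit 306) (nat_lit 5) (nat_lit 322) (nat_lit 5) (nat_lit 323) (nat_lit 5) (nat_lit 427) (nat_lit 398) (nat_lit 375)) (XT.lf (nat_lit 0) (nat_lit 847515842) (nat_lit 1292) (nat_lit 1318937674) (nat_lit 76) (nat_lit 5315094540) (nat_lit 305) (nat_lit 5) (nat_lit 322) (nat_lit 5) (nat_lit 306) (nat_lit 5) (nat_lit 428) (nat_lit 398) (nat_lit 374)))) (XT.nd (nat_lit 156) (nat_lit 684) (nat_lit 0) (XT.nd (nat_lit 78) (nat_lit 608) (nat_lit 0) (XT.lf (nat_lit 0) (nat_lit 3534380882) (nat_lit 912) (nat_lit 3803886662) (nat_lit 76) (nat_lit 221955241) (nat_lit 294) (nat_lit 5) (nat_lit 306) (nat_lit 5) (nat_lit 295) (nat_lit 5) (nat_lit 429) (nat_lit 398) (nat_lit 373)) (XT.lf (nat_lit 0) (nat_lit 1299965283) (nat_lit 608) (nat_lit 4977718774) (nat_lit 684) (nat_lit 1364306165) (nat_lit 286) (nat_lit 5) (nat_lit 294) (nat_lit 5) (nat_lit 295) (nat_lit 5) (nat_lit 430)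 (nat_lit 398) (nat_lit 372))) (XT.nd (nat_lit 78) (nat_lit 608) (nat_lit 0) (XT.lf (nat_lit 0) (nat_lit 1318110939) (nat_lit 684) (nat_lit 1178327467) (nat_lit 76) (nat_lit 5230344955) (nat_lit 285) (nat_lit 5) (nat_lit 294) (nat_lit 5) (nat_lit 286) (nat_lit 5) (nat_lit 431) (nat_lit 398) (nat_lit 371)) (XT.lf (nat_lit 0) (nat_lit 4025570561) (nat_lit 684) (nat_lit 3680582302) (nat_lit 76) (nat_lit 108409258) (nat_lit 277) (nat_lit 5) (nat_lit 286) (nat_lit 5) (nat_lit 278) (nat_lit 5) (nat_lit 432) (nat_lit 398) (nat_lit 370)))))) (XT.nd (nat_lit 624) (nat_lit 2280) (nat_lit 0) (XT.nd (nat_lit 312) (nat_lit 1596) (nat_lit 0) (XT.nd (nat_lit 156) (nat_lit 1140) (nat_lit 0) (XT.nd (nat_lit 78) (nat_lit 76) (nat_lit 0) (XT.lf (nat_lit 0) (nat_lit 1659062316) (nat_lit 532) (nat_lit 5140328238) (nat_lit 608) (nat_lit 1106036197) (nat_lit 270) (nat_lit 5) (nat_lit 277) (nat_lit 5) (nat_lit 278) (nat_lit 5) (nat_lit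 433) (nat_lit 398) (nat_lit 369)) (XT.lf (nat_lit 0) (nat_lit 1595658920) (nat_lit 608) (nat_lit 854144501) (nat_lit 76) (nat_lit 5549624370) (nat_lit 269) (nat_lit 5) (nat_lit 277) (nat_lit 5) (nat_lit 270) (nat_lit 5) (nat_lit 434) (nat_lit 398) (nat_lit 368))) (XT.nd (nat_lit 78) (nat_lit 532) (nat_lit 0) (XT.lf (nat_lit 0) (nat_lit 4340023150) (nat_lit 684) (nat_lit 3391445300) (nat_lit 76) (nat_lit 364942474) (nat_lit 261) (nat_lit 5) (nat_lit 270) (nat_lit 5) (nat_lit 262) (nat_lit 5) (nat_lit 435) (nat_lit 398) (nat_lit 367)) (XT.lf (nat_lit 0) (nat_lit 2197593391) (nat_lit 532) (nat_lit 4959356902) (nat_lit 608) (nat_lit 1039652169) (nat_lit 254) (nat_lit 5) (nat_lit 261) (nat_lit 5) (nat_lit 262) (nat_lit 5) (nat_lit 436) (nat_lit 398) (nat_lit 366)))) (XT.nd (nat_lit 156) (nat_lit 988) (nat_lit 0) (XT.nd (nat_lit 78) (nat_lit 532) (nat_lit 0) (XT.lf (nat_lit 0) (nat_lit 1695532794) (nat_lit 608) (nat_lit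 366001057) (nat_lit 76) (nat_lit 6238626377) (nat_lit 253) (nat_lit 5) (nat_lit 261) (nat_lit 5) (nat_lit 254) (nat_lit 5) (nat_lit 437) (nat_lit 398) (nat_lit 365)) (XT.lf (nat_lit 0) (nat_lit 4492288240) (nat_lit 608) (nat_lit 2955589475) (nat_lit 76) (nat_lit 958631247) (nat_lit 246) (nat_lit 5) (nat_lit 254) (nat_lit 5) (nat_lit 247) (nat_lit 5) (nat_lit 438) (nat_lit 398) (nat_lit 364))) (XT.nd (nat_lit 78) (nat_lit 532) (nat_lit 0) (XT.lf (nat_lit 0) (nat_lit 2897330797) (nat_lit 456) (nat_lit 4467138885) (nat_lit 532) (nat_lit 1151837991) (nat_lit 240) (nat_lit 5) (nat_lit 246) (nat_lit 5) (nat_lit 247) (nat_lit 5) (nat_lit 439) (nat_lit 398) (nat_lit 363)) (XT.lf (nat_lit 0) (nat_lit 273525979) (nat_lit 456) (nat_lit 1359621241) (nat_lit 532) (nat_lit 6996586424) (nat_lit 233) (nat_lit 5) (nat_lit 239) (nat_lit 5) (nat_lit 240) (nat_lit 5) (nat_lit 440) (nat_lit 398) (nat_lit 362))))) (XT.nd (nat_lit 312)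 (nat_lit 1292) (nat_lit 0) (XT.nd (nat_lit 156) (nat_lit 532) (nat_lit 0) (XT.nd (nat_lit 78) (nat_lit 456) (nat_lit 0) (XT.lf (nat_lit 0) (nat_lit 4494458134) (nat_lit 532) (nat_lit 2390621187) (nat_lit 76) (nat_lit 1860667907) (nat_lit 233) (nat_lit 5) (nat_lit 240) (nat_lit 5) (nat_lit 234) (nat_lit 5) (nat_lit 441) (nat_lit 398) (nat_lit 361)) (XT.lf (nat_lit 0) (nat_lit 3741555984) (nat_lit 456) (nat_lit 3692127218) (nat_lit 532) (nat_lit 1431800404) (nat_lit 227) (nat_lit 5) (nat_lit 233) (nat_lit 5) (nat_lit 234) (nat_lit 5) (nat_lit 442) (nat_lit 398) (nat_lit 360))) (XT.nd (nat_lit 78) (nat_lit 0) (nat_lit 0) (XT.lf (nat_lit 0) (nat_lit 1052402001) (nat_lit 456) (nat_lit 368707987) (nat_lit 532) (nat_lit 7567954890) (nat_lit 220) (nat_lit 5) (nat_lit 226) (nat_lit 5) (nat_lit 227) (nat_lit 5) (nat_lit 443) (nat_lit 398) (nat_lit 359)) (XT.lf (nat_lit 0) (nat_lit 4356333779) (nat_lit 532) (nat_lit 1712975343)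 (nat_lit 76) (nat_lit 3045858301) (nat_lit 220) (nat_lit 5) (nat_lit 227) (nat_lit 5) (nat_lit 221) (nat_lit 5) (nat_lit 444) (nat_lit 398) (nat_lit 358)))) (XT.nd (nat_lit 156) (nat_lit 380) (nat_lit 0) (XT.nd (nat_lit 78) (nat_lit 532) (nat_lit 0) (XT.lf (nat_lit 0) (nat_lit 4714723399) (nat_lit 380) (nat_lit 2659385612) (nat_lit 456) (nat_lit 1871113310) (nat_lit 215) (nat_lit 5) (nat_lit 220) (nat_lit 5) (nat_lit 221) (nat_lit 5) (nat_lit 445) (nat_lit 398) (nat_lit 357)) (XT.lf (nat_lit 0) (nat_lit 1072294148) (nat_lit 532) (nat_lit 7440396733) (nat_lit 76) (nat_lit 866456201) (nat_lit 208) (nat_lit 5) (nat_lit 215) (nat_lit 5) (nat_lit 209) (nat_lit 5) (nat_lit 446) (nat_lit 398) (nat_lit 356))) (XT.nd (nat_lit 78) (nat_lit 380) (nat_lit 0) (XT.lf (nat_lit 0) (nat_lit 4085555768) (nat_lit 532) (nat_lit 938243782) (nat_lit 76) (nat_lit 4492163243) (nat_lit 208) (nat_lit 5) (nat_lit 215) (nat_lit 5) (nat_lit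 209) (nat_lit 5) (nat_lit 447) (nat_lit 398) (nat_lit 355)) (XT.lf (nat_lit 0) (nat_lit 5802130961) (nat_lit 380) (nat_lit 1391039262) (nat_lit 456) (nat_lit 2463597760) (nat_lit 203) (nat_lit 5) (nat_lit 208) (nat_lit 5) (nat_lit 209) (nat_lit 5) (nat_lit 448) (nat_lit 398) (nat_lit 354))))))) (XT.nd (nat_lit 1248) (nat_lit 2660) (nat_lit 0) (XT.nd (nat_lit 624) (nat_lit 1596) (nat_lit 0) (XT.nd (nat_lit 312) (nat_lit 1064) (nat_lit 0) (XT.nd (nat_lit 156) (nat_lit 684) (nat_lit 0) (XT.nd (nat_lit 78) (nat_lit 0) (nat_lit 0) (XT.lf (nat_lit 0) (nat_lit 589885623) (nat_lit 456) (nat_lit 6881196508) (nat_lit 76) (nat_lit 2330271079) (nat_lit 197) (nat_lit 5) (nat_lit 203) (nat_lit 5) (nat_lit 198) (nat_lit 5) (nat_lit 449) (nat_lit 398) (nat_lit 353)) (XT.lf (nat_lit 0) (nat_lit 3687701716) (nat_lit 456) (nat_lit 81501869) (nat_lit 76) (nat_lit 6180276669) (nat_lit 197) (nat_lit 5) (nat_lit 203) (nat_lit 5) (nat_lit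 198) (nat_lit 5) (nat_lit 450) (nat_lit 398) (nat_lit 352))) (XT.nd (nat_lit 78) (nat_lit 380) (nat_lit 0) (XT.lf (nat_lit 0) (nat_lit 6897179934) (nat_lit 380) (nat_lit 3112825146) (nat_lit 76) (nat_lit 91487451) (nat_lit 193) (nat_lit 5) (nat_lit 198) (nat_lit 5) (nat_lit 194) (nat_lit 5) (nat_lit 451) (nat_lit 398) (nat_lit 351)) (XT.lf (nat_lit 0) (nat_lit 3985436223) (nat_lit 380) (nat_lit 6245200515) (nat_lit 456) (nat_lit 26600764) (nat_lit 188) (nat_lit 5) (nat_lit 193) (nat_lit 5) (nat_lit 194) (nat_lit 5) (nat_lit 452) (nat_lit 398) (nat_lit 350)))) (XT.nd (nat_lit 156) (nat_lit 684) (nat_lit 0) (XT.nd (nat_lit 78) (nat_lit 0) (nat_lit 0) (XT.lf (nat_lit 0) (nat_lit 859125354) (nat_lit 304) (nat_lit 2315483926) (nat_lit 380) (nat_lit 7242366813) (nat_lit 183) (nat_lit 5) (nat_lit 187) (nat_lit 5) (nat_lit 188) (nat_lit 5) (nat_lit 453) (nat_lit 398) (nat_lit 349)) (XT.lf (nat_lit 0) (nat_lit 6503985850)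 (nat_lit 380) (nat_lit 2335010714) (nat_lit 76) (nat_lit 1741525318) (nat_lit 183) (nat_lit 5) (nat_lit 188) (nat_lit 5) (nat_lit 184) (nat_lit 5) (nat_lit 454) (nat_lit 398) (nat_lit 348))) (XT.nd (nat_lit 78) (nat_lit 380) (nat_lit 0) (XT.lf (nat_lit 0) (nat_lit 5113004039) (nat_lit 304) (nat_lit 4845765727) (nat_lit 380) (nat_lit 789441297) (nat_lit 179) (nat_lit 5) (nat_lit 183) (nat_lit 5) (nat_lit 184) (nat_lit 5) (nat_lit 455) (nat_lit 398) (nat_lit 347)) (XT.lf (nat_lit 0) (nat_lit 1854486525) (nat_lit 304) (nat_lit 686455905) (nat_lit 380) (nat_lit 8379382266) (nat_lit 174) (nat_lit 5) (nat_lit 178) (nat_lit 5) (nat_lit 179) (nat_lit 5) (nat_lit 456) (nat_lit 398) (nat_lit 346))))) (XT.nd (nat_lit 312) (nat_lit 912) (nat_lit 0) (XT.nd (nat_lit 156) (nat_lit 380) (nat_lit 0) (XT.nd (nat_lit 78) (nat_lit 304) (nat_lit 0) (XT.lf (nat_lit 0) (nat_lit 6001601786) (nat_lit 380) (nat_lit 1523565109) (nat_lit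 76) (nat_lit 3570815986) (nat_lit 174) (nat_lit 5) (nat_lit 179) (nat_lit 5) (nat_lit 175) (nat_lit 5) (nat_lit 457) (nat_lit 398) (nat_lit 345)) (XT.lf (nat_lit 0) (nat_lit 6293913665) (nat_lit 304) (nat_lit 3294979847) (nat_lit 380) (nat_lit 1687335413) (nat_lit 170) (nat_lit 5) (nat_lit 174) (nat_lit 5) (nat_lit 175) (nat_lit 5) (nat_lit 458) (nat_lit 398) (nat_lit 344))) (XT.nd (nat_lit 78) (nat_lit 0) (nat_lit 0) (XT.lf (nat_lit 0) (nat_lit 1795985291) (nat_lit 380) (nat_lit 8584887738) (nat_lit 76) (nat_lit 1080197788) (nat_lit 165) (nat_lit 5) (nat_lit 170) (nat_lit 5) (nat_lit 166) (nat_lit 5) (nat_lit 459) (nat_lit 398) (nat_lit 343)) (XT.lf (nat_lit 0) (nat_lit 5389488228) (nat_lit 380) (nat_lit 694945535) (nat_lit 76) (nat_lit 5565337401) (nat_lit 165) (nat_lit 5) (nat_lit 170) (nat_lit 5) (nat_lit 166) (nat_lit 5) (nat_lit 460) (nat_lit 398) (nat_lit 342)))) (XT.nd (nat_lit 156) (nat_lit 304) (nat_lit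 0) (XT.nd (nat_lit 78) (nat_lit 304) (nat_lit 0) (XT.lf (nat_lit 0) (nat_lit 7512526456) (nat_lit 304) (nat_lit 1607924672) (nat_lit 380) (nat_lit 2722793960) (nat_lit 161) (nat_lit 5) (nat_lit 165) (nat_lit 5) (nat_lit 166) (nat_lit 5) (nat_lit 461) (nat_lit 398) (nat_lit 341)) (XT.lf (nat_lit 0) (nat_lit 934620983) (nat_lit 304) (nat_lit 8131197382) (nat_lit 76) (nat_lit 2975488310) (nat_lit 157) (nat_lit 5) (nat_lit 161) (nat_lit 5) (nat_lit 158) (nat_lit 5) (nat_lit 462) (nat_lit 398) (nat_lit 340))) (XT.nd (nat_lit 78) (nat_lit 0) (nat_lit 0) (XT.lf (nat_lit 0) (nat_lit 135933605) (nat_lit 304) (nat_lit 4530506419) (nat_lit 380) (nat_lit 7577481148) (nat_lit 153) (nat_lit 5) (nat_lit 157) (nat_lit 5) (nat_lit 158) (nat_lit 5) (nat_lit 463) (nat_lit 398) (nat_lit 339)) (XT.lf (nat_lit 0) (nat_lit 8552863172) (nat_lit 380) (nat_lit 3701264396) (nat_lit 76) (nat_lit 197209014) (nat_lit 153) (nat_lit 5) (nat_lit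 158) (nat_lit 5) (nat_lit 154) (nat_lit 5) (nat_lit 464) (nat_lit 398) (nat_lit 338)))))) (XT.nd (nat_lit 624) (nat_lit 1064) (nat_lit 0) (XT.nd (nat_lit 312) (nat_lit 836) (nat_lit 0) (XT.nd (nat_lit 156) (nat_lit 228) (nat_lit 0) (XT.nd (nat_lit 78) (nat_lit 304) (nat_lit 0) (XT.lf (nat_lit 0) (nat_lit 4944525767) (nat_lit 228) (nat_lit 7663325324) (nat_lit 304) (nat_lit 55566109) (nat_lit 150) (nat_lit 5) (nat_lit 153) (nat_lit 5) (nat_lit 154) (nat_lit 5) (nat_lit 465) (nat_lit 398) (nat_lit 337)) (XT.lf (nat_lit 0) (nat_lit 960754605) (nat_lit 228) (nat_lit 2872450429) (nat_lit 304) (nat_lit 9047329640) (nat_lit 146) (nat_lit 5) (nat_lit 149) (nat_lit 5) (nat_lit 150) (nat_lit 5) (nat_lit 466) (nat_lit 398) (nat_lit 336))) (XT.nd (nat_lit 78) (nat_lit 228) (nat_lit 0) (XT.lf (nat_lit 0) (nat_lit 7896130407) (nat_lit 304) (nat_lit 3129203315) (nat_lit 76) (nat_lit 2077058954) (nat_lit 146) (nat_lit 5) (nat_lit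 150) (nat_lit 5) (nat_lit 147) (nat_lit 5) (nat_lit 467) (nat_lit 398) (nat_lit 335)) (XT.lf (nat_lit 0) (nat_lit 5949394072) (nat_lit 228) (nat_lit 6178409715) (nat_lit 304) (nat_lit 1201698520) (nat_lit 143) (nat_lit 5) (nat_lit 146) (nat_lit 5) (nat_lit 147) (nat_lit 5) (nat_lit 468) (nat_lit 398) (nat_lit 334)))) (XT.nd (nat_lit 156) (nat_lit 532) (nat_lit 0) (XT.nd (nat_lit 78) (nat_lit 0) (nat_lit 0) (XT.lf (nat_lit 0) (nat_lit 1744141802) (nat_lit 228) (nat_lit 1131876346) (nat_lit 304) (nat_lit 10686264116) (nat_lit 139) (nat_lit 5) (nat_lit 142) (nat_lit 5) (nat_lit 143) (nat_lit 5) (nat_lit 469) (nat_lit 398) (nat_lit 333)) (XT.lf (nat_lit 0) (nat_lit 7127920500) (nat_lit 304) (nat_lit 2621910613) (nat_lit 76) (nat_lit 4049578905) (nat_lit 139) (nat_lit 5) (nat_lit 143) (nat_lit 5) (nat_lit 140) (nat_lit 5) (nat_lit 470) (nat_lit 398) (nat_lit 332))) (XT.nd (nat_lit 78) (nat_lit 304) (nat_lit 0) (XT.lf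 (nat_lit 0) (nat_lit 6911950470) (nat_lit 228) (nat_lit 4635854018) (nat_lit 304) (nat_lit 2494635887) (nat_lit 136) (nat_lit 5) (nat_lit 139) (nat_lit 5) (nat_lit 140) (nat_lit 5) (nat_lit 471) (nat_lit 398) (nat_lit 331)) (XT.lf (nat_lit 0) (nat_lit 1792063676) (nat_lit 304) (nat_lit 11836391940) (nat_lit 76) (nat_lit 663191845) (nat_lit 132) (nat_lit 5) (nat_lit 136) (nat_lit 5) (nat_lit 133) (nat_lit 5) (nat_lit 472) (nat_lit 398) (nat_lit 330))))) (XT.nd (nat_lit 312) (nat_lit 608) (nat_lit 0) (XT.nd (nat_lit 156) (nat_lit 304) (nat_lit 0) (XT.nd (nat_lit 78) (nat_lit 152) (nat_lit 0) (XT.lf (nat_lit 0) (nat_lit 6238997472) (nat_lit 304) (nat_lit 2205051935) (nat_lit 76) (nat_lit 6101088563) (nat_lit 132) (nat_lit 5) (nat_lit 136) (nat_lit 5) (nat_lit 133) (nat_lit 5) (nat_lit 473) (nat_lit 398) (nat_lit 329)) (XT.lf (nat_lit 0) (nat_lit 7807076494) (nat_lit 152) (nat_lit 3051538829) (nat_lit 228) (nat_lit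 3946440930) (nat_lit 130) (nat_lit 5) (nat_lit 132) (nat_lit 5) (nat_lit 133) (nat_lit 5) (nat_lit 474) (nat_lit 398) (nat_lit 328))) (XT.nd (nat_lit 78) (nat_lit 0) (nat_lit 0) (XT.lf (nat_lit 0) (nat_lit 574324079) (nat_lit 304) (nat_lit 12009670062) (nat_lit 76) (nat_lit 2487395587) (nat_lit 126) (nat_lit 5) (nat_lit 130) (nat_lit 5) (nat_lit 127) (nat_lit 5) (nat_lit 475) (nat_lit 398) (nat_lit 327)) (XT.lf (nat_lit 0) (nat_lit 5217539045) (nat_lit 304) (nat_lit 1907755888) (nat_lit 76) (nat_lit 8217262891) (nat_lit 126) (nat_lit 5) (nat_lit 130) (nat_lit 5) (nat_lit 127) (nat_lit 5) (nat_lit 476) (nat_lit 398) (nat_lit 326)))) (XT.nd (nat_lit 156) (nat_lit 228) (nat_lit 0) (XT.nd (nat_lit 78) (nat_lit 228) (nat_lit 0) (XT.lf (nat_lit 0) (nat_lit 8606085545) (nat_lit 152) (nat_lit 1442291650) (nat_lit 228) (nat_lit 5572035157) (nat_lit 124) (nat_lit 5) (nat_lit 126) (nat_lit 5) (nat_lit 127) (nat_lit 5) (nat_lit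 477) (nat_lit 398) (nat_lit 325)) (XT.lf (nat_lit 0) (nat_lit 3535551178) (nat_lit 228) (nat_lit 11550237446) (nat_lit 304) (nat_lit 818965602) (nat_lit 121) (nat_lit 5) (nat_lit 124) (nat_lit 5) (nat_lit 125) (nat_lit 5) (nat_lit 478) (nat_lit 398) (nat_lit 324))) (XT.nd (nat_lit 78) (nat_lit 152) (nat_lit 0) (XT.lf (nat_lit 0) (nat_lit 4048857571) (nat_lit 304) (nat_lit 1763327882) (nat_lit 76) (nat_lit 10382714984) (nat_lit 120) (nat_lit 5) (nat_lit 124) (nat_lit 5) (nat_lit 121) (nat_lit 5) (nat_lit 479) (nat_lit 398) (nat_lit 323)) (XT.lf (nat_lit 0) (nat_lit 9103984249) (nat_lit 228) (nat_lit 7217514103) (nat_lit 76) (nat_lit 170278605) (nat_lit 118) (nat_lit 5) (nat_lit 121) (nat_lit 5) (nat_lit 119) (nat_lit 5) (nat_lit 480) (nat_lit 398) (nat_lit 322))))))))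
noncomputable def xc92 : XT := (XT.nd (nat_lit 2418) (nat_lit 2204) (nat_lit 0) (XT.nd (nat_lit 1170) (nat_lit 1444) (nat_lit 0) (XT.nd (nat_lit 546) (nat_lit 988) (nat_lit 0) (XT.nd (nat_lit 234) (nat_lit 532) (nat_lit 0) (XT.nd (nat_lit 78) (nat_lit 228) (nat_lit 0) (XT.lf (nat_lit 0) (nat_lit 3841518680) (nat_lit 228) (nat_lit 10548776542) (nat_lit 304) (nat_lit 2404879662) (nat_lit 115) (nat_lit 5) (nat_lit 118) (nat_lit 5) (nat_lit 119) (nat_lit 5) (nat_lit 481) (nat_lit 398) (nat_lit 321)) (XT.nd (nat_lit 78) (nat_lit 152) (nat_lit 0) (XT.lf (nat_lit 0) (nat_lit 2715061683) (nat_lit 304) (nat_lit 1810064433) (nat_lit 76) (nat_lit 12580540101) (nat_lit 114) (nat_lit 5) (nat_lit 118) (nat_lit 5) (nat_lit 115) (nat_lit 5) (nat_lit 482) (nat_lit 398) (nat_lit 320)) (XT.lf (nat_lit 0) (nat_lit 8019454694) (nat_lit 228) (nat_lit 7661352955) (nat_lit 76) (nat_lit 1741575586) (nat_lit 112) (nat_lit 5) (nat_lit 115)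 (nat_lit 5) (nat_lit 113) (nat_lit 5) (nat_lit 483) (nat_lit 398) (nat_lit 319)))) (XT.nd (nat_lit 156) (nat_lit 304) (nat_lit 0) (XT.nd (nat_lit 78) (nat_lit 76) (nat_lit 0) (XT.lf (nat_lit 0) (nat_lit 3943898843) (nat_lit 152) (nat_lit 9608531948) (nat_lit 228) (nat_lit 4194088345) (nat_lit 110) (nat_lit 5) (nat_lit 112) (nat_lit 5) (nat_lit 113) (nat_lit 5) (nat_lit 484) (nat_lit 398) (nat_lit 318)) (XT.lf (nat_lit 0) (nat_lit 1194650886) (nat_lit 228) (nat_lit 2092185738) (nat_lit 76) (nat_lit 14791811115) (nat_lit 109) (nat_lit 5) (nat_lit 112) (nat_lit 5) (nat_lit 110) (nat_lit 5) (nat_lit 485) (nat_lit 398) (nat_lit 317))) (XT.nd (nat_lit 78) (nat_lit 152) (nat_lit 0) (XT.lf (nat_lit 0) (nat_lit 6758961081) (nat_lit 228) (nat_lit 8379933269) (nat_lit 76) (nat_lit 3277654743) (nat_lit 107) (nat_lit 5) (nat_lit 110) (nat_lit 5) (nat_lit 108) (nat_lit 5) (nat_lit 486) (nat_lit 398) (nat_lit 316)) (XT.lf (nat_lit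 0) (nat_lit 3794545883) (nat_lit 152) (nat_lit 8755428036) (nat_lit 228) (nat_lit 6212821176) (nat_lit 105) (nat_lit 5) (nat_lit 107) (nat_lit 5) (nat_lit 108) (nat_lit 5) (nat_lit 487) (nat_lit 398) (nat_lit 315))))) (XT.nd (nat_lit 312) (nat_lit 608) (nat_lit 0) (XT.nd (nat_lit 156) (nat_lit 152) (nat_lit 0) (XT.nd (nat_lit 78) (nat_lit 228) (nat_lit 0) (XT.lf (nat_lit 0) (nat_lit 16451615905) (nat_lit 152) (nat_lit 2117508447) (nat_lit 228) (nat_lit 548672696) (nat_lit 105) (nat_lit 5) (nat_lit 107) (nat_lit 5) (nat_lit 108) (nat_lit 5) (nat_lit 488) (nat_lit 398) (nat_lit 314)) (XT.lf (nat_lit 0) (nat_lit 5296306453) (nat_lit 228) (nat_lit 9428747846) (nat_lit 76) (nat_lit 4753450005) (nat_lit 102) (nat_lit 5) (nat_lit 105) (nat_lit 5) (nat_lit 103) (nat_lit 5) (nat_lit 489) (nat_lit 398) (nat_lit 313))) (XT.nd (nat_lit 78) (nat_lit 0) (nat_lit 0) (XT.lf (nat_lit 0) (nat_lit 3337506660) (nat_lit 152) (nat_lit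 8018840146) (nat_lit 228) (nat_lit 8492001528) (nat_lit 100) (nat_lit 5) (nat_lit 102) (nat_lit 5) (nat_lit 103) (nat_lit 5) (nat_lit 490) (nat_lit 398) (nat_lit 312)) (XT.lf (nat_lit 0) (nat_lit 16626997035) (nat_lit 152) (nat_lit 1037254840) (nat_lit 228) (nat_lit 2563054607) (nat_lit 100) (nat_lit 5) (nat_lit 102) (nat_lit 5) (nat_lit 103) (nat_lit 5) (nat_lit 491) (nat_lit 398) (nat_lit 311)))) (XT.nd (nat_lit 156) (nat_lit 228) (nat_lit 0) (XT.nd (nat_lit 78) (nat_lit 152) (nat_lit 0) (XT.lf (nat_lit 0) (nat_lit 3600456977) (nat_lit 228) (nat_lit 10872137757) (nat_lit 76) (nat_lit 6140241919) (nat_lit 97) (nat_lit 5) (nat_lit 100) (nat_lit 5) (nat_lit 98) (nat_lit 5) (nat_lit 492) (nat_lit 398) (nat_lit 310)) (XT.lf (nat_lit 0) (nat_lit 2507654769) (nat_lit 152) (nat_lit 7432327967) (nat_lit 228) (nat_lit 11067910619) (nat_lit 95) (nat_lit 5) (nat_lit 97) (nat_lit 5) (nat_lit 98) (nat_lit 5) (nat_lit 493)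 (nat_lit 398) (nat_lit 309))) (XT.nd (nat_lit 78) (nat_lit 228) (nat_lit 0) (XT.lf (nat_lit 0) (nat_lit 16460050436) (nat_lit 152) (nat_lit 91296372) (nat_lit 228) (nat_lit 4861005995) (nat_lit 95) (nat_lit 5) (nat_lit 97) (nat_lit 5) (nat_lit 98) (nat_lit 5) (nat_lit 494) (nat_lit 398) (nat_lit 308)) (XT.lf (nat_lit 0) (nat_lit 1634833623) (nat_lit 228) (nat_lit 12784803621) (nat_lit 76) (nat_lit 7404888806) (nat_lit 92) (nat_lit 5) (nat_lit 95) (nat_lit 5) (nat_lit 93) (nat_lit 5) (nat_lit 495) (nat_lit 398) (nat_lit 307)))))) (XT.nd (nat_lit 624) (nat_lit 684) (nat_lit 0) (XT.nd (nat_lit 312) (nat_lit 456) (nat_lit 0) (XT.nd (nat_lit 156) (nat_lit 152) (nat_lit 0) (XT.nd (nat_lit 78) (nat_lit 0) (nat_lit 0) (XT.lf (nat_lit 0) (nat_lit 1229112974) (nat_lit 152) (nat_lit 7034470665) (nat_lit 228) (nat_lit 13982965462) (nat_lit 90) (nat_lit 5) (nat_lit 92) (nat_lit 5) (nat_lit 93) (nat_lit 5) (nat_lit 496) (nat_lit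 398) (nat_lit 306)) (XT.lf (nat_lit 0) (nat_lit 15199685262) (nat_lit 228) (nat_lit 6809515668) (nat_lit 76) (nat_lit 668777793) (nat_lit 90) (nat_lit 5) (nat_lit 93) (nat_lit 5) (nat_lit 91) (nat_lit 4) (nat_lit 497) (nat_lit 398) (nat_lit 305))) (XT.nd (nat_lit 78) (nat_lit 76) (nat_lit 0) (XT.lf (nat_lit 0) (nat_lit 7858932973) (nat_lit 76) (nat_lit 14603536462) (nat_lit 152) (nat_lit 656324347) (nat_lit 89) (nat_lit 5) (nat_lit 90) (nat_lit 5) (nat_lit 91) (nat_lit 4) (nat_lit 498) (nat_lit 398) (nat_lit 304)) (XT.lf (nat_lit 0) (nat_lit 6288889647) (nat_lit 152) (nat_lit 575124738) (nat_lit 76) (nat_lit 16705695554) (nat_lit 88) (nat_lit 5) (nat_lit 90) (nat_lit 5) (nat_lit 89) (nat_lit 5) (nat_lit 499) (nat_lit 398) (nat_lit 303)))) (XT.nd (nat_lit 156) (nat_lit 228) (nat_lit 0) (XT.nd (nat_lit 78) (nat_lit 76) (nat_lit 0) (XT.lf (nat_lit 0) (nat_lit 13557511174) (nat_lit 228) (nat_lit 9258248810) (nat_lit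 76) (nat_lit 1214351860) (nat_lit 86) (nat_lit 5) (nat_lit 89) (nat_lit 5) (nat_lit 87) (nat_lit 4) (nat_lit 500) (nat_lit 398) (nat_lit 302)) (XT.lf (nat_lit 0) (nat_lit 6089607348) (nat_lit 76) (nat_lit 15061251392) (nat_lit 152) (nat_lit 3350267523) (nat_lit 85) (nat_lit 5) (nat_lit 86) (nat_lit 5) (nat_lit 87) (nat_lit 4) (nat_lit 501) (nat_lit 398) (nat_lit 301))) (XT.nd (nat_lit 78) (nat_lit 152) (nat_lit 0) (XT.lf (nat_lit 0) (nat_lit 3976718614) (nat_lit 152) (nat_lit 2983163776) (nat_lit 76) (nat_lit 18023177000) (nat_lit 84) (nat_lit 5) (nat_lit 86) (nat_lit 5) (nat_lit 85) (nat_lit 5) (nat_lit 502) (nat_lit 398) (nat_lit 300)) (XT.lf (nat_lit 0) (nat_lit 11571706502) (nat_lit 228) (nat_lit 12406667222) (nat_lit 76) (nat_lit 1496616215) (nat_lit 82) (nat_lit 5) (nat_lit 85) (nat_lit 5) (nat_lit 83) (nat_lit 4) (nat_lit 503) (nat_lit 398) (nat_lit 299))))) (XT.nd (nat_lit 312) (nat_lit 304) (nat_lit 0)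 (XT.nd (nat_lit 156) (nat_lit 228) (nat_lit 0) (XT.nd (nat_lit 78) (nat_lit 76) (nat_lit 0) (XT.lf (nat_lit 0) (nat_lit 3636674385) (nat_lit 76) (nat_lit 15867322684) (nat_lit 152) (nat_lit 6474398169) (nat_lit 81) (nat_lit 5) (nat_lit 82) (nat_lit 5) (nat_lit 83) (nat_lit 4) (nat_lit 504) (nat_lit 398) (nat_lit 298)) (XT.lf (nat_lit 0) (nat_lit 1256099957) (nat_lit 152) (nat_lit 6136909685) (nat_lit 76) (nat_lit 19100502306) (nat_lit 80) (nat_lit 5) (nat_lit 82) (nat_lit 5) (nat_lit 81) (nat_lit 5) (nat_lit 505) (nat_lit 398) (nat_lit 297))) (XT.nd (nat_lit 78) (nat_lit 76) (nat_lit 0) (XT.lf (nat_lit 0) (nat_lit 9180981099) (nat_lit 228) (nat_lit 16381766470) (nat_lit 76) (nat_lit 1456633978) (nat_lit 78) (nat_lit 5) (nat_lit 81) (nat_lit 5) (nat_lit 79) (nat_lit 4) (nat_lit 506) (nat_lit 398) (nat_lit 296)) (XT.lf (nat_lit 0) (nat_lit 369865193) (nat_lit 76) (nat_lit 17089065374) (nat_lit 152) (nat_lit 10098637385)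 (nat_lit 77) (nat_lit 5) (nat_lit 78) (nat_lit 5) (nat_lit 79) (nat_lit 4) (nat_lit 507) (nat_lit 398) (nat_lit 295)))) (XT.nd (nat_lit 156) (nat_lit 76) (nat_lit 0) (XT.nd (nat_lit 78) (nat_lit 228) (nat_lit 0) (XT.lf (nat_lit 0) (nat_lit 17914753887) (nat_lit 76) (nat_lit 8212138377) (nat_lit 152) (nat_lit 1980757838) (nat_lit 77) (nat_lit 5) (nat_lit 78) (nat_lit 5) (nat_lit 79) (nat_lit 4) (nat_lit 508) (nat_lit 398) (nat_lit 294)) (XT.lf (nat_lit 0) (nat_lit 6313565804) (nat_lit 228) (nat_lit 21331445282) (nat_lit 76) (nat_lit 1025661409) (nat_lit 74) (nat_lit 5) (nat_lit 77) (nat_lit 5) (nat_lit 75) (nat_lit 4) (nat_lit 509) (nat_lit 398) (nat_lit 293))) (XT.nd (nat_lit 78) (nat_lit 76) (nat_lit 0) (XT.lf (nat_lit 0) (nat_lit 14978933884) (nat_lit 228) (nat_lit 3787487613) (nat_lit 76) (nat_lit 10478715274) (nat_lit 74) (nat_lit 5) (nat_lit 77) (nat_lit 5) (nat_lit 75) (nat_lit 4) (nat_lit 510) (nat_lit 398)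 (nat_lit 292)) (XT.lf (nat_lit 0) (nat_lit 14523168929) (nat_lit 76) (nat_lit 9498146595) (nat_lit 152) (nat_lit 5812008198) (nat_lit 73) (nat_lit 5) (nat_lit 74) (nat_lit 5) (nat_lit 75) (nat_lit 4) (nat_lit 511) (nat_lit 398) (nat_lit 291))))))) (XT.nd (nat_lit 1170) (nat_lit 988) (nat_lit 0) (XT.nd (nat_lit 546) (nat_lit 608) (nat_lit 0) (XT.nd (nat_lit 234) (nat_lit 304) (nat_lit 0) (XT.nd (nat_lit 78) (nat_lit 76) (nat_lit 0) (XT.lf (nat_lit 0) (nat_lit 2885549477) (nat_lit 228) (nat_lit 27427924930) (nat_lit 76) (nat_lit 123459746) (nat_lit 70) (nat_lit 5) (nat_lit 73) (nat_lit 5) (nat_lit 71) (nat_lit 4) (nat_lit 512) (nat_lit 398) (nat_lit 290)) (XT.nd (nat_lit 78) (nat_lit 76) (nat_lit 0) (XT.lf (nat_lit 0) (nat_lit 11954916617) (nat_lit 228) (nat_lit 9058637106) (nat_lit 76) (nat_lit 10036542180) (nat_lit 70) (nat_lit 5) (nat_lit 73) (nat_lit 5) (nat_lit 71) (nat_lit 4) (nat_lit 513) (nat_lit 398) (nat_lit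 289)) (XT.lf (nat_lit 0) (nat_lit 10015322423) (nat_lit 76) (nat_lit 11355494421) (nat_lit 152) (nat_lit 10308602387) (nat_lit 69) (nat_lit 5) (nat_lit 70) (nat_lit 5) (nat_lit 71) (nat_lit 4) (nat_lit 514) (nat_lit 398) (nat_lit 288)))) (XT.nd (nat_lit 156) (nat_lit 76) (nat_lit 0) (XT.nd (nat_lit 78) (nat_lit 228) (nat_lit 0) (XT.lf (nat_lit 0) (nat_lit 29805762191) (nat_lit 76) (nat_lit 1333322334) (nat_lit 152) (nat_lit 1186441301) (nat_lit 69) (nat_lit 5) (nat_lit 70) (nat_lit 5) (nat_lit 71) (nat_lit 4) (nat_lit 515) (nat_lit 398) (nat_lit 287)) (XT.lf (nat_lit 0) (nat_lit 8284135969) (nat_lit 228) (nat_lit 15653672831) (nat_lit 76) (nat_lit 9043791292) (nat_lit 66) (nat_lit 5) (nat_lit 69) (nat_lit 5) (nat_lit 67) (nat_lit 4) (nat_lit 516) (nat_lit 398) (nat_lit 286))) (XT.nd (nat_lit 78) (nat_lit 0) (nat_lit 0) (XT.lf (nat_lit 0) (nat_lit 4181820075) (nat_lit 76) (nat_lit 13891140951) (nat_lit 152) (nat_lit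 15582304104) (nat_lit 65) (nat_lit 5) (nat_lit 66) (nat_lit 5) (nat_lit 67) (nat_lit 4) (nat_lit 517) (nat_lit 398) (nat_lit 285)) (XT.lf (nat_lit 0) (nat_lit 24892971104) (nat_lit 76) (nat_lit 3399659691) (nat_lit 152) (nat_lit 6052394173) (nat_lit 65) (nat_lit 5) (nat_lit 66) (nat_lit 5) (nat_lit 67) (nat_lit 4) (nat_lit 518) (nat_lit 398) (nat_lit 284))))) (XT.nd (nat_lit 312) (nat_lit 304) (nat_lit 0) (XT.nd (nat_lit 156) (nat_lit 152) (nat_lit 0) (XT.nd (nat_lit 78) (nat_lit 0) (nat_lit 0) (XT.lf (nat_lit 0) (nat_lit 3850707205) (nat_lit 152) (nat_lit 23809117815) (nat_lit 76) (nat_lit 7389745573) (nat_lit 63) (nat_lit 5) (nat_lit 65) (nat_lit 5) (nat_lit 64) (nat_lit 4) (nat_lit 519) (nat_lit 398) (nat_lit 283)) (XT.lf (nat_lit 0) (nat_lit 14038861675) (nat_lit 152) (nat_lit 3158991588) (nat_lit 76) (nat_lit 18572313594) (nat_lit 63) (nat_lit 5) (nat_lit 65) (nat_lit 5) (nat_lit 64) (nat_lit 4) (nat_lit 520)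 (nat_lit 398) (nat_lit 282))) (XT.nd (nat_lit 78) (nat_lit 76) (nat_lit 0) (XT.lf (nat_lit 0) (nat_lit 18431898370) (nat_lit 76) (nat_lit 6258091530) (nat_lit 152) (nat_lit 11817671456) (nat_lit 62) (nat_lit 5) (nat_lit 63) (nat_lit 5) (nat_lit 64) (nat_lit 4) (nat_lit 521) (nat_lit 398) (nat_lit 281)) (XT.lf (nat_lit 0) (nat_lit 3449334135) (nat_lit 76) (nat_lit 32305034363) (nat_lit 76) (nat_lit 1510100910) (nat_lit 61) (nat_lit 4) (nat_lit 62) (nat_lit 5) (nat_lit 62) (nat_lit 4) (nat_lit 522) (nat_lit 398) (nat_lit 280)))) (XT.nd (nat_lit 156) (nat_lit 152) (nat_lit 0) (XT.nd (nat_lit 78) (nat_lit 76) (nat_lit 0) (XT.lf (nat_lit 0) (nat_lit 9155493523) (nat_lit 152) (nat_lit 12237559787) (nat_lit 76) (nat_lit 16641507383) (nat_lit 60) (nat_lit 5) (nat_lit 62) (nat_lit 5) (nat_lit 61) (nat_lit 4) (nat_lit 523) (nat_lit 398) (nat_lit 279)) (XT.lf (nat_lit 0) (nat_lit 10132772828) (nat_lit 76) (nat_lit 10056113387)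 (nat_lit 152) (nat_lit 18636074694) (nat_lit 59) (nat_lit 5) (nat_lit 60) (nat_lit 5) (nat_lit 61) (nat_lit 4) (nat_lit 524) (nat_lit 398) (nat_lit 278))) (XT.nd (nat_lit 78) (nat_lit 152) (nat_lit 0) (XT.lf (nat_lit 0) (nat_lit 31674472207) (nat_lit 152) (nat_lit 6264474806) (nat_lit 0) (nat_lit 1696490563) (nat_lit 59) (nat_lit 5) (nat_lit 61) (nat_lit 4) (nat_lit 59) (nat_lit 4) (nat_lit 525) (nat_lit 398) (nat_lit 277)) (XT.lf (nat_lit 0) (nat_lit 3222270645) (nat_lit 152) (nat_lit 23461897036) (nat_lit 76) (nat_lit 13777773424) (nat_lit 57) (nat_lit 5) (nat_lit 59) (nat_lit 5) (nat_lit 58) (nat_lit 4) (nat_lit 526) (nat_lit 398) (nat_lit 276)))))) (XT.nd (nat_lit 624) (nat_lit 532) (nat_lit 0) (XT.nd (nat_lit 312) (nat_lit 228) (nat_lit 0) (XT.nd (nat_lit 156) (nat_lit 152) (nat_lit 0) (XT.nd (nat_lit 78) (nat_lit 76) (nat_lit 0) (XT.lf (nat_lit 0) (nat_lit 14626266108) (nat_lit 152) (nat_lit 336179258) (nat_lit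 76) (nat_lit 26347071808) (nat_lit 57) (nat_lit 5) (nat_lit 59) (nat_lit 5) (nat_lit 58) (nat_lit 4) (nat_lit 527) (nat_lit 398) (nat_lit 275)) (XT.lf (nat_lit 0) (nat_lit 23914726263) (nat_lit 76) (nat_lit 2669464996) (nat_lit 152) (nat_lit 15591975140) (nat_lit 56) (nat_lit 5) (nat_lit 57) (nat_lit 5) (nat_lit 58) (nat_lit 4) (nat_lit 528) (nat_lit 398) (nat_lit 274))) (XT.nd (nat_lit 78) (nat_lit 76) (nat_lit 0) (XT.lf (nat_lit 0) (nat_lit 5813418283) (nat_lit 76) (nat_lit 33224752694) (nat_lit 76) (nat_lit 4026524783) (nat_lit 55) (nat_lit 4) (nat_lit 56) (nat_lit 5) (nat_lit 56) (nat_lit 4) (nat_lit 529) (nat_lit 398) (nat_lit 273)) (XT.lf (nat_lit 0) (nat_lit 7926634938) (nat_lit 152) (nat_lit 13128831861) (nat_lit 76) (nat_lit 22916301401) (nat_lit 54) (nat_lit 5) (nat_lit 56) (nat_lit 5) (nat_lit 55) (nat_lit 4) (nat_lit 530) (nat_lit 398) (nat_lit 272)))) (XT.nd (nat_lit 156) (nat_lit 152) (nat_lit 0)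 (XT.nd (nat_lit 78) (nat_lit 0) (nat_lit 0) (XT.lf (nat_lit 0) (nat_lit 11874883109) (nat_lit 76) (nat_lit 8379218132) (nat_lit 152) (nat_lit 24647856495) (nat_lit 53) (nat_lit 5) (nat_lit 54) (nat_lit 5) (nat_lit 55) (nat_lit 4) (nat_lit 531) (nat_lit 398) (nat_lit 271)) (XT.lf (nat_lit 0) (nat_lit 33112757452) (nat_lit 152) (nat_lit 8038795452) (nat_lit 0) (nat_lit 4703659223) (nat_lit 53) (nat_lit 5) (nat_lit 55) (nat_lit 4) (nat_lit 53) (nat_lit 4) (nat_lit 532) (nat_lit 398) (nat_lit 270))) (XT.nd (nat_lit 78) (nat_lit 76) (nat_lit 0) (XT.lf (nat_lit 0) (nat_lit 17932818374) (nat_lit 76) (nat_lit 28662724564) (nat_lit 76) (nat_lit 234370265) (nat_lit 52) (nat_lit 4) (nat_lit 53) (nat_lit 5) (nat_lit 53) (nat_lit 4) (nat_lit 533) (nat_lit 398) (nat_lit 269)) (XT.lf (nat_lit 0) (nat_lit 12467146717) (nat_lit 152) (nat_lit 3138741674) (nat_lit 76) (nat_lit 32222368867) (nat_lit 51) (nat_lit 5) (nat_lit 53) (nat_lit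 5) (nat_lit 52) (nat_lit 4) (nat_lit 534) (nat_lit 398) (nat_lit 268))))) (XT.nd (nat_lit 312) (nat_lit 228) (nat_lit 0) (XT.nd (nat_lit 156) (nat_lit 152) (nat_lit 0) (XT.nd (nat_lit 78) (nat_lit 76) (nat_lit 0) (XT.lf (nat_lit 0) (nat_lit 23822579251) (nat_lit 76) (nat_lit 1934947573) (nat_lit 152) (nat_lit 23092579478) (nat_lit 50) (nat_lit 5) (nat_lit 51) (nat_lit 5) (nat_lit 52) (nat_lit 4) (nat_lit 535) (nat_lit 398) (nat_lit 267)) (XT.lf (nat_lit 0) (nat_lit 1637966102) (nat_lit 76) (nat_lit 37956714226) (nat_lit 76) (nat_lit 10303488756) (nat_lit 49) (nat_lit 4) (nat_lit 50) (nat_lit 5) (nat_lit 50) (nat_lit 4) (nat_lit 536) (nat_lit 398) (nat_lit 266))) (XT.nd (nat_lit 78) (nat_lit 76) (nat_lit 0) (XT.lf (nat_lit 0) (nat_lit 3071235772) (nat_lit 152) (nat_lit 21435227305) (nat_lit 76) (nat_lit 26462644824) (nat_lit 48) (nat_lit 5) (nat_lit 50) (nat_lit 5) (nat_lit 49) (nat_lit 4) (nat_lit 537) (nat_lit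 398) (nat_lit 265)) (XT.lf (nat_lit 0) (nat_lit 6181694635) (nat_lit 76) (nat_lit 10501880346) (nat_lit 152) (nat_lit 35384235689) (nat_lit 47) (nat_lit 5) (nat_lit 48) (nat_lit 5) (nat_lit 49) (nat_lit 4) (nat_lit 538) (nat_lit 398) (nat_lit 264)))) (XT.nd (nat_lit 156) (nat_lit 152) (nat_lit 0) (XT.nd (nat_lit 78) (nat_lit 76) (nat_lit 0) (XT.lf (nat_lit 0) (nat_lit 30944649220) (nat_lit 152) (nat_lit 18197741486) (nat_lit 0) (nat_lit 4049872982) (nat_lit 47) (nat_lit 5) (nat_lit 49) (nat_lit 4) (nat_lit 47) (nat_lit 4) (nat_lit 539) (nat_lit 398) (nat_lit 263)) (XT.lf (nat_lit 0) (nat_lit 10389523760) (nat_lit 76) (nat_lit 35432404933) (nat_lit 76) (nat_lit 8522870522) (nat_lit 46) (nat_lit 4) (nat_lit 47) (nat_lit 5) (nat_lit 47) (nat_lit 4) (nat_lit 540) (nat_lit 398) (nat_lit 262))) (XT.nd (nat_lit 78) (nat_lit 76) (nat_lit 0) (XT.lf (nat_lit 0) (nat_lit 5674186880) (nat_lit 152) (nat_lit 15405263367) (nat_lit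 76) (nat_lit 34445738428) (nat_lit 45) (nat_lit 5) (nat_lit 47) (nat_lit 5) (nat_lit 46) (nat_lit 4) (nat_lit 541) (nat_lit 398) (nat_lit 261)) (XT.lf (nat_lit 0) (nat_lit 14163609101) (nat_lit 76) (nat_lit 6083377514) (nat_lit 152) (nat_lit 36487837801) (nat_lit 44) (nat_lit 5) (nat_lit 45) (nat_lit 5) (nat_lit 46) (nat_lit 4) (nat_lit 542) (nat_lit 398) (nat_lit 260))))))))
noncomputable def xc93 : XT := (XT.nd (nat_lit 53040) (nat_lit 0) (nat_lit 11476) (XT.nd (nat_lit 51792) (nat_lit 0) (nat_lit 25080) (XT.nd (nat_lit 546) (nat_lit 228) (nat_lit 0) (XT.nd (nat_lit 234) (nat_lit 228) (nat_lit 0) (XT.nd (nat_lit 78) (nat_lit 152) (nat_lit 0) (XT.lf (nat_lit 0) (nat_lit 35489070990) (nat_lit 152) (nat_lit 13161935150) (nat_lit 0) (nat_lit 9322780166) (nat_lit 44) (nat_lit 5) (nat_lit 46) (nat_lit 4) (nat_lit 44) (nat_lit 4) (nat_lit 543) (nat_lit 398) (nat_lit 259)) (XT.nd (nat_lit 78) (nat_lit 76) (nat_lit 0)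 (XT.lf (nat_lit 0) (nat_lit 17379742756) (nat_lit 76) (nat_lit 34021406896) (nat_lit 76) (nat_lit 7842385542) (nat_lit 43) (nat_lit 4) (nat_lit 44) (nat_lit 5) (nat_lit 44) (nat_lit 4) (nat_lit 544) (nat_lit 398) (nat_lit 258)) (XT.lf (nat_lit 0) (nat_lit 7217619598) (nat_lit 152) (nat_lit 11539613308) (nat_lit 76) (nat_lit 41788466042) (nat_lit 42) (nat_lit 5) (nat_lit 44) (nat_lit 5) (nat_lit 43) (nat_lit 4) (nat_lit 545) (nat_lit 398) (nat_lit 257)))) (XT.nd (nat_lit 156) (nat_lit 152) (nat_lit 0) (XT.nd (nat_lit 78) (nat_lit 0) (nat_lit 0) (XT.lf (nat_lit 0) (nat_lit 19978537702) (nat_lit 76) (nat_lit 2771175864) (nat_lit 152) (nat_lit 39129547324) (nat_lit 41) (nat_lit 5) (nat_lit 42) (nat_lit 5) (nat_lit 43) (nat_lit 4) (nat_lit 546) (nat_lit 398) (nat_lit 256)) (XT.lf (nat_lit 0) (nat_lit 38982971890) (nat_lit 152) (nat_lit 10731316430) (nat_lit 0) (nat_lit 13531485408) (nat_lit 41) (nat_lit 5) (nat_lit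 43) (nat_lit 4) (nat_lit 41) (nat_lit 4) (nat_lit 547) (nat_lit 398) (nat_lit 255))) (XT.nd (nat_lit 78) (nat_lit 76) (nat_lit 0) (XT.lf (nat_lit 0) (nat_lit 21742858105) (nat_lit 76) (nat_lit 34183104912) (nat_lit 76) (nat_lit 8720636963) (nat_lit 40) (nat_lit 4) (nat_lit 41) (nat_lit 5) (nat_lit 41) (nat_lit 4) (nat_lit 548) (nat_lit 398) (nat_lit 254)) (XT.lf (nat_lit 0) (nat_lit 7241318314) (nat_lit 152) (nat_lit 10773253389) (nat_lit 76) (nat_lit 48069905655) (nat_lit 39) (nat_lit 5) (nat_lit 41) (nat_lit 5) (nat_lit 40) (nat_lit 4) (nat_lit 549) (nat_lit 398) (nat_lit 253))))) (XT.nd (nat_lit 50934) (nat_lit 0) (nat_lit 31312) (XT.nd (nat_lit 156) (nat_lit 152) (nat_lit 0) (XT.nd (nat_lit 78) (nat_lit 0) (nat_lit 0) (XT.lf (nat_lit 0) (nat_lit 22650424366) (nat_lit 76) (nat_lit 1060858894) (nat_lit 152) (nat_lit 43845484768) (nat_lit 38) (nat_lit 5) (nat_lit 39) (nat_lit 5) (nat_lit 40) (nat_lit 4) (nat_lit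 550) (nat_lit 398) (nat_lit 252)) (XT.lf (nat_lit 0) (nat_lit 40929583312) (nat_lit 152) (nat_lit 11957434025) (nat_lit 0) (nat_lit 16178583068) (nat_lit 38) (nat_lit 5) (nat_lit 40) (nat_lit 4) (nat_lit 38) (nat_lit 4) (nat_lit 551) (nat_lit 398) (nat_lit 251))) (XT.nd (nat_lit 78) (nat_lit 76) (nat_lit 0) (XT.lf (nat_lit 0) (nat_lit 22380547129) (nat_lit 76) (nat_lit 36496620791) (nat_lit 76) (nat_lit 11736147836) (nat_lit 37) (nat_lit 4) (nat_lit 38) (nat_lit 5) (nat_lit 38) (nat_lit 4) (nat_lit 552) (nat_lit 398) (nat_lit 250)) (XT.lf (nat_lit 0) (nat_lit 5164154998) (nat_lit 152) (nat_lit 14286435113) (nat_lit 76) (nat_lit 52752114402) (nat_lit 36) (nat_lit 5) (nat_lit 38) (nat_lit 5) (nat_lit 37) (nat_lit 4) (nat_lit 553) (nat_lit 398) (nat_lit 249)))) (XT.nd (nat_lit 156) (nat_lit 152) (nat_lit 0) (XT.nd (nat_lit 78) (nat_lit 76) (nat_lit 0) (XT.lf (nat_lit 0) (nat_lit 43994649) (nat_lit 76) (nat_lit 1589554804)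 (nat_lit 76) (nat_lit 1589554804) (nat_lit 451) (nat_lit 4) (nat_lit 452) (nat_lit 5) (nat_lit 452) (nat_lit 4) (nat_lit 402) (nat_lit 399) (nat_lit 399)) (XT.lf (nat_lit 0) (nat_lit 24118355) (nat_lit 152) (nat_lit 2969135806) (nat_lit 76) (nat_lit 3458618429) (nat_lit 450) (nat_lit 5) (nat_lit 452) (nat_lit 5) (nat_lit 451) (nat_lit 4) (nat_lit 403) (nat_lit 399) (nat_lit 398))) (XT.nd (nat_lit 78) (nat_lit 0) (nat_lit 0) (XT.lf (nat_lit 0) (nat_lit 430560629) (nat_lit 152) (nat_lit 2711728560) (nat_lit 228) (nat_lit 3318011733) (nat_lit 448) (nat_lit 5) (nat_lit 450) (nat_lit 5) (nat_lit 451) (nat_lit 4) (nat_lit 404) (nat_lit 399) (nat_lit 397)) (XT.lf (nat_lit 0) (nat_lit 3925793917) (nat_lit 152) (nat_lit 2339686551) (nat_lit 228) (nat_lit 206177683) (nat_lit 448) (nat_lit 5) (nat_lit 450) (nat_lit 5) (nat_lit 451) (nat_lit 4) (nat_lit 405) (nat_lit 399) (nat_lit 396)))))) (XT.nd (nat_lit 624) (nat_lit 4028)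 (nat_lit 0) (XT.nd (nat_lit 312) (nat_lit 1520) (nat_lit 0) (XT.nd (nat_lit 156) (nat_lit 380) (nat_lit 0) (XT.nd (nat_lit 78) (nat_lit 0) (nat_lit 0) (XT.lf (nat_lit 0) (nat_lit 964837517) (nat_lit 228) (nat_lit 1868713003) (nat_lit 304) (nat_lit 3652168048) (nat_lit 444) (nat_lit 5) (nat_lit 447) (nat_lit 5) (nat_lit 448) (nat_lit 5) (nat_lit 406) (nat_lit 399) (nat_lit 395)) (XT.lf (nat_lit 0) (nat_lit 4563939965) (nat_lit 228) (nat_lit 1308601478) (nat_lit 304) (nat_lit 630250251) (nat_lit 444) (nat_lit 5) (nat_lit 447) (nat_lit 5) (nat_lit 448) (nat_lit 5) (nat_lit 407) (nat_lit 399) (nat_lit 394))) (XT.nd (nat_lit 78) (nat_lit 0) (nat_lit 0) (XT.lf (nat_lit 0) (nat_lit 1692497554) (nat_lit 304) (nat_lit 646380944) (nat_lit 380) (nat_lit 4183650410) (nat_lit 439) (nat_lit 5) (nat_lit 443) (nat_lit 5) (nat_lit 444) (nat_lit 5) (nat_lit 408) (nat_lit 399) (nat_lit 393)) (XT.lf (nat_lit 0) (nat_lit 5296257032)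 (nat_lit 380) (nat_lit 1146843650) (nat_lit 76) (nat_lit 102232058) (nat_lit 439) (nat_lit 5) (nat_lit 444) (nat_lit 5) (nat_lit 440) (nat_lit 5) (nat_lit 409) (nat_lit 399) (nat_lit 392)))) (XT.nd (nat_lit 156) (nat_lit 1064) (nat_lit 0) (XT.nd (nat_lit 78) (nat_lit 0) (nat_lit 0) (XT.lf (nat_lit 0) (nat_lit 1664682512) (nat_lit 456) (nat_lit 3964010846) (nat_lit 76) (nat_lit 941859279) (nat_lit 433) (nat_lit 5) (nat_lit 439) (nat_lit 5) (nat_lit 434) (nat_lit 5) (nat_lit 410) (nat_lit 399) (nat_lit 391)) (XT.lf (nat_lit 0) (nat_lit 4548704231) (nat_lit 456) (nat_lit 182315362) (nat_lit 76) (nat_lit 1867915411) (nat_lit 433) (nat_lit 5) (nat_lit 439) (nat_lit 5) (nat_lit 434) (nat_lit 5) (nat_lit 411) (nat_lit 399) (nat_lit 390))) (XT.nd (nat_lit 78) (nat_lit 532) (nat_lit 0) (XT.lf (nat_lit 0) (nat_lit 808050342) (nat_lit 532) (nat_lit 2920338489) (nat_lit 76) (nat_lit 2901506891) (nat_lit 426) (nat_lit 5) (nat_lit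 433) (nat_lit 5) (nat_lit 427) (nat_lit 5) (nat_lit 412) (nat_lit 399) (nat_lit 389)) (XT.lf (nat_lit 0) (nat_lit 990208673) (nat_lit 532) (nat_lit 2632623900) (nat_lit 608) (nat_lit 3040999144) (nat_lit 419) (nat_lit 5) (nat_lit 426) (nat_lit 5) (nat_lit 427) (nat_lit 5) (nat_lit 413) (nat_lit 399) (nat_lit 388))))) (XT.nd (nat_lit 312) (nat_lit 2584) (nat_lit 0) (XT.nd (nat_lit 156) (nat_lit 760) (nat_lit 0) (XT.nd (nat_lit 78) (nat_lit 684) (nat_lit 0) (XT.lf (nat_lit 0) (nat_lit 5009623109) (nat_lit 532) (nat_lit 1444746381) (nat_lit 608) (nat_lit 246460792) (nat_lit 419) (nat_lit 5) (nat_lit 426) (nat_lit 5) (nat_lit 427) (nat_lit 5) (nat_lit 414) (nat_lit 399) (nat_lit 387)) (XT.lf (nat_lit 0) (nat_lit 2363264296) (nat_lit 608) (nat_lit 144713105) (nat_lit 684) (nat_lit 4232392796) (nat_lit 410) (nat_lit 5) (nat_lit 418) (nat_lit 5) (nat_lit 419) (nat_lit 5) (nat_lit 415) (nat_lit 399) (nat_lit 386))) (XT.nd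 (nat_lit 78) (nat_lit 760) (nat_lit 0) (XT.lf (nat_lit 0) (nat_lit 5275899556) (nat_lit 684) (nat_lit 291253832) (nat_lit 76) (nat_lit 1215808236) (nat_lit 410) (nat_lit 5) (nat_lit 419) (nat_lit 5) (nat_lit 411) (nat_lit 5) (nat_lit 416) (nat_lit 399) (nat_lit 385)) (XT.lf (nat_lit 0) (nat_lit 1223076358) (nat_lit 760) (nat_lit 2916619783) (nat_lit 76) (nat_lit 2688319202) (nat_lit 400) (nat_lit 5) (nat_lit 410) (nat_lit 5) (nat_lit 401) (nat_lit 5) (nat_lit 417) (nat_lit 399) (nat_lit 384)))) (XT.nd (nat_lit 156) (nat_lit 1824) (nat_lit 0) (XT.nd (nat_lit 78) (nat_lit 0) (nat_lit 0) (XT.lf (nat_lit 0) (nat_lit 1312754051) (nat_lit 760) (nat_lit 2618536762) (nat_lit 836) (nat_lit 2944899928) (nat_lit 390) (nat_lit 5) (nat_lit 400) (nat_lit 5) (nat_lit 401) (nat_lit 5) (nat_lit 418) (nat_lit 399) (nat_lit 383)) (XT.lf (nat_lit 0) (nat_lit 5659805633) (nat_lit 760) (nat_lit 1003204073) (nat_lit 836) (nat_lit 264545196)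 (nat_lit 390) (nat_lit 5) (nat_lit 400) (nat_lit 5) (nat_lit 401) (nat_lit 5) (nat_lit 419) (nat_lit 399) (nat_lit 382))) (XT.nd (nat_lit 78) (nat_lit 912) (nat_lit 0) (XT.lf (nat_lit 0) (nat_lit 2399093518) (nat_lit 912) (nat_lit 3863359769) (nat_lit 76) (nat_lit 718749937) (nat_lit 378) (nat_lit 5) (nat_lit 390) (nat_lit 5) (nat_lit 379) (nat_lit 5) (nat_lit 420) (nat_lit 399) (nat_lit 381)) (XT.lf (nat_lit 0) (nat_lit 552322350) (nat_lit 912) (nat_lit 4529656020) (nat_lit 988) (nat_lit 1956074714) (nat_lit 366) (nat_lit 5) (nat_lit 378) (nat_lit 5) (nat_lit 379) (nat_lit 5) (nat_lit 421) (nat_lit 399) (nat_lit 380))))))) (XT.nd (nat_lit 1248) (nat_lit 5016) (nat_lit 0) (XT.nd (nat_lit 624) (nat_lit 3116) (nat_lit 0) (XT.nd (nat_lit 312) (nat_lit 3268) (nat_lit 0) (XT.nd (nat_lit 156) (nat_lit 1140) (nat_lit 0) (XT.nd (nat_lit 78) (nat_lit 988) (nat_lit 0) (XT.lf (nat_lit 0) (nat_lit 690953257) (nat_lit 988)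 (nat_lit 1995003103) (nat_lit 76) (nat_lit 4411741182) (nat_lit 365) (nat_lit 5) (nat_lit 378) (nat_lit 5) (nat_lit 366) (nat_lit 5) (nat_lit 422) (nat_lit 399) (nat_lit 379)) (XT.lf (nat_lit 0) (nat_lit 2592095909) (nat_lit 988) (nat_lit 730726883) (nat_lit 1064) (nat_lit 3837394567) (nat_lit 352) (nat_lit 5) (nat_lit 365) (nat_lit 5) (nat_lit 366) (nat_lit 5) (nat_lit 423) (nat_lit 399) (nat_lit 378))) (XT.nd (nat_lit 78) (nat_lit 76) (nat_lit 0) (XT.lf (nat_lit 0) (nat_lit 50813673) (nat_lit 1064) (nat_lit 5937597230) (nat_lit 1140) (nat_lit 1237568135) (nat_lit 338) (nat_lit 5) (nat_lit 352) (nat_lit 5) (nat_lit 353) (nat_lit 5) (nat_lit 424) (nat_lit 399) (nat_lit 377)) (XT.lf (nat_lit 0) (nat_lit 1388399238) (nat_lit 1140) (nat_lit 2484099087) (nat_lit 76) (nat_lit 3421521002) (nat_lit 337) (nat_lit 5) (nat_lit 352) (nat_lit 5) (nat_lit 338) (nat_lit 5) (nat_lit 425) (nat_lit 399) (nat_lit 376)))) (XT.nd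 (nat_lit 156) (nat_lit 2128) (nat_lit 0) (XT.nd (nat_lit 78) (nat_lit 0) (nat_lit 0) (XT.lf (nat_lit 0) (nat_lit 2310441734) (nat_lit 1140) (nat_lit 1704728666) (nat_lit 1216) (nat_lit 3350164235) (nat_lit 322) (nat_lit 5) (nat_lit 337) (nat_lit 5) (nat_lit 338) (nat_lit 5) (nat_lit 426) (nat_lit 399) (nat_lit 375)) (XT.lf (nat_lit 0) (nat_lit 6677411547) (nat_lit 1216) (nat_lit 215286986) (nat_lit 76) (nat_lit 547398986) (nat_lit 322) (nat_lit 5) (nat_lit 338) (nat_lit 5) (nat_lit 323) (nat_lit 5) (nat_lit 427) (nat_lit 399) (nat_lit 374))) (XT.nd (nat_lit 78) (nat_lit 836) (nat_lit 0) (XT.lf (nat_lit 0) (nat_lit 1856395113) (nat_lit 1292) (nat_lit 2759323361) (nat_lit 76) (nat_lit 2901110813) (nat_lit 305) (nat_lit 5) (nat_lit 322) (nat_lit 5) (nat_lit 306) (nat_lit 5) (nat_lit 428) (nat_lit 399) (nat_lit 373)) (XT.lf (nat_lit 0) (nat_lit 2254198248) (nat_lit 836) (nat_lit 2237511728) (nat_lit 912) (nat_lit 3105344206)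 (nat_lit 294) (nat_lit 5) (nat_lit 305) (nat_lit 5) (nat_lit 306) (nat_lit 5) (nat_lit 429) (nat_lit 399) (nat_lit 372))))) (XT.nd (nat_lit 312) (nat_lit 1824) (nat_lit 0) (XT.nd (nat_lit 156) (nat_lit 608) (nat_lit 0) (XT.nd (nat_lit 78) (nat_lit 684) (nat_lit 0) (XT.lf (nat_lit 0) (nat_lit 7166782129) (nat_lit 912) (nat_lit 278190362) (nat_lit 76) (nat_lit 235899616) (nat_lit 294) (nat_lit 5) (nat_lit 306) (nat_lit 5) (nat_lit 295) (nat_lit 5) (nat_lit 430) (nat_lit 399) (nat_lit 371)) (XT.lf (nat_lit 0) (nat_lit 2115080264) (nat_lit 684) (nat_lit 2844788557) (nat_lit 76) (nat_lit 2806654273) (nat_lit 285) (nat_lit 5) (nat_lit 294) (nat_lit 5) (nat_lit 286) (nat_lit 5) (nat_lit 431) (nat_lit 399) (nat_lit 370))) (XT.nd (nat_lit 78) (nat_lit 0) (nat_lit 0) (XT.lf (nat_lit 0) (nat_lit 2400137798) (nat_lit 608) (nat_lit 2371747685) (nat_lit 684) (nat_lit 3083939256) (nat_lit 277) (nat_lit 5) (nat_lit 285) (nat_lit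 5) (nat_lit 286) (nat_lit 5) (nat_lit 432) (nat_lit 399) (nat_lit 369)) (XT.lf (nat_lit 0) (nat_lit 7474654519) (nat_lit 684) (nat_lit 160851807) (nat_lit 76) (nat_lit 313317730) (nat_lit 277) (nat_lit 5) (nat_lit 286) (nat_lit 5) (nat_lit 278) (nat_lit 5) (nat_lit 433) (nat_lit 399) (nat_lit 368)))) (XT.nd (nat_lit 156) (nat_lit 608) (nat_lit 0) (XT.nd (nat_lit 78) (nat_lit 608) (nat_lit 0) (XT.lf (nat_lit 0) (nat_lit 2181587323) (nat_lit 608) (nat_lit 2762291395) (nat_lit 76) (nat_lit 3099775386) (nat_lit 269) (nat_lit 5) (nat_lit 277) (nat_lit 5) (nat_lit 270) (nat_lit 5) (nat_lit 434) (nat_lit 399) (nat_lit 367)) (XT.lf (nat_lit 0) (nat_lit 2727347774) (nat_lit 608) (nat_lit 2144897240) (nat_lit 684) (nat_lit 3270006311) (nat_lit 261) (nat_lit 5) (nat_lit 269) (nat_lit 5) (nat_lit 270) (nat_lit 5) (nat_lit 435) (nat_lit 399) (nat_lit 366))) (XT.nd (nat_lit 78) (nat_lit 76) (nat_lit 0) (XT.lf (nat_lit 0) (nat_lit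 119156886) (nat_lit 532) (nat_lit 7498876760) (nat_lit 608) (nat_lit 626546177) (nat_lit 254) (nat_lit 5) (nat_lit 261) (nat_lit 5) (nat_lit 262) (nat_lit 5) (nat_lit 436) (nat_lit 399) (nat_lit 365)) (XT.lf (nat_lit 0) (nat_lit 2070292842) (nat_lit 608) (nat_lit 2531686344) (nat_lit 76) (nat_lit 3746950462) (nat_lit 253) (nat_lit 5) (nat_lit 261) (nat_lit 5) (nat_lit 254) (nat_lit 5) (nat_lit 437) (nat_lit 399) (nat_lit 364)))))) (XT.nd (nat_lit 624) (nat_lit 2128) (nat_lit 0) (XT.nd (nat_lit 312) (nat_lit 1368) (nat_lit 0) (XT.nd (nat_lit 156) (nat_lit 532) (nat_lit 0) (XT.nd (nat_lit 78) (nat_lit 456) (nat_lit 0) (XT.lf (nat_lit 0) (nat_lit 3216858803) (nat_lit 532) (nat_lit 1589820250) (nat_lit 608) (nat_lit 3650412974) (nat_lit 246) (nat_lit 5) (nat_lit 253) (nat_lit 5) (nat_lit 254) (nat_lit 5) (nat_lit 438) (nat_lit 399) (nat_lit 363)) (XT.lf (nat_lit 0) (nat_lit 547356698) (nat_lit 456) (nat_lit 7064710905)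 (nat_lit 532) (nat_lit 956829415) (nat_lit 240) (nat_lit 5) (nat_lit 246) (nat_lit 5) (nat_lit 247) (nat_lit 5) (nat_lit 439) (nat_lit 399) (nat_lit 362))) (XT.nd (nat_lit 78) (nat_lit 456) (nat_lit 0) (XT.lf (nat_lit 0) (nat_lit 1793027882) (nat_lit 532) (nat_lit 2171238355) (nat_lit 76) (nat_lit 4718942544) (nat_lit 239) (nat_lit 5) (nat_lit 246) (nat_lit 5) (nat_lit 240) (nat_lit 5) (nat_lit 440) (nat_lit 399) (nat_lit 361)) (XT.lf (nat_lit 0) (nat_lit 3851293059) (nat_lit 456) (nat_lit 735326638) (nat_lit 532) (nat_lit 4214636522) (nat_lit 233) (nat_lit 5) (nat_lit 239) (nat_lit 5) (nat_lit 240) (nat_lit 5) (nat_lit 441) (nat_lit 399) (nat_lit 360)))) (XT.nd (nat_lit 156) (nat_lit 836) (nat_lit 0) (XT.nd (nat_lit 78) (nat_lit 76) (nat_lit 0) (XT.lf (nat_lit 0) (nat_lit 1103402750) (nat_lit 456) (nat_lit 6362584298) (nat_lit 532) (nat_lit 1456803495) (nat_lit 227) (nat_lit 5) (nat_lit 233) (nat_lit 5) (nat_lit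 234) (nat_lit 5) (nat_lit 442) (nat_lit 399) (nat_lit 359)) (XT.lf (nat_lit 0) (nat_lit 1359251174) (nat_lit 532) (nat_lit 1697960489) (nat_lit 76) (nat_lit 5990289760) (nat_lit 226) (nat_lit 5) (nat_lit 233) (nat_lit 5) (nat_lit 227) (nat_lit 5) (nat_lit 443) (nat_lit 399) (nat_lit 358))) (XT.nd (nat_lit 78) (nat_lit 380) (nat_lit 0) (XT.lf (nat_lit 0) (nat_lit 4224984144) (nat_lit 532) (nat_lit 4565058200) (nat_lit 76) (nat_lit 385648377) (nat_lit 220) (nat_lit 5) (nat_lit 227) (nat_lit 5) (nat_lit 221) (nat_lit 5) (nat_lit 444) (nat_lit 399) (nat_lit 357)) (XT.lf (nat_lit 0) (nat_lit 1771221599) (nat_lit 380) (nat_lit 5417188870) (nat_lit 456) (nat_lit 2118967583) (nat_lit 215) (nat_lit 5) (nat_lit 220) (nat_lit 5) (nat_lit 221) (nat_lit 5) (nat_lit 445) (nat_lit 399) (nat_lit 356))))) (XT.nd (nat_lit 312) (nat_lit 1140) (nat_lit 0) (XT.nd (nat_lit 156) (nat_lit 456) (nat_lit 0) (XT.nd (nat_lit 78) (nat_lit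 456) (nat_lit 0) (XT.lf (nat_lit 0) (nat_lit 776186905) (nat_lit 456) (nat_lit 1127942164) (nat_lit 76) (nat_lit 7538839762) (nat_lit 214) (nat_lit 5) (nat_lit 220) (nat_lit 5) (nat_lit 215) (nat_lit 5) (nat_lit 446) (nat_lit 399) (nat_lit 355)) (XT.lf (nat_lit 0) (nat_lit 3734450701) (nat_lit 532) (nat_lit 4107638838) (nat_lit 76) (nat_lit 1739346739) (nat_lit 208) (nat_lit 5) (nat_lit 215) (nat_lit 5) (nat_lit 209) (nat_lit 5) (nat_lit 447) (nat_lit 399) (nat_lit 354))) (XT.nd (nat_lit 78) (nat_lit 76) (nat_lit 0) (XT.lf (nat_lit 0) (nat_lit 2535483174) (nat_lit 380) (nat_lit 4250398026) (nat_lit 456) (nat_lit 2938047535) (nat_lit 203) (nat_lit 5) (nat_lit 208) (nat_lit 5) (nat_lit 209) (nat_lit 5) (nat_lit 448) (nat_lit 399) (nat_lit 353)) (XT.lf (nat_lit 0) (nat_lit 48928644) (nat_lit 456) (nat_lit 476673765) (nat_lit 76) (nat_lit 9345322985) (nat_lit 202) (nat_lit 5) (nat_lit 208) (nat_lit 5) (nat_lit 203)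 (nat_lit 5) (nat_lit 449) (nat_lit 399) (nat_lit 352)))) (XT.nd (nat_lit 156) (nat_lit 456) (nat_lit 0) (XT.nd (nat_lit 78) (nat_lit 304) (nat_lit 0) (XT.lf (nat_lit 0) (nat_lit 3112658734) (nat_lit 456) (nat_lit 3586415282) (nat_lit 76) (nat_lit 3321002604) (nat_lit 197) (nat_lit 5) (nat_lit 203) (nat_lit 5) (nat_lit 198) (nat_lit 5) (nat_lit 450) (nat_lit 399) (nat_lit 351)) (XT.lf (nat_lit 0) (nat_lit 3381273828) (nat_lit 304) (nat_lit 2881674959) (nat_lit 380) (nat_lit 3910917307) (nat_lit 193) (nat_lit 5) (nat_lit 197) (nat_lit 5) (nat_lit 198) (nat_lit 5) (nat_lit 451) (nat_lit 399) (nat_lit 350))) (XT.nd (nat_lit 78) (nat_lit 76) (nat_lit 0) (XT.lf (nat_lit 0) (nat_lit 226746930) (nat_lit 380) (nat_lit 9282504345) (nat_lit 456) (nat_lit 822975929) (nat_lit 188) (nat_lit 5) (nat_lit 193) (nat_lit 5) (nat_lit 194) (nat_lit 5) (nat_lit 452) (nat_lit 399) (nat_lit 349)) (XT.lf (nat_lit 0) (nat_lit 2362326553)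 (nat_lit 456) (nat_lit 3017076741) (nat_lit 76) (nat_lit 5113737012) (nat_lit 187) (nat_lit 5) (nat_lit 193) (nat_lit 5) (nat_lit 188) (nat_lit 5) (nat_lit 453) (nat_lit 399) (nat_lit 348))))))))
noncomputable def xc94 : XT := (XT.nd (nat_lit 2418) (nat_lit 3268) (nat_lit 0) (XT.nd (nat_lit 1170) (nat_lit 2584) (nat_lit 0) (XT.nd (nat_lit 546) (nat_lit 1444) (nat_lit 0) (XT.nd (nat_lit 234) (nat_lit 988) (nat_lit 0) (XT.nd (nat_lit 78) (nat_lit 380) (nat_lit 0) (XT.lf (nat_lit 0) (nat_lit 4293763188) (nat_lit 304) (nat_lit 1328455071) (nat_lit 380) (nat_lit 5036553760) (nat_lit 183) (nat_lit 5) (nat_lit 187) (nat_lit 5) (nat_lit 188) (nat_lit 5) (nat_lit 454) (nat_lit 399) (nat_lit 347)) (XT.nd (nat_lit 78) (nat_lit 76) (nat_lit 0) (XT.lf (nat_lit 0) (nat_lit 982481364) (nat_lit 304) (nat_lit 8019783187) (nat_lit 380) (nat_lit 1826440121) (nat_lit 179) (nat_lit 5) (nat_lit 183) (nat_lit 5) (nat_lit 184) (nat_lit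 5) (nat_lit 455) (nat_lit 399) (nat_lit 346)) (XT.lf (nat_lit 0) (nat_lit 1484209019) (nat_lit 380) (nat_lit 2415563754) (nat_lit 76) (nat_lit 7102544948) (nat_lit 178) (nat_lit 5) (nat_lit 183) (nat_lit 5) (nat_lit 179) (nat_lit 5) (nat_lit 456) (nat_lit 399) (nat_lit 345)))) (XT.nd (nat_lit 156) (nat_lit 380) (nat_lit 0) (XT.nd (nat_lit 78) (nat_lit 304) (nat_lit 0) (XT.lf (nat_lit 0) (nat_lit 4868149765) (nat_lit 380) (nat_lit 5926316205) (nat_lit 76) (nat_lit 385812721) (nat_lit 174) (nat_lit 5) (nat_lit 179) (nat_lit 5) (nat_lit 175) (nat_lit 5) (nat_lit 457) (nat_lit 399) (nat_lit 344)) (XT.lf (nat_lit 0) (nat_lit 1770817447) (nat_lit 304) (nat_lit 6619869772) (nat_lit 380) (nat_lit 2971781335) (nat_lit 170) (nat_lit 5) (nat_lit 174) (nat_lit 5) (nat_lit 175) (nat_lit 5) (nat_lit 458) (nat_lit 399) (nat_lit 343))) (XT.nd (nat_lit 78) (nat_lit 304) (nat_lit 0) (XT.lf (nat_lit 0) (nat_lit 477090997) (nat_lit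 380) (nat_lit 1798426676) (nat_lit 76) (nat_lit 9273949677) (nat_lit 169) (nat_lit 5) (nat_lit 174) (nat_lit 5) (nat_lit 170) (nat_lit 5) (nat_lit 459) (nat_lit 399) (nat_lit 342)) (XT.lf (nat_lit 0) (nat_lit 4009948482) (nat_lit 380) (nat_lit 5504621269) (nat_lit 76) (nat_lit 2225418400) (nat_lit 165) (nat_lit 5) (nat_lit 170) (nat_lit 5) (nat_lit 166) (nat_lit 5) (nat_lit 460) (nat_lit 399) (nat_lit 341))))) (XT.nd (nat_lit 312) (nat_lit 532) (nat_lit 0) (XT.nd (nat_lit 156) (nat_lit 608) (nat_lit 0) (XT.nd (nat_lit 78) (nat_lit 0) (nat_lit 0) (XT.lf (nat_lit 0) (nat_lit 2575049840) (nat_lit 304) (nat_lit 5098044564) (nat_lit 380) (nat_lit 4262403237) (nat_lit 161) (nat_lit 5) (nat_lit 165) (nat_lit 5) (nat_lit 166) (nat_lit 5) (nat_lit 461) (nat_lit 399) (nat_lit 340)) (XT.lf (nat_lit 0) (nat_lit 10946726952) (nat_lit 304) (nat_lit 514268891) (nat_lit 380) (nat_lit 675432826) (nat_lit 161) (nat_lit 5) (nat_lit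 165) (nat_lit 5) (nat_lit 166) (nat_lit 5) (nat_lit 462) (nat_lit 399) (nat_lit 339))) (XT.nd (nat_lit 78) (nat_lit 304) (nat_lit 0) (XT.lf (nat_lit 0) (nat_lit 3031457405) (nat_lit 304) (nat_lit 5105858925) (nat_lit 76) (nat_lit 4203065850) (nat_lit 157) (nat_lit 5) (nat_lit 161) (nat_lit 5) (nat_lit 158) (nat_lit 5) (nat_lit 463) (nat_lit 399) (nat_lit 338)) (XT.lf (nat_lit 0) (nat_lit 3377234282) (nat_lit 304) (nat_lit 3468858654) (nat_lit 380) (nat_lit 5703859225) (nat_lit 153) (nat_lit 5) (nat_lit 157) (nat_lit 5) (nat_lit 158) (nat_lit 5) (nat_lit 464) (nat_lit 399) (nat_lit 337)))) (XT.nd (nat_lit 156) (nat_lit 228) (nat_lit 0) (XT.nd (nat_lit 78) (nat_lit 304) (nat_lit 0) (XT.lf (nat_lit 0) (nat_lit 10800877630) (nat_lit 380) (nat_lit 621042514) (nat_lit 76) (nat_lit 1343119645) (nat_lit 153) (nat_lit 5) (nat_lit 158) (nat_lit 5) (nat_lit 154) (nat_lit 5) (nat_lit 465) (nat_lit 399) (nat_lit 336)) (XT.lf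 (nat_lit 0) (nat_lit 1927218203) (nat_lit 304) (nat_lit 4750374184) (nat_lit 76) (nat_lit 6306155164) (nat_lit 149) (nat_lit 5) (nat_lit 153) (nat_lit 5) (nat_lit 150) (nat_lit 5) (nat_lit 466) (nat_lit 399) (nat_lit 335))) (XT.nd (nat_lit 78) (nat_lit 0) (nat_lit 0) (XT.lf (nat_lit 0) (nat_lit 4157743098) (nat_lit 228) (nat_lit 1746479885) (nat_lit 304) (nat_lit 7303961023) (nat_lit 146) (nat_lit 5) (nat_lit 149) (nat_lit 5) (nat_lit 150) (nat_lit 5) (nat_lit 467) (nat_lit 399) (nat_lit 334)) (XT.lf (nat_lit 0) (nat_lit 10043377104) (nat_lit 304) (nat_lit 101447674) (nat_lit 76) (nat_lit 3293245247) (nat_lit 146) (nat_lit 5) (nat_lit 150) (nat_lit 5) (nat_lit 147) (nat_lit 5) (nat_lit 468) (nat_lit 399) (nat_lit 333)))))) (XT.nd (nat_lit 624) (nat_lit 1064) (nat_lit 0) (XT.nd (nat_lit 312) (nat_lit 760) (nat_lit 0) (XT.nd (nat_lit 156) (nat_lit 228) (nat_lit 0) (XT.nd (nat_lit 78) (nat_lit 228) (nat_lit 0) (XT.lf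 (nat_lit 0) (nat_lit 689574766) (nat_lit 304) (nat_lit 4460630376) (nat_lit 76) (nat_lit 8522365283) (nat_lit 142) (nat_lit 5) (nat_lit 146) (nat_lit 5) (nat_lit 143) (nat_lit 5) (nat_lit 469) (nat_lit 399) (nat_lit 332)) (XT.lf (nat_lit 0) (nat_lit 4840348866) (nat_lit 304) (nat_lit 9018503999) (nat_lit 76) (nat_lit 53879904) (nat_lit 139) (nat_lit 5) (nat_lit 143) (nat_lit 5) (nat_lit 140) (nat_lit 5) (nat_lit 470) (nat_lit 399) (nat_lit 331))) (XT.nd (nat_lit 78) (nat_lit 0) (nat_lit 0) (XT.lf (nat_lit 0) (nat_lit 357845981) (nat_lit 228) (nat_lit 8821581938) (nat_lit 304) (nat_lit 4978760074) (nat_lit 136) (nat_lit 5) (nat_lit 139) (nat_lit 5) (nat_lit 140) (nat_lit 5) (nat_lit 471) (nat_lit 399) (nat_lit 330)) (XT.lf (nat_lit 0) (nat_lit 10140824043) (nat_lit 228) (nat_lit 3563265026) (nat_lit 304) (nat_lit 705256933) (nat_lit 136) (nat_lit 5) (nat_lit 139) (nat_lit 5) (nat_lit 140) (nat_lit 5) (nat_lit 472)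 (nat_lit 399) (nat_lit 329)))) (XT.nd (nat_lit 156) (nat_lit 304) (nat_lit 0) (XT.nd (nat_lit 78) (nat_lit 152) (nat_lit 0) (XT.lf (nat_lit 0) (nat_lit 3661303224) (nat_lit 304) (nat_lit 9121090344) (nat_lit 76) (nat_lit 1883471056) (nat_lit 132) (nat_lit 5) (nat_lit 136) (nat_lit 5) (nat_lit 133) (nat_lit 5) (nat_lit 473) (nat_lit 399) (nat_lit 328)) (XT.lf (nat_lit 0) (nat_lit 723886562) (nat_lit 152) (nat_lit 7471838924) (nat_lit 228) (nat_lit 6732613929) (nat_lit 130) (nat_lit 5) (nat_lit 132) (nat_lit 5) (nat_lit 133) (nat_lit 5) (nat_lit 474) (nat_lit 399) (nat_lit 327))) (XT.nd (nat_lit 78) (nat_lit 304) (nat_lit 0) (XT.lf (nat_lit 0) (nat_lit 10993028069) (nat_lit 152) (nat_lit 1930981432) (nat_lit 228) (nat_lit 2272945335) (nat_lit 130) (nat_lit 5) (nat_lit 132) (nat_lit 5) (nat_lit 133) (nat_lit 5) (nat_lit 475) (nat_lit 399) (nat_lit 326)) (XT.lf (nat_lit 0) (nat_lit 2337492245) (nat_lit 304) (nat_lit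 9372147980) (nat_lit 76) (nat_lit 3761452684) (nat_lit 126) (nat_lit 5) (nat_lit 130) (nat_lit 5) (nat_lit 127) (nat_lit 5) (nat_lit 476) (nat_lit 399) (nat_lit 325))))) (XT.nd (nat_lit 312) (nat_lit 456) (nat_lit 0) (XT.nd (nat_lit 156) (nat_lit 456) (nat_lit 0) (XT.nd (nat_lit 78) (nat_lit 0) (nat_lit 0) (XT.lf (nat_lit 0) (nat_lit 964326177) (nat_lit 152) (nat_lit 6114094600) (nat_lit 228) (nat_lit 8673224517) (nat_lit 124) (nat_lit 5) (nat_lit 126) (nat_lit 5) (nat_lit 127) (nat_lit 5) (nat_lit 477) (nat_lit 399) (nat_lit 324)) (XT.lf (nat_lit 0) (nat_lit 11746231090) (nat_lit 152) (nat_lit 277015047) (nat_lit 228) (nat_lit 4015519165) (nat_lit 124) (nat_lit 5) (nat_lit 126) (nat_lit 5) (nat_lit 127) (nat_lit 5) (nat_lit 478) (nat_lit 399) (nat_lit 323))) (XT.nd (nat_lit 78) (nat_lit 152) (nat_lit 0) (XT.lf (nat_lit 0) (nat_lit 853208431) (nat_lit 304) (nat_lit 9806704285) (nat_lit 76) (nat_lit 5671765289)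 (nat_lit 120) (nat_lit 5) (nat_lit 124) (nat_lit 5) (nat_lit 121) (nat_lit 5) (nat_lit 479) (nat_lit 399) (nat_lit 322)) (XT.lf (nat_lit 0) (nat_lit 1044411030) (nat_lit 152) (nat_lit 4767294119) (nat_lit 228) (nat_lit 10819748781) (nat_lit 118) (nat_lit 5) (nat_lit 120) (nat_lit 5) (nat_lit 121) (nat_lit 5) (nat_lit 480) (nat_lit 399) (nat_lit 321)))) (XT.nd (nat_lit 156) (nat_lit 228) (nat_lit 0) (XT.nd (nat_lit 78) (nat_lit 228) (nat_lit 0) (XT.lf (nat_lit 0) (nat_lit 10999515958) (nat_lit 228) (nat_lit 4584800298) (nat_lit 76) (nat_lit 1353491095) (nat_lit 118) (nat_lit 5) (nat_lit 121) (nat_lit 5) (nat_lit 119) (nat_lit 5) (nat_lit 481) (nat_lit 399) (nat_lit 320)) (XT.lf (nat_lit 0) (nat_lit 6778069750) (nat_lit 228) (nat_lit 9646211900) (nat_lit 304) (nat_lit 826631076) (nat_lit 115) (nat_lit 5) (nat_lit 118) (nat_lit 5) (nat_lit 119) (nat_lit 5) (nat_lit 482) (nat_lit 399) (nat_lit 319))) (XT.nd (nat_lit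 78) (nat_lit 0) (nat_lit 0) (XT.lf (nat_lit 0) (nat_lit 924111332) (nat_lit 152) (nat_lit 3452343407) (nat_lit 228) (nat_lit 13194936969) (nat_lit 112) (nat_lit 5) (nat_lit 114) (nat_lit 5) (nat_lit 115) (nat_lit 5) (nat_lit 483) (nat_lit 399) (nat_lit 318)) (XT.lf (nat_lit 0) (nat_lit 9823162093) (nat_lit 228) (nat_lit 5112769350) (nat_lit 76) (nat_lit 2962184665) (nat_lit 112) (nat_lit 5) (nat_lit 115) (nat_lit 5) (nat_lit 113) (nat_lit 5) (nat_lit 484) (nat_lit 399) (nat_lit 317))))))) (XT.nd (nat_lit 1170) (nat_lit 1444) (nat_lit 0) (XT.nd (nat_lit 546) (nat_lit 912) (nat_lit 0) (XT.nd (nat_lit 234) (nat_lit 532) (nat_lit 0) (XT.nd (nat_lit 78) (nat_lit 228) (nat_lit 0) (XT.lf (nat_lit 0) (nat_lit 6813400549) (nat_lit 152) (nat_lit 8689645118) (nat_lit 228) (nat_lit 2729504181) (nat_lit 110) (nat_lit 5) (nat_lit 112) (nat_lit 5) (nat_lit 113) (nat_lit 5) (nat_lit 485) (nat_lit 399) (nat_lit 316)) (XT.nd (nat_lit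 78) (nat_lit 0) (nat_lit 0) (XT.lf (nat_lit 0) (nat_lit 557145496) (nat_lit 152) (nat_lit 2192654179) (nat_lit 228) (nat_lit 15825587118) (nat_lit 107) (nat_lit 5) (nat_lit 109) (nat_lit 5) (nat_lit 110) (nat_lit 5) (nat_lit 486) (nat_lit 399) (nat_lit 315)) (XT.lf (nat_lit 0) (nat_lit 8468634008) (nat_lit 228) (nat_lit 5923016927) (nat_lit 76) (nat_lit 4532147604) (nat_lit 107) (nat_lit 5) (nat_lit 110) (nat_lit 5) (nat_lit 108) (nat_lit 5) (nat_lit 487) (nat_lit 399) (nat_lit 314)))) (XT.nd (nat_lit 156) (nat_lit 304) (nat_lit 0) (XT.nd (nat_lit 78) (nat_lit 76) (nat_lit 0) (XT.lf (nat_lit 0) (nat_lit 6590144498) (nat_lit 152) (nat_lit 7825121063) (nat_lit 228) (nat_lit 4865710874) (nat_lit 105) (nat_lit 5) (nat_lit 107) (nat_lit 5) (nat_lit 108) (nat_lit 5) (nat_lit 488) (nat_lit 399) (nat_lit 313)) (XT.lf (nat_lit 0) (nat_lit 905672500) (nat_lit 228) (nat_lit 107992562) (nat_lit 76) (nat_lit 18633999024) (nat_lit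 104) (nat_lit 5) (nat_lit 107) (nat_lit 5) (nat_lit 105) (nat_lit 5) (nat_lit 489) (nat_lit 399) (nat_lit 312))) (XT.nd (nat_lit 78) (nat_lit 152) (nat_lit 0) (XT.lf (nat_lit 0) (nat_lit 6908709818) (nat_lit 228) (nat_lit 7072569786) (nat_lit 76) (nat_lit 6037938950) (nat_lit 102) (nat_lit 5) (nat_lit 105) (nat_lit 5) (nat_lit 103) (nat_lit 5) (nat_lit 490) (nat_lit 399) (nat_lit 311)) (XT.lf (nat_lit 0) (nat_lit 6050799409) (nat_lit 152) (nat_lit 7082535974) (nat_lit 228) (nat_lit 7267340036) (nat_lit 100) (nat_lit 5) (nat_lit 102) (nat_lit 5) (nat_lit 103) (nat_lit 5) (nat_lit 491) (nat_lit 399) (nat_lit 310))))) (XT.nd (nat_lit 312) (nat_lit 532) (nat_lit 0) (XT.nd (nat_lit 156) (nat_lit 152) (nat_lit 0) (XT.nd (nat_lit 78) (nat_lit 228) (nat_lit 0) (XT.lf (nat_lit 0) (nat_lit 19589357116) (nat_lit 228) (nat_lit 1130108953) (nat_lit 76) (nat_lit 72770859) (nat_lit 100) (nat_lit 5) (nat_lit 103) (nat_lit 5) (nat_lit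 101) (nat_lit 4) (nat_lit 492) (nat_lit 399) (nat_lit 309)) (XT.lf (nat_lit 0) (nat_lit 5111209299) (nat_lit 228) (nat_lit 8627589095) (nat_lit 76) (nat_lit 7450309701) (nat_lit 97) (nat_lit 5) (nat_lit 100) (nat_lit 5) (nat_lit 98) (nat_lit 5) (nat_lit 493) (nat_lit 399) (nat_lit 308))) (XT.nd (nat_lit 78) (nat_lit 0) (nat_lit 0) (XT.lf (nat_lit 0) (nat_lit 5128394141) (nat_lit 152) (nat_lit 6496139222) (nat_lit 228) (nat_lit 9971975677) (nat_lit 95) (nat_lit 5) (nat_lit 97) (nat_lit 5) (nat_lit 98) (nat_lit 5) (nat_lit 494) (nat_lit 399) (nat_lit 307)) (XT.lf (nat_lit 0) (nat_lit 18403773275) (nat_lit 228) (nat_lit 2599007996) (nat_lit 76) (nat_lit 1011235843) (nat_lit 95) (nat_lit 5) (nat_lit 98) (nat_lit 5) (nat_lit 96) (nat_lit 4) (nat_lit 495) (nat_lit 399) (nat_lit 306)))) (XT.nd (nat_lit 156) (nat_lit 152) (nat_lit 0) (XT.nd (nat_lit 78) (nat_lit 152) (nat_lit 0) (XT.lf (nat_lit 0) (nat_lit 3038261776)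 (nat_lit 228) (nat_lit 10664924554) (nat_lit 76) (nat_lit 8735416020) (nat_lit 92) (nat_lit 5) (nat_lit 95) (nat_lit 5) (nat_lit 93) (nat_lit 5) (nat_lit 496) (nat_lit 399) (nat_lit 305)) (XT.lf (nat_lit 0) (nat_lit 3744866173) (nat_lit 152) (nat_lit 6105388575) (nat_lit 228) (nat_lit 13023500746) (nat_lit 90) (nat_lit 5) (nat_lit 92) (nat_lit 5) (nat_lit 93) (nat_lit 5) (nat_lit 497) (nat_lit 399) (nat_lit 304))) (XT.nd (nat_lit 78) (nat_lit 152) (nat_lit 0) (XT.lf (nat_lit 0) (nat_lit 16966086591) (nat_lit 228) (nat_lit 4578742501) (nat_lit 76) (nat_lit 1774150288) (nat_lit 90) (nat_lit 5) (nat_lit 93) (nat_lit 5) (nat_lit 91) (nat_lit 4) (nat_lit 498) (nat_lit 399) (nat_lit 303)) (XT.lf (nat_lit 0) (nat_lit 645449715) (nat_lit 152) (nat_lit 13273910809) (nat_lit 76) (nat_lit 9853918984) (nat_lit 88) (nat_lit 5) (nat_lit 90) (nat_lit 5) (nat_lit 89) (nat_lit 5) (nat_lit 499) (nat_lit 399) (nat_lit 302)))))) (XT.nd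 (nat_lit 624) (nat_lit 684) (nat_lit 0) (XT.nd (nat_lit 312) (nat_lit 456) (nat_lit 0) (XT.nd (nat_lit 156) (nat_lit 152) (nat_lit 0) (XT.nd (nat_lit 78) (nat_lit 0) (nat_lit 0) (XT.lf (nat_lit 0) (nat_lit 1809185006) (nat_lit 152) (nat_lit 5955929628) (nat_lit 228) (nat_lit 16473035713) (nat_lit 86) (nat_lit 5) (nat_lit 88) (nat_lit 5) (nat_lit 89) (nat_lit 5) (nat_lit 500) (nat_lit 399) (nat_lit 301)) (XT.lf (nat_lit 0) (nat_lit 15230384014) (nat_lit 228) (nat_lit 7165693266) (nat_lit 76) (nat_lit 2316930056) (nat_lit 86) (nat_lit 5) (nat_lit 89) (nat_lit 5) (nat_lit 87) (nat_lit 4) (nat_lit 501) (nat_lit 399) (nat_lit 300))) (XT.nd (nat_lit 78) (nat_lit 76) (nat_lit 0) (XT.lf (nat_lit 0) (nat_lit 8619360312) (nat_lit 76) (nat_lit 14417855034) (nat_lit 152) (nat_lit 2161367023) (nat_lit 85) (nat_lit 5) (nat_lit 86) (nat_lit 5) (nat_lit 87) (nat_lit 4) (nat_lit 502) (nat_lit 399) (nat_lit 299)) (XT.lf (nat_lit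 0) (nat_lit 5323444950) (nat_lit 152) (nat_lit 769505445) (nat_lit 76) (nat_lit 19602756583) (nat_lit 84) (nat_lit 5) (nat_lit 86) (nat_lit 5) (nat_lit 85) (nat_lit 5) (nat_lit 503) (nat_lit 399) (nat_lit 298)))) (XT.nd (nat_lit 156) (nat_lit 228) (nat_lit 0) (XT.nd (nat_lit 78) (nat_lit 76) (nat_lit 0) (XT.lf (nat_lit 0) (nat_lit 13142710935) (nat_lit 228) (nat_lit 10472121630) (nat_lit 76) (nat_lit 2587670650) (nat_lit 82) (nat_lit 5) (nat_lit 85) (nat_lit 5) (nat_lit 83) (nat_lit 4) (nat_lit 504) (nat_lit 399) (nat_lit 297)) (XT.lf (nat_lit 0) (nat_lit 6029905073) (nat_lit 76) (nat_lit 15269375395) (nat_lit 152) (nat_lit 5422141504) (nat_lit 81) (nat_lit 5) (nat_lit 82) (nat_lit 5) (nat_lit 83) (nat_lit 4) (nat_lit 505) (nat_lit 399) (nat_lit 296))) (XT.nd (nat_lit 78) (nat_lit 152) (nat_lit 0) (XT.lf (nat_lit 0) (nat_lit 2480351041) (nat_lit 152) (nat_lit 4079780502) (nat_lit 76) (nat_lit 20692569664) (nat_lit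 80) (nat_lit 5) (nat_lit 82) (nat_lit 5) (nat_lit 81) (nat_lit 5) (nat_lit 506) (nat_lit 399) (nat_lit 295)) (XT.lf (nat_lit 0) (nat_lit 10639805350) (nat_lit 228) (nat_lit 14628791220) (nat_lit 76) (nat_lit 2525846076) (nat_lit 78) (nat_lit 5) (nat_lit 81) (nat_lit 5) (nat_lit 79) (nat_lit 4) (nat_lit 507) (nat_lit 399) (nat_lit 294))))) (XT.nd (nat_lit 312) (nat_lit 380) (nat_lit 0) (XT.nd (nat_lit 156) (nat_lit 228) (nat_lit 0) (XT.nd (nat_lit 78) (nat_lit 0) (nat_lit 0) (XT.lf (nat_lit 0) (nat_lit 2603385194) (nat_lit 76) (nat_lit 16549603597) (nat_lit 152) (nat_lit 9196179526) (nat_lit 77) (nat_lit 5) (nat_lit 78) (nat_lit 5) (nat_lit 79) (nat_lit 4) (nat_lit 508) (nat_lit 399) (nat_lit 293)) (XT.lf (nat_lit 0) (nat_lit 20609889751) (nat_lit 76) (nat_lit 7437013462) (nat_lit 152) (nat_lit 869872825) (nat_lit 77) (nat_lit 5) (nat_lit 78) (nat_lit 5) (nat_lit 79) (nat_lit 4) (nat_lit 509) (nat_lit 399) (nat_lit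 292))) (XT.nd (nat_lit 78) (nat_lit 0) (nat_lit 0) (XT.lf (nat_lit 0) (nat_lit 7647624200) (nat_lit 228) (nat_lit 19788005695) (nat_lit 76) (nat_lit 2060806793) (nat_lit 74) (nat_lit 5) (nat_lit 77) (nat_lit 5) (nat_lit 75) (nat_lit 4) (nat_lit 510) (nat_lit 399) (nat_lit 291)) (XT.lf (nat_lit 0) (nat_lit 16539613961) (nat_lit 228) (nat_lit 1781322974) (nat_lit 76) (nat_lit 11768198617) (nat_lit 74) (nat_lit 5) (nat_lit 77) (nat_lit 5) (nat_lit 75) (nat_lit 4) (nat_lit 511) (nat_lit 399) (nat_lit 290)))) (XT.nd (nat_lit 156) (nat_lit 76) (nat_lit 0) (XT.nd (nat_lit 78) (nat_lit 228) (nat_lit 0) (XT.lf (nat_lit 0) (nat_lit 17057871017) (nat_lit 76) (nat_lit 8783204661) (nat_lit 152) (nat_lit 4854258640) (nat_lit 73) (nat_lit 5) (nat_lit 74) (nat_lit 5) (nat_lit 75) (nat_lit 4) (nat_lit 512) (nat_lit 399) (nat_lit 289)) (XT.lf (nat_lit 0) (nat_lit 4079629219) (nat_lit 228) (nat_lit 26127129461) (nat_lit 76) (nat_lit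 1110043493) (nat_lit 70) (nat_lit 5) (nat_lit 73) (nat_lit 5) (nat_lit 71) (nat_lit 4) (nat_lit 513) (nat_lit 399) (nat_lit 288))) (XT.nd (nat_lit 78) (nat_lit 76) (nat_lit 0) (XT.lf (nat_lit 0) (nat_lit 13388819706) (nat_lit 228) (nat_lit 7268616397) (nat_lit 76) (nat_lit 11291890829) (nat_lit 70) (nat_lit 5) (nat_lit 73) (nat_lit 5) (nat_lit 71) (nat_lit 4) (nat_lit 514) (nat_lit 399) (nat_lit 287)) (XT.lf (nat_lit 0) (nat_lit 12357348391) (nat_lit 76) (nat_lit 10718155210) (nat_lit 152) (nat_lit 9522377572) (nat_lit 69) (nat_lit 5) (nat_lit 70) (nat_lit 5) (nat_lit 71) (nat_lit 4) (nat_lit 515) (nat_lit 399) (nat_lit 286))))))))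
noncomputable def xc95 : XT := (XT.nd (nat_lit 2418) (nat_lit 380) (nat_lit 0) (XT.nd (nat_lit 1170) (nat_lit 988) (nat_lit 0) (XT.nd (nat_lit 546) (nat_lit 532) (nat_lit 0) (XT.nd (nat_lit 234) (nat_lit 228) (nat_lit 0) (XT.nd (nat_lit 78) (nat_lit 304) (nat_lit 0) (XT.lf (nat_lit 0) (nat_lit 32682038255) (nat_lit 76) (nat_lit 423803515) (nat_lit 152) (nat_lit 158458922) (nat_lit 69) (nat_lit 5) (nat_lit 70) (nat_lit 5) (nat_lit 71) (nat_lit 4) (nat_lit 516) (nat_lit 399) (nat_lit 285)) (XT.nd (nat_lit 78) (nat_lit 76) (nat_lit 0) (XT.lf (nat_lit 0) (nat_lit 9573320634) (nat_lit 228) (nat_lit 14118239209) (nat_lit 76) (nat_lit 10248255834) (nat_lit 66) (nat_lit 5) (nat_lit 69) (nat_lit 5) (nat_lit 67) (nat_lit 4) (nat_lit 517) (nat_lit 399) (nat_lit 284)) (XT.lf (nat_lit 0) (nat_lit 6292661192) (nat_lit 76) (nat_lit 13351923498) (nat_lit 152) (nat_lit 14989443116) (nat_lit 65) (nat_lit 5) (nat_lit 66) (nat_lit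 5) (nat_lit 67) (nat_lit 4) (nat_lit 518) (nat_lit 399) (nat_lit 283)))) (XT.nd (nat_lit 156) (nat_lit 76) (nat_lit 0) (XT.nd (nat_lit 78) (nat_lit 152) (nat_lit 0) (XT.lf (nat_lit 0) (nat_lit 27567319960) (nat_lit 76) (nat_lit 2573541054) (nat_lit 152) (nat_lit 5204519289) (nat_lit 65) (nat_lit 5) (nat_lit 66) (nat_lit 5) (nat_lit 67) (nat_lit 4) (nat_lit 519) (nat_lit 399) (nat_lit 282)) (XT.lf (nat_lit 0) (nat_lit 4973667039) (nat_lit 152) (nat_lit 22573800810) (nat_lit 76) (nat_lit 8523355509) (nat_lit 63) (nat_lit 5) (nat_lit 65) (nat_lit 5) (nat_lit 64) (nat_lit 4) (nat_lit 520) (nat_lit 399) (nat_lit 281))) (XT.nd (nat_lit 78) (nat_lit 76) (nat_lit 0) (XT.lf (nat_lit 0) (nat_lit 15438123271) (nat_lit 152) (nat_lit 1360954987) (nat_lit 76) (nat_lit 20014839864) (nat_lit 63) (nat_lit 5) (nat_lit 65) (nat_lit 5) (nat_lit 64) (nat_lit 4) (nat_lit 521) (nat_lit 399) (nat_lit 280)) (XT.lf (nat_lit 0) (nat_lit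 20859104745) (nat_lit 76) (nat_lit 5539208804) (nat_lit 152) (nat_lit 11175538377) (nat_lit 62) (nat_lit 5) (nat_lit 63) (nat_lit 5) (nat_lit 64) (nat_lit 4) (nat_lit 522) (nat_lit 399) (nat_lit 279))))) (XT.nd (nat_lit 312) (nat_lit 304) (nat_lit 0) (XT.nd (nat_lit 156) (nat_lit 76) (nat_lit 0) (XT.nd (nat_lit 78) (nat_lit 76) (nat_lit 0) (XT.lf (nat_lit 0) (nat_lit 5428813564) (nat_lit 76) (nat_lit 32364121176) (nat_lit 76) (nat_lit 560480451) (nat_lit 61) (nat_lit 4) (nat_lit 62) (nat_lit 5) (nat_lit 62) (nat_lit 4) (nat_lit 523) (nat_lit 399) (nat_lit 278)) (XT.lf (nat_lit 0) (nat_lit 10377254392) (nat_lit 152) (nat_lit 10764469210) (nat_lit 76) (nat_lit 18005451373) (nat_lit 60) (nat_lit 5) (nat_lit 62) (nat_lit 5) (nat_lit 61) (nat_lit 4) (nat_lit 524) (nat_lit 399) (nat_lit 277))) (XT.nd (nat_lit 78) (nat_lit 0) (nat_lit 0) (XT.lf (nat_lit 0) (nat_lit 12258932037) (nat_lit 76) (nat_lit 9472647377) (nat_lit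 152) (nat_lit 18230010149) (nat_lit 59) (nat_lit 5) (nat_lit 60) (nat_lit 5) (nat_lit 61) (nat_lit 4) (nat_lit 525) (nat_lit 399) (nat_lit 276)) (XT.lf (nat_lit 0) (nat_lit 33542701722) (nat_lit 152) (nat_lit 4664265750) (nat_lit 0) (nat_lit 2589984268) (nat_lit 59) (nat_lit 5) (nat_lit 61) (nat_lit 4) (nat_lit 59) (nat_lit 4) (nat_lit 526) (nat_lit 399) (nat_lit 275)))) (XT.nd (nat_lit 156) (nat_lit 76) (nat_lit 0) (XT.nd (nat_lit 78) (nat_lit 76) (nat_lit 0) (XT.lf (nat_lit 0) (nat_lit 4236218110) (nat_lit 152) (nat_lit 22376877226) (nat_lit 76) (nat_lit 15035177042) (nat_lit 57) (nat_lit 5) (nat_lit 59) (nat_lit 5) (nat_lit 58) (nat_lit 4) (nat_lit 527) (nat_lit 399) (nat_lit 274)) (XT.lf (nat_lit 0) (nat_lit 1418182733) (nat_lit 76) (nat_lit 14551066270) (nat_lit 152) (nat_lit 26552419509) (nat_lit 56) (nat_lit 5) (nat_lit 57) (nat_lit 5) (nat_lit 58) (nat_lit 4) (nat_lit 528) (nat_lit 399) (nat_lit 273)))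 (XT.nd (nat_lit 78) (nat_lit 76) (nat_lit 0) (XT.lf (nat_lit 0) (nat_lit 26351914376) (nat_lit 76) (nat_lit 1910957634) (nat_lit 152) (nat_lit 15152136644) (nat_lit 56) (nat_lit 5) (nat_lit 57) (nat_lit 5) (nat_lit 58) (nat_lit 4) (nat_lit 529) (nat_lit 399) (nat_lit 272)) (XT.lf (nat_lit 0) (nat_lit 7708908371) (nat_lit 76) (nat_lit 33380268451) (nat_lit 76) (nat_lit 3241056139) (nat_lit 55) (nat_lit 4) (nat_lit 56) (nat_lit 5) (nat_lit 56) (nat_lit 4) (nat_lit 530) (nat_lit 399) (nat_lit 271)))))) (XT.nd (nat_lit 624) (nat_lit 456) (nat_lit 0) (XT.nd (nat_lit 312) (nat_lit 228) (nat_lit 0) (XT.nd (nat_lit 156) (nat_lit 152) (nat_lit 0) (XT.nd (nat_lit 78) (nat_lit 76) (nat_lit 0) (XT.lf (nat_lit 0) (nat_lit 9027132923) (nat_lit 152) (nat_lit 11834561240) (nat_lit 76) (nat_lit 24403338714) (nat_lit 54) (nat_lit 5) (nat_lit 56) (nat_lit 5) (nat_lit 55) (nat_lit 4) (nat_lit 531) (nat_lit 399) (nat_lit 270)) (XT.lf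 (nat_lit 0) (nat_lit 13902714830) (nat_lit 76) (nat_lit 7812649532) (nat_lit 152) (nat_lit 24508035719) (nat_lit 53) (nat_lit 5) (nat_lit 54) (nat_lit 5) (nat_lit 55) (nat_lit 4) (nat_lit 532) (nat_lit 399) (nat_lit 269))) (XT.nd (nat_lit 78) (nat_lit 152) (nat_lit 0) (XT.lf (nat_lit 0) (nat_lit 34942550537) (nat_lit 152) (nat_lit 6639824339) (nat_lit 0) (nat_lit 5623394328) (nat_lit 53) (nat_lit 5) (nat_lit 55) (nat_lit 4) (nat_lit 53) (nat_lit 4) (nat_lit 533) (nat_lit 399) (nat_lit 268)) (XT.lf (nat_lit 0) (nat_lit 599170840) (nat_lit 152) (nat_lit 28120990094) (nat_lit 76) (nat_lit 19489636857) (nat_lit 51) (nat_lit 5) (nat_lit 53) (nat_lit 5) (nat_lit 52) (nat_lit 4) (nat_lit 534) (nat_lit 399) (nat_lit 267)))) (XT.nd (nat_lit 156) (nat_lit 152) (nat_lit 0) (XT.nd (nat_lit 78) (nat_lit 76) (nat_lit 0) (XT.lf (nat_lit 0) (nat_lit 13652677239) (nat_lit 152) (nat_lit 1639994135) (nat_lit 76) (nat_lit 33946081734)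 (nat_lit 51) (nat_lit 5) (nat_lit 53) (nat_lit 5) (nat_lit 52) (nat_lit 4) (nat_lit 535) (nat_lit 399) (nat_lit 266)) (XT.lf (nat_lit 0) (nat_lit 26114549655) (nat_lit 76) (nat_lit 1218744608) (nat_lit 152) (nat_lit 22958217781) (nat_lit 50) (nat_lit 5) (nat_lit 51) (nat_lit 5) (nat_lit 52) (nat_lit 4) (nat_lit 536) (nat_lit 399) (nat_lit 265))) (XT.nd (nat_lit 78) (nat_lit 76) (nat_lit 0) (XT.lf (nat_lit 0) (nat_lit 3265426040) (nat_lit 76) (nat_lit 38319144360) (nat_lit 76) (nat_lit 9786476249) (nat_lit 49) (nat_lit 4) (nat_lit 50) (nat_lit 5) (nat_lit 50) (nat_lit 4) (nat_lit 537) (nat_lit 399) (nat_lit 264)) (XT.lf (nat_lit 0) (nat_lit 3949777359) (nat_lit 152) (nat_lit 20530277018) (nat_lit 76) (nat_lit 27994528954) (nat_lit 48) (nat_lit 5) (nat_lit 50) (nat_lit 5) (nat_lit 49) (nat_lit 4) (nat_lit 538) (nat_lit 399) (nat_lit 263))))) (XT.nd (nat_lit 312) (nat_lit 228) (nat_lit 0) (XT.nd (nat_lit 156) (nat_lit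 152) (nat_lit 0) (XT.nd (nat_lit 78) (nat_lit 0) (nat_lit 0) (XT.lf (nat_lit 0) (nat_lit 7899976040) (nat_lit 76) (nat_lit 10062340223) (nat_lit 152) (nat_lit 35644176199) (nat_lit 47) (nat_lit 5) (nat_lit 48) (nat_lit 5) (nat_lit 49) (nat_lit 4) (nat_lit 539) (nat_lit 399) (nat_lit 262)) (XT.lf (nat_lit 0) (nat_lit 32635598091) (nat_lit 152) (nat_lit 17239858730) (nat_lit 0) (nat_lit 4889691150) (nat_lit 47) (nat_lit 5) (nat_lit 49) (nat_lit 4) (nat_lit 47) (nat_lit 4) (nat_lit 540) (nat_lit 399) (nat_lit 261))) (XT.nd (nat_lit 78) (nat_lit 76) (nat_lit 0) (XT.lf (nat_lit 0) (nat_lit 12190281189) (nat_lit 76) (nat_lit 35761016704) (nat_lit 76) (nat_lit 8001198768) (nat_lit 46) (nat_lit 4) (nat_lit 47) (nat_lit 5) (nat_lit 47) (nat_lit 4) (nat_lit 541) (nat_lit 399) (nat_lit 260)) (XT.lf (nat_lit 0) (nat_lit 6584401630) (nat_lit 152) (nat_lit 14406988445) (nat_lit 76) (nat_lit 36177349694) (nat_lit 45) (nat_lit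 5) (nat_lit 47) (nat_lit 5) (nat_lit 46) (nat_lit 4) (nat_lit 542) (nat_lit 399) (nat_lit 259)))) (XT.nd (nat_lit 156) (nat_lit 152) (nat_lit 0) (XT.nd (nat_lit 78) (nat_lit 0) (nat_lit 0) (XT.lf (nat_lit 0) (nat_lit 16034632229) (nat_lit 76) (nat_lit 5552100987) (nat_lit 152) (nat_lit 36828161073) (nat_lit 44) (nat_lit 5) (nat_lit 45) (nat_lit 5) (nat_lit 46) (nat_lit 4) (nat_lit 543) (nat_lit 399) (nat_lit 258)) (XT.lf (nat_lit 0) (nat_lit 37271411345) (nat_lit 152) (nat_lit 12138124811) (nat_lit 0) (nat_lit 10281929082) (nat_lit 44) (nat_lit 5) (nat_lit 46) (nat_lit 4) (nat_lit 44) (nat_lit 4) (nat_lit 544) (nat_lit 399) (nat_lit 257))) (XT.nd (nat_lit 78) (nat_lit 76) (nat_lit 0) (XT.lf (nat_lit 0) (nat_lit 19305894919) (nat_lit 76) (nat_lit 34347557901) (nat_lit 76) (nat_lit 7346075893) (nat_lit 43) (nat_lit 4) (nat_lit 44) (nat_lit 5) (nat_lit 44) (nat_lit 4) (nat_lit 545) (nat_lit 399) (nat_lit 256)) (XT.lf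 (nat_lit 0) (nat_lit 8130561226) (nat_lit 152) (nat_lit 10508092958) (nat_lit 76) (nat_lit 43702519120) (nat_lit 42) (nat_lit 5) (nat_lit 44) (nat_lit 5) (nat_lit 43) (nat_lit 4) (nat_lit 546) (nat_lit 399) (nat_lit 255))))))) (XT.nd (nat_lit 51714) (nat_lit 0) (nat_lit 23864) (XT.nd (nat_lit 51090) (nat_lit 0) (nat_lit 30552) (XT.nd (nat_lit 312) (nat_lit 152) (nat_lit 0) (XT.nd (nat_lit 156) (nat_lit 152) (nat_lit 0) (XT.nd (nat_lit 78) (nat_lit 0) (nat_lit 0) (XT.lf (nat_lit 0) (nat_lit 21942095633) (nat_lit 76) (nat_lit 2179352047) (nat_lit 152) (nat_lit 39593509658) (nat_lit 41) (nat_lit 5) (nat_lit 42) (nat_lit 5) (nat_lit 43) (nat_lit 4) (nat_lit 547) (nat_lit 399) (nat_lit 254)) (XT.lf (nat_lit 0) (nat_lit 40827927869) (nat_lit 152) (nat_lit 9715008292) (nat_lit 0) (nat_lit 14579942796) (nat_lit 41) (nat_lit 5) (nat_lit 43) (nat_lit 4) (nat_lit 41) (nat_lit 4) (nat_lit 548) (nat_lit 399) (nat_lit 253)))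 (XT.nd (nat_lit 78) (nat_lit 76) (nat_lit 0) (XT.lf (nat_lit 0) (nat_lit 23720271404) (nat_lit 76) (nat_lit 34552001471) (nat_lit 76) (nat_lit 8293665312) (nat_lit 40) (nat_lit 4) (nat_lit 41) (nat_lit 5) (nat_lit 41) (nat_lit 4) (nat_lit 549) (nat_lit 399) (nat_lit 252)) (XT.lf (nat_lit 0) (nat_lit 8114047061) (nat_lit 152) (nat_lit 9796870222) (nat_lit 76) (nat_lit 50136426080) (nat_lit 39) (nat_lit 5) (nat_lit 41) (nat_lit 5) (nat_lit 40) (nat_lit 4) (nat_lit 550) (nat_lit 399) (nat_lit 251)))) (XT.nd (nat_lit 156) (nat_lit 76) (nat_lit 0) (XT.nd (nat_lit 78) (nat_lit 0) (nat_lit 0) (XT.lf (nat_lit 0) (nat_lit 24616776878) (nat_lit 76) (nat_lit 454612050) (nat_lit 152) (nat_lit 44492615590) (nat_lit 38) (nat_lit 5) (nat_lit 39) (nat_lit 5) (nat_lit 40) (nat_lit 4) (nat_lit 551) (nat_lit 399) (nat_lit 250)) (XT.lf (nat_lit 0) (nat_lit 42793296748) (nat_lit 152) (nat_lit 11053853370) (nat_lit 0) (nat_lit 17271340089)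 (nat_lit 38) (nat_lit 5) (nat_lit 40) (nat_lit 4) (nat_lit 38) (nat_lit 4) (nat_lit 552) (nat_lit 399) (nat_lit 249))) (XT.nd (nat_lit 50544) (nat_lit 0) (nat_lit 31616) (XT.lf (nat_lit 0) (nat_lit 24301891693) (nat_lit 76) (nat_lit 36970913073) (nat_lit 76) (nat_lit 11440027477) (nat_lit 37) (nat_lit 4) (nat_lit 38) (nat_lit 5) (nat_lit 38) (nat_lit 4) (nat_lit 553) (nat_lit 399) (nat_lit 248)) (XT.lf (nat_lit 0) (nat_lit 0) (nat_lit 0) (nat_lit 0) (nat_lit 0) (nat_lit 1073741823) (nat_lit 1) (nat_lit 0) (nat_lit 1) (nat_lit 0) (nat_lit 453) (nat_lit 0) (nat_lit 400) (nat_lit 400) (nat_lit 400))))) (XT.nd (nat_lit 312) (nat_lit 684) (nat_lit 0) (XT.nd (nat_lit 156) (nat_lit 228) (nat_lit 0) (XT.nd (nat_lit 78) (nat_lit 76) (nat_lit 0) (XT.lf (nat_lit 0) (nat_lit 3171119515) (nat_lit 76) (nat_lit 3209785479) (nat_lit 0) (nat_lit 62480565) (nat_lit 452) (nat_lit 5) (nat_lit 453) (nat_lit 0) (nat_lit 452) (nat_lit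 4) (nat_lit 401) (nat_lit 400) (nat_lit 399)) (XT.lf (nat_lit 0) (nat_lit 54730952) (nat_lit 76) (nat_lit 6260026464) (nat_lit 76) (nat_lit 133291444) (nat_lit 451) (nat_lit 4) (nat_lit 452) (nat_lit 5) (nat_lit 452) (nat_lit 4) (nat_lit 402) (nat_lit 400) (nat_lit 398))) (XT.nd (nat_lit 78) (nat_lit 152) (nat_lit 0) (XT.lf (nat_lit 0) (nat_lit 2950700737) (nat_lit 152) (nat_lit 3067002879) (nat_lit 76) (nat_lit 436935300) (nat_lit 450) (nat_lit 5) (nat_lit 452) (nat_lit 5) (nat_lit 451) (nat_lit 4) (nat_lit 403) (nat_lit 400) (nat_lit 397)) (XT.lf (nat_lit 0) (nat_lit 297584028) (nat_lit 152) (nat_lit 5711950164) (nat_lit 228) (nat_lit 455323180) (nat_lit 448) (nat_lit 5) (nat_lit 450) (nat_lit 5) (nat_lit 451) (nat_lit 4) (nat_lit 404) (nat_lit 400) (nat_lit 396)))) (XT.nd (nat_lit 156) (nat_lit 380) (nat_lit 0) (XT.nd (nat_lit 78) (nat_lit 228) (nat_lit 0) (XT.lf (nat_lit 0) (nat_lit 2547424517) (nat_lit 228)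 (nat_lit 2742277979) (nat_lit 76) (nat_lit 1187472902) (nat_lit 447) (nat_lit 5) (nat_lit 450) (nat_lit 5) (nat_lit 448) (nat_lit 5) (nat_lit 405) (nat_lit 400) (nat_lit 395)) (XT.lf (nat_lit 0) (nat_lit 729475627) (nat_lit 228) (nat_lit 4795810551) (nat_lit 304) (nat_lit 967634632) (nat_lit 444) (nat_lit 5) (nat_lit 447) (nat_lit 5) (nat_lit 448) (nat_lit 5) (nat_lit 406) (nat_lit 400) (nat_lit 394))) (XT.nd (nat_lit 78) (nat_lit 304) (nat_lit 0) (XT.lf (nat_lit 0) (nat_lit 1959380542) (nat_lit 304) (nat_lit 2234318560) (nat_lit 76) (nat_lit 2317355538) (nat_lit 443) (nat_lit 5) (nat_lit 447) (nat_lit 5) (nat_lit 444) (nat_lit 5) (nat_lit 407) (nat_lit 400) (nat_lit 393)) (XT.lf (nat_lit 0) (nat_lit 1352140814) (nat_lit 304) (nat_lit 3507578738) (nat_lit 380) (nat_lit 1672593666) (nat_lit 439) (nat_lit 5) (nat_lit 443) (nat_lit 5) (nat_lit 444) (nat_lit 5) (nat_lit 408) (nat_lit 400) (nat_lit 392)))))) (XT.nd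 (nat_lit 624) (nat_lit 4408) (nat_lit 0) (XT.nd (nat_lit 312) (nat_lit 1292) (nat_lit 0) (XT.nd (nat_lit 156) (nat_lit 532) (nat_lit 0) (XT.nd (nat_lit 78) (nat_lit 380) (nat_lit 0) (XT.lf (nat_lit 0) (nat_lit 1183844572) (nat_lit 380) (nat_lit 1541030539) (nat_lit 76) (nat_lit 3831491229) (nat_lit 438) (nat_lit 5) (nat_lit 443) (nat_lit 5) (nat_lit 439) (nat_lit 5) (nat_lit 409) (nat_lit 400) (nat_lit 391)) (XT.lf (nat_lit 0) (nat_lit 2168138271) (nat_lit 380) (nat_lit 1841593825) (nat_lit 456) (nat_lit 2573406503) (nat_lit 433) (nat_lit 5) (nat_lit 438) (nat_lit 5) (nat_lit 439) (nat_lit 5) (nat_lit 410) (nat_lit 400) (nat_lit 390))) (XT.nd (nat_lit 78) (nat_lit 456) (nat_lit 0) (XT.lf (nat_lit 0) (nat_lit 217267210) (nat_lit 456) (nat_lit 659511701) (nat_lit 76) (nat_lit 5736451639) (nat_lit 432) (nat_lit 5) (nat_lit 438) (nat_lit 5) (nat_lit 433) (nat_lit 5) (nat_lit 411) (nat_lit 400) (nat_lit 389)) (XT.lf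 (nat_lit 0) (nat_lit 2973413971) (nat_lit 532) (nat_lit 3466686501) (nat_lit 76) (nat_lit 205370379) (nat_lit 426) (nat_lit 5) (nat_lit 433) (nat_lit 5) (nat_lit 427) (nat_lit 5) (nat_lit 412) (nat_lit 400) (nat_lit 388)))) (XT.nd (nat_lit 156) (nat_lit 684) (nat_lit 0) (XT.nd (nat_lit 78) (nat_lit 76) (nat_lit 0) (XT.lf (nat_lit 0) (nat_lit 399335432) (nat_lit 532) (nat_lit 5335633247) (nat_lit 608) (nat_lit 946041804) (nat_lit 419) (nat_lit 5) (nat_lit 426) (nat_lit 5) (nat_lit 427) (nat_lit 5) (nat_lit 413) (nat_lit 400) (nat_lit 387)) (XT.lf (nat_lit 0) (nat_lit 1765482208) (nat_lit 608) (nat_lit 2350640430) (nat_lit 76) (nat_lit 2602768071) (nat_lit 418) (nat_lit 5) (nat_lit 426) (nat_lit 5) (nat_lit 419) (nat_lit 5) (nat_lit 414) (nat_lit 400) (nat_lit 386))) (XT.nd (nat_lit 78) (nat_lit 76) (nat_lit 0) (XT.lf (nat_lit 0) (nat_lit 1655007907) (nat_lit 608) (nat_lit 2807718736) (nat_lit 684) (nat_lit 2297210672)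 (nat_lit 410) (nat_lit 5) (nat_lit 418) (nat_lit 5) (nat_lit 419) (nat_lit 5) (nat_lit 415) (nat_lit 400) (nat_lit 385)) (XT.lf (nat_lit 0) (nat_lit 362721688) (nat_lit 684) (nat_lit 1044370012) (nat_lit 76) (nat_lit 5397030784) (nat_lit 409) (nat_lit 5) (nat_lit 418) (nat_lit 5) (nat_lit 410) (nat_lit 5) (nat_lit 416) (nat_lit 400) (nat_lit 384))))) (XT.nd (nat_lit 312) (nat_lit 2052) (nat_lit 0) (XT.nd (nat_lit 156) (nat_lit 912) (nat_lit 0) (XT.nd (nat_lit 78) (nat_lit 760) (nat_lit 0) (XT.lf (nat_lit 0) (nat_lit 2998564618) (nat_lit 760) (nat_lit 3741317051) (nat_lit 76) (nat_lit 110812252) (nat_lit 400) (nat_lit 5) (nat_lit 410) (nat_lit 5) (nat_lit 401) (nat_lit 5) (nat_lit 417) (nat_lit 400) (nat_lit 383)) (XT.lf (nat_lit 0) (nat_lit 437657821) (nat_lit 760) (nat_lit 5218083208) (nat_lit 836) (nat_lit 1244664969) (nat_lit 390) (nat_lit 5) (nat_lit 400) (nat_lit 5) (nat_lit 401) (nat_lit 5) (nat_lit 418)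 (nat_lit 400) (nat_lit 382))) (XT.nd (nat_lit 78) (nat_lit 836) (nat_lit 0) (XT.lf (nat_lit 0) (nat_lit 1365554398) (nat_lit 836) (nat_lit 2214700964) (nat_lit 76) (nat_lit 3372369594) (nat_lit 389) (nat_lit 5) (nat_lit 400) (nat_lit 5) (nat_lit 390) (nat_lit 5) (nat_lit 419) (nat_lit 400) (nat_lit 381)) (XT.lf (nat_lit 0) (nat_lit 2123202232) (nat_lit 836) (nat_lit 1843258122) (nat_lit 912) (nat_lit 3041468818) (nat_lit 378) (nat_lit 5) (nat_lit 389) (nat_lit 5) (nat_lit 390) (nat_lit 5) (nat_lit 420) (nat_lit 400) (nat_lit 380)))) (XT.nd (nat_lit 156) (nat_lit 1064) (nat_lit 0) (XT.nd (nat_lit 78) (nat_lit 988) (nat_lit 0) (XT.lf (nat_lit 0) (nat_lit 6570602241) (nat_lit 836) (nat_lit 15925451) (nat_lit 912) (nat_lit 480140788) (nat_lit 378) (nat_lit 5) (nat_lit 389) (nat_lit 5) (nat_lit 390) (nat_lit 5) (nat_lit 421) (nat_lit 400) (nat_lit 379)) (XT.lf (nat_lit 0) (nat_lit 2093528699) (nat_lit 988) (nat_lit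 3130280250) (nat_lit 76) (nat_lit 1903419729) (nat_lit 365) (nat_lit 5) (nat_lit 378) (nat_lit 5) (nat_lit 366) (nat_lit 5) (nat_lit 422) (nat_lit 400) (nat_lit 378))) (XT.nd (nat_lit 78) (nat_lit 76) (nat_lit 0) (XT.lf (nat_lit 0) (nat_lit 1400292257) (nat_lit 988) (nat_lit 3275306850) (nat_lit 1064) (nat_lit 2515647866) (nat_lit 352) (nat_lit 5) (nat_lit 365) (nat_lit 5) (nat_lit 366) (nat_lit 5) (nat_lit 423) (nat_lit 400) (nat_lit 377)) (XT.lf (nat_lit 0) (nat_lit 31372555) (nat_lit 1064) (nat_lit 1194766916) (nat_lit 76) (nat_lit 6032384053) (nat_lit 351) (nat_lit 5) (nat_lit 365) (nat_lit 5) (nat_lit 352) (nat_lit 5) (nat_lit 424) (nat_lit 400) (nat_lit 376))))))))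
noncomputable def xc96 : XT := (XT.nd (nat_lit 2418) (nat_lit 5548) (nat_lit 0) (XT.nd (nat_lit 1170) (nat_lit 4788) (nat_lit 0) (XT.nd (nat_lit 546) (nat_lit 2964) (nat_lit 0) (XT.nd (nat_lit 234) (nat_lit 2736) (nat_lit 0) (XT.nd (nat_lit 78) (nat_lit 1216) (nat_lit 0) (XT.lf (nat_lit 0) (nat_lit 2572475863) (nat_lit 1140) (nat_lit 3820874419) (nat_lit 76) (nat_lit 934682202) (nat_lit 337) (nat_lit 5) (nat_lit 352) (nat_lit 5) (nat_lit 338) (nat_lit 5) (nat_lit 425) (nat_lit 400) (nat_lit 375)) (XT.nd (nat_lit 78) (nat_lit 76) (nat_lit 0) (XT.lf (nat_lit 0) (nat_lit 912873682) (nat_lit 1140) (nat_lit 4236920739) (nat_lit 1216) (nat_lit 2251040952) (nat_lit 322) (nat_lit 5) (nat_lit 337) (nat_lit 5) (nat_lit 338) (nat_lit 5) (nat_lit 426) (nat_lit 400) (nat_lit 374)) (XT.lf (nat_lit 0) (nat_lit 288810900) (nat_lit 1216) (nat_lit 1680075627) (nat_lit 76) (nat_lit 5507850320) (nat_lit 321) (nat_lit 5) (nat_lit 337)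 (nat_lit 5) (nat_lit 322) (nat_lit 5) (nat_lit 427) (nat_lit 400) (nat_lit 373)))) (XT.nd (nat_lit 156) (nat_lit 684) (nat_lit 0) (XT.nd (nat_lit 78) (nat_lit 836) (nat_lit 0) (XT.lf (nat_lit 0) (nat_lit 2824667106) (nat_lit 1292) (nat_lit 4313235037) (nat_lit 76) (nat_lit 417400455) (nat_lit 305) (nat_lit 5) (nat_lit 322) (nat_lit 5) (nat_lit 306) (nat_lit 5) (nat_lit 428) (nat_lit 400) (nat_lit 372)) (XT.lf (nat_lit 0) (nat_lit 635062623) (nat_lit 836) (nat_lit 4775458980) (nat_lit 912) (nat_lit 2226493257) (nat_lit 294) (nat_lit 5) (nat_lit 305) (nat_lit 5) (nat_lit 306) (nat_lit 5) (nat_lit 429) (nat_lit 400) (nat_lit 371))) (XT.nd (nat_lit 78) (nat_lit 608) (nat_lit 0) (XT.lf (nat_lit 0) (nat_lit 321746080) (nat_lit 912) (nat_lit 1972427706) (nat_lit 76) (nat_lit 5427634071) (nat_lit 293) (nat_lit 5) (nat_lit 305) (nat_lit 5) (nat_lit 294) (nat_lit 5) (nat_lit 430) (nat_lit 400) (nat_lit 370)) (XT.lf (nat_lit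 0) (nat_lit 2869142654) (nat_lit 684) (nat_lit 4631523678) (nat_lit 76) (nat_lit 308799772) (nat_lit 285) (nat_lit 5) (nat_lit 294) (nat_lit 5) (nat_lit 286) (nat_lit 5) (nat_lit 431) (nat_lit 400) (nat_lit 369))))) (XT.nd (nat_lit 312) (nat_lit 1140) (nat_lit 0) (XT.nd (nat_lit 156) (nat_lit 1140) (nat_lit 0) (XT.nd (nat_lit 78) (nat_lit 76) (nat_lit 0) (XT.lf (nat_lit 0) (nat_lit 543561776) (nat_lit 608) (nat_lit 4932583928) (nat_lit 684) (nat_lit 2424119268) (nat_lit 277) (nat_lit 5) (nat_lit 285) (nat_lit 5) (nat_lit 286) (nat_lit 5) (nat_lit 432) (nat_lit 400) (nat_lit 368)) (XT.lf (nat_lit 0) (nat_lit 147267420) (nat_lit 684) (nat_lit 2094466411) (nat_lit 76) (nat_lit 5752522708) (nat_lit 276) (nat_lit 5) (nat_lit 285) (nat_lit 5) (nat_lit 277) (nat_lit 5) (nat_lit 433) (nat_lit 400) (nat_lit 367))) (XT.nd (nat_lit 78) (nat_lit 608) (nat_lit 0) (XT.lf (nat_lit 0) (nat_lit 2721994736) (nat_lit 608) (nat_lit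 4797705111) (nat_lit 76) (nat_lit 571406193) (nat_lit 269) (nat_lit 5) (nat_lit 277) (nat_lit 5) (nat_lit 270) (nat_lit 5) (nat_lit 434) (nat_lit 400) (nat_lit 366)) (XT.lf (nat_lit 0) (nat_lit 617269709) (nat_lit 608) (nat_lit 4744921519) (nat_lit 684) (nat_lit 2829028676) (nat_lit 261) (nat_lit 5) (nat_lit 269) (nat_lit 5) (nat_lit 270) (nat_lit 5) (nat_lit 435) (nat_lit 400) (nat_lit 365)))) (XT.nd (nat_lit 156) (nat_lit 532) (nat_lit 0) (XT.nd (nat_lit 78) (nat_lit 608) (nat_lit 0) (XT.lf (nat_lit 0) (nat_lit 6225725598) (nat_lit 608) (nat_lit 1844191633) (nat_lit 684) (nat_lit 224775775) (nat_lit 261) (nat_lit 5) (nat_lit 269) (nat_lit 5) (nat_lit 270) (nat_lit 5) (nat_lit 436) (nat_lit 400) (nat_lit 364)) (XT.lf (nat_lit 0) (nat_lit 2396608255) (nat_lit 608) (nat_lit 4831914807) (nat_lit 76) (nat_lit 1172434923) (nat_lit 253) (nat_lit 5) (nat_lit 261) (nat_lit 5) (nat_lit 254) (nat_lit 5) (nat_lit 437) (nat_lit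 400) (nat_lit 363))) (XT.nd (nat_lit 78) (nat_lit 0) (nat_lit 0) (XT.lf (nat_lit 0) (nat_lit 836915060) (nat_lit 532) (nat_lit 4244655643) (nat_lit 608) (nat_lit 3429094869) (nat_lit 246) (nat_lit 5) (nat_lit 253) (nat_lit 5) (nat_lit 254) (nat_lit 5) (nat_lit 438) (nat_lit 400) (nat_lit 362)) (XT.lf (nat_lit 0) (nat_lit 6707975328) (nat_lit 532) (nat_lit 1130995499) (nat_lit 608) (nat_lit 784941808) (nat_lit 246) (nat_lit 5) (nat_lit 253) (nat_lit 5) (nat_lit 254) (nat_lit 5) (nat_lit 439) (nat_lit 400) (nat_lit 361)))))) (XT.nd (nat_lit 624) (nat_lit 1900) (nat_lit 0) (XT.nd (nat_lit 312) (nat_lit 1368) (nat_lit 0) (XT.nd (nat_lit 156) (nat_lit 532) (nat_lit 0) (XT.nd (nat_lit 78) (nat_lit 456) (nat_lit 0) (XT.lf (nat_lit 0) (nat_lit 1903862278) (nat_lit 532) (nat_lit 4752806669) (nat_lit 76) (nat_lit 2083239137) (nat_lit 239) (nat_lit 5) (nat_lit 246) (nat_lit 5) (nat_lit 240) (nat_lit 5) (nat_lit 440) (nat_lit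 400) (nat_lit 360)) (XT.lf (nat_lit 0) (nat_lit 1184709731) (nat_lit 456) (nat_lit 3460065348) (nat_lit 532) (nat_lit 4214763029) (nat_lit 233) (nat_lit 5) (nat_lit 239) (nat_lit 5) (nat_lit 240) (nat_lit 5) (nat_lit 441) (nat_lit 400) (nat_lit 359))) (XT.nd (nat_lit 78) (nat_lit 532) (nat_lit 0) (XT.lf (nat_lit 0) (nat_lit 7331485730) (nat_lit 456) (nat_lit 130481695) (nat_lit 532) (nat_lit 1520972409) (nat_lit 233) (nat_lit 5) (nat_lit 239) (nat_lit 5) (nat_lit 240) (nat_lit 5) (nat_lit 442) (nat_lit 400) (nat_lit 358)) (XT.lf (nat_lit 0) (nat_lit 1252294863) (nat_lit 532) (nat_lit 4577886679) (nat_lit 76) (nat_lit 3278810890) (nat_lit 226) (nat_lit 5) (nat_lit 233) (nat_lit 5) (nat_lit 227) (nat_lit 5) (nat_lit 443) (nat_lit 400) (nat_lit 357)))) (XT.nd (nat_lit 156) (nat_lit 912) (nat_lit 0) (XT.nd (nat_lit 78) (nat_lit 0) (nat_lit 0) (XT.lf (nat_lit 0) (nat_lit 1644015290) (nat_lit 456) (nat_lit 2416012969)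 (nat_lit 532) (nat_lit 5178895427) (nat_lit 220) (nat_lit 5) (nat_lit 226) (nat_lit 5) (nat_lit 227) (nat_lit 5) (nat_lit 444) (nat_lit 400) (nat_lit 356)) (XT.lf (nat_lit 0) (nat_lit 6957909019) (nat_lit 532) (nat_lit 1302958208) (nat_lit 76) (nat_lit 1111712068) (nat_lit 220) (nat_lit 5) (nat_lit 227) (nat_lit 5) (nat_lit 221) (nat_lit 5) (nat_lit 445) (nat_lit 400) (nat_lit 355))) (XT.nd (nat_lit 78) (nat_lit 456) (nat_lit 0) (XT.lf (nat_lit 0) (nat_lit 448233209) (nat_lit 456) (nat_lit 4323838114) (nat_lit 76) (nat_lit 4737326463) (nat_lit 214) (nat_lit 5) (nat_lit 220) (nat_lit 5) (nat_lit 215) (nat_lit 5) (nat_lit 446) (nat_lit 400) (nat_lit 354)) (XT.lf (nat_lit 0) (nat_lit 2199016870) (nat_lit 456) (nat_lit 1134390704) (nat_lit 532) (nat_lit 6316652091) (nat_lit 208) (nat_lit 5) (nat_lit 214) (nat_lit 5) (nat_lit 215) (nat_lit 5) (nat_lit 447) (nat_lit 400) (nat_lit 353))))) (XT.nd (nat_lit 312) (nat_lit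 1064) (nat_lit 0) (XT.nd (nat_lit 156) (nat_lit 456) (nat_lit 0) (XT.nd (nat_lit 78) (nat_lit 380) (nat_lit 0) (XT.lf (nat_lit 0) (nat_lit 6325499896) (nat_lit 532) (nat_lit 879025419) (nat_lit 76) (nat_lit 2589808649) (nat_lit 208) (nat_lit 5) (nat_lit 215) (nat_lit 5) (nat_lit 209) (nat_lit 5) (nat_lit 448) (nat_lit 400) (nat_lit 352)) (XT.lf (nat_lit 0) (nat_lit 5930529052) (nat_lit 380) (nat_lit 3497643999) (nat_lit 456) (nat_lit 514142248) (nat_lit 203) (nat_lit 5) (nat_lit 208) (nat_lit 5) (nat_lit 209) (nat_lit 5) (nat_lit 449) (nat_lit 400) (nat_lit 351))) (XT.nd (nat_lit 78) (nat_lit 0) (nat_lit 0) (XT.lf (nat_lit 0) (nat_lit 2472444538) (nat_lit 456) (nat_lit 7263451318) (nat_lit 76) (nat_lit 358335771) (nat_lit 197) (nat_lit 5) (nat_lit 203) (nat_lit 5) (nat_lit 198) (nat_lit 5) (nat_lit 450) (nat_lit 400) (nat_lit 350)) (XT.lf (nat_lit 0) (nat_lit 5567313396) (nat_lit 456) (nat_lit 393774805) (nat_lit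 76) (nat_lit 4288597046) (nat_lit 197) (nat_lit 5) (nat_lit 203) (nat_lit 5) (nat_lit 198) (nat_lit 5) (nat_lit 451) (nat_lit 400) (nat_lit 349)))) (XT.nd (nat_lit 156) (nat_lit 304) (nat_lit 0) (XT.nd (nat_lit 78) (nat_lit 456) (nat_lit 0) (XT.lf (nat_lit 0) (nat_lit 6750589753) (nat_lit 304) (nat_lit 2024160241) (nat_lit 380) (nat_lit 1634463803) (nat_lit 193) (nat_lit 5) (nat_lit 197) (nat_lit 5) (nat_lit 198) (nat_lit 5) (nat_lit 452) (nat_lit 400) (nat_lit 348)) (XT.lf (nat_lit 0) (nat_lit 1488478407) (nat_lit 456) (nat_lit 7058151549) (nat_lit 76) (nat_lit 2026078199) (nat_lit 187) (nat_lit 5) (nat_lit 193) (nat_lit 5) (nat_lit 188) (nat_lit 5) (nat_lit 453) (nat_lit 400) (nat_lit 347))) (XT.nd (nat_lit 78) (nat_lit 0) (nat_lit 0) (XT.lf (nat_lit 0) (nat_lit 140140611) (nat_lit 304) (nat_lit 4546444228) (nat_lit 380) (nat_lit 6053609929) (nat_lit 183) (nat_lit 5) (nat_lit 187) (nat_lit 5) (nat_lit 188) (nat_lit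 5) (nat_lit 454) (nat_lit 400) (nat_lit 346)) (XT.lf (nat_lit 0) (nat_lit 7635757415) (nat_lit 304) (nat_lit 372462392) (nat_lit 380) (nat_lit 2903661254) (nat_lit 183) (nat_lit 5) (nat_lit 187) (nat_lit 5) (nat_lit 188) (nat_lit 5) (nat_lit 455) (nat_lit 400) (nat_lit 345))))))) (XT.nd (nat_lit 1170) (nat_lit 2432) (nat_lit 0) (XT.nd (nat_lit 546) (nat_lit 1444) (nat_lit 0) (XT.nd (nat_lit 234) (nat_lit 988) (nat_lit 0) (XT.nd (nat_lit 78) (nat_lit 304) (nat_lit 0) (XT.lf (nat_lit 0) (nat_lit 370492397) (nat_lit 380) (nat_lit 6841115538) (nat_lit 76) (nat_lit 3875923527) (nat_lit 178) (nat_lit 5) (nat_lit 183) (nat_lit 5) (nat_lit 179) (nat_lit 5) (nat_lit 456) (nat_lit 400) (nat_lit 344)) (XT.nd (nat_lit 78) (nat_lit 0) (nat_lit 0) (XT.lf (nat_lit 0) (nat_lit 712683049) (nat_lit 304) (nat_lit 2973404038) (nat_lit 380) (nat_lit 7581456917) (nat_lit 174) (nat_lit 5) (nat_lit 178) (nat_lit 5) (nat_lit 179) (nat_lit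 5) (nat_lit 457) (nat_lit 400) (nat_lit 343)) (XT.lf (nat_lit 0) (nat_lit 7142364354) (nat_lit 380) (nat_lit 2894848911) (nat_lit 76) (nat_lit 1414509564) (nat_lit 174) (nat_lit 5) (nat_lit 179) (nat_lit 5) (nat_lit 175) (nat_lit 5) (nat_lit 458) (nat_lit 400) (nat_lit 342)))) (XT.nd (nat_lit 156) (nat_lit 304) (nat_lit 0) (XT.nd (nat_lit 78) (nat_lit 380) (nat_lit 0) (XT.lf (nat_lit 0) (nat_lit 5001735449) (nat_lit 304) (nat_lit 5737403840) (nat_lit 380) (nat_lit 901185727) (nat_lit 170) (nat_lit 5) (nat_lit 174) (nat_lit 5) (nat_lit 175) (nat_lit 5) (nat_lit 459) (nat_lit 400) (nat_lit 341)) (XT.lf (nat_lit 0) (nat_lit 1299235662) (nat_lit 304) (nat_lit 1260583874) (nat_lit 380) (nat_lit 9273970349) (nat_lit 165) (nat_lit 5) (nat_lit 169) (nat_lit 5) (nat_lit 170) (nat_lit 5) (nat_lit 460) (nat_lit 400) (nat_lit 340))) (XT.nd (nat_lit 78) (nat_lit 304) (nat_lit 0) (XT.lf (nat_lit 0) (nat_lit 6166332932) (nat_lit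 380) (nat_lit 2523550932) (nat_lit 76) (nat_lit 3341115515) (nat_lit 165) (nat_lit 5) (nat_lit 170) (nat_lit 5) (nat_lit 166) (nat_lit 5) (nat_lit 461) (nat_lit 400) (nat_lit 339)) (XT.lf (nat_lit 0) (nat_lit 5767665124) (nat_lit 304) (nat_lit 4142351415) (nat_lit 380) (nat_lit 2323241399) (nat_lit 161) (nat_lit 5) (nat_lit 165) (nat_lit 5) (nat_lit 166) (nat_lit 5) (nat_lit 462) (nat_lit 400) (nat_lit 338))))) (XT.nd (nat_lit 312) (nat_lit 608) (nat_lit 0) (XT.nd (nat_lit 156) (nat_lit 532) (nat_lit 0) (XT.nd (nat_lit 78) (nat_lit 0) (nat_lit 0) (XT.lf (nat_lit 0) (nat_lit 1309196893) (nat_lit 304) (nat_lit 10564711461) (nat_lit 76) (nat_lit 566977428) (nat_lit 157) (nat_lit 5) (nat_lit 161) (nat_lit 5) (nat_lit 158) (nat_lit 5) (nat_lit 463) (nat_lit 400) (nat_lit 337)) (XT.lf (nat_lit 0) (nat_lit 5072441464) (nat_lit 304) (nat_lit 2177430038) (nat_lit 76) (nat_lit 5402126900) (nat_lit 157) (nat_lit 5) (nat_lit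 161) (nat_lit 5) (nat_lit 158) (nat_lit 5) (nat_lit 464) (nat_lit 400) (nat_lit 336))) (XT.nd (nat_lit 78) (nat_lit 228) (nat_lit 0) (XT.lf (nat_lit 0) (nat_lit 6529944154) (nat_lit 304) (nat_lit 2444106469) (nat_lit 380) (nat_lit 3894631559) (nat_lit 153) (nat_lit 5) (nat_lit 157) (nat_lit 5) (nat_lit 158) (nat_lit 5) (nat_lit 465) (nat_lit 400) (nat_lit 335)) (XT.lf (nat_lit 0) (nat_lit 2415530352) (nat_lit 228) (nat_lit 10609705578) (nat_lit 304) (nat_lit 65656458) (nat_lit 150) (nat_lit 5) (nat_lit 153) (nat_lit 5) (nat_lit 154) (nat_lit 5) (nat_lit 466) (nat_lit 400) (nat_lit 334)))) (XT.nd (nat_lit 156) (nat_lit 304) (nat_lit 0) (XT.nd (nat_lit 78) (nat_lit 228) (nat_lit 0) (XT.lf (nat_lit 0) (nat_lit 3854517711) (nat_lit 304) (nat_lit 1877017907) (nat_lit 76) (nat_lit 7585556323) (nat_lit 149) (nat_lit 5) (nat_lit 153) (nat_lit 5) (nat_lit 150) (nat_lit 5) (nat_lit 467) (nat_lit 400) (nat_lit 333)) (XT.lf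 (nat_lit 0) (nat_lit 7268775565) (nat_lit 228) (nat_lit 656312253) (nat_lit 304) (nat_lit 5623948449) (nat_lit 146) (nat_lit 5) (nat_lit 149) (nat_lit 5) (nat_lit 150) (nat_lit 5) (nat_lit 468) (nat_lit 400) (nat_lit 332))) (XT.nd (nat_lit 78) (nat_lit 76) (nat_lit 0) (XT.lf (nat_lit 0) (nat_lit 2894426898) (nat_lit 228) (nat_lit 9278774667) (nat_lit 304) (nat_lit 1613076114) (nat_lit 143) (nat_lit 5) (nat_lit 146) (nat_lit 5) (nat_lit 147) (nat_lit 5) (nat_lit 469) (nat_lit 400) (nat_lit 331)) (XT.lf (nat_lit 0) (nat_lit 2504183483) (nat_lit 304) (nat_lit 1645082617) (nat_lit 76) (nat_lit 9879589563) (nat_lit 142) (nat_lit 5) (nat_lit 146) (nat_lit 5) (nat_lit 143) (nat_lit 5) (nat_lit 470) (nat_lit 400) (nat_lit 330)))))) (XT.nd (nat_lit 624) (nat_lit 1064) (nat_lit 0) (XT.nd (nat_lit 312) (nat_lit 608) (nat_lit 0) (XT.nd (nat_lit 156) (nat_lit 304) (nat_lit 0) (XT.nd (nat_lit 78) (nat_lit 228) (nat_lit 0) (XT.lf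 (nat_lit 0) (nat_lit 6766365129) (nat_lit 304) (nat_lit 6326504701) (nat_lit 76) (nat_lit 1183748679) (nat_lit 139) (nat_lit 5) (nat_lit 143) (nat_lit 5) (nat_lit 140) (nat_lit 5) (nat_lit 471) (nat_lit 400) (nat_lit 329)) (XT.lf (nat_lit 0) (nat_lit 3302091127) (nat_lit 228) (nat_lit 7909855987) (nat_lit 304) (nat_lit 3318202458) (nat_lit 136) (nat_lit 5) (nat_lit 139) (nat_lit 5) (nat_lit 140) (nat_lit 5) (nat_lit 472) (nat_lit 400) (nat_lit 328))) (XT.nd (nat_lit 78) (nat_lit 228) (nat_lit 0) (XT.lf (nat_lit 0) (nat_lit 1010675228) (nat_lit 304) (nat_lit 1507171804) (nat_lit 76) (nat_lit 12272235432) (nat_lit 135) (nat_lit 5) (nat_lit 139) (nat_lit 5) (nat_lit 136) (nat_lit 5) (nat_lit 473) (nat_lit 400) (nat_lit 327)) (XT.lf (nat_lit 0) (nat_lit 5482404116) (nat_lit 304) (nat_lit 6500582839) (nat_lit 76) (nat_lit 3071451722) (nat_lit 132) (nat_lit 5) (nat_lit 136) (nat_lit 5) (nat_lit 133) (nat_lit 5) (nat_lit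 474) (nat_lit 400) (nat_lit 326)))) (XT.nd (nat_lit 156) (nat_lit 456) (nat_lit 0) (XT.nd (nat_lit 78) (nat_lit 0) (nat_lit 0) (XT.lf (nat_lit 0) (nat_lit 3611369450) (nat_lit 152) (nat_lit 6519194516) (nat_lit 228) (nat_lit 5194894461) (nat_lit 130) (nat_lit 5) (nat_lit 132) (nat_lit 5) (nat_lit 133) (nat_lit 5) (nat_lit 475) (nat_lit 400) (nat_lit 325)) (XT.lf (nat_lit 0) (nat_lit 14105116282) (nat_lit 152) (nat_lit 846387016) (nat_lit 228) (nat_lit 652106621) (nat_lit 130) (nat_lit 5) (nat_lit 132) (nat_lit 5) (nat_lit 133) (nat_lit 5) (nat_lit 476) (nat_lit 400) (nat_lit 324))) (XT.nd (nat_lit 78) (nat_lit 152) (nat_lit 0) (XT.lf (nat_lit 0) (nat_lit 4053331448) (nat_lit 304) (nat_lit 6827586919) (nat_lit 76) (nat_lit 5004879005) (nat_lit 126) (nat_lit 5) (nat_lit 130) (nat_lit 5) (nat_lit 127) (nat_lit 5) (nat_lit 477) (nat_lit 400) (nat_lit 323)) (XT.lf (nat_lit 0) (nat_lit 3791278271) (nat_lit 152) (nat_lit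 5124172436) (nat_lit 228) (nat_lit 7259948391) (nat_lit 124) (nat_lit 5) (nat_lit 126) (nat_lit 5) (nat_lit 127) (nat_lit 5) (nat_lit 478) (nat_lit 400) (nat_lit 322))))) (XT.nd (nat_lit 312) (nat_lit 608) (nat_lit 0) (XT.nd (nat_lit 156) (nat_lit 152) (nat_lit 0) (XT.nd (nat_lit 78) (nat_lit 304) (nat_lit 0) (XT.lf (nat_lit 0) (nat_lit 13969507805) (nat_lit 228) (nat_lit 1665617075) (nat_lit 76) (nat_lit 837182826) (nat_lit 124) (nat_lit 5) (nat_lit 127) (nat_lit 5) (nat_lit 125) (nat_lit 5) (nat_lit 479) (nat_lit 400) (nat_lit 321)) (XT.lf (nat_lit 0) (nat_lit 2462632192) (nat_lit 304) (nat_lit 7343372863) (nat_lit 76) (nat_lit 6968057917) (nat_lit 120) (nat_lit 5) (nat_lit 124) (nat_lit 5) (nat_lit 121) (nat_lit 5) (nat_lit 480) (nat_lit 400) (nat_lit 320))) (XT.nd (nat_lit 78) (nat_lit 0) (nat_lit 0) (XT.lf (nat_lit 0) (nat_lit 3806241279) (nat_lit 152) (nat_lit 3743758850) (nat_lit 228) (nat_lit 9533430027)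 (nat_lit 118) (nat_lit 5) (nat_lit 120) (nat_lit 5) (nat_lit 121) (nat_lit 5) (nat_lit 481) (nat_lit 400) (nat_lit 319)) (XT.lf (nat_lit 0) (nat_lit 12858780523) (nat_lit 228) (nat_lit 2036663066) (nat_lit 76) (nat_lit 2504571964) (nat_lit 118) (nat_lit 5) (nat_lit 121) (nat_lit 5) (nat_lit 119) (nat_lit 5) (nat_lit 482) (nat_lit 400) (nat_lit 318)))) (XT.nd (nat_lit 156) (nat_lit 152) (nat_lit 0) (XT.nd (nat_lit 78) (nat_lit 152) (nat_lit 0) (XT.lf (nat_lit 0) (nat_lit 690483566) (nat_lit 304) (nat_lit 8089091414) (nat_lit 76) (nat_lit 8943306778) (nat_lit 114) (nat_lit 5) (nat_lit 118) (nat_lit 5) (nat_lit 115) (nat_lit 5) (nat_lit 483) (nat_lit 400) (nat_lit 317)) (XT.lf (nat_lit 0) (nat_lit 3615216937) (nat_lit 152) (nat_lit 2399006425) (nat_lit 228) (nat_lit 12039072245) (nat_lit 112) (nat_lit 5) (nat_lit 114) (nat_lit 5) (nat_lit 115) (nat_lit 5) (nat_lit 484) (nat_lit 400) (nat_lit 316))) (XT.nd (nat_lit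 78) (nat_lit 152) (nat_lit 0) (XT.lf (nat_lit 0) (nat_lit 11591251015) (nat_lit 228) (nat_lit 2647221152) (nat_lit 76) (nat_lit 4152343269) (nat_lit 112) (nat_lit 5) (nat_lit 115) (nat_lit 5) (nat_lit 113) (nat_lit 5) (nat_lit 485) (nat_lit 400) (nat_lit 315)) (XT.lf (nat_lit 0) (nat_lit 9611058048) (nat_lit 152) (nat_lit 7812486618) (nat_lit 228) (nat_lit 1312278349) (nat_lit 110) (nat_lit 5) (nat_lit 112) (nat_lit 5) (nat_lit 113) (nat_lit 5) (nat_lit 486) (nat_lit 400) (nat_lit 314))))))))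
noncomputable def xc97 : XT := (XT.nd (nat_lit 2418) (nat_lit 1900) (nat_lit 0) (XT.nd (nat_lit 1170) (nat_lit 1520) (nat_lit 0) (XT.nd (nat_lit 546) (nat_lit 836) (nat_lit 0) (XT.nd (nat_lit 234) (nat_lit 608) (nat_lit 0) (XT.nd (nat_lit 78) (nat_lit 152) (nat_lit 0) (XT.lf (nat_lit 0) (nat_lit 3170697041) (nat_lit 152) (nat_lit 1113605520) (nat_lit 228) (nat_lit 14804746829) (nat_lit 107) (nat_lit 5) (nat_lit 109) (nat_lit 5) (nat_lit 110) (nat_lit 5) (nat_lit 487) (nat_lit 400) (nat_lit 313)) (XT.nd (nat_lit 78) (nat_lit 152) (nat_lit 0) (XT.lf (nat_lit 0) (nat_lit 10143094665) (nat_lit 228) (nat_lit 3547861417) (nat_lit 76) (nat_lit 5757906752) (nat_lit 107) (nat_lit 5) (nat_lit 110) (nat_lit 5) (nat_lit 108) (nat_lit 5) (nat_lit 488) (nat_lit 400) (nat_lit 312)) (XT.lf (nat_lit 0) (nat_lit 9315666948) (nat_lit 152) (nat_lit 6935386228) (nat_lit 228) (nat_lit 3566216145) (nat_lit 105) (nat_lit 5) (nat_lit 107)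 (nat_lit 5) (nat_lit 108) (nat_lit 5) (nat_lit 489) (nat_lit 400) (nat_lit 311)))) (XT.nd (nat_lit 156) (nat_lit 380) (nat_lit 0) (XT.nd (nat_lit 78) (nat_lit 0) (nat_lit 0) (XT.lf (nat_lit 0) (nat_lit 2332883884) (nat_lit 228) (nat_lit 17778350485) (nat_lit 76) (nat_lit 83823984) (nat_lit 102) (nat_lit 5) (nat_lit 105) (nat_lit 5) (nat_lit 103) (nat_lit 5) (nat_lit 490) (nat_lit 400) (nat_lit 310)) (XT.lf (nat_lit 0) (nat_lit 8486047624) (nat_lit 228) (nat_lit 4797198106) (nat_lit 76) (nat_lit 7295413667) (nat_lit 102) (nat_lit 5) (nat_lit 105) (nat_lit 5) (nat_lit 103) (nat_lit 5) (nat_lit 491) (nat_lit 400) (nat_lit 309))) (XT.nd (nat_lit 78) (nat_lit 228) (nat_lit 0) (XT.lf (nat_lit 0) (nat_lit 8695484432) (nat_lit 152) (nat_lit 6185699793) (nat_lit 228) (nat_lit 6090863548) (nat_lit 100) (nat_lit 5) (nat_lit 102) (nat_lit 5) (nat_lit 103) (nat_lit 5) (nat_lit 492) (nat_lit 400) (nat_lit 308)) (XT.lf (nat_lit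 0) (nat_lit 135567760) (nat_lit 228) (nat_lit 20095664385) (nat_lit 76) (nat_lit 1144587881) (nat_lit 97) (nat_lit 5) (nat_lit 100) (nat_lit 5) (nat_lit 98) (nat_lit 5) (nat_lit 493) (nat_lit 400) (nat_lit 307))))) (XT.nd (nat_lit 312) (nat_lit 456) (nat_lit 0) (XT.nd (nat_lit 156) (nat_lit 228) (nat_lit 0) (XT.nd (nat_lit 78) (nat_lit 152) (nat_lit 0) (XT.lf (nat_lit 0) (nat_lit 6586761255) (nat_lit 228) (nat_lit 6463273403) (nat_lit 76) (nat_lit 8735050518) (nat_lit 97) (nat_lit 5) (nat_lit 100) (nat_lit 5) (nat_lit 98) (nat_lit 5) (nat_lit 494) (nat_lit 400) (nat_lit 306)) (XT.lf (nat_lit 0) (nat_lit 7681633022) (nat_lit 152) (nat_lit 5598405259) (nat_lit 228) (nat_lit 8925134136) (nat_lit 95) (nat_lit 5) (nat_lit 97) (nat_lit 5) (nat_lit 98) (nat_lit 5) (nat_lit 495) (nat_lit 400) (nat_lit 305))) (XT.nd (nat_lit 78) (nat_lit 228) (nat_lit 0) (XT.lf (nat_lit 0) (nat_lit 20234791163) (nat_lit 228) (nat_lit 319584025)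 (nat_lit 76) (nat_lit 2081667311) (nat_lit 95) (nat_lit 5) (nat_lit 98) (nat_lit 5) (nat_lit 96) (nat_lit 4) (nat_lit 496) (nat_lit 400) (nat_lit 304)) (XT.lf (nat_lit 0) (nat_lit 4406045640) (nat_lit 228) (nat_lit 8625155848) (nat_lit 76) (nat_lit 10042233473) (nat_lit 92) (nat_lit 5) (nat_lit 95) (nat_lit 5) (nat_lit 93) (nat_lit 5) (nat_lit 497) (nat_lit 400) (nat_lit 303)))) (XT.nd (nat_lit 156) (nat_lit 304) (nat_lit 0) (XT.nd (nat_lit 78) (nat_lit 0) (nat_lit 0) (XT.lf (nat_lit 0) (nat_lit 6193794127) (nat_lit 152) (nat_lit 5213881357) (nat_lit 228) (nat_lit 12114409670) (nat_lit 90) (nat_lit 5) (nat_lit 92) (nat_lit 5) (nat_lit 93) (nat_lit 5) (nat_lit 498) (nat_lit 400) (nat_lit 302)) (XT.lf (nat_lit 0) (nat_lit 18710257021) (nat_lit 228) (nat_lit 2420828466) (nat_lit 76) (nat_lit 2850382772) (nat_lit 90) (nat_lit 5) (nat_lit 93) (nat_lit 5) (nat_lit 91) (nat_lit 4) (nat_lit 499) (nat_lit 400) (nat_lit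 301))) (XT.nd (nat_lit 78) (nat_lit 152) (nat_lit 0) (XT.lf (nat_lit 0) (nat_lit 1897985346) (nat_lit 152) (nat_lit 11374788550) (nat_lit 76) (nat_lit 11176685393) (nat_lit 88) (nat_lit 5) (nat_lit 90) (nat_lit 5) (nat_lit 89) (nat_lit 5) (nat_lit 500) (nat_lit 400) (nat_lit 300)) (XT.lf (nat_lit 0) (nat_lit 4138277202) (nat_lit 152) (nat_lit 5078912305) (nat_lit 228) (nat_lit 15711508951) (nat_lit 86) (nat_lit 5) (nat_lit 88) (nat_lit 5) (nat_lit 89) (nat_lit 5) (nat_lit 501) (nat_lit 400) (nat_lit 299)))))) (XT.nd (nat_lit 624) (nat_lit 836) (nat_lit 0) (XT.nd (nat_lit 312) (nat_lit 380) (nat_lit 0) (XT.nd (nat_lit 156) (nat_lit 228) (nat_lit 0) (XT.nd (nat_lit 78) (nat_lit 76) (nat_lit 0) (XT.lf (nat_lit 0) (nat_lit 16880760993) (nat_lit 228) (nat_lit 5146426144) (nat_lit 76) (nat_lit 3391384362) (nat_lit 86) (nat_lit 5) (nat_lit 89) (nat_lit 5) (nat_lit 87) (nat_lit 4) (nat_lit 502) (nat_lit 400) (nat_lit 298))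 (XT.lf (nat_lit 0) (nat_lit 11090274748) (nat_lit 76) (nat_lit 13818027692) (nat_lit 152) (nat_lit 1010816832) (nat_lit 85) (nat_lit 5) (nat_lit 86) (nat_lit 5) (nat_lit 87) (nat_lit 4) (nat_lit 503) (nat_lit 400) (nat_lit 297))) (XT.nd (nat_lit 78) (nat_lit 0) (nat_lit 0) (XT.lf (nat_lit 0) (nat_lit 1405784129) (nat_lit 152) (nat_lit 5247843000) (nat_lit 228) (nat_lit 19777816474) (nat_lit 82) (nat_lit 5) (nat_lit 84) (nat_lit 5) (nat_lit 85) (nat_lit 5) (nat_lit 504) (nat_lit 400) (nat_lit 296)) (XT.lf (nat_lit 0) (nat_lit 14690591319) (nat_lit 228) (nat_lit 8611956304) (nat_lit 76) (nat_lit 3651403087) (nat_lit 82) (nat_lit 5) (nat_lit 85) (nat_lit 5) (nat_lit 83) (nat_lit 4) (nat_lit 505) (nat_lit 400) (nat_lit 295)))) (XT.nd (nat_lit 156) (nat_lit 228) (nat_lit 0) (XT.nd (nat_lit 78) (nat_lit 76) (nat_lit 0) (XT.lf (nat_lit 0) (nat_lit 8363814249) (nat_lit 76) (nat_lit 14715139784) (nat_lit 152) (nat_lit 4409870684)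 (nat_lit 81) (nat_lit 5) (nat_lit 82) (nat_lit 5) (nat_lit 83) (nat_lit 4) (nat_lit 506) (nat_lit 400) (nat_lit 294)) (XT.lf (nat_lit 0) (nat_lit 3673215795) (nat_lit 152) (nat_lit 2089593585) (nat_lit 76) (nat_lit 22273901272) (nat_lit 80) (nat_lit 5) (nat_lit 82) (nat_lit 5) (nat_lit 81) (nat_lit 5) (nat_lit 507) (nat_lit 400) (nat_lit 293))) (XT.nd (nat_lit 78) (nat_lit 76) (nat_lit 0) (XT.lf (nat_lit 0) (nat_lit 12074462625) (nat_lit 228) (nat_lit 12952066076) (nat_lit 76) (nat_lit 3568265890) (nat_lit 78) (nat_lit 5) (nat_lit 81) (nat_lit 5) (nat_lit 79) (nat_lit 4) (nat_lit 508) (nat_lit 400) (nat_lit 292)) (XT.lf (nat_lit 0) (nat_lit 4776334563) (nat_lit 76) (nat_lit 16054354748) (nat_lit 152) (nat_lit 8335843797) (nat_lit 77) (nat_lit 5) (nat_lit 78) (nat_lit 5) (nat_lit 79) (nat_lit 4) (nat_lit 509) (nat_lit 400) (nat_lit 291))))) (XT.nd (nat_lit 312) (nat_lit 532) (nat_lit 0) (XT.nd (nat_lit 156) (nat_lit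 76) (nat_lit 0) (XT.nd (nat_lit 78) (nat_lit 152) (nat_lit 0) (XT.lf (nat_lit 0) (nat_lit 203115881) (nat_lit 152) (nat_lit 6492105497) (nat_lit 76) (nat_lit 23056852319) (nat_lit 76) (nat_lit 5) (nat_lit 78) (nat_lit 5) (nat_lit 77) (nat_lit 5) (nat_lit 510) (nat_lit 400) (nat_lit 290)) (XT.lf (nat_lit 0) (nat_lit 8955996674) (nat_lit 228) (nat_lit 18323598033) (nat_lit 76) (nat_lit 3069351273) (nat_lit 74) (nat_lit 5) (nat_lit 77) (nat_lit 5) (nat_lit 75) (nat_lit 4) (nat_lit 511) (nat_lit 400) (nat_lit 289))) (XT.nd (nat_lit 78) (nat_lit 0) (nat_lit 0) (XT.lf (nat_lit 0) (nat_lit 166592855) (nat_lit 76) (nat_lit 17918329119) (nat_lit 152) (nat_lit 12875399012) (nat_lit 73) (nat_lit 5) (nat_lit 74) (nat_lit 5) (nat_lit 75) (nat_lit 4) (nat_lit 512) (nat_lit 400) (nat_lit 288)) (XT.lf (nat_lit 0) (nat_lit 19548122578) (nat_lit 76) (nat_lit 8104212034) (nat_lit 152) (nat_lit 3932764329) (nat_lit 73) (nat_lit 5)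 (nat_lit 74) (nat_lit 5) (nat_lit 75) (nat_lit 4) (nat_lit 513) (nat_lit 400) (nat_lit 287)))) (XT.nd (nat_lit 156) (nat_lit 304) (nat_lit 0) (XT.nd (nat_lit 78) (nat_lit 0) (nat_lit 0) (XT.lf (nat_lit 0) (nat_lit 5245955562) (nat_lit 228) (nat_lit 24909215362) (nat_lit 76) (nat_lit 2069803422) (nat_lit 70) (nat_lit 5) (nat_lit 73) (nat_lit 5) (nat_lit 71) (nat_lit 4) (nat_lit 514) (nat_lit 400) (nat_lit 286)) (XT.lf (nat_lit 0) (nat_lit 14804015818) (nat_lit 228) (nat_lit 5543249663) (nat_lit 76) (nat_lit 12530121946) (nat_lit 70) (nat_lit 5) (nat_lit 73) (nat_lit 5) (nat_lit 71) (nat_lit 4) (nat_lit 515) (nat_lit 400) (nat_lit 285))) (XT.nd (nat_lit 78) (nat_lit 228) (nat_lit 0) (XT.lf (nat_lit 0) (nat_lit 14652440880) (nat_lit 76) (nat_lit 10117837255) (nat_lit 152) (nat_lit 8775451213) (nat_lit 69) (nat_lit 5) (nat_lit 70) (nat_lit 5) (nat_lit 71) (nat_lit 4) (nat_lit 516) (nat_lit 400) (nat_lit 284)) (XT.lf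 (nat_lit 0) (nat_lit 840188262) (nat_lit 228) (nat_lit 32921604563) (nat_lit 76) (nat_lit 470465240) (nat_lit 66) (nat_lit 5) (nat_lit 69) (nat_lit 5) (nat_lit 67) (nat_lit 4) (nat_lit 517) (nat_lit 400) (nat_lit 283))))))) (XT.nd (nat_lit 1170) (nat_lit 988) (nat_lit 0) (XT.nd (nat_lit 546) (nat_lit 456) (nat_lit 0) (XT.nd (nat_lit 234) (nat_lit 380) (nat_lit 0) (XT.nd (nat_lit 78) (nat_lit 76) (nat_lit 0) (XT.lf (nat_lit 0) (nat_lit 10841442664) (nat_lit 228) (nat_lit 12651840295) (nat_lit 76) (nat_lit 11435287639) (nat_lit 66) (nat_lit 5) (nat_lit 69) (nat_lit 5) (nat_lit 67) (nat_lit 4) (nat_lit 518) (nat_lit 400) (nat_lit 282)) (XT.nd (nat_lit 78) (nat_lit 0) (nat_lit 0) (XT.lf (nat_lit 0) (nat_lit 8352858234) (nat_lit 76) (nat_lit 12851405059) (nat_lit 152) (nat_lit 14439663584) (nat_lit 65) (nat_lit 5) (nat_lit 66) (nat_lit 5) (nat_lit 67) (nat_lit 4) (nat_lit 519) (nat_lit 400) (nat_lit 281)) (XT.lf (nat_lit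 0) (nat_lit 30211249468) (nat_lit 76) (nat_lit 1775916077) (nat_lit 152) (nat_lit 4390302610) (nat_lit 65) (nat_lit 5) (nat_lit 66) (nat_lit 5) (nat_lit 67) (nat_lit 4) (nat_lit 520) (nat_lit 400) (nat_lit 280)))) (XT.nd (nat_lit 156) (nat_lit 152) (nat_lit 0) (XT.nd (nat_lit 78) (nat_lit 76) (nat_lit 0) (XT.lf (nat_lit 0) (nat_lit 6072484570) (nat_lit 152) (nat_lit 21413338767) (nat_lit 76) (nat_lit 9638625944) (nat_lit 63) (nat_lit 5) (nat_lit 65) (nat_lit 5) (nat_lit 64) (nat_lit 4) (nat_lit 521) (nat_lit 400) (nat_lit 279)) (XT.lf (nat_lit 0) (nat_lit 389977755) (nat_lit 76) (nat_lit 16436986967) (nat_lit 152) (nat_lit 21063589767) (nat_lit 62) (nat_lit 5) (nat_lit 63) (nat_lit 5) (nat_lit 64) (nat_lit 4) (nat_lit 522) (nat_lit 400) (nat_lit 278))) (XT.nd (nat_lit 78) (nat_lit 152) (nat_lit 0) (XT.lf (nat_lit 0) (nat_lit 23251537727) (nat_lit 76) (nat_lit 4850803607) (nat_lit 152) (nat_lit 10571353852) (nat_lit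 62) (nat_lit 5) (nat_lit 63) (nat_lit 5) (nat_lit 64) (nat_lit 4) (nat_lit 523) (nat_lit 400) (nat_lit 277)) (XT.lf (nat_lit 0) (nat_lit 353480979) (nat_lit 152) (nat_lit 32120171558) (nat_lit 76) (nat_lit 7002936891) (nat_lit 60) (nat_lit 5) (nat_lit 62) (nat_lit 5) (nat_lit 61) (nat_lit 4) (nat_lit 524) (nat_lit 400) (nat_lit 276))))) (XT.nd (nat_lit 312) (nat_lit 228) (nat_lit 0) (XT.nd (nat_lit 156) (nat_lit 152) (nat_lit 0) (XT.nd (nat_lit 78) (nat_lit 76) (nat_lit 0) (XT.lf (nat_lit 0) (nat_lit 11581300900) (nat_lit 152) (nat_lit 9352821921) (nat_lit 76) (nat_lit 19360676435) (nat_lit 60) (nat_lit 5) (nat_lit 62) (nat_lit 5) (nat_lit 61) (nat_lit 4) (nat_lit 525) (nat_lit 400) (nat_lit 275)) (XT.lf (nat_lit 0) (nat_lit 14344275663) (nat_lit 76) (nat_lit 8922488585) (nat_lit 152) (nat_lit 17867167041) (nat_lit 59) (nat_lit 5) (nat_lit 60) (nat_lit 5) (nat_lit 61) (nat_lit 4) (nat_lit 526) (nat_lit 400) (nat_lit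 274))) (XT.nd (nat_lit 78) (nat_lit 152) (nat_lit 0) (XT.lf (nat_lit 0) (nat_lit 35414281435) (nat_lit 152) (nat_lit 3118697162) (nat_lit 0) (nat_lit 3461914156) (nat_lit 59) (nat_lit 5) (nat_lit 61) (nat_lit 4) (nat_lit 59) (nat_lit 4) (nat_lit 527) (nat_lit 400) (nat_lit 273)) (XT.lf (nat_lit 0) (nat_lit 5227928412) (nat_lit 152) (nat_lit 21361995663) (nat_lit 76) (nat_lit 16281849674) (nat_lit 57) (nat_lit 5) (nat_lit 59) (nat_lit 5) (nat_lit 58) (nat_lit 4) (nat_lit 528) (nat_lit 400) (nat_lit 272)))) (XT.nd (nat_lit 156) (nat_lit 152) (nat_lit 0) (XT.nd (nat_lit 78) (nat_lit 0) (nat_lit 0) (XT.lf (nat_lit 0) (nat_lit 3130384840) (nat_lit 76) (nat_lit 14173431936) (nat_lit 152) (nat_lit 26467829230) (nat_lit 56) (nat_lit 5) (nat_lit 57) (nat_lit 5) (nat_lit 58) (nat_lit 4) (nat_lit 529) (nat_lit 400) (nat_lit 271)) (XT.lf (nat_lit 0) (nat_lit 28763497657) (nat_lit 76) (nat_lit 1177833623) (nat_lit 152) (nat_lit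 14751202817) (nat_lit 56) (nat_lit 5) (nat_lit 57) (nat_lit 5) (nat_lit 58) (nat_lit 4) (nat_lit 530) (nat_lit 400) (nat_lit 270))) (XT.nd (nat_lit 78) (nat_lit 76) (nat_lit 0) (XT.lf (nat_lit 0) (nat_lit 9562465695) (nat_lit 76) (nat_lit 33588739541) (nat_lit 76) (nat_lit 2484046719) (nat_lit 55) (nat_lit 4) (nat_lit 56) (nat_lit 5) (nat_lit 56) (nat_lit 4) (nat_lit 531) (nat_lit 400) (nat_lit 269)) (XT.lf (nat_lit 0) (nat_lit 10111123399) (nat_lit 152) (nat_lit 10598368389) (nat_lit 76) (nat_lit 25889089804) (nat_lit 54) (nat_lit 5) (nat_lit 56) (nat_lit 5) (nat_lit 55) (nat_lit 4) (nat_lit 532) (nat_lit 400) (nat_lit 268)))))) (XT.nd (nat_lit 624) (nat_lit 456) (nat_lit 0) (XT.nd (nat_lit 312) (nat_lit 304) (nat_lit 0) (XT.nd (nat_lit 156) (nat_lit 152) (nat_lit 0) (XT.nd (nat_lit 78) (nat_lit 0) (nat_lit 0) (XT.lf (nat_lit 0) (nat_lit 15895425672) (nat_lit 76) (nat_lit 7276037271) (nat_lit 152) (nat_lit 24414493238)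 (nat_lit 53) (nat_lit 5) (nat_lit 54) (nat_lit 5) (nat_lit 55) (nat_lit 4) (nat_lit 533) (nat_lit 400) (nat_lit 267)) (XT.lf (nat_lit 0) (nat_lit 36779224039) (nat_lit 152) (nat_lit 5293034549) (nat_lit 0) (nat_lit 6526025208) (nat_lit 53) (nat_lit 5) (nat_lit 55) (nat_lit 4) (nat_lit 53) (nat_lit 4) (nat_lit 534) (nat_lit 400) (nat_lit 266))) (XT.nd (nat_lit 78) (nat_lit 0) (nat_lit 0) (XT.lf (nat_lit 0) (nat_lit 1405025694) (nat_lit 152) (nat_lit 27418105438) (nat_lit 76) (nat_lit 20809318002) (nat_lit 51) (nat_lit 5) (nat_lit 53) (nat_lit 5) (nat_lit 52) (nat_lit 4) (nat_lit 535) (nat_lit 400) (nat_lit 265)) (XT.lf (nat_lit 0) (nat_lit 14827189332) (nat_lit 152) (nat_lit 187723708) (nat_lit 76) (nat_lit 35678048691) (nat_lit 51) (nat_lit 5) (nat_lit 53) (nat_lit 5) (nat_lit 52) (nat_lit 4) (nat_lit 536) (nat_lit 400) (nat_lit 264)))) (XT.nd (nat_lit 156) (nat_lit 152) (nat_lit 0) (XT.nd (nat_lit 78) (nat_lit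 76) (nat_lit 0) (XT.lf (nat_lit 0) (nat_lit 28384736099) (nat_lit 76) (nat_lit 525500751) (nat_lit 152) (nat_lit 22867306400) (nat_lit 50) (nat_lit 5) (nat_lit 51) (nat_lit 5) (nat_lit 52) (nat_lit 4) (nat_lit 537) (nat_lit 400) (nat_lit 263)) (XT.lf (nat_lit 0) (nat_lit 4851107698) (nat_lit 76) (nat_lit 38737008545) (nat_lit 76) (nat_lit 9301375871) (nat_lit 49) (nat_lit 4) (nat_lit 50) (nat_lit 5) (nat_lit 50) (nat_lit 4) (nat_lit 538) (nat_lit 400) (nat_lit 262))) (XT.nd (nat_lit 78) (nat_lit 76) (nat_lit 0) (XT.lf (nat_lit 0) (nat_lit 4809532356) (nat_lit 152) (nat_lit 19687040163) (nat_lit 76) (nat_lit 29530005115) (nat_lit 48) (nat_lit 5) (nat_lit 50) (nat_lit 5) (nat_lit 49) (nat_lit 4) (nat_lit 539) (nat_lit 400) (nat_lit 261)) (XT.lf (nat_lit 0) (nat_lit 9581815142) (nat_lit 76) (nat_lit 9652930824) (nat_lit 152) (nat_lit 35957929272) (nat_lit 47) (nat_lit 5) (nat_lit 48) (nat_lit 5) (nat_lit 49) (nat_lit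 4) (nat_lit 540) (nat_lit 400) (nat_lit 260))))) (XT.nd (nat_lit 312) (nat_lit 228) (nat_lit 0) (XT.nd (nat_lit 156) (nat_lit 152) (nat_lit 0) (XT.nd (nat_lit 78) (nat_lit 76) (nat_lit 0) (XT.lf (nat_lit 0) (nat_lit 34333498529) (nat_lit 152) (nat_lit 16339564624) (nat_lit 0) (nat_lit 5713469242) (nat_lit 47) (nat_lit 5) (nat_lit 49) (nat_lit 4) (nat_lit 47) (nat_lit 4) (nat_lit 541) (nat_lit 400) (nat_lit 259)) (XT.lf (nat_lit 0) (nat_lit 13959582533) (nat_lit 76) (nat_lit 36141642117) (nat_lit 76) (nat_lit 7508500384) (nat_lit 46) (nat_lit 4) (nat_lit 47) (nat_lit 5) (nat_lit 47) (nat_lit 4) (nat_lit 542) (nat_lit 400) (nat_lit 258))) (XT.nd (nat_lit 78) (nat_lit 76) (nat_lit 0) (XT.lf (nat_lit 0) (nat_lit 7479444418) (nat_lit 152) (nat_lit 13462600094) (nat_lit 76) (nat_lit 37920827516) (nat_lit 45) (nat_lit 5) (nat_lit 47) (nat_lit 5) (nat_lit 46) (nat_lit 4) (nat_lit 543) (nat_lit 400) (nat_lit 257)) (XT.lf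 (nat_lit 0) (nat_lit 17878773141) (nat_lit 76) (nat_lit 5045859933) (nat_lit 152) (nat_lit 37221994630) (nat_lit 44) (nat_lit 5) (nat_lit 45) (nat_lit 5) (nat_lit 46) (nat_lit 4) (nat_lit 544) (nat_lit 400) (nat_lit 256)))) (XT.nd (nat_lit 156) (nat_lit 152) (nat_lit 0) (XT.nd (nat_lit 78) (nat_lit 76) (nat_lit 0) (XT.lf (nat_lit 0) (nat_lit 39066024817) (nat_lit 152) (nat_lit 11165037532) (nat_lit 0) (nat_lit 11230848364) (nat_lit 44) (nat_lit 5) (nat_lit 46) (nat_lit 4) (nat_lit 44) (nat_lit 4) (nat_lit 545) (nat_lit 400) (nat_lit 255)) (XT.lf (nat_lit 0) (nat_lit 21209192682) (nat_lit 76) (nat_lit 34723360072) (nat_lit 76) (nat_lit 6876872708) (nat_lit 43) (nat_lit 4) (nat_lit 44) (nat_lit 5) (nat_lit 44) (nat_lit 4) (nat_lit 546) (nat_lit 400) (nat_lit 254))) (XT.nd (nat_lit 78) (nat_lit 76) (nat_lit 0) (XT.lf (nat_lit 0) (nat_lit 9030914145) (nat_lit 152) (nat_lit 9524713115) (nat_lit 76) (nat_lit 45636084181)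 (nat_lit 42) (nat_lit 5) (nat_lit 44) (nat_lit 5) (nat_lit 43) (nat_lit 4) (nat_lit 547) (nat_lit 400) (nat_lit 253)) (XT.lf (nat_lit 0) (nat_lit 23886249539) (nat_lit 76) (nat_lit 1608518928) (nat_lit 152) (nat_lit 40112143408) (nat_lit 41) (nat_lit 5) (nat_lit 42) (nat_lit 5) (nat_lit 43) (nat_lit 4) (nat_lit 548) (nat_lit 400) (nat_lit 252))))))))
noncomputable def xc98 : XT := (XT.nd (nat_lit 52962) (nat_lit 0) (nat_lit 10640) (XT.nd (nat_lit 51714) (nat_lit 0) (nat_lit 22724) (XT.nd (nat_lit 51090) (nat_lit 0) (nat_lit 30020) (XT.nd (nat_lit 234) (nat_lit 76) (nat_lit 0) (XT.nd (nat_lit 78) (nat_lit 152) (nat_lit 0) (XT.lf (nat_lit 0) (nat_lit 42689457968) (nat_lit 152) (nat_lit 8745031798) (nat_lit 0) (nat_lit 15622971041) (nat_lit 41) (nat_lit 5) (nat_lit 43) (nat_lit 4) (nat_lit 41) (nat_lit 4) (nat_lit 549) (nat_lit 400) (nat_lit 251)) (XT.nd (nat_lit 78) (nat_lit 76) (nat_lit 0) (XT.lf (nat_lit 0) (nat_lit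 25680939360) (nat_lit 76) (nat_lit 34969656258) (nat_lit 76) (nat_lit 7893412439) (nat_lit 40) (nat_lit 4) (nat_lit 41) (nat_lit 5) (nat_lit 41) (nat_lit 4) (nat_lit 550) (nat_lit 400) (nat_lit 250)) (XT.lf (nat_lit 0) (nat_lit 8975329909) (nat_lit 152) (nat_lit 8865796812) (nat_lit 76) (nat_lit 52229097667) (nat_lit 39) (nat_lit 5) (nat_lit 41) (nat_lit 5) (nat_lit 40) (nat_lit 4) (nat_lit 551) (nat_lit 400) (nat_lit 249)))) (XT.nd (nat_lit 50700) (nat_lit 0) (nat_lit 31236) (XT.nd (nat_lit 78) (nat_lit 0) (nat_lit 0) (XT.lf (nat_lit 0) (nat_lit 26436336222) (nat_lit 152) (nat_lit 45065605811) (nat_lit 0) (nat_lit 130595120) (nat_lit 38) (nat_lit 5) (nat_lit 40) (nat_lit 4) (nat_lit 38) (nat_lit 4) (nat_lit 552) (nat_lit 400) (nat_lit 248)) (XT.lf (nat_lit 0) (nat_lit 44676422577) (nat_lit 152) (nat_lit 10195626690) (nat_lit 0) (nat_lit 18362012604) (nat_lit 38) (nat_lit 5) (nat_lit 40) (nat_lit 4) (nat_lit 38)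 (nat_lit 4) (nat_lit 553) (nat_lit 400) (nat_lit 247))) (XT.nd (nat_lit 78) (nat_lit 228) (nat_lit 0) (XT.lf (nat_lit 0) (nat_lit 1570015054) (nat_lit 0) (nat_lit 1570015054) (nat_lit 76) (nat_lit 83068127) (nat_lit 452) (nat_lit 5) (nat_lit 452) (nat_lit 3) (nat_lit 453) (nat_lit 0) (nat_lit 401) (nat_lit 401) (nat_lit 398)) (XT.lf (nat_lit 0) (nat_lit 2853283781) (nat_lit 228) (nat_lit 100840795) (nat_lit 228) (nat_lit 3497734510) (nat_lit 449) (nat_lit 3) (nat_lit 452) (nat_lit 3) (nat_lit 452) (nat_lit 5) (nat_lit 402) (nat_lit 401) (nat_lit 397))))) (XT.nd (nat_lit 312) (nat_lit 684) (nat_lit 0) (XT.nd (nat_lit 156) (nat_lit 304) (nat_lit 0) (XT.nd (nat_lit 78) (nat_lit 228) (nat_lit 0) (XT.lf (nat_lit 76) (nat_lit 3200776853) (nat_lit 0) (nat_lit 2672129858) (nat_lit 228) (nat_lit 587367043) (nat_lit 450) (nat_lit 5) (nat_lit 449) (nat_lit 3) (nat_lit 452) (nat_lit 5) (nat_lit 403) (nat_lit 401) (nat_lit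 396)) (XT.lf (nat_lit 76) (nat_lit 48960821) (nat_lit 0) (nat_lit 2301542875) (nat_lit 304) (nat_lit 4121169667) (nat_lit 447) (nat_lit 5) (nat_lit 446) (nat_lit 5) (nat_lit 450) (nat_lit 5) (nat_lit 404) (nat_lit 401) (nat_lit 395))) (XT.nd (nat_lit 78) (nat_lit 304) (nat_lit 0) (XT.lf (nat_lit 76) (nat_lit 3455752897) (nat_lit 0) (nat_lit 1828485351) (nat_lit 304) (nat_lit 1201434834) (nat_lit 447) (nat_lit 5) (nat_lit 446) (nat_lit 5) (nat_lit 450) (nat_lit 5) (nat_lit 405) (nat_lit 401) (nat_lit 394)) (XT.lf (nat_lit 76) (nat_lit 392726396) (nat_lit 0) (nat_lit 1270570664) (nat_lit 380) (nat_lit 4839513133) (nat_lit 443) (nat_lit 5) (nat_lit 442) (nat_lit 5) (nat_lit 447) (nat_lit 5) (nat_lit 406) (nat_lit 401) (nat_lit 393)))) (XT.nd (nat_lit 156) (nat_lit 380) (nat_lit 0) (XT.nd (nat_lit 78) (nat_lit 304) (nat_lit 0) (XT.lf (nat_lit 76) (nat_lit 3906407054) (nat_lit 0) (nat_lit 605409641) (nat_lit 380) (nat_lit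 2010645067) (nat_lit 443) (nat_lit 5) (nat_lit 442) (nat_lit 5) (nat_lit 447) (nat_lit 5) (nat_lit 407) (nat_lit 401) (nat_lit 392)) (XT.lf (nat_lit 0) (nat_lit 789391460) (nat_lit 380) (nat_lit 5616443661) (nat_lit 76) (nat_lit 139505606) (nat_lit 438) (nat_lit 5) (nat_lit 443) (nat_lit 5) (nat_lit 439) (nat_lit 5) (nat_lit 408) (nat_lit 401) (nat_lit 391))) (XT.nd (nat_lit 78) (nat_lit 380) (nat_lit 0) (XT.lf (nat_lit 0) (nat_lit 3562221985) (nat_lit 380) (nat_lit 2025347850) (nat_lit 76) (nat_lit 982878421) (nat_lit 438) (nat_lit 5) (nat_lit 443) (nat_lit 5) (nat_lit 439) (nat_lit 5) (nat_lit 409) (nat_lit 401) (nat_lit 390)) (XT.lf (nat_lit 0) (nat_lit 1642527446) (nat_lit 380) (nat_lit 4691044728) (nat_lit 456) (nat_lit 265291905) (nat_lit 433) (nat_lit 5) (nat_lit 438) (nat_lit 5) (nat_lit 439) (nat_lit 5) (nat_lit 410) (nat_lit 401) (nat_lit 389)))))) (XT.nd (nat_lit 624) (nat_lit 4712) (nat_lit 0) (XT.nd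 (nat_lit 312) (nat_lit 1444) (nat_lit 0) (XT.nd (nat_lit 156) (nat_lit 608) (nat_lit 0) (XT.nd (nat_lit 78) (nat_lit 456) (nat_lit 0) (XT.lf (nat_lit 0) (nat_lit 2431517532) (nat_lit 456) (nat_lit 1254746406) (nat_lit 76) (nat_lit 2943498236) (nat_lit 432) (nat_lit 5) (nat_lit 438) (nat_lit 5) (nat_lit 433) (nat_lit 5) (nat_lit 411) (nat_lit 401) (nat_lit 388)) (XT.lf (nat_lit 0) (nat_lit 2542376649) (nat_lit 456) (nat_lit 2589734164) (nat_lit 532) (nat_lit 1531565080) (nat_lit 426) (nat_lit 5) (nat_lit 432) (nat_lit 5) (nat_lit 433) (nat_lit 5) (nat_lit 412) (nat_lit 401) (nat_lit 387))) (XT.nd (nat_lit 78) (nat_lit 532) (nat_lit 0) (XT.lf (nat_lit 0) (nat_lit 1109236112) (nat_lit 532) (nat_lit 294687722) (nat_lit 76) (nat_lit 5296810833) (nat_lit 425) (nat_lit 5) (nat_lit 432) (nat_lit 5) (nat_lit 426) (nat_lit 5) (nat_lit 413) (nat_lit 401) (nat_lit 386)) (XT.lf (nat_lit 0) (nat_lit 3640669243) (nat_lit 532)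 (nat_lit 100608002) (nat_lit 608) (nat_lit 2998901729) (nat_lit 418) (nat_lit 5) (nat_lit 425) (nat_lit 5) (nat_lit 426) (nat_lit 5) (nat_lit 414) (nat_lit 401) (nat_lit 385)))) (XT.nd (nat_lit 156) (nat_lit 760) (nat_lit 0) (XT.nd (nat_lit 78) (nat_lit 76) (nat_lit 0) (XT.lf (nat_lit 0) (nat_lit 859907557) (nat_lit 608) (nat_lit 5525755262) (nat_lit 684) (nat_lit 397154579) (nat_lit 410) (nat_lit 5) (nat_lit 418) (nat_lit 5) (nat_lit 419) (nat_lit 5) (nat_lit 415) (nat_lit 401) (nat_lit 384)) (XT.lf (nat_lit 0) (nat_lit 2182005214) (nat_lit 684) (nat_lit 1912862546) (nat_lit 76) (nat_lit 2732903446) (nat_lit 409) (nat_lit 5) (nat_lit 418) (nat_lit 5) (nat_lit 410) (nat_lit 5) (nat_lit 416) (nat_lit 401) (nat_lit 383))) (XT.nd (nat_lit 78) (nat_lit 76) (nat_lit 0) (XT.lf (nat_lit 0) (nat_lit 2192787173) (nat_lit 684) (nat_lit 2572730060) (nat_lit 760) (nat_lit 2110400876) (nat_lit 400) (nat_lit 5) (nat_lit 409)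 (nat_lit 5) (nat_lit 410) (nat_lit 5) (nat_lit 417) (nat_lit 401) (nat_lit 382)) (XT.lf (nat_lit 0) (nat_lit 425696071) (nat_lit 760) (nat_lit 533755455) (nat_lit 76) (nat_lit 5967890576) (nat_lit 399) (nat_lit 5) (nat_lit 409) (nat_lit 5) (nat_lit 400) (nat_lit 5) (nat_lit 418) (nat_lit 401) (nat_lit 381))))) (XT.nd (nat_lit 312) (nat_lit 2128) (nat_lit 0) (XT.nd (nat_lit 156) (nat_lit 988) (nat_lit 0) (XT.nd (nat_lit 78) (nat_lit 836) (nat_lit 0) (XT.lf (nat_lit 0) (nat_lit 2956226908) (nat_lit 836) (nat_lit 3259373808) (nat_lit 76) (nat_lit 765268497) (nat_lit 389) (nat_lit 5) (nat_lit 400) (nat_lit 5) (nat_lit 390) (nat_lit 5) (nat_lit 419) (nat_lit 401) (nat_lit 380)) (XT.lf (nat_lit 0) (nat_lit 1025206585) (nat_lit 836) (nat_lit 4481669642) (nat_lit 912) (nat_lit 1530809822) (nat_lit 378) (nat_lit 5) (nat_lit 389) (nat_lit 5) (nat_lit 390) (nat_lit 5) (nat_lit 420) (nat_lit 401) (nat_lit 379))) (XT.nd (nat_lit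 78) (nat_lit 912) (nat_lit 0) (XT.lf (nat_lit 0) (nat_lit 971170487) (nat_lit 912) (nat_lit 1666094536) (nat_lit 76) (nat_lit 4460044951) (nat_lit 377) (nat_lit 5) (nat_lit 389) (nat_lit 5) (nat_lit 378) (nat_lit 5) (nat_lit 421) (nat_lit 401) (nat_lit 378)) (XT.lf (nat_lit 0) (nat_lit 2786095369) (nat_lit 912) (nat_lit 680794401) (nat_lit 988) (nat_lit 3692903871) (nat_lit 365) (nat_lit 5) (nat_lit 377) (nat_lit 5) (nat_lit 378) (nat_lit 5) (nat_lit 422) (nat_lit 401) (nat_lit 377)))) (XT.nd (nat_lit 156) (nat_lit 1064) (nat_lit 0) (XT.nd (nat_lit 78) (nat_lit 76) (nat_lit 0) (XT.lf (nat_lit 0) (nat_lit 105858289) (nat_lit 988) (nat_lit 5886888785) (nat_lit 1064) (nat_lit 1232755627) (nat_lit 352) (nat_lit 5) (nat_lit 365) (nat_lit 5) (nat_lit 366) (nat_lit 5) (nat_lit 423) (nat_lit 401) (nat_lit 376)) (XT.lf (nat_lit 0) (nat_lit 1252416698) (nat_lit 1064) (nat_lit 2568509766) (nat_lit 76) (nat_lit 3472591378)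 (nat_lit 351) (nat_lit 5) (nat_lit 365) (nat_lit 5) (nat_lit 352) (nat_lit 5) (nat_lit 424) (nat_lit 401) (nat_lit 375))) (XT.nd (nat_lit 78) (nat_lit 0) (nat_lit 0) (XT.lf (nat_lit 0) (nat_lit 2083113083) (nat_lit 1064) (nat_lit 1651721863) (nat_lit 1140) (nat_lit 3629956409) (nat_lit 337) (nat_lit 5) (nat_lit 351) (nat_lit 5) (nat_lit 352) (nat_lit 5) (nat_lit 425) (nat_lit 401) (nat_lit 374)) (XT.lf (nat_lit 0) (nat_lit 6252531795) (nat_lit 1140) (nat_lit 582411052) (nat_lit 76) (nat_lit 604443933) (nat_lit 337) (nat_lit 5) (nat_lit 352) (nat_lit 5) (nat_lit 338) (nat_lit 5) (nat_lit 426) (nat_lit 401) (nat_lit 373))))))) (XT.nd (nat_lit 1170) (nat_lit 4636) (nat_lit 0) (XT.nd (nat_lit 546) (nat_lit 2812) (nat_lit 0) (XT.nd (nat_lit 234) (nat_lit 2204) (nat_lit 0) (XT.nd (nat_lit 78) (nat_lit 1216) (nat_lit 0) (XT.lf (nat_lit 0) (nat_lit 1291860910) (nat_lit 1216) (nat_lit 3268765320) (nat_lit 76) (nat_lit 2955569893)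 (nat_lit 321) (nat_lit 5) (nat_lit 337) (nat_lit 5) (nat_lit 322) (nat_lit 5) (nat_lit 427) (nat_lit 401) (nat_lit 372)) (XT.nd (nat_lit 78) (nat_lit 0) (nat_lit 0) (XT.lf (nat_lit 0) (nat_lit 1593379421) (nat_lit 1216) (nat_lit 2180761273) (nat_lit 1292) (nat_lit 3822232027) (nat_lit 305) (nat_lit 5) (nat_lit 321) (nat_lit 5) (nat_lit 322) (nat_lit 5) (nat_lit 428) (nat_lit 401) (nat_lit 371)) (XT.lf (nat_lit 0) (nat_lit 6300018795) (nat_lit 1292) (nat_lit 1078774490) (nat_lit 76) (nat_lit 301094441) (nat_lit 305) (nat_lit 5) (nat_lit 322) (nat_lit 5) (nat_lit 306) (nat_lit 5) (nat_lit 429) (nat_lit 401) (nat_lit 370)))) (XT.nd (nat_lit 156) (nat_lit 684) (nat_lit 0) (XT.nd (nat_lit 78) (nat_lit 608) (nat_lit 0) (XT.lf (nat_lit 0) (nat_lit 1108584847) (nat_lit 912) (nat_lit 3791939205) (nat_lit 76) (nat_lit 2865213724) (nat_lit 293) (nat_lit 5) (nat_lit 305) (nat_lit 5) (nat_lit 294) (nat_lit 5) (nat_lit 430)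 (nat_lit 401) (nat_lit 369)) (XT.lf (nat_lit 0) (nat_lit 1292679747) (nat_lit 608) (nat_lit 2310487065) (nat_lit 684) (nat_lit 4251816806) (nat_lit 285) (nat_lit 5) (nat_lit 293) (nat_lit 5) (nat_lit 294) (nat_lit 5) (nat_lit 431) (nat_lit 401) (nat_lit 368))) (XT.nd (nat_lit 78) (nat_lit 684) (nat_lit 0) (XT.lf (nat_lit 0) (nat_lit 6151710122) (nat_lit 684) (nat_lit 1408248862) (nat_lit 76) (nat_lit 387580362) (nat_lit 285) (nat_lit 5) (nat_lit 294) (nat_lit 5) (nat_lit 286) (nat_lit 5) (nat_lit 432) (nat_lit 401) (nat_lit 367)) (XT.lf (nat_lit 0) (nat_lit 718618121) (nat_lit 684) (nat_lit 4160823415) (nat_lit 76) (nat_lit 3163251454) (nat_lit 276) (nat_lit 5) (nat_lit 285) (nat_lit 5) (nat_lit 277) (nat_lit 5) (nat_lit 433) (nat_lit 401) (nat_lit 366))))) (XT.nd (nat_lit 312) (nat_lit 1064) (nat_lit 0) (XT.nd (nat_lit 156) (nat_lit 1216) (nat_lit 0) (XT.nd (nat_lit 78) (nat_lit 0) (nat_lit 0) (XT.lf (nat_lit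 0) (nat_lit 1159084199) (nat_lit 532) (nat_lit 2078246536) (nat_lit 608) (nat_lit 4903895005) (nat_lit 269) (nat_lit 5) (nat_lit 276) (nat_lit 5) (nat_lit 277) (nat_lit 5) (nat_lit 434) (nat_lit 401) (nat_lit 365)) (XT.lf (nat_lit 0) (nat_lit 5822317404) (nat_lit 608) (nat_lit 1591748214) (nat_lit 76) (nat_lit 828933005) (nat_lit 269) (nat_lit 5) (nat_lit 277) (nat_lit 5) (nat_lit 270) (nat_lit 5) (nat_lit 435) (nat_lit 401) (nat_lit 364))) (XT.nd (nat_lit 78) (nat_lit 532) (nat_lit 0) (XT.lf (nat_lit 0) (nat_lit 135187372) (nat_lit 684) (nat_lit 4396296737) (nat_lit 76) (nat_lit 3816281311) (nat_lit 260) (nat_lit 5) (nat_lit 269) (nat_lit 5) (nat_lit 261) (nat_lit 5) (nat_lit 436) (nat_lit 401) (nat_lit 363)) (XT.lf (nat_lit 0) (nat_lit 1172576851) (nat_lit 532) (nat_lit 1516767410) (nat_lit 608) (nat_lit 5766509041) (nat_lit 253) (nat_lit 5) (nat_lit 260) (nat_lit 5) (nat_lit 261) (nat_lit 5) (nat_lit 437) (nat_lit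 401) (nat_lit 362)))) (XT.nd (nat_lit 156) (nat_lit 532) (nat_lit 0) (XT.nd (nat_lit 78) (nat_lit 532) (nat_lit 0) (XT.lf (nat_lit 0) (nat_lit 5323966831) (nat_lit 608) (nat_lit 1648502573) (nat_lit 76) (nat_lit 1594604101) (nat_lit 253) (nat_lit 5) (nat_lit 261) (nat_lit 5) (nat_lit 254) (nat_lit 5) (nat_lit 438) (nat_lit 401) (nat_lit 361)) (XT.lf (nat_lit 0) (nat_lit 4157761115) (nat_lit 532) (nat_lit 3880228945) (nat_lit 608) (nat_lit 643634166) (nat_lit 246) (nat_lit 5) (nat_lit 253) (nat_lit 5) (nat_lit 254) (nat_lit 5) (nat_lit 439) (nat_lit 401) (nat_lit 360))) (XT.nd (nat_lit 78) (nat_lit 0) (nat_lit 0) (XT.lf (nat_lit 0) (nat_lit 1314705561) (nat_lit 456) (nat_lit 654705826) (nat_lit 532) (nat_lit 6830359786) (nat_lit 239) (nat_lit 5) (nat_lit 245) (nat_lit 5) (nat_lit 246) (nat_lit 5) (nat_lit 440) (nat_lit 401) (nat_lit 359)) (XT.lf (nat_lit 0) (nat_lit 4666384172) (nat_lit 532) (nat_lit 1596393506)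 (nat_lit 76) (nat_lit 2657943870) (nat_lit 239) (nat_lit 5) (nat_lit 246) (nat_lit 5) (nat_lit 240) (nat_lit 5) (nat_lit 441) (nat_lit 401) (nat_lit 358)))))) (XT.nd (nat_lit 624) (nat_lit 1900) (nat_lit 0) (XT.nd (nat_lit 312) (nat_lit 1292) (nat_lit 0) (XT.nd (nat_lit 156) (nat_lit 456) (nat_lit 0) (XT.nd (nat_lit 78) (nat_lit 532) (nat_lit 0) (XT.lf (nat_lit 0) (nat_lit 4486905275) (nat_lit 456) (nat_lit 2955221928) (nat_lit 532) (nat_lit 1603241639) (nat_lit 233) (nat_lit 5) (nat_lit 239) (nat_lit 5) (nat_lit 240) (nat_lit 5) (nat_lit 442) (nat_lit 401) (nat_lit 357)) (XT.lf (nat_lit 0) (nat_lit 1090031266) (nat_lit 532) (nat_lit 7610429163) (nat_lit 76) (nat_lit 473434696) (nat_lit 226) (nat_lit 5) (nat_lit 233) (nat_lit 5) (nat_lit 227) (nat_lit 5) (nat_lit 443) (nat_lit 401) (nat_lit 356))) (XT.nd (nat_lit 78) (nat_lit 456) (nat_lit 0) (XT.lf (nat_lit 0) (nat_lit 3857044553) (nat_lit 532) (nat_lit 1452277712)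 (nat_lit 76) (nat_lit 3995727628) (nat_lit 226) (nat_lit 5) (nat_lit 233) (nat_lit 5) (nat_lit 227) (nat_lit 5) (nat_lit 444) (nat_lit 401) (nat_lit 355)) (XT.lf (nat_lit 0) (nat_lit 4924291653) (nat_lit 456) (nat_lit 1781003963) (nat_lit 532) (nat_lit 2734900632) (nat_lit 220) (nat_lit 5) (nat_lit 226) (nat_lit 5) (nat_lit 227) (nat_lit 5) (nat_lit 445) (nat_lit 401) (nat_lit 354)))) (XT.nd (nat_lit 156) (nat_lit 836) (nat_lit 0) (XT.nd (nat_lit 78) (nat_lit 0) (nat_lit 0) (XT.lf (nat_lit 0) (nat_lit 60931269) (nat_lit 456) (nat_lit 7680983258) (nat_lit 76) (nat_lit 1837393921) (nat_lit 214) (nat_lit 5) (nat_lit 220) (nat_lit 5) (nat_lit 215) (nat_lit 5) (nat_lit 446) (nat_lit 401) (nat_lit 353)) (XT.lf (nat_lit 0) (nat_lit 2901288717) (nat_lit 456) (nat_lit 1232304170) (nat_lit 76) (nat_lit 5587723646) (nat_lit 214) (nat_lit 5) (nat_lit 220) (nat_lit 5) (nat_lit 215) (nat_lit 5) (nat_lit 447) (nat_lit 401) (nat_lit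 352))) (XT.nd (nat_lit 78) (nat_lit 380) (nat_lit 0) (XT.lf (nat_lit 0) (nat_lit 5454655590) (nat_lit 456) (nat_lit 377967206) (nat_lit 532) (nat_lit 4034792432) (nat_lit 208) (nat_lit 5) (nat_lit 214) (nat_lit 5) (nat_lit 215) (nat_lit 5) (nat_lit 448) (nat_lit 401) (nat_lit 351)) (XT.lf (nat_lit 0) (nat_lit 2298896679) (nat_lit 380) (nat_lit 6575176648) (nat_lit 456) (nat_lit 1143161514) (nat_lit 203) (nat_lit 5) (nat_lit 208) (nat_lit 5) (nat_lit 209) (nat_lit 5) (nat_lit 449) (nat_lit 401) (nat_lit 350))))) (XT.nd (nat_lit 312) (nat_lit 1064) (nat_lit 0) (XT.nd (nat_lit 156) (nat_lit 380) (nat_lit 0) (XT.nd (nat_lit 78) (nat_lit 380) (nat_lit 0) (XT.lf (nat_lit 0) (nat_lit 1802407004) (nat_lit 456) (nat_lit 952230436) (nat_lit 76) (nat_lit 7416295415) (nat_lit 202) (nat_lit 5) (nat_lit 208) (nat_lit 5) (nat_lit 203) (nat_lit 5) (nat_lit 450) (nat_lit 401) (nat_lit 349)) (XT.lf (nat_lit 0) (nat_lit 4839117778)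 (nat_lit 456) (nat_lit 4277245212) (nat_lit 76) (nat_lit 1211769692) (nat_lit 197) (nat_lit 5) (nat_lit 203) (nat_lit 5) (nat_lit 198) (nat_lit 5) (nat_lit 451) (nat_lit 401) (nat_lit 348))) (XT.nd (nat_lit 78) (nat_lit 76) (nat_lit 0) (XT.lf (nat_lit 0) (nat_lit 2759036759) (nat_lit 304) (nat_lit 5227545650) (nat_lit 380) (nat_lit 2502879405) (nat_lit 193) (nat_lit 5) (nat_lit 197) (nat_lit 5) (nat_lit 198) (nat_lit 5) (nat_lit 452) (nat_lit 401) (nat_lit 347)) (XT.lf (nat_lit 0) (nat_lit 561691715) (nat_lit 380) (nat_lit 627743832) (nat_lit 76) (nat_lit 9466031907) (nat_lit 192) (nat_lit 5) (nat_lit 197) (nat_lit 5) (nat_lit 193) (nat_lit 5) (nat_lit 453) (nat_lit 401) (nat_lit 346)))) (XT.nd (nat_lit 156) (nat_lit 380) (nat_lit 0) (XT.nd (nat_lit 78) (nat_lit 304) (nat_lit 0) (XT.lf (nat_lit 0) (nat_lit 3719580694) (nat_lit 456) (nat_lit 4119415506) (nat_lit 76) (nat_lit 2985165692) (nat_lit 187) (nat_lit 5)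 (nat_lit 193) (nat_lit 5) (nat_lit 188) (nat_lit 5) (nat_lit 454) (nat_lit 401) (nat_lit 345)) (XT.lf (nat_lit 0) (nat_lit 3263938354) (nat_lit 304) (nat_lit 3715996456) (nat_lit 380) (nat_lit 4017753062) (nat_lit 183) (nat_lit 5) (nat_lit 187) (nat_lit 5) (nat_lit 188) (nat_lit 5) (nat_lit 455) (nat_lit 401) (nat_lit 344))) (XT.nd (nat_lit 78) (nat_lit 380) (nat_lit 0) (XT.lf (nat_lit 0) (nat_lit 10343852727) (nat_lit 380) (nat_lit 288183303) (nat_lit 76) (nat_lit 544213498) (nat_lit 183) (nat_lit 5) (nat_lit 188) (nat_lit 5) (nat_lit 184) (nat_lit 5) (nat_lit 456) (nat_lit 401) (nat_lit 343)) (XT.lf (nat_lit 0) (nat_lit 2469472269) (nat_lit 380) (nat_lit 3952361913) (nat_lit 76) (nat_lit 4935568151) (nat_lit 178) (nat_lit 5) (nat_lit 183) (nat_lit 5) (nat_lit 179) (nat_lit 5) (nat_lit 457) (nat_lit 401) (nat_lit 342))))))))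
noncomputable def xc99 : XT := (XT.nd (nat_lit 2418) (nat_lit 3192) (nat_lit 0) (XT.nd (nat_lit 1170) (nat_lit 2432) (nat_lit 0) (XT.nd (nat_lit 546) (nat_lit 1368) (nat_lit 0) (XT.nd (nat_lit 234) (nat_lit 912) (nat_lit 0) (XT.nd (nat_lit 78) (nat_lit 380) (nat_lit 0) (XT.lf (nat_lit 0) (nat_lit 3797717425) (nat_lit 304) (nat_lit 2055455486) (nat_lit 380) (nat_lit 5690586668) (nat_lit 174) (nat_lit 5) (nat_lit 178) (nat_lit 5) (nat_lit 179) (nat_lit 5) (nat_lit 458) (nat_lit 401) (nat_lit 341)) (XT.nd (nat_lit 78) (nat_lit 76) (nat_lit 0) (XT.lf (nat_lit 0) (nat_lit 44200443) (nat_lit 304) (nat_lit 9318864149) (nat_lit 380) (nat_lit 2371904761) (nat_lit 170) (nat_lit 5) (nat_lit 174) (nat_lit 5) (nat_lit 175) (nat_lit 5) (nat_lit 459) (nat_lit 401) (nat_lit 340)) (XT.lf (nat_lit 0) (nat_lit 1085937041) (nat_lit 380) (nat_lit 3793618437) (nat_lit 76) (nat_lit 7050259769) (nat_lit 169) (nat_lit 5) (nat_lit 174)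 (nat_lit 5) (nat_lit 170) (nat_lit 5) (nat_lit 460) (nat_lit 401) (nat_lit 339)))) (XT.nd (nat_lit 156) (nat_lit 304) (nat_lit 0) (XT.nd (nat_lit 78) (nat_lit 304) (nat_lit 0) (XT.lf (nat_lit 0) (nat_lit 4343661995) (nat_lit 304) (nat_lit 259750499) (nat_lit 380) (nat_lit 7526284382) (nat_lit 165) (nat_lit 5) (nat_lit 169) (nat_lit 5) (nat_lit 170) (nat_lit 5) (nat_lit 461) (nat_lit 401) (nat_lit 338)) (XT.lf (nat_lit 0) (nat_lit 373637257) (nat_lit 304) (nat_lit 7900483623) (nat_lit 380) (nat_lit 4060024781) (nat_lit 161) (nat_lit 5) (nat_lit 165) (nat_lit 5) (nat_lit 166) (nat_lit 5) (nat_lit 462) (nat_lit 401) (nat_lit 337))) (XT.nd (nat_lit 78) (nat_lit 304) (nat_lit 0) (XT.lf (nat_lit 0) (nat_lit 8877224241) (nat_lit 304) (nat_lit 3221627625) (nat_lit 380) (nat_lit 444560910) (nat_lit 161) (nat_lit 5) (nat_lit 165) (nat_lit 5) (nat_lit 166) (nat_lit 5) (nat_lit 463) (nat_lit 401) (nat_lit 336)) (XT.lf (nat_lit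 0) (nat_lit 3241715845) (nat_lit 304) (nat_lit 7889803625) (nat_lit 76) (nat_lit 1625704299) (nat_lit 157) (nat_lit 5) (nat_lit 161) (nat_lit 5) (nat_lit 158) (nat_lit 5) (nat_lit 464) (nat_lit 401) (nat_lit 335))))) (XT.nd (nat_lit 312) (nat_lit 532) (nat_lit 0) (XT.nd (nat_lit 156) (nat_lit 532) (nat_lit 0) (XT.nd (nat_lit 78) (nat_lit 0) (nat_lit 0) (XT.lf (nat_lit 0) (nat_lit 675129203) (nat_lit 304) (nat_lit 6394075303) (nat_lit 380) (nat_lit 5906927518) (nat_lit 153) (nat_lit 5) (nat_lit 157) (nat_lit 5) (nat_lit 158) (nat_lit 5) (nat_lit 465) (nat_lit 401) (nat_lit 334)) (XT.lf (nat_lit 0) (nat_lit 9602072891) (nat_lit 304) (nat_lit 1453410486) (nat_lit 380) (nat_lit 2144806879) (nat_lit 153) (nat_lit 5) (nat_lit 157) (nat_lit 5) (nat_lit 158) (nat_lit 5) (nat_lit 466) (nat_lit 401) (nat_lit 333))) (XT.nd (nat_lit 78) (nat_lit 228) (nat_lit 0) (XT.lf (nat_lit 0) (nat_lit 1748725478) (nat_lit 304) (nat_lit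 8066946131) (nat_lit 76) (nat_lit 3613434976) (nat_lit 149) (nat_lit 5) (nat_lit 153) (nat_lit 5) (nat_lit 150) (nat_lit 5) (nat_lit 467) (nat_lit 401) (nat_lit 332)) (XT.lf (nat_lit 0) (nat_lit 927515085) (nat_lit 228) (nat_lit 4813720990) (nat_lit 304) (nat_lit 7922157387) (nat_lit 146) (nat_lit 5) (nat_lit 149) (nat_lit 5) (nat_lit 150) (nat_lit 5) (nat_lit 468) (nat_lit 401) (nat_lit 331)))) (XT.nd (nat_lit 156) (nat_lit 228) (nat_lit 0) (XT.nd (nat_lit 78) (nat_lit 304) (nat_lit 0) (XT.lf (nat_lit 0) (nat_lit 9904594881) (nat_lit 304) (nat_lit 3605435132) (nat_lit 76) (nat_lit 393148252) (nat_lit 146) (nat_lit 5) (nat_lit 150) (nat_lit 5) (nat_lit 147) (nat_lit 5) (nat_lit 469) (nat_lit 401) (nat_lit 330)) (XT.lf (nat_lit 0) (nat_lit 112624168) (nat_lit 304) (nat_lit 8339172468) (nat_lit 76) (nat_lit 5696226296) (nat_lit 142) (nat_lit 5) (nat_lit 146) (nat_lit 5) (nat_lit 143) (nat_lit 5) (nat_lit 470) (nat_lit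 401) (nat_lit 329))) (XT.nd (nat_lit 78) (nat_lit 0) (nat_lit 0) (XT.lf (nat_lit 0) (nat_lit 1107231945) (nat_lit 228) (nat_lit 3173663476) (nat_lit 304) (nat_lit 10117708349) (nat_lit 139) (nat_lit 5) (nat_lit 142) (nat_lit 5) (nat_lit 143) (nat_lit 5) (nat_lit 471) (nat_lit 401) (nat_lit 328)) (XT.lf (nat_lit 0) (nat_lit 8647936341) (nat_lit 304) (nat_lit 3723808168) (nat_lit 76) (nat_lit 2282747215) (nat_lit 139) (nat_lit 5) (nat_lit 143) (nat_lit 5) (nat_lit 140) (nat_lit 5) (nat_lit 472) (nat_lit 401) (nat_lit 327)))))) (XT.nd (nat_lit 624) (nat_lit 1064) (nat_lit 0) (XT.nd (nat_lit 312) (nat_lit 684) (nat_lit 0) (XT.nd (nat_lit 156) (nat_lit 152) (nat_lit 0) (XT.nd (nat_lit 78) (nat_lit 304) (nat_lit 0) (XT.lf (nat_lit 0) (nat_lit 6166268166) (nat_lit 228) (nat_lit 7038306903) (nat_lit 304) (nat_lit 1711724950) (nat_lit 136) (nat_lit 5) (nat_lit 139) (nat_lit 5) (nat_lit 140) (nat_lit 5) (nat_lit 473) (nat_lit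 401) (nat_lit 326)) (XT.lf (nat_lit 0) (nat_lit 1187750528) (nat_lit 228) (nat_lit 1488674881) (nat_lit 304) (nat_lit 12508234463) (nat_lit 132) (nat_lit 5) (nat_lit 135) (nat_lit 5) (nat_lit 136) (nat_lit 5) (nat_lit 474) (nat_lit 401) (nat_lit 325))) (XT.nd (nat_lit 78) (nat_lit 152) (nat_lit 0) (XT.lf (nat_lit 0) (nat_lit 7259904606) (nat_lit 304) (nat_lit 3967595597) (nat_lit 76) (nat_lit 4230120426) (nat_lit 132) (nat_lit 5) (nat_lit 136) (nat_lit 5) (nat_lit 133) (nat_lit 5) (nat_lit 475) (nat_lit 401) (nat_lit 324)) (XT.lf (nat_lit 0) (nat_lit 6420970117) (nat_lit 152) (nat_lit 5605523887) (nat_lit 228) (nat_lit 3710909184) (nat_lit 130) (nat_lit 5) (nat_lit 132) (nat_lit 5) (nat_lit 133) (nat_lit 5) (nat_lit 476) (nat_lit 401) (nat_lit 323)))) (XT.nd (nat_lit 156) (nat_lit 380) (nat_lit 0) (XT.nd (nat_lit 78) (nat_lit 0) (nat_lit 0) (XT.lf (nat_lit 0) (nat_lit 915556144) (nat_lit 304) (nat_lit 14887929064)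 (nat_lit 76) (nat_lit 221147890) (nat_lit 126) (nat_lit 5) (nat_lit 130) (nat_lit 5) (nat_lit 127) (nat_lit 5) (nat_lit 477) (nat_lit 401) (nat_lit 322)) (XT.lf (nat_lit 0) (nat_lit 5726175085) (nat_lit 304) (nat_lit 4368897229) (nat_lit 76) (nat_lit 6220708041) (nat_lit 126) (nat_lit 5) (nat_lit 130) (nat_lit 5) (nat_lit 127) (nat_lit 5) (nat_lit 478) (nat_lit 401) (nat_lit 321))) (XT.nd (nat_lit 78) (nat_lit 228) (nat_lit 0) (XT.lf (nat_lit 0) (nat_lit 6542421002) (nat_lit 152) (nat_lit 4171907410) (nat_lit 228) (nat_lit 5900338169) (nat_lit 124) (nat_lit 5) (nat_lit 126) (nat_lit 5) (nat_lit 127) (nat_lit 5) (nat_lit 479) (nat_lit 401) (nat_lit 320)) (XT.lf (nat_lit 0) (nat_lit 896834711) (nat_lit 228) (nat_lit 14997510939) (nat_lit 304) (nat_lit 1026908161) (nat_lit 121) (nat_lit 5) (nat_lit 124) (nat_lit 5) (nat_lit 125) (nat_lit 5) (nat_lit 480) (nat_lit 401) (nat_lit 319))))) (XT.nd (nat_lit 312) (nat_lit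 532) (nat_lit 0) (XT.nd (nat_lit 156) (nat_lit 304) (nat_lit 0) (XT.nd (nat_lit 78) (nat_lit 152) (nat_lit 0) (XT.lf (nat_lit 0) (nat_lit 4029420488) (nat_lit 304) (nat_lit 4964435146) (nat_lit 76) (nat_lit 8238594301) (nat_lit 120) (nat_lit 5) (nat_lit 124) (nat_lit 5) (nat_lit 121) (nat_lit 5) (nat_lit 481) (nat_lit 401) (nat_lit 318)) (XT.lf (nat_lit 0) (nat_lit 6494184686) (nat_lit 152) (nat_lit 2756482501) (nat_lit 228) (nat_lit 8300994605) (nat_lit 118) (nat_lit 5) (nat_lit 120) (nat_lit 5) (nat_lit 121) (nat_lit 5) (nat_lit 482) (nat_lit 401) (nat_lit 317))) (XT.nd (nat_lit 78) (nat_lit 76) (nat_lit 0) (XT.lf (nat_lit 0) (nat_lit 442381651) (nat_lit 228) (nat_lit 14247906940) (nat_lit 304) (nat_lit 3188310178) (nat_lit 115) (nat_lit 5) (nat_lit 118) (nat_lit 5) (nat_lit 119) (nat_lit 5) (nat_lit 483) (nat_lit 401) (nat_lit 316)) (XT.lf (nat_lit 0) (nat_lit 2148938773) (nat_lit 304) (nat_lit 5796414560) (nat_lit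 76) (nat_lit 10266040323) (nat_lit 114) (nat_lit 5) (nat_lit 118) (nat_lit 5) (nat_lit 115) (nat_lit 5) (nat_lit 484) (nat_lit 401) (nat_lit 315)))) (XT.nd (nat_lit 156) (nat_lit 380) (nat_lit 0) (XT.nd (nat_lit 78) (nat_lit 0) (nat_lit 0) (XT.lf (nat_lit 0) (nat_lit 6234166673) (nat_lit 152) (nat_lit 1380480545) (nat_lit 228) (nat_lit 10937606243) (nat_lit 112) (nat_lit 5) (nat_lit 114) (nat_lit 5) (nat_lit 115) (nat_lit 5) (nat_lit 485) (nat_lit 401) (nat_lit 314)) (XT.lf (nat_lit 0) (nat_lit 13327803759) (nat_lit 228) (nat_lit 258043877) (nat_lit 76) (nat_lit 5314987904) (nat_lit 112) (nat_lit 5) (nat_lit 115) (nat_lit 5) (nat_lit 113) (nat_lit 5) (nat_lit 486) (nat_lit 401) (nat_lit 313))) (XT.nd (nat_lit 78) (nat_lit 152) (nat_lit 0) (XT.lf (nat_lit 0) (nat_lit 60210841) (nat_lit 228) (nat_lit 6913511631) (nat_lit 76) (nat_lit 12282962945) (nat_lit 109) (nat_lit 5) (nat_lit 112) (nat_lit 5) (nat_lit 110) (nat_lit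 5) (nat_lit 487) (nat_lit 401) (nat_lit 312)) (XT.lf (nat_lit 0) (nat_lit 5713586055) (nat_lit 152) (nat_lit 67903227) (nat_lit 228) (nat_lit 13839135343) (nat_lit 107) (nat_lit 5) (nat_lit 109) (nat_lit 5) (nat_lit 110) (nat_lit 5) (nat_lit 488) (nat_lit 401) (nat_lit 311))))))) (XT.nd (nat_lit 1248) (nat_lit 1444) (nat_lit 0) (XT.nd (nat_lit 624) (nat_lit 836) (nat_lit 0) (XT.nd (nat_lit 312) (nat_lit 532) (nat_lit 0) (XT.nd (nat_lit 156) (nat_lit 228) (nat_lit 0) (XT.nd (nat_lit 78) (nat_lit 152) (nat_lit 0) (XT.lf (nat_lit 0) (nat_lit 11786252276) (nat_lit 228) (nat_lit 1247995047) (nat_lit 76) (nat_lit 6957879999) (nat_lit 107) (nat_lit 5) (nat_lit 110) (nat_lit 5) (nat_lit 108) (nat_lit 5) (nat_lit 489) (nat_lit 401) (nat_lit 310)) (XT.lf (nat_lit 0) (nat_lit 11977847971) (nat_lit 152) (nat_lit 6083509586) (nat_lit 228) (nat_lit 2310712239) (nat_lit 105) (nat_lit 5) (nat_lit 107) (nat_lit 5) (nat_lit 108)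 (nat_lit 5) (nat_lit 490) (nat_lit 401) (nat_lit 309))) (XT.nd (nat_lit 78) (nat_lit 0) (nat_lit 0) (XT.lf (nat_lit 0) (nat_lit 3733041771) (nat_lit 228) (nat_lit 15896605102) (nat_lit 76) (nat_lit 1131325644) (nat_lit 102) (nat_lit 5) (nat_lit 105) (nat_lit 5) (nat_lit 103) (nat_lit 5) (nat_lit 491) (nat_lit 401) (nat_lit 308)) (XT.lf (nat_lit 0) (nat_lit 10032057567) (nat_lit 228) (nat_lit 2596360751) (nat_lit 76) (nat_lit 8528826506) (nat_lit 102) (nat_lit 5) (nat_lit 105) (nat_lit 5) (nat_lit 103) (nat_lit 5) (nat_lit 492) (nat_lit 401) (nat_lit 307)))) (XT.nd (nat_lit 156) (nat_lit 152) (nat_lit 0) (XT.nd (nat_lit 78) (nat_lit 228) (nat_lit 0) (XT.lf (nat_lit 0) (nat_lit 11278114486) (nat_lit 152) (nat_lit 5325637589) (nat_lit 228) (nat_lit 4959142580) (nat_lit 100) (nat_lit 5) (nat_lit 102) (nat_lit 5) (nat_lit 103) (nat_lit 5) (nat_lit 493) (nat_lit 401) (nat_lit 306)) (XT.lf (nat_lit 0) (nat_lit 1423339333)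 (nat_lit 228) (nat_lit 18345967943) (nat_lit 76) (nat_lit 2209247387) (nat_lit 97) (nat_lit 5) (nat_lit 100) (nat_lit 5) (nat_lit 98) (nat_lit 5) (nat_lit 494) (nat_lit 401) (nat_lit 305))) (XT.nd (nat_lit 78) (nat_lit 152) (nat_lit 0) (XT.lf (nat_lit 0) (nat_lit 8030679181) (nat_lit 228) (nat_lit 4373126583) (nat_lit 76) (nat_lit 9997414527) (nat_lit 97) (nat_lit 5) (nat_lit 100) (nat_lit 5) (nat_lit 98) (nat_lit 5) (nat_lit 495) (nat_lit 401) (nat_lit 304)) (XT.lf (nat_lit 0) (nat_lit 10173734437) (nat_lit 152) (nat_lit 4736460028) (nat_lit 228) (nat_lit 7924153301) (nat_lit 95) (nat_lit 5) (nat_lit 97) (nat_lit 5) (nat_lit 98) (nat_lit 5) (nat_lit 496) (nat_lit 401) (nat_lit 303))))) (XT.nd (nat_lit 312) (nat_lit 456) (nat_lit 0) (XT.nd (nat_lit 156) (nat_lit 152) (nat_lit 0) (XT.nd (nat_lit 78) (nat_lit 76) (nat_lit 0) (XT.lf (nat_lit 0) (nat_lit 1930570987) (nat_lit 152) (nat_lit 20135312070) (nat_lit 228)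 (nat_lit 1212492892) (nat_lit 93) (nat_lit 5) (nat_lit 95) (nat_lit 5) (nat_lit 96) (nat_lit 4) (nat_lit 497) (nat_lit 401) (nat_lit 302)) (XT.lf (nat_lit 0) (nat_lit 5741578890) (nat_lit 228) (nat_lit 6659651457) (nat_lit 76) (nat_lit 11328282239) (nat_lit 92) (nat_lit 5) (nat_lit 95) (nat_lit 5) (nat_lit 93) (nat_lit 5) (nat_lit 498) (nat_lit 401) (nat_lit 301))) (XT.nd (nat_lit 78) (nat_lit 0) (nat_lit 0) (XT.lf (nat_lit 0) (nat_lit 8582060556) (nat_lit 152) (nat_lit 4357319312) (nat_lit 228) (nat_lit 11252659476) (nat_lit 90) (nat_lit 5) (nat_lit 92) (nat_lit 5) (nat_lit 93) (nat_lit 5) (nat_lit 499) (nat_lit 401) (nat_lit 300)) (XT.lf (nat_lit 0) (nat_lit 20435847730) (nat_lit 228) (nat_lit 329935261) (nat_lit 76) (nat_lit 3900177389) (nat_lit 90) (nat_lit 5) (nat_lit 93) (nat_lit 5) (nat_lit 91) (nat_lit 4) (nat_lit 500) (nat_lit 401) (nat_lit 299)))) (XT.nd (nat_lit 156) (nat_lit 152) (nat_lit 0) (XT.nd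 (nat_lit 78) (nat_lit 152) (nat_lit 0) (XT.lf (nat_lit 0) (nat_lit 3117307921) (nat_lit 152) (nat_lit 9550569314) (nat_lit 76) (nat_lit 12480172250) (nat_lit 88) (nat_lit 5) (nat_lit 90) (nat_lit 5) (nat_lit 89) (nat_lit 5) (nat_lit 501) (nat_lit 401) (nat_lit 298)) (XT.lf (nat_lit 0) (nat_lit 6406658382) (nat_lit 152) (nat_lit 4236185686) (nat_lit 228) (nat_lit 14999219727) (nat_lit 86) (nat_lit 5) (nat_lit 88) (nat_lit 5) (nat_lit 89) (nat_lit 5) (nat_lit 502) (nat_lit 401) (nat_lit 297))) (XT.nd (nat_lit 78) (nat_lit 152) (nat_lit 0) (XT.lf (nat_lit 0) (nat_lit 18512139482) (nat_lit 228) (nat_lit 3194835406) (nat_lit 76) (nat_lit 4440384262) (nat_lit 86) (nat_lit 5) (nat_lit 89) (nat_lit 5) (nat_lit 87) (nat_lit 4) (nat_lit 503) (nat_lit 401) (nat_lit 296)) (XT.lf (nat_lit 0) (nat_lit 102442628) (nat_lit 152) (nat_lit 13155990290) (nat_lit 76) (nat_lit 13404842518) (nat_lit 84) (nat_lit 5) (nat_lit 86) (nat_lit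 5) (nat_lit 85) (nat_lit 5) (nat_lit 504) (nat_lit 401) (nat_lit 295)))))) (XT.nd (nat_lit 624) (nat_lit 684) (nat_lit 0) (XT.nd (nat_lit 312) (nat_lit 456) (nat_lit 0) (XT.nd (nat_lit 156) (nat_lit 152) (nat_lit 0) (XT.nd (nat_lit 78) (nat_lit 0) (nat_lit 0) (XT.lf (nat_lit 0) (nat_lit 3535005297) (nat_lit 152) (nat_lit 4428843642) (nat_lit 228) (nat_lit 19227200525) (nat_lit 82) (nat_lit 5) (nat_lit 84) (nat_lit 5) (nat_lit 85) (nat_lit 5) (nat_lit 505) (nat_lit 401) (nat_lit 294)) (XT.lf (nat_lit 0) (nat_lit 16218686810) (nat_lit 228) (nat_lit 6820801396) (nat_lit 76) (nat_lit 4690441191) (nat_lit 82) (nat_lit 5) (nat_lit 85) (nat_lit 5) (nat_lit 83) (nat_lit 4) (nat_lit 506) (nat_lit 401) (nat_lit 293))) (XT.nd (nat_lit 78) (nat_lit 76) (nat_lit 0) (XT.lf (nat_lit 0) (nat_lit 10644149003) (nat_lit 76) (nat_lit 14202388236) (nat_lit 152) (nat_lit 3434677820) (nat_lit 81) (nat_lit 5) (nat_lit 82) (nat_lit 5)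 (nat_lit 83) (nat_lit 4) (nat_lit 507) (nat_lit 401) (nat_lit 292)) (XT.lf (nat_lit 0) (nat_lit 4837662644) (nat_lit 152) (nat_lit 160971814) (nat_lit 76) (nat_lit 23847533070) (nat_lit 80) (nat_lit 5) (nat_lit 82) (nat_lit 5) (nat_lit 81) (nat_lit 5) (nat_lit 508) (nat_lit 401) (nat_lit 291)))) (XT.nd (nat_lit 156) (nat_lit 228) (nat_lit 0) (XT.nd (nat_lit 78) (nat_lit 76) (nat_lit 0) (XT.lf (nat_lit 0) (nat_lit 13488127473) (nat_lit 228) (nat_lit 11346482634) (nat_lit 76) (nat_lit 4586468954) (nat_lit 78) (nat_lit 5) (nat_lit 81) (nat_lit 5) (nat_lit 79) (nat_lit 4) (nat_lit 509) (nat_lit 401) (nat_lit 290)) (XT.lf (nat_lit 0) (nat_lit 6894219579) (nat_lit 76) (nat_lit 15601178192) (nat_lit 152) (nat_lit 7514921736) (nat_lit 77) (nat_lit 5) (nat_lit 78) (nat_lit 5) (nat_lit 79) (nat_lit 4) (nat_lit 510) (nat_lit 401) (nat_lit 289))) (XT.nd (nat_lit 78) (nat_lit 152) (nat_lit 0) (XT.lf (nat_lit 0) (nat_lit 1228722327)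 (nat_lit 152) (nat_lit 4749480807) (nat_lit 76) (nat_lit 24635832341) (nat_lit 76) (nat_lit 5) (nat_lit 78) (nat_lit 5) (nat_lit 77) (nat_lit 5) (nat_lit 511) (nat_lit 401) (nat_lit 288)) (XT.lf (nat_lit 0) (nat_lit 10241684538) (nat_lit 228) (nat_lit 16933398506) (nat_lit 76) (nat_lit 4053806471) (nat_lit 74) (nat_lit 5) (nat_lit 77) (nat_lit 5) (nat_lit 75) (nat_lit 4) (nat_lit 512) (nat_lit 401) (nat_lit 287))))) (XT.nd (nat_lit 312) (nat_lit 380) (nat_lit 0) (XT.nd (nat_lit 156) (nat_lit 228) (nat_lit 0) (XT.nd (nat_lit 78) (nat_lit 0) (nat_lit 0) (XT.lf (nat_lit 0) (nat_lit 2092479408) (nat_lit 76) (nat_lit 17540841355) (nat_lit 152) (nat_lit 12225620137) (nat_lit 73) (nat_lit 5) (nat_lit 74) (nat_lit 5) (nat_lit 75) (nat_lit 4) (nat_lit 513) (nat_lit 401) (nat_lit 286)) (XT.lf (nat_lit 0) (nat_lit 21999506806) (nat_lit 76) (nat_lit 7458952340) (nat_lit 152) (nat_lit 3044882361) (nat_lit 73) (nat_lit 5) (nat_lit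 74) (nat_lit 5) (nat_lit 75) (nat_lit 4) (nat_lit 514) (nat_lit 401) (nat_lit 285))) (XT.nd (nat_lit 78) (nat_lit 0) (nat_lit 0) (XT.lf (nat_lit 0) (nat_lit 6387345414) (nat_lit 228) (nat_lit 23769671215) (nat_lit 76) (nat_lit 3005173634) (nat_lit 70) (nat_lit 5) (nat_lit 73) (nat_lit 5) (nat_lit 71) (nat_lit 4) (nat_lit 515) (nat_lit 401) (nat_lit 284)) (XT.lf (nat_lit 0) (nat_lit 16203486958) (nat_lit 228) (nat_lit 3877682485) (nat_lit 76) (nat_lit 13753866487) (nat_lit 70) (nat_lit 5) (nat_lit 73) (nat_lit 5) (nat_lit 71) (nat_lit 4) (nat_lit 516) (nat_lit 401) (nat_lit 283)))) (XT.nd (nat_lit 156) (nat_lit 76) (nat_lit 0) (XT.nd (nat_lit 78) (nat_lit 228) (nat_lit 0) (XT.lf (nat_lit 0) (nat_lit 16905919316) (nat_lit 76) (nat_lit 9552428447) (nat_lit 152) (nat_lit 8065392394) (nat_lit 69) (nat_lit 5) (nat_lit 70) (nat_lit 5) (nat_lit 71) (nat_lit 4) (nat_lit 517) (nat_lit 401) (nat_lit 282)) (XT.lf (nat_lit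 0) (nat_lit 1817745766) (nat_lit 228) (nat_lit 32074353583) (nat_lit 76) (nat_lit 1338544372) (nat_lit 66) (nat_lit 5) (nat_lit 69) (nat_lit 5) (nat_lit 67) (nat_lit 4) (nat_lit 518) (nat_lit 401) (nat_lit 281))) (XT.nd (nat_lit 78) (nat_lit 76) (nat_lit 0) (XT.lf (nat_lit 0) (nat_lit 12091299396) (nat_lit 228) (nat_lit 11249940051) (nat_lit 76) (nat_lit 12607438671) (nat_lit 66) (nat_lit 5) (nat_lit 69) (nat_lit 5) (nat_lit 67) (nat_lit 4) (nat_lit 519) (nat_lit 401) (nat_lit 280)) (XT.lf (nat_lit 0) (nat_lit 10367434185) (nat_lit 76) (nat_lit 12387596524) (nat_lit 152) (nat_lit 13930763922) (nat_lit 65) (nat_lit 5) (nat_lit 66) (nat_lit 5) (nat_lit 67) (nat_lit 4) (nat_lit 520) (nat_lit 401) (nat_lit 279))))))))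
noncomputable def xc100 : XT := (XT.nd (nat_lit 2418) (nat_lit 152) (nat_lit 0) (XT.nd (nat_lit 1170) (nat_lit 988) (nat_lit 0) (XT.nd (nat_lit 546) (nat_lit 456) (nat_lit 0) (XT.nd (nat_lit 234) (nat_lit 228) (nat_lit 0) (XT.nd (nat_lit 78) (nat_lit 228) (nat_lit 0) (XT.lf (nat_lit 0) (nat_lit 32830198800) (nat_lit 76) (nat_lit 1004581242) (nat_lit 152) (nat_lit 3607361621) (nat_lit 65) (nat_lit 5) (nat_lit 66) (nat_lit 5) (nat_lit 67) (nat_lit 4) (nat_lit 521) (nat_lit 401) (nat_lit 278)) (XT.nd (nat_lit 78) (nat_lit 76) (nat_lit 0) (XT.lf (nat_lit 0) (nat_lit 7149755271) (nat_lit 152) (nat_lit 20323552987) (nat_lit 76) (nat_lit 10738011671) (nat_lit 63) (nat_lit 5) (nat_lit 65) (nat_lit 5) (nat_lit 64) (nat_lit 4) (nat_lit 522) (nat_lit 401) (nat_lit 277)) (XT.lf (nat_lit 0) (nat_lit 2116880816) (nat_lit 76) (nat_lit 16100405837) (nat_lit 152) (nat_lit 20783409424) (nat_lit 62) (nat_lit 5) (nat_lit 63) (nat_lit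 5) (nat_lit 64) (nat_lit 4) (nat_lit 523) (nat_lit 401) (nat_lit 276)))) (XT.nd (nat_lit 156) (nat_lit 76) (nat_lit 0) (XT.nd (nat_lit 78) (nat_lit 152) (nat_lit 0) (XT.lf (nat_lit 0) (nat_lit 25614330197) (nat_lit 76) (nat_lit 4190802726) (nat_lit 152) (nat_lit 10002972104) (nat_lit 62) (nat_lit 5) (nat_lit 63) (nat_lit 5) (nat_lit 64) (nat_lit 4) (nat_lit 524) (nat_lit 401) (nat_lit 275)) (XT.lf (nat_lit 0) (nat_lit 1230812472) (nat_lit 152) (nat_lit 31399717127) (nat_lit 76) (nat_lit 8004346863) (nat_lit 60) (nat_lit 5) (nat_lit 62) (nat_lit 5) (nat_lit 61) (nat_lit 4) (nat_lit 525) (nat_lit 401) (nat_lit 274))) (XT.nd (nat_lit 78) (nat_lit 76) (nat_lit 0) (XT.lf (nat_lit 0) (nat_lit 12770222513) (nat_lit 152) (nat_lit 7998397280) (nat_lit 76) (nat_lit 20709770384) (nat_lit 60) (nat_lit 5) (nat_lit 62) (nat_lit 5) (nat_lit 61) (nat_lit 4) (nat_lit 526) (nat_lit 401) (nat_lit 273)) (XT.lf (nat_lit 0) (nat_lit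 16393583729) (nat_lit 76) (nat_lit 8403719455) (nat_lit 152) (nat_lit 17545661633) (nat_lit 59) (nat_lit 5) (nat_lit 60) (nat_lit 5) (nat_lit 61) (nat_lit 4) (nat_lit 527) (nat_lit 401) (nat_lit 272))))) (XT.nd (nat_lit 312) (nat_lit 228) (nat_lit 0) (XT.nd (nat_lit 156) (nat_lit 76) (nat_lit 0) (XT.nd (nat_lit 78) (nat_lit 152) (nat_lit 0) (XT.lf (nat_lit 0) (nat_lit 37292336857) (nat_lit 152) (nat_lit 1623515915) (nat_lit 0) (nat_lit 4314409868) (nat_lit 59) (nat_lit 5) (nat_lit 61) (nat_lit 4) (nat_lit 59) (nat_lit 4) (nat_lit 528) (nat_lit 401) (nat_lit 271)) (XT.lf (nat_lit 0) (nat_lit 6199757082) (nat_lit 152) (nat_lit 20413461736) (nat_lit 76) (nat_lit 17520250796) (nat_lit 57) (nat_lit 5) (nat_lit 59) (nat_lit 5) (nat_lit 58) (nat_lit 4) (nat_lit 529) (nat_lit 401) (nat_lit 270))) (XT.nd (nat_lit 78) (nat_lit 0) (nat_lit 0) (XT.lf (nat_lit 0) (nat_lit 4798107890) (nat_lit 76) (nat_lit 13831205049) (nat_lit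 152) (nat_lit 26431283596) (nat_lit 56) (nat_lit 5) (nat_lit 57) (nat_lit 5) (nat_lit 58) (nat_lit 4) (nat_lit 530) (nat_lit 401) (nat_lit 269)) (XT.lf (nat_lit 0) (nat_lit 31154374922) (nat_lit 76) (nat_lit 468091113) (nat_lit 152) (nat_lit 14387350056) (nat_lit 56) (nat_lit 5) (nat_lit 57) (nat_lit 5) (nat_lit 58) (nat_lit 4) (nat_lit 531) (nat_lit 401) (nat_lit 268)))) (XT.nd (nat_lit 156) (nat_lit 76) (nat_lit 0) (XT.nd (nat_lit 78) (nat_lit 76) (nat_lit 0) (XT.lf (nat_lit 0) (nat_lit 11378503652) (nat_lit 76) (nat_lit 33848982590) (nat_lit 76) (nat_lit 1753363950) (nat_lit 55) (nat_lit 4) (nat_lit 56) (nat_lit 5) (nat_lit 56) (nat_lit 4) (nat_lit 532) (nat_lit 401) (nat_lit 267)) (XT.lf (nat_lit 0) (nat_lit 11180953933) (nat_lit 152) (nat_lit 9416432846) (nat_lit 76) (nat_lit 27376150781) (nat_lit 54) (nat_lit 5) (nat_lit 56) (nat_lit 5) (nat_lit 55) (nat_lit 4) (nat_lit 533) (nat_lit 401) (nat_lit 266)))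 (XT.nd (nat_lit 78) (nat_lit 0) (nat_lit 0) (XT.lf (nat_lit 0) (nat_lit 17857470267) (nat_lit 76) (nat_lit 6767584722) (nat_lit 152) (nat_lit 24365720048) (nat_lit 53) (nat_lit 5) (nat_lit 54) (nat_lit 5) (nat_lit 55) (nat_lit 4) (nat_lit 534) (nat_lit 401) (nat_lit 265)) (XT.lf (nat_lit 0) (nat_lit 38625740533) (nat_lit 152) (nat_lit 3994586901) (nat_lit 0) (nat_lit 7413604484) (nat_lit 53) (nat_lit 5) (nat_lit 55) (nat_lit 4) (nat_lit 53) (nat_lit 4) (nat_lit 535) (nat_lit 401) (nat_lit 264)))))) (XT.nd (nat_lit 624) (nat_lit 456) (nat_lit 0) (XT.nd (nat_lit 312) (nat_lit 228) (nat_lit 0) (XT.nd (nat_lit 156) (nat_lit 76) (nat_lit 0) (XT.nd (nat_lit 78) (nat_lit 76) (nat_lit 0) (XT.lf (nat_lit 0) (nat_lit 2189828674) (nat_lit 152) (nat_lit 26782910494) (nat_lit 76) (nat_lit 22126398032) (nat_lit 51) (nat_lit 5) (nat_lit 53) (nat_lit 5) (nat_lit 52) (nat_lit 4) (nat_lit 536) (nat_lit 401) (nat_lit 263)) (XT.lf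 (nat_lit 0) (nat_lit 1246242986) (nat_lit 76) (nat_lit 14758763238) (nat_lit 152) (nat_lit 36186748650) (nat_lit 50) (nat_lit 5) (nat_lit 51) (nat_lit 5) (nat_lit 52) (nat_lit 4) (nat_lit 537) (nat_lit 401) (nat_lit 262))) (XT.nd (nat_lit 78) (nat_lit 76) (nat_lit 0) (XT.lf (nat_lit 0) (nat_lit 30492445704) (nat_lit 152) (nat_lit 22673186328) (nat_lit 0) (nat_lit 143784957) (nat_lit 50) (nat_lit 5) (nat_lit 52) (nat_lit 4) (nat_lit 50) (nat_lit 4) (nat_lit 538) (nat_lit 401) (nat_lit 261)) (XT.lf (nat_lit 0) (nat_lit 6398958655) (nat_lit 76) (nat_lit 39209411812) (nat_lit 76) (nat_lit 8846422742) (nat_lit 49) (nat_lit 4) (nat_lit 50) (nat_lit 5) (nat_lit 50) (nat_lit 4) (nat_lit 539) (nat_lit 401) (nat_lit 260)))) (XT.nd (nat_lit 156) (nat_lit 76) (nat_lit 0) (XT.nd (nat_lit 78) (nat_lit 76) (nat_lit 0) (XT.lf (nat_lit 0) (nat_lit 5652528551) (nat_lit 152) (nat_lit 18902267104) (nat_lit 76) (nat_lit 31071612961)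 (nat_lit 48) (nat_lit 5) (nat_lit 50) (nat_lit 5) (nat_lit 49) (nat_lit 4) (nat_lit 540) (nat_lit 401) (nat_lit 259)) (XT.lf (nat_lit 0) (nat_lit 11231169701) (nat_lit 76) (nat_lit 9272069502) (nat_lit 152) (nat_lit 36324467874) (nat_lit 47) (nat_lit 5) (nat_lit 48) (nat_lit 5) (nat_lit 49) (nat_lit 4) (nat_lit 541) (nat_lit 401) (nat_lit 258))) (XT.nd (nat_lit 78) (nat_lit 76) (nat_lit 0) (XT.lf (nat_lit 0) (nat_lit 36041072054) (nat_lit 152) (nat_lit 15493631413) (nat_lit 0) (nat_lit 6523093093) (nat_lit 47) (nat_lit 5) (nat_lit 49) (nat_lit 4) (nat_lit 47) (nat_lit 4) (nat_lit 542) (nat_lit 401) (nat_lit 257)) (XT.lf (nat_lit 0) (nat_lit 15701390942) (nat_lit 76) (nat_lit 36573421696) (nat_lit 76) (nat_lit 7043082997) (nat_lit 46) (nat_lit 4) (nat_lit 47) (nat_lit 5) (nat_lit 47) (nat_lit 4) (nat_lit 543) (nat_lit 401) (nat_lit 256))))) (XT.nd (nat_lit 312) (nat_lit 228) (nat_lit 0) (XT.nd (nat_lit 156) (nat_lit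 76) (nat_lit 0) (XT.nd (nat_lit 78) (nat_lit 76) (nat_lit 0) (XT.lf (nat_lit 0) (nat_lit 8361298519) (nat_lit 152) (nat_lit 12568902449) (nat_lit 76) (nat_lit 39678828750) (nat_lit 45) (nat_lit 5) (nat_lit 47) (nat_lit 5) (nat_lit 46) (nat_lit 4) (nat_lit 544) (nat_lit 401) (nat_lit 255)) (XT.lf (nat_lit 0) (nat_lit 19699990653) (nat_lit 76) (nat_lit 4563053354) (nat_lit 152) (nat_lit 37668458149) (nat_lit 44) (nat_lit 5) (nat_lit 45) (nat_lit 5) (nat_lit 46) (nat_lit 4) (nat_lit 545) (nat_lit 401) (nat_lit 254))) (XT.nd (nat_lit 78) (nat_lit 76) (nat_lit 0) (XT.lf (nat_lit 0) (nat_lit 40875644484) (nat_lit 152) (nat_lit 10239520165) (nat_lit 0) (nat_lit 12171470121) (nat_lit 44) (nat_lit 5) (nat_lit 46) (nat_lit 4) (nat_lit 44) (nat_lit 4) (nat_lit 546) (nat_lit 401) (nat_lit 253)) (XT.lf (nat_lit 0) (nat_lit 23093579421) (nat_lit 76) (nat_lit 35148014437) (nat_lit 76) (nat_lit 6433178455) (nat_lit 43) (nat_lit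 4) (nat_lit 44) (nat_lit 5) (nat_lit 44) (nat_lit 4) (nat_lit 547) (nat_lit 401) (nat_lit 252)))) (XT.nd (nat_lit 156) (nat_lit 76) (nat_lit 0) (XT.nd (nat_lit 78) (nat_lit 76) (nat_lit 0) (XT.lf (nat_lit 0) (nat_lit 9920595535) (nat_lit 152) (nat_lit 8586378129) (nat_lit 76) (nat_lit 47591922751) (nat_lit 42) (nat_lit 5) (nat_lit 44) (nat_lit 5) (nat_lit 43) (nat_lit 4) (nat_lit 548) (nat_lit 401) (nat_lit 251)) (XT.lf (nat_lit 0) (nat_lit 25814912656) (nat_lit 76) (nat_lit 1057082083) (nat_lit 152) (nat_lit 40684749354) (nat_lit 41) (nat_lit 5) (nat_lit 42) (nat_lit 5) (nat_lit 43) (nat_lit 4) (nat_lit 549) (nat_lit 401) (nat_lit 250))) (XT.nd (nat_lit 78) (nat_lit 76) (nat_lit 0) (XT.lf (nat_lit 0) (nat_lit 44570285231) (nat_lit 152) (nat_lit 7818367065) (nat_lit 0) (nat_lit 16662524495) (nat_lit 41) (nat_lit 5) (nat_lit 43) (nat_lit 4) (nat_lit 41) (nat_lit 4) (nat_lit 550) (nat_lit 401) (nat_lit 249)) (XT.lf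 (nat_lit 0) (nat_lit 27628726211) (nat_lit 76) (nat_lit 35435368381) (nat_lit 76) (nat_lit 7518410840) (nat_lit 40) (nat_lit 4) (nat_lit 41) (nat_lit 5) (nat_lit 41) (nat_lit 4) (nat_lit 551) (nat_lit 401) (nat_lit 248))))))) (XT.nd (nat_lit 51792) (nat_lit 0) (nat_lit 19380) (XT.nd (nat_lit 51168) (nat_lit 0) (nat_lit 28880) (XT.nd (nat_lit 50856) (nat_lit 0) (nat_lit 30704) (XT.nd (nat_lit 78) (nat_lit 76) (nat_lit 0) (XT.lf (nat_lit 0) (nat_lit 9826983469) (nat_lit 152) (nat_lit 7977110035) (nat_lit 76) (nat_lit 54350762571) (nat_lit 39) (nat_lit 5) (nat_lit 41) (nat_lit 5) (nat_lit 40) (nat_lit 4) (nat_lit 552) (nat_lit 401) (nat_lit 247)) (XT.nd (nat_lit 50700) (nat_lit 0) (nat_lit 31236) (XT.lf (nat_lit 0) (nat_lit 27811297112) (nat_lit 152) (nat_lit 45262387305) (nat_lit 0) (nat_lit 690369587) (nat_lit 38) (nat_lit 5) (nat_lit 40) (nat_lit 4) (nat_lit 38) (nat_lit 4) (nat_lit 553) (nat_lit 401) (nat_lit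 246)) (XT.lf (nat_lit 0) (nat_lit 2905714113) (nat_lit 228) (nat_lit 161949144) (nat_lit 228) (nat_lit 161949144) (nat_lit 449) (nat_lit 3) (nat_lit 452) (nat_lit 3) (nat_lit 452) (nat_lit 5) (nat_lit 402) (nat_lit 402) (nat_lit 396)))) (XT.nd (nat_lit 156) (nat_lit 304) (nat_lit 0) (XT.nd (nat_lit 78) (nat_lit 0) (nat_lit 0) (XT.lf (nat_lit 0) (nat_lit 2257886425) (nat_lit 228) (nat_lit 3547868972) (nat_lit 304) (nat_lit 662994145) (nat_lit 446) (nat_lit 5) (nat_lit 449) (nat_lit 3) (nat_lit 450) (nat_lit 5) (nat_lit 403) (nat_lit 402) (nat_lit 395)) (XT.lf (nat_lit 0) (nat_lit 5128292748) (nat_lit 228) (nat_lit 275864301) (nat_lit 304) (nat_lit 1077511956) (nat_lit 446) (nat_lit 5) (nat_lit 449) (nat_lit 3) (nat_lit 450) (nat_lit 5) (nat_lit 404) (nat_lit 402) (nat_lit 394))) (XT.nd (nat_lit 78) (nat_lit 0) (nat_lit 0) (XT.lf (nat_lit 0) (nat_lit 1478317786) (nat_lit 304) (nat_lit 3415999347) (nat_lit 380) (nat_lit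 1602632781) (nat_lit 442) (nat_lit 5) (nat_lit 446) (nat_lit 5) (nat_lit 447) (nat_lit 5) (nat_lit 405) (nat_lit 402) (nat_lit 393)) (XT.lf (nat_lit 0) (nat_lit 4262680561) (nat_lit 304) (nat_lit 42329277) (nat_lit 380) (nat_lit 2210446841) (nat_lit 442) (nat_lit 5) (nat_lit 446) (nat_lit 5) (nat_lit 447) (nat_lit 5) (nat_lit 406) (nat_lit 402) (nat_lit 392))))) (XT.nd (nat_lit 312) (nat_lit 988) (nat_lit 0) (XT.nd (nat_lit 156) (nat_lit 456) (nat_lit 0) (XT.nd (nat_lit 78) (nat_lit 0) (nat_lit 0) (XT.lf (nat_lit 0) (nat_lit 512024600) (nat_lit 380) (nat_lit 3100668558) (nat_lit 456) (nat_lit 2923841623) (nat_lit 437) (nat_lit 5) (nat_lit 442) (nat_lit 5) (nat_lit 443) (nat_lit 5) (nat_lit 407) (nat_lit 402) (nat_lit 391)) (XT.lf (nat_lit 76) (nat_lit 386111058) (nat_lit 0) (nat_lit 2829236098) (nat_lit 456) (nat_lit 3345218803) (nat_lit 438) (nat_lit 5) (nat_lit 437) (nat_lit 5) (nat_lit 443) (nat_lit 5) (nat_lit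 408) (nat_lit 402) (nat_lit 390))) (XT.nd (nat_lit 78) (nat_lit 456) (nat_lit 0) (XT.lf (nat_lit 76) (nat_lit 3981487199) (nat_lit 0) (nat_lit 1948741789) (nat_lit 456) (nat_lit 657190405) (nat_lit 438) (nat_lit 5) (nat_lit 437) (nat_lit 5) (nat_lit 443) (nat_lit 5) (nat_lit 409) (nat_lit 402) (nat_lit 389)) (XT.lf (nat_lit 76) (nat_lit 1009227991) (nat_lit 0) (nat_lit 971852125) (nat_lit 532) (nat_lit 4636079536) (nat_lit 432) (nat_lit 5) (nat_lit 431) (nat_lit 5) (nat_lit 438) (nat_lit 5) (nat_lit 410) (nat_lit 402) (nat_lit 388)))) (XT.nd (nat_lit 156) (nat_lit 532) (nat_lit 0) (XT.nd (nat_lit 78) (nat_lit 532) (nat_lit 0) (XT.lf (nat_lit 0) (nat_lit 4615968148) (nat_lit 456) (nat_lit 1930337304) (nat_lit 76) (nat_lit 103384941) (nat_lit 432) (nat_lit 5) (nat_lit 438) (nat_lit 5) (nat_lit 433) (nat_lit 5) (nat_lit 411) (nat_lit 402) (nat_lit 387)) (XT.lf (nat_lit 0) (nat_lit 567137012) (nat_lit 532) (nat_lit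 4867904793) (nat_lit 76) (nat_lit 1249990266) (nat_lit 425) (nat_lit 5) (nat_lit 432) (nat_lit 5) (nat_lit 426) (nat_lit 5) (nat_lit 412) (nat_lit 402) (nat_lit 386))) (XT.nd (nat_lit 78) (nat_lit 532) (nat_lit 0) (XT.lf (nat_lit 0) (nat_lit 3132634369) (nat_lit 532) (nat_lit 1086523720) (nat_lit 76) (nat_lit 2503859844) (nat_lit 425) (nat_lit 5) (nat_lit 432) (nat_lit 5) (nat_lit 426) (nat_lit 5) (nat_lit 413) (nat_lit 402) (nat_lit 385)) (XT.lf (nat_lit 0) (nat_lit 2802865145) (nat_lit 532) (nat_lit 2909662225) (nat_lit 608) (nat_lit 1051505366) (nat_lit 418) (nat_lit 5) (nat_lit 425) (nat_lit 5) (nat_lit 426) (nat_lit 5) (nat_lit 414) (nat_lit 402) (nat_lit 384)))))) (XT.nd (nat_lit 624) (nat_lit 5472) (nat_lit 0) (XT.nd (nat_lit 312) (nat_lit 2584) (nat_lit 0) (XT.nd (nat_lit 156) (nat_lit 760) (nat_lit 0) (XT.nd (nat_lit 78) (nat_lit 608) (nat_lit 0) (XT.lf (nat_lit 0) (nat_lit 1455754182) (nat_lit 608) (nat_lit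 51186975) (nat_lit 76) (nat_lit 5301215756) (nat_lit 417) (nat_lit 5) (nat_lit 425) (nat_lit 5) (nat_lit 418) (nat_lit 5) (nat_lit 415) (nat_lit 402) (nat_lit 383)) (XT.lf (nat_lit 0) (nat_lit 3969748679) (nat_lit 684) (nat_lit 2870965803) (nat_lit 76) (nat_lit 14009708) (nat_lit 409) (nat_lit 5) (nat_lit 418) (nat_lit 5) (nat_lit 410) (nat_lit 5) (nat_lit 416) (nat_lit 402) (nat_lit 382))) (XT.nd (nat_lit 78) (nat_lit 76) (nat_lit 0) (XT.lf (nat_lit 0) (nat_lit 1184614380) (nat_lit 684) (nat_lit 5317767824) (nat_lit 760) (nat_lit 402020621) (nat_lit 400) (nat_lit 5) (nat_lit 409) (nat_lit 5) (nat_lit 410) (nat_lit 5) (nat_lit 417) (nat_lit 402) (nat_lit 381)) (XT.lf (nat_lit 0) (nat_lit 2060058758) (nat_lit 760) (nat_lit 1617748109) (nat_lit 76) (nat_lit 3278752786) (nat_lit 399) (nat_lit 5) (nat_lit 409) (nat_lit 5) (nat_lit 400) (nat_lit 5) (nat_lit 418) (nat_lit 402) (nat_lit 380)))) (XT.nd (nat_lit 156) (nat_lit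 1824) (nat_lit 0) (XT.nd (nat_lit 78) (nat_lit 0) (nat_lit 0) (XT.lf (nat_lit 0) (nat_lit 2593046804) (nat_lit 760) (nat_lit 1939622503) (nat_lit 836) (nat_lit 2479159988) (nat_lit 389) (nat_lit 5) (nat_lit 399) (nat_lit 5) (nat_lit 400) (nat_lit 5) (nat_lit 419) (nat_lit 402) (nat_lit 379)) (XT.lf (nat_lit 0) (nat_lit 6902999214) (nat_lit 760) (nat_lit 114373428) (nat_lit 836) (nat_lit 53256647) (nat_lit 389) (nat_lit 5) (nat_lit 399) (nat_lit 5) (nat_lit 400) (nat_lit 5) (nat_lit 420) (nat_lit 402) (nat_lit 378))) (XT.nd (nat_lit 78) (nat_lit 912) (nat_lit 0) (XT.lf (nat_lit 0) (nat_lit 2379036419) (nat_lit 912) (nat_lit 2939774344) (nat_lit 76) (nat_lit 1812246504) (nat_lit 377) (nat_lit 5) (nat_lit 389) (nat_lit 5) (nat_lit 378) (nat_lit 5) (nat_lit 421) (nat_lit 402) (nat_lit 377)) (XT.lf (nat_lit 0) (nat_lit 1455947951) (nat_lit 912) (nat_lit 3369035418) (nat_lit 988) (nat_lit 2370055107) (nat_lit 365) (nat_lit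 5) (nat_lit 377) (nat_lit 5) (nat_lit 378) (nat_lit 5) (nat_lit 422) (nat_lit 402) (nat_lit 376))))) (XT.nd (nat_lit 312) (nat_lit 3344) (nat_lit 0) (XT.nd (nat_lit 156) (nat_lit 1064) (nat_lit 0) (XT.nd (nat_lit 78) (nat_lit 988) (nat_lit 0) (XT.lf (nat_lit 0) (nat_lit 37502047) (nat_lit 988) (nat_lit 1280156350) (nat_lit 76) (nat_lit 5944592271) (nat_lit 364) (nat_lit 5) (nat_lit 377) (nat_lit 5) (nat_lit 365) (nat_lit 5) (nat_lit 423) (nat_lit 402) (nat_lit 375)) (XT.lf (nat_lit 0) (nat_lit 2437535928) (nat_lit 1064) (nat_lit 4047954276) (nat_lit 76) (nat_lit 846256594) (nat_lit 351) (nat_lit 5) (nat_lit 365) (nat_lit 5) (nat_lit 352) (nat_lit 5) (nat_lit 424) (nat_lit 402) (nat_lit 374))) (XT.nd (nat_lit 78) (nat_lit 0) (nat_lit 0) (XT.lf (nat_lit 0) (nat_lit 542768016) (nat_lit 1064) (nat_lit 4327678463) (nat_lit 1140) (nat_lit 2534062950) (nat_lit 337) (nat_lit 5) (nat_lit 351) (nat_lit 5) (nat_lit 352) (nat_lit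 5) (nat_lit 425) (nat_lit 402) (nat_lit 373)) (XT.lf (nat_lit 0) (nat_lit 5292193862) (nat_lit 1064) (nat_lit 2056039718) (nat_lit 1140) (nat_lit 132072336) (nat_lit 337) (nat_lit 5) (nat_lit 351) (nat_lit 5) (nat_lit 352) (nat_lit 5) (nat_lit 426) (nat_lit 402) (nat_lit 372)))) (XT.nd (nat_lit 156) (nat_lit 2128) (nat_lit 0) (XT.nd (nat_lit 78) (nat_lit 0) (nat_lit 0) (XT.lf (nat_lit 0) (nat_lit 2256803464) (nat_lit 1216) (nat_lit 4969993044) (nat_lit 76) (nat_lit 332095853) (nat_lit 321) (nat_lit 5) (nat_lit 337) (nat_lit 5) (nat_lit 322) (nat_lit 5) (nat_lit 427) (nat_lit 402) (nat_lit 371)) (XT.lf (nat_lit 0) (nat_lit 4691149678) (nat_lit 1216) (nat_lit 169969303) (nat_lit 76) (nat_lit 2779391438) (nat_lit 321) (nat_lit 5) (nat_lit 337) (nat_lit 5) (nat_lit 322) (nat_lit 5) (nat_lit 428) (nat_lit 402) (nat_lit 370))) (XT.nd (nat_lit 78) (nat_lit 912) (nat_lit 0) (XT.lf (nat_lit 0) (nat_lit 4806698025) (nat_lit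 1216) (nat_lit 2373749118) (nat_lit 1292) (nat_lit 544679050) (nat_lit 305) (nat_lit 5) (nat_lit 321) (nat_lit 5) (nat_lit 322) (nat_lit 5) (nat_lit 429) (nat_lit 402) (nat_lit 369)) (XT.lf (nat_lit 0) (nat_lit 1854809957) (nat_lit 912) (nat_lit 5731037335) (nat_lit 76) (nat_lit 227071275) (nat_lit 293) (nat_lit 5) (nat_lit 305) (nat_lit 5) (nat_lit 294) (nat_lit 5) (nat_lit 430) (nat_lit 402) (nat_lit 368))))))))
noncomputable def xc101 : XT := (XT.nd (nat_lit 2418) (nat_lit 5092) (nat_lit 0) (XT.nd (nat_lit 1170) (nat_lit 3876) (nat_lit 0) (XT.nd (nat_lit 546) (nat_lit 3040) (nat_lit 0) (XT.nd (nat_lit 234) (nat_lit 1216) (nat_lit 0) (XT.nd (nat_lit 78) (nat_lit 1292) (nat_lit 0) (XT.lf (nat_lit 0) (nat_lit 4306252413) (nat_lit 912) (nat_lit 702730927) (nat_lit 76) (nat_lit 2894478322) (nat_lit 293) (nat_lit 5) (nat_lit 305) (nat_lit 5) (nat_lit 294) (nat_lit 5) (nat_lit 431) (nat_lit 402) (nat_lit 367)) (XT.nd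 (nat_lit 78) (nat_lit 684) (nat_lit 0) (XT.lf (nat_lit 0) (nat_lit 4503024962) (nat_lit 608) (nat_lit 2310966615) (nat_lit 684) (nat_lit 1183252914) (nat_lit 285) (nat_lit 5) (nat_lit 293) (nat_lit 5) (nat_lit 294) (nat_lit 5) (nat_lit 432) (nat_lit 402) (nat_lit 366)) (XT.lf (nat_lit 0) (nat_lit 1246532405) (nat_lit 684) (nat_lit 6354068213) (nat_lit 76) (nat_lit 493804925) (nat_lit 276) (nat_lit 5) (nat_lit 285) (nat_lit 5) (nat_lit 277) (nat_lit 5) (nat_lit 433) (nat_lit 402) (nat_lit 365)))) (XT.nd (nat_lit 156) (nat_lit 684) (nat_lit 0) (XT.nd (nat_lit 78) (nat_lit 532) (nat_lit 0) (XT.lf (nat_lit 0) (nat_lit 3725131488) (nat_lit 684) (nat_lit 1087816375) (nat_lit 76) (nat_lit 3381196560) (nat_lit 276) (nat_lit 5) (nat_lit 285) (nat_lit 5) (nat_lit 277) (nat_lit 5) (nat_lit 434) (nat_lit 402) (nat_lit 364)) (XT.lf (nat_lit 0) (nat_lit 4360337177) (nat_lit 532) (nat_lit 1902566019) (nat_lit 608) (nat_lit 2034433204)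 (nat_lit 269) (nat_lit 5) (nat_lit 276) (nat_lit 5) (nat_lit 277) (nat_lit 5) (nat_lit 435) (nat_lit 402) (nat_lit 363))) (XT.nd (nat_lit 78) (nat_lit 0) (nat_lit 0) (XT.lf (nat_lit 0) (nat_lit 444192973) (nat_lit 684) (nat_lit 6860267862) (nat_lit 76) (nat_lit 1099624629) (nat_lit 260) (nat_lit 5) (nat_lit 269) (nat_lit 5) (nat_lit 261) (nat_lit 5) (nat_lit 436) (nat_lit 402) (nat_lit 362)) (XT.lf (nat_lit 0) (nat_lit 2959703201) (nat_lit 684) (nat_lit 1345169541) (nat_lit 76) (nat_lit 4208462424) (nat_lit 260) (nat_lit 5) (nat_lit 269) (nat_lit 5) (nat_lit 261) (nat_lit 5) (nat_lit 437) (nat_lit 402) (nat_lit 361))))) (XT.nd (nat_lit 312) (nat_lit 1444) (nat_lit 0) (XT.nd (nat_lit 156) (nat_lit 532) (nat_lit 0) (XT.nd (nat_lit 78) (nat_lit 532) (nat_lit 0) (XT.lf (nat_lit 0) (nat_lit 4359564215) (nat_lit 532) (nat_lit 1179068381) (nat_lit 608) (nat_lit 3087595918) (nat_lit 253) (nat_lit 5) (nat_lit 260) (nat_lit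 5) (nat_lit 261) (nat_lit 5) (nat_lit 438) (nat_lit 402) (nat_lit 360)) (XT.lf (nat_lit 0) (nat_lit 1467995878) (nat_lit 532) (nat_lit 6721346455) (nat_lit 608) (nat_lit 553338590) (nat_lit 246) (nat_lit 5) (nat_lit 253) (nat_lit 5) (nat_lit 254) (nat_lit 5) (nat_lit 439) (nat_lit 402) (nat_lit 359))) (XT.nd (nat_lit 78) (nat_lit 456) (nat_lit 0) (XT.lf (nat_lit 0) (nat_lit 2019398211) (nat_lit 608) (nat_lit 1493308674) (nat_lit 76) (nat_lit 5349253499) (nat_lit 245) (nat_lit 5) (nat_lit 253) (nat_lit 5) (nat_lit 246) (nat_lit 5) (nat_lit 440) (nat_lit 402) (nat_lit 358)) (XT.lf (nat_lit 0) (nat_lit 4483065055) (nat_lit 456) (nat_lit 167161085) (nat_lit 532) (nat_lit 4334671053) (nat_lit 239) (nat_lit 5) (nat_lit 245) (nat_lit 5) (nat_lit 246) (nat_lit 5) (nat_lit 441) (nat_lit 402) (nat_lit 357)))) (XT.nd (nat_lit 156) (nat_lit 912) (nat_lit 0) (XT.nd (nat_lit 78) (nat_lit 76) (nat_lit 0) (XT.lf (nat_lit 0) (nat_lit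 1494499168) (nat_lit 456) (nat_lit 5876347222) (nat_lit 532) (nat_lit 1740353807) (nat_lit 233) (nat_lit 5) (nat_lit 239) (nat_lit 5) (nat_lit 240) (nat_lit 5) (nat_lit 442) (nat_lit 402) (nat_lit 356)) (XT.lf (nat_lit 0) (nat_lit 911318026) (nat_lit 532) (nat_lit 1549651388) (nat_lit 76) (nat_lit 6780126816) (nat_lit 232) (nat_lit 5) (nat_lit 239) (nat_lit 5) (nat_lit 233) (nat_lit 5) (nat_lit 443) (nat_lit 402) (nat_lit 355))) (XT.nd (nat_lit 78) (nat_lit 456) (nat_lit 0) (XT.lf (nat_lit 0) (nat_lit 3615140790) (nat_lit 532) (nat_lit 4670833720) (nat_lit 76) (nat_lit 1088174059) (nat_lit 226) (nat_lit 5) (nat_lit 233) (nat_lit 5) (nat_lit 227) (nat_lit 5) (nat_lit 444) (nat_lit 402) (nat_lit 354)) (XT.lf (nat_lit 0) (nat_lit 1611234079) (nat_lit 456) (nat_lit 4796824138) (nat_lit 532) (nat_lit 3102898518) (nat_lit 220) (nat_lit 5) (nat_lit 226) (nat_lit 5) (nat_lit 227) (nat_lit 5) (nat_lit 445) (nat_lit 402)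 (nat_lit 353)))))) (XT.nd (nat_lit 624) (nat_lit 1824) (nat_lit 0) (XT.nd (nat_lit 312) (nat_lit 1140) (nat_lit 0) (XT.nd (nat_lit 156) (nat_lit 456) (nat_lit 0) (XT.nd (nat_lit 78) (nat_lit 456) (nat_lit 0) (XT.lf (nat_lit 0) (nat_lit 8117506221) (nat_lit 456) (nat_lit 1167557473) (nat_lit 532) (nat_lit 366799986) (nat_lit 220) (nat_lit 5) (nat_lit 226) (nat_lit 5) (nat_lit 227) (nat_lit 5) (nat_lit 446) (nat_lit 402) (nat_lit 352)) (XT.lf (nat_lit 0) (nat_lit 2431311160) (nat_lit 456) (nat_lit 4783986458) (nat_lit 76) (nat_lit 2580163689) (nat_lit 214) (nat_lit 5) (nat_lit 220) (nat_lit 5) (nat_lit 215) (nat_lit 5) (nat_lit 447) (nat_lit 402) (nat_lit 351))) (XT.nd (nat_lit 78) (nat_lit 0) (nat_lit 0) (XT.lf (nat_lit 0) (nat_lit 1802230933) (nat_lit 456) (nat_lit 3502985594) (nat_lit 532) (nat_lit 4638067938) (nat_lit 208) (nat_lit 5) (nat_lit 214) (nat_lit 5) (nat_lit 215) (nat_lit 5) (nat_lit 448) (nat_lit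 402) (nat_lit 350)) (XT.lf (nat_lit 0) (nat_lit 8272509749) (nat_lit 532) (nat_lit 1473989395) (nat_lit 76) (nat_lit 348831207) (nat_lit 208) (nat_lit 5) (nat_lit 215) (nat_lit 5) (nat_lit 209) (nat_lit 5) (nat_lit 449) (nat_lit 402) (nat_lit 349)))) (XT.nd (nat_lit 156) (nat_lit 304) (nat_lit 0) (XT.nd (nat_lit 78) (nat_lit 380) (nat_lit 0) (XT.lf (nat_lit 0) (nat_lit 1099539249) (nat_lit 456) (nat_lit 4856221448) (nat_lit 76) (nat_lit 4294559269) (nat_lit 202) (nat_lit 5) (nat_lit 208) (nat_lit 5) (nat_lit 203) (nat_lit 5) (nat_lit 450) (nat_lit 402) (nat_lit 348)) (XT.lf (nat_lit 0) (nat_lit 2051812185) (nat_lit 380) (nat_lit 2012758453) (nat_lit 456) (nat_lit 6345100958) (nat_lit 197) (nat_lit 5) (nat_lit 202) (nat_lit 5) (nat_lit 203) (nat_lit 5) (nat_lit 451) (nat_lit 402) (nat_lit 347))) (XT.nd (nat_lit 78) (nat_lit 304) (nat_lit 0) (XT.lf (nat_lit 0) (nat_lit 7145192343) (nat_lit 456) (nat_lit 1385381924)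 (nat_lit 76) (nat_lit 2042433130) (nat_lit 197) (nat_lit 5) (nat_lit 203) (nat_lit 5) (nat_lit 198) (nat_lit 5) (nat_lit 452) (nat_lit 402) (nat_lit 346)) (XT.lf (nat_lit 0) (nat_lit 5832378892) (nat_lit 304) (nat_lit 4520510354) (nat_lit 380) (nat_lit 387317050) (nat_lit 193) (nat_lit 5) (nat_lit 197) (nat_lit 5) (nat_lit 198) (nat_lit 5) (nat_lit 453) (nat_lit 402) (nat_lit 345))))) (XT.nd (nat_lit 312) (nat_lit 684) (nat_lit 0) (XT.nd (nat_lit 156) (nat_lit 684) (nat_lit 0) (XT.nd (nat_lit 78) (nat_lit 0) (nat_lit 0) (XT.lf (nat_lit 0) (nat_lit 2344268536) (nat_lit 380) (nat_lit 342149531) (nat_lit 456) (nat_lit 8225346977) (nat_lit 187) (nat_lit 5) (nat_lit 192) (nat_lit 5) (nat_lit 193) (nat_lit 5) (nat_lit 454) (nat_lit 402) (nat_lit 344)) (XT.lf (nat_lit 0) (nat_lit 5892104993) (nat_lit 456) (nat_lit 1273367856) (nat_lit 76) (nat_lit 3921459419) (nat_lit 187) (nat_lit 5) (nat_lit 193) (nat_lit 5) (nat_lit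 188) (nat_lit 5) (nat_lit 455) (nat_lit 402) (nat_lit 343))) (XT.nd (nat_lit 78) (nat_lit 380) (nat_lit 0) (XT.lf (nat_lit 0) (nat_lit 6302372599) (nat_lit 304) (nat_lit 2916135886) (nat_lit 380) (nat_lit 2048112062) (nat_lit 183) (nat_lit 5) (nat_lit 187) (nat_lit 5) (nat_lit 188) (nat_lit 5) (nat_lit 456) (nat_lit 402) (nat_lit 342)) (XT.lf (nat_lit 0) (nat_lit 1183476241) (nat_lit 380) (nat_lit 8802219269) (nat_lit 76) (nat_lit 1465249663) (nat_lit 178) (nat_lit 5) (nat_lit 183) (nat_lit 5) (nat_lit 179) (nat_lit 5) (nat_lit 457) (nat_lit 402) (nat_lit 341)))) (XT.nd (nat_lit 156) (nat_lit 380) (nat_lit 0) (XT.nd (nat_lit 78) (nat_lit 304) (nat_lit 0) (XT.lf (nat_lit 0) (nat_lit 4511569540) (nat_lit 380) (nat_lit 1154553196) (nat_lit 76) (nat_lit 5972848992) (nat_lit 178) (nat_lit 5) (nat_lit 183) (nat_lit 5) (nat_lit 179) (nat_lit 5) (nat_lit 458) (nat_lit 402) (nat_lit 340)) (XT.lf (nat_lit 0) (nat_lit 6799436566)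 (nat_lit 304) (nat_lit 1167783046) (nat_lit 380) (nat_lit 3864590197) (nat_lit 174) (nat_lit 5) (nat_lit 178) (nat_lit 5) (nat_lit 179) (nat_lit 5) (nat_lit 459) (nat_lit 402) (nat_lit 339))) (XT.nd (nat_lit 78) (nat_lit 76) (nat_lit 0) (XT.lf (nat_lit 0) (nat_lit 2953657654) (nat_lit 304) (nat_lit 8609105178) (nat_lit 380) (nat_lit 466585576) (nat_lit 170) (nat_lit 5) (nat_lit 174) (nat_lit 5) (nat_lit 175) (nat_lit 5) (nat_lit 460) (nat_lit 402) (nat_lit 338)) (XT.lf (nat_lit 0) (nat_lit 2999979381) (nat_lit 380) (nat_lit 1046454055) (nat_lit 76) (nat_lit 8184732581) (nat_lit 169) (nat_lit 5) (nat_lit 174) (nat_lit 5) (nat_lit 170) (nat_lit 5) (nat_lit 461) (nat_lit 402) (nat_lit 337))))))) (XT.nd (nat_lit 1248) (nat_lit 2128) (nat_lit 0) (XT.nd (nat_lit 624) (nat_lit 1216) (nat_lit 0) (XT.nd (nat_lit 312) (nat_lit 836) (nat_lit 0) (XT.nd (nat_lit 156) (nat_lit 304) (nat_lit 0) (XT.nd (nat_lit 78) (nat_lit 304)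 (nat_lit 0) (XT.lf (nat_lit 0) (nat_lit 6602250200) (nat_lit 380) (nat_lit 5137817239) (nat_lit 76) (nat_lit 697601429) (nat_lit 165) (nat_lit 5) (nat_lit 170) (nat_lit 5) (nat_lit 166) (nat_lit 5) (nat_lit 462) (nat_lit 402) (nat_lit 336)) (XT.lf (nat_lit 0) (nat_lit 3235845563) (nat_lit 304) (nat_lit 7122940528) (nat_lit 380) (nat_lit 2290196659) (nat_lit 161) (nat_lit 5) (nat_lit 165) (nat_lit 5) (nat_lit 166) (nat_lit 5) (nat_lit 463) (nat_lit 402) (nat_lit 335))) (XT.nd (nat_lit 78) (nat_lit 228) (nat_lit 0) (XT.lf (nat_lit 0) (nat_lit 1351733004) (nat_lit 380) (nat_lit 967886215) (nat_lit 76) (nat_lit 10546118487) (nat_lit 160) (nat_lit 5) (nat_lit 165) (nat_lit 5) (nat_lit 161) (nat_lit 5) (nat_lit 464) (nat_lit 402) (nat_lit 334)) (XT.lf (nat_lit 0) (nat_lit 5123530469) (nat_lit 304) (nat_lit 5306392937) (nat_lit 76) (nat_lit 2656394127) (nat_lit 157) (nat_lit 5) (nat_lit 161) (nat_lit 5) (nat_lit 158)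 (nat_lit 5) (nat_lit 465) (nat_lit 402) (nat_lit 333)))) (XT.nd (nat_lit 156) (nat_lit 532) (nat_lit 0) (XT.nd (nat_lit 78) (nat_lit 0) (nat_lit 0) (XT.lf (nat_lit 0) (nat_lit 3487839790) (nat_lit 304) (nat_lit 5552869234) (nat_lit 380) (nat_lit 4271840560) (nat_lit 153) (nat_lit 5) (nat_lit 157) (nat_lit 5) (nat_lit 158) (nat_lit 5) (nat_lit 466) (nat_lit 402) (nat_lit 332)) (XT.lf (nat_lit 0) (nat_lit 12601258099) (nat_lit 304) (nat_lit 494072677) (nat_lit 380) (nat_lit 449641587) (nat_lit 153) (nat_lit 5) (nat_lit 157) (nat_lit 5) (nat_lit 158) (nat_lit 5) (nat_lit 467) (nat_lit 402) (nat_lit 331))) (XT.nd (nat_lit 78) (nat_lit 228) (nat_lit 0) (XT.lf (nat_lit 0) (nat_lit 3512028982) (nat_lit 304) (nat_lit 5549008525) (nat_lit 76) (nat_lit 4719540566) (nat_lit 149) (nat_lit 5) (nat_lit 153) (nat_lit 5) (nat_lit 150) (nat_lit 5) (nat_lit 468) (nat_lit 402) (nat_lit 330)) (XT.lf (nat_lit 0) (nat_lit 3688228234)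 (nat_lit 228) (nat_lit 3912526508) (nat_lit 304) (nat_lit 6421847844) (nat_lit 146) (nat_lit 5) (nat_lit 149) (nat_lit 5) (nat_lit 150) (nat_lit 5) (nat_lit 469) (nat_lit 402) (nat_lit 329))))) (XT.nd (nat_lit 312) (nat_lit 684) (nat_lit 0) (XT.nd (nat_lit 156) (nat_lit 228) (nat_lit 0) (XT.nd (nat_lit 78) (nat_lit 304) (nat_lit 0) (XT.lf (nat_lit 0) (nat_lit 11849628447) (nat_lit 304) (nat_lit 1020851224) (nat_lit 76) (nat_lit 1400285000) (nat_lit 146) (nat_lit 5) (nat_lit 150) (nat_lit 5) (nat_lit 147) (nat_lit 5) (nat_lit 470) (nat_lit 402) (nat_lit 328)) (XT.lf (nat_lit 0) (nat_lit 1757695167) (nat_lit 304) (nat_lit 5890259333) (nat_lit 76) (nat_lit 6875190418) (nat_lit 142) (nat_lit 5) (nat_lit 146) (nat_lit 5) (nat_lit 143) (nat_lit 5) (nat_lit 471) (nat_lit 402) (nat_lit 327))) (XT.nd (nat_lit 78) (nat_lit 0) (nat_lit 0) (XT.lf (nat_lit 0) (nat_lit 3813075562) (nat_lit 228) (nat_lit 2215813638) (nat_lit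 304) (nat_lit 8753019721) (nat_lit 139) (nat_lit 5) (nat_lit 142) (nat_lit 5) (nat_lit 143) (nat_lit 5) (nat_lit 472) (nat_lit 402) (nat_lit 326)) (XT.lf (nat_lit 0) (nat_lit 10489597316) (nat_lit 304) (nat_lit 1203331184) (nat_lit 76) (nat_lit 3353667256) (nat_lit 139) (nat_lit 5) (nat_lit 143) (nat_lit 5) (nat_lit 140) (nat_lit 5) (nat_lit 473) (nat_lit 402) (nat_lit 325)))) (XT.nd (nat_lit 156) (nat_lit 152) (nat_lit 0) (XT.nd (nat_lit 78) (nat_lit 304) (nat_lit 0) (XT.lf (nat_lit 0) (nat_lit 8957641643) (nat_lit 228) (nat_lit 6204263572) (nat_lit 304) (nat_lit 154985850) (nat_lit 136) (nat_lit 5) (nat_lit 139) (nat_lit 5) (nat_lit 140) (nat_lit 5) (nat_lit 474) (nat_lit 402) (nat_lit 324)) (XT.lf (nat_lit 0) (nat_lit 3835347445) (nat_lit 228) (nat_lit 477266105) (nat_lit 304) (nat_lit 11280850659) (nat_lit 132) (nat_lit 5) (nat_lit 135) (nat_lit 5) (nat_lit 136) (nat_lit 5) (nat_lit 475) (nat_lit 402) (nat_lit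 323))) (XT.nd (nat_lit 78) (nat_lit 152) (nat_lit 0) (XT.lf (nat_lit 0) (nat_lit 8998135684) (nat_lit 304) (nat_lit 1515217369) (nat_lit 76) (nat_lit 5362326284) (nat_lit 132) (nat_lit 5) (nat_lit 136) (nat_lit 5) (nat_lit 133) (nat_lit 5) (nat_lit 476) (nat_lit 402) (nat_lit 322)) (XT.lf (nat_lit 0) (nat_lit 9159795453) (nat_lit 152) (nat_lit 4728118423) (nat_lit 228) (nat_lit 2276537420) (nat_lit 130) (nat_lit 5) (nat_lit 132) (nat_lit 5) (nat_lit 133) (nat_lit 5) (nat_lit 477) (nat_lit 402) (nat_lit 321)))))) (XT.nd (nat_lit 624) (nat_lit 912) (nat_lit 0) (XT.nd (nat_lit 312) (nat_lit 456) (nat_lit 0) (XT.nd (nat_lit 156) (nat_lit 456) (nat_lit 0) (XT.nd (nat_lit 78) (nat_lit 0) (nat_lit 0) (XT.lf (nat_lit 0) (nat_lit 2449084667) (nat_lit 304) (nat_lit 12748627812) (nat_lit 76) (nat_lit 1262425692) (nat_lit 126) (nat_lit 5) (nat_lit 130) (nat_lit 5) (nat_lit 127) (nat_lit 5) (nat_lit 478) (nat_lit 402) (nat_lit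 320)) (XT.lf (nat_lit 0) (nat_lit 7360156298) (nat_lit 304) (nat_lit 1989343638) (nat_lit 76) (nat_lit 7411837404) (nat_lit 126) (nat_lit 5) (nat_lit 130) (nat_lit 5) (nat_lit 127) (nat_lit 5) (nat_lit 479) (nat_lit 402) (nat_lit 319))) (XT.nd (nat_lit 78) (nat_lit 304) (nat_lit 0) (XT.lf (nat_lit 0) (nat_lit 9224700214) (nat_lit 152) (nat_lit 3254562795) (nat_lit 228) (nat_lit 4590489352) (nat_lit 124) (nat_lit 5) (nat_lit 126) (nat_lit 5) (nat_lit 127) (nat_lit 5) (nat_lit 480) (nat_lit 402) (nat_lit 318)) (XT.lf (nat_lit 0) (nat_lit 412350965) (nat_lit 304) (nat_lit 13971451351) (nat_lit 76) (nat_lit 3001865077) (nat_lit 120) (nat_lit 5) (nat_lit 124) (nat_lit 5) (nat_lit 121) (nat_lit 5) (nat_lit 481) (nat_lit 402) (nat_lit 317)))) (XT.nd (nat_lit 156) (nat_lit 304) (nat_lit 0) (XT.nd (nat_lit 78) (nat_lit 152) (nat_lit 0) (XT.lf (nat_lit 0) (nat_lit 5557513330) (nat_lit 304) (nat_lit 2663336244) (nat_lit 76)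 (nat_lit 9486312640) (nat_lit 120) (nat_lit 5) (nat_lit 124) (nat_lit 5) (nat_lit 121) (nat_lit 5) (nat_lit 482) (nat_lit 402) (nat_lit 316)) (XT.lf (nat_lit 0) (nat_lit 9115022261) (nat_lit 152) (nat_lit 1802708774) (nat_lit 228) (nat_lit 7118750691) (nat_lit 118) (nat_lit 5) (nat_lit 120) (nat_lit 5) (nat_lit 121) (nat_lit 5) (nat_lit 483) (nat_lit 402) (nat_lit 315))) (XT.nd (nat_lit 78) (nat_lit 76) (nat_lit 0) (XT.lf (nat_lit 0) (nat_lit 2889336017) (nat_lit 228) (nat_lit 13623799941) (nat_lit 304) (nat_lit 1860314280) (nat_lit 115) (nat_lit 5) (nat_lit 118) (nat_lit 5) (nat_lit 119) (nat_lit 5) (nat_lit 484) (nat_lit 402) (nat_lit 314)) (XT.lf (nat_lit 0) (nat_lit 3568615439) (nat_lit 304) (nat_lit 3580496840) (nat_lit 76) (nat_lit 11567927029) (nat_lit 114) (nat_lit 5) (nat_lit 118) (nat_lit 5) (nat_lit 115) (nat_lit 5) (nat_lit 485) (nat_lit 402) (nat_lit 313))))) (XT.nd (nat_lit 312) (nat_lit 380) (nat_lit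 0) (XT.nd (nat_lit 156) (nat_lit 228) (nat_lit 0) (XT.nd (nat_lit 78) (nat_lit 152) (nat_lit 0) (XT.lf (nat_lit 0) (nat_lit 8787572319) (nat_lit 152) (nat_lit 393997824) (nat_lit 228) (nat_lit 9887057675) (nat_lit 112) (nat_lit 5) (nat_lit 114) (nat_lit 5) (nat_lit 115) (nat_lit 5) (nat_lit 486) (nat_lit 402) (nat_lit 312)) (XT.lf (nat_lit 0) (nat_lit 2102121284) (nat_lit 152) (nat_lit 12954815002) (nat_lit 228) (nat_lit 4371007755) (nat_lit 110) (nat_lit 5) (nat_lit 112) (nat_lit 5) (nat_lit 113) (nat_lit 5) (nat_lit 487) (nat_lit 402) (nat_lit 311))) (XT.nd (nat_lit 78) (nat_lit 152) (nat_lit 0) (XT.lf (nat_lit 0) (nat_lit 1367966875) (nat_lit 228) (nat_lit 4790816659) (nat_lit 76) (nat_lit 13636388501) (nat_lit 109) (nat_lit 5) (nat_lit 112) (nat_lit 5) (nat_lit 110) (nat_lit 5) (nat_lit 488) (nat_lit 402) (nat_lit 310)) (XT.lf (nat_lit 0) (nat_lit 7254130362) (nat_lit 228) (nat_lit 11987361678) (nat_lit 76)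 (nat_lit 928741011) (nat_lit 107) (nat_lit 5) (nat_lit 110) (nat_lit 5) (nat_lit 108) (nat_lit 5) (nat_lit 489) (nat_lit 402) (nat_lit 309)))) (XT.nd (nat_lit 156) (nat_lit 228) (nat_lit 0) (XT.nd (nat_lit 78) (nat_lit 0) (nat_lit 0) (XT.lf (nat_lit 0) (nat_lit 1002294090) (nat_lit 152) (nat_lit 12409188873) (nat_lit 228) (nat_lit 7142225466) (nat_lit 105) (nat_lit 5) (nat_lit 107) (nat_lit 5) (nat_lit 108) (nat_lit 5) (nat_lit 490) (nat_lit 402) (nat_lit 308)) (XT.lf (nat_lit 0) (nat_lit 14583117066) (nat_lit 152) (nat_lit 5266921435) (nat_lit 228) (nat_lit 1095755738) (nat_lit 105) (nat_lit 5) (nat_lit 107) (nat_lit 5) (nat_lit 108) (nat_lit 5) (nat_lit 491) (nat_lit 402) (nat_lit 307))) (XT.nd (nat_lit 78) (nat_lit 0) (nat_lit 0) (XT.lf (nat_lit 0) (nat_lit 5098847116) (nat_lit 228) (nat_lit 14097043742) (nat_lit 76) (nat_lit 2150265829) (nat_lit 102) (nat_lit 5) (nat_lit 105) (nat_lit 5) (nat_lit 103) (nat_lit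 5) (nat_lit 492) (nat_lit 402) (nat_lit 306)) (XT.lf (nat_lit 0) (nat_lit 11550314530) (nat_lit 228) (nat_lit 464096706) (nat_lit 76) (nat_lit 9741002384) (nat_lit 102) (nat_lit 5) (nat_lit 105) (nat_lit 5) (nat_lit 103) (nat_lit 5) (nat_lit 493) (nat_lit 402) (nat_lit 305))))))))
noncomputable def xc102 : XT := (XT.nd (nat_lit 2418) (nat_lit 1748) (nat_lit 0) (XT.nd (nat_lit 1170) (nat_lit 1444) (nat_lit 0) (XT.nd (nat_lit 546) (nat_lit 684) (nat_lit 0) (XT.nd (nat_lit 234) (nat_lit 532) (nat_lit 0) (XT.nd (nat_lit 78) (nat_lit 228) (nat_lit 0) (XT.lf (nat_lit 0) (nat_lit 13804944603) (nat_lit 152) (nat_lit 4499797142) (nat_lit 228) (nat_lit 3868924610) (nat_lit 100) (nat_lit 5) (nat_lit 102) (nat_lit 5) (nat_lit 103) (nat_lit 5) (nat_lit 494) (nat_lit 402) (nat_lit 304)) (XT.nd (nat_lit 78) (nat_lit 0) (nat_lit 0) (XT.lf (nat_lit 0) (nat_lit 2676054162) (nat_lit 228) (nat_lit 16678827542) (nat_lit 76) (nat_lit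 3246701987) (nat_lit 97) (nat_lit 5) (nat_lit 100) (nat_lit 5) (nat_lit 98) (nat_lit 5) (nat_lit 495) (nat_lit 402) (nat_lit 303)) (XT.lf (nat_lit 0) (nat_lit 9446371060) (nat_lit 228) (nat_lit 2351388886) (nat_lit 76) (nat_lit 11240227428) (nat_lit 97) (nat_lit 5) (nat_lit 100) (nat_lit 5) (nat_lit 98) (nat_lit 5) (nat_lit 496) (nat_lit 402) (nat_lit 302)))) (XT.nd (nat_lit 156) (nat_lit 228) (nat_lit 0) (XT.nd (nat_lit 78) (nat_lit 152) (nat_lit 0) (XT.lf (nat_lit 0) (nat_lit 12610770793) (nat_lit 152) (nat_lit 3907776763) (nat_lit 228) (nat_lit 6965973612) (nat_lit 95) (nat_lit 5) (nat_lit 97) (nat_lit 5) (nat_lit 98) (nat_lit 5) (nat_lit 497) (nat_lit 402) (nat_lit 301)) (XT.lf (nat_lit 0) (nat_lit 4124687279) (nat_lit 152) (nat_lit 19759996975) (nat_lit 228) (nat_lit 57313366) (nat_lit 93) (nat_lit 5) (nat_lit 95) (nat_lit 5) (nat_lit 96) (nat_lit 4) (nat_lit 498) (nat_lit 402) (nat_lit 300))) (XT.nd (nat_lit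 78) (nat_lit 152) (nat_lit 0) (XT.lf (nat_lit 0) (nat_lit 7048100817) (nat_lit 228) (nat_lit 4762863504) (nat_lit 76) (nat_lit 12596381967) (nat_lit 92) (nat_lit 5) (nat_lit 95) (nat_lit 5) (nat_lit 93) (nat_lit 5) (nat_lit 499) (nat_lit 402) (nat_lit 299)) (XT.lf (nat_lit 0) (nat_lit 10915545188) (nat_lit 152) (nat_lit 3533209514) (nat_lit 228) (nat_lit 10435387262) (nat_lit 90) (nat_lit 5) (nat_lit 92) (nat_lit 5) (nat_lit 93) (nat_lit 5) (nat_lit 500) (nat_lit 402) (nat_lit 298))))) (XT.nd (nat_lit 312) (nat_lit 380) (nat_lit 0) (XT.nd (nat_lit 156) (nat_lit 152) (nat_lit 0) (XT.nd (nat_lit 78) (nat_lit 76) (nat_lit 0) (XT.lf (nat_lit 0) (nat_lit 1733313136) (nat_lit 76) (nat_lit 20429720083) (nat_lit 152) (nat_lit 3209460577) (nat_lit 89) (nat_lit 5) (nat_lit 90) (nat_lit 5) (nat_lit 91) (nat_lit 4) (nat_lit 501) (nat_lit 402) (nat_lit 297)) (XT.lf (nat_lit 0) (nat_lit 4306484632) (nat_lit 152) (nat_lit 7795929929)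 (nat_lit 76) (nat_lit 13767185858) (nat_lit 88) (nat_lit 5) (nat_lit 90) (nat_lit 5) (nat_lit 89) (nat_lit 5) (nat_lit 502) (nat_lit 402) (nat_lit 296))) (XT.nd (nat_lit 78) (nat_lit 0) (nat_lit 0) (XT.lf (nat_lit 0) (nat_lit 8620003260) (nat_lit 152) (nat_lit 3425299734) (nat_lit 228) (nat_lit 14333507288) (nat_lit 86) (nat_lit 5) (nat_lit 88) (nat_lit 5) (nat_lit 89) (nat_lit 5) (nat_lit 503) (nat_lit 402) (nat_lit 295)) (XT.lf (nat_lit 0) (nat_lit 20127882268) (nat_lit 228) (nat_lit 1305589015) (nat_lit 76) (nat_lit 5466477653) (nat_lit 86) (nat_lit 5) (nat_lit 89) (nat_lit 5) (nat_lit 87) (nat_lit 4) (nat_lit 504) (nat_lit 402) (nat_lit 294)))) (XT.nd (nat_lit 156) (nat_lit 76) (nat_lit 0) (XT.nd (nat_lit 78) (nat_lit 152) (nat_lit 0) (XT.lf (nat_lit 0) (nat_lit 1164303302) (nat_lit 152) (nat_lit 11563949778) (nat_lit 76) (nat_lit 14703138494) (nat_lit 84) (nat_lit 5) (nat_lit 86) (nat_lit 5) (nat_lit 85) (nat_lit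 5) (nat_lit 505) (nat_lit 402) (nat_lit 293)) (XT.lf (nat_lit 0) (nat_lit 5608298027) (nat_lit 152) (nat_lit 3641325647) (nat_lit 228) (nat_lit 18725733532) (nat_lit 82) (nat_lit 5) (nat_lit 84) (nat_lit 5) (nat_lit 85) (nat_lit 5) (nat_lit 506) (nat_lit 402) (nat_lit 292))) (XT.nd (nat_lit 78) (nat_lit 76) (nat_lit 0) (XT.lf (nat_lit 0) (nat_lit 17730205234) (nat_lit 228) (nat_lit 5093562306) (nat_lit 76) (nat_lit 5707293563) (nat_lit 82) (nat_lit 5) (nat_lit 85) (nat_lit 5) (nat_lit 83) (nat_lit 4) (nat_lit 507) (nat_lit 402) (nat_lit 291)) (XT.lf (nat_lit 0) (nat_lit 12876396771) (nat_lit 76) (nat_lit 13729029453) (nat_lit 152) (nat_lit 2493803567) (nat_lit 81) (nat_lit 5) (nat_lit 82) (nat_lit 5) (nat_lit 83) (nat_lit 4) (nat_lit 508) (nat_lit 402) (nat_lit 290)))))) (XT.nd (nat_lit 624) (nat_lit 608) (nat_lit 0) (XT.nd (nat_lit 312) (nat_lit 456) (nat_lit 0) (XT.nd (nat_lit 156) (nat_lit 152) (nat_lit 0) (XT.nd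 (nat_lit 78) (nat_lit 0) (nat_lit 0) (XT.lf (nat_lit 0) (nat_lit 1745255515) (nat_lit 152) (nat_lit 4248045562) (nat_lit 228) (nat_lit 23687920259) (nat_lit 78) (nat_lit 5) (nat_lit 80) (nat_lit 5) (nat_lit 81) (nat_lit 5) (nat_lit 509) (nat_lit 402) (nat_lit 289)) (XT.lf (nat_lit 0) (nat_lit 14883845827) (nat_lit 228) (nat_lit 9807203793) (nat_lit 76) (nat_lit 5582914081) (nat_lit 78) (nat_lit 5) (nat_lit 81) (nat_lit 5) (nat_lit 79) (nat_lit 4) (nat_lit 510) (nat_lit 402) (nat_lit 288))) (XT.nd (nat_lit 78) (nat_lit 76) (nat_lit 0) (XT.lf (nat_lit 0) (nat_lit 8962291316) (nat_lit 76) (nat_lit 15188068096) (nat_lit 152) (nat_lit 6730851644) (nat_lit 77) (nat_lit 5) (nat_lit 78) (nat_lit 5) (nat_lit 79) (nat_lit 4) (nat_lit 511) (nat_lit 402) (nat_lit 287)) (XT.lf (nat_lit 0) (nat_lit 2226572751) (nat_lit 152) (nat_lit 3065791364) (nat_lit 76) (nat_lit 26211248581) (nat_lit 76) (nat_lit 5) (nat_lit 78) (nat_lit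 5) (nat_lit 77) (nat_lit 5) (nat_lit 512) (nat_lit 402) (nat_lit 286)))) (XT.nd (nat_lit 156) (nat_lit 228) (nat_lit 0) (XT.nd (nat_lit 78) (nat_lit 76) (nat_lit 0) (XT.lf (nat_lit 0) (nat_lit 11507562620) (nat_lit 228) (nat_lit 15612851618) (nat_lit 76) (nat_lit 5016569368) (nat_lit 74) (nat_lit 5) (nat_lit 77) (nat_lit 5) (nat_lit 75) (nat_lit 4) (nat_lit 513) (nat_lit 402) (nat_lit 285)) (XT.lf (nat_lit 0) (nat_lit 3965875684) (nat_lit 76) (nat_lit 17204555862) (nat_lit 152) (nat_lit 11615820879) (nat_lit 73) (nat_lit 5) (nat_lit 74) (nat_lit 5) (nat_lit 75) (nat_lit 4) (nat_lit 514) (nat_lit 402) (nat_lit 284))) (XT.nd (nat_lit 78) (nat_lit 228) (nat_lit 0) (XT.lf (nat_lit 0) (nat_lit 24417377344) (nat_lit 76) (nat_lit 6845331848) (nat_lit 152) (nat_lit 2188104694) (nat_lit 73) (nat_lit 5) (nat_lit 74) (nat_lit 5) (nat_lit 75) (nat_lit 4) (nat_lit 515) (nat_lit 402) (nat_lit 283)) (XT.lf (nat_lit 0) (nat_lit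 7506490695) (nat_lit 228) (nat_lit 22704251966) (nat_lit 76) (nat_lit 3918475331) (nat_lit 70) (nat_lit 5) (nat_lit 73) (nat_lit 5) (nat_lit 71) (nat_lit 4) (nat_lit 516) (nat_lit 402) (nat_lit 282))))) (XT.nd (nat_lit 312) (nat_lit 304) (nat_lit 0) (XT.nd (nat_lit 156) (nat_lit 228) (nat_lit 0) (XT.nd (nat_lit 78) (nat_lit 76) (nat_lit 0) (XT.lf (nat_lit 0) (nat_lit 17590101196) (nat_lit 228) (nat_lit 2267304818) (nat_lit 76) (nat_lit 14965653830) (nat_lit 70) (nat_lit 5) (nat_lit 73) (nat_lit 5) (nat_lit 71) (nat_lit 4) (nat_lit 517) (nat_lit 402) (nat_lit 281)) (XT.lf (nat_lit 0) (nat_lit 19122876526) (nat_lit 76) (nat_lit 9019938311) (nat_lit 152) (nat_lit 7389904495) (nat_lit 69) (nat_lit 5) (nat_lit 70) (nat_lit 5) (nat_lit 71) (nat_lit 4) (nat_lit 518) (nat_lit 402) (nat_lit 280))) (XT.nd (nat_lit 78) (nat_lit 0) (nat_lit 0) (XT.lf (nat_lit 0) (nat_lit 2769961102) (nat_lit 228) (nat_lit 31307015790) (nat_lit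 76) (nat_lit 2183644783) (nat_lit 66) (nat_lit 5) (nat_lit 69) (nat_lit 5) (nat_lit 67) (nat_lit 4) (nat_lit 519) (nat_lit 402) (nat_lit 279)) (XT.lf (nat_lit 0) (nat_lit 13325575236) (nat_lit 228) (nat_lit 9908245630) (nat_lit 76) (nat_lit 13767160939) (nat_lit 66) (nat_lit 5) (nat_lit 69) (nat_lit 5) (nat_lit 67) (nat_lit 4) (nat_lit 520) (nat_lit 402) (nat_lit 278)))) (XT.nd (nat_lit 156) (nat_lit 228) (nat_lit 0) (XT.nd (nat_lit 78) (nat_lit 0) (nat_lit 0) (XT.lf (nat_lit 0) (nat_lit 12341187160) (nat_lit 76) (nat_lit 11958629936) (nat_lit 152) (nat_lit 13460677065) (nat_lit 65) (nat_lit 5) (nat_lit 66) (nat_lit 5) (nat_lit 67) (nat_lit 4) (nat_lit 521) (nat_lit 402) (nat_lit 277)) (XT.lf (nat_lit 0) (nat_lit 35429405686) (nat_lit 76) (nat_lit 257442482) (nat_lit 152) (nat_lit 2853437057) (nat_lit 65) (nat_lit 5) (nat_lit 66) (nat_lit 5) (nat_lit 67) (nat_lit 4) (nat_lit 522) (nat_lit 402) (nat_lit 276))) (XT.nd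 (nat_lit 78) (nat_lit 76) (nat_lit 0) (XT.lf (nat_lit 0) (nat_lit 8207961911) (nat_lit 152) (nat_lit 19300508193) (nat_lit 76) (nat_lit 11823868628) (nat_lit 63) (nat_lit 5) (nat_lit 65) (nat_lit 5) (nat_lit 64) (nat_lit 4) (nat_lit 523) (nat_lit 402) (nat_lit 275)) (XT.lf (nat_lit 0) (nat_lit 3797131258) (nat_lit 76) (nat_lit 15801354916) (nat_lit 152) (nat_lit 20547181256) (nat_lit 62) (nat_lit 5) (nat_lit 63) (nat_lit 5) (nat_lit 64) (nat_lit 4) (nat_lit 524) (nat_lit 402) (nat_lit 274))))))) (XT.nd (nat_lit 1170) (nat_lit 836) (nat_lit 0) (XT.nd (nat_lit 546) (nat_lit 456) (nat_lit 0) (XT.nd (nat_lit 234) (nat_lit 304) (nat_lit 0) (XT.nd (nat_lit 78) (nat_lit 152) (nat_lit 0) (XT.lf (nat_lit 0) (nat_lit 27952414489) (nat_lit 76) (nat_lit 3557242248) (nat_lit 152) (nat_lit 9468371509) (nat_lit 62) (nat_lit 5) (nat_lit 63) (nat_lit 5) (nat_lit 64) (nat_lit 4) (nat_lit 525) (nat_lit 402) (nat_lit 273)) (XT.nd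 (nat_lit 78) (nat_lit 0) (nat_lit 0) (XT.lf (nat_lit 0) (nat_lit 2084710231) (nat_lit 152) (nat_lit 30754320972) (nat_lit 76) (nat_lit 8990374022) (nat_lit 60) (nat_lit 5) (nat_lit 62) (nat_lit 5) (nat_lit 61) (nat_lit 4) (nat_lit 526) (nat_lit 402) (nat_lit 272)) (XT.lf (nat_lit 0) (nat_lit 13946507232) (nat_lit 152) (nat_lit 6697196122) (nat_lit 76) (nat_lit 22055235100) (nat_lit 60) (nat_lit 5) (nat_lit 62) (nat_lit 5) (nat_lit 61) (nat_lit 4) (nat_lit 527) (nat_lit 402) (nat_lit 271)))) (XT.nd (nat_lit 156) (nat_lit 228) (nat_lit 0) (XT.nd (nat_lit 78) (nat_lit 0) (nat_lit 0) (XT.lf (nat_lit 0) (nat_lit 18411434974) (nat_lit 76) (nat_lit 7914532342) (nat_lit 152) (nat_lit 17263736244) (nat_lit 59) (nat_lit 5) (nat_lit 60) (nat_lit 5) (nat_lit 61) (nat_lit 4) (nat_lit 528) (nat_lit 402) (nat_lit 270)) (XT.lf (nat_lit 0) (nat_lit 39179913615) (nat_lit 152) (nat_lit 174679529) (nat_lit 0) (nat_lit 5149505551)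 (nat_lit 59) (nat_lit 5) (nat_lit 61) (nat_lit 4) (nat_lit 59) (nat_lit 4) (nat_lit 529) (nat_lit 402) (nat_lit 269))) (XT.nd (nat_lit 78) (nat_lit 76) (nat_lit 0) (XT.lf (nat_lit 0) (nat_lit 7153956806) (nat_lit 152) (nat_lit 19527709497) (nat_lit 76) (nat_lit 18752754004) (nat_lit 57) (nat_lit 5) (nat_lit 59) (nat_lit 5) (nat_lit 58) (nat_lit 4) (nat_lit 530) (nat_lit 402) (nat_lit 268)) (XT.lf (nat_lit 0) (nat_lit 6425519413) (nat_lit 76) (nat_lit 13522764969) (nat_lit 152) (nat_lit 26441320312) (nat_lit 56) (nat_lit 5) (nat_lit 57) (nat_lit 5) (nat_lit 58) (nat_lit 4) (nat_lit 531) (nat_lit 402) (nat_lit 267))))) (XT.nd (nat_lit 312) (nat_lit 228) (nat_lit 0) (XT.nd (nat_lit 156) (nat_lit 152) (nat_lit 0) (XT.nd (nat_lit 78) (nat_lit 76) (nat_lit 0) (XT.lf (nat_lit 0) (nat_lit 33311209906) (nat_lit 152) (nat_lit 13840814995) (nat_lit 0) (nat_lit 215876802) (nat_lit 56) (nat_lit 5) (nat_lit 58) (nat_lit 4) (nat_lit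 56) (nat_lit 4) (nat_lit 532) (nat_lit 402) (nat_lit 266)) (XT.lf (nat_lit 0) (nat_lit 13161242479) (nat_lit 76) (nat_lit 34159937847) (nat_lit 76) (nat_lit 1046982712) (nat_lit 55) (nat_lit 4) (nat_lit 56) (nat_lit 5) (nat_lit 56) (nat_lit 4) (nat_lit 533) (nat_lit 402) (nat_lit 265))) (XT.nd (nat_lit 78) (nat_lit 76) (nat_lit 0) (XT.lf (nat_lit 0) (nat_lit 12238879329) (nat_lit 152) (nat_lit 8285138863) (nat_lit 76) (nat_lit 28867044393) (nat_lit 54) (nat_lit 5) (nat_lit 56) (nat_lit 5) (nat_lit 55) (nat_lit 4) (nat_lit 534) (nat_lit 402) (nat_lit 264)) (XT.lf (nat_lit 0) (nat_lit 19793120687) (nat_lit 76) (nat_lit 6285596083) (nat_lit 152) (nat_lit 24360328198) (nat_lit 53) (nat_lit 5) (nat_lit 54) (nat_lit 5) (nat_lit 55) (nat_lit 4) (nat_lit 535) (nat_lit 402) (nat_lit 263)))) (XT.nd (nat_lit 156) (nat_lit 76) (nat_lit 0) (XT.nd (nat_lit 78) (nat_lit 152) (nat_lit 0) (XT.lf (nat_lit 0) (nat_lit 40484993259)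 (nat_lit 152) (nat_lit 2740837286) (nat_lit 0) (nat_lit 8288099073) (nat_lit 53) (nat_lit 5) (nat_lit 55) (nat_lit 4) (nat_lit 53) (nat_lit 4) (nat_lit 536) (nat_lit 402) (nat_lit 262)) (XT.lf (nat_lit 0) (nat_lit 2955544469) (nat_lit 152) (nat_lit 26212339831) (nat_lit 76) (nat_lit 23443220881) (nat_lit 51) (nat_lit 5) (nat_lit 53) (nat_lit 5) (nat_lit 52) (nat_lit 4) (nat_lit 537) (nat_lit 402) (nat_lit 261))) (XT.nd (nat_lit 78) (nat_lit 0) (nat_lit 0) (XT.lf (nat_lit 0) (nat_lit 2644217096) (nat_lit 76) (nat_lit 14533650083) (nat_lit 152) (nat_lit 36558853672) (nat_lit 50) (nat_lit 5) (nat_lit 51) (nat_lit 5) (nat_lit 52) (nat_lit 4) (nat_lit 538) (nat_lit 402) (nat_lit 260)) (XT.lf (nat_lit 0) (nat_lit 32085986843) (nat_lit 152) (nat_lit 22018475649) (nat_lit 0) (nat_lit 783868783) (nat_lit 50) (nat_lit 5) (nat_lit 52) (nat_lit 4) (nat_lit 50) (nat_lit 4) (nat_lit 539) (nat_lit 402) (nat_lit 259)))))) (XT.nd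 (nat_lit 624) (nat_lit 380) (nat_lit 0) (XT.nd (nat_lit 312) (nat_lit 228) (nat_lit 0) (XT.nd (nat_lit 156) (nat_lit 76) (nat_lit 0) (XT.nd (nat_lit 78) (nat_lit 76) (nat_lit 0) (XT.lf (nat_lit 0) (nat_lit 7912746367) (nat_lit 76) (nat_lit 39735579179) (nat_lit 76) (nat_lit 8419955300) (nat_lit 49) (nat_lit 4) (nat_lit 50) (nat_lit 5) (nat_lit 50) (nat_lit 4) (nat_lit 540) (nat_lit 402) (nat_lit 258)) (XT.lf (nat_lit 0) (nat_lit 6480705807) (nat_lit 152) (nat_lit 18172903536) (nat_lit 76) (nat_lit 32621828740) (nat_lit 48) (nat_lit 5) (nat_lit 50) (nat_lit 5) (nat_lit 49) (nat_lit 4) (nat_lit 541) (nat_lit 402) (nat_lit 257))) (XT.nd (nat_lit 78) (nat_lit 0) (nat_lit 0) (XT.lf (nat_lit 0) (nat_lit 12851826260) (nat_lit 76) (nat_lit 8918268870) (nat_lit 152) (nat_lit 36742885785) (nat_lit 47) (nat_lit 5) (nat_lit 48) (nat_lit 5) (nat_lit 49) (nat_lit 4) (nat_lit 542) (nat_lit 402) (nat_lit 256)) (XT.lf (nat_lit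 0) (nat_lit 37760977577) (nat_lit 152) (nat_lit 14699018967) (nat_lit 0) (nat_lit 7320369234) (nat_lit 47) (nat_lit 5) (nat_lit 49) (nat_lit 4) (nat_lit 47) (nat_lit 4) (nat_lit 543) (nat_lit 402) (nat_lit 255)))) (XT.nd (nat_lit 156) (nat_lit 76) (nat_lit 0) (XT.nd (nat_lit 78) (nat_lit 76) (nat_lit 0) (XT.lf (nat_lit 0) (nat_lit 17419506790) (nat_lit 76) (nat_lit 37055609091) (nat_lit 76) (nat_lit 6603350509) (nat_lit 46) (nat_lit 4) (nat_lit 47) (nat_lit 5) (nat_lit 47) (nat_lit 4) (nat_lit 544) (nat_lit 402) (nat_lit 254)) (XT.lf (nat_lit 0) (nat_lit 9231866732) (nat_lit 152) (nat_lit 11722880025) (nat_lit 76) (nat_lit 41453957877) (nat_lit 45) (nat_lit 5) (nat_lit 47) (nat_lit 5) (nat_lit 46) (nat_lit 4) (nat_lit 545) (nat_lit 402) (nat_lit 253))) (XT.nd (nat_lit 78) (nat_lit 0) (nat_lit 0) (XT.lf (nat_lit 0) (nat_lit 21502088797) (nat_lit 76) (nat_lit 4102167241) (nat_lit 152) (nat_lit 38166787584) (nat_lit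 44) (nat_lit 5) (nat_lit 45) (nat_lit 5) (nat_lit 46) (nat_lit 4) (nat_lit 546) (nat_lit 402) (nat_lit 252)) (XT.lf (nat_lit 0) (nat_lit 42702949658) (nat_lit 152) (nat_lit 9358593325) (nat_lit 0) (nat_lit 13105655892) (nat_lit 44) (nat_lit 5) (nat_lit 46) (nat_lit 4) (nat_lit 44) (nat_lit 4) (nat_lit 547) (nat_lit 402) (nat_lit 251))))) (XT.nd (nat_lit 312) (nat_lit 152) (nat_lit 0) (XT.nd (nat_lit 156) (nat_lit 76) (nat_lit 0) (XT.nd (nat_lit 78) (nat_lit 76) (nat_lit 0) (XT.lf (nat_lit 0) (nat_lit 24962851088) (nat_lit 76) (nat_lit 35620829422) (nat_lit 76) (nat_lit 6013486058) (nat_lit 43) (nat_lit 4) (nat_lit 44) (nat_lit 5) (nat_lit 44) (nat_lit 4) (nat_lit 548) (nat_lit 402) (nat_lit 250)) (XT.lf (nat_lit 0) (nat_lit 10801448359) (nat_lit 152) (nat_lit 7690160086) (nat_lit 76) (nat_lit 49572754281) (nat_lit 42) (nat_lit 5) (nat_lit 44) (nat_lit 5) (nat_lit 43) (nat_lit 4) (nat_lit 549) (nat_lit 402) (nat_lit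 249))) (XT.nd (nat_lit 78) (nat_lit 0) (nat_lit 0) (XT.lf (nat_lit 0) (nat_lit 27731857566) (nat_lit 76) (nat_lit 523526931) (nat_lit 152) (nat_lit 41310741589) (nat_lit 41) (nat_lit 5) (nat_lit 42) (nat_lit 5) (nat_lit 43) (nat_lit 4) (nat_lit 550) (nat_lit 402) (nat_lit 248)) (XT.lf (nat_lit 0) (nat_lit 46473086617) (nat_lit 152) (nat_lit 6932156755) (nat_lit 0) (nat_lit 17700494606) (nat_lit 41) (nat_lit 5) (nat_lit 43) (nat_lit 4) (nat_lit 41) (nat_lit 4) (nat_lit 551) (nat_lit 402) (nat_lit 247)))) (XT.nd (nat_lit 50856) (nat_lit 0) (nat_lit 30552) (XT.nd (nat_lit 78) (nat_lit 76) (nat_lit 0) (XT.lf (nat_lit 0) (nat_lit 29567361464) (nat_lit 76) (nat_lit 35948540127) (nat_lit 76) (nat_lit 7167279245) (nat_lit 40) (nat_lit 4) (nat_lit 41) (nat_lit 5) (nat_lit 41) (nat_lit 4) (nat_lit 552) (nat_lit 402) (nat_lit 246)) (XT.lf (nat_lit 0) (nat_lit 10670754857) (nat_lit 152) (nat_lit 7128044902) (nat_lit 76) (nat_lit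 56504230093) (nat_lit 39) (nat_lit 5) (nat_lit 41) (nat_lit 5) (nat_lit 40) (nat_lit 4) (nat_lit 553) (nat_lit 402) (nat_lit 245))) (XT.nd (nat_lit 78) (nat_lit 380) (nat_lit 0) (XT.lf (nat_lit 0) (nat_lit 1272104568) (nat_lit 0) (nat_lit 1272104568) (nat_lit 228) (nat_lit 695776830) (nat_lit 446) (nat_lit 5) (nat_lit 446) (nat_lit 3) (nat_lit 449) (nat_lit 3) (nat_lit 403) (nat_lit 403) (nat_lit 394)) (XT.lf (nat_lit 0) (nat_lit 1378503255) (nat_lit 380) (nat_lit 701930639) (nat_lit 380) (nat_lit 4413808117) (nat_lit 441) (nat_lit 3) (nat_lit 446) (nat_lit 3) (nat_lit 446) (nat_lit 5) (nat_lit 404) (nat_lit 403) (nat_lit 393))))))))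
noncomputable def xc103 : XT := (XT.nd (nat_lit 2418) (nat_lit 8816) (nat_lit 0) (XT.nd (nat_lit 1170) (nat_lit 9120) (nat_lit 0) (XT.nd (nat_lit 546) (nat_lit 2660) (nat_lit 0) (XT.nd (nat_lit 234) (nat_lit 912) (nat_lit 0) (XT.nd (nat_lit 78) (nat_lit 380) (nat_lit 0) (XT.lf (nat_lit 76) (nat_lit 2610530092) (nat_lit 0) (nat_lit 1510410395) (nat_lit 380) (nat_lit 2390085953) (nat_lit 442) (nat_lit 5) (nat_lit 441) (nat_lit 3) (nat_lit 446) (nat_lit 5) (nat_lit 405) (nat_lit 403) (nat_lit 392)) (XT.nd (nat_lit 78) (nat_lit 0) (nat_lit 0) (XT.lf (nat_lit 0) (nat_lit 310058757) (nat_lit 380) (nat_lit 552566424) (nat_lit 456) (nat_lit 5668558917) (nat_lit 436) (nat_lit 5) (nat_lit 441) (nat_lit 3) (nat_lit 442) (nat_lit 5) (nat_lit 406) (nat_lit 403) (nat_lit 391)) (XT.lf (nat_lit 76) (nat_lit 2872722172) (nat_lit 0) (nat_lit 94865287) (nat_lit 456) (nat_lit 3585932124) (nat_lit 437) (nat_lit 5) (nat_lit 436) (nat_lit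 5) (nat_lit 442) (nat_lit 5) (nat_lit 407) (nat_lit 403) (nat_lit 390)))) (XT.nd (nat_lit 156) (nat_lit 532) (nat_lit 0) (XT.nd (nat_lit 78) (nat_lit 456) (nat_lit 0) (XT.lf (nat_lit 0) (nat_lit 5616888314) (nat_lit 380) (nat_lit 229411320) (nat_lit 456) (nat_lit 732879220) (nat_lit 437) (nat_lit 5) (nat_lit 442) (nat_lit 5) (nat_lit 443) (nat_lit 5) (nat_lit 408) (nat_lit 403) (nat_lit 389)) (XT.lf (nat_lit 0) (nat_lit 1641073122) (nat_lit 456) (nat_lit 3290732798) (nat_lit 532) (nat_lit 1675265399) (nat_lit 431) (nat_lit 5) (nat_lit 437) (nat_lit 5) (nat_lit 438) (nat_lit 5) (nat_lit 409) (nat_lit 403) (nat_lit 388))) (XT.nd (nat_lit 78) (nat_lit 532) (nat_lit 0) (XT.lf (nat_lit 76) (nat_lit 275178805) (nat_lit 0) (nat_lit 3936985553) (nat_lit 532) (nat_lit 2426095167) (nat_lit 432) (nat_lit 5) (nat_lit 431) (nat_lit 5) (nat_lit 438) (nat_lit 5) (nat_lit 410) (nat_lit 403) (nat_lit 387)) (XT.lf (nat_lit 0) (nat_lit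 125141494) (nat_lit 532) (nat_lit 2715418944) (nat_lit 608) (nat_lit 3831615853) (nat_lit 424) (nat_lit 5) (nat_lit 431) (nat_lit 5) (nat_lit 432) (nat_lit 5) (nat_lit 411) (nat_lit 403) (nat_lit 386))))) (XT.nd (nat_lit 312) (nat_lit 2128) (nat_lit 0) (XT.nd (nat_lit 156) (nat_lit 532) (nat_lit 0) (XT.nd (nat_lit 78) (nat_lit 0) (nat_lit 0) (XT.lf (nat_lit 76) (nat_lit 979086013) (nat_lit 0) (nat_lit 1642522651) (nat_lit 608) (nat_lit 4087270262) (nat_lit 425) (nat_lit 5) (nat_lit 424) (nat_lit 5) (nat_lit 432) (nat_lit 5) (nat_lit 412) (nat_lit 403) (nat_lit 385)) (XT.lf (nat_lit 76) (nat_lit 4782983530) (nat_lit 0) (nat_lit 347580065) (nat_lit 608) (nat_lit 1618003518) (nat_lit 425) (nat_lit 5) (nat_lit 424) (nat_lit 5) (nat_lit 432) (nat_lit 5) (nat_lit 413) (nat_lit 403) (nat_lit 384))) (XT.nd (nat_lit 78) (nat_lit 0) (nat_lit 0) (XT.lf (nat_lit 0) (nat_lit 847335700) (nat_lit 608) (nat_lit 4919156793) (nat_lit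 76) (nat_lit 1024496648) (nat_lit 417) (nat_lit 5) (nat_lit 425) (nat_lit 5) (nat_lit 418) (nat_lit 5) (nat_lit 414) (nat_lit 403) (nat_lit 383)) (XT.lf (nat_lit 0) (nat_lit 3291819620) (nat_lit 608) (nat_lit 1048605314) (nat_lit 76) (nat_lit 2495658402) (nat_lit 417) (nat_lit 5) (nat_lit 425) (nat_lit 5) (nat_lit 418) (nat_lit 5) (nat_lit 415) (nat_lit 403) (nat_lit 382)))) (XT.nd (nat_lit 156) (nat_lit 760) (nat_lit 0) (XT.nd (nat_lit 78) (nat_lit 760) (nat_lit 0) (XT.lf (nat_lit 0) (nat_lit 2937596980) (nat_lit 608) (nat_lit 2816995896) (nat_lit 684) (nat_lit 1129599752) (nat_lit 409) (nat_lit 5) (nat_lit 417) (nat_lit 5) (nat_lit 418) (nat_lit 5) (nat_lit 416) (nat_lit 403) (nat_lit 381)) (XT.lf (nat_lit 0) (nat_lit 60612994) (nat_lit 684) (nat_lit 1199453790) (nat_lit 760) (nat_lit 5675425654) (nat_lit 399) (nat_lit 5) (nat_lit 408) (nat_lit 5) (nat_lit 409) (nat_lit 5) (nat_lit 417) (nat_lit 403) (nat_lit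 380))) (XT.nd (nat_lit 78) (nat_lit 760) (nat_lit 0) (XT.lf (nat_lit 0) (nat_lit 3663275377) (nat_lit 760) (nat_lit 2795186457) (nat_lit 76) (nat_lit 530607196) (nat_lit 399) (nat_lit 5) (nat_lit 409) (nat_lit 5) (nat_lit 400) (nat_lit 5) (nat_lit 418) (nat_lit 403) (nat_lit 379)) (XT.lf (nat_lit 0) (nat_lit 1362456601) (nat_lit 760) (nat_lit 4723254474) (nat_lit 836) (nat_lit 960137619) (nat_lit 389) (nat_lit 5) (nat_lit 399) (nat_lit 5) (nat_lit 400) (nat_lit 5) (nat_lit 419) (nat_lit 403) (nat_lit 378)))))) (XT.nd (nat_lit 624) (nat_lit 3952) (nat_lit 0) (XT.nd (nat_lit 312) (nat_lit 3268) (nat_lit 0) (XT.nd (nat_lit 156) (nat_lit 988) (nat_lit 0) (XT.nd (nat_lit 78) (nat_lit 836) (nat_lit 0) (XT.lf (nat_lit 0) (nat_lit 1399281304) (nat_lit 836) (nat_lit 1475940879) (nat_lit 76) (nat_lit 4230144774) (nat_lit 388) (nat_lit 5) (nat_lit 399) (nat_lit 5) (nat_lit 389) (nat_lit 5) (nat_lit 420) (nat_lit 403) (nat_lit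 377)) (XT.lf (nat_lit 0) (nat_lit 2845391123) (nat_lit 836) (nat_lit 917484761) (nat_lit 912) (nat_lit 3404937844) (nat_lit 377) (nat_lit 5) (nat_lit 388) (nat_lit 5) (nat_lit 389) (nat_lit 5) (nat_lit 421) (nat_lit 403) (nat_lit 376))) (XT.nd (nat_lit 78) (nat_lit 76) (nat_lit 0) (XT.lf (nat_lit 0) (nat_lit 24564718) (nat_lit 912) (nat_lit 6125770484) (nat_lit 988) (nat_lit 1083218610) (nat_lit 365) (nat_lit 5) (nat_lit 377) (nat_lit 5) (nat_lit 378) (nat_lit 5) (nat_lit 422) (nat_lit 403) (nat_lit 375)) (XT.lf (nat_lit 0) (nat_lit 1263730770) (nat_lit 988) (nat_lit 2792467771) (nat_lit 76) (nat_lit 3245265276) (nat_lit 364) (nat_lit 5) (nat_lit 377) (nat_lit 5) (nat_lit 365) (nat_lit 5) (nat_lit 423) (nat_lit 403) (nat_lit 374)))) (XT.nd (nat_lit 156) (nat_lit 2280) (nat_lit 0) (XT.nd (nat_lit 78) (nat_lit 0) (nat_lit 0) (XT.lf (nat_lit 0) (nat_lit 1720180218) (nat_lit 988) (nat_lit 1885712189) (nat_lit 1064)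 (nat_lit 3766807593) (nat_lit 351) (nat_lit 5) (nat_lit 364) (nat_lit 5) (nat_lit 365) (nat_lit 5) (nat_lit 424) (nat_lit 403) (nat_lit 373)) (XT.lf (nat_lit 0) (nat_lit 5981768668) (nat_lit 1064) (nat_lit 1084206771) (nat_lit 76) (nat_lit 381201990) (nat_lit 351) (nat_lit 5) (nat_lit 365) (nat_lit 5) (nat_lit 352) (nat_lit 5) (nat_lit 425) (nat_lit 403) (nat_lit 372))) (XT.nd (nat_lit 78) (nat_lit 1140) (nat_lit 0) (XT.lf (nat_lit 0) (nat_lit 874246776) (nat_lit 1140) (nat_lit 3918867064) (nat_lit 76) (nat_lit 2730915311) (nat_lit 336) (nat_lit 5) (nat_lit 351) (nat_lit 5) (nat_lit 337) (nat_lit 5) (nat_lit 426) (nat_lit 403) (nat_lit 371)) (XT.lf (nat_lit 0) (nat_lit 795737071) (nat_lit 1140) (nat_lit 2411929589) (nat_lit 1216) (nat_lit 4396500663) (nat_lit 321) (nat_lit 5) (nat_lit 336) (nat_lit 5) (nat_lit 337) (nat_lit 5) (nat_lit 427) (nat_lit 403) (nat_lit 370))))) (XT.nd (nat_lit 312) (nat_lit 1824) (nat_lit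 0) (XT.nd (nat_lit 156) (nat_lit 836) (nat_lit 0) (XT.nd (nat_lit 78) (nat_lit 1292) (nat_lit 0) (XT.lf (nat_lit 0) (nat_lit 5587160909) (nat_lit 1216) (nat_lit 2015346257) (nat_lit 76) (nat_lit 84927125) (nat_lit 321) (nat_lit 5) (nat_lit 337) (nat_lit 5) (nat_lit 322) (nat_lit 5) (nat_lit 428) (nat_lit 403) (nat_lit 369)) (XT.lf (nat_lit 0) (nat_lit 248855295) (nat_lit 1292) (nat_lit 4881201673) (nat_lit 76) (nat_lit 2643396858) (nat_lit 304) (nat_lit 5) (nat_lit 321) (nat_lit 5) (nat_lit 305) (nat_lit 5) (nat_lit 429) (nat_lit 403) (nat_lit 368))) (XT.nd (nat_lit 78) (nat_lit 0) (nat_lit 0) (XT.lf (nat_lit 0) (nat_lit 46839991) (nat_lit 836) (nat_lit 2538636388) (nat_lit 912) (nat_lit 5277182992) (nat_lit 293) (nat_lit 5) (nat_lit 304) (nat_lit 5) (nat_lit 305) (nat_lit 5) (nat_lit 430) (nat_lit 403) (nat_lit 367)) (XT.lf (nat_lit 0) (nat_lit 4982696995) (nat_lit 912) (nat_lit 2793292286) (nat_lit 76) (nat_lit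 178842817) (nat_lit 293) (nat_lit 5) (nat_lit 305) (nat_lit 5) (nat_lit 294) (nat_lit 5) (nat_lit 431) (nat_lit 403) (nat_lit 366)))) (XT.nd (nat_lit 156) (nat_lit 1140) (nat_lit 0) (XT.nd (nat_lit 78) (nat_lit 76) (nat_lit 0) (XT.lf (nat_lit 0) (nat_lit 2340970997) (nat_lit 608) (nat_lit 5099731774) (nat_lit 684) (nat_lit 609407048) (nat_lit 285) (nat_lit 5) (nat_lit 293) (nat_lit 5) (nat_lit 294) (nat_lit 5) (nat_lit 432) (nat_lit 403) (nat_lit 365)) (XT.lf (nat_lit 0) (nat_lit 1758892220) (nat_lit 684) (nat_lit 538758383) (nat_lit 76) (nat_lit 5850966156) (nat_lit 284) (nat_lit 5) (nat_lit 293) (nat_lit 5) (nat_lit 285) (nat_lit 5) (nat_lit 433) (nat_lit 403) (nat_lit 364))) (XT.nd (nat_lit 78) (nat_lit 532) (nat_lit 0) (XT.lf (nat_lit 0) (nat_lit 4181942768) (nat_lit 684) (nat_lit 3439999246) (nat_lit 76) (nat_lit 628082725) (nat_lit 276) (nat_lit 5) (nat_lit 285) (nat_lit 5) (nat_lit 277) (nat_lit 5) (nat_lit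 434) (nat_lit 403) (nat_lit 363)) (XT.lf (nat_lit 0) (nat_lit 1931502829) (nat_lit 532) (nat_lit 4737555594) (nat_lit 608) (nat_lit 1685680543) (nat_lit 269) (nat_lit 5) (nat_lit 276) (nat_lit 5) (nat_lit 277) (nat_lit 5) (nat_lit 435) (nat_lit 403) (nat_lit 362))))))) (XT.nd (nat_lit 1248) (nat_lit 3724) (nat_lit 0) (XT.nd (nat_lit 624) (nat_lit 2280) (nat_lit 0) (XT.nd (nat_lit 312) (nat_lit 1596) (nat_lit 0) (XT.nd (nat_lit 156) (nat_lit 532) (nat_lit 0) (XT.nd (nat_lit 78) (nat_lit 608) (nat_lit 0) (XT.lf (nat_lit 0) (nat_lit 733353327) (nat_lit 608) (nat_lit 994520104) (nat_lit 76) (nat_lit 6735100054) (nat_lit 268) (nat_lit 5) (nat_lit 276) (nat_lit 5) (nat_lit 269) (nat_lit 5) (nat_lit 436) (nat_lit 403) (nat_lit 361)) (XT.lf (nat_lit 0) (nat_lit 3195829643) (nat_lit 684) (nat_lit 3975769006) (nat_lit 76) (nat_lit 1402217906) (nat_lit 260) (nat_lit 5) (nat_lit 269) (nat_lit 5) (nat_lit 261) (nat_lit 5) (nat_lit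 437) (nat_lit 403) (nat_lit 360))) (XT.nd (nat_lit 78) (nat_lit 0) (nat_lit 0) (XT.lf (nat_lit 0) (nat_lit 1646910480) (nat_lit 532) (nat_lit 4075969180) (nat_lit 608) (nat_lit 2965388906) (nat_lit 253) (nat_lit 5) (nat_lit 260) (nat_lit 5) (nat_lit 261) (nat_lit 5) (nat_lit 438) (nat_lit 403) (nat_lit 359)) (XT.lf (nat_lit 0) (nat_lit 7461234409) (nat_lit 532) (nat_lit 853235747) (nat_lit 608) (nat_lit 492026611) (nat_lit 253) (nat_lit 5) (nat_lit 260) (nat_lit 5) (nat_lit 261) (nat_lit 5) (nat_lit 439) (nat_lit 403) (nat_lit 358)))) (XT.nd (nat_lit 156) (nat_lit 532) (nat_lit 0) (XT.nd (nat_lit 78) (nat_lit 456) (nat_lit 0) (XT.lf (nat_lit 0) (nat_lit 2032838143) (nat_lit 608) (nat_lit 4419585136) (nat_lit 76) (nat_lit 2474737625) (nat_lit 245) (nat_lit 5) (nat_lit 253) (nat_lit 5) (nat_lit 246) (nat_lit 5) (nat_lit 440) (nat_lit 403) (nat_lit 357)) (XT.lf (nat_lit 0) (nat_lit 1469065485) (nat_lit 456) (nat_lit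 3141206455) (nat_lit 532) (nat_lit 4441429625) (nat_lit 239) (nat_lit 5) (nat_lit 245) (nat_lit 5) (nat_lit 246) (nat_lit 5) (nat_lit 441) (nat_lit 403) (nat_lit 356))) (XT.nd (nat_lit 78) (nat_lit 532) (nat_lit 0) (XT.lf (nat_lit 0) (nat_lit 7263907624) (nat_lit 532) (nat_lit 1616182121) (nat_lit 76) (nat_lit 299926329) (nat_lit 239) (nat_lit 5) (nat_lit 246) (nat_lit 5) (nat_lit 240) (nat_lit 5) (nat_lit 442) (nat_lit 403) (nat_lit 355)) (XT.lf (nat_lit 0) (nat_lit 699146369) (nat_lit 532) (nat_lit 4789434518) (nat_lit 76) (nat_lit 3822579158) (nat_lit 232) (nat_lit 5) (nat_lit 239) (nat_lit 5) (nat_lit 233) (nat_lit 5) (nat_lit 443) (nat_lit 403) (nat_lit 354))))) (XT.nd (nat_lit 312) (nat_lit 912) (nat_lit 0) (XT.nd (nat_lit 156) (nat_lit 912) (nat_lit 0) (XT.nd (nat_lit 78) (nat_lit 0) (nat_lit 0) (XT.lf (nat_lit 0) (nat_lit 1380839480) (nat_lit 456) (nat_lit 1956267680) (nat_lit 532) (nat_lit 6109082885)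 (nat_lit 226) (nat_lit 5) (nat_lit 232) (nat_lit 5) (nat_lit 233) (nat_lit 5) (nat_lit 444) (nat_lit 403) (nat_lit 353)) (XT.lf (nat_lit 0) (nat_lit 6072929151) (nat_lit 532) (nat_lit 1824901311) (nat_lit 76) (nat_lit 1686882361) (nat_lit 226) (nat_lit 5) (nat_lit 233) (nat_lit 5) (nat_lit 227) (nat_lit 5) (nat_lit 445) (nat_lit 403) (nat_lit 352))) (XT.nd (nat_lit 78) (nat_lit 456) (nat_lit 0) (XT.lf (nat_lit 0) (nat_lit 4616353450) (nat_lit 456) (nat_lit 4293275844) (nat_lit 532) (nat_lit 817201332) (nat_lit 220) (nat_lit 5) (nat_lit 226) (nat_lit 5) (nat_lit 227) (nat_lit 5) (nat_lit 446) (nat_lit 403) (nat_lit 351)) (XT.lf (nat_lit 0) (nat_lit 1365788971) (nat_lit 380) (nat_lit 541340676) (nat_lit 456) (nat_lit 7965907165) (nat_lit 214) (nat_lit 5) (nat_lit 219) (nat_lit 5) (nat_lit 220) (nat_lit 5) (nat_lit 447) (nat_lit 403) (nat_lit 350)))) (XT.nd (nat_lit 156) (nat_lit 456) (nat_lit 0) (XT.nd (nat_lit 78)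 (nat_lit 456) (nat_lit 0) (XT.lf (nat_lit 0) (nat_lit 4736837877) (nat_lit 456) (nat_lit 1979606817) (nat_lit 76) (nat_lit 3305742745) (nat_lit 214) (nat_lit 5) (nat_lit 220) (nat_lit 5) (nat_lit 215) (nat_lit 5) (nat_lit 448) (nat_lit 403) (nat_lit 349)) (XT.lf (nat_lit 0) (nat_lit 4775296123) (nat_lit 456) (nat_lit 2884696661) (nat_lit 532) (nat_lit 2515566197) (nat_lit 208) (nat_lit 5) (nat_lit 214) (nat_lit 5) (nat_lit 215) (nat_lit 5) (nat_lit 449) (nat_lit 403) (nat_lit 348))) (XT.nd (nat_lit 78) (nat_lit 0) (nat_lit 0) (XT.lf (nat_lit 0) (nat_lit 332468046) (nat_lit 456) (nat_lit 8936294820) (nat_lit 76) (nat_lit 1064622234) (nat_lit 202) (nat_lit 5) (nat_lit 208) (nat_lit 5) (nat_lit 203) (nat_lit 5) (nat_lit 450) (nat_lit 403) (nat_lit 347)) (XT.lf (nat_lit 0) (nat_lit 3257154699) (nat_lit 456) (nat_lit 2096499073) (nat_lit 76) (nat_lit 5140294680) (nat_lit 202) (nat_lit 5) (nat_lit 208) (nat_lit 5) (nat_lit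 203) (nat_lit 5) (nat_lit 451) (nat_lit 403) (nat_lit 346)))))) (XT.nd (nat_lit 624) (nat_lit 1596) (nat_lit 0) (XT.nd (nat_lit 312) (nat_lit 988) (nat_lit 0) (XT.nd (nat_lit 156) (nat_lit 456) (nat_lit 0) (XT.nd (nat_lit 78) (nat_lit 304) (nat_lit 0) (XT.lf (nat_lit 0) (nat_lit 4990291168) (nat_lit 380) (nat_lit 1286618216) (nat_lit 456) (nat_lit 4382202219) (nat_lit 197) (nat_lit 5) (nat_lit 202) (nat_lit 5) (nat_lit 203) (nat_lit 5) (nat_lit 452) (nat_lit 403) (nat_lit 345)) (XT.lf (nat_lit 0) (nat_lit 1448124666) (nat_lit 304) (nat_lit 7962200178) (nat_lit 380) (nat_lit 1418215402) (nat_lit 193) (nat_lit 5) (nat_lit 197) (nat_lit 5) (nat_lit 198) (nat_lit 5) (nat_lit 453) (nat_lit 403) (nat_lit 344))) (XT.nd (nat_lit 78) (nat_lit 380) (nat_lit 0) (XT.lf (nat_lit 0) (nat_lit 1633451097) (nat_lit 380) (nat_lit 2191907441) (nat_lit 76) (nat_lit 7176304527) (nat_lit 192) (nat_lit 5) (nat_lit 197) (nat_lit 5) (nat_lit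 193) (nat_lit 5) (nat_lit 454) (nat_lit 403) (nat_lit 343)) (XT.lf (nat_lit 0) (nat_lit 4764532582) (nat_lit 456) (nat_lit 5937997750) (nat_lit 76) (nat_lit 476539311) (nat_lit 187) (nat_lit 5) (nat_lit 193) (nat_lit 5) (nat_lit 188) (nat_lit 5) (nat_lit 455) (nat_lit 403) (nat_lit 342)))) (XT.nd (nat_lit 156) (nat_lit 684) (nat_lit 0) (XT.nd (nat_lit 78) (nat_lit 0) (nat_lit 0) (XT.lf (nat_lit 0) (nat_lit 1517198310) (nat_lit 304) (nat_lit 6508884741) (nat_lit 380) (nat_lit 3334621618) (nat_lit 183) (nat_lit 5) (nat_lit 187) (nat_lit 5) (nat_lit 188) (nat_lit 5) (nat_lit 456) (nat_lit 403) (nat_lit 341)) (XT.lf (nat_lit 0) (nat_lit 9263162219) (nat_lit 304) (nat_lit 2144594169) (nat_lit 380) (nat_lit 139366346) (nat_lit 183) (nat_lit 5) (nat_lit 187) (nat_lit 5) (nat_lit 188) (nat_lit 5) (nat_lit 457) (nat_lit 403) (nat_lit 340))) (XT.nd (nat_lit 78) (nat_lit 304) (nat_lit 0) (XT.lf (nat_lit 0) (nat_lit 3129672860)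 (nat_lit 380) (nat_lit 6234849367) (nat_lit 76) (nat_lit 2372521519) (nat_lit 178) (nat_lit 5) (nat_lit 183) (nat_lit 5) (nat_lit 179) (nat_lit 5) (nat_lit 458) (nat_lit 403) (nat_lit 339)) (XT.lf (nat_lit 0) (nat_lit 1590820298) (nat_lit 304) (nat_lit 4926429365) (nat_lit 380) (nat_lit 5414675390) (nat_lit 174) (nat_lit 5) (nat_lit 178) (nat_lit 5) (nat_lit 179) (nat_lit 5) (nat_lit 459) (nat_lit 403) (nat_lit 338))))) (XT.nd (nat_lit 312) (nat_lit 912) (nat_lit 0) (XT.nd (nat_lit 156) (nat_lit 304) (nat_lit 0) (XT.nd (nat_lit 78) (nat_lit 380) (nat_lit 0) (XT.lf (nat_lit 0) (nat_lit 9725436458) (nat_lit 304) (nat_lit 307976209) (nat_lit 380) (nat_lit 2098433389) (nat_lit 174) (nat_lit 5) (nat_lit 178) (nat_lit 5) (nat_lit 179) (nat_lit 5) (nat_lit 460) (nat_lit 403) (nat_lit 337)) (XT.lf (nat_lit 0) (nat_lit 1355459063) (nat_lit 380) (nat_lit 6565698192) (nat_lit 76) (nat_lit 4414313411) (nat_lit 169) (nat_lit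 5) (nat_lit 174) (nat_lit 5) (nat_lit 170) (nat_lit 5) (nat_lit 461) (nat_lit 403) (nat_lit 336))) (XT.nd (nat_lit 78) (nat_lit 0) (nat_lit 0) (XT.lf (nat_lit 0) (nat_lit 1651112866) (nat_lit 304) (nat_lit 3228197888) (nat_lit 380) (nat_lit 7665016250) (nat_lit 165) (nat_lit 5) (nat_lit 169) (nat_lit 5) (nat_lit 170) (nat_lit 5) (nat_lit 462) (nat_lit 403) (nat_lit 335)) (XT.lf (nat_lit 0) (nat_lit 8556663371) (nat_lit 380) (nat_lit 2578004257) (nat_lit 76) (nat_lit 1623349641) (nat_lit 165) (nat_lit 5) (nat_lit 170) (nat_lit 5) (nat_lit 166) (nat_lit 5) (nat_lit 463) (nat_lit 403) (nat_lit 334)))) (XT.nd (nat_lit 156) (nat_lit 304) (nat_lit 0) (XT.nd (nat_lit 78) (nat_lit 304) (nat_lit 0) (XT.lf (nat_lit 0) (nat_lit 6020261100) (nat_lit 304) (nat_lit 6380310897) (nat_lit 380) (nat_lit 575860928) (nat_lit 161) (nat_lit 5) (nat_lit 165) (nat_lit 5) (nat_lit 166) (nat_lit 5) (nat_lit 464) (nat_lit 403) (nat_lit 333))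 (XT.lf (nat_lit 0) (nat_lit 1678767840) (nat_lit 228) (nat_lit 1426982716) (nat_lit 304) (nat_lit 10094471765) (nat_lit 157) (nat_lit 5) (nat_lit 160) (nat_lit 5) (nat_lit 161) (nat_lit 5) (nat_lit 465) (nat_lit 403) (nat_lit 332))) (XT.nd (nat_lit 78) (nat_lit 304) (nat_lit 0) (XT.lf (nat_lit 0) (nat_lit 6959358307) (nat_lit 304) (nat_lit 2807365480) (nat_lit 76) (nat_lit 3661638499) (nat_lit 157) (nat_lit 5) (nat_lit 161) (nat_lit 5) (nat_lit 158) (nat_lit 5) (nat_lit 466) (nat_lit 403) (nat_lit 331)) (XT.lf (nat_lit 0) (nat_lit 6224633256) (nat_lit 304) (nat_lit 4745727036) (nat_lit 380) (nat_lit 2691734128) (nat_lit 153) (nat_lit 5) (nat_lit 157) (nat_lit 5) (nat_lit 158) (nat_lit 5) (nat_lit 467) (nat_lit 403) (nat_lit 330))))))))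
noncomputable def xc104 : XT := (XT.nd (nat_lit 2418) (nat_lit 2736) (nat_lit 0) (XT.nd (nat_lit 1170) (nat_lit 1900) (nat_lit 0) (XT.nd (nat_lit 546) (nat_lit 1216) (nat_lit 0) (XT.nd (nat_lit 234) (nat_lit 760) (nat_lit 0) (XT.nd (nat_lit 78) (nat_lit 228) (nat_lit 0) (XT.lf (nat_lit 0) (nat_lit 1192402087) (nat_lit 304) (nat_lit 12253981062) (nat_lit 76) (nat_lit 455602843) (nat_lit 149) (nat_lit 5) (nat_lit 153) (nat_lit 5) (nat_lit 150) (nat_lit 5) (nat_lit 468) (nat_lit 403) (nat_lit 329)) (XT.nd (nat_lit 78) (nat_lit 228) (nat_lit 0) (XT.lf (nat_lit 0) (nat_lit 5230022275) (nat_lit 304) (nat_lit 3113964980) (nat_lit 76) (nat_lit 5801557117) (nat_lit 149) (nat_lit 5) (nat_lit 153) (nat_lit 5) (nat_lit 150) (nat_lit 5) (nat_lit 469) (nat_lit 403) (nat_lit 328)) (XT.lf (nat_lit 0) (nat_lit 6374883844) (nat_lit 228) (nat_lit 3044318261) (nat_lit 304) (nat_lit 4976295847) (nat_lit 146) (nat_lit 5) (nat_lit 149)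 (nat_lit 5) (nat_lit 150) (nat_lit 5) (nat_lit 470) (nat_lit 403) (nat_lit 327)))) (XT.nd (nat_lit 156) (nat_lit 456) (nat_lit 0) (XT.nd (nat_lit 78) (nat_lit 76) (nat_lit 0) (XT.lf (nat_lit 0) (nat_lit 1516283664) (nat_lit 228) (nat_lit 12256708846) (nat_lit 304) (nat_lit 878790913) (nat_lit 143) (nat_lit 5) (nat_lit 146) (nat_lit 5) (nat_lit 147) (nat_lit 5) (nat_lit 471) (nat_lit 403) (nat_lit 326)) (XT.lf (nat_lit 0) (nat_lit 3357878444) (nat_lit 304) (nat_lit 3522817515) (nat_lit 76) (nat_lit 8031655702) (nat_lit 142) (nat_lit 5) (nat_lit 146) (nat_lit 5) (nat_lit 143) (nat_lit 5) (nat_lit 472) (nat_lit 403) (nat_lit 325))) (XT.nd (nat_lit 78) (nat_lit 228) (nat_lit 0) (XT.lf (nat_lit 0) (nat_lit 6446674784) (nat_lit 228) (nat_lit 1289678243) (nat_lit 304) (nat_lit 7443153080) (nat_lit 139) (nat_lit 5) (nat_lit 142) (nat_lit 5) (nat_lit 143) (nat_lit 5) (nat_lit 473) (nat_lit 403) (nat_lit 324)) (XT.lf (nat_lit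 0) (nat_lit 1266373063) (nat_lit 228) (nat_lit 11041482143) (nat_lit 304) (nat_lit 3144970966) (nat_lit 136) (nat_lit 5) (nat_lit 139) (nat_lit 5) (nat_lit 140) (nat_lit 5) (nat_lit 474) (nat_lit 403) (nat_lit 323))))) (XT.nd (nat_lit 312) (nat_lit 760) (nat_lit 0) (XT.nd (nat_lit 156) (nat_lit 152) (nat_lit 0) (XT.nd (nat_lit 78) (nat_lit 228) (nat_lit 0) (XT.lf (nat_lit 0) (nat_lit 1329681167) (nat_lit 304) (nat_lit 4062088929) (nat_lit 76) (nat_lit 10340030799) (nat_lit 135) (nat_lit 5) (nat_lit 139) (nat_lit 5) (nat_lit 136) (nat_lit 5) (nat_lit 475) (nat_lit 403) (nat_lit 322)) (XT.lf (nat_lit 0) (nat_lit 5913416006) (nat_lit 304) (nat_lit 9609624088) (nat_lit 76) (nat_lit 494030085) (nat_lit 132) (nat_lit 5) (nat_lit 136) (nat_lit 5) (nat_lit 133) (nat_lit 5) (nat_lit 476) (nat_lit 403) (nat_lit 321))) (XT.nd (nat_lit 78) (nat_lit 0) (nat_lit 0) (XT.lf (nat_lit 0) (nat_lit 880300816) (nat_lit 152) (nat_lit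 9829395741) (nat_lit 228) (nat_lit 5598951030) (nat_lit 130) (nat_lit 5) (nat_lit 132) (nat_lit 5) (nat_lit 133) (nat_lit 5) (nat_lit 477) (nat_lit 403) (nat_lit 320)) (XT.lf (nat_lit 0) (nat_lit 11834623469) (nat_lit 152) (nat_lit 3884410859) (nat_lit 228) (nat_lit 887863952) (nat_lit 130) (nat_lit 5) (nat_lit 132) (nat_lit 5) (nat_lit 133) (nat_lit 5) (nat_lit 478) (nat_lit 403) (nat_lit 319)))) (XT.nd (nat_lit 156) (nat_lit 304) (nat_lit 0) (XT.nd (nat_lit 78) (nat_lit 152) (nat_lit 0) (XT.lf (nat_lit 0) (nat_lit 3942164936) (nat_lit 304) (nat_lit 10693591007) (nat_lit 76) (nat_lit 2275549066) (nat_lit 126) (nat_lit 5) (nat_lit 130) (nat_lit 5) (nat_lit 127) (nat_lit 5) (nat_lit 479) (nat_lit 403) (nat_lit 318)) (XT.lf (nat_lit 0) (nat_lit 323795081) (nat_lit 152) (nat_lit 8638538352) (nat_lit 228) (nat_lit 8260355207) (nat_lit 124) (nat_lit 5) (nat_lit 126) (nat_lit 5) (nat_lit 127) (nat_lit 5) (nat_lit 480)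 (nat_lit 403) (nat_lit 317))) (XT.nd (nat_lit 78) (nat_lit 304) (nat_lit 0) (XT.lf (nat_lit 0) (nat_lit 11844740854) (nat_lit 152) (nat_lit 2369541711) (nat_lit 228) (nat_lit 3326696857) (nat_lit 124) (nat_lit 5) (nat_lit 126) (nat_lit 5) (nat_lit 127) (nat_lit 5) (nat_lit 481) (nat_lit 403) (nat_lit 316)) (XT.lf (nat_lit 0) (nat_lit 1790945015) (nat_lit 304) (nat_lit 12011923089) (nat_lit 76) (nat_lit 4063339001) (nat_lit 120) (nat_lit 5) (nat_lit 124) (nat_lit 5) (nat_lit 121) (nat_lit 5) (nat_lit 482) (nat_lit 403) (nat_lit 315)))))) (XT.nd (nat_lit 624) (nat_lit 912) (nat_lit 0) (XT.nd (nat_lit 312) (nat_lit 532) (nat_lit 0) (XT.nd (nat_lit 156) (nat_lit 304) (nat_lit 0) (XT.nd (nat_lit 78) (nat_lit 152) (nat_lit 0) (XT.lf (nat_lit 0) (nat_lit 7050669334) (nat_lit 304) (nat_lit 433846232) (nat_lit 76) (nat_lit 10714026264) (nat_lit 120) (nat_lit 5) (nat_lit 124) (nat_lit 5) (nat_lit 121) (nat_lit 5) (nat_lit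 483) (nat_lit 403) (nat_lit 314)) (XT.lf (nat_lit 0) (nat_lit 11675221949) (nat_lit 152) (nat_lit 879819351) (nat_lit 228) (nat_lit 5983200429) (nat_lit 118) (nat_lit 5) (nat_lit 120) (nat_lit 5) (nat_lit 121) (nat_lit 5) (nat_lit 484) (nat_lit 403) (nat_lit 313))) (XT.nd (nat_lit 78) (nat_lit 76) (nat_lit 0) (XT.lf (nat_lit 0) (nat_lit 5269995658) (nat_lit 228) (nat_lit 13041332671) (nat_lit 304) (nat_lit 574201564) (nat_lit 115) (nat_lit 5) (nat_lit 118) (nat_lit 5) (nat_lit 119) (nat_lit 5) (nat_lit 485) (nat_lit 403) (nat_lit 312)) (XT.lf (nat_lit 0) (nat_lit 4953087893) (nat_lit 304) (nat_lit 1435286467) (nat_lit 76) (nat_lit 12851816095) (nat_lit 114) (nat_lit 5) (nat_lit 118) (nat_lit 5) (nat_lit 115) (nat_lit 5) (nat_lit 486) (nat_lit 403) (nat_lit 311)))) (XT.nd (nat_lit 156) (nat_lit 228) (nat_lit 0) (XT.nd (nat_lit 78) (nat_lit 152) (nat_lit 0) (XT.lf (nat_lit 0) (nat_lit 10724078939) (nat_lit 228) (nat_lit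 8326473069) (nat_lit 76) (nat_lit 552086277) (nat_lit 112) (nat_lit 5) (nat_lit 115) (nat_lit 5) (nat_lit 113) (nat_lit 5) (nat_lit 487) (nat_lit 403) (nat_lit 310)) (XT.lf (nat_lit 0) (nat_lit 4402149882) (nat_lit 152) (nat_lit 12361941898) (nat_lit 228) (nat_lit 3208991707) (nat_lit 110) (nat_lit 5) (nat_lit 112) (nat_lit 5) (nat_lit 113) (nat_lit 5) (nat_lit 488) (nat_lit 403) (nat_lit 309))) (XT.nd (nat_lit 78) (nat_lit 152) (nat_lit 0) (XT.lf (nat_lit 0) (nat_lit 2639988734) (nat_lit 228) (nat_lit 2738198129) (nat_lit 76) (nat_lit 14973877429) (nat_lit 109) (nat_lit 5) (nat_lit 112) (nat_lit 5) (nat_lit 110) (nat_lit 5) (nat_lit 489) (nat_lit 403) (nat_lit 308)) (XT.lf (nat_lit 0) (nat_lit 8697005201) (nat_lit 228) (nat_lit 10144875128) (nat_lit 76) (nat_lit 1896669740) (nat_lit 107) (nat_lit 5) (nat_lit 110) (nat_lit 5) (nat_lit 108) (nat_lit 5) (nat_lit 490) (nat_lit 403) (nat_lit 307))))) (XT.nd (nat_lit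 312) (nat_lit 380) (nat_lit 0) (XT.nd (nat_lit 156) (nat_lit 304) (nat_lit 0) (XT.nd (nat_lit 78) (nat_lit 76) (nat_lit 0) (XT.lf (nat_lit 0) (nat_lit 3212881025) (nat_lit 152) (nat_lit 11811470910) (nat_lit 228) (nat_lit 6109620514) (nat_lit 105) (nat_lit 5) (nat_lit 107) (nat_lit 5) (nat_lit 108) (nat_lit 5) (nat_lit 491) (nat_lit 403) (nat_lit 306)) (XT.lf (nat_lit 0) (nat_lit 80327969) (nat_lit 228) (nat_lit 4402048566) (nat_lit 76) (nat_lit 17056479329) (nat_lit 104) (nat_lit 5) (nat_lit 107) (nat_lit 5) (nat_lit 105) (nat_lit 5) (nat_lit 492) (nat_lit 403) (nat_lit 305))) (XT.nd (nat_lit 78) (nat_lit 152) (nat_lit 0) (XT.lf (nat_lit 0) (nat_lit 6433652564) (nat_lit 228) (nat_lit 12374173630) (nat_lit 76) (nat_lit 3143231166) (nat_lit 102) (nat_lit 5) (nat_lit 105) (nat_lit 5) (nat_lit 103) (nat_lit 5) (nat_lit 493) (nat_lit 403) (nat_lit 304)) (XT.lf (nat_lit 0) (nat_lit 1637211216) (nat_lit 152) (nat_lit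 11422768134) (nat_lit 228) (nat_lit 9313174030) (nat_lit 100) (nat_lit 5) (nat_lit 102) (nat_lit 5) (nat_lit 103) (nat_lit 5) (nat_lit 494) (nat_lit 403) (nat_lit 303)))) (XT.nd (nat_lit 156) (nat_lit 152) (nat_lit 0) (XT.nd (nat_lit 78) (nat_lit 228) (nat_lit 0) (XT.lf (nat_lit 0) (nat_lit 16281951535) (nat_lit 152) (nat_lit 3705759503) (nat_lit 228) (nat_lit 2817123325) (nat_lit 100) (nat_lit 5) (nat_lit 102) (nat_lit 5) (nat_lit 103) (nat_lit 5) (nat_lit 495) (nat_lit 403) (nat_lit 302)) (XT.lf (nat_lit 0) (nat_lit 3896890645) (nat_lit 228) (nat_lit 15088967617) (nat_lit 76) (nat_lit 4259530683) (nat_lit 97) (nat_lit 5) (nat_lit 100) (nat_lit 5) (nat_lit 98) (nat_lit 5) (nat_lit 496) (nat_lit 403) (nat_lit 301))) (XT.nd (nat_lit 78) (nat_lit 152) (nat_lit 0) (XT.lf (nat_lit 0) (nat_lit 10837097006) (nat_lit 228) (nat_lit 392586133) (nat_lit 76) (nat_lit 12466198946) (nat_lit 97) (nat_lit 5) (nat_lit 100) (nat_lit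 5) (nat_lit 98) (nat_lit 5) (nat_lit 497) (nat_lit 403) (nat_lit 300)) (XT.lf (nat_lit 0) (nat_lit 14998542803) (nat_lit 152) (nat_lit 3109959576) (nat_lit 228) (nat_lit 6047698332) (nat_lit 95) (nat_lit 5) (nat_lit 97) (nat_lit 5) (nat_lit 98) (nat_lit 5) (nat_lit 498) (nat_lit 403) (nat_lit 299))))))) (XT.nd (nat_lit 1170) (nat_lit 1292) (nat_lit 0) (XT.nd (nat_lit 546) (nat_lit 684) (nat_lit 0) (XT.nd (nat_lit 234) (nat_lit 380) (nat_lit 0) (XT.nd (nat_lit 78) (nat_lit 152) (nat_lit 0) (XT.lf (nat_lit 0) (nat_lit 1043356612) (nat_lit 228) (nat_lit 18375750060) (nat_lit 76) (nat_lit 5208108022) (nat_lit 92) (nat_lit 5) (nat_lit 95) (nat_lit 5) (nat_lit 93) (nat_lit 5) (nat_lit 499) (nat_lit 403) (nat_lit 298)) (XT.nd (nat_lit 78) (nat_lit 152) (nat_lit 0) (XT.lf (nat_lit 0) (nat_lit 8328706402) (nat_lit 228) (nat_lit 2929524037) (nat_lit 76) (nat_lit 13849239267) (nat_lit 92) (nat_lit 5) (nat_lit 95) (nat_lit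 5) (nat_lit 93) (nat_lit 5) (nat_lit 500) (nat_lit 403) (nat_lit 297)) (XT.lf (nat_lit 0) (nat_lit 13199862157) (nat_lit 152) (nat_lit 2739187535) (nat_lit 228) (nat_lit 9659890111) (nat_lit 90) (nat_lit 5) (nat_lit 92) (nat_lit 5) (nat_lit 93) (nat_lit 5) (nat_lit 501) (nat_lit 403) (nat_lit 296)))) (XT.nd (nat_lit 156) (nat_lit 228) (nat_lit 0) (XT.nd (nat_lit 78) (nat_lit 76) (nat_lit 0) (XT.lf (nat_lit 0) (nat_lit 3745827003) (nat_lit 76) (nat_lit 20135393241) (nat_lit 152) (nat_lit 2220828660) (nat_lit 89) (nat_lit 5) (nat_lit 90) (nat_lit 5) (nat_lit 91) (nat_lit 4) (nat_lit 502) (nat_lit 403) (nat_lit 295)) (XT.lf (nat_lit 0) (nat_lit 5468441424) (nat_lit 152) (nat_lit 6105822093) (nat_lit 76) (nat_lit 15040422417) (nat_lit 88) (nat_lit 5) (nat_lit 90) (nat_lit 5) (nat_lit 89) (nat_lit 5) (nat_lit 503) (nat_lit 403) (nat_lit 294))) (XT.nd (nat_lit 78) (nat_lit 76) (nat_lit 0) (XT.lf (nat_lit 0) (nat_lit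 10783726486) (nat_lit 152) (nat_lit 2643930606) (nat_lit 228) (nat_lit 13711868590) (nat_lit 86) (nat_lit 5) (nat_lit 88) (nat_lit 5) (nat_lit 89) (nat_lit 5) (nat_lit 504) (nat_lit 403) (nat_lit 293)) (XT.lf (nat_lit 0) (nat_lit 536858439) (nat_lit 76) (nat_lit 21199529441) (nat_lit 152) (nat_lit 5940400947) (nat_lit 85) (nat_lit 5) (nat_lit 86) (nat_lit 5) (nat_lit 87) (nat_lit 4) (nat_lit 505) (nat_lit 403) (nat_lit 292))))) (XT.nd (nat_lit 312) (nat_lit 380) (nat_lit 0) (XT.nd (nat_lit 156) (nat_lit 76) (nat_lit 0) (XT.nd (nat_lit 78) (nat_lit 152) (nat_lit 0) (XT.lf (nat_lit 0) (nat_lit 2197241069) (nat_lit 152) (nat_lit 10038193919) (nat_lit 76) (nat_lit 15988940633) (nat_lit 84) (nat_lit 5) (nat_lit 86) (nat_lit 5) (nat_lit 85) (nat_lit 5) (nat_lit 506) (nat_lit 403) (nat_lit 291)) (XT.lf (nat_lit 0) (nat_lit 7630861768) (nat_lit 152) (nat_lit 2883015879) (nat_lit 228) (nat_lit 18271120385) (nat_lit 82)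 (nat_lit 5) (nat_lit 84) (nat_lit 5) (nat_lit 85) (nat_lit 5) (nat_lit 507) (nat_lit 403) (nat_lit 290))) (XT.nd (nat_lit 78) (nat_lit 76) (nat_lit 0) (XT.lf (nat_lit 0) (nat_lit 19228232438) (nat_lit 228) (nat_lit 3425402890) (nat_lit 76) (nat_lit 6704357537) (nat_lit 82) (nat_lit 5) (nat_lit 85) (nat_lit 5) (nat_lit 83) (nat_lit 4) (nat_lit 508) (nat_lit 403) (nat_lit 289)) (XT.lf (nat_lit 0) (nat_lit 15065802348) (nat_lit 76) (nat_lit 13293100894) (nat_lit 152) (nat_lit 1584628055) (nat_lit 81) (nat_lit 5) (nat_lit 82) (nat_lit 5) (nat_lit 83) (nat_lit 4) (nat_lit 509) (nat_lit 403) (nat_lit 288)))) (XT.nd (nat_lit 156) (nat_lit 152) (nat_lit 0) (XT.nd (nat_lit 78) (nat_lit 0) (nat_lit 0) (XT.lf (nat_lit 0) (nat_lit 3602077548) (nat_lit 152) (nat_lit 3525055980) (nat_lit 228) (nat_lit 23415888401) (nat_lit 78) (nat_lit 5) (nat_lit 80) (nat_lit 5) (nat_lit 81) (nat_lit 5) (nat_lit 510) (nat_lit 403) (nat_lit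 287)) (XT.lf (nat_lit 0) (nat_lit 16264543999) (nat_lit 228) (nat_lit 8329647526) (nat_lit 76) (nat_lit 6559950997) (nat_lit 78) (nat_lit 5) (nat_lit 81) (nat_lit 5) (nat_lit 79) (nat_lit 4) (nat_lit 511) (nat_lit 403) (nat_lit 286))) (XT.nd (nat_lit 78) (nat_lit 76) (nat_lit 0) (XT.lf (nat_lit 0) (nat_lit 10985562120) (nat_lit 76) (nat_lit 14813146051) (nat_lit 152) (nat_lit 5981209898) (nat_lit 77) (nat_lit 5) (nat_lit 78) (nat_lit 5) (nat_lit 79) (nat_lit 4) (nat_lit 512) (nat_lit 403) (nat_lit 285)) (XT.lf (nat_lit 0) (nat_lit 3199194002) (nat_lit 152) (nat_lit 1436421088) (nat_lit 76) (nat_lit 27785917898) (nat_lit 76) (nat_lit 5) (nat_lit 78) (nat_lit 5) (nat_lit 77) (nat_lit 5) (nat_lit 513) (nat_lit 403) (nat_lit 284)))))) (XT.nd (nat_lit 624) (nat_lit 532) (nat_lit 0) (XT.nd (nat_lit 312) (nat_lit 304) (nat_lit 0) (XT.nd (nat_lit 156) (nat_lit 228) (nat_lit 0) (XT.nd (nat_lit 78) (nat_lit 76) (nat_lit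 0) (XT.lf (nat_lit 0) (nat_lit 12756387901) (nat_lit 228) (nat_lit 14357654507) (nat_lit 76) (nat_lit 5959929776) (nat_lit 74) (nat_lit 5) (nat_lit 77) (nat_lit 5) (nat_lit 75) (nat_lit 4) (nat_lit 514) (nat_lit 403) (nat_lit 283)) (XT.lf (nat_lit 0) (nat_lit 5791536745) (nat_lit 76) (nat_lit 16907693449) (nat_lit 152) (nat_lit 11043786634) (nat_lit 73) (nat_lit 5) (nat_lit 74) (nat_lit 5) (nat_lit 75) (nat_lit 4) (nat_lit 515) (nat_lit 403) (nat_lit 282))) (XT.nd (nat_lit 78) (nat_lit 228) (nat_lit 0) (XT.lf (nat_lit 0) (nat_lit 26806874189) (nat_lit 76) (nat_lit 6261372299) (nat_lit 152) (nat_lit 1360049901) (nat_lit 73) (nat_lit 5) (nat_lit 74) (nat_lit 5) (nat_lit 75) (nat_lit 4) (nat_lit 516) (nat_lit 403) (nat_lit 281)) (XT.lf (nat_lit 0) (nat_lit 8605966609) (nat_lit 228) (nat_lit 21708963853) (nat_lit 76) (nat_lit 4811924104) (nat_lit 70) (nat_lit 5) (nat_lit 73) (nat_lit 5) (nat_lit 71) (nat_lit 4) (nat_lit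 517) (nat_lit 403) (nat_lit 280)))) (XT.nd (nat_lit 156) (nat_lit 228) (nat_lit 0) (XT.nd (nat_lit 78) (nat_lit 76) (nat_lit 0) (XT.lf (nat_lit 0) (nat_lit 18966620924) (nat_lit 228) (nat_lit 707735931) (nat_lit 76) (nat_lit 16167919088) (nat_lit 70) (nat_lit 5) (nat_lit 73) (nat_lit 5) (nat_lit 71) (nat_lit 4) (nat_lit 518) (nat_lit 403) (nat_lit 279)) (XT.lf (nat_lit 0) (nat_lit 21308194108) (nat_lit 76) (nat_lit 8518491037) (nat_lit 152) (nat_lit 6746817324) (nat_lit 69) (nat_lit 5) (nat_lit 70) (nat_lit 5) (nat_lit 71) (nat_lit 4) (nat_lit 519) (nat_lit 403) (nat_lit 278))) (XT.nd (nat_lit 78) (nat_lit 0) (nat_lit 0) (XT.lf (nat_lit 0) (nat_lit 3699212224) (nat_lit 228) (nat_lit 30615942164) (nat_lit 76) (nat_lit 3007891124) (nat_lit 66) (nat_lit 5) (nat_lit 69) (nat_lit 5) (nat_lit 67) (nat_lit 4) (nat_lit 520) (nat_lit 403) (nat_lit 277)) (XT.lf (nat_lit 0) (nat_lit 14546849569) (nat_lit 228) (nat_lit 8622692902)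 (nat_lit 76) (nat_lit 14916813628) (nat_lit 66) (nat_lit 5) (nat_lit 69) (nat_lit 5) (nat_lit 67) (nat_lit 4) (nat_lit 521) (nat_lit 403) (nat_lit 276))))) (XT.nd (nat_lit 312) (nat_lit 228) (nat_lit 0) (XT.nd (nat_lit 156) (nat_lit 228) (nat_lit 0) (XT.nd (nat_lit 78) (nat_lit 0) (nat_lit 0) (XT.lf (nat_lit 0) (nat_lit 14278705223) (nat_lit 76) (nat_lit 11562751749) (nat_lit 152) (nat_lit 13027462996) (nat_lit 65) (nat_lit 5) (nat_lit 66) (nat_lit 5) (nat_lit 67) (nat_lit 4) (nat_lit 522) (nat_lit 403) (nat_lit 275)) (XT.lf (nat_lit 0) (nat_lit 37550923510) (nat_lit 152) (nat_lit 1663387638) (nat_lit 0) (nat_lit 458369161) (nat_lit 65) (nat_lit 5) (nat_lit 67) (nat_lit 4) (nat_lit 65) (nat_lit 4) (nat_lit 523) (nat_lit 403) (nat_lit 274))) (XT.nd (nat_lit 78) (nat_lit 76) (nat_lit 0) (XT.lf (nat_lit 0) (nat_lit 9249482116) (nat_lit 152) (nat_lit 18340498663) (nat_lit 76) (nat_lit 12898460836) (nat_lit 63) (nat_lit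 5) (nat_lit 65) (nat_lit 5) (nat_lit 64) (nat_lit 4) (nat_lit 524) (nat_lit 403) (nat_lit 273)) (XT.lf (nat_lit 0) (nat_lit 5434981492) (nat_lit 76) (nat_lit 15538226088) (nat_lit 152) (nat_lit 20353218288) (nat_lit 62) (nat_lit 5) (nat_lit 63) (nat_lit 5) (nat_lit 64) (nat_lit 4) (nat_lit 525) (nat_lit 403) (nat_lit 272)))) (XT.nd (nat_lit 156) (nat_lit 76) (nat_lit 0) (XT.nd (nat_lit 78) (nat_lit 152) (nat_lit 0) (XT.lf (nat_lit 0) (nat_lit 30270536727) (nat_lit 76) (nat_lit 2948260995) (nat_lit 152) (nat_lit 8965647503) (nat_lit 62) (nat_lit 5) (nat_lit 63) (nat_lit 5) (nat_lit 64) (nat_lit 4) (nat_lit 526) (nat_lit 403) (nat_lit 271)) (XT.lf (nat_lit 0) (nat_lit 2917327308) (nat_lit 152) (nat_lit 30180685479) (nat_lit 76) (nat_lit 9963164470) (nat_lit 60) (nat_lit 5) (nat_lit 62) (nat_lit 5) (nat_lit 61) (nat_lit 4) (nat_lit 527) (nat_lit 403) (nat_lit 270))) (XT.nd (nat_lit 78) (nat_lit 76) (nat_lit 0) (XT.lf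 (nat_lit 0) (nat_lit 15112548827) (nat_lit 152) (nat_lit 5445427420) (nat_lit 76) (nat_lit 23399493345) (nat_lit 60) (nat_lit 5) (nat_lit 62) (nat_lit 5) (nat_lit 61) (nat_lit 4) (nat_lit 528) (nat_lit 403) (nat_lit 269)) (XT.lf (nat_lit 0) (nat_lit 20402220603) (nat_lit 76) (nat_lit 7453223194) (nat_lit 152) (nat_lit 17019752545) (nat_lit 59) (nat_lit 5) (nat_lit 60) (nat_lit 5) (nat_lit 61) (nat_lit 4) (nat_lit 529) (nat_lit 403) (nat_lit 268))))))))
noncomputable def xc105 : XT := (XT.nd (nat_lit 53196) (nat_lit 0) (nat_lit 15580) (XT.nd (nat_lit 1170) (nat_lit 532) (nat_lit 0) (XT.nd (nat_lit 546) (nat_lit 456) (nat_lit 0) (XT.nd (nat_lit 234) (nat_lit 228) (nat_lit 0) (XT.nd (nat_lit 78) (nat_lit 152) (nat_lit 0) (XT.lf (nat_lit 0) (nat_lit 1256169305) (nat_lit 76) (nat_lit 39835890792) (nat_lit 76) (nat_lit 4725051902) (nat_lit 58) (nat_lit 4) (nat_lit 59) (nat_lit 5) (nat_lit 59) (nat_lit 4) (nat_lit 530)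 (nat_lit 403) (nat_lit 267)) (XT.nd (nat_lit 78) (nat_lit 76) (nat_lit 0) (XT.lf (nat_lit 0) (nat_lit 8092684296) (nat_lit 152) (nat_lit 18701384980) (nat_lit 76) (nat_lit 19981653604) (nat_lit 57) (nat_lit 5) (nat_lit 59) (nat_lit 5) (nat_lit 58) (nat_lit 4) (nat_lit 531) (nat_lit 403) (nat_lit 266)) (XT.lf (nat_lit 0) (nat_lit 8016596134) (nat_lit 76) (nat_lit 13246596441) (nat_lit 152) (nat_lit 26496599895) (nat_lit 56) (nat_lit 5) (nat_lit 57) (nat_lit 5) (nat_lit 58) (nat_lit 4) (nat_lit 532) (nat_lit 403) (nat_lit 265)))) (XT.nd (nat_lit 156) (nat_lit 152) (nat_lit 0) (XT.nd (nat_lit 78) (nat_lit 76) (nat_lit 0) (XT.lf (nat_lit 0) (nat_lit 35012501576) (nat_lit 152) (nat_lit 12883945144) (nat_lit 0) (nat_lit 871426989) (nat_lit 56) (nat_lit 5) (nat_lit 58) (nat_lit 4) (nat_lit 56) (nat_lit 4) (nat_lit 533) (nat_lit 403) (nat_lit 264)) (XT.lf (nat_lit 0) (nat_lit 14914722150) (nat_lit 76) (nat_lit 34520663759)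 (nat_lit 76) (nat_lit 362978717) (nat_lit 55) (nat_lit 4) (nat_lit 56) (nat_lit 5) (nat_lit 56) (nat_lit 4) (nat_lit 534) (nat_lit 403) (nat_lit 263))) (XT.nd (nat_lit 78) (nat_lit 76) (nat_lit 0) (XT.lf (nat_lit 0) (nat_lit 13287068217) (nat_lit 152) (nat_lit 7201063215) (nat_lit 76) (nat_lit 30364226513) (nat_lit 54) (nat_lit 5) (nat_lit 56) (nat_lit 5) (nat_lit 55) (nat_lit 4) (nat_lit 535) (nat_lit 403) (nat_lit 262)) (XT.lf (nat_lit 0) (nat_lit 21706479122) (nat_lit 76) (nat_lit 5828470515) (nat_lit 152) (nat_lit 24397044866) (nat_lit 53) (nat_lit 5) (nat_lit 54) (nat_lit 5) (nat_lit 55) (nat_lit 4) (nat_lit 536) (nat_lit 403) (nat_lit 261))))) (XT.nd (nat_lit 312) (nat_lit 228) (nat_lit 0) (XT.nd (nat_lit 156) (nat_lit 76) (nat_lit 0) (XT.nd (nat_lit 78) (nat_lit 152) (nat_lit 0) (XT.lf (nat_lit 0) (nat_lit 42359813120) (nat_lit 152) (nat_lit 1528324708) (nat_lit 0) (nat_lit 9151396069) (nat_lit 53) (nat_lit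 5) (nat_lit 55) (nat_lit 4) (nat_lit 53) (nat_lit 4) (nat_lit 537) (nat_lit 403) (nat_lit 260)) (XT.lf (nat_lit 0) (nat_lit 3704047672) (nat_lit 152) (nat_lit 25703528598) (nat_lit 76) (nat_lit 24762061769) (nat_lit 51) (nat_lit 5) (nat_lit 53) (nat_lit 5) (nat_lit 52) (nat_lit 4) (nat_lit 538) (nat_lit 403) (nat_lit 259))) (XT.nd (nat_lit 78) (nat_lit 0) (nat_lit 0) (XT.lf (nat_lit 0) (nat_lit 4006027179) (nat_lit 76) (nat_lit 14340122351) (nat_lit 152) (nat_lit 36983079517) (nat_lit 50) (nat_lit 5) (nat_lit 51) (nat_lit 5) (nat_lit 52) (nat_lit 4) (nat_lit 539) (nat_lit 403) (nat_lit 258)) (XT.lf (nat_lit 0) (nat_lit 33688370170) (nat_lit 152) (nat_lit 21420752730) (nat_lit 0) (nat_lit 1406659308) (nat_lit 50) (nat_lit 5) (nat_lit 52) (nat_lit 4) (nat_lit 50) (nat_lit 4) (nat_lit 540) (nat_lit 403) (nat_lit 257)))) (XT.nd (nat_lit 156) (nat_lit 76) (nat_lit 0) (XT.nd (nat_lit 78) (nat_lit 76) (nat_lit 0) (XT.lf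 (nat_lit 0) (nat_lit 9396069895) (nat_lit 76) (nat_lit 40314850828) (nat_lit 76) (nat_lit 8020409436) (nat_lit 49) (nat_lit 4) (nat_lit 50) (nat_lit 5) (nat_lit 50) (nat_lit 4) (nat_lit 541) (nat_lit 403) (nat_lit 256)) (XT.lf (nat_lit 0) (nat_lit 7295921966) (nat_lit 152) (nat_lit 17496079537) (nat_lit 76) (nat_lit 34183071395) (nat_lit 48) (nat_lit 5) (nat_lit 50) (nat_lit 5) (nat_lit 49) (nat_lit 4) (nat_lit 542) (nat_lit 403) (nat_lit 255))) (XT.nd (nat_lit 78) (nat_lit 0) (nat_lit 0) (XT.lf (nat_lit 0) (nat_lit 14447411651) (nat_lit 76) (nat_lit 8590131465) (nat_lit 152) (nat_lit 37212392526) (nat_lit 47) (nat_lit 5) (nat_lit 48) (nat_lit 5) (nat_lit 49) (nat_lit 4) (nat_lit 543) (nat_lit 403) (nat_lit 254)) (XT.lf (nat_lit 0) (nat_lit 39495817802) (nat_lit 152) (nat_lit 13952864088) (nat_lit 0) (nat_lit 8107030313) (nat_lit 47) (nat_lit 5) (nat_lit 49) (nat_lit 4) (nat_lit 47) (nat_lit 4) (nat_lit 544) (nat_lit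 403) (nat_lit 253)))))) (XT.nd (nat_lit 624) (nat_lit 76) (nat_lit 0) (XT.nd (nat_lit 312) (nat_lit 228) (nat_lit 0) (XT.nd (nat_lit 156) (nat_lit 76) (nat_lit 0) (XT.nd (nat_lit 78) (nat_lit 76) (nat_lit 0) (XT.lf (nat_lit 0) (nat_lit 19117578957) (nat_lit 76) (nat_lit 37587566501) (nat_lit 76) (nat_lit 6187797544) (nat_lit 46) (nat_lit 4) (nat_lit 47) (nat_lit 5) (nat_lit 47) (nat_lit 4) (nat_lit 545) (nat_lit 403) (nat_lit 252)) (XT.lf (nat_lit 0) (nat_lit 10092976997) (nat_lit 152) (nat_lit 10921687269) (nat_lit 76) (nat_lit 43248773016) (nat_lit 45) (nat_lit 5) (nat_lit 47) (nat_lit 5) (nat_lit 46) (nat_lit 4) (nat_lit 546) (nat_lit 403) (nat_lit 251))) (XT.nd (nat_lit 78) (nat_lit 0) (nat_lit 0) (XT.lf (nat_lit 0) (nat_lit 23288727880) (nat_lit 76) (nat_lit 3661769430) (nat_lit 152) (nat_lit 38716330462) (nat_lit 44) (nat_lit 5) (nat_lit 45) (nat_lit 5) (nat_lit 46) (nat_lit 4) (nat_lit 547) (nat_lit 403)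 (nat_lit 250)) (XT.lf (nat_lit 0) (nat_lit 44550572071) (nat_lit 152) (nat_lit 8519441194) (nat_lit 0) (nat_lit 14035201917) (nat_lit 44) (nat_lit 5) (nat_lit 46) (nat_lit 4) (nat_lit 44) (nat_lit 4) (nat_lit 548) (nat_lit 403) (nat_lit 249)))) (XT.nd (nat_lit 156) (nat_lit 76) (nat_lit 0) (XT.nd (nat_lit 78) (nat_lit 76) (nat_lit 0) (XT.lf (nat_lit 0) (nat_lit 26820667042) (nat_lit 76) (nat_lit 36141216536) (nat_lit 76) (nat_lit 5616373672) (nat_lit 43) (nat_lit 4) (nat_lit 44) (nat_lit 5) (nat_lit 44) (nat_lit 4) (nat_lit 549) (nat_lit 403) (nat_lit 248)) (XT.lf (nat_lit 0) (nat_lit 11675246694) (nat_lit 152) (nat_lit 6833288879) (nat_lit 76) (nat_lit 51581262055) (nat_lit 42) (nat_lit 5) (nat_lit 44) (nat_lit 5) (nat_lit 43) (nat_lit 4) (nat_lit 550) (nat_lit 403) (nat_lit 247))) (XT.nd (nat_lit 78) (nat_lit 0) (nat_lit 0) (XT.lf (nat_lit 0) (nat_lit 29640726792) (nat_lit 76) (nat_lit 6413798) (nat_lit 152)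 (nat_lit 41989643208) (nat_lit 41) (nat_lit 5) (nat_lit 42) (nat_lit 5) (nat_lit 43) (nat_lit 4) (nat_lit 551) (nat_lit 403) (nat_lit 246)) (XT.lf (nat_lit 0) (nat_lit 48400498963) (nat_lit 152) (nat_lit 6083696420) (nat_lit 0) (nat_lit 18738715002) (nat_lit 41) (nat_lit 5) (nat_lit 43) (nat_lit 4) (nat_lit 41) (nat_lit 4) (nat_lit 552) (nat_lit 403) (nat_lit 245))))) (XT.nd (nat_lit 51090) (nat_lit 0) (nat_lit 29640) (XT.nd (nat_lit 50934) (nat_lit 0) (nat_lit 30096) (XT.nd (nat_lit 50856) (nat_lit 0) (nat_lit 30476) (XT.lf (nat_lit 0) (nat_lit 31500450237) (nat_lit 76) (nat_lit 36508672922) (nat_lit 76) (nat_lit 6838717718) (nat_lit 40) (nat_lit 4) (nat_lit 41) (nat_lit 5) (nat_lit 41) (nat_lit 4) (nat_lit 553) (nat_lit 403) (nat_lit 244)) (XT.lf (nat_lit 0) (nat_lit 2034139783) (nat_lit 380) (nat_lit 610358349) (nat_lit 380) (nat_lit 610358349) (nat_lit 441) (nat_lit 3) (nat_lit 446) (nat_lit 3) (nat_lit 446)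 (nat_lit 5) (nat_lit 404) (nat_lit 404) (nat_lit 392))) (XT.nd (nat_lit 78) (nat_lit 0) (nat_lit 0) (XT.lf (nat_lit 0) (nat_lit 221176055) (nat_lit 380) (nat_lit 4476058511) (nat_lit 456) (nat_lit 1830913675) (nat_lit 436) (nat_lit 5) (nat_lit 441) (nat_lit 3) (nat_lit 442) (nat_lit 5) (nat_lit 405) (nat_lit 404) (nat_lit 391)) (XT.lf (nat_lit 0) (nat_lit 2823845940) (nat_lit 380) (nat_lit 1178429744) (nat_lit 456) (nat_lit 2546873703) (nat_lit 436) (nat_lit 5) (nat_lit 441) (nat_lit 3) (nat_lit 442) (nat_lit 5) (nat_lit 406) (nat_lit 404) (nat_lit 390)))) (XT.nd (nat_lit 156) (nat_lit 0) (nat_lit 0) (XT.nd (nat_lit 78) (nat_lit 456) (nat_lit 0) (XT.lf (nat_lit 76) (nat_lit 2207344659) (nat_lit 0) (nat_lit 3218278975) (nat_lit 456) (nat_lit 1147541211) (nat_lit 437) (nat_lit 5) (nat_lit 436) (nat_lit 5) (nat_lit 442) (nat_lit 5) (nat_lit 407) (nat_lit 404) (nat_lit 389)) (XT.lf (nat_lit 0) (nat_lit 1391386098)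 (nat_lit 456) (nat_lit 948612551) (nat_lit 532) (nat_lit 4260084114) (nat_lit 430) (nat_lit 5) (nat_lit 436) (nat_lit 5) (nat_lit 437) (nat_lit 5) (nat_lit 408) (nat_lit 404) (nat_lit 388))) (XT.nd (nat_lit 78) (nat_lit 0) (nat_lit 0) (XT.lf (nat_lit 76) (nat_lit 2555927414) (nat_lit 0) (nat_lit 1356167598) (nat_lit 532) (nat_lit 2717525834) (nat_lit 431) (nat_lit 5) (nat_lit 430) (nat_lit 5) (nat_lit 437) (nat_lit 5) (nat_lit 409) (nat_lit 404) (nat_lit 387)) (XT.lf (nat_lit 76) (nat_lit 6131878199) (nat_lit 0) (nat_lit 292517040) (nat_lit 532) (nat_lit 238184157) (nat_lit 431) (nat_lit 5) (nat_lit 430) (nat_lit 5) (nat_lit 437) (nat_lit 5) (nat_lit 410) (nat_lit 404) (nat_lit 386))))))) (XT.nd (nat_lit 1170) (nat_lit 8056) (nat_lit 0) (XT.nd (nat_lit 546) (nat_lit 4332) (nat_lit 0) (XT.nd (nat_lit 234) (nat_lit 608) (nat_lit 0) (XT.nd (nat_lit 78) (nat_lit 608) (nat_lit 0) (XT.lf (nat_lit 0) (nat_lit 2216993610)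 (nat_lit 532) (nat_lit 3602914641) (nat_lit 608) (nat_lit 877564144) (nat_lit 424) (nat_lit 5) (nat_lit 431) (nat_lit 5) (nat_lit 432) (nat_lit 5) (nat_lit 411) (nat_lit 404) (nat_lit 385)) (XT.nd (nat_lit 78) (nat_lit 608) (nat_lit 0) (XT.lf (nat_lit 76) (nat_lit 45796369) (nat_lit 0) (nat_lit 4614713886) (nat_lit 608) (nat_lit 2075259343) (nat_lit 425) (nat_lit 5) (nat_lit 424) (nat_lit 5) (nat_lit 432) (nat_lit 5) (nat_lit 412) (nat_lit 404) (nat_lit 384)) (XT.lf (nat_lit 0) (nat_lit 342927017) (nat_lit 608) (nat_lit 2957732320) (nat_lit 684) (nat_lit 3475992286) (nat_lit 416) (nat_lit 5) (nat_lit 424) (nat_lit 5) (nat_lit 425) (nat_lit 5) (nat_lit 413) (nat_lit 404) (nat_lit 383)))) (XT.nd (nat_lit 156) (nat_lit 608) (nat_lit 0) (XT.nd (nat_lit 78) (nat_lit 0) (nat_lit 0) (XT.lf (nat_lit 76) (nat_lit 826515839) (nat_lit 0) (nat_lit 1887857530) (nat_lit 684) (nat_lit 4106108818) (nat_lit 417) (nat_lit 5) (nat_lit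 416) (nat_lit 5) (nat_lit 425) (nat_lit 5) (nat_lit 414) (nat_lit 404) (nat_lit 382)) (XT.lf (nat_lit 76) (nat_lit 4729925424) (nat_lit 0) (nat_lit 373347278) (nat_lit 684) (nat_lit 1763976594) (nat_lit 417) (nat_lit 5) (nat_lit 416) (nat_lit 5) (nat_lit 425) (nat_lit 5) (nat_lit 415) (nat_lit 404) (nat_lit 381))) (XT.nd (nat_lit 78) (nat_lit 0) (nat_lit 0) (XT.lf (nat_lit 0) (nat_lit 583117498) (nat_lit 684) (nat_lit 5120027789) (nat_lit 76) (nat_lit 1213676903) (nat_lit 408) (nat_lit 5) (nat_lit 417) (nat_lit 5) (nat_lit 409) (nat_lit 5) (nat_lit 416) (nat_lit 404) (nat_lit 380)) (XT.lf (nat_lit 0) (nat_lit 2910834182) (nat_lit 684) (nat_lit 1153015178) (nat_lit 76) (nat_lit 2905149028) (nat_lit 408) (nat_lit 5) (nat_lit 417) (nat_lit 5) (nat_lit 409) (nat_lit 5) (nat_lit 417) (nat_lit 404) (nat_lit 379))))) (XT.nd (nat_lit 312) (nat_lit 1976) (nat_lit 0) (XT.nd (nat_lit 156) (nat_lit 836) (nat_lit 0) (XT.nd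 (nat_lit 78) (nat_lit 836) (nat_lit 0) (XT.lf (nat_lit 0) (nat_lit 2934786408) (nat_lit 684) (nat_lit 2324303010) (nat_lit 760) (nat_lit 1765138941) (nat_lit 399) (nat_lit 5) (nat_lit 408) (nat_lit 5) (nat_lit 409) (nat_lit 5) (nat_lit 418) (nat_lit 404) (nat_lit 378)) (XT.lf (nat_lit 0) (nat_lit 26275656) (nat_lit 760) (nat_lit 494234993) (nat_lit 836) (nat_lit 6562377347) (nat_lit 388) (nat_lit 5) (nat_lit 398) (nat_lit 5) (nat_lit 399) (nat_lit 5) (nat_lit 419) (nat_lit 404) (nat_lit 377))) (XT.nd (nat_lit 78) (nat_lit 836) (nat_lit 0) (XT.lf (nat_lit 0) (nat_lit 2819664253) (nat_lit 836) (nat_lit 2882388565) (nat_lit 76) (nat_lit 1441326818) (nat_lit 388) (nat_lit 5) (nat_lit 399) (nat_lit 5) (nat_lit 389) (nat_lit 5) (nat_lit 420) (nat_lit 404) (nat_lit 376)) (XT.lf (nat_lit 0) (nat_lit 1382485325) (nat_lit 836) (nat_lit 3751003699) (nat_lit 912) (nat_lit 2073834721) (nat_lit 377) (nat_lit 5) (nat_lit 388)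 (nat_lit 5) (nat_lit 389) (nat_lit 5) (nat_lit 421) (nat_lit 404) (nat_lit 375)))) (XT.nd (nat_lit 156) (nat_lit 988) (nat_lit 0) (XT.nd (nat_lit 78) (nat_lit 912) (nat_lit 0) (XT.lf (nat_lit 0) (nat_lit 196560083) (nat_lit 912) (nat_lit 1498089220) (nat_lit 76) (nat_lit 5579741662) (nat_lit 376) (nat_lit 5) (nat_lit 388) (nat_lit 5) (nat_lit 377) (nat_lit 5) (nat_lit 422) (nat_lit 404) (nat_lit 374)) (XT.lf (nat_lit 0) (nat_lit 2456786327) (nat_lit 988) (nat_lit 4409359482) (nat_lit 76) (nat_lit 477814239) (nat_lit 364) (nat_lit 5) (nat_lit 377) (nat_lit 5) (nat_lit 365) (nat_lit 5) (nat_lit 423) (nat_lit 404) (nat_lit 373))) (XT.nd (nat_lit 78) (nat_lit 0) (nat_lit 0) (XT.lf (nat_lit 0) (nat_lit 42227197) (nat_lit 988) (nat_lit 4707131966) (nat_lit 1064) (nat_lit 2667328501) (nat_lit 351) (nat_lit 5) (nat_lit 364) (nat_lit 5) (nat_lit 365) (nat_lit 5) (nat_lit 424) (nat_lit 404) (nat_lit 372)) (XT.lf (nat_lit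 0) (nat_lit 4660826259) (nat_lit 988) (nat_lit 2427917599) (nat_lit 1064) (nat_lit 403519645) (nat_lit 351) (nat_lit 5) (nat_lit 364) (nat_lit 5) (nat_lit 365) (nat_lit 5) (nat_lit 425) (nat_lit 404) (nat_lit 371)))))) (XT.nd (nat_lit 624) (nat_lit 2964) (nat_lit 0) (XT.nd (nat_lit 312) (nat_lit 1520) (nat_lit 0) (XT.nd (nat_lit 156) (nat_lit 2432) (nat_lit 0) (XT.nd (nat_lit 78) (nat_lit 0) (nat_lit 0) (XT.lf (nat_lit 0) (nat_lit 1808053795) (nat_lit 1064) (nat_lit 34702800) (nat_lit 1140) (nat_lit 5728235596) (nat_lit 336) (nat_lit 5) (nat_lit 350) (nat_lit 5) (nat_lit 351) (nat_lit 5) (nat_lit 426) (nat_lit 404) (nat_lit 370)) (XT.lf (nat_lit 0) (nat_lit 4136782464) (nat_lit 1140) (nat_lit 1092105751) (nat_lit 76) (nat_lit 2423427319) (nat_lit 336) (nat_lit 5) (nat_lit 351) (nat_lit 5) (nat_lit 337) (nat_lit 5) (nat_lit 427) (nat_lit 404) (nat_lit 369))) (XT.nd (nat_lit 78) (nat_lit 1292) (nat_lit 0) (XT.lf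 (nat_lit 0) (nat_lit 3735070554) (nat_lit 1140) (nat_lit 2738898183) (nat_lit 1216) (nat_lit 1262886258) (nat_lit 321) (nat_lit 5) (nat_lit 336) (nat_lit 5) (nat_lit 337) (nat_lit 5) (nat_lit 428) (nat_lit 404) (nat_lit 368)) (XT.lf (nat_lit 0) (nat_lit 855270477) (nat_lit 1216) (nat_lit 139548275) (nat_lit 1292) (nat_lit 6830069858) (nat_lit 304) (nat_lit 5) (nat_lit 320) (nat_lit 5) (nat_lit 321) (nat_lit 5) (nat_lit 429) (nat_lit 404) (nat_lit 367)))) (XT.nd (nat_lit 156) (nat_lit 684) (nat_lit 0) (XT.nd (nat_lit 78) (nat_lit 836) (nat_lit 0) (XT.lf (nat_lit 0) (nat_lit 3300105457) (nat_lit 1292) (nat_lit 2069857017) (nat_lit 76) (nat_lit 2545074688) (nat_lit 304) (nat_lit 5) (nat_lit 321) (nat_lit 5) (nat_lit 305) (nat_lit 5) (nat_lit 430) (nat_lit 404) (nat_lit 366)) (XT.lf (nat_lit 0) (nat_lit 2977028047) (nat_lit 836) (nat_lit 2669296461) (nat_lit 912) (nat_lit 2362418319) (nat_lit 293) (nat_lit 5) (nat_lit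 304) (nat_lit 5) (nat_lit 305) (nat_lit 5) (nat_lit 431) (nat_lit 404) (nat_lit 365))) (XT.nd (nat_lit 78) (nat_lit 76) (nat_lit 0) (XT.lf (nat_lit 0) (nat_lit 55153218) (nat_lit 608) (nat_lit 7973438291) (nat_lit 684) (nat_lit 77704009) (nat_lit 285) (nat_lit 5) (nat_lit 293) (nat_lit 5) (nat_lit 294) (nat_lit 5) (nat_lit 432) (nat_lit 404) (nat_lit 364)) (XT.lf (nat_lit 0) (nat_lit 2252384956) (nat_lit 684) (nat_lit 2914600267) (nat_lit 76) (nat_lit 3038501594) (nat_lit 284) (nat_lit 5) (nat_lit 293) (nat_lit 5) (nat_lit 285) (nat_lit 5) (nat_lit 433) (nat_lit 404) (nat_lit 363))))) (XT.nd (nat_lit 312) (nat_lit 1140) (nat_lit 0) (XT.nd (nat_lit 156) (nat_lit 1216) (nat_lit 0) (XT.nd (nat_lit 78) (nat_lit 0) (nat_lit 0) (XT.lf (nat_lit 0) (nat_lit 2364796392) (nat_lit 608) (nat_lit 2253891296) (nat_lit 684) (nat_lit 3689912113) (nat_lit 276) (nat_lit 5) (nat_lit 284) (nat_lit 5) (nat_lit 285) (nat_lit 5) (nat_lit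 434) (nat_lit 404) (nat_lit 362)) (XT.lf (nat_lit 0) (nat_lit 7039057561) (nat_lit 684) (nat_lit 616730176) (nat_lit 76) (nat_lit 759531157) (nat_lit 276) (nat_lit 5) (nat_lit 285) (nat_lit 5) (nat_lit 277) (nat_lit 5) (nat_lit 435) (nat_lit 404) (nat_lit 361))) (XT.nd (nat_lit 78) (nat_lit 608) (nat_lit 0) (XT.lf (nat_lit 0) (nat_lit 1004357156) (nat_lit 608) (nat_lit 3647353808) (nat_lit 76) (nat_lit 3872726895) (nat_lit 268) (nat_lit 5) (nat_lit 276) (nat_lit 5) (nat_lit 269) (nat_lit 5) (nat_lit 436) (nat_lit 404) (nat_lit 360)) (XT.lf (nat_lit 0) (nat_lit 1878207019) (nat_lit 608) (nat_lit 1523092262) (nat_lit 684) (nat_lit 5235949955) (nat_lit 260) (nat_lit 5) (nat_lit 268) (nat_lit 5) (nat_lit 269) (nat_lit 5) (nat_lit 437) (nat_lit 404) (nat_lit 359)))) (XT.nd (nat_lit 156) (nat_lit 608) (nat_lit 0) (XT.nd (nat_lit 78) (nat_lit 532) (nat_lit 0) (XT.lf (nat_lit 0) (nat_lit 5872825167) (nat_lit 684) (nat_lit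 1182131442) (nat_lit 76) (nat_lit 1698412578) (nat_lit 260) (nat_lit 5) (nat_lit 269) (nat_lit 5) (nat_lit 261) (nat_lit 5) (nat_lit 438) (nat_lit 404) (nat_lit 358)) (XT.lf (nat_lit 0) (nat_lit 4580670482) (nat_lit 532) (nat_lit 3847564095) (nat_lit 608) (nat_lit 444450394) (nat_lit 253) (nat_lit 5) (nat_lit 260) (nat_lit 5) (nat_lit 261) (nat_lit 5) (nat_lit 439) (nat_lit 404) (nat_lit 357))) (XT.nd (nat_lit 78) (nat_lit 0) (nat_lit 0) (XT.lf (nat_lit 0) (nat_lit 1498488721) (nat_lit 532) (nat_lit 503455979) (nat_lit 608) (nat_lit 6993718954) (nat_lit 245) (nat_lit 5) (nat_lit 252) (nat_lit 5) (nat_lit 253) (nat_lit 5) (nat_lit 440) (nat_lit 404) (nat_lit 356)) (XT.lf (nat_lit 0) (nat_lit 4536707003) (nat_lit 608) (nat_lit 1660418651) (nat_lit 76) (nat_lit 2924360773) (nat_lit 245) (nat_lit 5) (nat_lit 253) (nat_lit 5) (nat_lit 246) (nat_lit 5) (nat_lit 441) (nat_lit 404) (nat_lit 355))))))))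
noncomputable def xc106 : XT := (XT.nd (nat_lit 2418) (nat_lit 4028) (nat_lit 0) (XT.nd (nat_lit 1170) (nat_lit 3420) (nat_lit 0) (XT.nd (nat_lit 546) (nat_lit 2052) (nat_lit 0) (XT.nd (nat_lit 234) (nat_lit 1368) (nat_lit 0) (XT.nd (nat_lit 78) (nat_lit 532) (nat_lit 0) (XT.lf (nat_lit 0) (nat_lit 4376540958) (nat_lit 456) (nat_lit 2771295688) (nat_lit 532) (nat_lit 2103241382) (nat_lit 239) (nat_lit 5) (nat_lit 245) (nat_lit 5) (nat_lit 246) (nat_lit 5) (nat_lit 442) (nat_lit 404) (nat_lit 354)) (XT.nd (nat_lit 78) (nat_lit 0) (nat_lit 0) (XT.lf (nat_lit 0) (nat_lit 433614439) (nat_lit 532) (nat_lit 8184535683) (nat_lit 76) (nat_lit 766589162) (nat_lit 232) (nat_lit 5) (nat_lit 239) (nat_lit 5) (nat_lit 233) (nat_lit 5) (nat_lit 443) (nat_lit 404) (nat_lit 353)) (XT.lf (nat_lit 0) (nat_lit 3035825730) (nat_lit 532) (nat_lit 2069005652) (nat_lit 76) (nat_lit 4416012136) (nat_lit 232) (nat_lit 5) (nat_lit 239)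 (nat_lit 5) (nat_lit 233) (nat_lit 5) (nat_lit 444) (nat_lit 404) (nat_lit 352)))) (XT.nd (nat_lit 156) (nat_lit 456) (nat_lit 0) (XT.nd (nat_lit 78) (nat_lit 456) (nat_lit 0) (XT.lf (nat_lit 0) (nat_lit 4258297037) (nat_lit 456) (nat_lit 1454442268) (nat_lit 532) (nat_lit 3948395941) (nat_lit 226) (nat_lit 5) (nat_lit 232) (nat_lit 5) (nat_lit 233) (nat_lit 5) (nat_lit 445) (nat_lit 404) (nat_lit 351)) (XT.lf (nat_lit 0) (nat_lit 953605435) (nat_lit 456) (nat_lit 7525150975) (nat_lit 532) (nat_lit 1326618779) (nat_lit 220) (nat_lit 5) (nat_lit 226) (nat_lit 5) (nat_lit 227) (nat_lit 5) (nat_lit 446) (nat_lit 404) (nat_lit 350))) (XT.nd (nat_lit 78) (nat_lit 380) (nat_lit 0) (XT.lf (nat_lit 0) (nat_lit 1373185738) (nat_lit 532) (nat_lit 2424735331) (nat_lit 76) (nat_lit 6154842777) (nat_lit 219) (nat_lit 5) (nat_lit 226) (nat_lit 5) (nat_lit 220) (nat_lit 5) (nat_lit 447) (nat_lit 404) (nat_lit 349)) (XT.lf (nat_lit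 0) (nat_lit 4126544293) (nat_lit 456) (nat_lit 5895067376) (nat_lit 76) (nat_lit 82594800) (nat_lit 214) (nat_lit 5) (nat_lit 220) (nat_lit 5) (nat_lit 215) (nat_lit 5) (nat_lit 448) (nat_lit 404) (nat_lit 348))))) (XT.nd (nat_lit 312) (nat_lit 760) (nat_lit 0) (XT.nd (nat_lit 156) (nat_lit 836) (nat_lit 0) (XT.nd (nat_lit 78) (nat_lit 0) (nat_lit 0) (XT.lf (nat_lit 0) (nat_lit 754403874) (nat_lit 456) (nat_lit 6236218663) (nat_lit 532) (nat_lit 3268729241) (nat_lit 208) (nat_lit 5) (nat_lit 214) (nat_lit 5) (nat_lit 215) (nat_lit 5) (nat_lit 449) (nat_lit 404) (nat_lit 347)) (XT.lf (nat_lit 0) (nat_lit 7669990827) (nat_lit 456) (nat_lit 2289383946) (nat_lit 532) (nat_lit 459217010) (nat_lit 208) (nat_lit 5) (nat_lit 214) (nat_lit 5) (nat_lit 215) (nat_lit 5) (nat_lit 450) (nat_lit 404) (nat_lit 346))) (XT.nd (nat_lit 78) (nat_lit 380) (nat_lit 0) (XT.lf (nat_lit 0) (nat_lit 2405188954) (nat_lit 456) (nat_lit 6383598209)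 (nat_lit 76) (nat_lit 1792578991) (nat_lit 202) (nat_lit 5) (nat_lit 208) (nat_lit 5) (nat_lit 203) (nat_lit 5) (nat_lit 451) (nat_lit 404) (nat_lit 345)) (XT.lf (nat_lit 0) (nat_lit 590760475) (nat_lit 380) (nat_lit 4772454477) (nat_lit 456) (nat_lit 5385167515) (nat_lit 197) (nat_lit 5) (nat_lit 202) (nat_lit 5) (nat_lit 203) (nat_lit 5) (nat_lit 452) (nat_lit 404) (nat_lit 344)))) (XT.nd (nat_lit 156) (nat_lit 380) (nat_lit 0) (XT.nd (nat_lit 78) (nat_lit 380) (nat_lit 0) (XT.lf (nat_lit 0) (nat_lit 7851777278) (nat_lit 380) (nat_lit 583843408) (nat_lit 456) (nat_lit 2484021979) (nat_lit 197) (nat_lit 5) (nat_lit 202) (nat_lit 5) (nat_lit 203) (nat_lit 5) (nat_lit 453) (nat_lit 404) (nat_lit 343)) (XT.lf (nat_lit 0) (nat_lit 533376812) (nat_lit 380) (nat_lit 6871747513) (nat_lit 76) (nat_lit 3689601670) (nat_lit 192) (nat_lit 5) (nat_lit 197) (nat_lit 5) (nat_lit 193) (nat_lit 5) (nat_lit 454) (nat_lit 404)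 (nat_lit 342))) (XT.nd (nat_lit 78) (nat_lit 0) (nat_lit 0) (XT.lf (nat_lit 0) (nat_lit 446226112) (nat_lit 380) (nat_lit 3148900391) (nat_lit 456) (nat_lit 7679087177) (nat_lit 187) (nat_lit 5) (nat_lit 192) (nat_lit 5) (nat_lit 193) (nat_lit 5) (nat_lit 455) (nat_lit 404) (nat_lit 341)) (XT.lf (nat_lit 0) (nat_lit 6793517754) (nat_lit 456) (nat_lit 3398505451) (nat_lit 76) (nat_lit 1265721401) (nat_lit 187) (nat_lit 5) (nat_lit 193) (nat_lit 5) (nat_lit 188) (nat_lit 5) (nat_lit 456) (nat_lit 404) (nat_lit 340)))))) (XT.nd (nat_lit 624) (nat_lit 1748) (nat_lit 0) (XT.nd (nat_lit 312) (nat_lit 684) (nat_lit 0) (XT.nd (nat_lit 156) (nat_lit 304) (nat_lit 0) (XT.nd (nat_lit 78) (nat_lit 380) (nat_lit 0) (XT.lf (nat_lit 0) (nat_lit 4253703037) (nat_lit 304) (nat_lit 5870145659) (nat_lit 380) (nat_lit 1521855337) (nat_lit 183) (nat_lit 5) (nat_lit 187) (nat_lit 5) (nat_lit 188) (nat_lit 5) (nat_lit 457) (nat_lit 404)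 (nat_lit 339)) (XT.lf (nat_lit 0) (nat_lit 303783297) (nat_lit 304) (nat_lit 1379244249) (nat_lit 380) (nat_lit 10155731216) (nat_lit 178) (nat_lit 5) (nat_lit 182) (nat_lit 5) (nat_lit 183) (nat_lit 5) (nat_lit 458) (nat_lit 404) (nat_lit 338))) (XT.nd (nat_lit 78) (nat_lit 304) (nat_lit 0) (XT.lf (nat_lit 0) (nat_lit 5024573822) (nat_lit 380) (nat_lit 3752994405) (nat_lit 76) (nat_lit 3257453755) (nat_lit 178) (nat_lit 5) (nat_lit 183) (nat_lit 5) (nat_lit 179) (nat_lit 5) (nat_lit 459) (nat_lit 404) (nat_lit 337)) (XT.lf (nat_lit 0) (nat_lit 4281279659) (nat_lit 304) (nat_lit 4205445228) (nat_lit 380) (nat_lit 3749839424) (nat_lit 174) (nat_lit 5) (nat_lit 178) (nat_lit 5) (nat_lit 179) (nat_lit 5) (nat_lit 460) (nat_lit 404) (nat_lit 336)))) (XT.nd (nat_lit 156) (nat_lit 304) (nat_lit 0) (XT.nd (nat_lit 78) (nat_lit 76) (nat_lit 0) (XT.lf (nat_lit 0) (nat_lit 136531040) (nat_lit 304) (nat_lit 11926544197) (nat_lit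 380) (nat_lit 380769539) (nat_lit 170) (nat_lit 5) (nat_lit 174) (nat_lit 5) (nat_lit 175) (nat_lit 5) (nat_lit 461) (nat_lit 404) (nat_lit 335)) (XT.lf (nat_lit 0) (nat_lit 3117929131) (nat_lit 380) (nat_lit 4144473619) (nat_lit 76) (nat_lit 5391386552) (nat_lit 169) (nat_lit 5) (nat_lit 174) (nat_lit 5) (nat_lit 170) (nat_lit 5) (nat_lit 462) (nat_lit 404) (nat_lit 334))) (XT.nd (nat_lit 78) (nat_lit 0) (nat_lit 0) (XT.lf (nat_lit 0) (nat_lit 4293173188) (nat_lit 304) (nat_lit 2429094442) (nat_lit 380) (nat_lit 6147403221) (nat_lit 165) (nat_lit 5) (nat_lit 169) (nat_lit 5) (nat_lit 170) (nat_lit 5) (nat_lit 463) (nat_lit 404) (nat_lit 333)) (XT.lf (nat_lit 0) (nat_lit 10468887512) (nat_lit 380) (nat_lit 97188574) (nat_lit 76) (nat_lit 2524929920) (nat_lit 165) (nat_lit 5) (nat_lit 170) (nat_lit 5) (nat_lit 166) (nat_lit 5) (nat_lit 464) (nat_lit 404) (nat_lit 332))))) (XT.nd (nat_lit 312) (nat_lit 836) (nat_lit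 0) (XT.nd (nat_lit 156) (nat_lit 304) (nat_lit 0) (XT.nd (nat_lit 78) (nat_lit 228) (nat_lit 0) (XT.lf (nat_lit 0) (nat_lit 1066328952) (nat_lit 380) (nat_lit 4593202149) (nat_lit 76) (nat_lit 7656848001) (nat_lit 160) (nat_lit 5) (nat_lit 165) (nat_lit 5) (nat_lit 161) (nat_lit 5) (nat_lit 465) (nat_lit 404) (nat_lit 331)) (XT.lf (nat_lit 0) (nat_lit 4269927709) (nat_lit 228) (nat_lit 553313694) (nat_lit 304) (nat_lit 8724179287) (nat_lit 157) (nat_lit 5) (nat_lit 160) (nat_lit 5) (nat_lit 161) (nat_lit 5) (nat_lit 466) (nat_lit 404) (nat_lit 330))) (XT.nd (nat_lit 78) (nat_lit 304) (nat_lit 0) (XT.lf (nat_lit 0) (nat_lit 8753700301) (nat_lit 304) (nat_lit 385959858) (nat_lit 76) (nat_lit 4643909701) (nat_lit 157) (nat_lit 5) (nat_lit 161) (nat_lit 5) (nat_lit 158) (nat_lit 5) (nat_lit 467) (nat_lit 404) (nat_lit 329)) (XT.lf (nat_lit 0) (nat_lit 8892433874) (nat_lit 304) (nat_lit 3970266559) (nat_lit 380) (nat_lit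 1162285710) (nat_lit 153) (nat_lit 5) (nat_lit 157) (nat_lit 5) (nat_lit 158) (nat_lit 5) (nat_lit 468) (nat_lit 404) (nat_lit 328)))) (XT.nd (nat_lit 156) (nat_lit 532) (nat_lit 0) (XT.nd (nat_lit 78) (nat_lit 0) (nat_lit 0) (XT.lf (nat_lit 0) (nat_lit 2793836697) (nat_lit 304) (nat_lit 10095858940) (nat_lit 76) (nat_lit 1382310088) (nat_lit 149) (nat_lit 5) (nat_lit 153) (nat_lit 5) (nat_lit 150) (nat_lit 5) (nat_lit 469) (nat_lit 404) (nat_lit 327)) (XT.lf (nat_lit 0) (nat_lit 6906983670) (nat_lit 304) (nat_lit 755207664) (nat_lit 76) (nat_lit 6862049616) (nat_lit 149) (nat_lit 5) (nat_lit 153) (nat_lit 5) (nat_lit 150) (nat_lit 5) (nat_lit 470) (nat_lit 404) (nat_lit 326))) (XT.nd (nat_lit 78) (nat_lit 304) (nat_lit 0) (XT.lf (nat_lit 0) (nat_lit 8994265681) (nat_lit 228) (nat_lit 2206640322) (nat_lit 304) (nat_lit 3581417099) (nat_lit 146) (nat_lit 5) (nat_lit 149) (nat_lit 5) (nat_lit 150) (nat_lit 5) (nat_lit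 471) (nat_lit 404) (nat_lit 325)) (XT.lf (nat_lit 0) (nat_lit 614889178) (nat_lit 304) (nat_lit 11050815699) (nat_lit 76) (nat_lit 3380759479) (nat_lit 142) (nat_lit 5) (nat_lit 146) (nat_lit 5) (nat_lit 143) (nat_lit 5) (nat_lit 472) (nat_lit 404) (nat_lit 324))))))) (XT.nd (nat_lit 1170) (nat_lit 1748) (nat_lit 0) (XT.nd (nat_lit 546) (nat_lit 1292) (nat_lit 0) (XT.nd (nat_lit 234) (nat_lit 532) (nat_lit 0) (XT.nd (nat_lit 78) (nat_lit 456) (nat_lit 0) (XT.lf (nat_lit 0) (nat_lit 4917237120) (nat_lit 304) (nat_lit 1230397037) (nat_lit 76) (nat_lit 9168269027) (nat_lit 142) (nat_lit 5) (nat_lit 146) (nat_lit 5) (nat_lit 143) (nat_lit 5) (nat_lit 473) (nat_lit 404) (nat_lit 323)) (XT.nd (nat_lit 78) (nat_lit 228) (nat_lit 0) (XT.lf (nat_lit 0) (nat_lit 9014669198) (nat_lit 228) (nat_lit 392738649) (nat_lit 304) (nat_lit 6184255917) (nat_lit 139) (nat_lit 5) (nat_lit 142) (nat_lit 5) (nat_lit 143) (nat_lit 5) (nat_lit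 474) (nat_lit 404) (nat_lit 322)) (XT.lf (nat_lit 0) (nat_lit 3689576145) (nat_lit 228) (nat_lit 10416227374) (nat_lit 304) (nat_lit 1767689167) (nat_lit 136) (nat_lit 5) (nat_lit 139) (nat_lit 5) (nat_lit 140) (nat_lit 5) (nat_lit 475) (nat_lit 404) (nat_lit 321)))) (XT.nd (nat_lit 156) (nat_lit 228) (nat_lit 0) (XT.nd (nat_lit 78) (nat_lit 228) (nat_lit 0) (XT.lf (nat_lit 0) (nat_lit 2770459085) (nat_lit 304) (nat_lit 1840277864) (nat_lit 76) (nat_lit 11550937721) (nat_lit 135) (nat_lit 5) (nat_lit 139) (nat_lit 5) (nat_lit 136) (nat_lit 5) (nat_lit 476) (nat_lit 404) (nat_lit 320)) (XT.lf (nat_lit 0) (nat_lit 7482230925) (nat_lit 304) (nat_lit 7544711969) (nat_lit 76) (nat_lit 1428844953) (nat_lit 132) (nat_lit 5) (nat_lit 136) (nat_lit 5) (nat_lit 133) (nat_lit 5) (nat_lit 477) (nat_lit 404) (nat_lit 319))) (XT.nd (nat_lit 78) (nat_lit 76) (nat_lit 0) (XT.lf (nat_lit 0) (nat_lit 3236840085) (nat_lit 152) (nat_lit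 9167431868) (nat_lit 228) (nat_lit 4352385978) (nat_lit 130) (nat_lit 5) (nat_lit 132) (nat_lit 5) (nat_lit 133) (nat_lit 5) (nat_lit 478) (nat_lit 404) (nat_lit 318)) (XT.lf (nat_lit 0) (nat_lit 449880206) (nat_lit 228) (nat_lit 2617543619) (nat_lit 76) (nat_lit 13997501432) (nat_lit 129) (nat_lit 5) (nat_lit 132) (nat_lit 5) (nat_lit 130) (nat_lit 5) (nat_lit 479) (nat_lit 404) (nat_lit 317))))) (XT.nd (nat_lit 312) (nat_lit 608) (nat_lit 0) (XT.nd (nat_lit 156) (nat_lit 304) (nat_lit 0) (XT.nd (nat_lit 78) (nat_lit 152) (nat_lit 0) (XT.lf (nat_lit 0) (nat_lit 5398546321) (nat_lit 304) (nat_lit 8716825320) (nat_lit 76) (nat_lit 3263082767) (nat_lit 126) (nat_lit 5) (nat_lit 130) (nat_lit 5) (nat_lit 127) (nat_lit 5) (nat_lit 480) (nat_lit 404) (nat_lit 316)) (XT.lf (nat_lit 0) (nat_lit 2608557122) (nat_lit 152) (nat_lit 7943657641) (nat_lit 228) (nat_lit 7147479285) (nat_lit 124) (nat_lit 5) (nat_lit 126) (nat_lit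 5) (nat_lit 127) (nat_lit 5) (nat_lit 481) (nat_lit 404) (nat_lit 315))) (XT.nd (nat_lit 78) (nat_lit 304) (nat_lit 0) (XT.lf (nat_lit 0) (nat_lit 14408867729) (nat_lit 152) (nat_lit 1514378582) (nat_lit 228) (nat_lit 2105442833) (nat_lit 124) (nat_lit 5) (nat_lit 126) (nat_lit 5) (nat_lit 127) (nat_lit 5) (nat_lit 482) (nat_lit 404) (nat_lit 314)) (XT.lf (nat_lit 0) (nat_lit 3132470068) (nat_lit 304) (nat_lit 10130154472) (nat_lit 76) (nat_lit 5100893777) (nat_lit 120) (nat_lit 5) (nat_lit 124) (nat_lit 5) (nat_lit 121) (nat_lit 5) (nat_lit 483) (nat_lit 404) (nat_lit 313)))) (XT.nd (nat_lit 156) (nat_lit 456) (nat_lit 0) (XT.nd (nat_lit 78) (nat_lit 0) (nat_lit 0) (XT.lf (nat_lit 0) (nat_lit 1764389637) (nat_lit 152) (nat_lit 6765048230) (nat_lit 228) (nat_lit 10177002862) (nat_lit 118) (nat_lit 5) (nat_lit 120) (nat_lit 5) (nat_lit 121) (nat_lit 5) (nat_lit 484) (nat_lit 404) (nat_lit 312)) (XT.lf (nat_lit 0)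 (nat_lit 14166425299) (nat_lit 228) (nat_lit 4876494672) (nat_lit 76) (nat_lit 14388285) (nat_lit 118) (nat_lit 5) (nat_lit 121) (nat_lit 5) (nat_lit 119) (nat_lit 5) (nat_lit 485) (nat_lit 404) (nat_lit 311))) (XT.nd (nat_lit 78) (nat_lit 152) (nat_lit 0) (XT.lf (nat_lit 0) (nat_lit 660321029) (nat_lit 304) (nat_lit 11831300265) (nat_lit 76) (nat_lit 6923402300) (nat_lit 114) (nat_lit 5) (nat_lit 118) (nat_lit 5) (nat_lit 115) (nat_lit 5) (nat_lit 486) (nat_lit 404) (nat_lit 310)) (XT.lf (nat_lit 0) (nat_lit 657806484) (nat_lit 152) (nat_lit 5654282486) (nat_lit 228) (nat_lit 13468959492) (nat_lit 112) (nat_lit 5) (nat_lit 114) (nat_lit 5) (nat_lit 115) (nat_lit 5) (nat_lit 487) (nat_lit 404) (nat_lit 309)))))) (XT.nd (nat_lit 624) (nat_lit 836) (nat_lit 0) (XT.nd (nat_lit 312) (nat_lit 532) (nat_lit 0) (XT.nd (nat_lit 156) (nat_lit 228) (nat_lit 0) (XT.nd (nat_lit 78) (nat_lit 152) (nat_lit 0) (XT.lf (nat_lit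 0) (nat_lit 12243805510) (nat_lit 228) (nat_lit 6446836470) (nat_lit 76) (nat_lit 1464100907) (nat_lit 112) (nat_lit 5) (nat_lit 115) (nat_lit 5) (nat_lit 113) (nat_lit 5) (nat_lit 488) (nat_lit 404) (nat_lit 308)) (XT.lf (nat_lit 0) (nat_lit 6642768397) (nat_lit 152) (nat_lit 11807625724) (nat_lit 228) (nat_lit 2086347065) (nat_lit 110) (nat_lit 5) (nat_lit 112) (nat_lit 5) (nat_lit 113) (nat_lit 5) (nat_lit 489) (nat_lit 404) (nat_lit 307))) (XT.nd (nat_lit 78) (nat_lit 152) (nat_lit 0) (XT.lf (nat_lit 0) (nat_lit 3879507798) (nat_lit 228) (nat_lit 750080117) (nat_lit 76) (nat_lit 16298197224) (nat_lit 109) (nat_lit 5) (nat_lit 112) (nat_lit 5) (nat_lit 110) (nat_lit 5) (nat_lit 490) (nat_lit 404) (nat_lit 306)) (XT.lf (nat_lit 0) (nat_lit 10112831870) (nat_lit 228) (nat_lit 8373523955) (nat_lit 76) (nat_lit 2839672669) (nat_lit 107) (nat_lit 5) (nat_lit 110) (nat_lit 5) (nat_lit 108) (nat_lit 5) (nat_lit 491)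 (nat_lit 404) (nat_lit 305)))) (XT.nd (nat_lit 156) (nat_lit 304) (nat_lit 0) (XT.nd (nat_lit 78) (nat_lit 76) (nat_lit 0) (XT.lf (nat_lit 0) (nat_lit 5364614907) (nat_lit 152) (nat_lit 11251503010) (nat_lit 228) (nat_lit 5117612950) (nat_lit 105) (nat_lit 5) (nat_lit 107) (nat_lit 5) (nat_lit 108) (nat_lit 5) (nat_lit 492) (nat_lit 404) (nat_lit 304)) (XT.lf (nat_lit 0) (nat_lit 1201535786) (nat_lit 228) (nat_lit 2516332799) (nat_lit 76) (nat_lit 18433561027) (nat_lit 104) (nat_lit 5) (nat_lit 107) (nat_lit 5) (nat_lit 105) (nat_lit 5) (nat_lit 493) (nat_lit 404) (nat_lit 303))) (XT.nd (nat_lit 78) (nat_lit 152) (nat_lit 0) (XT.lf (nat_lit 0) (nat_lit 7740659722) (nat_lit 228) (nat_lit 10722794047) (nat_lit 76) (nat_lit 4112688212) (nat_lit 102) (nat_lit 5) (nat_lit 105) (nat_lit 5) (nat_lit 103) (nat_lit 5) (nat_lit 494) (nat_lit 404) (nat_lit 302)) (XT.lf (nat_lit 0) (nat_lit 3689102886) (nat_lit 152) (nat_lit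 10863478796) (nat_lit 228) (nat_lit 8458715830) (nat_lit 100) (nat_lit 5) (nat_lit 102) (nat_lit 5) (nat_lit 103) (nat_lit 5) (nat_lit 495) (nat_lit 404) (nat_lit 301))))) (XT.nd (nat_lit 312) (nat_lit 456) (nat_lit 0) (XT.nd (nat_lit 156) (nat_lit 152) (nat_lit 0) (XT.nd (nat_lit 78) (nat_lit 228) (nat_lit 0) (XT.lf (nat_lit 0) (nat_lit 18714852152) (nat_lit 152) (nat_lit 2941230946) (nat_lit 228) (nat_lit 1800808461) (nat_lit 100) (nat_lit 5) (nat_lit 102) (nat_lit 5) (nat_lit 103) (nat_lit 5) (nat_lit 496) (nat_lit 404) (nat_lit 300)) (XT.lf (nat_lit 0) (nat_lit 5088879708) (nat_lit 228) (nat_lit 13571399345) (nat_lit 76) (nat_lit 5250194948) (nat_lit 97) (nat_lit 5) (nat_lit 100) (nat_lit 5) (nat_lit 98) (nat_lit 5) (nat_lit 497) (nat_lit 404) (nat_lit 299))) (XT.nd (nat_lit 78) (nat_lit 0) (nat_lit 0) (XT.lf (nat_lit 0) (nat_lit 1538509899) (nat_lit 152) (nat_lit 10682258380) (nat_lit 228) (nat_lit 12154210079)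 (nat_lit 95) (nat_lit 5) (nat_lit 97) (nat_lit 5) (nat_lit 98) (nat_lit 5) (nat_lit 498) (nat_lit 404) (nat_lit 298)) (XT.lf (nat_lit 0) (nat_lit 17342597386) (nat_lit 152) (nat_lit 2340735514) (nat_lit 228) (nat_lit 5166583811) (nat_lit 95) (nat_lit 5) (nat_lit 97) (nat_lit 5) (nat_lit 98) (nat_lit 5) (nat_lit 499) (nat_lit 404) (nat_lit 297)))) (XT.nd (nat_lit 156) (nat_lit 228) (nat_lit 0) (XT.nd (nat_lit 78) (nat_lit 0) (nat_lit 0) (XT.lf (nat_lit 0) (nat_lit 2112679213) (nat_lit 228) (nat_lit 17008357152) (nat_lit 76) (nat_lit 6213832662) (nat_lit 92) (nat_lit 5) (nat_lit 95) (nat_lit 5) (nat_lit 93) (nat_lit 5) (nat_lit 500) (nat_lit 404) (nat_lit 296)) (XT.lf (nat_lit 0) (nat_lit 9586355850) (nat_lit 228) (nat_lit 1154627807) (nat_lit 76) (nat_lit 15089455668) (nat_lit 92) (nat_lit 5) (nat_lit 95) (nat_lit 5) (nat_lit 93) (nat_lit 5) (nat_lit 501) (nat_lit 404) (nat_lit 295))) (XT.nd (nat_lit 78) (nat_lit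 76) (nat_lit 0) (XT.lf (nat_lit 0) (nat_lit 15440377404) (nat_lit 152) (nat_lit 1973009627) (nat_lit 228) (nat_lit 8923615772) (nat_lit 90) (nat_lit 5) (nat_lit 92) (nat_lit 5) (nat_lit 93) (nat_lit 5) (nat_lit 502) (nat_lit 404) (nat_lit 294)) (XT.lf (nat_lit 0) (nat_lit 5706174735) (nat_lit 76) (nat_lit 19884314644) (nat_lit 152) (nat_lit 1264816387) (nat_lit 89) (nat_lit 5) (nat_lit 90) (nat_lit 5) (nat_lit 91) (nat_lit 4) (nat_lit 503) (nat_lit 404) (nat_lit 293))))))))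
noncomputable def xc107 : XT := (XT.nd (nat_lit 2418) (nat_lit 1140) (nat_lit 0) (XT.nd (nat_lit 1170) (nat_lit 1064) (nat_lit 0) (XT.nd (nat_lit 546) (nat_lit 836) (nat_lit 0) (XT.nd (nat_lit 234) (nat_lit 304) (nat_lit 0) (XT.nd (nat_lit 78) (nat_lit 228) (nat_lit 0) (XT.lf (nat_lit 0) (nat_lit 6605972142) (nat_lit 152) (nat_lit 4475455675) (nat_lit 76) (nat_lit 16302475869) (nat_lit 88) (nat_lit 5) (nat_lit 90) (nat_lit 5) (nat_lit 89) (nat_lit 5) (nat_lit 504) (nat_lit 404) (nat_lit 292)) (XT.nd (nat_lit 78) (nat_lit 76) (nat_lit 0) (XT.lf (nat_lit 0) (nat_lit 12902999548) (nat_lit 152) (nat_lit 1889872975) (nat_lit 228) (nat_lit 13131949395) (nat_lit 86) (nat_lit 5) (nat_lit 88) (nat_lit 5) (nat_lit 89) (nat_lit 5) (nat_lit 505) (nat_lit 404) (nat_lit 291)) (XT.lf (nat_lit 0) (nat_lit 2351793884) (nat_lit 76) (nat_lit 20996109738) (nat_lit 152) (nat_lit 5130388707) (nat_lit 85) (nat_lit 5) (nat_lit 86) (nat_lit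 5) (nat_lit 87) (nat_lit 4) (nat_lit 506) (nat_lit 404) (nat_lit 290)))) (XT.nd (nat_lit 156) (nat_lit 76) (nat_lit 0) (XT.nd (nat_lit 78) (nat_lit 152) (nat_lit 0) (XT.lf (nat_lit 0) (nat_lit 3203877188) (nat_lit 152) (nat_lit 8574164553) (nat_lit 76) (nat_lit 17264827142) (nat_lit 84) (nat_lit 5) (nat_lit 86) (nat_lit 5) (nat_lit 85) (nat_lit 5) (nat_lit 507) (nat_lit 404) (nat_lit 289)) (XT.lf (nat_lit 0) (nat_lit 9607657166) (nat_lit 152) (nat_lit 2151757710) (nat_lit 228) (nat_lit 17861213509) (nat_lit 82) (nat_lit 5) (nat_lit 84) (nat_lit 5) (nat_lit 85) (nat_lit 5) (nat_lit 508) (nat_lit 404) (nat_lit 288))) (XT.nd (nat_lit 78) (nat_lit 76) (nat_lit 0) (XT.lf (nat_lit 0) (nat_lit 20715741159) (nat_lit 228) (nat_lit 1811729606) (nat_lit 76) (nat_lit 7683926538) (nat_lit 82) (nat_lit 5) (nat_lit 85) (nat_lit 5) (nat_lit 83) (nat_lit 4) (nat_lit 509) (nat_lit 404) (nat_lit 287)) (XT.lf (nat_lit 0) (nat_lit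 17217383992) (nat_lit 76) (nat_lit 12892761634) (nat_lit 152) (nat_lit 704662307) (nat_lit 81) (nat_lit 5) (nat_lit 82) (nat_lit 5) (nat_lit 83) (nat_lit 4) (nat_lit 510) (nat_lit 404) (nat_lit 286))))) (XT.nd (nat_lit 312) (nat_lit 304) (nat_lit 0) (XT.nd (nat_lit 156) (nat_lit 304) (nat_lit 0) (XT.nd (nat_lit 78) (nat_lit 0) (nat_lit 0) (XT.lf (nat_lit 0) (nat_lit 5411020606) (nat_lit 152) (nat_lit 2829194925) (nat_lit 228) (nat_lit 23192104835) (nat_lit 78) (nat_lit 5) (nat_lit 80) (nat_lit 5) (nat_lit 81) (nat_lit 5) (nat_lit 511) (nat_lit 404) (nat_lit 285)) (XT.lf (nat_lit 0) (nat_lit 17633037202) (nat_lit 228) (nat_lit 6909471553) (nat_lit 76) (nat_lit 7519827568) (nat_lit 78) (nat_lit 5) (nat_lit 81) (nat_lit 5) (nat_lit 79) (nat_lit 4) (nat_lit 512) (nat_lit 404) (nat_lit 284))) (XT.nd (nat_lit 78) (nat_lit 228) (nat_lit 0) (XT.lf (nat_lit 0) (nat_lit 12968821192) (nat_lit 76) (nat_lit 14474654121) (nat_lit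 152) (nat_lit 5263702755) (nat_lit 77) (nat_lit 5) (nat_lit 78) (nat_lit 5) (nat_lit 79) (nat_lit 4) (nat_lit 513) (nat_lit 404) (nat_lit 283)) (XT.lf (nat_lit 0) (nat_lit 145864447) (nat_lit 152) (nat_lit 4004533574) (nat_lit 228) (nat_lit 29218111511) (nat_lit 74) (nat_lit 5) (nat_lit 76) (nat_lit 5) (nat_lit 77) (nat_lit 5) (nat_lit 514) (nat_lit 404) (nat_lit 282)))) (XT.nd (nat_lit 156) (nat_lit 228) (nat_lit 0) (XT.nd (nat_lit 78) (nat_lit 76) (nat_lit 0) (XT.lf (nat_lit 0) (nat_lit 13990807696) (nat_lit 228) (nat_lit 13163742178) (nat_lit 76) (nat_lit 6886077398) (nat_lit 74) (nat_lit 5) (nat_lit 77) (nat_lit 5) (nat_lit 75) (nat_lit 4) (nat_lit 515) (nat_lit 404) (nat_lit 281)) (XT.lf (nat_lit 0) (nat_lit 7573996949) (nat_lit 76) (nat_lit 16648594637) (nat_lit 152) (nat_lit 10507432336) (nat_lit 73) (nat_lit 5) (nat_lit 74) (nat_lit 5) (nat_lit 75) (nat_lit 4) (nat_lit 516) (nat_lit 404) (nat_lit 280)))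 (XT.nd (nat_lit 78) (nat_lit 228) (nat_lit 0) (XT.lf (nat_lit 0) (nat_lit 29172938766) (nat_lit 76) (nat_lit 5705204133) (nat_lit 152) (nat_lit 558455382) (nat_lit 73) (nat_lit 5) (nat_lit 74) (nat_lit 5) (nat_lit 75) (nat_lit 4) (nat_lit 517) (nat_lit 404) (nat_lit 279)) (XT.lf (nat_lit 0) (nat_lit 9688239483) (nat_lit 228) (nat_lit 20780050215) (nat_lit 76) (nat_lit 5687636820) (nat_lit 70) (nat_lit 5) (nat_lit 73) (nat_lit 5) (nat_lit 71) (nat_lit 4) (nat_lit 518) (nat_lit 404) (nat_lit 278)))))) (XT.nd (nat_lit 624) (nat_lit 456) (nat_lit 0) (XT.nd (nat_lit 312) (nat_lit 304) (nat_lit 0) (XT.nd (nat_lit 156) (nat_lit 228) (nat_lit 0) (XT.nd (nat_lit 78) (nat_lit 0) (nat_lit 0) (XT.lf (nat_lit 0) (nat_lit 821214665) (nat_lit 76) (nat_lit 19522390046) (nat_lit 152) (nat_lit 16549689404) (nat_lit 69) (nat_lit 5) (nat_lit 70) (nat_lit 5) (nat_lit 71) (nat_lit 4) (nat_lit 519) (nat_lit 404) (nat_lit 277)) (XT.lf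 (nat_lit 0) (nat_lit 23466556987) (nat_lit 76) (nat_lit 8046318910) (nat_lit 152) (nat_lit 6134079694) (nat_lit 69) (nat_lit 5) (nat_lit 70) (nat_lit 5) (nat_lit 71) (nat_lit 4) (nat_lit 520) (nat_lit 404) (nat_lit 276))) (XT.nd (nat_lit 78) (nat_lit 0) (nat_lit 0) (XT.lf (nat_lit 0) (nat_lit 4607768276) (nat_lit 228) (nat_lit 29997721306) (nat_lit 76) (nat_lit 3813310247) (nat_lit 66) (nat_lit 5) (nat_lit 69) (nat_lit 5) (nat_lit 67) (nat_lit 4) (nat_lit 521) (nat_lit 404) (nat_lit 275)) (XT.lf (nat_lit 0) (nat_lit 15757604266) (nat_lit 228) (nat_lit 7389432794) (nat_lit 76) (nat_lit 16058669872) (nat_lit 66) (nat_lit 5) (nat_lit 69) (nat_lit 5) (nat_lit 67) (nat_lit 4) (nat_lit 522) (nat_lit 404) (nat_lit 274)))) (XT.nd (nat_lit 156) (nat_lit 228) (nat_lit 0) (XT.nd (nat_lit 78) (nat_lit 0) (nat_lit 0) (XT.lf (nat_lit 0) (nat_lit 16184380404) (nat_lit 76) (nat_lit 11198316473) (nat_lit 152) (nat_lit 12629301702)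 (nat_lit 65) (nat_lit 5) (nat_lit 66) (nat_lit 5) (nat_lit 67) (nat_lit 4) (nat_lit 523) (nat_lit 404) (nat_lit 273)) (XT.lf (nat_lit 0) (nat_lit 39427775310) (nat_lit 152) (nat_lit 263322869) (nat_lit 0) (nat_lit 1149243980) (nat_lit 65) (nat_lit 5) (nat_lit 67) (nat_lit 4) (nat_lit 65) (nat_lit 4) (nat_lit 524) (nat_lit 404) (nat_lit 272))) (XT.nd (nat_lit 78) (nat_lit 76) (nat_lit 0) (XT.lf (nat_lit 0) (nat_lit 10276595525) (nat_lit 152) (nat_lit 17440035166) (nat_lit 76) (nat_lit 13963966975) (nat_lit 63) (nat_lit 5) (nat_lit 65) (nat_lit 5) (nat_lit 64) (nat_lit 4) (nat_lit 525) (nat_lit 404) (nat_lit 271)) (XT.lf (nat_lit 0) (nat_lit 7034487056) (nat_lit 76) (nat_lit 15309519939) (nat_lit 152) (nat_lit 20199955466) (nat_lit 62) (nat_lit 5) (nat_lit 63) (nat_lit 5) (nat_lit 64) (nat_lit 4) (nat_lit 526) (nat_lit 404) (nat_lit 270))))) (XT.nd (nat_lit 312) (nat_lit 228) (nat_lit 0) (XT.nd (nat_lit 156) (nat_lit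 76) (nat_lit 0) (XT.nd (nat_lit 78) (nat_lit 152) (nat_lit 0) (XT.lf (nat_lit 0) (nat_lit 32573270420) (nat_lit 76) (nat_lit 2362094328) (nat_lit 152) (nat_lit 8493005889) (nat_lit 62) (nat_lit 5) (nat_lit 63) (nat_lit 5) (nat_lit 64) (nat_lit 4) (nat_lit 527) (nat_lit 404) (nat_lit 269)) (XT.lf (nat_lit 0) (nat_lit 3730717398) (nat_lit 152) (nat_lit 29675732659) (nat_lit 76) (nat_lit 10924779009) (nat_lit 60) (nat_lit 5) (nat_lit 62) (nat_lit 5) (nat_lit 61) (nat_lit 4) (nat_lit 528) (nat_lit 404) (nat_lit 268))) (XT.nd (nat_lit 78) (nat_lit 76) (nat_lit 0) (XT.lf (nat_lit 0) (nat_lit 16270653710) (nat_lit 152) (nat_lit 4239495696) (nat_lit 76) (nat_lit 24744895237) (nat_lit 60) (nat_lit 5) (nat_lit 62) (nat_lit 5) (nat_lit 61) (nat_lit 4) (nat_lit 529) (nat_lit 404) (nat_lit 267)) (XT.lf (nat_lit 0) (nat_lit 22370157312) (nat_lit 76) (nat_lit 7018185599) (nat_lit 152) (nat_lit 16812185271) (nat_lit 59) (nat_lit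 5) (nat_lit 60) (nat_lit 5) (nat_lit 61) (nat_lit 4) (nat_lit 530) (nat_lit 404) (nat_lit 266)))) (XT.nd (nat_lit 156) (nat_lit 76) (nat_lit 0) (XT.nd (nat_lit 78) (nat_lit 76) (nat_lit 0) (XT.lf (nat_lit 0) (nat_lit 2650881418) (nat_lit 76) (nat_lit 40370059809) (nat_lit 76) (nat_lit 4149793779) (nat_lit 58) (nat_lit 4) (nat_lit 59) (nat_lit 5) (nat_lit 59) (nat_lit 4) (nat_lit 531) (nat_lit 404) (nat_lit 265)) (XT.lf (nat_lit 0) (nat_lit 9018006805) (nat_lit 152) (nat_lit 17931334246) (nat_lit 76) (nat_lit 21209170872) (nat_lit 57) (nat_lit 5) (nat_lit 59) (nat_lit 5) (nat_lit 58) (nat_lit 4) (nat_lit 532) (nat_lit 404) (nat_lit 264))) (XT.nd (nat_lit 78) (nat_lit 0) (nat_lit 0) (XT.lf (nat_lit 0) (nat_lit 9575136376) (nat_lit 76) (nat_lit 13001283921) (nat_lit 152) (nat_lit 26595899790) (nat_lit 56) (nat_lit 5) (nat_lit 57) (nat_lit 5) (nat_lit 58) (nat_lit 4) (nat_lit 533) (nat_lit 404) (nat_lit 263)) (XT.lf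 (nat_lit 0) (nat_lit 36724536887) (nat_lit 152) (nat_lit 11977133023) (nat_lit 0) (nat_lit 1509384185) (nat_lit 56) (nat_lit 5) (nat_lit 58) (nat_lit 4) (nat_lit 56) (nat_lit 4) (nat_lit 534) (nat_lit 404) (nat_lit 262))))))) (XT.nd (nat_lit 1248) (nat_lit 152) (nat_lit 0) (XT.nd (nat_lit 624) (nat_lit 456) (nat_lit 0) (XT.nd (nat_lit 312) (nat_lit 304) (nat_lit 0) (XT.nd (nat_lit 156) (nat_lit 76) (nat_lit 0) (XT.nd (nat_lit 78) (nat_lit 0) (nat_lit 0) (XT.lf (nat_lit 0) (nat_lit 294614334) (nat_lit 152) (nat_lit 34632742550) (nat_lit 76) (nat_lit 16345225217) (nat_lit 54) (nat_lit 5) (nat_lit 56) (nat_lit 5) (nat_lit 55) (nat_lit 4) (nat_lit 535) (nat_lit 404) (nat_lit 261)) (XT.lf (nat_lit 0) (nat_lit 14327609293) (nat_lit 152) (nat_lit 6160963702) (nat_lit 76) (nat_lit 31870092311) (nat_lit 54) (nat_lit 5) (nat_lit 56) (nat_lit 5) (nat_lit 55) (nat_lit 4) (nat_lit 536) (nat_lit 404) (nat_lit 260))) (XT.nd (nat_lit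 78) (nat_lit 0) (nat_lit 0) (XT.lf (nat_lit 0) (nat_lit 23601489892) (nat_lit 76) (nat_lit 5394696626) (nat_lit 152) (nat_lit 24474706822) (nat_lit 53) (nat_lit 5) (nat_lit 54) (nat_lit 5) (nat_lit 55) (nat_lit 4) (nat_lit 537) (nat_lit 404) (nat_lit 259)) (XT.lf (nat_lit 0) (nat_lit 44252975374) (nat_lit 152) (nat_lit 353759993) (nat_lit 0) (nat_lit 10005308321) (nat_lit 53) (nat_lit 5) (nat_lit 55) (nat_lit 4) (nat_lit 53) (nat_lit 4) (nat_lit 538) (nat_lit 404) (nat_lit 258)))) (XT.nd (nat_lit 156) (nat_lit 76) (nat_lit 0) (XT.nd (nat_lit 78) (nat_lit 76) (nat_lit 0) (XT.lf (nat_lit 0) (nat_lit 4437128636) (nat_lit 152) (nat_lit 25253801741) (nat_lit 76) (nat_lit 26085133126) (nat_lit 51) (nat_lit 5) (nat_lit 53) (nat_lit 5) (nat_lit 52) (nat_lit 4) (nat_lit 539) (nat_lit 404) (nat_lit 257)) (XT.lf (nat_lit 0) (nat_lit 5335071762) (nat_lit 76) (nat_lit 14176926799) (nat_lit 152) (nat_lit 37458638670) (nat_lit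 50) (nat_lit 5) (nat_lit 51) (nat_lit 5) (nat_lit 52) (nat_lit 4) (nat_lit 540) (nat_lit 404) (nat_lit 256))) (XT.nd (nat_lit 78) (nat_lit 76) (nat_lit 0) (XT.lf (nat_lit 0) (nat_lit 35302097645) (nat_lit 152) (nat_lit 20877328382) (nat_lit 0) (nat_lit 2013732744) (nat_lit 50) (nat_lit 5) (nat_lit 52) (nat_lit 4) (nat_lit 50) (nat_lit 4) (nat_lit 541) (nat_lit 404) (nat_lit 255)) (XT.lf (nat_lit 0) (nat_lit 10852371011) (nat_lit 76) (nat_lit 40946677607) (nat_lit 76) (nat_lit 7646312960) (nat_lit 49) (nat_lit 4) (nat_lit 50) (nat_lit 5) (nat_lit 50) (nat_lit 4) (nat_lit 542) (nat_lit 404) (nat_lit 254))))) (XT.nd (nat_lit 312) (nat_lit 228) (nat_lit 0) (XT.nd (nat_lit 156) (nat_lit 76) (nat_lit 0) (XT.nd (nat_lit 78) (nat_lit 76) (nat_lit 0) (XT.lf (nat_lit 0) (nat_lit 8099958438) (nat_lit 152) (nat_lit 16869099256) (nat_lit 76) (nat_lit 35757708407) (nat_lit 48) (nat_lit 5) (nat_lit 50) (nat_lit 5) (nat_lit 49)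 (nat_lit 4) (nat_lit 543) (nat_lit 404) (nat_lit 253)) (XT.lf (nat_lit 0) (nat_lit 16021403897) (nat_lit 76) (nat_lit 8286344720) (nat_lit 152) (nat_lit 37732308620) (nat_lit 47) (nat_lit 5) (nat_lit 48) (nat_lit 5) (nat_lit 49) (nat_lit 4) (nat_lit 544) (nat_lit 404) (nat_lit 252))) (XT.nd (nat_lit 78) (nat_lit 76) (nat_lit 0) (XT.lf (nat_lit 0) (nat_lit 41248145346) (nat_lit 152) (nat_lit 13252470420) (nat_lit 0) (nat_lit 8884740235) (nat_lit 47) (nat_lit 5) (nat_lit 49) (nat_lit 4) (nat_lit 47) (nat_lit 4) (nat_lit 545) (nat_lit 404) (nat_lit 251)) (XT.lf (nat_lit 0) (nat_lit 20799115528) (nat_lit 76) (nat_lit 38168760407) (nat_lit 76) (nat_lit 5795004211) (nat_lit 46) (nat_lit 4) (nat_lit 47) (nat_lit 5) (nat_lit 47) (nat_lit 4) (nat_lit 546) (nat_lit 404) (nat_lit 250)))) (XT.nd (nat_lit 156) (nat_lit 76) (nat_lit 0) (XT.nd (nat_lit 78) (nat_lit 76) (nat_lit 0) (XT.lf (nat_lit 0) (nat_lit 10946387725) (nat_lit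 152) (nat_lit 10162638711) (nat_lit 76) (nat_lit 45065791682) (nat_lit 45) (nat_lit 5) (nat_lit 47) (nat_lit 5) (nat_lit 46) (nat_lit 4) (nat_lit 547) (nat_lit 404) (nat_lit 249)) (XT.lf (nat_lit 0) (nat_lit 25063434980) (nat_lit 76) (nat_lit 3240504756) (nat_lit 152) (nat_lit 39316541509) (nat_lit 44) (nat_lit 5) (nat_lit 45) (nat_lit 5) (nat_lit 46) (nat_lit 4) (nat_lit 548) (nat_lit 404) (nat_lit 248))) (XT.nd (nat_lit 78) (nat_lit 76) (nat_lit 0) (XT.lf (nat_lit 0) (nat_lit 46421101792) (nat_lit 152) (nat_lit 7719401911) (nat_lit 0) (nat_lit 14961844126) (nat_lit 44) (nat_lit 5) (nat_lit 46) (nat_lit 4) (nat_lit 44) (nat_lit 4) (nat_lit 549) (nat_lit 404) (nat_lit 247)) (XT.lf (nat_lit 0) (nat_lit 28670560331) (nat_lit 76) (nat_lit 36708686355) (nat_lit 76) (nat_lit 5240499751) (nat_lit 43) (nat_lit 4) (nat_lit 44) (nat_lit 5) (nat_lit 44) (nat_lit 4) (nat_lit 550) (nat_lit 404) (nat_lit 246)))))) (XT.nd (nat_lit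 51480) (nat_lit 0) (nat_lit 27816) (XT.nd (nat_lit 51168) (nat_lit 0) (nat_lit 29564) (XT.nd (nat_lit 156) (nat_lit 0) (nat_lit 0) (XT.nd (nat_lit 78) (nat_lit 76) (nat_lit 0) (XT.lf (nat_lit 0) (nat_lit 12543700800) (nat_lit 152) (nat_lit 6013142849) (nat_lit 76) (nat_lit 53620098866) (nat_lit 42) (nat_lit 5) (nat_lit 44) (nat_lit 5) (nat_lit 43) (nat_lit 4) (nat_lit 551) (nat_lit 404) (nat_lit 245)) (XT.lf (nat_lit 0) (nat_lit 31054180380) (nat_lit 152) (nat_lit 42230219837) (nat_lit 0) (nat_lit 485955278) (nat_lit 41) (nat_lit 5) (nat_lit 43) (nat_lit 4) (nat_lit 41) (nat_lit 4) (nat_lit 552) (nat_lit 404) (nat_lit 244))) (XT.nd (nat_lit 50934) (nat_lit 0) (nat_lit 30020) (XT.lf (nat_lit 0) (nat_lit 50355124684) (nat_lit 152) (nat_lit 5270425394) (nat_lit 0) (nat_lit 19778966336) (nat_lit 41) (nat_lit 5) (nat_lit 43) (nat_lit 4) (nat_lit 41) (nat_lit 4) (nat_lit 553) (nat_lit 404) (nat_lit 243)) (XT.lf (nat_lit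 0) (nat_lit 693217116) (nat_lit 0) (nat_lit 693217116) (nat_lit 380) (nat_lit 1887458470) (nat_lit 436) (nat_lit 5) (nat_lit 436) (nat_lit 3) (nat_lit 441) (nat_lit 3) (nat_lit 405) (nat_lit 405) (nat_lit 390)))) (XT.nd (nat_lit 156) (nat_lit 0) (nat_lit 0) (XT.nd (nat_lit 78) (nat_lit 456) (nat_lit 0) (XT.lf (nat_lit 0) (nat_lit 4687497261) (nat_lit 0) (nat_lit 631428520) (nat_lit 380) (nat_lit 1251566591) (nat_lit 436) (nat_lit 5) (nat_lit 436) (nat_lit 3) (nat_lit 441) (nat_lit 3) (nat_lit 406) (nat_lit 405) (nat_lit 389)) (XT.lf (nat_lit 0) (nat_lit 1238617211) (nat_lit 456) (nat_lit 5139813638) (nat_lit 532) (nat_lit 217552539) (nat_lit 430) (nat_lit 5) (nat_lit 436) (nat_lit 5) (nat_lit 437) (nat_lit 5) (nat_lit 407) (nat_lit 405) (nat_lit 388))) (XT.nd (nat_lit 78) (nat_lit 0) (nat_lit 0) (XT.lf (nat_lit 0) (nat_lit 3707914957) (nat_lit 456) (nat_lit 1760088818) (nat_lit 532) (nat_lit 1155990523) (nat_lit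 430) (nat_lit 5) (nat_lit 436) (nat_lit 5) (nat_lit 437) (nat_lit 5) (nat_lit 408) (nat_lit 405) (nat_lit 387)) (XT.lf (nat_lit 76) (nat_lit 1702108563) (nat_lit 0) (nat_lit 4472446810) (nat_lit 532) (nat_lit 480605677) (nat_lit 431) (nat_lit 5) (nat_lit 430) (nat_lit 5) (nat_lit 437) (nat_lit 5) (nat_lit 409) (nat_lit 405) (nat_lit 386))))) (XT.nd (nat_lit 312) (nat_lit 684) (nat_lit 0) (XT.nd (nat_lit 156) (nat_lit 532) (nat_lit 0) (XT.nd (nat_lit 78) (nat_lit 0) (nat_lit 0) (XT.lf (nat_lit 0) (nat_lit 1914514143) (nat_lit 532) (nat_lit 1455609236) (nat_lit 608) (nat_lit 3318782641) (nat_lit 423) (nat_lit 5) (nat_lit 430) (nat_lit 5) (nat_lit 431) (nat_lit 5) (nat_lit 410) (nat_lit 405) (nat_lit 385)) (XT.lf (nat_lit 76) (nat_lit 2131691057) (nat_lit 0) (nat_lit 2171506357) (nat_lit 608) (nat_lit 2422394371) (nat_lit 424) (nat_lit 5) (nat_lit 423) (nat_lit 5) (nat_lit 431) (nat_lit 5) (nat_lit 411) (nat_lit 405)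 (nat_lit 384))) (XT.nd (nat_lit 78) (nat_lit 532) (nat_lit 0) (XT.lf (nat_lit 76) (nat_lit 5805053037) (nat_lit 0) (nat_lit 886167106) (nat_lit 608) (nat_lit 74339539) (nat_lit 424) (nat_lit 5) (nat_lit 423) (nat_lit 5) (nat_lit 431) (nat_lit 5) (nat_lit 412) (nat_lit 405) (nat_lit 383)) (XT.lf (nat_lit 0) (nat_lit 2244645284) (nat_lit 608) (nat_lit 4051206510) (nat_lit 684) (nat_lit 511823120) (nat_lit 416) (nat_lit 5) (nat_lit 424) (nat_lit 5) (nat_lit 425) (nat_lit 5) (nat_lit 413) (nat_lit 405) (nat_lit 382)))) (XT.nd (nat_lit 156) (nat_lit 0) (nat_lit 0) (XT.nd (nat_lit 78) (nat_lit 684) (nat_lit 0) (XT.lf (nat_lit 0) (nat_lit 4567245653) (nat_lit 608) (nat_lit 309649927) (nat_lit 684) (nat_lit 1976080655) (nat_lit 416) (nat_lit 5) (nat_lit 424) (nat_lit 5) (nat_lit 425) (nat_lit 5) (nat_lit 414) (nat_lit 405) (nat_lit 381)) (XT.lf (nat_lit 0) (nat_lit 11871857) (nat_lit 684) (nat_lit 3339860742) (nat_lit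 760) (nat_lit 3549302424) (nat_lit 407) (nat_lit 5) (nat_lit 416) (nat_lit 5) (nat_lit 417) (nat_lit 5) (nat_lit 415) (nat_lit 405) (nat_lit 380))) (XT.nd (nat_lit 78) (nat_lit 0) (nat_lit 76) (XT.lf (nat_lit 76) (nat_lit 538441125) (nat_lit 0) (nat_lit 1722802912) (nat_lit 760) (nat_lit 4690759119) (nat_lit 408) (nat_lit 5) (nat_lit 407) (nat_lit 5) (nat_lit 417) (nat_lit 5) (nat_lit 416) (nat_lit 405) (nat_lit 379)) (XT.lf (nat_lit 0) (nat_lit 4534220820) (nat_lit 684) (nat_lit 2457323591) (nat_lit 76) (nat_lit 14281918) (nat_lit 408) (nat_lit 5) (nat_lit 417) (nat_lit 5) (nat_lit 409) (nat_lit 5) (nat_lit 417) (nat_lit 405) (nat_lit 378))))))))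
noncomputable def xc108 : XT := (XT.nd (nat_lit 2418) (nat_lit 6384) (nat_lit 0) (XT.nd (nat_lit 1170) (nat_lit 5928) (nat_lit 0) (XT.nd (nat_lit 546) (nat_lit 5472) (nat_lit 0) (XT.nd (nat_lit 234) (nat_lit 1824) (nat_lit 0) (XT.nd (nat_lit 78) (nat_lit 836) (nat_lit 0) (XT.lf (nat_lit 0) (nat_lit 1577452883) (nat_lit 684) (nat_lit 5254908404) (nat_lit 760) (nat_lit 230203095) (nat_lit 399) (nat_lit 5) (nat_lit 408) (nat_lit 5) (nat_lit 409) (nat_lit 5) (nat_lit 418) (nat_lit 405) (nat_lit 377)) (XT.nd (nat_lit 78) (nat_lit 760) (nat_lit 0) (XT.lf (nat_lit 0) (nat_lit 1988638336) (nat_lit 760) (nat_lit 1411672681) (nat_lit 76) (nat_lit 3721580411) (nat_lit 398) (nat_lit 5) (nat_lit 408) (nat_lit 5) (nat_lit 399) (nat_lit 5) (nat_lit 419) (nat_lit 405) (nat_lit 376)) (XT.lf (nat_lit 0) (nat_lit 2782755754) (nat_lit 760) (nat_lit 1441271165) (nat_lit 836) (nat_lit 2960273346) (nat_lit 388) (nat_lit 5) (nat_lit 398)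 (nat_lit 5) (nat_lit 399) (nat_lit 5) (nat_lit 420) (nat_lit 405) (nat_lit 375)))) (XT.nd (nat_lit 156) (nat_lit 912) (nat_lit 0) (XT.nd (nat_lit 78) (nat_lit 912) (nat_lit 0) (XT.lf (nat_lit 0) (nat_lit 6476040575) (nat_lit 836) (nat_lit 176892102) (nat_lit 76) (nat_lit 597170151) (nat_lit 388) (nat_lit 5) (nat_lit 399) (nat_lit 5) (nat_lit 389) (nat_lit 5) (nat_lit 421) (nat_lit 405) (nat_lit 374)) (XT.lf (nat_lit 0) (nat_lit 1434962536) (nat_lit 912) (nat_lit 3143813850) (nat_lit 76) (nat_lit 2739102924) (nat_lit 376) (nat_lit 5) (nat_lit 388) (nat_lit 5) (nat_lit 377) (nat_lit 5) (nat_lit 422) (nat_lit 405) (nat_lit 373))) (XT.nd (nat_lit 78) (nat_lit 0) (nat_lit 0) (XT.lf (nat_lit 0) (nat_lit 1233699010) (nat_lit 912) (nat_lit 2407151192) (nat_lit 988) (nat_lit 3748232118) (nat_lit 364) (nat_lit 5) (nat_lit 376) (nat_lit 5) (nat_lit 377) (nat_lit 5) (nat_lit 423) (nat_lit 405) (nat_lit 372)) (XT.lf (nat_lit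 0) (nat_lit 5753278483) (nat_lit 912) (nat_lit 125319535) (nat_lit 988) (nat_lit 1584860333) (nat_lit 364) (nat_lit 5) (nat_lit 376) (nat_lit 5) (nat_lit 377) (nat_lit 5) (nat_lit 424) (nat_lit 405) (nat_lit 371))))) (XT.nd (nat_lit 312) (nat_lit 2204) (nat_lit 0) (XT.nd (nat_lit 156) (nat_lit 2204) (nat_lit 0) (XT.nd (nat_lit 78) (nat_lit 0) (nat_lit 0) (XT.lf (nat_lit 0) (nat_lit 615444046) (nat_lit 1064) (nat_lit 4698176464) (nat_lit 76) (nat_lit 2226729009) (nat_lit 350) (nat_lit 5) (nat_lit 364) (nat_lit 5) (nat_lit 351) (nat_lit 5) (nat_lit 425) (nat_lit 405) (nat_lit 370)) (XT.lf (nat_lit 0) (nat_lit 2805282918) (nat_lit 1064) (nat_lit 124901015) (nat_lit 76) (nat_lit 4690238156) (nat_lit 350) (nat_lit 5) (nat_lit 364) (nat_lit 5) (nat_lit 351) (nat_lit 5) (nat_lit 426) (nat_lit 405) (nat_lit 369))) (XT.nd (nat_lit 78) (nat_lit 1140) (nat_lit 0) (XT.lf (nat_lit 0) (nat_lit 4622451235) (nat_lit 1064) (nat_lit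 421341536) (nat_lit 1140) (nat_lit 2659621395) (nat_lit 336) (nat_lit 5) (nat_lit 350) (nat_lit 5) (nat_lit 351) (nat_lit 5) (nat_lit 427) (nat_lit 405) (nat_lit 368)) (XT.lf (nat_lit 0) (nat_lit 1683288998) (nat_lit 1140) (nat_lit 5644308693) (nat_lit 1216) (nat_lit 461960534) (nat_lit 321) (nat_lit 5) (nat_lit 336) (nat_lit 5) (nat_lit 337) (nat_lit 5) (nat_lit 428) (nat_lit 405) (nat_lit 367)))) (XT.nd (nat_lit 156) (nat_lit 912) (nat_lit 0) (XT.nd (nat_lit 78) (nat_lit 1216) (nat_lit 0) (XT.lf (nat_lit 0) (nat_lit 1742601787) (nat_lit 1216) (nat_lit 1300861490) (nat_lit 76) (nat_lit 4835025983) (nat_lit 320) (nat_lit 5) (nat_lit 336) (nat_lit 5) (nat_lit 321) (nat_lit 5) (nat_lit 429) (nat_lit 405) (nat_lit 366)) (XT.lf (nat_lit 0) (nat_lit 3661867205) (nat_lit 1216) (nat_lit 319617385) (nat_lit 1292) (nat_lit 3989148229) (nat_lit 304) (nat_lit 5) (nat_lit 320) (nat_lit 5) (nat_lit 321) (nat_lit 5) (nat_lit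 430) (nat_lit 405) (nat_lit 365))) (XT.nd (nat_lit 78) (nat_lit 76) (nat_lit 0) (XT.lf (nat_lit 0) (nat_lit 669095732) (nat_lit 836) (nat_lit 5605503466) (nat_lit 912) (nat_lit 1791335227) (nat_lit 293) (nat_lit 5) (nat_lit 304) (nat_lit 5) (nat_lit 305) (nat_lit 5) (nat_lit 431) (nat_lit 405) (nat_lit 364)) (XT.lf (nat_lit 0) (nat_lit 454339669) (nat_lit 912) (nat_lit 2341820149) (nat_lit 76) (nat_lit 5368070018) (nat_lit 292) (nat_lit 5) (nat_lit 304) (nat_lit 5) (nat_lit 293) (nat_lit 5) (nat_lit 432) (nat_lit 405) (nat_lit 363)))))) (XT.nd (nat_lit 624) (nat_lit 2888) (nat_lit 0) (XT.nd (nat_lit 312) (nat_lit 1216) (nat_lit 0) (XT.nd (nat_lit 156) (nat_lit 1216) (nat_lit 0) (XT.nd (nat_lit 78) (nat_lit 0) (nat_lit 0) (XT.lf (nat_lit 0) (nat_lit 2705823476) (nat_lit 684) (nat_lit 5418335391) (nat_lit 76) (nat_lit 141555094) (nat_lit 284) (nat_lit 5) (nat_lit 293) (nat_lit 5) (nat_lit 285) (nat_lit 5) (nat_lit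 433) (nat_lit 405) (nat_lit 362)) (XT.lf (nat_lit 0) (nat_lit 5023157313) (nat_lit 684) (nat_lit 212162710) (nat_lit 76) (nat_lit 3134978482) (nat_lit 284) (nat_lit 5) (nat_lit 293) (nat_lit 5) (nat_lit 285) (nat_lit 5) (nat_lit 434) (nat_lit 405) (nat_lit 361))) (XT.nd (nat_lit 78) (nat_lit 608) (nat_lit 0) (XT.lf (nat_lit 0) (nat_lit 5198264127) (nat_lit 608) (nat_lit 2210006065) (nat_lit 684) (nat_lit 1069807536) (nat_lit 276) (nat_lit 5) (nat_lit 284) (nat_lit 5) (nat_lit 285) (nat_lit 5) (nat_lit 435) (nat_lit 405) (nat_lit 360)) (XT.lf (nat_lit 0) (nat_lit 1231713769) (nat_lit 608) (nat_lit 6436239586) (nat_lit 76) (nat_lit 921350760) (nat_lit 268) (nat_lit 5) (nat_lit 276) (nat_lit 5) (nat_lit 269) (nat_lit 5) (nat_lit 436) (nat_lit 405) (nat_lit 359)))) (XT.nd (nat_lit 156) (nat_lit 608) (nat_lit 0) (XT.nd (nat_lit 78) (nat_lit 608) (nat_lit 0) (XT.lf (nat_lit 0) (nat_lit 3585838239) (nat_lit 608) (nat_lit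 974335448) (nat_lit 76) (nat_lit 4143228550) (nat_lit 268) (nat_lit 5) (nat_lit 276) (nat_lit 5) (nat_lit 269) (nat_lit 5) (nat_lit 437) (nat_lit 405) (nat_lit 358)) (XT.lf (nat_lit 0) (nat_lit 4689713390) (nat_lit 608) (nat_lit 1317148347) (nat_lit 684) (nat_lit 2814177674) (nat_lit 260) (nat_lit 5) (nat_lit 268) (nat_lit 5) (nat_lit 269) (nat_lit 5) (nat_lit 438) (nat_lit 405) (nat_lit 357))) (XT.nd (nat_lit 78) (nat_lit 76) (nat_lit 0) (XT.lf (nat_lit 0) (nat_lit 1558514492) (nat_lit 532) (nat_lit 6938430575) (nat_lit 608) (nat_lit 445371998) (nat_lit 253) (nat_lit 5) (nat_lit 260) (nat_lit 5) (nat_lit 261) (nat_lit 5) (nat_lit 439) (nat_lit 405) (nat_lit 356)) (XT.lf (nat_lit 0) (nat_lit 1963225293) (nat_lit 608) (nat_lit 1649387543) (nat_lit 76) (nat_lit 5453819619) (nat_lit 252) (nat_lit 5) (nat_lit 260) (nat_lit 5) (nat_lit 253) (nat_lit 5) (nat_lit 440) (nat_lit 405) (nat_lit 355))))) (XT.nd (nat_lit 312)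 (nat_lit 1368) (nat_lit 0) (XT.nd (nat_lit 156) (nat_lit 532) (nat_lit 0) (XT.nd (nat_lit 78) (nat_lit 456) (nat_lit 0) (XT.lf (nat_lit 0) (nat_lit 4283302942) (nat_lit 532) (nat_lit 146858845) (nat_lit 608) (nat_lit 4764130126) (nat_lit 245) (nat_lit 5) (nat_lit 252) (nat_lit 5) (nat_lit 253) (nat_lit 5) (nat_lit 441) (nat_lit 405) (nat_lit 354)) (XT.lf (nat_lit 0) (nat_lit 1035735241) (nat_lit 456) (nat_lit 5949681288) (nat_lit 532) (nat_lit 2340145088) (nat_lit 239) (nat_lit 5) (nat_lit 245) (nat_lit 5) (nat_lit 246) (nat_lit 5) (nat_lit 442) (nat_lit 405) (nat_lit 353))) (XT.nd (nat_lit 78) (nat_lit 456) (nat_lit 0) (XT.lf (nat_lit 0) (nat_lit 160037197) (nat_lit 532) (nat_lit 2255278274) (nat_lit 76) (nat_lit 7045216362) (nat_lit 238) (nat_lit 5) (nat_lit 245) (nat_lit 5) (nat_lit 239) (nat_lit 5) (nat_lit 443) (nat_lit 405) (nat_lit 352)) (XT.lf (nat_lit 0) (nat_lit 2694880125) (nat_lit 532) (nat_lit 5649380587)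 (nat_lit 76) (nat_lit 1254398102) (nat_lit 232) (nat_lit 5) (nat_lit 239) (nat_lit 5) (nat_lit 233) (nat_lit 5) (nat_lit 444) (nat_lit 405) (nat_lit 351)))) (XT.nd (nat_lit 156) (nat_lit 912) (nat_lit 0) (XT.nd (nat_lit 78) (nat_lit 0) (nat_lit 0) (XT.lf (nat_lit 0) (nat_lit 579941079) (nat_lit 456) (nat_lit 4735308203) (nat_lit 532) (nat_lit 4425399242) (nat_lit 226) (nat_lit 5) (nat_lit 232) (nat_lit 5) (nat_lit 233) (nat_lit 5) (nat_lit 445) (nat_lit 405) (nat_lit 350)) (XT.lf (nat_lit 0) (nat_lit 7059278462) (nat_lit 456) (nat_lit 969737858) (nat_lit 532) (nat_lit 1857441250) (nat_lit 226) (nat_lit 5) (nat_lit 232) (nat_lit 5) (nat_lit 233) (nat_lit 5) (nat_lit 446) (nat_lit 405) (nat_lit 349))) (XT.nd (nat_lit 78) (nat_lit 380) (nat_lit 0) (XT.lf (nat_lit 0) (nat_lit 794691209) (nat_lit 532) (nat_lit 6355678242) (nat_lit 76) (nat_lit 2885372270) (nat_lit 219) (nat_lit 5) (nat_lit 226) (nat_lit 5) (nat_lit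 220) (nat_lit 5) (nat_lit 447) (nat_lit 405) (nat_lit 348)) (XT.lf (nat_lit 0) (nat_lit 174381503) (nat_lit 380) (nat_lit 3313952601) (nat_lit 456) (nat_lit 6700643176) (nat_lit 214) (nat_lit 5) (nat_lit 219) (nat_lit 5) (nat_lit 220) (nat_lit 5) (nat_lit 448) (nat_lit 405) (nat_lit 347))))))) (XT.nd (nat_lit 1170) (nat_lit 2964) (nat_lit 0) (XT.nd (nat_lit 546) (nat_lit 1748) (nat_lit 0) (XT.nd (nat_lit 234) (nat_lit 1140) (nat_lit 0) (XT.nd (nat_lit 78) (nat_lit 532) (nat_lit 0) (XT.lf (nat_lit 0) (nat_lit 6293474343) (nat_lit 456) (nat_lit 3374174000) (nat_lit 76) (nat_lit 678243807) (nat_lit 214) (nat_lit 5) (nat_lit 220) (nat_lit 5) (nat_lit 215) (nat_lit 5) (nat_lit 449) (nat_lit 405) (nat_lit 346)) (XT.nd (nat_lit 78) (nat_lit 76) (nat_lit 0) (XT.lf (nat_lit 0) (nat_lit 3448332904) (nat_lit 456) (nat_lit 5761311421) (nat_lit 532) (nat_lit 1297066678) (nat_lit 208) (nat_lit 5) (nat_lit 214) (nat_lit 5) (nat_lit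 215) (nat_lit 5) (nat_lit 450) (nat_lit 405) (nat_lit 345)) (XT.lf (nat_lit 0) (nat_lit 1506466055) (nat_lit 532) (nat_lit 193674627) (nat_lit 76) (nat_lit 8971904292) (nat_lit 207) (nat_lit 5) (nat_lit 214) (nat_lit 5) (nat_lit 208) (nat_lit 5) (nat_lit 451) (nat_lit 405) (nat_lit 344)))) (XT.nd (nat_lit 156) (nat_lit 380) (nat_lit 0) (XT.nd (nat_lit 78) (nat_lit 380) (nat_lit 0) (XT.lf (nat_lit 0) (nat_lit 4421681380) (nat_lit 456) (nat_lit 3916245325) (nat_lit 76) (nat_lit 2502420166) (nat_lit 202) (nat_lit 5) (nat_lit 208) (nat_lit 5) (nat_lit 203) (nat_lit 5) (nat_lit 452) (nat_lit 405) (nat_lit 343)) (XT.lf (nat_lit 0) (nat_lit 3241276857) (nat_lit 380) (nat_lit 4195848156) (nat_lit 456) (nat_lit 3576192146) (nat_lit 197) (nat_lit 5) (nat_lit 202) (nat_lit 5) (nat_lit 203) (nat_lit 5) (nat_lit 453) (nat_lit 405) (nat_lit 342))) (XT.nd (nat_lit 78) (nat_lit 380) (nat_lit 0) (XT.lf (nat_lit 0) (nat_lit 10546920891)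 (nat_lit 456) (nat_lit 548886367) (nat_lit 76) (nat_lit 95555046) (nat_lit 197) (nat_lit 5) (nat_lit 203) (nat_lit 5) (nat_lit 198) (nat_lit 5) (nat_lit 454) (nat_lit 405) (nat_lit 341)) (XT.lf (nat_lit 0) (nat_lit 2402176637) (nat_lit 380) (nat_lit 4461217123) (nat_lit 76) (nat_lit 4508474408) (nat_lit 192) (nat_lit 5) (nat_lit 197) (nat_lit 5) (nat_lit 193) (nat_lit 5) (nat_lit 455) (nat_lit 405) (nat_lit 340))))) (XT.nd (nat_lit 312) (nat_lit 684) (nat_lit 0) (XT.nd (nat_lit 156) (nat_lit 684) (nat_lit 0) (XT.nd (nat_lit 78) (nat_lit 0) (nat_lit 0) (XT.lf (nat_lit 0) (nat_lit 3050641958) (nat_lit 380) (nat_lit 2476078413) (nat_lit 456) (nat_lit 6030895237) (nat_lit 187) (nat_lit 5) (nat_lit 192) (nat_lit 5) (nat_lit 193) (nat_lit 5) (nat_lit 456) (nat_lit 405) (nat_lit 339)) (XT.lf (nat_lit 0) (nat_lit 8775105542) (nat_lit 456) (nat_lit 938831591) (nat_lit 76) (nat_lit 2034097332) (nat_lit 187) (nat_lit 5) (nat_lit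 193) (nat_lit 5) (nat_lit 188) (nat_lit 5) (nat_lit 457) (nat_lit 405) (nat_lit 338))) (XT.nd (nat_lit 78) (nat_lit 304) (nat_lit 0) (XT.lf (nat_lit 0) (nat_lit 230895825) (nat_lit 380) (nat_lit 5026892318) (nat_lit 76) (nat_lit 6684601722) (nat_lit 182) (nat_lit 5) (nat_lit 187) (nat_lit 5) (nat_lit 183) (nat_lit 5) (nat_lit 458) (nat_lit 405) (nat_lit 337)) (XT.lf (nat_lit 0) (nat_lit 2859483896) (nat_lit 304) (nat_lit 614842992) (nat_lit 380) (nat_lit 8667270621) (nat_lit 178) (nat_lit 5) (nat_lit 182) (nat_lit 5) (nat_lit 183) (nat_lit 5) (nat_lit 459) (nat_lit 405) (nat_lit 336)))) (XT.nd (nat_lit 156) (nat_lit 380) (nat_lit 0) (XT.nd (nat_lit 78) (nat_lit 304) (nat_lit 0) (XT.lf (nat_lit 0) (nat_lit 6872936427) (nat_lit 380) (nat_lit 1349889597) (nat_lit 76) (nat_lit 4122221000) (nat_lit 178) (nat_lit 5) (nat_lit 183) (nat_lit 5) (nat_lit 179) (nat_lit 5) (nat_lit 460) (nat_lit 405) (nat_lit 335)) (XT.lf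 (nat_lit 0) (nat_lit 6900749016) (nat_lit 304) (nat_lit 3512702922) (nat_lit 380) (nat_lit 2139951509) (nat_lit 174) (nat_lit 5) (nat_lit 178) (nat_lit 5) (nat_lit 179) (nat_lit 5) (nat_lit 461) (nat_lit 405) (nat_lit 334))) (XT.nd (nat_lit 78) (nat_lit 0) (nat_lit 0) (XT.lf (nat_lit 0) (nat_lit 1287117062) (nat_lit 380) (nat_lit 10130825756) (nat_lit 76) (nat_lit 1349092067) (nat_lit 169) (nat_lit 5) (nat_lit 174) (nat_lit 5) (nat_lit 170) (nat_lit 5) (nat_lit 462) (nat_lit 405) (nat_lit 333)) (XT.lf (nat_lit 0) (nat_lit 4834434576) (nat_lit 380) (nat_lit 1800907442) (nat_lit 76) (nat_lit 6349285881) (nat_lit 169) (nat_lit 5) (nat_lit 174) (nat_lit 5) (nat_lit 170) (nat_lit 5) (nat_lit 463) (nat_lit 405) (nat_lit 332)))))) (XT.nd (nat_lit 624) (nat_lit 1216) (nat_lit 0) (XT.nd (nat_lit 312) (nat_lit 836) (nat_lit 0) (XT.nd (nat_lit 156) (nat_lit 304) (nat_lit 0) (XT.nd (nat_lit 78) (nat_lit 304) (nat_lit 0) (XT.lf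 (nat_lit 0) (nat_lit 6865673667) (nat_lit 304) (nat_lit 1657449052) (nat_lit 380) (nat_lit 4684579097) (nat_lit 165) (nat_lit 5) (nat_lit 169) (nat_lit 5) (nat_lit 170) (nat_lit 5) (nat_lit 464) (nat_lit 405) (nat_lit 331)) (XT.lf (nat_lit 0) (nat_lit 2357200441) (nat_lit 304) (nat_lit 10008902924) (nat_lit 380) (nat_lit 1070057229) (nat_lit 161) (nat_lit 5) (nat_lit 165) (nat_lit 5) (nat_lit 166) (nat_lit 5) (nat_lit 465) (nat_lit 405) (nat_lit 330))) (XT.nd (nat_lit 78) (nat_lit 228) (nat_lit 0) (XT.lf (nat_lit 0) (nat_lit 2651614584) (nat_lit 380) (nat_lit 2312341188) (nat_lit 76) (nat_lit 8705239371) (nat_lit 160) (nat_lit 5) (nat_lit 165) (nat_lit 5) (nat_lit 161) (nat_lit 5) (nat_lit 466) (nat_lit 405) (nat_lit 329)) (XT.lf (nat_lit 0) (nat_lit 6501840141) (nat_lit 304) (nat_lit 7117692246) (nat_lit 76) (nat_lit 288219647) (nat_lit 157) (nat_lit 5) (nat_lit 161) (nat_lit 5) (nat_lit 158) (nat_lit 5) (nat_lit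 467) (nat_lit 405) (nat_lit 328)))) (XT.nd (nat_lit 156) (nat_lit 456) (nat_lit 0) (XT.nd (nat_lit 78) (nat_lit 76) (nat_lit 0) (XT.lf (nat_lit 0) (nat_lit 2003347236) (nat_lit 304) (nat_lit 8526765015) (nat_lit 380) (nat_lit 3621478606) (nat_lit 153) (nat_lit 5) (nat_lit 157) (nat_lit 5) (nat_lit 158) (nat_lit 5) (nat_lit 468) (nat_lit 405) (nat_lit 327)) (XT.lf (nat_lit 0) (nat_lit 314357732) (nat_lit 380) (nat_lit 2906697465) (nat_lit 76) (nat_lit 11180313293) (nat_lit 152) (nat_lit 5) (nat_lit 157) (nat_lit 5) (nat_lit 153) (nat_lit 5) (nat_lit 469) (nat_lit 405) (nat_lit 326))) (XT.nd (nat_lit 78) (nat_lit 228) (nat_lit 0) (XT.lf (nat_lit 0) (nat_lit 4353438911) (nat_lit 304) (nat_lit 8017981052) (nat_lit 76) (nat_lit 2284406366) (nat_lit 149) (nat_lit 5) (nat_lit 153) (nat_lit 5) (nat_lit 150) (nat_lit 5) (nat_lit 470) (nat_lit 405) (nat_lit 325)) (XT.lf (nat_lit 0) (nat_lit 1564068022) (nat_lit 228) (nat_lit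 6997962958) (nat_lit 304) (nat_lit 6354438031) (nat_lit 146) (nat_lit 5) (nat_lit 149) (nat_lit 5) (nat_lit 150) (nat_lit 5) (nat_lit 471) (nat_lit 405) (nat_lit 324))))) (XT.nd (nat_lit 312) (nat_lit 684) (nat_lit 0) (XT.nd (nat_lit 156) (nat_lit 228) (nat_lit 0) (XT.nd (nat_lit 78) (nat_lit 304) (nat_lit 0) (XT.lf (nat_lit 0) (nat_lit 11552844073) (nat_lit 228) (nat_lit 1397160875) (nat_lit 304) (nat_lit 2233333527) (nat_lit 146) (nat_lit 5) (nat_lit 149) (nat_lit 5) (nat_lit 150) (nat_lit 5) (nat_lit 472) (nat_lit 405) (nat_lit 323)) (XT.lf (nat_lit 0) (nat_lit 2049474030) (nat_lit 304) (nat_lit 9054082885) (nat_lit 76) (nat_lit 4351758626) (nat_lit 142) (nat_lit 5) (nat_lit 146) (nat_lit 5) (nat_lit 143) (nat_lit 5) (nat_lit 473) (nat_lit 405) (nat_lit 322))) (XT.nd (nat_lit 78) (nat_lit 0) (nat_lit 0) (XT.lf (nat_lit 0) (nat_lit 1012900351) (nat_lit 228) (nat_lit 5436481935) (nat_lit 304) (nat_lit 9284402261)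 (nat_lit 139) (nat_lit 5) (nat_lit 142) (nat_lit 5) (nat_lit 143) (nat_lit 5) (nat_lit 474) (nat_lit 405) (nat_lit 321)) (XT.lf (nat_lit 0) (nat_lit 11050580940) (nat_lit 304) (nat_lit 4499864626) (nat_lit 76) (nat_lit 468084349) (nat_lit 139) (nat_lit 5) (nat_lit 143) (nat_lit 5) (nat_lit 140) (nat_lit 5) (nat_lit 475) (nat_lit 405) (nat_lit 320)))) (XT.nd (nat_lit 156) (nat_lit 152) (nat_lit 0) (XT.nd (nat_lit 78) (nat_lit 304) (nat_lit 0) (XT.lf (nat_lit 0) (nat_lit 6048554398) (nat_lit 228) (nat_lit 9827121931) (nat_lit 304) (nat_lit 433566550) (nat_lit 136) (nat_lit 5) (nat_lit 139) (nat_lit 5) (nat_lit 140) (nat_lit 5) (nat_lit 476) (nat_lit 405) (nat_lit 319)) (XT.lf (nat_lit 0) (nat_lit 319893343) (nat_lit 228) (nat_lit 3857225336) (nat_lit 304) (nat_lit 12429649309) (nat_lit 132) (nat_lit 5) (nat_lit 135) (nat_lit 5) (nat_lit 136) (nat_lit 5) (nat_lit 477) (nat_lit 405) (nat_lit 318))) (XT.nd (nat_lit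 78) (nat_lit 152) (nat_lit 0) (XT.lf (nat_lit 0) (nat_lit 9018237525) (nat_lit 304) (nat_lit 5552935841) (nat_lit 76) (nat_lit 2338892849) (nat_lit 132) (nat_lit 5) (nat_lit 136) (nat_lit 5) (nat_lit 133) (nat_lit 5) (nat_lit 478) (nat_lit 405) (nat_lit 317)) (XT.lf (nat_lit 0) (nat_lit 5530316525) (nat_lit 152) (nat_lit 8540535940) (nat_lit 228) (nat_lit 3149623988) (nat_lit 130) (nat_lit 5) (nat_lit 132) (nat_lit 5) (nat_lit 133) (nat_lit 5) (nat_lit 479) (nat_lit 405) (nat_lit 316))))))))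
noncomputable def xc109 : XT := (XT.nd (nat_lit 2418) (nat_lit 2432) (nat_lit 0) (XT.nd (nat_lit 1170) (nat_lit 1672) (nat_lit 0) (XT.nd (nat_lit 546) (nat_lit 1064) (nat_lit 0) (XT.nd (nat_lit 234) (nat_lit 456) (nat_lit 0) (XT.nd (nat_lit 78) (nat_lit 380) (nat_lit 0) (XT.lf (nat_lit 0) (nat_lit 1732614893) (nat_lit 228) (nat_lit 538365426) (nat_lit 76) (nat_lit 15267770636) (nat_lit 129) (nat_lit 5) (nat_lit 132) (nat_lit 5) (nat_lit 130) (nat_lit 5) (nat_lit 480) (nat_lit 405) (nat_lit 315)) (XT.nd (nat_lit 78) (nat_lit 152) (nat_lit 0) (XT.lf (nat_lit 0) (nat_lit 6821805790) (nat_lit 304) (nat_lit 6812646774) (nat_lit 76) (nat_lit 4227472780) (nat_lit 126) (nat_lit 5) (nat_lit 130) (nat_lit 5) (nat_lit 127) (nat_lit 5) (nat_lit 481) (nat_lit 405) (nat_lit 314)) (XT.lf (nat_lit 0) (nat_lit 4831264951) (nat_lit 152) (nat_lit 7282696127) (nat_lit 228) (nat_lit 6079326061) (nat_lit 124) (nat_lit 5) (nat_lit 126)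 (nat_lit 5) (nat_lit 127) (nat_lit 5) (nat_lit 482) (nat_lit 405) (nat_lit 313)))) (XT.nd (nat_lit 156) (nat_lit 152) (nat_lit 0) (XT.nd (nat_lit 78) (nat_lit 304) (nat_lit 0) (XT.lf (nat_lit 0) (nat_lit 16923125135) (nat_lit 152) (nat_lit 686731063) (nat_lit 228) (nat_lit 923385145) (nat_lit 124) (nat_lit 5) (nat_lit 126) (nat_lit 5) (nat_lit 127) (nat_lit 5) (nat_lit 483) (nat_lit 405) (nat_lit 312)) (XT.lf (nat_lit 0) (nat_lit 4440316074) (nat_lit 304) (nat_lit 8320640019) (nat_lit 76) (nat_lit 6117012877) (nat_lit 120) (nat_lit 5) (nat_lit 124) (nat_lit 5) (nat_lit 121) (nat_lit 5) (nat_lit 484) (nat_lit 405) (nat_lit 311))) (XT.nd (nat_lit 78) (nat_lit 0) (nat_lit 0) (XT.lf (nat_lit 0) (nat_lit 3910020618) (nat_lit 152) (nat_lit 6073933101) (nat_lit 228) (nat_lit 9247683637) (nat_lit 118) (nat_lit 5) (nat_lit 120) (nat_lit 5) (nat_lit 121) (nat_lit 5) (nat_lit 485) (nat_lit 405) (nat_lit 310)) (XT.lf (nat_lit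 0) (nat_lit 15763483138) (nat_lit 228) (nat_lit 2964438472) (nat_lit 76) (nat_lit 865907425) (nat_lit 118) (nat_lit 5) (nat_lit 121) (nat_lit 5) (nat_lit 119) (nat_lit 5) (nat_lit 486) (nat_lit 405) (nat_lit 309))))) (XT.nd (nat_lit 312) (nat_lit 456) (nat_lit 0) (XT.nd (nat_lit 156) (nat_lit 152) (nat_lit 0) (XT.nd (nat_lit 78) (nat_lit 152) (nat_lit 0) (XT.lf (nat_lit 0) (nat_lit 1849145420) (nat_lit 304) (nat_lit 10124768038) (nat_lit 76) (nat_lit 7988455981) (nat_lit 114) (nat_lit 5) (nat_lit 118) (nat_lit 5) (nat_lit 115) (nat_lit 5) (nat_lit 487) (nat_lit 405) (nat_lit 308)) (XT.lf (nat_lit 0) (nat_lit 2718801411) (nat_lit 152) (nat_lit 4937237860) (nat_lit 228) (nat_lit 12683769597) (nat_lit 112) (nat_lit 5) (nat_lit 114) (nat_lit 5) (nat_lit 115) (nat_lit 5) (nat_lit 488) (nat_lit 405) (nat_lit 307))) (XT.nd (nat_lit 78) (nat_lit 152) (nat_lit 0) (XT.lf (nat_lit 0) (nat_lit 13740353536) (nat_lit 228) (nat_lit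 4633048811) (nat_lit 76) (nat_lit 2352073366) (nat_lit 112) (nat_lit 5) (nat_lit 115) (nat_lit 5) (nat_lit 113) (nat_lit 5) (nat_lit 489) (nat_lit 405) (nat_lit 306)) (XT.lf (nat_lit 0) (nat_lit 8829565842) (nat_lit 152) (nat_lit 11289788861) (nat_lit 228) (nat_lit 999993756) (nat_lit 110) (nat_lit 5) (nat_lit 112) (nat_lit 5) (nat_lit 113) (nat_lit 5) (nat_lit 490) (nat_lit 405) (nat_lit 305)))) (XT.nd (nat_lit 156) (nat_lit 228) (nat_lit 0) (XT.nd (nat_lit 78) (nat_lit 0) (nat_lit 0) (XT.lf (nat_lit 0) (nat_lit 1202301038) (nat_lit 152) (nat_lit 3898861568) (nat_lit 228) (nat_lit 16421268309) (nat_lit 107) (nat_lit 5) (nat_lit 109) (nat_lit 5) (nat_lit 110) (nat_lit 5) (nat_lit 491) (nat_lit 405) (nat_lit 304)) (XT.lf (nat_lit 0) (nat_lit 11504836407) (nat_lit 228) (nat_lit 6668185771) (nat_lit 76) (nat_lit 3760099757) (nat_lit 107) (nat_lit 5) (nat_lit 110) (nat_lit 5) (nat_lit 108) (nat_lit 5) (nat_lit 492)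 (nat_lit 405) (nat_lit 303))) (XT.nd (nat_lit 78) (nat_lit 76) (nat_lit 0) (XT.lf (nat_lit 0) (nat_lit 7462915454) (nat_lit 152) (nat_lit 10727221324) (nat_lit 228) (nat_lit 4163311968) (nat_lit 105) (nat_lit 5) (nat_lit 107) (nat_lit 5) (nat_lit 108) (nat_lit 5) (nat_lit 493) (nat_lit 405) (nat_lit 302)) (XT.lf (nat_lit 0) (nat_lit 2292156257) (nat_lit 228) (nat_lit 689874226) (nat_lit 76) (nat_lit 19802278405) (nat_lit 104) (nat_lit 5) (nat_lit 107) (nat_lit 5) (nat_lit 105) (nat_lit 5) (nat_lit 494) (nat_lit 405) (nat_lit 301)))))) (XT.nd (nat_lit 624) (nat_lit 608) (nat_lit 0) (XT.nd (nat_lit 312) (nat_lit 532) (nat_lit 0) (XT.nd (nat_lit 156) (nat_lit 228) (nat_lit 0) (XT.nd (nat_lit 78) (nat_lit 152) (nat_lit 0) (XT.lf (nat_lit 0) (nat_lit 9022929077) (nat_lit 228) (nat_lit 9137978865) (nat_lit 76) (nat_lit 5060991200) (nat_lit 102) (nat_lit 5) (nat_lit 105) (nat_lit 5) (nat_lit 103) (nat_lit 5) (nat_lit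 495) (nat_lit 405) (nat_lit 300)) (XT.lf (nat_lit 0) (nat_lit 5687583809) (nat_lit 152) (nat_lit 10339187683) (nat_lit 228) (nat_lit 7643711709) (nat_lit 100) (nat_lit 5) (nat_lit 102) (nat_lit 5) (nat_lit 103) (nat_lit 5) (nat_lit 496) (nat_lit 405) (nat_lit 299))) (XT.nd (nat_lit 78) (nat_lit 228) (nat_lit 0) (XT.lf (nat_lit 0) (nat_lit 21109120859) (nat_lit 152) (nat_lit 2204035372) (nat_lit 228) (nat_lit 817196213) (nat_lit 100) (nat_lit 5) (nat_lit 102) (nat_lit 5) (nat_lit 103) (nat_lit 5) (nat_lit 497) (nat_lit 405) (nat_lit 298)) (XT.lf (nat_lit 0) (nat_lit 6254914318) (nat_lit 228) (nat_lit 12121403706) (nat_lit 76) (nat_lit 6221046394) (nat_lit 97) (nat_lit 5) (nat_lit 100) (nat_lit 5) (nat_lit 98) (nat_lit 5) (nat_lit 498) (nat_lit 405) (nat_lit 297)))) (XT.nd (nat_lit 156) (nat_lit 380) (nat_lit 0) (XT.nd (nat_lit 78) (nat_lit 0) (nat_lit 0) (XT.lf (nat_lit 0) (nat_lit 3423595584) (nat_lit 152) (nat_lit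 10165325307) (nat_lit 228) (nat_lit 11487238837) (nat_lit 95) (nat_lit 5) (nat_lit 97) (nat_lit 5) (nat_lit 98) (nat_lit 5) (nat_lit 499) (nat_lit 405) (nat_lit 296)) (XT.lf (nat_lit 0) (nat_lit 19648244616) (nat_lit 152) (nat_lit 1597947071) (nat_lit 228) (nat_lit 4320030312) (nat_lit 95) (nat_lit 5) (nat_lit 97) (nat_lit 5) (nat_lit 98) (nat_lit 5) (nat_lit 500) (nat_lit 405) (nat_lit 295))) (XT.nd (nat_lit 78) (nat_lit 152) (nat_lit 0) (XT.lf (nat_lit 0) (nat_lit 3154494790) (nat_lit 228) (nat_lit 15710081701) (nat_lit 76) (nat_lit 7200965333) (nat_lit 92) (nat_lit 5) (nat_lit 95) (nat_lit 5) (nat_lit 93) (nat_lit 5) (nat_lit 501) (nat_lit 405) (nat_lit 294)) (XT.lf (nat_lit 0) (nat_lit 577860137) (nat_lit 152) (nat_lit 10251578221) (nat_lit 228) (nat_lit 15747229763) (nat_lit 90) (nat_lit 5) (nat_lit 92) (nat_lit 5) (nat_lit 93) (nat_lit 5) (nat_lit 502) (nat_lit 405) (nat_lit 293))))) (XT.nd (nat_lit 312)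 (nat_lit 304) (nat_lit 0) (XT.nd (nat_lit 156) (nat_lit 228) (nat_lit 0) (XT.nd (nat_lit 78) (nat_lit 76) (nat_lit 0) (XT.lf (nat_lit 0) (nat_lit 17642225151) (nat_lit 152) (nat_lit 1232545345) (nat_lit 228) (nat_lit 8224153878) (nat_lit 90) (nat_lit 5) (nat_lit 92) (nat_lit 5) (nat_lit 93) (nat_lit 5) (nat_lit 503) (nat_lit 405) (nat_lit 292)) (XT.lf (nat_lit 0) (nat_lit 7619251693) (nat_lit 76) (nat_lit 19674792245) (nat_lit 152) (nat_lit 338827301) (nat_lit 89) (nat_lit 5) (nat_lit 90) (nat_lit 5) (nat_lit 91) (nat_lit 4) (nat_lit 504) (nat_lit 405) (nat_lit 291))) (XT.nd (nat_lit 78) (nat_lit 152) (nat_lit 0) (XT.lf (nat_lit 0) (nat_lit 7721747191) (nat_lit 152) (nat_lit 2900282941) (nat_lit 76) (nat_lit 17555845347) (nat_lit 88) (nat_lit 5) (nat_lit 90) (nat_lit 5) (nat_lit 89) (nat_lit 5) (nat_lit 505) (nat_lit 405) (nat_lit 290)) (XT.lf (nat_lit 0) (nat_lit 14982766758) (nat_lit 152) (nat_lit 1161032781)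 (nat_lit 228) (nat_lit 12591535878) (nat_lit 86) (nat_lit 5) (nat_lit 88) (nat_lit 5) (nat_lit 89) (nat_lit 5) (nat_lit 506) (nat_lit 405) (nat_lit 289)))) (XT.nd (nat_lit 156) (nat_lit 152) (nat_lit 0) (XT.nd (nat_lit 78) (nat_lit 76) (nat_lit 0) (XT.lf (nat_lit 0) (nat_lit 4117917209) (nat_lit 76) (nat_lit 20834772758) (nat_lit 152) (nat_lit 4352804215) (nat_lit 85) (nat_lit 5) (nat_lit 86) (nat_lit 5) (nat_lit 87) (nat_lit 4) (nat_lit 507) (nat_lit 405) (nat_lit 288)) (XT.lf (nat_lit 0) (nat_lit 4186711279) (nat_lit 152) (nat_lit 7167542583) (nat_lit 76) (nat_lit 18533284059) (nat_lit 84) (nat_lit 5) (nat_lit 86) (nat_lit 5) (nat_lit 85) (nat_lit 5) (nat_lit 508) (nat_lit 405) (nat_lit 287))) (XT.nd (nat_lit 78) (nat_lit 0) (nat_lit 0) (XT.lf (nat_lit 0) (nat_lit 11543421564) (nat_lit 152) (nat_lit 1445503914) (nat_lit 228) (nat_lit 17494004870) (nat_lit 82) (nat_lit 5) (nat_lit 84) (nat_lit 5) (nat_lit 85)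 (nat_lit 5) (nat_lit 509) (nat_lit 405) (nat_lit 286)) (XT.lf (nat_lit 0) (nat_lit 22195599431) (nat_lit 228) (nat_lit 248176535) (nat_lit 76) (nat_lit 8648197069) (nat_lit 82) (nat_lit 5) (nat_lit 85) (nat_lit 5) (nat_lit 83) (nat_lit 4) (nat_lit 510) (nat_lit 405) (nat_lit 285))))))) (XT.nd (nat_lit 1248) (nat_lit 988) (nat_lit 0) (XT.nd (nat_lit 624) (nat_lit 684) (nat_lit 0) (XT.nd (nat_lit 312) (nat_lit 380) (nat_lit 0) (XT.nd (nat_lit 156) (nat_lit 76) (nat_lit 0) (XT.nd (nat_lit 78) (nat_lit 152) (nat_lit 0) (XT.lf (nat_lit 0) (nat_lit 145562868) (nat_lit 152) (nat_lit 12379252891) (nat_lit 76) (nat_lit 19188915890) (nat_lit 80) (nat_lit 5) (nat_lit 82) (nat_lit 5) (nat_lit 81) (nat_lit 5) (nat_lit 511) (nat_lit 405) (nat_lit 284)) (XT.lf (nat_lit 0) (nat_lit 7176594444) (nat_lit 152) (nat_lit 2158473889) (nat_lit 228) (nat_lit 23014778887) (nat_lit 78) (nat_lit 5) (nat_lit 80) (nat_lit 5) (nat_lit 81) (nat_lit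 5) (nat_lit 512) (nat_lit 405) (nat_lit 283))) (XT.nd (nat_lit 78) (nat_lit 76) (nat_lit 0) (XT.lf (nat_lit 0) (nat_lit 18992037634) (nat_lit 228) (nat_lit 5542558887) (nat_lit 76) (nat_lit 8464696634) (nat_lit 78) (nat_lit 5) (nat_lit 81) (nat_lit 5) (nat_lit 79) (nat_lit 4) (nat_lit 513) (nat_lit 405) (nat_lit 282)) (XT.lf (nat_lit 0) (nat_lit 14916649338) (nat_lit 76) (nat_lit 14170948309) (nat_lit 152) (nat_lit 4576158620) (nat_lit 77) (nat_lit 5) (nat_lit 78) (nat_lit 5) (nat_lit 79) (nat_lit 4) (nat_lit 514) (nat_lit 405) (nat_lit 281)))) (XT.nd (nat_lit 156) (nat_lit 152) (nat_lit 0) (XT.nd (nat_lit 78) (nat_lit 0) (nat_lit 0) (XT.lf (nat_lit 0) (nat_lit 1710070141) (nat_lit 152) (nat_lit 3384646811) (nat_lit 228) (nat_lit 29250241780) (nat_lit 74) (nat_lit 5) (nat_lit 76) (nat_lit 5) (nat_lit 77) (nat_lit 5) (nat_lit 515) (nat_lit 405) (nat_lit 280)) (XT.lf (nat_lit 0) (nat_lit 15213367405) (nat_lit 228)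 (nat_lit 12027273574) (nat_lit 76) (nat_lit 7797108517) (nat_lit 74) (nat_lit 5) (nat_lit 77) (nat_lit 5) (nat_lit 75) (nat_lit 4) (nat_lit 516) (nat_lit 405) (nat_lit 279))) (XT.nd (nat_lit 78) (nat_lit 76) (nat_lit 0) (XT.lf (nat_lit 0) (nat_lit 9317584188) (nat_lit 76) (nat_lit 16425713315) (nat_lit 152) (nat_lit 10004795096) (nat_lit 73) (nat_lit 5) (nat_lit 74) (nat_lit 5) (nat_lit 75) (nat_lit 4) (nat_lit 517) (nat_lit 405) (nat_lit 278)) (XT.lf (nat_lit 0) (nat_lit 214559833) (nat_lit 152) (nat_lit 4958333634) (nat_lit 76) (nat_lit 31303601754) (nat_lit 72) (nat_lit 5) (nat_lit 74) (nat_lit 5) (nat_lit 73) (nat_lit 5) (nat_lit 518) (nat_lit 405) (nat_lit 277))))) (XT.nd (nat_lit 312) (nat_lit 228) (nat_lit 0) (XT.nd (nat_lit 156) (nat_lit 228) (nat_lit 0) (XT.nd (nat_lit 78) (nat_lit 76) (nat_lit 0) (XT.lf (nat_lit 0) (nat_lit 10755674184) (nat_lit 228) (nat_lit 19913978110) (nat_lit 76) (nat_lit 6547638149)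 (nat_lit 70) (nat_lit 5) (nat_lit 73) (nat_lit 5) (nat_lit 71) (nat_lit 4) (nat_lit 519) (nat_lit 405) (nat_lit 276)) (XT.lf (nat_lit 0) (nat_lit 2320722034) (nat_lit 76) (nat_lit 19401530817) (nat_lit 152) (nat_lit 16254779941) (nat_lit 69) (nat_lit 5) (nat_lit 70) (nat_lit 5) (nat_lit 71) (nat_lit 4) (nat_lit 520) (nat_lit 405) (nat_lit 275))) (XT.nd (nat_lit 78) (nat_lit 228) (nat_lit 0) (XT.lf (nat_lit 0) (nat_lit 25602467220) (nat_lit 76) (nat_lit 7601756118) (nat_lit 152) (nat_lit 5549752429) (nat_lit 69) (nat_lit 5) (nat_lit 70) (nat_lit 5) (nat_lit 71) (nat_lit 4) (nat_lit 521) (nat_lit 405) (nat_lit 274)) (XT.lf (nat_lit 0) (nat_lit 5497796674) (nat_lit 228) (nat_lit 29449166639) (nat_lit 76) (nat_lit 4601837550) (nat_lit 66) (nat_lit 5) (nat_lit 69) (nat_lit 5) (nat_lit 67) (nat_lit 4) (nat_lit 522) (nat_lit 405) (nat_lit 273)))) (XT.nd (nat_lit 156) (nat_lit 152) (nat_lit 0) (XT.nd (nat_lit 78) (nat_lit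 76) (nat_lit 0) (XT.lf (nat_lit 0) (nat_lit 16960230791) (nat_lit 228) (nat_lit 6204818392) (nat_lit 76) (nat_lit 17194923167) (nat_lit 66) (nat_lit 5) (nat_lit 69) (nat_lit 5) (nat_lit 67) (nat_lit 4) (nat_lit 523) (nat_lit 405) (nat_lit 272)) (XT.lf (nat_lit 0) (nat_lit 18062421972) (nat_lit 76) (nat_lit 10863780691) (nat_lit 152) (nat_lit 12264486547) (nat_lit 65) (nat_lit 5) (nat_lit 66) (nat_lit 5) (nat_lit 67) (nat_lit 4) (nat_lit 524) (nat_lit 405) (nat_lit 271))) (XT.nd (nat_lit 78) (nat_lit 76) (nat_lit 0) (XT.lf (nat_lit 0) (nat_lit 1117312633) (nat_lit 76) (nat_lit 40211288650) (nat_lit 76) (nat_lit 715403029) (nat_lit 64) (nat_lit 4) (nat_lit 65) (nat_lit 5) (nat_lit 65) (nat_lit 4) (nat_lit 525) (nat_lit 405) (nat_lit 270)) (XT.lf (nat_lit 0) (nat_lit 11291490568) (nat_lit 152) (nat_lit 16595832642) (nat_lit 76) (nat_lit 15022486620) (nat_lit 63) (nat_lit 5) (nat_lit 65) (nat_lit 5) (nat_lit 64) (nat_lit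 4) (nat_lit 526) (nat_lit 405) (nat_lit 269)))))) (XT.nd (nat_lit 624) (nat_lit 456) (nat_lit 0) (XT.nd (nat_lit 312) (nat_lit 304) (nat_lit 0) (XT.nd (nat_lit 156) (nat_lit 152) (nat_lit 0) (XT.nd (nat_lit 78) (nat_lit 0) (nat_lit 0) (XT.lf (nat_lit 0) (nat_lit 8599519330) (nat_lit 76) (nat_lit 15113840006) (nat_lit 152) (nat_lit 20085943413) (nat_lit 62) (nat_lit 5) (nat_lit 63) (nat_lit 5) (nat_lit 64) (nat_lit 4) (nat_lit 527) (nat_lit 405) (nat_lit 268)) (XT.lf (nat_lit 0) (nat_lit 34865029369) (nat_lit 76) (nat_lit 1797068293) (nat_lit 152) (nat_lit 8048756534) (nat_lit 62) (nat_lit 5) (nat_lit 63) (nat_lit 5) (nat_lit 64) (nat_lit 4) (nat_lit 528) (nat_lit 405) (nat_lit 267))) (XT.nd (nat_lit 78) (nat_lit 0) (nat_lit 0) (XT.lf (nat_lit 0) (nat_lit 4526841267) (nat_lit 152) (nat_lit 29236592457) (nat_lit 76) (nat_lit 11877199167) (nat_lit 60) (nat_lit 5) (nat_lit 62) (nat_lit 5) (nat_lit 61) (nat_lit 4) (nat_lit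 529) (nat_lit 405) (nat_lit 266)) (XT.lf (nat_lit 0) (nat_lit 17423047446) (nat_lit 152) (nat_lit 3075989128) (nat_lit 76) (nat_lit 26093724413) (nat_lit 60) (nat_lit 5) (nat_lit 62) (nat_lit 5) (nat_lit 61) (nat_lit 4) (nat_lit 530) (nat_lit 405) (nat_lit 265)))) (XT.nd (nat_lit 156) (nat_lit 152) (nat_lit 0) (XT.nd (nat_lit 78) (nat_lit 76) (nat_lit 0) (XT.lf (nat_lit 0) (nat_lit 24319299632) (nat_lit 76) (nat_lit 6607905179) (nat_lit 152) (nat_lit 16639616292) (nat_lit 59) (nat_lit 5) (nat_lit 60) (nat_lit 5) (nat_lit 61) (nat_lit 4) (nat_lit 531) (nat_lit 405) (nat_lit 264)) (XT.lf (nat_lit 0) (nat_lit 4009535992) (nat_lit 76) (nat_lit 40958192703) (nat_lit 76) (nat_lit 3598437201) (nat_lit 58) (nat_lit 4) (nat_lit 59) (nat_lit 5) (nat_lit 59) (nat_lit 4) (nat_lit 532) (nat_lit 405) (nat_lit 263))) (XT.nd (nat_lit 78) (nat_lit 76) (nat_lit 0) (XT.lf (nat_lit 0) (nat_lit 9931908286) (nat_lit 152) (nat_lit 17214592133)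 (nat_lit 76) (nat_lit 22437460005) (nat_lit 57) (nat_lit 5) (nat_lit 59) (nat_lit 5) (nat_lit 58) (nat_lit 4) (nat_lit 533) (nat_lit 405) (nat_lit 262)) (XT.lf (nat_lit 0) (nat_lit 11104771802) (nat_lit 76) (nat_lit 12785506233) (nat_lit 152) (nat_lit 26738108859) (nat_lit 56) (nat_lit 5) (nat_lit 57) (nat_lit 5) (nat_lit 58) (nat_lit 4) (nat_lit 534) (nat_lit 405) (nat_lit 261))))) (XT.nd (nat_lit 312) (nat_lit 228) (nat_lit 0) (XT.nd (nat_lit 156) (nat_lit 76) (nat_lit 0) (XT.nd (nat_lit 78) (nat_lit 152) (nat_lit 0) (XT.lf (nat_lit 0) (nat_lit 38449951251) (nat_lit 152) (nat_lit 11117358999) (nat_lit 0) (nat_lit 2131359448) (nat_lit 56) (nat_lit 5) (nat_lit 58) (nat_lit 4) (nat_lit 56) (nat_lit 4) (nat_lit 535) (nat_lit 405) (nat_lit 260)) (XT.lf (nat_lit 0) (nat_lit 926684831) (nat_lit 152) (nat_lit 34452179768) (nat_lit 76) (nat_lit 17413192656) (nat_lit 54) (nat_lit 5) (nat_lit 56) (nat_lit 5) (nat_lit 55)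 (nat_lit 4) (nat_lit 536) (nat_lit 405) (nat_lit 259))) (XT.nd (nat_lit 78) (nat_lit 76) (nat_lit 0) (XT.lf (nat_lit 0) (nat_lit 15362517248) (nat_lit 152) (nat_lit 5161768285) (nat_lit 76) (nat_lit 33386982151) (nat_lit 54) (nat_lit 5) (nat_lit 56) (nat_lit 5) (nat_lit 55) (nat_lit 4) (nat_lit 537) (nat_lit 405) (nat_lit 258)) (XT.lf (nat_lit 0) (nat_lit 25481950835) (nat_lit 76) (nat_lit 4982847257) (nat_lit 152) (nat_lit 24592255228) (nat_lit 53) (nat_lit 5) (nat_lit 54) (nat_lit 5) (nat_lit 55) (nat_lit 4) (nat_lit 538) (nat_lit 405) (nat_lit 257)))) (XT.nd (nat_lit 156) (nat_lit 76) (nat_lit 0) (XT.nd (nat_lit 78) (nat_lit 76) (nat_lit 0) (XT.lf (nat_lit 0) (nat_lit 801627520) (nat_lit 76) (nat_lit 45373284248) (nat_lit 76) (nat_lit 10057657924) (nat_lit 52) (nat_lit 4) (nat_lit 53) (nat_lit 5) (nat_lit 53) (nat_lit 4) (nat_lit 539) (nat_lit 405) (nat_lit 256)) (XT.lf (nat_lit 0) (nat_lit 5156499007) (nat_lit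 152) (nat_lit 24860663869) (nat_lit 76) (nat_lit 27414590224) (nat_lit 51) (nat_lit 5) (nat_lit 53) (nat_lit 5) (nat_lit 52) (nat_lit 4) (nat_lit 540) (nat_lit 405) (nat_lit 255))) (XT.nd (nat_lit 78) (nat_lit 0) (nat_lit 0) (XT.lf (nat_lit 0) (nat_lit 6634593957) (nat_lit 76) (nat_lit 14042898924) (nat_lit 152) (nat_lit 37984854959) (nat_lit 50) (nat_lit 5) (nat_lit 51) (nat_lit 5) (nat_lit 52) (nat_lit 4) (nat_lit 541) (nat_lit 405) (nat_lit 254)) (XT.lf (nat_lit 0) (nat_lit 36929617894) (nat_lit 152) (nat_lit 20385685250) (nat_lit 0) (nat_lit 2606592324) (nat_lit 50) (nat_lit 5) (nat_lit 52) (nat_lit 4) (nat_lit 50) (nat_lit 4) (nat_lit 542) (nat_lit 405) (nat_lit 253))))))))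
noncomputable def xc110 : XT := (XT.nd (nat_lit 53352) (nat_lit 0) (nat_lit 11476) (XT.nd (nat_lit 52104) (nat_lit 0) (nat_lit 23484) (XT.nd (nat_lit 546) (nat_lit 228) (nat_lit 0) (XT.nd (nat_lit 234) (nat_lit 228) (nat_lit 0) (XT.nd (nat_lit 78) (nat_lit 152) (nat_lit 0) (XT.lf (nat_lit 0) (nat_lit 12284944704) (nat_lit 76) (nat_lit 41630616869) (nat_lit 76) (nat_lit 7296280387) (nat_lit 49) (nat_lit 4) (nat_lit 50) (nat_lit 5) (nat_lit 50) (nat_lit 4) (nat_lit 543) (nat_lit 405) (nat_lit 252)) (XT.nd (nat_lit 78) (nat_lit 76) (nat_lit 0) (XT.lf (nat_lit 0) (nat_lit 8894525494) (nat_lit 152) (nat_lit 16289431194) (nat_lit 76) (nat_lit 37348061367) (nat_lit 48) (nat_lit 5) (nat_lit 50) (nat_lit 5) (nat_lit 49) (nat_lit 4) (nat_lit 544) (nat_lit 405) (nat_lit 251)) (XT.lf (nat_lit 0) (nat_lit 17577142533) (nat_lit 76) (nat_lit 8005676235) (nat_lit 152) (nat_lit 38302061193) (nat_lit 47) (nat_lit 5) (nat_lit 48)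 (nat_lit 5) (nat_lit 49) (nat_lit 4) (nat_lit 545) (nat_lit 405) (nat_lit 250)))) (XT.nd (nat_lit 156) (nat_lit 152) (nat_lit 0) (XT.nd (nat_lit 78) (nat_lit 76) (nat_lit 0) (XT.lf (nat_lit 0) (nat_lit 43020468592) (nat_lit 152) (nat_lit 12595298948) (nat_lit 0) (nat_lit 9655099025) (nat_lit 47) (nat_lit 5) (nat_lit 49) (nat_lit 4) (nat_lit 47) (nat_lit 4) (nat_lit 546) (nat_lit 405) (nat_lit 249)) (XT.lf (nat_lit 0) (nat_lit 22467493936) (nat_lit 76) (nat_lit 38798757625) (nat_lit 76) (nat_lit 5423631168) (nat_lit 46) (nat_lit 4) (nat_lit 47) (nat_lit 5) (nat_lit 47) (nat_lit 4) (nat_lit 547) (nat_lit 405) (nat_lit 248))) (XT.nd (nat_lit 78) (nat_lit 76) (nat_lit 0) (XT.lf (nat_lit 0) (nat_lit 11793792854) (nat_lit 152) (nat_lit 9443199674) (nat_lit 76) (nat_lit 46907496298) (nat_lit 45) (nat_lit 5) (nat_lit 47) (nat_lit 5) (nat_lit 46) (nat_lit 4) (nat_lit 548) (nat_lit 405) (nat_lit 247)) (XT.lf (nat_lit 0)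 (nat_lit 26829613893) (nat_lit 76) (nat_lit 2837090474) (nat_lit 152) (nat_lit 39966978591) (nat_lit 44) (nat_lit 5) (nat_lit 45) (nat_lit 5) (nat_lit 46) (nat_lit 4) (nat_lit 549) (nat_lit 405) (nat_lit 246))))) (XT.nd (nat_lit 51246) (nat_lit 0) (nat_lit 28956) (XT.nd (nat_lit 156) (nat_lit 152) (nat_lit 0) (XT.nd (nat_lit 78) (nat_lit 76) (nat_lit 0) (XT.lf (nat_lit 0) (nat_lit 48317092899) (nat_lit 152) (nat_lit 6955958501) (nat_lit 0) (nat_lit 15887262888) (nat_lit 44) (nat_lit 5) (nat_lit 46) (nat_lit 4) (nat_lit 44) (nat_lit 4) (nat_lit 550) (nat_lit 405) (nat_lit 245)) (XT.lf (nat_lit 0) (nat_lit 30515947458) (nat_lit 76) (nat_lit 37322844790) (nat_lit 76) (nat_lit 4884598399) (nat_lit 43) (nat_lit 4) (nat_lit 44) (nat_lit 5) (nat_lit 44) (nat_lit 4) (nat_lit 551) (nat_lit 405) (nat_lit 244))) (XT.nd (nat_lit 78) (nat_lit 76) (nat_lit 0) (XT.lf (nat_lit 0) (nat_lit 13408461919) (nat_lit 152) (nat_lit 5227239937)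 (nat_lit 76) (nat_lit 55691892472) (nat_lit 42) (nat_lit 5) (nat_lit 44) (nat_lit 5) (nat_lit 43) (nat_lit 4) (nat_lit 552) (nat_lit 405) (nat_lit 243)) (XT.lf (nat_lit 0) (nat_lit 32473777396) (nat_lit 152) (nat_lit 42530347870) (nat_lit 0) (nat_lit 964698872) (nat_lit 41) (nat_lit 5) (nat_lit 43) (nat_lit 4) (nat_lit 41) (nat_lit 4) (nat_lit 553) (nat_lit 405) (nat_lit 242)))) (XT.nd (nat_lit 156) (nat_lit 532) (nat_lit 0) (XT.nd (nat_lit 78) (nat_lit 0) (nat_lit 0) (XT.lf (nat_lit 0) (nat_lit 599166992) (nat_lit 532) (nat_lit 1348991149) (nat_lit 532) (nat_lit 1348991149) (nat_lit 429) (nat_lit 3) (nat_lit 436) (nat_lit 3) (nat_lit 436) (nat_lit 5) (nat_lit 406) (nat_lit 406) (nat_lit 388)) (XT.lf (nat_lit 76) (nat_lit 590085551) (nat_lit 0) (nat_lit 3016314139) (nat_lit 532) (nat_lit 3014766658) (nat_lit 430) (nat_lit 5) (nat_lit 429) (nat_lit 3) (nat_lit 436) (nat_lit 5) (nat_lit 407) (nat_lit 406) (nat_lit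 387))) (XT.nd (nat_lit 78) (nat_lit 532) (nat_lit 0) (XT.lf (nat_lit 76) (nat_lit 3983216342) (nat_lit 0) (nat_lit 2037208260) (nat_lit 532) (nat_lit 630417456) (nat_lit 430) (nat_lit 5) (nat_lit 429) (nat_lit 3) (nat_lit 436) (nat_lit 5) (nat_lit 408) (nat_lit 406) (nat_lit 386)) (XT.lf (nat_lit 76) (nat_lit 744412518) (nat_lit 0) (nat_lit 960869282) (nat_lit 608) (nat_lit 4978149241) (nat_lit 423) (nat_lit 5) (nat_lit 422) (nat_lit 5) (nat_lit 430) (nat_lit 5) (nat_lit 409) (nat_lit 406) (nat_lit 385)))))) (XT.nd (nat_lit 624) (nat_lit 4332) (nat_lit 0) (XT.nd (nat_lit 312) (nat_lit 608) (nat_lit 0) (XT.nd (nat_lit 156) (nat_lit 608) (nat_lit 0) (XT.nd (nat_lit 78) (nat_lit 0) (nat_lit 0) (XT.lf (nat_lit 0) (nat_lit 4037884563) (nat_lit 532) (nat_lit 2462527529) (nat_lit 608) (nat_lit 218225537) (nat_lit 423) (nat_lit 5) (nat_lit 430) (nat_lit 5) (nat_lit 431) (nat_lit 5) (nat_lit 410) (nat_lit 406) (nat_lit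 384)) (XT.lf (nat_lit 76) (nat_lit 1079414946) (nat_lit 0) (nat_lit 5294414223) (nat_lit 608) (nat_lit 383082260) (nat_lit 424) (nat_lit 5) (nat_lit 423) (nat_lit 5) (nat_lit 431) (nat_lit 5) (nat_lit 411) (nat_lit 406) (nat_lit 383))) (XT.nd (nat_lit 78) (nat_lit 0) (nat_lit 0) (XT.lf (nat_lit 0) (nat_lit 1884592857) (nat_lit 608) (nat_lit 2088413803) (nat_lit 684) (nat_lit 2824572628) (nat_lit 415) (nat_lit 5) (nat_lit 423) (nat_lit 5) (nat_lit 424) (nat_lit 5) (nat_lit 412) (nat_lit 406) (nat_lit 382)) (XT.lf (nat_lit 76) (nat_lit 1585379632) (nat_lit 0) (nat_lit 2559610967) (nat_lit 684) (nat_lit 2696401956) (nat_lit 416) (nat_lit 5) (nat_lit 415) (nat_lit 5) (nat_lit 424) (nat_lit 5) (nat_lit 413) (nat_lit 406) (nat_lit 381)))) (XT.nd (nat_lit 156) (nat_lit 0) (nat_lit 0) (XT.nd (nat_lit 78) (nat_lit 608) (nat_lit 0) (XT.lf (nat_lit 76) (nat_lit 5362583237) (nat_lit 0) (nat_lit 1050794345) (nat_lit 684) (nat_lit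 474947915) (nat_lit 416) (nat_lit 5) (nat_lit 415) (nat_lit 5) (nat_lit 424) (nat_lit 5) (nat_lit 414) (nat_lit 406) (nat_lit 380)) (XT.lf (nat_lit 0) (nat_lit 1725990526) (nat_lit 684) (nat_lit 4649371645) (nat_lit 760) (nat_lit 562344718) (nat_lit 407) (nat_lit 5) (nat_lit 416) (nat_lit 5) (nat_lit 417) (nat_lit 5) (nat_lit 415) (nat_lit 406) (nat_lit 379))) (XT.nd (nat_lit 78) (nat_lit 0) (nat_lit 0) (XT.lf (nat_lit 0) (nat_lit 3932140559) (nat_lit 684) (nat_lit 807131638) (nat_lit 760) (nat_lit 2250704268) (nat_lit 407) (nat_lit 5) (nat_lit 416) (nat_lit 5) (nat_lit 417) (nat_lit 5) (nat_lit 416) (nat_lit 406) (nat_lit 378)) (XT.lf (nat_lit 76) (nat_lit 3161706296) (nat_lit 0) (nat_lit 2998176553) (nat_lit 760) (nat_lit 885278462) (nat_lit 408) (nat_lit 5) (nat_lit 407) (nat_lit 5) (nat_lit 417) (nat_lit 5) (nat_lit 417) (nat_lit 406) (nat_lit 377))))) (XT.nd (nat_lit 312) (nat_lit 2812) (nat_lit 0) (XT.nd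 (nat_lit 156) (nat_lit 760) (nat_lit 0) (XT.nd (nat_lit 78) (nat_lit 0) (nat_lit 76) (XT.lf (nat_lit 76) (nat_lit 101952030) (nat_lit 0) (nat_lit 1159309173) (nat_lit 836) (nat_lit 5842303451) (nat_lit 398) (nat_lit 5) (nat_lit 397) (nat_lit 5) (nat_lit 408) (nat_lit 5) (nat_lit 418) (nat_lit 406) (nat_lit 376)) (XT.lf (nat_lit 0) (nat_lit 3428929221) (nat_lit 760) (nat_lit 2945467250) (nat_lit 76) (nat_lit 789833530) (nat_lit 398) (nat_lit 5) (nat_lit 408) (nat_lit 5) (nat_lit 399) (nat_lit 5) (nat_lit 419) (nat_lit 406) (nat_lit 375))) (XT.nd (nat_lit 78) (nat_lit 76) (nat_lit 0) (XT.lf (nat_lit 0) (nat_lit 1192468190) (nat_lit 760) (nat_lit 4422060529) (nat_lit 836) (nat_lit 1613607910) (nat_lit 388) (nat_lit 5) (nat_lit 398) (nat_lit 5) (nat_lit 399) (nat_lit 5) (nat_lit 420) (nat_lit 406) (nat_lit 374)) (XT.lf (nat_lit 0) (nat_lit 521439384) (nat_lit 836) (nat_lit 1836500905) (nat_lit 76) (nat_lit 4937037371)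 (nat_lit 387) (nat_lit 5) (nat_lit 398) (nat_lit 5) (nat_lit 388) (nat_lit 5) (nat_lit 421) (nat_lit 406) (nat_lit 373)))) (XT.nd (nat_lit 156) (nat_lit 1976) (nat_lit 0) (XT.nd (nat_lit 78) (nat_lit 0) (nat_lit 0) (XT.lf (nat_lit 0) (nat_lit 2469828280) (nat_lit 836) (nat_lit 174856609) (nat_lit 912) (nat_lit 4719970037) (nat_lit 376) (nat_lit 5) (nat_lit 387) (nat_lit 5) (nat_lit 388) (nat_lit 5) (nat_lit 422) (nat_lit 406) (nat_lit 372)) (XT.lf (nat_lit 0) (nat_lit 4804743692) (nat_lit 912) (nat_lit 565645745) (nat_lit 76) (nat_lit 2066847029) (nat_lit 376) (nat_lit 5) (nat_lit 388) (nat_lit 5) (nat_lit 377) (nat_lit 5) (nat_lit 423) (nat_lit 406) (nat_lit 371))) (XT.nd (nat_lit 78) (nat_lit 1064) (nat_lit 0) (XT.lf (nat_lit 0) (nat_lit 3916991693) (nat_lit 912) (nat_lit 3088358859) (nat_lit 988) (nat_lit 507379726) (nat_lit 364) (nat_lit 5) (nat_lit 376) (nat_lit 5) (nat_lit 377) (nat_lit 5) (nat_lit 424) (nat_lit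 406) (nat_lit 370)) (XT.lf (nat_lit 0) (nat_lit 904945022) (nat_lit 988) (nat_lit 695303209) (nat_lit 1064) (nat_lit 5991215371) (nat_lit 350) (nat_lit 5) (nat_lit 363) (nat_lit 5) (nat_lit 364) (nat_lit 5) (nat_lit 425) (nat_lit 406) (nat_lit 369))))))) (XT.nd (nat_lit 1170) (nat_lit 4560) (nat_lit 0) (XT.nd (nat_lit 546) (nat_lit 3040) (nat_lit 0) (XT.nd (nat_lit 234) (nat_lit 3268) (nat_lit 0) (XT.nd (nat_lit 78) (nat_lit 1140) (nat_lit 0) (XT.lf (nat_lit 0) (nat_lit 3753128540) (nat_lit 1064) (nat_lit 2132826513) (nat_lit 76) (nat_lit 1786693129) (nat_lit 350) (nat_lit 5) (nat_lit 364) (nat_lit 5) (nat_lit 351) (nat_lit 5) (nat_lit 426) (nat_lit 406) (nat_lit 368)) (XT.nd (nat_lit 78) (nat_lit 76) (nat_lit 0) (XT.lf (nat_lit 0) (nat_lit 2548554543) (nat_lit 1064) (nat_lit 3393755197) (nat_lit 1140) (nat_lit 1814813537) (nat_lit 336) (nat_lit 5) (nat_lit 350) (nat_lit 5) (nat_lit 351) (nat_lit 5) (nat_lit 427)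 (nat_lit 406) (nat_lit 367)) (XT.lf (nat_lit 0) (nat_lit 308888022) (nat_lit 1140) (nat_lit 485437366) (nat_lit 76) (nat_lit 7050829178) (nat_lit 335) (nat_lit 5) (nat_lit 350) (nat_lit 5) (nat_lit 336) (nat_lit 5) (nat_lit 428) (nat_lit 406) (nat_lit 366)))) (XT.nd (nat_lit 156) (nat_lit 912) (nat_lit 0) (XT.nd (nat_lit 78) (nat_lit 1216) (nat_lit 0) (XT.lf (nat_lit 0) (nat_lit 2463554792) (nat_lit 1216) (nat_lit 3558210952) (nat_lit 76) (nat_lit 1913415958) (nat_lit 320) (nat_lit 5) (nat_lit 336) (nat_lit 5) (nat_lit 321) (nat_lit 5) (nat_lit 429) (nat_lit 406) (nat_lit 365)) (XT.lf (nat_lit 0) (nat_lit 1333386682) (nat_lit 1216) (nat_lit 3319057277) (nat_lit 1292) (nat_lit 3376383920) (nat_lit 304) (nat_lit 5) (nat_lit 320) (nat_lit 5) (nat_lit 321) (nat_lit 5) (nat_lit 430) (nat_lit 406) (nat_lit 364))) (XT.nd (nat_lit 78) (nat_lit 912) (nat_lit 0) (XT.lf (nat_lit 0) (nat_lit 6393024583) (nat_lit 1216) (nat_lit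 494992185) (nat_lit 1292) (nat_lit 1237841694) (nat_lit 304) (nat_lit 5) (nat_lit 320) (nat_lit 5) (nat_lit 321) (nat_lit 5) (nat_lit 431) (nat_lit 406) (nat_lit 363)) (XT.lf (nat_lit 0) (nat_lit 948354284) (nat_lit 912) (nat_lit 4865613885) (nat_lit 76) (nat_lit 2411489004) (nat_lit 292) (nat_lit 5) (nat_lit 304) (nat_lit 5) (nat_lit 293) (nat_lit 5) (nat_lit 432) (nat_lit 406) (nat_lit 362))))) (XT.nd (nat_lit 312) (nat_lit 1748) (nat_lit 0) (XT.nd (nat_lit 156) (nat_lit 684) (nat_lit 0) (XT.nd (nat_lit 78) (nat_lit 0) (nat_lit 0) (XT.lf (nat_lit 0) (nat_lit 248496617) (nat_lit 608) (nat_lit 2898974083) (nat_lit 684) (nat_lit 5181044113) (nat_lit 284) (nat_lit 5) (nat_lit 292) (nat_lit 5) (nat_lit 293) (nat_lit 5) (nat_lit 433) (nat_lit 406) (nat_lit 361)) (XT.lf (nat_lit 0) (nat_lit 5411464984) (nat_lit 684) (nat_lit 2872268399) (nat_lit 76) (nat_lit 150968581) (nat_lit 284) (nat_lit 5) (nat_lit 293) (nat_lit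 5) (nat_lit 285) (nat_lit 5) (nat_lit 434) (nat_lit 406) (nat_lit 360))) (XT.nd (nat_lit 78) (nat_lit 76) (nat_lit 0) (XT.lf (nat_lit 0) (nat_lit 2459185264) (nat_lit 608) (nat_lit 5286331984) (nat_lit 684) (nat_lit 798498109) (nat_lit 276) (nat_lit 5) (nat_lit 284) (nat_lit 5) (nat_lit 285) (nat_lit 5) (nat_lit 435) (nat_lit 406) (nat_lit 359)) (XT.lf (nat_lit 0) (nat_lit 1443414201) (nat_lit 684) (nat_lit 713215091) (nat_lit 76) (nat_lit 6500165871) (nat_lit 275) (nat_lit 5) (nat_lit 284) (nat_lit 5) (nat_lit 276) (nat_lit 5) (nat_lit 436) (nat_lit 406) (nat_lit 358)))) (XT.nd (nat_lit 156) (nat_lit 608) (nat_lit 0) (XT.nd (nat_lit 78) (nat_lit 608) (nat_lit 0) (XT.lf (nat_lit 0) (nat_lit 3745704374) (nat_lit 608) (nat_lit 3927929712) (nat_lit 76) (nat_lit 1098816378) (nat_lit 268) (nat_lit 5) (nat_lit 276) (nat_lit 5) (nat_lit 269) (nat_lit 5) (nat_lit 437) (nat_lit 406) (nat_lit 357)) (XT.lf (nat_lit 0) (nat_lit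 1651374343) (nat_lit 608) (nat_lit 4462805483) (nat_lit 684) (nat_lit 2777486341) (nat_lit 260) (nat_lit 5) (nat_lit 268) (nat_lit 5) (nat_lit 269) (nat_lit 5) (nat_lit 438) (nat_lit 406) (nat_lit 356))) (XT.nd (nat_lit 78) (nat_lit 608) (nat_lit 0) (XT.lf (nat_lit 0) (nat_lit 7427407488) (nat_lit 608) (nat_lit 1119471090) (nat_lit 684) (nat_lit 467788809) (nat_lit 260) (nat_lit 5) (nat_lit 268) (nat_lit 5) (nat_lit 269) (nat_lit 5) (nat_lit 439) (nat_lit 406) (nat_lit 355)) (XT.lf (nat_lit 0) (nat_lit 1892039918) (nat_lit 608) (nat_lit 4914511995) (nat_lit 76) (nat_lit 2333715419) (nat_lit 252) (nat_lit 5) (nat_lit 260) (nat_lit 5) (nat_lit 253) (nat_lit 5) (nat_lit 440) (nat_lit 406) (nat_lit 354)))))) (XT.nd (nat_lit 624) (nat_lit 2052) (nat_lit 0) (XT.nd (nat_lit 312) (nat_lit 988) (nat_lit 0) (XT.nd (nat_lit 156) (nat_lit 988) (nat_lit 0) (XT.nd (nat_lit 78) (nat_lit 0) (nat_lit 0) (XT.lf (nat_lit 0) (nat_lit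 927377827) (nat_lit 532) (nat_lit 3377271894) (nat_lit 608) (nat_lit 4965108726) (nat_lit 245) (nat_lit 5) (nat_lit 252) (nat_lit 5) (nat_lit 253) (nat_lit 5) (nat_lit 441) (nat_lit 406) (nat_lit 353)) (XT.lf (nat_lit 0) (nat_lit 6797197251) (nat_lit 608) (nat_lit 2410500004) (nat_lit 76) (nat_lit 195213914) (nat_lit 245) (nat_lit 5) (nat_lit 253) (nat_lit 5) (nat_lit 246) (nat_lit 5) (nat_lit 442) (nat_lit 406) (nat_lit 352))) (XT.nd (nat_lit 78) (nat_lit 532) (nat_lit 0) (XT.lf (nat_lit 0) (nat_lit 3687227138) (nat_lit 456) (nat_lit 5703411507) (nat_lit 532) (nat_lit 148639854) (nat_lit 239) (nat_lit 5) (nat_lit 245) (nat_lit 5) (nat_lit 246) (nat_lit 5) (nat_lit 443) (nat_lit 406) (nat_lit 351)) (XT.lf (nat_lit 0) (nat_lit 269436462) (nat_lit 456) (nat_lit 2050977748) (nat_lit 532) (nat_lit 7359096465) (nat_lit 232) (nat_lit 5) (nat_lit 238) (nat_lit 5) (nat_lit 239) (nat_lit 5) (nat_lit 444) (nat_lit 406) (nat_lit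 350)))) (XT.nd (nat_lit 156) (nat_lit 532) (nat_lit 0) (XT.nd (nat_lit 78) (nat_lit 456) (nat_lit 0) (XT.lf (nat_lit 0) (nat_lit 4894924618) (nat_lit 532) (nat_lit 3197793886) (nat_lit 76) (nat_lit 1730159242) (nat_lit 232) (nat_lit 5) (nat_lit 239) (nat_lit 5) (nat_lit 233) (nat_lit 5) (nat_lit 445) (nat_lit 406) (nat_lit 349)) (XT.lf (nat_lit 0) (nat_lit 3192710684) (nat_lit 456) (nat_lit 4364418247) (nat_lit 532) (nat_lit 2413106297) (nat_lit 226) (nat_lit 5) (nat_lit 232) (nat_lit 5) (nat_lit 233) (nat_lit 5) (nat_lit 446) (nat_lit 406) (nat_lit 348))) (XT.nd (nat_lit 78) (nat_lit 456) (nat_lit 0) (XT.lf (nat_lit 0) (nat_lit 166107247) (nat_lit 532) (nat_lit 333036455) (nat_lit 76) (nat_lit 9623050242) (nat_lit 225) (nat_lit 5) (nat_lit 232) (nat_lit 5) (nat_lit 226) (nat_lit 5) (nat_lit 447) (nat_lit 406) (nat_lit 347)) (XT.lf (nat_lit 0) (nat_lit 2830450909) (nat_lit 532) (nat_lit 3955614528) (nat_lit 76)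 (nat_lit 3490244465) (nat_lit 219) (nat_lit 5) (nat_lit 226) (nat_lit 5) (nat_lit 220) (nat_lit 5) (nat_lit 448) (nat_lit 406) (nat_lit 346))))) (XT.nd (nat_lit 312) (nat_lit 760) (nat_lit 0) (XT.nd (nat_lit 156) (nat_lit 912) (nat_lit 0) (XT.nd (nat_lit 78) (nat_lit 0) (nat_lit 0) (XT.lf (nat_lit 0) (nat_lit 2744947656) (nat_lit 380) (nat_lit 2826015420) (nat_lit 456) (nat_lit 4864201919) (nat_lit 214) (nat_lit 5) (nat_lit 219) (nat_lit 5) (nat_lit 220) (nat_lit 5) (nat_lit 449) (nat_lit 406) (nat_lit 345)) (XT.lf (nat_lit 0) (nat_lit 8408128061) (nat_lit 456) (nat_lit 932515444) (nat_lit 76) (nat_lit 1257711833) (nat_lit 214) (nat_lit 5) (nat_lit 220) (nat_lit 5) (nat_lit 215) (nat_lit 5) (nat_lit 450) (nat_lit 406) (nat_lit 344))) (XT.nd (nat_lit 78) (nat_lit 380) (nat_lit 0) (XT.lf (nat_lit 0) (nat_lit 602935512) (nat_lit 532) (nat_lit 4701134136) (nat_lit 76) (nat_lit 5460712454) (nat_lit 207) (nat_lit 5)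 (nat_lit 214) (nat_lit 5) (nat_lit 208) (nat_lit 5) (nat_lit 451) (nat_lit 406) (nat_lit 343)) (XT.lf (nat_lit 0) (nat_lit 2327637732) (nat_lit 380) (nat_lit 1103527502) (nat_lit 456) (nat_lit 7504529559) (nat_lit 202) (nat_lit 5) (nat_lit 207) (nat_lit 5) (nat_lit 208) (nat_lit 5) (nat_lit 452) (nat_lit 406) (nat_lit 342)))) (XT.nd (nat_lit 156) (nat_lit 380) (nat_lit 0) (XT.nd (nat_lit 78) (nat_lit 380) (nat_lit 0) (XT.lf (nat_lit 0) (nat_lit 6387055695) (nat_lit 456) (nat_lit 1527501342) (nat_lit 76) (nat_lit 3195895829) (nat_lit 202) (nat_lit 5) (nat_lit 208) (nat_lit 5) (nat_lit 203) (nat_lit 5) (nat_lit 453) (nat_lit 406) (nat_lit 341)) (XT.lf (nat_lit 0) (nat_lit 5820175609) (nat_lit 380) (nat_lit 3643261959) (nat_lit 456) (nat_lit 1826064021) (nat_lit 197) (nat_lit 5) (nat_lit 202) (nat_lit 5) (nat_lit 203) (nat_lit 5) (nat_lit 454) (nat_lit 406) (nat_lit 340))) (XT.nd (nat_lit 78) (nat_lit 0) (nat_lit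 0) (XT.lf (nat_lit 0) (nat_lit 1142413939) (nat_lit 380) (nat_lit 9556969807) (nat_lit 76) (nat_lit 774001485) (nat_lit 192) (nat_lit 5) (nat_lit 197) (nat_lit 5) (nat_lit 193) (nat_lit 5) (nat_lit 455) (nat_lit 406) (nat_lit 339)) (XT.lf (nat_lit 0) (nat_lit 4220682242) (nat_lit 380) (nat_lit 2128579120) (nat_lit 76) (nat_lit 5311260630) (nat_lit 192) (nat_lit 5) (nat_lit 197) (nat_lit 5) (nat_lit 193) (nat_lit 5) (nat_lit 456) (nat_lit 406) (nat_lit 338))))))))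
noncomputable def xc111 : XT := (XT.nd (nat_lit 2418) (nat_lit 3496) (nat_lit 0) (XT.nd (nat_lit 1170) (nat_lit 2356) (nat_lit 0) (XT.nd (nat_lit 546) (nat_lit 1520) (nat_lit 0) (XT.nd (nat_lit 234) (nat_lit 988) (nat_lit 0) (XT.nd (nat_lit 78) (nat_lit 380) (nat_lit 0) (XT.lf (nat_lit 0) (nat_lit 5584454611) (nat_lit 380) (nat_lit 1827117303) (nat_lit 456) (nat_lit 4441094829) (nat_lit 187) (nat_lit 5) (nat_lit 192) (nat_lit 5) (nat_lit 193) (nat_lit 5) (nat_lit 457) (nat_lit 406) (nat_lit 337)) (XT.nd (nat_lit 78) (nat_lit 76) (nat_lit 0) (XT.lf (nat_lit 0) (nat_lit 1476394269) (nat_lit 304) (nat_lit 9251886725) (nat_lit 380) (nat_lit 1321394083) (nat_lit 183) (nat_lit 5) (nat_lit 187) (nat_lit 5) (nat_lit 188) (nat_lit 5) (nat_lit 458) (nat_lit 406) (nat_lit 336)) (XT.lf (nat_lit 0) (nat_lit 1904161691) (nat_lit 380) (nat_lit 2753530144) (nat_lit 76) (nat_lit 7592882701) (nat_lit 182) (nat_lit 5) (nat_lit 187)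 (nat_lit 5) (nat_lit 183) (nat_lit 5) (nat_lit 459) (nat_lit 406) (nat_lit 335)))) (XT.nd (nat_lit 156) (nat_lit 380) (nat_lit 0) (XT.nd (nat_lit 78) (nat_lit 304) (nat_lit 0) (XT.lf (nat_lit 0) (nat_lit 5220649131) (nat_lit 380) (nat_lit 7112067488) (nat_lit 76) (nat_lit 123772008) (nat_lit 178) (nat_lit 5) (nat_lit 183) (nat_lit 5) (nat_lit 179) (nat_lit 5) (nat_lit 460) (nat_lit 406) (nat_lit 334)) (XT.lf (nat_lit 0) (nat_lit 1000418967) (nat_lit 304) (nat_lit 7688496939) (nat_lit 380) (nat_lit 3978097492) (nat_lit 174) (nat_lit 5) (nat_lit 178) (nat_lit 5) (nat_lit 179) (nat_lit 5) (nat_lit 461) (nat_lit 406) (nat_lit 333))) (XT.nd (nat_lit 78) (nat_lit 380) (nat_lit 0) (XT.lf (nat_lit 0) (nat_lit 9455807085) (nat_lit 304) (nat_lit 2846186882) (nat_lit 380) (nat_lit 580638793) (nat_lit 174) (nat_lit 5) (nat_lit 178) (nat_lit 5) (nat_lit 179) (nat_lit 5) (nat_lit 462) (nat_lit 406) (nat_lit 332)) (XT.lf (nat_lit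 0) (nat_lit 2901427245) (nat_lit 380) (nat_lit 8038730737) (nat_lit 76) (nat_lit 2162533502) (nat_lit 169) (nat_lit 5) (nat_lit 174) (nat_lit 5) (nat_lit 170) (nat_lit 5) (nat_lit 463) (nat_lit 406) (nat_lit 331))))) (XT.nd (nat_lit 312) (nat_lit 836) (nat_lit 0) (XT.nd (nat_lit 156) (nat_lit 380) (nat_lit 0) (XT.nd (nat_lit 78) (nat_lit 0) (nat_lit 0) (XT.lf (nat_lit 0) (nat_lit 480677899) (nat_lit 304) (nat_lit 6033212877) (nat_lit 380) (nat_lit 6814162151) (nat_lit 165) (nat_lit 5) (nat_lit 169) (nat_lit 5) (nat_lit 170) (nat_lit 5) (nat_lit 464) (nat_lit 406) (nat_lit 330)) (XT.lf (nat_lit 0) (nat_lit 9375070481) (nat_lit 304) (nat_lit 911133102) (nat_lit 380) (nat_lit 3272428920) (nat_lit 165) (nat_lit 5) (nat_lit 169) (nat_lit 5) (nat_lit 170) (nat_lit 5) (nat_lit 465) (nat_lit 406) (nat_lit 329))) (XT.nd (nat_lit 78) (nat_lit 0) (nat_lit 0) (XT.lf (nat_lit 0) (nat_lit 427402283) (nat_lit 380) (nat_lit 9052523628)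 (nat_lit 76) (nat_lit 4314321484) (nat_lit 160) (nat_lit 5) (nat_lit 165) (nat_lit 5) (nat_lit 161) (nat_lit 5) (nat_lit 466) (nat_lit 406) (nat_lit 328)) (XT.lf (nat_lit 0) (nat_lit 4195293254) (nat_lit 380) (nat_lit 101895207) (nat_lit 76) (nat_lit 9738086562) (nat_lit 160) (nat_lit 5) (nat_lit 165) (nat_lit 5) (nat_lit 161) (nat_lit 5) (nat_lit 467) (nat_lit 406) (nat_lit 327)))) (XT.nd (nat_lit 156) (nat_lit 304) (nat_lit 0) (XT.nd (nat_lit 78) (nat_lit 304) (nat_lit 0) (XT.lf (nat_lit 0) (nat_lit 8147908493) (nat_lit 304) (nat_lit 5038219742) (nat_lit 76) (nat_lit 1095255996) (nat_lit 157) (nat_lit 5) (nat_lit 161) (nat_lit 5) (nat_lit 158) (nat_lit 5) (nat_lit 468) (nat_lit 406) (nat_lit 326)) (XT.lf (nat_lit 0) (nat_lit 4333970500) (nat_lit 304) (nat_lit 7942621402) (nat_lit 380) (nat_lit 2256561460) (nat_lit 153) (nat_lit 5) (nat_lit 157) (nat_lit 5) (nat_lit 158) (nat_lit 5) (nat_lit 469) (nat_lit 406)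 (nat_lit 325))) (XT.nd (nat_lit 78) (nat_lit 228) (nat_lit 0) (XT.lf (nat_lit 0) (nat_lit 1726513719) (nat_lit 380) (nat_lit 761526259) (nat_lit 76) (nat_lit 12303223777) (nat_lit 152) (nat_lit 5) (nat_lit 157) (nat_lit 5) (nat_lit 153) (nat_lit 5) (nat_lit 470) (nat_lit 406) (nat_lit 324)) (XT.lf (nat_lit 0) (nat_lit 5875112973) (nat_lit 304) (nat_lit 6014431827) (nat_lit 76) (nat_lit 3164162024) (nat_lit 149) (nat_lit 5) (nat_lit 153) (nat_lit 5) (nat_lit 150) (nat_lit 5) (nat_lit 471) (nat_lit 406) (nat_lit 323)))))) (XT.nd (nat_lit 624) (nat_lit 1064) (nat_lit 0) (XT.nd (nat_lit 312) (nat_lit 532) (nat_lit 0) (XT.nd (nat_lit 156) (nat_lit 532) (nat_lit 0) (XT.nd (nat_lit 78) (nat_lit 0) (nat_lit 0) (XT.lf (nat_lit 0) (nat_lit 3833077850) (nat_lit 228) (nat_lit 6357728394) (nat_lit 304) (nat_lit 5131939051) (nat_lit 146) (nat_lit 5) (nat_lit 149) (nat_lit 5) (nat_lit 150) (nat_lit 5) (nat_lit 472) (nat_lit 406)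 (nat_lit 322)) (XT.lf (nat_lit 0) (nat_lit 14056796179) (nat_lit 228) (nat_lit 613664581) (nat_lit 304) (nat_lit 928360600) (nat_lit 146) (nat_lit 5) (nat_lit 149) (nat_lit 5) (nat_lit 150) (nat_lit 5) (nat_lit 473) (nat_lit 406) (nat_lit 321))) (XT.nd (nat_lit 78) (nat_lit 228) (nat_lit 0) (XT.lf (nat_lit 0) (nat_lit 3445804304) (nat_lit 304) (nat_lit 7131099579) (nat_lit 76) (nat_lit 5301970508) (nat_lit 142) (nat_lit 5) (nat_lit 146) (nat_lit 5) (nat_lit 143) (nat_lit 5) (nat_lit 474) (nat_lit 406) (nat_lit 320)) (XT.lf (nat_lit 0) (nat_lit 3216377411) (nat_lit 228) (nat_lit 4743342456) (nat_lit 304) (nat_lit 8206518907) (nat_lit 139) (nat_lit 5) (nat_lit 142) (nat_lit 5) (nat_lit 143) (nat_lit 5) (nat_lit 475) (nat_lit 406) (nat_lit 319)))) (XT.nd (nat_lit 156) (nat_lit 228) (nat_lit 0) (XT.nd (nat_lit 78) (nat_lit 304) (nat_lit 0) (XT.lf (nat_lit 0) (nat_lit 12668590365) (nat_lit 304) (nat_lit 2494648221)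 (nat_lit 76) (nat_lit 1297200403) (nat_lit 139) (nat_lit 5) (nat_lit 143) (nat_lit 5) (nat_lit 140) (nat_lit 5) (nat_lit 476) (nat_lit 406) (nat_lit 318)) (XT.lf (nat_lit 0) (nat_lit 844151207) (nat_lit 304) (nat_lit 8419422929) (nat_lit 76) (nat_lit 7496565421) (nat_lit 135) (nat_lit 5) (nat_lit 139) (nat_lit 5) (nat_lit 136) (nat_lit 5) (nat_lit 477) (nat_lit 406) (nat_lit 317))) (XT.nd (nat_lit 78) (nat_lit 0) (nat_lit 0) (XT.lf (nat_lit 0) (nat_lit 2453256225) (nat_lit 228) (nat_lit 3114261338) (nat_lit 304) (nat_lit 11499453259) (nat_lit 132) (nat_lit 5) (nat_lit 135) (nat_lit 5) (nat_lit 136) (nat_lit 5) (nat_lit 478) (nat_lit 406) (nat_lit 316)) (XT.lf (nat_lit 0) (nat_lit 10525036581) (nat_lit 304) (nat_lit 3628735447) (nat_lit 76) (nat_lit 3226462357) (nat_lit 132) (nat_lit 5) (nat_lit 136) (nat_lit 5) (nat_lit 133) (nat_lit 5) (nat_lit 479) (nat_lit 406) (nat_lit 315))))) (XT.nd (nat_lit 312) (nat_lit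 456) (nat_lit 0) (XT.nd (nat_lit 156) (nat_lit 152) (nat_lit 0) (XT.nd (nat_lit 78) (nat_lit 304) (nat_lit 0) (XT.lf (nat_lit 0) (nat_lit 7766516563) (nat_lit 152) (nat_lit 7946606967) (nat_lit 228) (nat_lit 1987317940) (nat_lit 130) (nat_lit 5) (nat_lit 132) (nat_lit 5) (nat_lit 133) (nat_lit 5) (nat_lit 480) (nat_lit 406) (nat_lit 314)) (XT.lf (nat_lit 0) (nat_lit 1508768554) (nat_lit 228) (nat_lit 1486706802) (nat_lit 304) (nat_lit 15033069334) (nat_lit 126) (nat_lit 5) (nat_lit 129) (nat_lit 5) (nat_lit 130) (nat_lit 5) (nat_lit 481) (nat_lit 406) (nat_lit 313))) (XT.nd (nat_lit 78) (nat_lit 152) (nat_lit 0) (XT.lf (nat_lit 0) (nat_lit 8215359087) (nat_lit 304) (nat_lit 4975661954) (nat_lit 76) (nat_lit 5171053990) (nat_lit 126) (nat_lit 5) (nat_lit 130) (nat_lit 5) (nat_lit 127) (nat_lit 5) (nat_lit 482) (nat_lit 406) (nat_lit 312)) (XT.lf (nat_lit 0) (nat_lit 6997553748) (nat_lit 152) (nat_lit 6653527617)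 (nat_lit 228) (nat_lit 5052753442) (nat_lit 124) (nat_lit 5) (nat_lit 126) (nat_lit 5) (nat_lit 127) (nat_lit 5) (nat_lit 483) (nat_lit 406) (nat_lit 311)))) (XT.nd (nat_lit 156) (nat_lit 152) (nat_lit 0) (XT.nd (nat_lit 78) (nat_lit 0) (nat_lit 0) (XT.lf (nat_lit 0) (nat_lit 222769523) (nat_lit 304) (nat_lit 18713185938) (nat_lit 76) (nat_lit 118860870) (nat_lit 120) (nat_lit 5) (nat_lit 124) (nat_lit 5) (nat_lit 121) (nat_lit 5) (nat_lit 484) (nat_lit 406) (nat_lit 310)) (XT.lf (nat_lit 0) (nat_lit 5717716247) (nat_lit 304) (nat_lit 6578159033) (nat_lit 76) (nat_lit 7114070521) (nat_lit 120) (nat_lit 5) (nat_lit 124) (nat_lit 5) (nat_lit 121) (nat_lit 5) (nat_lit 485) (nat_lit 406) (nat_lit 309))) (XT.nd (nat_lit 78) (nat_lit 0) (nat_lit 0) (XT.lf (nat_lit 0) (nat_lit 5999891029) (nat_lit 152) (nat_lit 5413407598) (nat_lit 228) (nat_lit 8361357608) (nat_lit 118) (nat_lit 5) (nat_lit 120) (nat_lit 5) (nat_lit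 121) (nat_lit 5) (nat_lit 486) (nat_lit 406) (nat_lit 308)) (XT.lf (nat_lit 0) (nat_lit 17341171381) (nat_lit 228) (nat_lit 1113178356) (nat_lit 76) (nat_lit 1694116236) (nat_lit 118) (nat_lit 5) (nat_lit 121) (nat_lit 5) (nat_lit 119) (nat_lit 5) (nat_lit 487) (nat_lit 406) (nat_lit 307))))))) (XT.nd (nat_lit 1248) (nat_lit 1368) (nat_lit 0) (XT.nd (nat_lit 624) (nat_lit 912) (nat_lit 0) (XT.nd (nat_lit 312) (nat_lit 532) (nat_lit 0) (XT.nd (nat_lit 156) (nat_lit 228) (nat_lit 0) (XT.nd (nat_lit 78) (nat_lit 152) (nat_lit 0) (XT.lf (nat_lit 0) (nat_lit 3006528312) (nat_lit 304) (nat_lit 8485376727) (nat_lit 76) (nat_lit 9036245783) (nat_lit 114) (nat_lit 5) (nat_lit 118) (nat_lit 5) (nat_lit 115) (nat_lit 5) (nat_lit 488) (nat_lit 406) (nat_lit 306)) (XT.lf (nat_lit 0) (nat_lit 4724449470) (nat_lit 152) (nat_lit 4249580559) (nat_lit 228) (nat_lit 11943292319) (nat_lit 112) (nat_lit 5) (nat_lit 114) (nat_lit 5)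 (nat_lit 115) (nat_lit 5) (nat_lit 489) (nat_lit 406) (nat_lit 305))) (XT.nd (nat_lit 78) (nat_lit 228) (nat_lit 0) (XT.lf (nat_lit 0) (nat_lit 15216975360) (nat_lit 228) (nat_lit 2880068598) (nat_lit 76) (nat_lit 3218233108) (nat_lit 112) (nat_lit 5) (nat_lit 115) (nat_lit 5) (nat_lit 113) (nat_lit 5) (nat_lit 490) (nat_lit 406) (nat_lit 304)) (XT.lf (nat_lit 0) (nat_lit 51961938) (nat_lit 228) (nat_lit 10753990376) (nat_lit 76) (nat_lit 10915389101) (nat_lit 109) (nat_lit 5) (nat_lit 112) (nat_lit 5) (nat_lit 110) (nat_lit 5) (nat_lit 491) (nat_lit 406) (nat_lit 303)))) (XT.nd (nat_lit 156) (nat_lit 380) (nat_lit 0) (XT.nd (nat_lit 78) (nat_lit 0) (nat_lit 0) (XT.lf (nat_lit 0) (nat_lit 3114380499) (nat_lit 152) (nat_lit 3188779104) (nat_lit 228) (nat_lit 15833447388) (nat_lit 107) (nat_lit 5) (nat_lit 109) (nat_lit 5) (nat_lit 110) (nat_lit 5) (nat_lit 492) (nat_lit 406) (nat_lit 302)) (XT.lf (nat_lit 0) (nat_lit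 12876109862) (nat_lit 228) (nat_lit 5024001065) (nat_lit 76) (nat_lit 4660193643) (nat_lit 107) (nat_lit 5) (nat_lit 110) (nat_lit 5) (nat_lit 108) (nat_lit 5) (nat_lit 493) (nat_lit 406) (nat_lit 301))) (XT.nd (nat_lit 78) (nat_lit 228) (nat_lit 0) (XT.lf (nat_lit 0) (nat_lit 9512952508) (nat_lit 152) (nat_lit 10236683570) (nat_lit 228) (nat_lit 3243975894) (nat_lit 105) (nat_lit 5) (nat_lit 107) (nat_lit 5) (nat_lit 108) (nat_lit 5) (nat_lit 494) (nat_lit 406) (nat_lit 300)) (XT.lf (nat_lit 0) (nat_lit 1103736346) (nat_lit 152) (nat_lit 2261831900) (nat_lit 228) (nat_lit 20072105624) (nat_lit 102) (nat_lit 5) (nat_lit 104) (nat_lit 5) (nat_lit 105) (nat_lit 5) (nat_lit 495) (nat_lit 406) (nat_lit 299))))) (XT.nd (nat_lit 312) (nat_lit 532) (nat_lit 0) (XT.nd (nat_lit 156) (nat_lit 228) (nat_lit 0) (XT.nd (nat_lit 78) (nat_lit 152) (nat_lit 0) (XT.lf (nat_lit 0) (nat_lit 10283389372) (nat_lit 228) (nat_lit 7615060070)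 (nat_lit 76) (nat_lit 5990389360) (nat_lit 102) (nat_lit 5) (nat_lit 105) (nat_lit 5) (nat_lit 103) (nat_lit 5) (nat_lit 496) (nat_lit 406) (nat_lit 298)) (XT.lf (nat_lit 0) (nat_lit 7637651267) (nat_lit 152) (nat_lit 9847972534) (nat_lit 228) (nat_lit 6865608981) (nat_lit 100) (nat_lit 5) (nat_lit 102) (nat_lit 5) (nat_lit 103) (nat_lit 5) (nat_lit 497) (nat_lit 406) (nat_lit 297))) (XT.nd (nat_lit 78) (nat_lit 152) (nat_lit 0) (XT.lf (nat_lit 0) (nat_lit 133698949) (nat_lit 228) (nat_lit 1357058087) (nat_lit 76) (nat_lit 23334957034) (nat_lit 99) (nat_lit 5) (nat_lit 102) (nat_lit 5) (nat_lit 100) (nat_lit 5) (nat_lit 498) (nat_lit 406) (nat_lit 296)) (XT.lf (nat_lit 0) (nat_lit 7397758485) (nat_lit 228) (nat_lit 10734515494) (nat_lit 76) (nat_lit 7174334019) (nat_lit 97) (nat_lit 5) (nat_lit 100) (nat_lit 5) (nat_lit 98) (nat_lit 5) (nat_lit 499) (nat_lit 406) (nat_lit 295)))) (XT.nd (nat_lit 156) (nat_lit 380)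 (nat_lit 0) (XT.nd (nat_lit 78) (nat_lit 0) (nat_lit 0) (XT.lf (nat_lit 0) (nat_lit 5259671712) (nat_lit 152) (nat_lit 9680954475) (nat_lit 228) (nat_lit 10859476378) (nat_lit 95) (nat_lit 5) (nat_lit 97) (nat_lit 5) (nat_lit 98) (nat_lit 5) (nat_lit 500) (nat_lit 406) (nat_lit 294)) (XT.lf (nat_lit 0) (nat_lit 21920573761) (nat_lit 152) (nat_lit 879545103) (nat_lit 228) (nat_lit 3505573334) (nat_lit 95) (nat_lit 5) (nat_lit 97) (nat_lit 5) (nat_lit 98) (nat_lit 5) (nat_lit 501) (nat_lit 406) (nat_lit 293))) (XT.nd (nat_lit 78) (nat_lit 152) (nat_lit 0) (XT.lf (nat_lit 0) (nat_lit 4171398650) (nat_lit 228) (nat_lit 14476674786) (nat_lit 76) (nat_lit 8171747514) (nat_lit 92) (nat_lit 5) (nat_lit 95) (nat_lit 5) (nat_lit 93) (nat_lit 5) (nat_lit 502) (nat_lit 406) (nat_lit 292)) (XT.lf (nat_lit 0) (nat_lit 2283192469) (nat_lit 152) (nat_lit 9782761907) (nat_lit 228) (nat_lit 15280646299) (nat_lit 90) (nat_lit 5)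 (nat_lit 92) (nat_lit 5) (nat_lit 93) (nat_lit 5) (nat_lit 503) (nat_lit 406) (nat_lit 291)))))) (XT.nd (nat_lit 624) (nat_lit 684) (nat_lit 0) (XT.nd (nat_lit 312) (nat_lit 380) (nat_lit 0) (XT.nd (nat_lit 156) (nat_lit 152) (nat_lit 0) (XT.nd (nat_lit 78) (nat_lit 152) (nat_lit 0) (XT.lf (nat_lit 0) (nat_lit 19810323486) (nat_lit 152) (nat_lit 515770578) (nat_lit 228) (nat_lit 7559227663) (nat_lit 90) (nat_lit 5) (nat_lit 92) (nat_lit 5) (nat_lit 93) (nat_lit 5) (nat_lit 504) (nat_lit 406) (nat_lit 290)) (XT.lf (nat_lit 0) (nat_lit 548687764) (nat_lit 152) (nat_lit 18951026413) (nat_lit 76) (nat_lit 8935500815) (nat_lit 88) (nat_lit 5) (nat_lit 90) (nat_lit 5) (nat_lit 89) (nat_lit 5) (nat_lit 505) (nat_lit 406) (nat_lit 289))) (XT.nd (nat_lit 78) (nat_lit 152) (nat_lit 0) (XT.lf (nat_lit 0) (nat_lit 8818321735) (nat_lit 152) (nat_lit 1375983668) (nat_lit 76) (nat_lit 18802942238) (nat_lit 88) (nat_lit 5) (nat_lit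 90) (nat_lit 5) (nat_lit 89) (nat_lit 5) (nat_lit 506) (nat_lit 406) (nat_lit 288)) (XT.lf (nat_lit 0) (nat_lit 17027760387) (nat_lit 152) (nat_lit 455420383) (nat_lit 228) (nat_lit 12088546731) (nat_lit 86) (nat_lit 5) (nat_lit 88) (nat_lit 5) (nat_lit 89) (nat_lit 5) (nat_lit 507) (nat_lit 406) (nat_lit 287)))) (XT.nd (nat_lit 156) (nat_lit 228) (nat_lit 0) (XT.nd (nat_lit 78) (nat_lit 76) (nat_lit 0) (XT.lf (nat_lit 0) (nat_lit 5839691608) (nat_lit 76) (nat_lit 20714014949) (nat_lit 152) (nat_lit 3605363878) (nat_lit 85) (nat_lit 5) (nat_lit 86) (nat_lit 5) (nat_lit 87) (nat_lit 4) (nat_lit 508) (nat_lit 406) (nat_lit 286)) (XT.lf (nat_lit 0) (nat_lit 5148129165) (nat_lit 152) (nat_lit 5814233572) (nat_lit 76) (nat_lit 19796712219) (nat_lit 84) (nat_lit 5) (nat_lit 86) (nat_lit 5) (nat_lit 85) (nat_lit 5) (nat_lit 509) (nat_lit 406) (nat_lit 285))) (XT.nd (nat_lit 78) (nat_lit 76) (nat_lit 0) (XT.lf (nat_lit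 0) (nat_lit 13442683663) (nat_lit 152) (nat_lit 762309951) (nat_lit 228) (nat_lit 17167618452) (nat_lit 82) (nat_lit 5) (nat_lit 84) (nat_lit 5) (nat_lit 85) (nat_lit 5) (nat_lit 510) (nat_lit 406) (nat_lit 284)) (XT.lf (nat_lit 0) (nat_lit 1294672487) (nat_lit 76) (nat_lit 22388351278) (nat_lit 152) (nat_lit 8317048002) (nat_lit 81) (nat_lit 5) (nat_lit 82) (nat_lit 5) (nat_lit 83) (nat_lit 4) (nat_lit 511) (nat_lit 406) (nat_lit 283))))) (XT.nd (nat_lit 312) (nat_lit 380) (nat_lit 0) (XT.nd (nat_lit 156) (nat_lit 76) (nat_lit 0) (XT.nd (nat_lit 78) (nat_lit 152) (nat_lit 0) (XT.lf (nat_lit 0) (nat_lit 957924881) (nat_lit 152) (nat_lit 11224457497) (nat_lit 76) (nat_lit 20458508388) (nat_lit 80) (nat_lit 5) (nat_lit 82) (nat_lit 5) (nat_lit 81) (nat_lit 5) (nat_lit 512) (nat_lit 406) (nat_lit 282)) (XT.lf (nat_lit 0) (nat_lit 8903102778) (nat_lit 152) (nat_lit 1511005574) (nat_lit 228) (nat_lit 22882252047) (nat_lit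 78) (nat_lit 5) (nat_lit 80) (nat_lit 5) (nat_lit 81) (nat_lit 5) (nat_lit 513) (nat_lit 406) (nat_lit 281))) (XT.nd (nat_lit 78) (nat_lit 76) (nat_lit 0) (XT.lf (nat_lit 0) (nat_lit 20344162149) (nat_lit 228) (nat_lit 4225004178) (nat_lit 76) (nat_lit 9396622489) (nat_lit 78) (nat_lit 5) (nat_lit 81) (nat_lit 5) (nat_lit 79) (nat_lit 4) (nat_lit 514) (nat_lit 406) (nat_lit 280)) (XT.lf (nat_lit 0) (nat_lit 16833432926) (nat_lit 76) (nat_lit 13900492411) (nat_lit 152) (nat_lit 3916520749) (nat_lit 77) (nat_lit 5) (nat_lit 78) (nat_lit 5) (nat_lit 79) (nat_lit 4) (nat_lit 515) (nat_lit 406) (nat_lit 279)))) (XT.nd (nat_lit 156) (nat_lit 152) (nat_lit 0) (XT.nd (nat_lit 78) (nat_lit 0) (nat_lit 0) (XT.lf (nat_lit 0) (nat_lit 3231661397) (nat_lit 152) (nat_lit 2788643779) (nat_lit 228) (nat_lit 29331808722) (nat_lit 74) (nat_lit 5) (nat_lit 76) (nat_lit 5) (nat_lit 77) (nat_lit 5) (nat_lit 516) (nat_lit 406) (nat_lit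 278)) (XT.lf (nat_lit 0) (nat_lit 16426517864) (nat_lit 228) (nat_lit 10944618439) (nat_lit 76) (nat_lit 8695032326) (nat_lit 74) (nat_lit 5) (nat_lit 77) (nat_lit 5) (nat_lit 75) (nat_lit 4) (nat_lit 517) (nat_lit 406) (nat_lit 277))) (XT.nd (nat_lit 78) (nat_lit 76) (nat_lit 0) (XT.lf (nat_lit 0) (nat_lit 11026433357) (nat_lit 76) (nat_lit 16237610777) (nat_lit 152) (nat_lit 9534027261) (nat_lit 73) (nat_lit 5) (nat_lit 74) (nat_lit 5) (nat_lit 75) (nat_lit 4) (nat_lit 518) (nat_lit 406) (nat_lit 276)) (XT.lf (nat_lit 0) (nat_lit 954849467) (nat_lit 152) (nat_lit 3704777671) (nat_lit 76) (nat_lit 32889137408) (nat_lit 72) (nat_lit 5) (nat_lit 74) (nat_lit 5) (nat_lit 73) (nat_lit 5) (nat_lit 519) (nat_lit 406) (nat_lit 275))))))))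
noncomputable def xc112 : XT := (XT.nd (nat_lit 2418) (nat_lit 152) (nat_lit 0) (XT.nd (nat_lit 1170) (nat_lit 988) (nat_lit 0) (XT.nd (nat_lit 546) (nat_lit 532) (nat_lit 0) (XT.nd (nat_lit 234) (nat_lit 380) (nat_lit 0) (XT.nd (nat_lit 78) (nat_lit 76) (nat_lit 0) (XT.lf (nat_lit 0) (nat_lit 11810541145) (nat_lit 228) (nat_lit 19107425721) (nat_lit 76) (nat_lit 7393866733) (nat_lit 70) (nat_lit 5) (nat_lit 73) (nat_lit 5) (nat_lit 71) (nat_lit 4) (nat_lit 520) (nat_lit 406) (nat_lit 274)) (XT.nd (nat_lit 78) (nat_lit 0) (nat_lit 0) (XT.lf (nat_lit 0) (nat_lit 3780550999) (nat_lit 76) (nat_lit 19317603577) (nat_lit 152) (nat_lit 15996452800) (nat_lit 69) (nat_lit 5) (nat_lit 70) (nat_lit 5) (nat_lit 71) (nat_lit 4) (nat_lit 521) (nat_lit 406) (nat_lit 273)) (XT.lf (nat_lit 0) (nat_lit 27720257066) (nat_lit 76) (nat_lit 7183232914) (nat_lit 152) (nat_lit 4992001760) (nat_lit 69) (nat_lit 5) (nat_lit 70) (nat_lit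 5) (nat_lit 71) (nat_lit 4) (nat_lit 522) (nat_lit 406) (nat_lit 272)))) (XT.nd (nat_lit 156) (nat_lit 152) (nat_lit 0) (XT.nd (nat_lit 78) (nat_lit 0) (nat_lit 0) (XT.lf (nat_lit 0) (nat_lit 6371369795) (nat_lit 228) (nat_lit 28967304371) (nat_lit 76) (nat_lit 5375322966) (nat_lit 66) (nat_lit 5) (nat_lit 69) (nat_lit 5) (nat_lit 67) (nat_lit 4) (nat_lit 523) (nat_lit 406) (nat_lit 271)) (XT.lf (nat_lit 0) (nat_lit 18157036958) (nat_lit 228) (nat_lit 5065392782) (nat_lit 76) (nat_lit 18327693474) (nat_lit 66) (nat_lit 5) (nat_lit 69) (nat_lit 5) (nat_lit 67) (nat_lit 4) (nat_lit 524) (nat_lit 406) (nat_lit 270))) (XT.nd (nat_lit 78) (nat_lit 76) (nat_lit 0) (XT.lf (nat_lit 0) (nat_lit 19916869008) (nat_lit 76) (nat_lit 10557697434) (nat_lit 152) (nat_lit 11931418027) (nat_lit 65) (nat_lit 5) (nat_lit 66) (nat_lit 5) (nat_lit 67) (nat_lit 4) (nat_lit 525) (nat_lit 406) (nat_lit 269)) (XT.lf (nat_lit 0) (nat_lit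 2464747603) (nat_lit 76) (nat_lit 40782995120) (nat_lit 76) (nat_lit 37195366) (nat_lit 64) (nat_lit 4) (nat_lit 65) (nat_lit 5) (nat_lit 65) (nat_lit 4) (nat_lit 526) (nat_lit 406) (nat_lit 268))))) (XT.nd (nat_lit 312) (nat_lit 228) (nat_lit 0) (XT.nd (nat_lit 156) (nat_lit 152) (nat_lit 0) (XT.nd (nat_lit 78) (nat_lit 76) (nat_lit 0) (XT.lf (nat_lit 0) (nat_lit 12296270894) (nat_lit 152) (nat_lit 15804798601) (nat_lit 76) (nat_lit 16076046160) (nat_lit 63) (nat_lit 5) (nat_lit 65) (nat_lit 5) (nat_lit 64) (nat_lit 4) (nat_lit 527) (nat_lit 406) (nat_lit 267)) (XT.lf (nat_lit 0) (nat_lit 10133777567) (nat_lit 76) (nat_lit 14949887376) (nat_lit 152) (nat_lit 20009842558) (nat_lit 62) (nat_lit 5) (nat_lit 63) (nat_lit 5) (nat_lit 64) (nat_lit 4) (nat_lit 528) (nat_lit 406) (nat_lit 266))) (XT.nd (nat_lit 78) (nat_lit 152) (nat_lit 0) (XT.lf (nat_lit 0) (nat_lit 37150079917) (nat_lit 76) (nat_lit 1251594099) (nat_lit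 152) (nat_lit 7631307427) (nat_lit 62) (nat_lit 5) (nat_lit 63) (nat_lit 5) (nat_lit 64) (nat_lit 4) (nat_lit 529) (nat_lit 406) (nat_lit 265)) (XT.lf (nat_lit 0) (nat_lit 5307572839) (nat_lit 152) (nat_lit 28860591747) (nat_lit 76) (nat_lit 12822332926) (nat_lit 60) (nat_lit 5) (nat_lit 62) (nat_lit 5) (nat_lit 61) (nat_lit 4) (nat_lit 530) (nat_lit 406) (nat_lit 264)))) (XT.nd (nat_lit 156) (nat_lit 152) (nat_lit 0) (XT.nd (nat_lit 78) (nat_lit 76) (nat_lit 0) (XT.lf (nat_lit 0) (nat_lit 18571880941) (nat_lit 152) (nat_lit 1951668332) (nat_lit 76) (nat_lit 27448203897) (nat_lit 60) (nat_lit 5) (nat_lit 62) (nat_lit 5) (nat_lit 61) (nat_lit 4) (nat_lit 531) (nat_lit 406) (nat_lit 263)) (XT.lf (nat_lit 0) (nat_lit 26253551636) (nat_lit 76) (nat_lit 6220954298) (nat_lit 152) (nat_lit 16500729056) (nat_lit 59) (nat_lit 5) (nat_lit 60) (nat_lit 5) (nat_lit 61) (nat_lit 4) (nat_lit 532) (nat_lit 406) (nat_lit 262)))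 (XT.nd (nat_lit 78) (nat_lit 76) (nat_lit 0) (XT.lf (nat_lit 0) (nat_lit 5335523015) (nat_lit 76) (nat_lit 41599730547) (nat_lit 76) (nat_lit 3069336503) (nat_lit 58) (nat_lit 4) (nat_lit 59) (nat_lit 5) (nat_lit 59) (nat_lit 4) (nat_lit 533) (nat_lit 406) (nat_lit 261)) (XT.lf (nat_lit 0) (nat_lit 10836295243) (nat_lit 152) (nat_lit 16548371645) (nat_lit 76) (nat_lit 23668613786) (nat_lit 57) (nat_lit 5) (nat_lit 59) (nat_lit 5) (nat_lit 58) (nat_lit 4) (nat_lit 534) (nat_lit 406) (nat_lit 260)))))) (XT.nd (nat_lit 624) (nat_lit 456) (nat_lit 0) (XT.nd (nat_lit 312) (nat_lit 304) (nat_lit 0) (XT.nd (nat_lit 156) (nat_lit 152) (nat_lit 0) (XT.nd (nat_lit 78) (nat_lit 0) (nat_lit 0) (XT.lf (nat_lit 0) (nat_lit 12608978520) (nat_lit 76) (nat_lit 12598031542) (nat_lit 152) (nat_lit 26922222220) (nat_lit 56) (nat_lit 5) (nat_lit 57) (nat_lit 5) (nat_lit 58) (nat_lit 4) (nat_lit 535) (nat_lit 406) (nat_lit 259)) (XT.lf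 (nat_lit 0) (nat_lit 40191326362) (nat_lit 152) (nat_lit 10301772393) (nat_lit 0) (nat_lit 2738889389) (nat_lit 56) (nat_lit 5) (nat_lit 58) (nat_lit 4) (nat_lit 56) (nat_lit 4) (nat_lit 536) (nat_lit 406) (nat_lit 258))) (XT.nd (nat_lit 78) (nat_lit 0) (nat_lit 0) (XT.lf (nat_lit 0) (nat_lit 1541941373) (nat_lit 152) (nat_lit 34336206978) (nat_lit 76) (nat_lit 18480041902) (nat_lit 54) (nat_lit 5) (nat_lit 56) (nat_lit 5) (nat_lit 55) (nat_lit 4) (nat_lit 537) (nat_lit 406) (nat_lit 257)) (XT.lf (nat_lit 0) (nat_lit 16393738394) (nat_lit 152) (nat_lit 4200564845) (nat_lit 76) (nat_lit 34917187214) (nat_lit 54) (nat_lit 5) (nat_lit 56) (nat_lit 5) (nat_lit 55) (nat_lit 4) (nat_lit 538) (nat_lit 406) (nat_lit 256)))) (XT.nd (nat_lit 156) (nat_lit 152) (nat_lit 0) (XT.nd (nat_lit 78) (nat_lit 76) (nat_lit 0) (XT.lf (nat_lit 0) (nat_lit 27351524119) (nat_lit 76) (nat_lit 4591574576) (nat_lit 152) (nat_lit 24748730776)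 (nat_lit 53) (nat_lit 5) (nat_lit 54) (nat_lit 5) (nat_lit 55) (nat_lit 4) (nat_lit 539) (nat_lit 406) (nat_lit 255)) (XT.lf (nat_lit 0) (nat_lit 1931578926) (nat_lit 76) (nat_lit 46192176590) (nat_lit 76) (nat_lit 9778878762) (nat_lit 52) (nat_lit 4) (nat_lit 53) (nat_lit 5) (nat_lit 53) (nat_lit 4) (nat_lit 540) (nat_lit 406) (nat_lit 254))) (XT.nd (nat_lit 78) (nat_lit 76) (nat_lit 0) (XT.lf (nat_lit 0) (nat_lit 5863796967) (nat_lit 152) (nat_lit 24521789730) (nat_lit 76) (nat_lit 28752536560) (nat_lit 51) (nat_lit 5) (nat_lit 53) (nat_lit 5) (nat_lit 52) (nat_lit 4) (nat_lit 541) (nat_lit 406) (nat_lit 253)) (XT.lf (nat_lit 0) (nat_lit 7907691576) (nat_lit 76) (nat_lit 13936958368) (nat_lit 152) (nat_lit 38561159142) (nat_lit 50) (nat_lit 5) (nat_lit 51) (nat_lit 5) (nat_lit 52) (nat_lit 4) (nat_lit 542) (nat_lit 406) (nat_lit 252))))) (XT.nd (nat_lit 312) (nat_lit 228) (nat_lit 0) (XT.nd (nat_lit 156) (nat_lit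 152) (nat_lit 0) (XT.nd (nat_lit 78) (nat_lit 76) (nat_lit 0) (XT.lf (nat_lit 0) (nat_lit 38573331975) (nat_lit 152) (nat_lit 19943468472) (nat_lit 0) (nat_lit 3186673021) (nat_lit 50) (nat_lit 5) (nat_lit 52) (nat_lit 4) (nat_lit 50) (nat_lit 4) (nat_lit 543) (nat_lit 406) (nat_lit 251)) (XT.lf (nat_lit 0) (nat_lit 13696949133) (nat_lit 76) (nat_lit 42366328601) (nat_lit 76) (nat_lit 6969008028) (nat_lit 49) (nat_lit 4) (nat_lit 50) (nat_lit 5) (nat_lit 50) (nat_lit 4) (nat_lit 544) (nat_lit 406) (nat_lit 250))) (XT.nd (nat_lit 78) (nat_lit 76) (nat_lit 0) (XT.lf (nat_lit 0) (nat_lit 9681267285) (nat_lit 152) (nat_lit 15754699069) (nat_lit 76) (nat_lit 38956411313) (nat_lit 48) (nat_lit 5) (nat_lit 50) (nat_lit 5) (nat_lit 49) (nat_lit 4) (nat_lit 545) (nat_lit 406) (nat_lit 249)) (XT.lf (nat_lit 0) (nat_lit 19117838389) (nat_lit 76) (nat_lit 7746969317) (nat_lit 152) (nat_lit 38921179881) (nat_lit 47) (nat_lit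 5) (nat_lit 48) (nat_lit 5) (nat_lit 49) (nat_lit 4) (nat_lit 546) (nat_lit 406) (nat_lit 248)))) (XT.nd (nat_lit 156) (nat_lit 152) (nat_lit 0) (XT.nd (nat_lit 78) (nat_lit 76) (nat_lit 0) (XT.lf (nat_lit 0) (nat_lit 44815257299) (nat_lit 152) (nat_lit 11978959043) (nat_lit 0) (nat_lit 10419647446) (nat_lit 47) (nat_lit 5) (nat_lit 49) (nat_lit 4) (nat_lit 47) (nat_lit 4) (nat_lit 547) (nat_lit 406) (nat_lit 247)) (XT.lf (nat_lit 0) (nat_lit 24125970580) (nat_lit 76) (nat_lit 39477221632) (nat_lit 76) (nat_lit 5072414974) (nat_lit 46) (nat_lit 4) (nat_lit 47) (nat_lit 5) (nat_lit 47) (nat_lit 4) (nat_lit 548) (nat_lit 406) (nat_lit 246))) (XT.nd (nat_lit 78) (nat_lit 76) (nat_lit 0) (XT.lf (nat_lit 0) (nat_lit 12636826638) (nat_lit 152) (nat_lit 8760977520) (nat_lit 76) (nat_lit 48776339497) (nat_lit 45) (nat_lit 5) (nat_lit 47) (nat_lit 5) (nat_lit 46) (nat_lit 4) (nat_lit 549) (nat_lit 406) (nat_lit 245)) (XT.lf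 (nat_lit 0) (nat_lit 28590554589) (nat_lit 76) (nat_lit 2450311941) (nat_lit 152) (nat_lit 40667298945) (nat_lit 44) (nat_lit 5) (nat_lit 45) (nat_lit 5) (nat_lit 46) (nat_lit 4) (nat_lit 550) (nat_lit 406) (nat_lit 244))))))) (XT.nd (nat_lit 52182) (nat_lit 0) (nat_lit 18392) (XT.nd (nat_lit 51558) (nat_lit 0) (nat_lit 26980) (XT.nd (nat_lit 51246) (nat_lit 0) (nat_lit 28880) (XT.nd (nat_lit 78) (nat_lit 152) (nat_lit 0) (XT.lf (nat_lit 0) (nat_lit 50241068928) (nat_lit 152) (nat_lit 6226730320) (nat_lit 0) (nat_lit 16813087522) (nat_lit 44) (nat_lit 5) (nat_lit 46) (nat_lit 4) (nat_lit 44) (nat_lit 4) (nat_lit 551) (nat_lit 406) (nat_lit 243)) (XT.nd (nat_lit 78) (nat_lit 76) (nat_lit 0) (XT.lf (nat_lit 0) (nat_lit 32360137651) (nat_lit 76) (nat_lit 37983389634) (nat_lit 76) (nat_lit 4547474982) (nat_lit 43) (nat_lit 4) (nat_lit 44) (nat_lit 5) (nat_lit 44) (nat_lit 4) (nat_lit 552) (nat_lit 406) (nat_lit 242))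 (XT.lf (nat_lit 0) (nat_lit 14271126837) (nat_lit 152) (nat_lit 4473229350) (nat_lit 76) (nat_lit 57799250848) (nat_lit 42) (nat_lit 5) (nat_lit 44) (nat_lit 5) (nat_lit 43) (nat_lit 4) (nat_lit 553) (nat_lit 406) (nat_lit 241)))) (XT.nd (nat_lit 156) (nat_lit 0) (nat_lit 0) (XT.nd (nat_lit 78) (nat_lit 532) (nat_lit 0) (XT.lf (nat_lit 0) (nat_lit 2978639947) (nat_lit 532) (nat_lit 173119100) (nat_lit 532) (nat_lit 173119100) (nat_lit 429) (nat_lit 3) (nat_lit 436) (nat_lit 3) (nat_lit 436) (nat_lit 5) (nat_lit 407) (nat_lit 407) (nat_lit 386)) (XT.lf (nat_lit 0) (nat_lit 1610250449) (nat_lit 532) (nat_lit 3680047101) (nat_lit 608) (nat_lit 1390111023) (nat_lit 422) (nat_lit 5) (nat_lit 429) (nat_lit 3) (nat_lit 430) (nat_lit 5) (nat_lit 408) (nat_lit 407) (nat_lit 385))) (XT.nd (nat_lit 78) (nat_lit 0) (nat_lit 0) (XT.lf (nat_lit 0) (nat_lit 3882628440) (nat_lit 532) (nat_lit 312172978) (nat_lit 608) (nat_lit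 2519550979) (nat_lit 422) (nat_lit 5) (nat_lit 429) (nat_lit 3) (nat_lit 430) (nat_lit 5) (nat_lit 409) (nat_lit 407) (nat_lit 384)) (XT.lf (nat_lit 76) (nat_lit 3172168571) (nat_lit 0) (nat_lit 2995052003) (nat_lit 608) (nat_lit 583784604) (nat_lit 423) (nat_lit 5) (nat_lit 422) (nat_lit 5) (nat_lit 430) (nat_lit 5) (nat_lit 410) (nat_lit 407) (nat_lit 383))))) (XT.nd (nat_lit 312) (nat_lit 684) (nat_lit 0) (XT.nd (nat_lit 156) (nat_lit 608) (nat_lit 0) (XT.nd (nat_lit 78) (nat_lit 0) (nat_lit 0) (XT.lf (nat_lit 0) (nat_lit 1615765746) (nat_lit 608) (nat_lit 85620670) (nat_lit 684) (nat_lit 5089344144) (nat_lit 414) (nat_lit 5) (nat_lit 422) (nat_lit 5) (nat_lit 423) (nat_lit 5) (nat_lit 411) (nat_lit 407) (nat_lit 382)) (XT.lf (nat_lit 76) (nat_lit 3529147039) (nat_lit 0) (nat_lit 291607451) (nat_lit 684) (nat_lit 3012195167) (nat_lit 415) (nat_lit 5) (nat_lit 414) (nat_lit 5) (nat_lit 423) (nat_lit 5) (nat_lit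 412) (nat_lit 407) (nat_lit 381))) (XT.nd (nat_lit 78) (nat_lit 684) (nat_lit 0) (XT.lf (nat_lit 76) (nat_lit 324220665) (nat_lit 0) (nat_lit 5702382444) (nat_lit 684) (nat_lit 851801508) (nat_lit 416) (nat_lit 5) (nat_lit 415) (nat_lit 5) (nat_lit 424) (nat_lit 5) (nat_lit 413) (nat_lit 407) (nat_lit 380)) (XT.lf (nat_lit 0) (nat_lit 1303840561) (nat_lit 684) (nat_lit 2861590591) (nat_lit 760) (nat_lit 2760688904) (nat_lit 406) (nat_lit 5) (nat_lit 415) (nat_lit 5) (nat_lit 416) (nat_lit 5) (nat_lit 414) (nat_lit 407) (nat_lit 379)))) (XT.nd (nat_lit 156) (nat_lit 684) (nat_lit 0) (XT.nd (nat_lit 78) (nat_lit 0) (nat_lit 0) (XT.lf (nat_lit 76) (nat_lit 902652085) (nat_lit 0) (nat_lit 2536024454) (nat_lit 760) (nat_lit 3538397757) (nat_lit 407) (nat_lit 5) (nat_lit 406) (nat_lit 5) (nat_lit 416) (nat_lit 5) (nat_lit 415) (nat_lit 407) (nat_lit 378)) (XT.lf (nat_lit 76) (nat_lit 4790646658) (nat_lit 0) (nat_lit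 800559385) (nat_lit 760) (nat_lit 1439751082) (nat_lit 407) (nat_lit 5) (nat_lit 406) (nat_lit 5) (nat_lit 416) (nat_lit 5) (nat_lit 416) (nat_lit 407) (nat_lit 377))) (XT.nd (nat_lit 78) (nat_lit 0) (nat_lit 0) (XT.lf (nat_lit 0) (nat_lit 660161023) (nat_lit 760) (nat_lit 5411066077) (nat_lit 836) (nat_lit 1016458287) (nat_lit 397) (nat_lit 5) (nat_lit 407) (nat_lit 5) (nat_lit 408) (nat_lit 5) (nat_lit 417) (nat_lit 407) (nat_lit 376)) (XT.lf (nat_lit 0) (nat_lit 2753047353) (nat_lit 760) (nat_lit 1460718882) (nat_lit 836) (nat_lit 2933162797) (nat_lit 397) (nat_lit 5) (nat_lit 407) (nat_lit 5) (nat_lit 408) (nat_lit 5) (nat_lit 418) (nat_lit 407) (nat_lit 375)))))) (XT.nd (nat_lit 624) (nat_lit 5016) (nat_lit 0) (XT.nd (nat_lit 312) (nat_lit 1976) (nat_lit 0) (XT.nd (nat_lit 156) (nat_lit 1596) (nat_lit 0) (XT.nd (nat_lit 78) (nat_lit 0) (nat_lit 0) (XT.lf (nat_lit 76) (nat_lit 2610676666) (nat_lit 0) (nat_lit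 2253373368) (nat_lit 836) (nat_lit 2345248426) (nat_lit 398) (nat_lit 5) (nat_lit 397) (nat_lit 5) (nat_lit 408) (nat_lit 5) (nat_lit 419) (nat_lit 407) (nat_lit 374)) (XT.lf (nat_lit 76) (nat_lit 6786226186) (nat_lit 0) (nat_lit 198712611) (nat_lit 836) (nat_lit 290211615) (nat_lit 398) (nat_lit 5) (nat_lit 397) (nat_lit 5) (nat_lit 408) (nat_lit 5) (nat_lit 420) (nat_lit 407) (nat_lit 373))) (XT.nd (nat_lit 78) (nat_lit 836) (nat_lit 0) (XT.lf (nat_lit 0) (nat_lit 1779175353) (nat_lit 836) (nat_lit 3610684213) (nat_lit 76) (nat_lit 1952949092) (nat_lit 387) (nat_lit 5) (nat_lit 398) (nat_lit 5) (nat_lit 388) (nat_lit 5) (nat_lit 421) (nat_lit 407) (nat_lit 372)) (XT.lf (nat_lit 0) (nat_lit 635442642) (nat_lit 836) (nat_lit 3217223507) (nat_lit 912) (nat_lit 3561316078) (nat_lit 376) (nat_lit 5) (nat_lit 387) (nat_lit 5) (nat_lit 388) (nat_lit 5) (nat_lit 422) (nat_lit 407) (nat_lit 371)))) (XT.nd (nat_lit 156)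 (nat_lit 988) (nat_lit 0) (XT.nd (nat_lit 78) (nat_lit 988) (nat_lit 0) (XT.lf (nat_lit 0) (nat_lit 5033908608) (nat_lit 836) (nat_lit 927134927) (nat_lit 912) (nat_lit 1527074228) (nat_lit 376) (nat_lit 5) (nat_lit 387) (nat_lit 5) (nat_lit 388) (nat_lit 5) (nat_lit 423) (nat_lit 407) (nat_lit 370)) (XT.lf (nat_lit 0) (nat_lit 527775840) (nat_lit 988) (nat_lit 5595534516) (nat_lit 76) (nat_lit 1441889902) (nat_lit 363) (nat_lit 5) (nat_lit 376) (nat_lit 5) (nat_lit 364) (nat_lit 5) (nat_lit 424) (nat_lit 407) (nat_lit 369))) (XT.nd (nat_lit 78) (nat_lit 988) (nat_lit 0) (XT.lf (nat_lit 0) (nat_lit 2586724252) (nat_lit 988) (nat_lit 1142198964) (nat_lit 76) (nat_lit 3916030664) (nat_lit 363) (nat_lit 5) (nat_lit 376) (nat_lit 5) (nat_lit 364) (nat_lit 5) (nat_lit 425) (nat_lit 407) (nat_lit 368)) (XT.lf (nat_lit 0) (nat_lit 3463418961) (nat_lit 988) (nat_lit 1218031057) (nat_lit 1064) (nat_lit 3046436238) (nat_lit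 350) (nat_lit 5) (nat_lit 363) (nat_lit 5) (nat_lit 364) (nat_lit 5) (nat_lit 426) (nat_lit 407) (nat_lit 367))))) (XT.nd (nat_lit 312) (nat_lit 2736) (nat_lit 0) (XT.nd (nat_lit 156) (nat_lit 1140) (nat_lit 0) (XT.nd (nat_lit 78) (nat_lit 76) (nat_lit 0) (XT.lf (nat_lit 0) (nat_lit 361179429) (nat_lit 1064) (nat_lit 6448179961) (nat_lit 1140) (nat_lit 1004843182) (nat_lit 336) (nat_lit 5) (nat_lit 350) (nat_lit 5) (nat_lit 351) (nat_lit 5) (nat_lit 427) (nat_lit 407) (nat_lit 366)) (XT.lf (nat_lit 0) (nat_lit 1074831897) (nat_lit 1140) (nat_lit 2762758737) (nat_lit 76) (nat_lit 4065259171) (nat_lit 335) (nat_lit 5) (nat_lit 350) (nat_lit 5) (nat_lit 336) (nat_lit 5) (nat_lit 428) (nat_lit 407) (nat_lit 365))) (XT.nd (nat_lit 78) (nat_lit 0) (nat_lit 0) (XT.lf (nat_lit 0) (nat_lit 2048812831) (nat_lit 1140) (nat_lit 1111962376) (nat_lit 1216) (nat_lit 4834166245) (nat_lit 320) (nat_lit 5) (nat_lit 335) (nat_lit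 5) (nat_lit 336) (nat_lit 5) (nat_lit 429) (nat_lit 407) (nat_lit 364)) (XT.lf (nat_lit 0) (nat_lit 5299351524) (nat_lit 1216) (nat_lit 1094806950) (nat_lit 76) (nat_lit 1695941264) (nat_lit 320) (nat_lit 5) (nat_lit 336) (nat_lit 5) (nat_lit 321) (nat_lit 5) (nat_lit 430) (nat_lit 407) (nat_lit 363)))) (XT.nd (nat_lit 156) (nat_lit 608) (nat_lit 0) (XT.nd (nat_lit 78) (nat_lit 912) (nat_lit 0) (XT.lf (nat_lit 0) (nat_lit 3918341060) (nat_lit 1216) (nat_lit 3579586547) (nat_lit 1292) (nat_lit 690315261) (nat_lit 304) (nat_lit 5) (nat_lit 320) (nat_lit 5) (nat_lit 321) (nat_lit 5) (nat_lit 431) (nat_lit 407) (nat_lit 362)) (XT.lf (nat_lit 0) (nat_lit 766281934) (nat_lit 836) (nat_lit 644354192) (nat_lit 912) (nat_lit 6879286863) (nat_lit 292) (nat_lit 5) (nat_lit 303) (nat_lit 5) (nat_lit 304) (nat_lit 5) (nat_lit 432) (nat_lit 407) (nat_lit 361))) (XT.nd (nat_lit 78) (nat_lit 608) (nat_lit 0) (XT.lf (nat_lit 0)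 (nat_lit 3575942913) (nat_lit 912) (nat_lit 2433211130) (nat_lit 76) (nat_lit 2384843295) (nat_lit 292) (nat_lit 5) (nat_lit 304) (nat_lit 5) (nat_lit 293) (nat_lit 5) (nat_lit 433) (nat_lit 407) (nat_lit 360)) (XT.lf (nat_lit 0) (nat_lit 2809044539) (nat_lit 608) (nat_lit 2980827126) (nat_lit 684) (nat_lit 2711817141) (nat_lit 284) (nat_lit 5) (nat_lit 292) (nat_lit 5) (nat_lit 293) (nat_lit 5) (nat_lit 434) (nat_lit 407) (nat_lit 359))))))))
noncomputable def xc113 : XT := (XT.nd (nat_lit 2418) (nat_lit 4788) (nat_lit 0) (XT.nd (nat_lit 1170) (nat_lit 4104) (nat_lit 0) (XT.nd (nat_lit 546) (nat_lit 2508) (nat_lit 0) (XT.nd (nat_lit 234) (nat_lit 1216) (nat_lit 0) (XT.nd (nat_lit 78) (nat_lit 1216) (nat_lit 0) (XT.lf (nat_lit 0) (nat_lit 8047620607) (nat_lit 684) (nat_lit 405305097) (nat_lit 76) (nat_lit 160367876) (nat_lit 284) (nat_lit 5) (nat_lit 293) (nat_lit 5) (nat_lit 285) (nat_lit 5) (nat_lit 435) (nat_lit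 407) (nat_lit 358)) (XT.nd (nat_lit 78) (nat_lit 532) (nat_lit 0) (XT.lf (nat_lit 0) (nat_lit 1643900718) (nat_lit 684) (nat_lit 3682380953) (nat_lit 76) (nat_lit 3400560585) (nat_lit 275) (nat_lit 5) (nat_lit 284) (nat_lit 5) (nat_lit 276) (nat_lit 5) (nat_lit 436) (nat_lit 407) (nat_lit 357)) (XT.lf (nat_lit 0) (nat_lit 1802590797) (nat_lit 532) (nat_lit 2080390085) (nat_lit 608) (nat_lit 4961415064) (nat_lit 268) (nat_lit 5) (nat_lit 275) (nat_lit 5) (nat_lit 276) (nat_lit 5) (nat_lit 437) (nat_lit 407) (nat_lit 356)))) (XT.nd (nat_lit 156) (nat_lit 608) (nat_lit 0) (XT.nd (nat_lit 78) (nat_lit 608) (nat_lit 0) (XT.lf (nat_lit 0) (nat_lit 6192922516) (nat_lit 608) (nat_lit 1499441784) (nat_lit 76) (nat_lit 1273005391) (nat_lit 268) (nat_lit 5) (nat_lit 276) (nat_lit 5) (nat_lit 269) (nat_lit 5) (nat_lit 438) (nat_lit 407) (nat_lit 355)) (XT.lf (nat_lit 0) (nat_lit 4222277415) (nat_lit 608) (nat_lit 4366406437)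 (nat_lit 684) (nat_lit 500797149) (nat_lit 260) (nat_lit 5) (nat_lit 268) (nat_lit 5) (nat_lit 269) (nat_lit 5) (nat_lit 439) (nat_lit 407) (nat_lit 354))) (XT.nd (nat_lit 78) (nat_lit 0) (nat_lit 0) (XT.lf (nat_lit 0) (nat_lit 879747220) (nat_lit 532) (nat_lit 902853544) (nat_lit 608) (nat_lit 7434803804) (nat_lit 252) (nat_lit 5) (nat_lit 259) (nat_lit 5) (nat_lit 260) (nat_lit 5) (nat_lit 440) (nat_lit 407) (nat_lit 353)) (XT.lf (nat_lit 0) (nat_lit 4156192520) (nat_lit 608) (nat_lit 2529762388) (nat_lit 76) (nat_lit 2662113117) (nat_lit 252) (nat_lit 5) (nat_lit 260) (nat_lit 5) (nat_lit 253) (nat_lit 5) (nat_lit 441) (nat_lit 407) (nat_lit 352))))) (XT.nd (nat_lit 312) (nat_lit 988) (nat_lit 0) (XT.nd (nat_lit 156) (nat_lit 532) (nat_lit 0) (XT.nd (nat_lit 78) (nat_lit 456) (nat_lit 0) (XT.lf (nat_lit 0) (nat_lit 3462558786) (nat_lit 532) (nat_lit 3138431152) (nat_lit 608) (nat_lit 2881665062) (nat_lit 245)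 (nat_lit 5) (nat_lit 252) (nat_lit 5) (nat_lit 253) (nat_lit 5) (nat_lit 442) (nat_lit 407) (nat_lit 351)) (XT.lf (nat_lit 0) (nat_lit 11869040) (nat_lit 456) (nat_lit 9096611173) (nat_lit 532) (nat_lit 513122348) (nat_lit 239) (nat_lit 5) (nat_lit 245) (nat_lit 5) (nat_lit 246) (nat_lit 5) (nat_lit 443) (nat_lit 407) (nat_lit 350))) (XT.nd (nat_lit 78) (nat_lit 456) (nat_lit 0) (XT.lf (nat_lit 0) (nat_lit 1940166046) (nat_lit 532) (nat_lit 3514378688) (nat_lit 76) (nat_lit 4308083053) (nat_lit 238) (nat_lit 5) (nat_lit 245) (nat_lit 5) (nat_lit 239) (nat_lit 5) (nat_lit 444) (nat_lit 407) (nat_lit 349)) (XT.lf (nat_lit 0) (nat_lit 2764656965) (nat_lit 456) (nat_lit 1678673268) (nat_lit 532) (nat_lit 5464806567) (nat_lit 232) (nat_lit 5) (nat_lit 238) (nat_lit 5) (nat_lit 239) (nat_lit 5) (nat_lit 445) (nat_lit 407) (nat_lit 348)))) (XT.nd (nat_lit 156) (nat_lit 532) (nat_lit 0) (XT.nd (nat_lit 78) (nat_lit 456)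 (nat_lit 0) (XT.lf (nat_lit 0) (nat_lit 7039319806) (nat_lit 532) (nat_lit 823119617) (nat_lit 76) (nat_lit 2195042808) (nat_lit 232) (nat_lit 5) (nat_lit 239) (nat_lit 5) (nat_lit 233) (nat_lit 5) (nat_lit 446) (nat_lit 407) (nat_lit 347)) (XT.lf (nat_lit 0) (nat_lit 5734878442) (nat_lit 456) (nat_lit 4011846975) (nat_lit 532) (nat_lit 463579491) (nat_lit 226) (nat_lit 5) (nat_lit 232) (nat_lit 5) (nat_lit 233) (nat_lit 5) (nat_lit 447) (nat_lit 407) (nat_lit 346))) (XT.nd (nat_lit 78) (nat_lit 0) (nat_lit 0) (XT.lf (nat_lit 0) (nat_lit 2111760981) (nat_lit 456) (nat_lit 4352373) (nat_lit 532) (nat_lit 8251253486) (nat_lit 219) (nat_lit 5) (nat_lit 225) (nat_lit 5) (nat_lit 226) (nat_lit 5) (nat_lit 448) (nat_lit 407) (nat_lit 345)) (XT.lf (nat_lit 0) (nat_lit 4811791021) (nat_lit 532) (nat_lit 1632267636) (nat_lit 76) (nat_lit 4083509652) (nat_lit 219) (nat_lit 5) (nat_lit 226) (nat_lit 5) (nat_lit 220) (nat_lit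 5) (nat_lit 449) (nat_lit 407) (nat_lit 344)))))) (XT.nd (nat_lit 624) (nat_lit 1672) (nat_lit 0) (XT.nd (nat_lit 312) (nat_lit 1140) (nat_lit 0) (XT.nd (nat_lit 156) (nat_lit 456) (nat_lit 0) (XT.nd (nat_lit 78) (nat_lit 456) (nat_lit 0) (XT.lf (nat_lit 0) (nat_lit 5245370087) (nat_lit 380) (nat_lit 2357156747) (nat_lit 456) (nat_lit 3089625994) (nat_lit 214) (nat_lit 5) (nat_lit 219) (nat_lit 5) (nat_lit 220) (nat_lit 5) (nat_lit 450) (nat_lit 407) (nat_lit 343)) (XT.lf (nat_lit 0) (nat_lit 1465008529) (nat_lit 456) (nat_lit 9024743780) (nat_lit 532) (nat_lit 371542112) (nat_lit 208) (nat_lit 5) (nat_lit 214) (nat_lit 5) (nat_lit 215) (nat_lit 5) (nat_lit 451) (nat_lit 407) (nat_lit 342))) (XT.nd (nat_lit 78) (nat_lit 380) (nat_lit 0) (XT.lf (nat_lit 0) (nat_lit 2424062917) (nat_lit 532) (nat_lit 2432748740) (nat_lit 76) (nat_lit 6176700034) (nat_lit 207) (nat_lit 5) (nat_lit 214) (nat_lit 5) (nat_lit 208) (nat_lit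 5) (nat_lit 452) (nat_lit 407) (nat_lit 341)) (XT.lf (nat_lit 0) (nat_lit 4783264525) (nat_lit 380) (nat_lit 524293044) (nat_lit 456) (nat_lit 5902885227) (nat_lit 202) (nat_lit 5) (nat_lit 207) (nat_lit 5) (nat_lit 208) (nat_lit 5) (nat_lit 453) (nat_lit 407) (nat_lit 340)))) (XT.nd (nat_lit 156) (nat_lit 760) (nat_lit 0) (XT.nd (nat_lit 78) (nat_lit 0) (nat_lit 0) (XT.lf (nat_lit 0) (nat_lit 804740411) (nat_lit 380) (nat_lit 7509180638) (nat_lit 456) (nat_lit 3077672143) (nat_lit 197) (nat_lit 5) (nat_lit 202) (nat_lit 5) (nat_lit 203) (nat_lit 5) (nat_lit 454) (nat_lit 407) (nat_lit 339)) (XT.lf (nat_lit 0) (nat_lit 8333983862) (nat_lit 380) (nat_lit 3113044650) (nat_lit 456) (nat_lit 130055208) (nat_lit 197) (nat_lit 5) (nat_lit 202) (nat_lit 5) (nat_lit 203) (nat_lit 5) (nat_lit 455) (nat_lit 407) (nat_lit 338))) (XT.nd (nat_lit 78) (nat_lit 380) (nat_lit 0) (XT.lf (nat_lit 0) (nat_lit 2872259470) (nat_lit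 380) (nat_lit 7449043448) (nat_lit 76) (nat_lit 1445310840) (nat_lit 192) (nat_lit 5) (nat_lit 197) (nat_lit 5) (nat_lit 193) (nat_lit 5) (nat_lit 456) (nat_lit 407) (nat_lit 337)) (XT.lf (nat_lit 0) (nat_lit 135088355) (nat_lit 380) (nat_lit 5859700394) (nat_lit 456) (nat_lit 5966021568) (nat_lit 187) (nat_lit 5) (nat_lit 192) (nat_lit 5) (nat_lit 193) (nat_lit 5) (nat_lit 457) (nat_lit 407) (nat_lit 336))))) (XT.nd (nat_lit 312) (nat_lit 988) (nat_lit 0) (XT.nd (nat_lit 156) (nat_lit 304) (nat_lit 0) (XT.nd (nat_lit 78) (nat_lit 380) (nat_lit 0) (XT.lf (nat_lit 0) (nat_lit 8054084011) (nat_lit 380) (nat_lit 1200204492) (nat_lit 456) (nat_lit 2905247397) (nat_lit 187) (nat_lit 5) (nat_lit 192) (nat_lit 5) (nat_lit 193) (nat_lit 5) (nat_lit 458) (nat_lit 407) (nat_lit 335)) (XT.lf (nat_lit 0) (nat_lit 283327653) (nat_lit 380) (nat_lit 8523834042) (nat_lit 76) (nat_lit 3555767949) (nat_lit 182) (nat_lit 5) (nat_lit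 187) (nat_lit 5) (nat_lit 183) (nat_lit 5) (nat_lit 459) (nat_lit 407) (nat_lit 334))) (XT.nd (nat_lit 78) (nat_lit 304) (nat_lit 0) (XT.lf (nat_lit 0) (nat_lit 3531970859) (nat_lit 380) (nat_lit 551124318) (nat_lit 76) (nat_lit 8487784770) (nat_lit 182) (nat_lit 5) (nat_lit 187) (nat_lit 5) (nat_lit 183) (nat_lit 5) (nat_lit 460) (nat_lit 407) (nat_lit 333)) (XT.lf (nat_lit 0) (nat_lit 6930836321) (nat_lit 380) (nat_lit 5023212546) (nat_lit 76) (nat_lit 829438751) (nat_lit 178) (nat_lit 5) (nat_lit 183) (nat_lit 5) (nat_lit 179) (nat_lit 5) (nat_lit 461) (nat_lit 407) (nat_lit 332)))) (XT.nd (nat_lit 156) (nat_lit 608) (nat_lit 0) (XT.nd (nat_lit 78) (nat_lit 76) (nat_lit 0) (XT.lf (nat_lit 0) (nat_lit 3310077749) (nat_lit 304) (nat_lit 7169737160) (nat_lit 380) (nat_lit 2521215891) (nat_lit 174) (nat_lit 5) (nat_lit 178) (nat_lit 5) (nat_lit 179) (nat_lit 5) (nat_lit 462) (nat_lit 407) (nat_lit 331)) (XT.lf (nat_lit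 0) (nat_lit 914065421) (nat_lit 380) (nat_lit 1280689724) (nat_lit 76) (nat_lit 11029434357) (nat_lit 173) (nat_lit 5) (nat_lit 178) (nat_lit 5) (nat_lit 174) (nat_lit 5) (nat_lit 463) (nat_lit 407) (nat_lit 330))) (XT.nd (nat_lit 78) (nat_lit 304) (nat_lit 0) (XT.lf (nat_lit 0) (nat_lit 4473715299) (nat_lit 380) (nat_lit 6021414205) (nat_lit 76) (nat_lit 2956006615) (nat_lit 169) (nat_lit 5) (nat_lit 174) (nat_lit 5) (nat_lit 170) (nat_lit 5) (nat_lit 464) (nat_lit 407) (nat_lit 329)) (XT.lf (nat_lit 0) (nat_lit 2731434744) (nat_lit 304) (nat_lit 5441355456) (nat_lit 380) (nat_lit 5511123375) (nat_lit 165) (nat_lit 5) (nat_lit 169) (nat_lit 5) (nat_lit 170) (nat_lit 5) (nat_lit 465) (nat_lit 407) (nat_lit 328))))))) (XT.nd (nat_lit 1170) (nat_lit 2280) (nat_lit 0) (XT.nd (nat_lit 546) (nat_lit 1292) (nat_lit 0) (XT.nd (nat_lit 234) (nat_lit 608) (nat_lit 0) (XT.nd (nat_lit 78) (nat_lit 608) (nat_lit 0) (XT.lf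 (nat_lit 0) (nat_lit 11827523089) (nat_lit 304) (nat_lit 188123592) (nat_lit 380) (nat_lit 1907044856) (nat_lit 165) (nat_lit 5) (nat_lit 169) (nat_lit 5) (nat_lit 170) (nat_lit 5) (nat_lit 466) (nat_lit 407) (nat_lit 327)) (XT.nd (nat_lit 78) (nat_lit 228) (nat_lit 0) (XT.lf (nat_lit 0) (nat_lit 1861710013) (nat_lit 380) (nat_lit 7110685534) (nat_lit 76) (nat_lit 5192964729) (nat_lit 160) (nat_lit 5) (nat_lit 165) (nat_lit 5) (nat_lit 161) (nat_lit 5) (nat_lit 467) (nat_lit 407) (nat_lit 326)) (XT.lf (nat_lit 0) (nat_lit 2084672852) (nat_lit 228) (nat_lit 3636601516) (nat_lit 304) (nat_lit 8692987302) (nat_lit 157) (nat_lit 5) (nat_lit 160) (nat_lit 5) (nat_lit 161) (nat_lit 5) (nat_lit 468) (nat_lit 407) (nat_lit 325)))) (XT.nd (nat_lit 156) (nat_lit 304) (nat_lit 0) (XT.nd (nat_lit 78) (nat_lit 304) (nat_lit 0) (XT.lf (nat_lit 0) (nat_lit 9760064805) (nat_lit 304) (nat_lit 3027990830) (nat_lit 76) (nat_lit 1880672596)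 (nat_lit 157) (nat_lit 5) (nat_lit 161) (nat_lit 5) (nat_lit 158) (nat_lit 5) (nat_lit 469) (nat_lit 407) (nat_lit 324)) (XT.lf (nat_lit 0) (nat_lit 6604175163) (nat_lit 304) (nat_lit 7389169849) (nat_lit 380) (nat_lit 935285258) (nat_lit 153) (nat_lit 5) (nat_lit 157) (nat_lit 5) (nat_lit 158) (nat_lit 5) (nat_lit 470) (nat_lit 407) (nat_lit 323))) (XT.nd (nat_lit 78) (nat_lit 0) (nat_lit 0) (XT.lf (nat_lit 0) (nat_lit 1346120448) (nat_lit 228) (nat_lit 1767331502) (nat_lit 304) (nat_lit 12081435077) (nat_lit 149) (nat_lit 5) (nat_lit 152) (nat_lit 5) (nat_lit 153) (nat_lit 5) (nat_lit 471) (nat_lit 407) (nat_lit 322)) (XT.lf (nat_lit 0) (nat_lit 7362584098) (nat_lit 304) (nat_lit 4079595994) (nat_lit 76) (nat_lit 4023742806) (nat_lit 149) (nat_lit 5) (nat_lit 153) (nat_lit 5) (nat_lit 150) (nat_lit 5) (nat_lit 472) (nat_lit 407) (nat_lit 321))))) (XT.nd (nat_lit 312) (nat_lit 532) (nat_lit 0) (XT.nd (nat_lit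 156) (nat_lit 228) (nat_lit 0) (XT.nd (nat_lit 78) (nat_lit 304) (nat_lit 0) (XT.lf (nat_lit 0) (nat_lit 6042601044) (nat_lit 228) (nat_lit 5747090227) (nat_lit 304) (nat_lit 3953884666) (nat_lit 146) (nat_lit 5) (nat_lit 149) (nat_lit 5) (nat_lit 150) (nat_lit 5) (nat_lit 473) (nat_lit 407) (nat_lit 320)) (XT.lf (nat_lit 0) (nat_lit 336613261) (nat_lit 304) (nat_lit 15541042103) (nat_lit 76) (nat_lit 151127795) (nat_lit 142) (nat_lit 5) (nat_lit 146) (nat_lit 5) (nat_lit 143) (nat_lit 5) (nat_lit 474) (nat_lit 407) (nat_lit 319))) (XT.nd (nat_lit 78) (nat_lit 228) (nat_lit 0) (XT.lf (nat_lit 0) (nat_lit 4807398862) (nat_lit 304) (nat_lit 5276406124) (nat_lit 76) (nat_lit 6233636959) (nat_lit 142) (nat_lit 5) (nat_lit 146) (nat_lit 5) (nat_lit 143) (nat_lit 5) (nat_lit 475) (nat_lit 407) (nat_lit 318)) (XT.lf (nat_lit 0) (nat_lit 5361214524) (nat_lit 228) (nat_lit 4078560123) (nat_lit 304) (nat_lit 7174162846)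 (nat_lit 139) (nat_lit 5) (nat_lit 142) (nat_lit 5) (nat_lit 143) (nat_lit 5) (nat_lit 476) (nat_lit 407) (nat_lit 317)))) (XT.nd (nat_lit 156) (nat_lit 228) (nat_lit 0) (XT.nd (nat_lit 78) (nat_lit 304) (nat_lit 0) (XT.lf (nat_lit 0) (nat_lit 14261290170) (nat_lit 304) (nat_lit 552132267) (nat_lit 76) (nat_lit 2104401383) (nat_lit 139) (nat_lit 5) (nat_lit 143) (nat_lit 5) (nat_lit 140) (nat_lit 5) (nat_lit 477) (nat_lit 407) (nat_lit 316)) (XT.lf (nat_lit 0) (nat_lit 2077893593) (nat_lit 304) (nat_lit 6650332067) (nat_lit 76) (nat_lit 8498419290) (nat_lit 135) (nat_lit 5) (nat_lit 139) (nat_lit 5) (nat_lit 136) (nat_lit 5) (nat_lit 478) (nat_lit 407) (nat_lit 315))) (XT.nd (nat_lit 78) (nat_lit 0) (nat_lit 0) (XT.lf (nat_lit 0) (nat_lit 4528707132) (nat_lit 228) (nat_lit 2398300208) (nat_lit 304) (nat_lit 10616153767) (nat_lit 132) (nat_lit 5) (nat_lit 135) (nat_lit 5) (nat_lit 136) (nat_lit 5) (nat_lit 479)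 (nat_lit 407) (nat_lit 314)) (XT.lf (nat_lit 0) (nat_lit 12006073691) (nat_lit 304) (nat_lit 1766828853) (nat_lit 76) (nat_lit 4093736690) (nat_lit 132) (nat_lit 5) (nat_lit 136) (nat_lit 5) (nat_lit 133) (nat_lit 5) (nat_lit 480) (nat_lit 407) (nat_lit 313)))))) (XT.nd (nat_lit 624) (nat_lit 988) (nat_lit 0) (XT.nd (nat_lit 312) (nat_lit 684) (nat_lit 0) (XT.nd (nat_lit 156) (nat_lit 152) (nat_lit 0) (XT.nd (nat_lit 78) (nat_lit 304) (nat_lit 0) (XT.lf (nat_lit 0) (nat_lit 9950959457) (nat_lit 152) (nat_lit 7383661928) (nat_lit 228) (nat_lit 862287872) (nat_lit 130) (nat_lit 5) (nat_lit 132) (nat_lit 5) (nat_lit 133) (nat_lit 5) (nat_lit 481) (nat_lit 407) (nat_lit 312)) (XT.lf (nat_lit 0) (nat_lit 3509278013) (nat_lit 228) (nat_lit 722558401) (nat_lit 304) (nat_lit 14303129810) (nat_lit 126) (nat_lit 5) (nat_lit 129) (nat_lit 5) (nat_lit 130) (nat_lit 5) (nat_lit 482) (nat_lit 407) (nat_lit 311))) (XT.nd (nat_lit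 78) (nat_lit 152) (nat_lit 0) (XT.lf (nat_lit 0) (nat_lit 9582471309) (nat_lit 304) (nat_lit 3200750247) (nat_lit 76) (nat_lit 6096057442) (nat_lit 126) (nat_lit 5) (nat_lit 130) (nat_lit 5) (nat_lit 127) (nat_lit 5) (nat_lit 483) (nat_lit 407) (nat_lit 310)) (XT.lf (nat_lit 0) (nat_lit 9112797402) (nat_lit 152) (nat_lit 6054142593) (nat_lit 228) (nat_lit 4064782458) (nat_lit 124) (nat_lit 5) (nat_lit 126) (nat_lit 5) (nat_lit 127) (nat_lit 5) (nat_lit 484) (nat_lit 407) (nat_lit 309)))) (XT.nd (nat_lit 156) (nat_lit 380) (nat_lit 0) (XT.nd (nat_lit 78) (nat_lit 0) (nat_lit 0) (XT.lf (nat_lit 0) (nat_lit 1340317357) (nat_lit 304) (nat_lit 17340503666) (nat_lit 76) (nat_lit 912278402) (nat_lit 120) (nat_lit 5) (nat_lit 124) (nat_lit 5) (nat_lit 121) (nat_lit 5) (nat_lit 485) (nat_lit 407) (nat_lit 308)) (XT.lf (nat_lit 0) (nat_lit 6967757198) (nat_lit 304) (nat_lit 4897758318) (nat_lit 76) (nat_lit 8094338954) (nat_lit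 120) (nat_lit 5) (nat_lit 124) (nat_lit 5) (nat_lit 121) (nat_lit 5) (nat_lit 486) (nat_lit 407) (nat_lit 307))) (XT.nd (nat_lit 78) (nat_lit 228) (nat_lit 0) (XT.lf (nat_lit 0) (nat_lit 8039223976) (nat_lit 152) (nat_lit 4781443254) (nat_lit 228) (nat_lit 7515246184) (nat_lit 118) (nat_lit 5) (nat_lit 120) (nat_lit 5) (nat_lit 121) (nat_lit 5) (nat_lit 487) (nat_lit 407) (nat_lit 306)) (XT.lf (nat_lit 0) (nat_lit 695822536) (nat_lit 228) (nat_lit 18213637301) (nat_lit 304) (nat_lit 1811986071) (nat_lit 115) (nat_lit 5) (nat_lit 118) (nat_lit 5) (nat_lit 119) (nat_lit 5) (nat_lit 488) (nat_lit 407) (nat_lit 305))))) (XT.nd (nat_lit 312) (nat_lit 532) (nat_lit 0) (XT.nd (nat_lit 156) (nat_lit 228) (nat_lit 0) (XT.nd (nat_lit 78) (nat_lit 152) (nat_lit 0) (XT.lf (nat_lit 0) (nat_lit 4135378634) (nat_lit 304) (nat_lit 6908347537) (nat_lit 76) (nat_lit 10069078960) (nat_lit 114) (nat_lit 5) (nat_lit 118) (nat_lit 5)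 (nat_lit 115) (nat_lit 5) (nat_lit 489) (nat_lit 407) (nat_lit 304)) (XT.lf (nat_lit 0) (nat_lit 6679816676) (nat_lit 152) (nat_lit 3589270411) (nat_lit 228) (nat_lit 11244950155) (nat_lit 112) (nat_lit 5) (nat_lit 114) (nat_lit 5) (nat_lit 115) (nat_lit 5) (nat_lit 490) (nat_lit 407) (nat_lit 303))) (XT.nd (nat_lit 78) (nat_lit 228) (nat_lit 0) (XT.lf (nat_lit 0) (nat_lit 16676794280) (nat_lit 228) (nat_lit 1183105892) (nat_lit 76) (nat_lit 4064707088) (nat_lit 112) (nat_lit 5) (nat_lit 115) (nat_lit 5) (nat_lit 113) (nat_lit 5) (nat_lit 491) (nat_lit 407) (nat_lit 302)) (XT.lf (nat_lit 0) (nat_lit 1054422504) (nat_lit 228) (nat_lit 9290782214) (nat_lit 76) (nat_lit 11997722716) (nat_lit 109) (nat_lit 5) (nat_lit 112) (nat_lit 5) (nat_lit 110) (nat_lit 5) (nat_lit 492) (nat_lit 407) (nat_lit 301)))) (XT.nd (nat_lit 156) (nat_lit 380) (nat_lit 0) (XT.nd (nat_lit 78) (nat_lit 0) (nat_lit 0) (XT.lf (nat_lit 0) (nat_lit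 4976131672) (nat_lit 152) (nat_lit 2504870122) (nat_lit 228) (nat_lit 15290014604) (nat_lit 107) (nat_lit 5) (nat_lit 109) (nat_lit 5) (nat_lit 110) (nat_lit 5) (nat_lit 493) (nat_lit 407) (nat_lit 300)) (XT.lf (nat_lit 0) (nat_lit 14229617555) (nat_lit 228) (nat_lit 3436357181) (nat_lit 76) (nat_lit 5542096627) (nat_lit 107) (nat_lit 5) (nat_lit 110) (nat_lit 5) (nat_lit 108) (nat_lit 5) (nat_lit 494) (nat_lit 407) (nat_lit 299))) (XT.nd (nat_lit 78) (nat_lit 228) (nat_lit 0) (XT.lf (nat_lit 0) (nat_lit 11519662216) (nat_lit 152) (nat_lit 9778062149) (nat_lit 228) (nat_lit 2357003124) (nat_lit 105) (nat_lit 5) (nat_lit 107) (nat_lit 5) (nat_lit 108) (nat_lit 5) (nat_lit 495) (nat_lit 407) (nat_lit 298)) (XT.lf (nat_lit 0) (nat_lit 2860336556) (nat_lit 152) (nat_lit 1559741653) (nat_lit 228) (nat_lit 19692096151) (nat_lit 102) (nat_lit 5) (nat_lit 104) (nat_lit 5) (nat_lit 105) (nat_lit 5) (nat_lit 496) (nat_lit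 407) (nat_lit 297))))))))
noncomputable def xc114 : XT := (XT.nd (nat_lit 2418) (nat_lit 1444) (nat_lit 0) (XT.nd (nat_lit 1170) (nat_lit 1444) (nat_lit 0) (XT.nd (nat_lit 546) (nat_lit 760) (nat_lit 0) (XT.nd (nat_lit 234) (nat_lit 380) (nat_lit 0) (XT.nd (nat_lit 78) (nat_lit 380) (nat_lit 0) (XT.lf (nat_lit 0) (nat_lit 11524846489) (nat_lit 228) (nat_lit 6149612201) (nat_lit 76) (nat_lit 6903033856) (nat_lit 102) (nat_lit 5) (nat_lit 105) (nat_lit 5) (nat_lit 103) (nat_lit 5) (nat_lit 497) (nat_lit 407) (nat_lit 296)) (XT.nd (nat_lit 78) (nat_lit 228) (nat_lit 0) (XT.lf (nat_lit 0) (nat_lit 9544073616) (nat_lit 152) (nat_lit 9388024040) (nat_lit 228) (nat_lit 6121992861) (nat_lit 100) (nat_lit 5) (nat_lit 102) (nat_lit 5) (nat_lit 103) (nat_lit 5) (nat_lit 498) (nat_lit 407) (nat_lit 295)) (XT.lf (nat_lit 0) (nat_lit 253629960) (nat_lit 152) (nat_lit 790454486) (nat_lit 228) (nat_lit 24499188984) (nat_lit 97)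 (nat_lit 5) (nat_lit 99) (nat_lit 5) (nat_lit 100) (nat_lit 5) (nat_lit 499) (nat_lit 407) (nat_lit 294)))) (XT.nd (nat_lit 156) (nat_lit 228) (nat_lit 0) (XT.nd (nat_lit 78) (nat_lit 152) (nat_lit 0) (XT.lf (nat_lit 0) (nat_lit 8520055777) (nat_lit 228) (nat_lit 9406508238) (nat_lit 76) (nat_lit 8112211069) (nat_lit 97) (nat_lit 5) (nat_lit 100) (nat_lit 5) (nat_lit 98) (nat_lit 5) (nat_lit 500) (nat_lit 407) (nat_lit 293)) (XT.lf (nat_lit 0) (nat_lit 7051327695) (nat_lit 152) (nat_lit 9227363323) (nat_lit 228) (nat_lit 10268699613) (nat_lit 95) (nat_lit 5) (nat_lit 97) (nat_lit 5) (nat_lit 98) (nat_lit 5) (nat_lit 501) (nat_lit 407) (nat_lit 292))) (XT.nd (nat_lit 78) (nat_lit 228) (nat_lit 0) (XT.lf (nat_lit 0) (nat_lit 24164468480) (nat_lit 152) (nat_lit 183582149) (nat_lit 228) (nat_lit 2720875431) (nat_lit 95) (nat_lit 5) (nat_lit 97) (nat_lit 5) (nat_lit 98) (nat_lit 5) (nat_lit 502) (nat_lit 407) (nat_lit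 291)) (XT.lf (nat_lit 0) (nat_lit 5165867612) (nat_lit 228) (nat_lit 13304122956) (nat_lit 76) (nat_lit 9128327237) (nat_lit 92) (nat_lit 5) (nat_lit 95) (nat_lit 5) (nat_lit 93) (nat_lit 5) (nat_lit 503) (nat_lit 407) (nat_lit 290))))) (XT.nd (nat_lit 312) (nat_lit 304) (nat_lit 0) (XT.nd (nat_lit 156) (nat_lit 304) (nat_lit 0) (XT.nd (nat_lit 78) (nat_lit 0) (nat_lit 0) (XT.lf (nat_lit 0) (nat_lit 3942786866) (nat_lit 152) (nat_lit 9344447553) (nat_lit 228) (nat_lit 14853967794) (nat_lit 90) (nat_lit 5) (nat_lit 92) (nat_lit 5) (nat_lit 93) (nat_lit 5) (nat_lit 504) (nat_lit 407) (nat_lit 289)) (XT.lf (nat_lit 0) (nat_lit 21771873057) (nat_lit 228) (nat_lit 6749170071) (nat_lit 76) (nat_lit 175741434) (nat_lit 90) (nat_lit 5) (nat_lit 93) (nat_lit 5) (nat_lit 91) (nat_lit 4) (nat_lit 505) (nat_lit 407) (nat_lit 288))) (XT.nd (nat_lit 78) (nat_lit 152) (nat_lit 0) (XT.lf (nat_lit 0) (nat_lit 1404878618) (nat_lit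 152) (nat_lit 17955180737) (nat_lit 76) (nat_lit 9903004218) (nat_lit 88) (nat_lit 5) (nat_lit 90) (nat_lit 5) (nat_lit 89) (nat_lit 5) (nat_lit 506) (nat_lit 407) (nat_lit 287)) (XT.lf (nat_lit 0) (nat_lit 103569949) (nat_lit 152) (nat_lit 9795569075) (nat_lit 228) (nat_lit 19943522521) (nat_lit 86) (nat_lit 5) (nat_lit 88) (nat_lit 5) (nat_lit 89) (nat_lit 5) (nat_lit 507) (nat_lit 407) (nat_lit 286)))) (XT.nd (nat_lit 156) (nat_lit 228) (nat_lit 0) (XT.nd (nat_lit 78) (nat_lit 76) (nat_lit 0) (XT.lf (nat_lit 0) (nat_lit 18815858984) (nat_lit 228) (nat_lit 11394369710) (nat_lit 76) (nat_lit 224390104) (nat_lit 86) (nat_lit 5) (nat_lit 89) (nat_lit 5) (nat_lit 87) (nat_lit 4) (nat_lit 508) (nat_lit 407) (nat_lit 285)) (XT.lf (nat_lit 0) (nat_lit 7521373903) (nat_lit 76) (nat_lit 20632446434) (nat_lit 152) (nat_lit 2885902527) (nat_lit 85) (nat_lit 5) (nat_lit 86) (nat_lit 5) (nat_lit 87) (nat_lit 4) (nat_lit 509)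 (nat_lit 407) (nat_lit 284))) (XT.nd (nat_lit 78) (nat_lit 152) (nat_lit 0) (XT.lf (nat_lit 0) (nat_lit 6090410298) (nat_lit 152) (nat_lit 4510354152) (nat_lit 76) (nat_lit 21057433869) (nat_lit 84) (nat_lit 5) (nat_lit 86) (nat_lit 5) (nat_lit 85) (nat_lit 5) (nat_lit 510) (nat_lit 407) (nat_lit 283)) (XT.lf (nat_lit 0) (nat_lit 15309777399) (nat_lit 152) (nat_lit 100327633) (nat_lit 228) (nat_lit 16880303180) (nat_lit 82) (nat_lit 5) (nat_lit 84) (nat_lit 5) (nat_lit 85) (nat_lit 5) (nat_lit 511) (nat_lit 407) (nat_lit 282)))))) (XT.nd (nat_lit 624) (nat_lit 760) (nat_lit 0) (XT.nd (nat_lit 312) (nat_lit 380) (nat_lit 0) (XT.nd (nat_lit 156) (nat_lit 152) (nat_lit 0) (XT.nd (nat_lit 78) (nat_lit 76) (nat_lit 0) (XT.lf (nat_lit 0) (nat_lit 2799609085) (nat_lit 76) (nat_lit 22370663286) (nat_lit 152) (nat_lit 7766485836) (nat_lit 81) (nat_lit 5) (nat_lit 82) (nat_lit 5) (nat_lit 83) (nat_lit 4) (nat_lit 512) (nat_lit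 407) (nat_lit 281)) (XT.lf (nat_lit 0) (nat_lit 1748275529) (nat_lit 152) (nat_lit 10122626814) (nat_lit 76) (nat_lit 21726354526) (nat_lit 80) (nat_lit 5) (nat_lit 82) (nat_lit 5) (nat_lit 81) (nat_lit 5) (nat_lit 513) (nat_lit 407) (nat_lit 280))) (XT.nd (nat_lit 78) (nat_lit 0) (nat_lit 0) (XT.lf (nat_lit 0) (nat_lit 10594656696) (nat_lit 152) (nat_lit 884997697) (nat_lit 228) (nat_lit 22792991257) (nat_lit 78) (nat_lit 5) (nat_lit 80) (nat_lit 5) (nat_lit 81) (nat_lit 5) (nat_lit 514) (nat_lit 407) (nat_lit 279)) (XT.lf (nat_lit 0) (nat_lit 21691939540) (nat_lit 228) (nat_lit 2953100824) (nat_lit 76) (nat_lit 10317587010) (nat_lit 78) (nat_lit 5) (nat_lit 81) (nat_lit 5) (nat_lit 79) (nat_lit 4) (nat_lit 515) (nat_lit 407) (nat_lit 278)))) (XT.nd (nat_lit 156) (nat_lit 76) (nat_lit 0) (XT.nd (nat_lit 78) (nat_lit 228) (nat_lit 0) (XT.lf (nat_lit 0) (nat_lit 18723377104) (nat_lit 76) (nat_lit 13661852222) (nat_lit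 152) (nat_lit 3282840361) (nat_lit 77) (nat_lit 5) (nat_lit 78) (nat_lit 5) (nat_lit 79) (nat_lit 4) (nat_lit 516) (nat_lit 407) (nat_lit 277)) (XT.lf (nat_lit 0) (nat_lit 4714499778) (nat_lit 152) (nat_lit 2214802446) (nat_lit 228) (nat_lit 29461512902) (nat_lit 74) (nat_lit 5) (nat_lit 76) (nat_lit 5) (nat_lit 77) (nat_lit 5) (nat_lit 517) (nat_lit 407) (nat_lit 276))) (XT.nd (nat_lit 78) (nat_lit 76) (nat_lit 0) (XT.lf (nat_lit 0) (nat_lit 17632622323) (nat_lit 228) (nat_lit 9912344925) (nat_lit 76) (nat_lit 9581776928) (nat_lit 74) (nat_lit 5) (nat_lit 77) (nat_lit 5) (nat_lit 75) (nat_lit 4) (nat_lit 518) (nat_lit 407) (nat_lit 275)) (XT.lf (nat_lit 0) (nat_lit 12704499091) (nat_lit 76) (nat_lit 16082950112) (nat_lit 152) (nat_lit 9093389875) (nat_lit 73) (nat_lit 5) (nat_lit 74) (nat_lit 5) (nat_lit 75) (nat_lit 4) (nat_lit 519) (nat_lit 407) (nat_lit 274))))) (XT.nd (nat_lit 312) (nat_lit 456) (nat_lit 0)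 (XT.nd (nat_lit 156) (nat_lit 76) (nat_lit 0) (XT.nd (nat_lit 78) (nat_lit 152) (nat_lit 0) (XT.lf (nat_lit 0) (nat_lit 1675221635) (nat_lit 152) (nat_lit 2494113128) (nat_lit 76) (nat_lit 34485131543) (nat_lit 72) (nat_lit 5) (nat_lit 74) (nat_lit 5) (nat_lit 73) (nat_lit 5) (nat_lit 520) (nat_lit 407) (nat_lit 273)) (XT.lf (nat_lit 0) (nat_lit 12855023026) (nat_lit 228) (nat_lit 18357270480) (nat_lit 76) (nat_lit 8228181028) (nat_lit 70) (nat_lit 5) (nat_lit 73) (nat_lit 5) (nat_lit 71) (nat_lit 4) (nat_lit 521) (nat_lit 407) (nat_lit 272))) (XT.nd (nat_lit 78) (nat_lit 0) (nat_lit 0) (XT.lf (nat_lit 0) (nat_lit 5204371247) (nat_lit 76) (nat_lit 19269388105) (nat_lit 152) (nat_lit 15773197605) (nat_lit 69) (nat_lit 5) (nat_lit 70) (nat_lit 5) (nat_lit 71) (nat_lit 4) (nat_lit 522) (nat_lit 407) (nat_lit 271)) (XT.lf (nat_lit 0) (nat_lit 29824101397) (nat_lit 76) (nat_lit 6789270115) (nat_lit 152) (nat_lit 4459093096)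 (nat_lit 69) (nat_lit 5) (nat_lit 70) (nat_lit 5) (nat_lit 71) (nat_lit 4) (nat_lit 523) (nat_lit 407) (nat_lit 270)))) (XT.nd (nat_lit 156) (nat_lit 228) (nat_lit 0) (XT.nd (nat_lit 78) (nat_lit 0) (nat_lit 0) (XT.lf (nat_lit 0) (nat_lit 7230471319) (nat_lit 228) (nat_lit 28549362179) (nat_lit 76) (nat_lit 6135536647) (nat_lit 66) (nat_lit 5) (nat_lit 69) (nat_lit 5) (nat_lit 67) (nat_lit 4) (nat_lit 524) (nat_lit 407) (nat_lit 269)) (XT.lf (nat_lit 0) (nat_lit 19350253340) (nat_lit 228) (nat_lit 3967877553) (nat_lit 76) (nat_lit 19459033008) (nat_lit 66) (nat_lit 5) (nat_lit 69) (nat_lit 5) (nat_lit 67) (nat_lit 4) (nat_lit 525) (nat_lit 407) (nat_lit 268))) (XT.nd (nat_lit 78) (nat_lit 152) (nat_lit 0) (XT.lf (nat_lit 0) (nat_lit 21751602315) (nat_lit 76) (nat_lit 10278710874) (nat_lit 152) (nat_lit 11628597898) (nat_lit 65) (nat_lit 5) (nat_lit 66) (nat_lit 5) (nat_lit 67) (nat_lit 4) (nat_lit 526) (nat_lit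 407) (nat_lit 267)) (XT.lf (nat_lit 0) (nat_lit 609072875) (nat_lit 152) (nat_lit 40793059949) (nat_lit 76) (nat_lit 3161958174) (nat_lit 63) (nat_lit 5) (nat_lit 65) (nat_lit 5) (nat_lit 64) (nat_lit 4) (nat_lit 527) (nat_lit 407) (nat_lit 266))))))) (XT.nd (nat_lit 1170) (nat_lit 532) (nat_lit 0) (XT.nd (nat_lit 546) (nat_lit 532) (nat_lit 0) (XT.nd (nat_lit 234) (nat_lit 304) (nat_lit 0) (XT.nd (nat_lit 78) (nat_lit 76) (nat_lit 0) (XT.lf (nat_lit 0) (nat_lit 13292961461) (nat_lit 152) (nat_lit 15064022190) (nat_lit 76) (nat_lit 17126604425) (nat_lit 63) (nat_lit 5) (nat_lit 65) (nat_lit 5) (nat_lit 64) (nat_lit 4) (nat_lit 528) (nat_lit 407) (nat_lit 265)) (XT.nd (nat_lit 78) (nat_lit 0) (nat_lit 0) (XT.lf (nat_lit 0) (nat_lit 11640800279) (nat_lit 76) (nat_lit 14816455606) (nat_lit 152) (nat_lit 19970417638) (nat_lit 62) (nat_lit 5) (nat_lit 63) (nat_lit 5) (nat_lit 64) (nat_lit 4) (nat_lit 529) (nat_lit 407)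 (nat_lit 264)) (XT.lf (nat_lit 0) (nat_lit 39432552592) (nat_lit 76) (nat_lit 724162902) (nat_lit 152) (nat_lit 7239159080) (nat_lit 62) (nat_lit 5) (nat_lit 63) (nat_lit 5) (nat_lit 64) (nat_lit 4) (nat_lit 530) (nat_lit 407) (nat_lit 263)))) (XT.nd (nat_lit 156) (nat_lit 152) (nat_lit 0) (XT.nd (nat_lit 78) (nat_lit 0) (nat_lit 0) (XT.lf (nat_lit 0) (nat_lit 6074704948) (nat_lit 152) (nat_lit 28545243994) (nat_lit 76) (nat_lit 13762020149) (nat_lit 60) (nat_lit 5) (nat_lit 62) (nat_lit 5) (nat_lit 61) (nat_lit 4) (nat_lit 531) (nat_lit 407) (nat_lit 262)) (XT.lf (nat_lit 0) (nat_lit 19719236324) (nat_lit 152) (nat_lit 863455755) (nat_lit 76) (nat_lit 28810501698) (nat_lit 60) (nat_lit 5) (nat_lit 62) (nat_lit 5) (nat_lit 61) (nat_lit 4) (nat_lit 532) (nat_lit 407) (nat_lit 261))) (XT.nd (nat_lit 78) (nat_lit 76) (nat_lit 0) (XT.lf (nat_lit 0) (nat_lit 28176678040) (nat_lit 76) (nat_lit 5855987078) (nat_lit 152)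 (nat_lit 16394303359) (nat_lit 59) (nat_lit 5) (nat_lit 60) (nat_lit 5) (nat_lit 61) (nat_lit 4) (nat_lit 533) (nat_lit 407) (nat_lit 260)) (XT.lf (nat_lit 0) (nat_lit 6632077483) (nat_lit 76) (nat_lit 42294222664) (nat_lit 76) (nat_lit 2560932279) (nat_lit 58) (nat_lit 4) (nat_lit 59) (nat_lit 5) (nat_lit 59) (nat_lit 4) (nat_lit 534) (nat_lit 407) (nat_lit 259))))) (XT.nd (nat_lit 312) (nat_lit 228) (nat_lit 0) (XT.nd (nat_lit 156) (nat_lit 152) (nat_lit 0) (XT.nd (nat_lit 78) (nat_lit 76) (nat_lit 0) (XT.lf (nat_lit 0) (nat_lit 11733002263) (nat_lit 152) (nat_lit 15930053963) (nat_lit 76) (nat_lit 24904668977) (nat_lit 57) (nat_lit 5) (nat_lit 59) (nat_lit 5) (nat_lit 58) (nat_lit 4) (nat_lit 535) (nat_lit 407) (nat_lit 258)) (XT.lf (nat_lit 0) (nat_lit 14091087601) (nat_lit 76) (nat_lit 12437712636) (nat_lit 152) (nat_lit 27147336428) (nat_lit 56) (nat_lit 5) (nat_lit 57) (nat_lit 5) (nat_lit 58) (nat_lit 4)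 (nat_lit 536) (nat_lit 407) (nat_lit 257))) (XT.nd (nat_lit 78) (nat_lit 152) (nat_lit 0) (XT.lf (nat_lit 0) (nat_lit 41951196207) (nat_lit 152) (nat_lit 9527681654) (nat_lit 0) (nat_lit 3333440987) (nat_lit 56) (nat_lit 5) (nat_lit 58) (nat_lit 4) (nat_lit 56) (nat_lit 4) (nat_lit 537) (nat_lit 407) (nat_lit 256)) (XT.lf (nat_lit 0) (nat_lit 2141933234) (nat_lit 152) (nat_lit 34282743199) (nat_lit 76) (nat_lit 19547642769) (nat_lit 54) (nat_lit 5) (nat_lit 56) (nat_lit 5) (nat_lit 55) (nat_lit 4) (nat_lit 538) (nat_lit 407) (nat_lit 255)))) (XT.nd (nat_lit 156) (nat_lit 152) (nat_lit 0) (XT.nd (nat_lit 78) (nat_lit 76) (nat_lit 0) (XT.lf (nat_lit 0) (nat_lit 17423156002) (nat_lit 152) (nat_lit 3274591510) (nat_lit 76) (nat_lit 36462954879) (nat_lit 54) (nat_lit 5) (nat_lit 56) (nat_lit 5) (nat_lit 55) (nat_lit 4) (nat_lit 539) (nat_lit 407) (nat_lit 254)) (XT.lf (nat_lit 0) (nat_lit 29213746492) (nat_lit 76) (nat_lit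 4219605441) (nat_lit 152) (nat_lit 24943269135) (nat_lit 53) (nat_lit 5) (nat_lit 54) (nat_lit 5) (nat_lit 55) (nat_lit 4) (nat_lit 540) (nat_lit 407) (nat_lit 253))) (XT.nd (nat_lit 78) (nat_lit 76) (nat_lit 0) (XT.lf (nat_lit 0) (nat_lit 3031945541) (nat_lit 76) (nat_lit 47066766297) (nat_lit 76) (nat_lit 9525059812) (nat_lit 52) (nat_lit 4) (nat_lit 53) (nat_lit 5) (nat_lit 53) (nat_lit 4) (nat_lit 541) (nat_lit 407) (nat_lit 252)) (XT.lf (nat_lit 0) (nat_lit 6560592193) (nat_lit 152) (nat_lit 24235015242) (nat_lit 76) (nat_lit 30101028981) (nat_lit 51) (nat_lit 5) (nat_lit 53) (nat_lit 5) (nat_lit 52) (nat_lit 4) (nat_lit 542) (nat_lit 407) (nat_lit 251)))))) (XT.nd (nat_lit 624) (nat_lit 76) (nat_lit 0) (XT.nd (nat_lit 312) (nat_lit 228) (nat_lit 0) (XT.nd (nat_lit 156) (nat_lit 152) (nat_lit 0) (XT.nd (nat_lit 78) (nat_lit 0) (nat_lit 0) (XT.lf (nat_lit 0) (nat_lit 9157326697) (nat_lit 76) (nat_lit 13858104613)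 (nat_lit 152) (nat_lit 39187084815) (nat_lit 50) (nat_lit 5) (nat_lit 51) (nat_lit 5) (nat_lit 52) (nat_lit 4) (nat_lit 543) (nat_lit 407) (nat_lit 250)) (XT.lf (nat_lit 0) (nat_lit 40235598900) (nat_lit 152) (nat_lit 19548476894) (nat_lit 0) (nat_lit 3755346006) (nat_lit 50) (nat_lit 5) (nat_lit 52) (nat_lit 4) (nat_lit 50) (nat_lit 4) (nat_lit 544) (nat_lit 407) (nat_lit 249))) (XT.nd (nat_lit 78) (nat_lit 76) (nat_lit 0) (XT.lf (nat_lit 0) (nat_lit 15091415046) (nat_lit 76) (nat_lit 43153571853) (nat_lit 76) (nat_lit 6663269360) (nat_lit 49) (nat_lit 4) (nat_lit 50) (nat_lit 5) (nat_lit 50) (nat_lit 4) (nat_lit 545) (nat_lit 407) (nat_lit 248)) (XT.lf (nat_lit 0) (nat_lit 10461766597) (nat_lit 152) (nat_lit 15262673190) (nat_lit 76) (nat_lit 40585003835) (nat_lit 48) (nat_lit 5) (nat_lit 50) (nat_lit 5) (nat_lit 49) (nat_lit 4) (nat_lit 546) (nat_lit 407) (nat_lit 247)))) (XT.nd (nat_lit 156) (nat_lit 152) (nat_lit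 0) (XT.nd (nat_lit 78) (nat_lit 0) (nat_lit 0) (XT.lf (nat_lit 0) (nat_lit 20646582873) (nat_lit 76) (nat_lit 7509138785) (nat_lit 152) (nat_lit 39589293034) (nat_lit 47) (nat_lit 5) (nat_lit 48) (nat_lit 5) (nat_lit 49) (nat_lit 4) (nat_lit 547) (nat_lit 407) (nat_lit 246)) (XT.lf (nat_lit 0) (nat_lit 46634947980) (nat_lit 152) (nat_lit 11401200023) (nat_lit 0) (nat_lit 11179871378) (nat_lit 47) (nat_lit 5) (nat_lit 49) (nat_lit 4) (nat_lit 47) (nat_lit 4) (nat_lit 548) (nat_lit 407) (nat_lit 245))) (XT.nd (nat_lit 78) (nat_lit 76) (nat_lit 0) (XT.lf (nat_lit 0) (nat_lit 25777689961) (nat_lit 76) (nat_lit 40203909172) (nat_lit 76) (nat_lit 4740163699) (nat_lit 46) (nat_lit 4) (nat_lit 47) (nat_lit 5) (nat_lit 47) (nat_lit 4) (nat_lit 549) (nat_lit 407) (nat_lit 244)) (XT.lf (nat_lit 0) (nat_lit 13477068206) (nat_lit 152) (nat_lit 8113713393) (nat_lit 76) (nat_lit 50674749213) (nat_lit 45) (nat_lit 5) (nat_lit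 47) (nat_lit 5) (nat_lit 46) (nat_lit 4) (nat_lit 550) (nat_lit 407) (nat_lit 243))))) (XT.nd (nat_lit 51480) (nat_lit 0) (nat_lit 27436) (XT.nd (nat_lit 51324) (nat_lit 0) (nat_lit 28728) (XT.nd (nat_lit 78) (nat_lit 0) (nat_lit 0) (XT.lf (nat_lit 0) (nat_lit 30349442194) (nat_lit 76) (nat_lit 2079018539) (nat_lit 152) (nat_lit 41417255699) (nat_lit 44) (nat_lit 5) (nat_lit 45) (nat_lit 5) (nat_lit 46) (nat_lit 4) (nat_lit 551) (nat_lit 407) (nat_lit 242)) (XT.lf (nat_lit 0) (nat_lit 52195528107) (nat_lit 152) (nat_lit 5529464989) (nat_lit 0) (nat_lit 17740900590) (nat_lit 44) (nat_lit 5) (nat_lit 46) (nat_lit 4) (nat_lit 44) (nat_lit 4) (nat_lit 552) (nat_lit 407) (nat_lit 241))) (XT.nd (nat_lit 78) (nat_lit 0) (nat_lit 0) (XT.lf (nat_lit 0) (nat_lit 958713898) (nat_lit 0) (nat_lit 958713898) (nat_lit 532) (nat_lit 1438974942) (nat_lit 422) (nat_lit 5) (nat_lit 422) (nat_lit 3) (nat_lit 429) (nat_lit 3) (nat_lit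 408) (nat_lit 408) (nat_lit 384)) (XT.lf (nat_lit 0) (nat_lit 5309254929) (nat_lit 0) (nat_lit 744113827) (nat_lit 532) (nat_lit 695002367) (nat_lit 422) (nat_lit 5) (nat_lit 422) (nat_lit 3) (nat_lit 429) (nat_lit 3) (nat_lit 409) (nat_lit 408) (nat_lit 383)))) (XT.nd (nat_lit 156) (nat_lit 684) (nat_lit 0) (XT.nd (nat_lit 78) (nat_lit 0) (nat_lit 0) (XT.lf (nat_lit 0) (nat_lit 1462342016) (nat_lit 608) (nat_lit 4793731759) (nat_lit 684) (nat_lit 530316582) (nat_lit 414) (nat_lit 5) (nat_lit 422) (nat_lit 5) (nat_lit 423) (nat_lit 5) (nat_lit 410) (nat_lit 408) (nat_lit 382)) (XT.lf (nat_lit 0) (nat_lit 3609742525) (nat_lit 608) (nat_lit 1328950684) (nat_lit 684) (nat_lit 1888482299) (nat_lit 414) (nat_lit 5) (nat_lit 422) (nat_lit 5) (nat_lit 423) (nat_lit 5) (nat_lit 411) (nat_lit 408) (nat_lit 381))) (XT.nd (nat_lit 78) (nat_lit 684) (nat_lit 0) (XT.lf (nat_lit 76) (nat_lit 2238472909) (nat_lit 0) (nat_lit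 3524280639) (nat_lit 684) (nat_lit 1108205609) (nat_lit 415) (nat_lit 5) (nat_lit 414) (nat_lit 5) (nat_lit 423) (nat_lit 5) (nat_lit 412) (nat_lit 408) (nat_lit 380)) (XT.lf (nat_lit 0) (nat_lit 977878909) (nat_lit 684) (nat_lit 1031982775) (nat_lit 760) (nat_lit 4907867240) (nat_lit 405) (nat_lit 5) (nat_lit 414) (nat_lit 5) (nat_lit 415) (nat_lit 5) (nat_lit 413) (nat_lit 408) (nat_lit 379))))))))
noncomputable def xc115 : XT := (XT.nd (nat_lit 2418) (nat_lit 7296) (nat_lit 0) (XT.nd (nat_lit 1170) (nat_lit 7372) (nat_lit 0) (XT.nd (nat_lit 546) (nat_lit 3876) (nat_lit 0) (XT.nd (nat_lit 234) (nat_lit 760) (nat_lit 0) (XT.nd (nat_lit 78) (nat_lit 684) (nat_lit 0) (XT.lf (nat_lit 76) (nat_lit 2672938740) (nat_lit 0) (nat_lit 380130182) (nat_lit 760) (nat_lit 3914049489) (nat_lit 406) (nat_lit 5) (nat_lit 405) (nat_lit 5) (nat_lit 415) (nat_lit 5) (nat_lit 414) (nat_lit 408) (nat_lit 378)) (XT.nd (nat_lit 78)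 (nat_lit 760) (nat_lit 0) (XT.lf (nat_lit 0) (nat_lit 5138732541) (nat_lit 684) (nat_lit 567001254) (nat_lit 760) (nat_lit 1313818664) (nat_lit 406) (nat_lit 5) (nat_lit 415) (nat_lit 5) (nat_lit 416) (nat_lit 5) (nat_lit 415) (nat_lit 408) (nat_lit 377)) (XT.lf (nat_lit 0) (nat_lit 171613227) (nat_lit 760) (nat_lit 3789537606) (nat_lit 836) (nat_lit 3113484899) (nat_lit 396) (nat_lit 5) (nat_lit 406) (nat_lit 5) (nat_lit 407) (nat_lit 5) (nat_lit 416) (nat_lit 408) (nat_lit 376)))) (XT.nd (nat_lit 156) (nat_lit 760) (nat_lit 0) (XT.nd (nat_lit 78) (nat_lit 0) (nat_lit 0) (XT.lf (nat_lit 76) (nat_lit 69334385) (nat_lit 0) (nat_lit 2113291711) (nat_lit 836) (nat_lit 4950151085) (nat_lit 397) (nat_lit 5) (nat_lit 396) (nat_lit 5) (nat_lit 407) (nat_lit 5) (nat_lit 417) (nat_lit 408) (nat_lit 375)) (XT.lf (nat_lit 76) (nat_lit 4075586823) (nat_lit 0) (nat_lit 146653755) (nat_lit 836) (nat_lit 2971382524) (nat_lit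 397) (nat_lit 5) (nat_lit 396) (nat_lit 5) (nat_lit 407) (nat_lit 5) (nat_lit 418) (nat_lit 408) (nat_lit 374))) (XT.nd (nat_lit 78) (nat_lit 836) (nat_lit 0) (XT.lf (nat_lit 76) (nat_lit 898201755) (nat_lit 0) (nat_lit 5383804092) (nat_lit 836) (nat_lit 975527807) (nat_lit 398) (nat_lit 5) (nat_lit 397) (nat_lit 5) (nat_lit 408) (nat_lit 5) (nat_lit 419) (nat_lit 408) (nat_lit 373)) (XT.lf (nat_lit 0) (nat_lit 1025502314) (nat_lit 836) (nat_lit 2283594324) (nat_lit 912) (nat_lit 4014969681) (nat_lit 386) (nat_lit 5) (nat_lit 397) (nat_lit 5) (nat_lit 398) (nat_lit 5) (nat_lit 420) (nat_lit 408) (nat_lit 372))))) (XT.nd (nat_lit 312) (nat_lit 3040) (nat_lit 0) (XT.nd (nat_lit 156) (nat_lit 836) (nat_lit 0) (XT.nd (nat_lit 78) (nat_lit 0) (nat_lit 76) (XT.lf (nat_lit 76) (nat_lit 1895260756) (nat_lit 0) (nat_lit 1124990149) (nat_lit 912) (nat_lit 4373462889) (nat_lit 387) (nat_lit 5) (nat_lit 386) (nat_lit 5) (nat_lit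 398) (nat_lit 5) (nat_lit 421) (nat_lit 408) (nat_lit 371)) (XT.lf (nat_lit 0) (nat_lit 5045633449) (nat_lit 836) (nat_lit 1277607845) (nat_lit 76) (nat_lit 1143092871) (nat_lit 387) (nat_lit 5) (nat_lit 398) (nat_lit 5) (nat_lit 388) (nat_lit 5) (nat_lit 422) (nat_lit 408) (nat_lit 370))) (XT.nd (nat_lit 78) (nat_lit 76) (nat_lit 0) (XT.lf (nat_lit 0) (nat_lit 3071967551) (nat_lit 836) (nat_lit 4039014601) (nat_lit 912) (nat_lit 430781862) (nat_lit 376) (nat_lit 5) (nat_lit 387) (nat_lit 5) (nat_lit 388) (nat_lit 5) (nat_lit 423) (nat_lit 408) (nat_lit 369)) (XT.lf (nat_lit 0) (nat_lit 1539554649) (nat_lit 912) (nat_lit 103997735) (nat_lit 76) (nat_lit 5976874860) (nat_lit 375) (nat_lit 5) (nat_lit 387) (nat_lit 5) (nat_lit 376) (nat_lit 5) (nat_lit 424) (nat_lit 408) (nat_lit 368)))) (XT.nd (nat_lit 156) (nat_lit 1140) (nat_lit 0) (XT.nd (nat_lit 78) (nat_lit 988) (nat_lit 0) (XT.lf (nat_lit 0) (nat_lit 3552470805)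 (nat_lit 988) (nat_lit 3281470243) (nat_lit 76) (nat_lit 867623943) (nat_lit 363) (nat_lit 5) (nat_lit 376) (nat_lit 5) (nat_lit 364) (nat_lit 5) (nat_lit 425) (nat_lit 408) (nat_lit 367)) (XT.lf (nat_lit 0) (nat_lit 1257718765) (nat_lit 988) (nat_lit 4339922118) (nat_lit 1064) (nat_lit 2188346222) (nat_lit 350) (nat_lit 5) (nat_lit 363) (nat_lit 5) (nat_lit 364) (nat_lit 5) (nat_lit 426) (nat_lit 408) (nat_lit 366))) (XT.nd (nat_lit 78) (nat_lit 1140) (nat_lit 0) (XT.lf (nat_lit 0) (nat_lit 5953338673) (nat_lit 988) (nat_lit 1727631421) (nat_lit 1064) (nat_lit 192673709) (nat_lit 350) (nat_lit 5) (nat_lit 363) (nat_lit 5) (nat_lit 364) (nat_lit 5) (nat_lit 427) (nat_lit 408) (nat_lit 365)) (XT.lf (nat_lit 0) (nat_lit 1808133977) (nat_lit 1140) (nat_lit 5157831295) (nat_lit 76) (nat_lit 997984929) (nat_lit 335) (nat_lit 5) (nat_lit 350) (nat_lit 5) (nat_lit 336) (nat_lit 5) (nat_lit 428) (nat_lit 408) (nat_lit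 364)))))) (XT.nd (nat_lit 624) (nat_lit 2812) (nat_lit 0) (XT.nd (nat_lit 312) (nat_lit 2128) (nat_lit 0) (XT.nd (nat_lit 156) (nat_lit 1292) (nat_lit 0) (XT.nd (nat_lit 78) (nat_lit 1140) (nat_lit 0) (XT.lf (nat_lit 0) (nat_lit 3847781808) (nat_lit 1140) (nat_lit 409880721) (nat_lit 76) (nat_lit 3799770908) (nat_lit 335) (nat_lit 5) (nat_lit 350) (nat_lit 5) (nat_lit 336) (nat_lit 5) (nat_lit 429) (nat_lit 408) (nat_lit 363)) (XT.lf (nat_lit 0) (nat_lit 4522157987) (nat_lit 1140) (nat_lit 1417503546) (nat_lit 1216) (nat_lit 2214333733) (nat_lit 320) (nat_lit 5) (nat_lit 335) (nat_lit 5) (nat_lit 336) (nat_lit 5) (nat_lit 430) (nat_lit 408) (nat_lit 362))) (XT.nd (nat_lit 78) (nat_lit 76) (nat_lit 0) (XT.lf (nat_lit 0) (nat_lit 1320734311) (nat_lit 1216) (nat_lit 6753639762) (nat_lit 1292) (nat_lit 179682797) (nat_lit 304) (nat_lit 5) (nat_lit 320) (nat_lit 5) (nat_lit 321) (nat_lit 5) (nat_lit 431) (nat_lit 408)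 (nat_lit 361)) (XT.lf (nat_lit 0) (nat_lit 1878935088) (nat_lit 1292) (nat_lit 1940783424) (nat_lit 76) (nat_lit 4536844721) (nat_lit 303) (nat_lit 5) (nat_lit 320) (nat_lit 5) (nat_lit 304) (nat_lit 5) (nat_lit 432) (nat_lit 408) (nat_lit 360)))) (XT.nd (nat_lit 156) (nat_lit 1292) (nat_lit 0) (XT.nd (nat_lit 78) (nat_lit 0) (nat_lit 0) (XT.lf (nat_lit 0) (nat_lit 3215627687) (nat_lit 836) (nat_lit 761704702) (nat_lit 912) (nat_lit 4485314829) (nat_lit 292) (nat_lit 5) (nat_lit 303) (nat_lit 5) (nat_lit 304) (nat_lit 5) (nat_lit 433) (nat_lit 408) (nat_lit 359)) (XT.lf (nat_lit 0) (nat_lit 6133158047) (nat_lit 912) (nat_lit 75845345) (nat_lit 76) (nat_lit 2363080668) (nat_lit 292) (nat_lit 5) (nat_lit 304) (nat_lit 5) (nat_lit 293) (nat_lit 5) (nat_lit 434) (nat_lit 408) (nat_lit 358))) (XT.nd (nat_lit 78) (nat_lit 684) (nat_lit 0) (XT.lf (nat_lit 0) (nat_lit 5299850914) (nat_lit 608) (nat_lit 3065429450) (nat_lit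 684) (nat_lit 319179484) (nat_lit 284) (nat_lit 5) (nat_lit 292) (nat_lit 5) (nat_lit 293) (nat_lit 5) (nat_lit 435) (nat_lit 408) (nat_lit 357)) (XT.lf (nat_lit 0) (nat_lit 1803529644) (nat_lit 684) (nat_lit 6789919232) (nat_lit 76) (nat_lit 206952290) (nat_lit 275) (nat_lit 5) (nat_lit 284) (nat_lit 5) (nat_lit 276) (nat_lit 5) (nat_lit 436) (nat_lit 408) (nat_lit 356))))) (XT.nd (nat_lit 312) (nat_lit 1596) (nat_lit 0) (XT.nd (nat_lit 156) (nat_lit 684) (nat_lit 0) (XT.nd (nat_lit 78) (nat_lit 532) (nat_lit 0) (XT.lf (nat_lit 0) (nat_lit 4002864973) (nat_lit 684) (nat_lit 1363699661) (nat_lit 76) (nat_lit 3552584595) (nat_lit 275) (nat_lit 5) (nat_lit 284) (nat_lit 5) (nat_lit 276) (nat_lit 5) (nat_lit 437) (nat_lit 408) (nat_lit 355)) (XT.lf (nat_lit 0) (nat_lit 4262006019) (nat_lit 532) (nat_lit 2002961820) (nat_lit 608) (nat_lit 2776592266) (nat_lit 268) (nat_lit 5) (nat_lit 275) (nat_lit 5) (nat_lit 276)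 (nat_lit 5) (nat_lit 438) (nat_lit 408) (nat_lit 354))) (XT.nd (nat_lit 78) (nat_lit 76) (nat_lit 0) (XT.lf (nat_lit 0) (nat_lit 872761993) (nat_lit 608) (nat_lit 7715154960) (nat_lit 684) (nat_lit 579940739) (nat_lit 260) (nat_lit 5) (nat_lit 268) (nat_lit 5) (nat_lit 269) (nat_lit 5) (nat_lit 439) (nat_lit 408) (nat_lit 353)) (XT.lf (nat_lit 0) (nat_lit 1675375024) (nat_lit 684) (nat_lit 2588041590) (nat_lit 76) (nat_lit 5033278067) (nat_lit 259) (nat_lit 5) (nat_lit 268) (nat_lit 5) (nat_lit 260) (nat_lit 5) (nat_lit 440) (nat_lit 408) (nat_lit 352)))) (XT.nd (nat_lit 156) (nat_lit 1064) (nat_lit 0) (XT.nd (nat_lit 78) (nat_lit 0) (nat_lit 0) (XT.lf (nat_lit 0) (nat_lit 3302631709) (nat_lit 532) (nat_lit 674086113) (nat_lit 608) (nat_lit 5452809533) (nat_lit 252) (nat_lit 5) (nat_lit 259) (nat_lit 5) (nat_lit 260) (nat_lit 5) (nat_lit 441) (nat_lit 408) (nat_lit 351)) (XT.lf (nat_lit 0) (nat_lit 6361556403)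 (nat_lit 608) (nat_lit 218828069) (nat_lit 76) (nat_lit 2985530320) (nat_lit 252) (nat_lit 5) (nat_lit 260) (nat_lit 5) (nat_lit 253) (nat_lit 5) (nat_lit 442) (nat_lit 408) (nat_lit 350))) (XT.nd (nat_lit 78) (nat_lit 532) (nat_lit 0) (XT.lf (nat_lit 0) (nat_lit 5929862474) (nat_lit 532) (nat_lit 2911951700) (nat_lit 608) (nat_lit 863866803) (nat_lit 245) (nat_lit 5) (nat_lit 252) (nat_lit 5) (nat_lit 253) (nat_lit 5) (nat_lit 443) (nat_lit 408) (nat_lit 349)) (XT.lf (nat_lit 0) (nat_lit 1511192942) (nat_lit 532) (nat_lit 7454340708) (nat_lit 76) (nat_lit 883827442) (nat_lit 238) (nat_lit 5) (nat_lit 245) (nat_lit 5) (nat_lit 239) (nat_lit 5) (nat_lit 444) (nat_lit 408) (nat_lit 348))))))) (XT.nd (nat_lit 1248) (nat_lit 3040) (nat_lit 0) (XT.nd (nat_lit 624) (nat_lit 1900) (nat_lit 0) (XT.nd (nat_lit 312) (nat_lit 1368) (nat_lit 0) (XT.nd (nat_lit 156) (nat_lit 532) (nat_lit 0) (XT.nd (nat_lit 78) (nat_lit 456)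 (nat_lit 0) (XT.lf (nat_lit 0) (nat_lit 3968658125) (nat_lit 532) (nat_lit 1252232961) (nat_lit 76) (nat_lit 4775351498) (nat_lit 238) (nat_lit 5) (nat_lit 245) (nat_lit 5) (nat_lit 239) (nat_lit 5) (nat_lit 445) (nat_lit 408) (nat_lit 347)) (XT.lf (nat_lit 0) (nat_lit 5191962222) (nat_lit 456) (nat_lit 1320103489) (nat_lit 532) (nat_lit 3635101229) (nat_lit 232) (nat_lit 5) (nat_lit 238) (nat_lit 5) (nat_lit 239) (nat_lit 5) (nat_lit 446) (nat_lit 408) (nat_lit 346))) (XT.nd (nat_lit 78) (nat_lit 76) (nat_lit 0) (XT.lf (nat_lit 0) (nat_lit 1510446113) (nat_lit 456) (nat_lit 7637452674) (nat_lit 532) (nat_lit 1154239428) (nat_lit 226) (nat_lit 5) (nat_lit 232) (nat_lit 5) (nat_lit 233) (nat_lit 5) (nat_lit 447) (nat_lit 408) (nat_lit 345)) (XT.lf (nat_lit 0) (nat_lit 1400494061) (nat_lit 532) (nat_lit 2261817357) (nat_lit 76) (nat_lit 6798242339) (nat_lit 225) (nat_lit 5) (nat_lit 232) (nat_lit 5) (nat_lit 226)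 (nat_lit 5) (nat_lit 448) (nat_lit 408) (nat_lit 344)))) (XT.nd (nat_lit 156) (nat_lit 532) (nat_lit 0) (XT.nd (nat_lit 78) (nat_lit 380) (nat_lit 0) (XT.lf (nat_lit 0) (nat_lit 4020744522) (nat_lit 532) (nat_lit 6132342275) (nat_lit 76) (nat_lit 469932546) (nat_lit 219) (nat_lit 5) (nat_lit 226) (nat_lit 5) (nat_lit 220) (nat_lit 5) (nat_lit 449) (nat_lit 408) (nat_lit 343)) (XT.lf (nat_lit 0) (nat_lit 632949109) (nat_lit 380) (nat_lit 6116843877) (nat_lit 456) (nat_lit 4039662760) (nat_lit 214) (nat_lit 5) (nat_lit 219) (nat_lit 5) (nat_lit 220) (nat_lit 5) (nat_lit 450) (nat_lit 408) (nat_lit 342))) (XT.nd (nat_lit 78) (nat_lit 532) (nat_lit 0) (XT.lf (nat_lit 0) (nat_lit 7681997851) (nat_lit 380) (nat_lit 1906013465) (nat_lit 456) (nat_lit 1372057462) (nat_lit 214) (nat_lit 5) (nat_lit 219) (nat_lit 5) (nat_lit 220) (nat_lit 5) (nat_lit 451) (nat_lit 408) (nat_lit 341)) (XT.lf (nat_lit 0) (nat_lit 1375302883)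 (nat_lit 532) (nat_lit 7335253679) (nat_lit 76) (nat_lit 2424052221) (nat_lit 207) (nat_lit 5) (nat_lit 214) (nat_lit 5) (nat_lit 208) (nat_lit 5) (nat_lit 452) (nat_lit 408) (nat_lit 340))))) (XT.nd (nat_lit 312) (nat_lit 1064) (nat_lit 0) (XT.nd (nat_lit 156) (nat_lit 456) (nat_lit 0) (XT.nd (nat_lit 78) (nat_lit 380) (nat_lit 0) (XT.lf (nat_lit 0) (nat_lit 4196322311) (nat_lit 532) (nat_lit 234622313) (nat_lit 76) (nat_lit 6882470643) (nat_lit 207) (nat_lit 5) (nat_lit 214) (nat_lit 5) (nat_lit 208) (nat_lit 5) (nat_lit 453) (nat_lit 408) (nat_lit 339)) (XT.lf (nat_lit 0) (nat_lit 7138795243) (nat_lit 456) (nat_lit 4321245890) (nat_lit 76) (nat_lit 36442336) (nat_lit 202) (nat_lit 5) (nat_lit 208) (nat_lit 5) (nat_lit 203) (nat_lit 5) (nat_lit 454) (nat_lit 408) (nat_lit 338))) (XT.nd (nat_lit 78) (nat_lit 76) (nat_lit 0) (XT.lf (nat_lit 0) (nat_lit 3099953482) (nat_lit 380) (nat_lit 7113567545) (nat_lit 456)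 (nat_lit 1470205479) (nat_lit 197) (nat_lit 5) (nat_lit 202) (nat_lit 5) (nat_lit 203) (nat_lit 5) (nat_lit 455) (nat_lit 408) (nat_lit 337)) (XT.lf (nat_lit 0) (nat_lit 1486742232) (nat_lit 456) (nat_lit 1101876195) (nat_lit 76) (nat_lit 9287171128) (nat_lit 196) (nat_lit 5) (nat_lit 202) (nat_lit 5) (nat_lit 197) (nat_lit 5) (nat_lit 456) (nat_lit 408) (nat_lit 336)))) (XT.nd (nat_lit 156) (nat_lit 380) (nat_lit 0) (XT.nd (nat_lit 78) (nat_lit 380) (nat_lit 0) (XT.lf (nat_lit 0) (nat_lit 4556667534) (nat_lit 380) (nat_lit 5415341170) (nat_lit 76) (nat_lit 2099556498) (nat_lit 192) (nat_lit 5) (nat_lit 197) (nat_lit 5) (nat_lit 193) (nat_lit 5) (nat_lit 457) (nat_lit 408) (nat_lit 335)) (XT.lf (nat_lit 0) (nat_lit 2374185435) (nat_lit 380) (nat_lit 5373621183) (nat_lit 456) (nat_lit 4524535927) (nat_lit 187) (nat_lit 5) (nat_lit 192) (nat_lit 5) (nat_lit 193) (nat_lit 5) (nat_lit 458) (nat_lit 408) (nat_lit 334)))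 (XT.nd (nat_lit 78) (nat_lit 380) (nat_lit 0) (XT.lf (nat_lit 0) (nat_lit 10465652579) (nat_lit 380) (nat_lit 593618178) (nat_lit 456) (nat_lit 1419136578) (nat_lit 187) (nat_lit 5) (nat_lit 192) (nat_lit 5) (nat_lit 193) (nat_lit 5) (nat_lit 459) (nat_lit 408) (nat_lit 333)) (XT.lf (nat_lit 0) (nat_lit 1816763713) (nat_lit 380) (nat_lit 6561091073) (nat_lit 76) (nat_lit 4310126024) (nat_lit 182) (nat_lit 5) (nat_lit 187) (nat_lit 5) (nat_lit 183) (nat_lit 5) (nat_lit 460) (nat_lit 408) (nat_lit 332)))))) (XT.nd (nat_lit 624) (nat_lit 1368) (nat_lit 0) (XT.nd (nat_lit 312) (nat_lit 684) (nat_lit 0) (XT.nd (nat_lit 156) (nat_lit 684) (nat_lit 0) (XT.nd (nat_lit 78) (nat_lit 0) (nat_lit 0) (XT.lf (nat_lit 0) (nat_lit 1617752845) (nat_lit 304) (nat_lit 3516248582) (nat_lit 380) (nat_lit 7769036721) (nat_lit 178) (nat_lit 5) (nat_lit 182) (nat_lit 5) (nat_lit 183) (nat_lit 5) (nat_lit 461) (nat_lit 408) (nat_lit 331))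 (XT.lf (nat_lit 0) (nat_lit 8603147985) (nat_lit 380) (nat_lit 3003848627) (nat_lit 76) (nat_lit 1515980490) (nat_lit 178) (nat_lit 5) (nat_lit 183) (nat_lit 5) (nat_lit 179) (nat_lit 5) (nat_lit 462) (nat_lit 408) (nat_lit 330))) (XT.nd (nat_lit 78) (nat_lit 380) (nat_lit 0) (XT.lf (nat_lit 0) (nat_lit 5558165275) (nat_lit 304) (nat_lit 6678434056) (nat_lit 380) (nat_lit 1111109578) (nat_lit 174) (nat_lit 5) (nat_lit 178) (nat_lit 5) (nat_lit 179) (nat_lit 5) (nat_lit 463) (nat_lit 408) (nat_lit 329)) (XT.lf (nat_lit 0) (nat_lit 811141308) (nat_lit 304) (nat_lit 1552464228) (nat_lit 380) (nat_lit 11214569647) (nat_lit 169) (nat_lit 5) (nat_lit 173) (nat_lit 5) (nat_lit 174) (nat_lit 5) (nat_lit 464) (nat_lit 408) (nat_lit 328)))) (XT.nd (nat_lit 156) (nat_lit 380) (nat_lit 0) (XT.nd (nat_lit 78) (nat_lit 304) (nat_lit 0) (XT.lf (nat_lit 0) (nat_lit 6007912841) (nat_lit 380) (nat_lit 4073224079) (nat_lit 76) (nat_lit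 3731459468) (nat_lit 169) (nat_lit 5) (nat_lit 174) (nat_lit 5) (nat_lit 170) (nat_lit 5) (nat_lit 465) (nat_lit 408) (nat_lit 327)) (XT.lf (nat_lit 0) (nat_lit 4921339431) (nat_lit 304) (nat_lit 4876107282) (nat_lit 380) (nat_lit 4255528016) (nat_lit 165) (nat_lit 5) (nat_lit 169) (nat_lit 5) (nat_lit 170) (nat_lit 5) (nat_lit 466) (nat_lit 408) (nat_lit 326))) (XT.nd (nat_lit 78) (nat_lit 380) (nat_lit 0) (XT.lf (nat_lit 0) (nat_lit 13720346178) (nat_lit 380) (nat_lit 76146118) (nat_lit 76) (nat_lit 503483114) (nat_lit 165) (nat_lit 5) (nat_lit 170) (nat_lit 5) (nat_lit 166) (nat_lit 5) (nat_lit 467) (nat_lit 408) (nat_lit 325)) (XT.lf (nat_lit 0) (nat_lit 3257447884) (nat_lit 380) (nat_lit 5237651303) (nat_lit 76) (nat_lit 6054959347) (nat_lit 160) (nat_lit 5) (nat_lit 165) (nat_lit 5) (nat_lit 161) (nat_lit 5) (nat_lit 468) (nat_lit 408) (nat_lit 324))))) (XT.nd (nat_lit 312) (nat_lit 532) (nat_lit 0) (XT.nd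 (nat_lit 156) (nat_lit 608) (nat_lit 0) (XT.nd (nat_lit 78) (nat_lit 0) (nat_lit 0) (XT.lf (nat_lit 0) (nat_lit 4213113375) (nat_lit 228) (nat_lit 3000518669) (nat_lit 304) (nat_lit 7593371860) (nat_lit 157) (nat_lit 5) (nat_lit 160) (nat_lit 5) (nat_lit 161) (nat_lit 5) (nat_lit 469) (nat_lit 408) (nat_lit 323)) (XT.lf (nat_lit 0) (nat_lit 11342073138) (nat_lit 304) (nat_lit 1081526847) (nat_lit 76) (nat_lit 2646451734) (nat_lit 157) (nat_lit 5) (nat_lit 161) (nat_lit 5) (nat_lit 158) (nat_lit 5) (nat_lit 470) (nat_lit 408) (nat_lit 322))) (XT.nd (nat_lit 78) (nat_lit 228) (nat_lit 0) (XT.lf (nat_lit 0) (nat_lit 339146808) (nat_lit 380) (nat_lit 6521991775) (nat_lit 76) (nat_lit 8477059034) (nat_lit 152) (nat_lit 5) (nat_lit 157) (nat_lit 5) (nat_lit 153) (nat_lit 5) (nat_lit 471) (nat_lit 408) (nat_lit 321)) (XT.lf (nat_lit 0) (nat_lit 3409412005) (nat_lit 228) (nat_lit 1063192152) (nat_lit 304) (nat_lit 11140100128)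 (nat_lit 149) (nat_lit 5) (nat_lit 152) (nat_lit 5) (nat_lit 153) (nat_lit 5) (nat_lit 472) (nat_lit 408) (nat_lit 320)))) (XT.nd (nat_lit 156) (nat_lit 304) (nat_lit 0) (XT.nd (nat_lit 78) (nat_lit 228) (nat_lit 0) (XT.lf (nat_lit 0) (nat_lit 8819410094) (nat_lit 304) (nat_lit 2208140168) (nat_lit 76) (nat_lit 4865216634) (nat_lit 149) (nat_lit 5) (nat_lit 153) (nat_lit 5) (nat_lit 150) (nat_lit 5) (nat_lit 473) (nat_lit 408) (nat_lit 319)) (XT.lf (nat_lit 0) (nat_lit 8198175294) (nat_lit 228) (nat_lit 5164134832) (nat_lit 304) (nat_lit 2816951619) (nat_lit 146) (nat_lit 5) (nat_lit 149) (nat_lit 5) (nat_lit 150) (nat_lit 5) (nat_lit 474) (nat_lit 408) (nat_lit 318))) (XT.nd (nat_lit 78) (nat_lit 0) (nat_lit 0) (XT.lf (nat_lit 0) (nat_lit 1568284891) (nat_lit 304) (nat_lit 13998898179) (nat_lit 76) (nat_lit 905765838) (nat_lit 142) (nat_lit 5) (nat_lit 146) (nat_lit 5) (nat_lit 143) (nat_lit 5) (nat_lit 475) (nat_lit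 408) (nat_lit 317)) (XT.lf (nat_lit 0) (nat_lit 6137614256) (nat_lit 304) (nat_lit 3484819486) (nat_lit 76) (nat_lit 7148902582) (nat_lit 142) (nat_lit 5) (nat_lit 146) (nat_lit 5) (nat_lit 143) (nat_lit 5) (nat_lit 476) (nat_lit 408) (nat_lit 316))))))))
noncomputable def xc116 : XT := (XT.nd (nat_lit 2418) (nat_lit 2432) (nat_lit 0) (XT.nd (nat_lit 1170) (nat_lit 1824) (nat_lit 0) (XT.nd (nat_lit 546) (nat_lit 1064) (nat_lit 0) (XT.nd (nat_lit 234) (nat_lit 684) (nat_lit 0) (XT.nd (nat_lit 78) (nat_lit 304) (nat_lit 0) (XT.lf (nat_lit 0) (nat_lit 7452813322) (nat_lit 228) (nat_lit 3440164164) (nat_lit 304) (nat_lit 6184230197) (nat_lit 139) (nat_lit 5) (nat_lit 142) (nat_lit 5) (nat_lit 143) (nat_lit 5) (nat_lit 477) (nat_lit 408) (nat_lit 315)) (XT.nd (nat_lit 78) (nat_lit 76) (nat_lit 0) (XT.lf (nat_lit 0) (nat_lit 1359381134) (nat_lit 228) (nat_lit 14485846420) (nat_lit 304) (nat_lit 1545401762) (nat_lit 136)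 (nat_lit 5) (nat_lit 139) (nat_lit 5) (nat_lit 140) (nat_lit 5) (nat_lit 478) (nat_lit 408) (nat_lit 314)) (XT.lf (nat_lit 0) (nat_lit 3279280122) (nat_lit 304) (nat_lit 4944220812) (nat_lit 76) (nat_lit 9485728270) (nat_lit 135) (nat_lit 5) (nat_lit 139) (nat_lit 5) (nat_lit 136) (nat_lit 5) (nat_lit 479) (nat_lit 408) (nat_lit 313)))) (XT.nd (nat_lit 156) (nat_lit 304) (nat_lit 0) (XT.nd (nat_lit 78) (nat_lit 152) (nat_lit 0) (XT.lf (nat_lit 0) (nat_lit 6551507002) (nat_lit 228) (nat_lit 1707322483) (nat_lit 304) (nat_lit 9776863765) (nat_lit 132) (nat_lit 5) (nat_lit 135) (nat_lit 5) (nat_lit 136) (nat_lit 5) (nat_lit 480) (nat_lit 408) (nat_lit 312)) (XT.lf (nat_lit 0) (nat_lit 38557144) (nat_lit 152) (nat_lit 13426463220) (nat_lit 228) (nat_lit 4904614012) (nat_lit 130) (nat_lit 5) (nat_lit 132) (nat_lit 5) (nat_lit 133) (nat_lit 5) (nat_lit 481) (nat_lit 408) (nat_lit 311))) (XT.nd (nat_lit 78) (nat_lit 228)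 (nat_lit 0) (XT.lf (nat_lit 0) (nat_lit 224030714) (nat_lit 228) (nat_lit 6623535934) (nat_lit 76) (nat_lit 11862621588) (nat_lit 129) (nat_lit 5) (nat_lit 132) (nat_lit 5) (nat_lit 130) (nat_lit 5) (nat_lit 482) (nat_lit 408) (nat_lit 310)) (XT.lf (nat_lit 0) (nat_lit 5439648580) (nat_lit 304) (nat_lit 13601167371) (nat_lit 76) (nat_lit 17735935) (nat_lit 126) (nat_lit 5) (nat_lit 130) (nat_lit 5) (nat_lit 127) (nat_lit 5) (nat_lit 483) (nat_lit 408) (nat_lit 309))))) (XT.nd (nat_lit 312) (nat_lit 608) (nat_lit 0) (XT.nd (nat_lit 156) (nat_lit 304) (nat_lit 0) (XT.nd (nat_lit 78) (nat_lit 152) (nat_lit 0) (XT.lf (nat_lit 0) (nat_lit 10926266921) (nat_lit 304) (nat_lit 1483047082) (nat_lit 76) (nat_lit 7004617204) (nat_lit 126) (nat_lit 5) (nat_lit 130) (nat_lit 5) (nat_lit 127) (nat_lit 5) (nat_lit 484) (nat_lit 408) (nat_lit 308)) (XT.lf (nat_lit 0) (nat_lit 11182125372) (nat_lit 152) (nat_lit 5482641363) (nat_lit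 228) (nat_lit 3112587382) (nat_lit 124) (nat_lit 5) (nat_lit 126) (nat_lit 5) (nat_lit 127) (nat_lit 5) (nat_lit 485) (nat_lit 408) (nat_lit 307))) (XT.nd (nat_lit 78) (nat_lit 0) (nat_lit 0) (XT.lf (nat_lit 0) (nat_lit 2427623445) (nat_lit 304) (nat_lit 16037664906) (nat_lit 76) (nat_lit 1684157742) (nat_lit 120) (nat_lit 5) (nat_lit 124) (nat_lit 5) (nat_lit 121) (nat_lit 5) (nat_lit 486) (nat_lit 408) (nat_lit 306)) (XT.lf (nat_lit 0) (nat_lit 8193388523) (nat_lit 304) (nat_lit 3274735854) (nat_lit 76) (nat_lit 9059995324) (nat_lit 120) (nat_lit 5) (nat_lit 124) (nat_lit 5) (nat_lit 121) (nat_lit 5) (nat_lit 487) (nat_lit 408) (nat_lit 305)))) (XT.nd (nat_lit 156) (nat_lit 228) (nat_lit 0) (XT.nd (nat_lit 78) (nat_lit 228) (nat_lit 0) (XT.lf (nat_lit 0) (nat_lit 10033003407) (nat_lit 152) (nat_lit 4176119870) (nat_lit 228) (nat_lit 6706720959) (nat_lit 118) (nat_lit 5) (nat_lit 120) (nat_lit 5) (nat_lit 121)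 (nat_lit 5) (nat_lit 488) (nat_lit 408) (nat_lit 304)) (XT.lf (nat_lit 0) (nat_lit 2474841531) (nat_lit 228) (nat_lit 18000388511) (nat_lit 304) (nat_lit 837874068) (nat_lit 115) (nat_lit 5) (nat_lit 118) (nat_lit 5) (nat_lit 119) (nat_lit 5) (nat_lit 489) (nat_lit 408) (nat_lit 303))) (XT.nd (nat_lit 78) (nat_lit 152) (nat_lit 0) (XT.lf (nat_lit 0) (nat_lit 5238471449) (nat_lit 304) (nat_lit 5389148258) (nat_lit 76) (nat_lit 11089169806) (nat_lit 114) (nat_lit 5) (nat_lit 118) (nat_lit 5) (nat_lit 115) (nat_lit 5) (nat_lit 490) (nat_lit 408) (nat_lit 302)) (XT.lf (nat_lit 0) (nat_lit 8589734904) (nat_lit 152) (nat_lit 2954373761) (nat_lit 228) (nat_lit 10586313238) (nat_lit 112) (nat_lit 5) (nat_lit 114) (nat_lit 5) (nat_lit 115) (nat_lit 5) (nat_lit 491) (nat_lit 408) (nat_lit 301)))))) (XT.nd (nat_lit 624) (nat_lit 912) (nat_lit 0) (XT.nd (nat_lit 312) (nat_lit 532) (nat_lit 0) (XT.nd (nat_lit 156) (nat_lit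 152) (nat_lit 0) (XT.nd (nat_lit 78) (nat_lit 76) (nat_lit 0) (XT.lf (nat_lit 0) (nat_lit 471595793) (nat_lit 152) (nat_lit 17655751163) (nat_lit 228) (nat_lit 4426463885) (nat_lit 110) (nat_lit 5) (nat_lit 112) (nat_lit 5) (nat_lit 113) (nat_lit 5) (nat_lit 492) (nat_lit 408) (nat_lit 300)) (XT.lf (nat_lit 0) (nat_lit 2029501035) (nat_lit 228) (nat_lit 7886191632) (nat_lit 76) (nat_lit 13069193602) (nat_lit 109) (nat_lit 5) (nat_lit 112) (nat_lit 5) (nat_lit 110) (nat_lit 5) (nat_lit 493) (nat_lit 408) (nat_lit 299))) (XT.nd (nat_lit 78) (nat_lit 0) (nat_lit 0) (XT.lf (nat_lit 0) (nat_lit 6792226592) (nat_lit 152) (nat_lit 1845194514) (nat_lit 228) (nat_lit 14788741241) (nat_lit 107) (nat_lit 5) (nat_lit 109) (nat_lit 5) (nat_lit 110) (nat_lit 5) (nat_lit 494) (nat_lit 408) (nat_lit 298)) (XT.lf (nat_lit 0) (nat_lit 15568207842) (nat_lit 228) (nat_lit 1900873180) (nat_lit 76) (nat_lit 6407857287) (nat_lit 107)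 (nat_lit 5) (nat_lit 110) (nat_lit 5) (nat_lit 108) (nat_lit 5) (nat_lit 495) (nat_lit 408) (nat_lit 297)))) (XT.nd (nat_lit 156) (nat_lit 152) (nat_lit 0) (XT.nd (nat_lit 78) (nat_lit 228) (nat_lit 0) (XT.lf (nat_lit 0) (nat_lit 13487762341) (nat_lit 152) (nat_lit 9349637657) (nat_lit 228) (nat_lit 1499923561) (nat_lit 105) (nat_lit 5) (nat_lit 107) (nat_lit 5) (nat_lit 108) (nat_lit 5) (nat_lit 496) (nat_lit 408) (nat_lit 296)) (XT.lf (nat_lit 0) (nat_lit 4570699503) (nat_lit 152) (nat_lit 880786703) (nat_lit 228) (nat_lit 19357067121) (nat_lit 102) (nat_lit 5) (nat_lit 104) (nat_lit 5) (nat_lit 105) (nat_lit 5) (nat_lit 497) (nat_lit 408) (nat_lit 295))) (XT.nd (nat_lit 78) (nat_lit 152) (nat_lit 0) (XT.lf (nat_lit 0) (nat_lit 12749991862) (nat_lit 228) (nat_lit 4737437666) (nat_lit 76) (nat_lit 7800984345) (nat_lit 102) (nat_lit 5) (nat_lit 105) (nat_lit 5) (nat_lit 103) (nat_lit 5) (nat_lit 498) (nat_lit 408)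 (nat_lit 294)) (XT.lf (nat_lit 0) (nat_lit 11411405168) (nat_lit 152) (nat_lit 8957639434) (nat_lit 228) (nat_lit 5410578286) (nat_lit 100) (nat_lit 5) (nat_lit 102) (nat_lit 5) (nat_lit 103) (nat_lit 5) (nat_lit 499) (nat_lit 408) (nat_lit 293))))) (XT.nd (nat_lit 312) (nat_lit 532) (nat_lit 0) (XT.nd (nat_lit 156) (nat_lit 152) (nat_lit 0) (XT.nd (nat_lit 78) (nat_lit 0) (nat_lit 0) (XT.lf (nat_lit 0) (nat_lit 1844063019) (nat_lit 152) (nat_lit 98605867) (nat_lit 228) (nat_lit 24340865261) (nat_lit 97) (nat_lit 5) (nat_lit 99) (nat_lit 5) (nat_lit 100) (nat_lit 5) (nat_lit 500) (nat_lit 408) (nat_lit 292)) (XT.lf (nat_lit 0) (nat_lit 9624337380) (nat_lit 228) (nat_lit 8133379967) (nat_lit 76) (nat_lit 9036741534) (nat_lit 97) (nat_lit 5) (nat_lit 100) (nat_lit 5) (nat_lit 98) (nat_lit 5) (nat_lit 501) (nat_lit 408) (nat_lit 291))) (XT.nd (nat_lit 78) (nat_lit 0) (nat_lit 0) (XT.lf (nat_lit 0) (nat_lit 8802942775)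 (nat_lit 152) (nat_lit 8802874216) (nat_lit 228) (nat_lit 9712813899) (nat_lit 95) (nat_lit 5) (nat_lit 97) (nat_lit 5) (nat_lit 98) (nat_lit 5) (nat_lit 502) (nat_lit 408) (nat_lit 290)) (XT.lf (nat_lit 0) (nat_lit 25897554759) (nat_lit 228) (nat_lit 1476652023) (nat_lit 76) (nat_lit 482197217) (nat_lit 95) (nat_lit 5) (nat_lit 98) (nat_lit 5) (nat_lit 96) (nat_lit 4) (nat_lit 503) (nat_lit 408) (nat_lit 289)))) (XT.nd (nat_lit 156) (nat_lit 152) (nat_lit 0) (XT.nd (nat_lit 78) (nat_lit 152) (nat_lit 0) (XT.lf (nat_lit 0) (nat_lit 6140267716) (nat_lit 228) (nat_lit 12188634453) (nat_lit 76) (nat_lit 10072765515) (nat_lit 92) (nat_lit 5) (nat_lit 95) (nat_lit 5) (nat_lit 93) (nat_lit 5) (nat_lit 504) (nat_lit 408) (nat_lit 288)) (XT.lf (nat_lit 0) (nat_lit 5560833524) (nat_lit 152) (nat_lit 8934991922) (nat_lit 228) (nat_lit 14465297173) (nat_lit 90) (nat_lit 5) (nat_lit 92) (nat_lit 5) (nat_lit 93) (nat_lit 5)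 (nat_lit 505) (nat_lit 408) (nat_lit 287))) (XT.nd (nat_lit 78) (nat_lit 152) (nat_lit 0) (XT.lf (nat_lit 0) (nat_lit 23217849316) (nat_lit 228) (nat_lit 5478394651) (nat_lit 76) (nat_lit 837643568) (nat_lit 90) (nat_lit 5) (nat_lit 93) (nat_lit 5) (nat_lit 91) (nat_lit 4) (nat_lit 506) (nat_lit 408) (nat_lit 286)) (XT.lf (nat_lit 0) (nat_lit 2238551248) (nat_lit 152) (nat_lit 17019261301) (nat_lit 76) (nat_lit 10859382100) (nat_lit 88) (nat_lit 5) (nat_lit 90) (nat_lit 5) (nat_lit 89) (nat_lit 5) (nat_lit 507) (nat_lit 408) (nat_lit 285))))))) (XT.nd (nat_lit 1170) (nat_lit 1064) (nat_lit 0) (XT.nd (nat_lit 546) (nat_lit 760) (nat_lit 0) (XT.nd (nat_lit 234) (nat_lit 380) (nat_lit 0) (XT.nd (nat_lit 78) (nat_lit 76) (nat_lit 0) (XT.lf (nat_lit 0) (nat_lit 1566795289) (nat_lit 152) (nat_lit 9411825563) (nat_lit 228) (nat_lit 19735830703) (nat_lit 86) (nat_lit 5) (nat_lit 88) (nat_lit 5) (nat_lit 89) (nat_lit 5)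 (nat_lit 508) (nat_lit 408) (nat_lit 284)) (XT.nd (nat_lit 78) (nat_lit 76) (nat_lit 0) (XT.lf (nat_lit 0) (nat_lit 20146374817) (nat_lit 228) (nat_lit 10302128500) (nat_lit 76) (nat_lit 876158663) (nat_lit 86) (nat_lit 5) (nat_lit 89) (nat_lit 5) (nat_lit 87) (nat_lit 4) (nat_lit 509) (nat_lit 408) (nat_lit 283)) (XT.lf (nat_lit 0) (nat_lit 9167027890) (nat_lit 76) (nat_lit 20588785305) (nat_lit 152) (nat_lit 2192366239) (nat_lit 85) (nat_lit 5) (nat_lit 86) (nat_lit 5) (nat_lit 87) (nat_lit 4) (nat_lit 510) (nat_lit 408) (nat_lit 282)))) (XT.nd (nat_lit 156) (nat_lit 152) (nat_lit 0) (XT.nd (nat_lit 78) (nat_lit 152) (nat_lit 0) (XT.lf (nat_lit 0) (nat_lit 7015734783) (nat_lit 152) (nat_lit 3252219187) (nat_lit 76) (nat_lit 22317698956) (nat_lit 84) (nat_lit 5) (nat_lit 86) (nat_lit 5) (nat_lit 85) (nat_lit 5) (nat_lit 511) (nat_lit 408) (nat_lit 281)) (XT.lf (nat_lit 0) (nat_lit 16611866177) (nat_lit 228) (nat_lit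 16093437366) (nat_lit 76) (nat_lit 531620577) (nat_lit 82) (nat_lit 5) (nat_lit 85) (nat_lit 5) (nat_lit 83) (nat_lit 4) (nat_lit 512) (nat_lit 408) (nat_lit 280))) (XT.nd (nat_lit 78) (nat_lit 76) (nat_lit 0) (XT.lf (nat_lit 0) (nat_lit 4265533848) (nat_lit 76) (nat_lit 22392015506) (nat_lit 152) (nat_lit 7245334302) (nat_lit 81) (nat_lit 5) (nat_lit 82) (nat_lit 5) (nat_lit 83) (nat_lit 4) (nat_lit 513) (nat_lit 408) (nat_lit 279)) (XT.lf (nat_lit 0) (nat_lit 2518617001) (nat_lit 152) (nat_lit 9070320693) (nat_lit 76) (nat_lit 22994688556) (nat_lit 80) (nat_lit 5) (nat_lit 82) (nat_lit 5) (nat_lit 81) (nat_lit 5) (nat_lit 514) (nat_lit 408) (nat_lit 278))))) (XT.nd (nat_lit 312) (nat_lit 304) (nat_lit 0) (XT.nd (nat_lit 156) (nat_lit 304) (nat_lit 0) (XT.nd (nat_lit 78) (nat_lit 0) (nat_lit 0) (XT.lf (nat_lit 0) (nat_lit 12255187353) (nat_lit 152) (nat_lit 278747133) (nat_lit 228) (nat_lit 22745582625) (nat_lit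 78) (nat_lit 5) (nat_lit 80) (nat_lit 5) (nat_lit 81) (nat_lit 5) (nat_lit 515) (nat_lit 408) (nat_lit 277)) (XT.lf (nat_lit 0) (nat_lit 23037817461) (nat_lit 228) (nat_lit 1723328801) (nat_lit 76) (nat_lit 11229495473) (nat_lit 78) (nat_lit 5) (nat_lit 81) (nat_lit 5) (nat_lit 79) (nat_lit 4) (nat_lit 516) (nat_lit 408) (nat_lit 276))) (XT.nd (nat_lit 78) (nat_lit 228) (nat_lit 0) (XT.lf (nat_lit 0) (nat_lit 20590518317) (nat_lit 76) (nat_lit 13453690105) (nat_lit 152) (nat_lit 2673270138) (nat_lit 77) (nat_lit 5) (nat_lit 78) (nat_lit 5) (nat_lit 79) (nat_lit 4) (nat_lit 517) (nat_lit 408) (nat_lit 275)) (XT.lf (nat_lit 0) (nat_lit 6162267639) (nat_lit 152) (nat_lit 1661489099) (nat_lit 228) (nat_lit 29638175632) (nat_lit 74) (nat_lit 5) (nat_lit 76) (nat_lit 5) (nat_lit 77) (nat_lit 5) (nat_lit 518) (nat_lit 408) (nat_lit 274)))) (XT.nd (nat_lit 156) (nat_lit 228) (nat_lit 0) (XT.nd (nat_lit 78) (nat_lit 76)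 (nat_lit 0) (XT.lf (nat_lit 0) (nat_lit 18833963066) (nat_lit 228) (nat_lit 8927207904) (nat_lit 76) (nat_lit 10459195013) (nat_lit 74) (nat_lit 5) (nat_lit 77) (nat_lit 5) (nat_lit 75) (nat_lit 4) (nat_lit 519) (nat_lit 408) (nat_lit 273)) (XT.lf (nat_lit 0) (nat_lit 14355567831) (nat_lit 76) (nat_lit 15960490940) (nat_lit 152) (nat_lit 8681246521) (nat_lit 73) (nat_lit 5) (nat_lit 74) (nat_lit 5) (nat_lit 75) (nat_lit 4) (nat_lit 520) (nat_lit 408) (nat_lit 272))) (XT.nd (nat_lit 78) (nat_lit 152) (nat_lit 0) (XT.lf (nat_lit 0) (nat_lit 2377497027) (nat_lit 152) (nat_lit 1323005829) (nat_lit 76) (nat_lit 36094028041) (nat_lit 72) (nat_lit 5) (nat_lit 74) (nat_lit 5) (nat_lit 73) (nat_lit 5) (nat_lit 521) (nat_lit 408) (nat_lit 271)) (XT.lf (nat_lit 0) (nat_lit 13891221033) (nat_lit 228) (nat_lit 17660577895) (nat_lit 76) (nat_lit 9052364844) (nat_lit 70) (nat_lit 5) (nat_lit 73) (nat_lit 5) (nat_lit 71) (nat_lit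 4) (nat_lit 522) (nat_lit 408) (nat_lit 270)))))) (XT.nd (nat_lit 624) (nat_lit 456) (nat_lit 0) (XT.nd (nat_lit 312) (nat_lit 304) (nat_lit 0) (XT.nd (nat_lit 156) (nat_lit 228) (nat_lit 0) (XT.nd (nat_lit 78) (nat_lit 0) (nat_lit 0) (XT.lf (nat_lit 0) (nat_lit 6595683567) (nat_lit 76) (nat_lit 19255761217) (nat_lit 152) (nat_lit 15583608371) (nat_lit 69) (nat_lit 5) (nat_lit 70) (nat_lit 5) (nat_lit 71) (nat_lit 4) (nat_lit 523) (nat_lit 408) (nat_lit 269)) (XT.lf (nat_lit 0) (nat_lit 31918029471) (nat_lit 76) (nat_lit 6418473917) (nat_lit 152) (nat_lit 3949385149) (nat_lit 69) (nat_lit 5) (nat_lit 70) (nat_lit 5) (nat_lit 71) (nat_lit 4) (nat_lit 524) (nat_lit 408) (nat_lit 268))) (XT.nd (nat_lit 78) (nat_lit 0) (nat_lit 0) (XT.lf (nat_lit 0) (nat_lit 8077002228) (nat_lit 228) (nat_lit 28192758567) (nat_lit 76) (nat_lit 6884174330) (nat_lit 66) (nat_lit 5) (nat_lit 69) (nat_lit 5) (nat_lit 67) (nat_lit 4) (nat_lit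 525) (nat_lit 408) (nat_lit 267)) (XT.lf (nat_lit 0) (nat_lit 20542039356) (nat_lit 228) (nat_lit 2909161960) (nat_lit 76) (nat_lit 20590931748) (nat_lit 66) (nat_lit 5) (nat_lit 69) (nat_lit 5) (nat_lit 67) (nat_lit 4) (nat_lit 526) (nat_lit 408) (nat_lit 266)))) (XT.nd (nat_lit 156) (nat_lit 76) (nat_lit 0) (XT.nd (nat_lit 78) (nat_lit 152) (nat_lit 0) (XT.lf (nat_lit 0) (nat_lit 23570355718) (nat_lit 76) (nat_lit 10025551337) (nat_lit 152) (nat_lit 11354623645) (nat_lit 65) (nat_lit 5) (nat_lit 66) (nat_lit 5) (nat_lit 67) (nat_lit 4) (nat_lit 527) (nat_lit 408) (nat_lit 265)) (XT.lf (nat_lit 0) (nat_lit 1236861994) (nat_lit 152) (nat_lit 40837317409) (nat_lit 76) (nat_lit 3808542045) (nat_lit 63) (nat_lit 5) (nat_lit 65) (nat_lit 5) (nat_lit 64) (nat_lit 4) (nat_lit 528) (nat_lit 408) (nat_lit 264))) (XT.nd (nat_lit 78) (nat_lit 76) (nat_lit 0) (XT.lf (nat_lit 0) (nat_lit 14283514316) (nat_lit 152) (nat_lit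 14370763886) (nat_lit 76) (nat_lit 18176058020) (nat_lit 63) (nat_lit 5) (nat_lit 65) (nat_lit 5) (nat_lit 64) (nat_lit 4) (nat_lit 529) (nat_lit 408) (nat_lit 263)) (XT.lf (nat_lit 0) (nat_lit 13123976012) (nat_lit 76) (nat_lit 14712425954) (nat_lit 152) (nat_lit 19966532527) (nat_lit 62) (nat_lit 5) (nat_lit 63) (nat_lit 5) (nat_lit 64) (nat_lit 4) (nat_lit 530) (nat_lit 408) (nat_lit 262))))) (XT.nd (nat_lit 312) (nat_lit 228) (nat_lit 0) (XT.nd (nat_lit 156) (nat_lit 76) (nat_lit 0) (XT.nd (nat_lit 78) (nat_lit 152) (nat_lit 0) (XT.lf (nat_lit 0) (nat_lit 41716453175) (nat_lit 76) (nat_lit 213340875) (nat_lit 152) (nat_lit 6870899250) (nat_lit 62) (nat_lit 5) (nat_lit 63) (nat_lit 5) (nat_lit 64) (nat_lit 4) (nat_lit 531) (nat_lit 408) (nat_lit 261)) (XT.lf (nat_lit 0) (nat_lit 6829954792) (nat_lit 152) (nat_lit 28288239541) (nat_lit 76) (nat_lit 14698037729) (nat_lit 60) (nat_lit 5) (nat_lit 62) (nat_lit 5)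 (nat_lit 61) (nat_lit 4) (nat_lit 532) (nat_lit 408) (nat_lit 260))) (XT.nd (nat_lit 78) (nat_lit 0) (nat_lit 0) (XT.lf (nat_lit 0) (nat_lit 195387036) (nat_lit 76) (nat_lit 20673623678) (nat_lit 152) (nat_lit 29989227286) (nat_lit 59) (nat_lit 5) (nat_lit 60) (nat_lit 5) (nat_lit 61) (nat_lit 4) (nat_lit 533) (nat_lit 408) (nat_lit 259)) (XT.lf (nat_lit 0) (nat_lit 30092314752) (nat_lit 76) (nat_lit 5511734699) (nat_lit 152) (nat_lit 16319210442) (nat_lit 59) (nat_lit 5) (nat_lit 60) (nat_lit 5) (nat_lit 61) (nat_lit 4) (nat_lit 534) (nat_lit 408) (nat_lit 258)))) (XT.nd (nat_lit 156) (nat_lit 76) (nat_lit 0) (XT.nd (nat_lit 78) (nat_lit 76) (nat_lit 0) (XT.lf (nat_lit 0) (nat_lit 7902289479) (nat_lit 76) (nat_lit 43041322697) (nat_lit 76) (nat_lit 2071746185) (nat_lit 58) (nat_lit 4) (nat_lit 59) (nat_lit 5) (nat_lit 59) (nat_lit 4) (nat_lit 535) (nat_lit 408) (nat_lit 257)) (XT.lf (nat_lit 0) (nat_lit 12623797272)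 (nat_lit 152) (nat_lit 15357179042) (nat_lit 76) (nat_lit 26147611457) (nat_lit 57) (nat_lit 5) (nat_lit 59) (nat_lit 5) (nat_lit 58) (nat_lit 4) (nat_lit 536) (nat_lit 408) (nat_lit 256))) (XT.nd (nat_lit 78) (nat_lit 0) (nat_lit 0) (XT.lf (nat_lit 0) (nat_lit 15554295038) (nat_lit 76) (nat_lit 12303482480) (nat_lit 152) (nat_lit 27412644955) (nat_lit 56) (nat_lit 5) (nat_lit 57) (nat_lit 5) (nat_lit 58) (nat_lit 4) (nat_lit 537) (nat_lit 408) (nat_lit 255)) (XT.lf (nat_lit 0) (nat_lit 43732052815) (nat_lit 152) (nat_lit 8792545083) (nat_lit 0) (nat_lit 3916416143) (nat_lit 56) (nat_lit 5) (nat_lit 58) (nat_lit 4) (nat_lit 56) (nat_lit 4) (nat_lit 538) (nat_lit 408) (nat_lit 254))))))))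
noncomputable def xc117 : XT := (XT.nd (nat_lit 53664) (nat_lit 0) (nat_lit 11248) (XT.nd (nat_lit 52416) (nat_lit 0) (nat_lit 24244) (XT.nd (nat_lit 546) (nat_lit 456) (nat_lit 0) (XT.nd (nat_lit 234) (nat_lit 228) (nat_lit 0) (XT.nd (nat_lit 78) (nat_lit 76) (nat_lit 0) (XT.lf (nat_lit 0) (nat_lit 2728138276) (nat_lit 152) (nat_lit 34289875708) (nat_lit 76) (nat_lit 20617811905) (nat_lit 54) (nat_lit 5) (nat_lit 56) (nat_lit 5) (nat_lit 55) (nat_lit 4) (nat_lit 539) (nat_lit 408) (nat_lit 253)) (XT.nd (nat_lit 78) (nat_lit 76) (nat_lit 0) (XT.lf (nat_lit 0) (nat_lit 18452595386) (nat_lit 152) (nat_lit 2381227521) (nat_lit 76) (nat_lit 38026493868) (nat_lit 54) (nat_lit 5) (nat_lit 56) (nat_lit 5) (nat_lit 55) (nat_lit 4) (nat_lit 540) (nat_lit 408) (nat_lit 252)) (XT.lf (nat_lit 0) (nat_lit 31072039036) (nat_lit 76) (nat_lit 3865737037) (nat_lit 152) (nat_lit 25175096700) (nat_lit 53) (nat_lit 5) (nat_lit 54)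 (nat_lit 5) (nat_lit 55) (nat_lit 4) (nat_lit 541) (nat_lit 408) (nat_lit 251)))) (XT.nd (nat_lit 156) (nat_lit 76) (nat_lit 0) (XT.nd (nat_lit 78) (nat_lit 76) (nat_lit 0) (XT.lf (nat_lit 0) (nat_lit 4105484026) (nat_lit 76) (nat_lit 47996937264) (nat_lit 76) (nat_lit 9295036968) (nat_lit 52) (nat_lit 4) (nat_lit 53) (nat_lit 5) (nat_lit 53) (nat_lit 4) (nat_lit 542) (nat_lit 408) (nat_lit 250)) (XT.lf (nat_lit 0) (nat_lit 7248390558) (nat_lit 152) (nat_lit 23998329080) (nat_lit 76) (nat_lit 31462082590) (nat_lit 51) (nat_lit 5) (nat_lit 53) (nat_lit 5) (nat_lit 52) (nat_lit 4) (nat_lit 543) (nat_lit 408) (nat_lit 249))) (XT.nd (nat_lit 78) (nat_lit 0) (nat_lit 0) (XT.lf (nat_lit 0) (nat_lit 10386334719) (nat_lit 76) (nat_lit 13805412926) (nat_lit 152) (nat_lit 39862264612) (nat_lit 50) (nat_lit 5) (nat_lit 51) (nat_lit 5) (nat_lit 52) (nat_lit 4) (nat_lit 544) (nat_lit 408) (nat_lit 248)) (XT.lf (nat_lit 0) (nat_lit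 41918740923) (nat_lit 152) (nat_lit 19198654802) (nat_lit 0) (nat_lit 4313922866) (nat_lit 50) (nat_lit 5) (nat_lit 52) (nat_lit 4) (nat_lit 50) (nat_lit 4) (nat_lit 545) (nat_lit 408) (nat_lit 247))))) (XT.nd (nat_lit 312) (nat_lit 228) (nat_lit 0) (XT.nd (nat_lit 156) (nat_lit 76) (nat_lit 0) (XT.nd (nat_lit 78) (nat_lit 76) (nat_lit 0) (XT.lf (nat_lit 0) (nat_lit 16471254715) (nat_lit 76) (nat_lit 43992201437) (nat_lit 76) (nat_lit 6377910670) (nat_lit 49) (nat_lit 4) (nat_lit 50) (nat_lit 5) (nat_lit 50) (nat_lit 4) (nat_lit 546) (nat_lit 408) (nat_lit 246)) (XT.lf (nat_lit 0) (nat_lit 11237549365) (nat_lit 152) (nat_lit 14811262359) (nat_lit 76) (nat_lit 42236053982) (nat_lit 48) (nat_lit 5) (nat_lit 50) (nat_lit 5) (nat_lit 49) (nat_lit 4) (nat_lit 547) (nat_lit 408) (nat_lit 245))) (XT.nd (nat_lit 78) (nat_lit 0) (nat_lit 0) (XT.lf (nat_lit 0) (nat_lit 22166356768) (nat_lit 76) (nat_lit 7291167014) (nat_lit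 152) (nat_lit 40306124202) (nat_lit 47) (nat_lit 5) (nat_lit 48) (nat_lit 5) (nat_lit 49) (nat_lit 4) (nat_lit 548) (nat_lit 408) (nat_lit 244)) (XT.lf (nat_lit 0) (nat_lit 48481949065) (nat_lit 152) (nat_lit 10859903201) (nat_lit 0) (nat_lit 11937205976) (nat_lit 47) (nat_lit 5) (nat_lit 49) (nat_lit 4) (nat_lit 47) (nat_lit 4) (nat_lit 549) (nat_lit 408) (nat_lit 243)))) (XT.nd (nat_lit 156) (nat_lit 76) (nat_lit 0) (XT.nd (nat_lit 78) (nat_lit 76) (nat_lit 0) (XT.lf (nat_lit 0) (nat_lit 27425693356) (nat_lit 76) (nat_lit 40978667122) (nat_lit 76) (nat_lit 4425752789) (nat_lit 46) (nat_lit 4) (nat_lit 47) (nat_lit 5) (nat_lit 47) (nat_lit 4) (nat_lit 550) (nat_lit 408) (nat_lit 242)) (XT.lf (nat_lit 0) (nat_lit 14316045885) (nat_lit 152) (nat_lit 7499274430) (nat_lit 76) (nat_lit 52605133579) (nat_lit 45) (nat_lit 5) (nat_lit 47) (nat_lit 5) (nat_lit 46) (nat_lit 4) (nat_lit 551) (nat_lit 408) (nat_lit 241)))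 (XT.nd (nat_lit 51324) (nat_lit 0) (nat_lit 28044) (XT.lf (nat_lit 0) (nat_lit 32109365527) (nat_lit 76) (nat_lit 1722119834) (nat_lit 152) (nat_lit 42216694650) (nat_lit 44) (nat_lit 5) (nat_lit 45) (nat_lit 5) (nat_lit 46) (nat_lit 4) (nat_lit 552) (nat_lit 408) (nat_lit 240)) (XT.lf (nat_lit 0) (nat_lit 708473762) (nat_lit 684) (nat_lit 1341956141) (nat_lit 684) (nat_lit 1341956141) (nat_lit 413) (nat_lit 3) (nat_lit 422) (nat_lit 3) (nat_lit 422) (nat_lit 5) (nat_lit 409) (nat_lit 409) (nat_lit 382)))))) (XT.nd (nat_lit 624) (nat_lit 2432) (nat_lit 0) (XT.nd (nat_lit 312) (nat_lit 760) (nat_lit 0) (XT.nd (nat_lit 156) (nat_lit 608) (nat_lit 0) (XT.nd (nat_lit 78) (nat_lit 0) (nat_lit 0) (XT.lf (nat_lit 76) (nat_lit 700228498) (nat_lit 0) (nat_lit 2802086872) (nat_lit 684) (nat_lit 3322033342) (nat_lit 414) (nat_lit 5) (nat_lit 413) (nat_lit 3) (nat_lit 422) (nat_lit 5) (nat_lit 410) (nat_lit 409) (nat_lit 381))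 (XT.lf (nat_lit 76) (nat_lit 4198731343) (nat_lit 0) (nat_lit 1397915813) (nat_lit 684) (nat_lit 1270083989) (nat_lit 414) (nat_lit 5) (nat_lit 413) (nat_lit 3) (nat_lit 422) (nat_lit 5) (nat_lit 411) (nat_lit 409) (nat_lit 380))) (XT.nd (nat_lit 78) (nat_lit 0) (nat_lit 0) (XT.lf (nat_lit 0) (nat_lit 757056370) (nat_lit 684) (nat_lit 6055355910) (nat_lit 760) (nat_lit 99836812) (nat_lit 405) (nat_lit 5) (nat_lit 414) (nat_lit 5) (nat_lit 415) (nat_lit 5) (nat_lit 412) (nat_lit 409) (nat_lit 379)) (XT.lf (nat_lit 0) (nat_lit 2783635447) (nat_lit 684) (nat_lit 2487565971) (nat_lit 760) (nat_lit 1688639048) (nat_lit 405) (nat_lit 5) (nat_lit 414) (nat_lit 5) (nat_lit 415) (nat_lit 5) (nat_lit 413) (nat_lit 409) (nat_lit 378)))) (XT.nd (nat_lit 156) (nat_lit 760) (nat_lit 0) (XT.nd (nat_lit 78) (nat_lit 0) (nat_lit 0) (XT.lf (nat_lit 76) (nat_lit 1166542082) (nat_lit 0) (nat_lit 3641025923) (nat_lit 760) (nat_lit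 2203204308) (nat_lit 406) (nat_lit 5) (nat_lit 405) (nat_lit 5) (nat_lit 415) (nat_lit 5) (nat_lit 414) (nat_lit 409) (nat_lit 377)) (XT.lf (nat_lit 76) (nat_lit 4938213287) (nat_lit 0) (nat_lit 1906228024) (nat_lit 760) (nat_lit 220233264) (nat_lit 406) (nat_lit 5) (nat_lit 405) (nat_lit 5) (nat_lit 415) (nat_lit 5) (nat_lit 415) (nat_lit 409) (nat_lit 376))) (XT.nd (nat_lit 78) (nat_lit 0) (nat_lit 76) (XT.lf (nat_lit 76) (nat_lit 1674775198) (nat_lit 0) (nat_lit 56509473) (nat_lit 836) (nat_lit 5390053882) (nat_lit 396) (nat_lit 5) (nat_lit 395) (nat_lit 5) (nat_lit 406) (nat_lit 5) (nat_lit 416) (nat_lit 409) (nat_lit 375)) (XT.lf (nat_lit 0) (nat_lit 3706825368) (nat_lit 760) (nat_lit 1610751653) (nat_lit 836) (nat_lit 1862971266) (nat_lit 396) (nat_lit 5) (nat_lit 406) (nat_lit 5) (nat_lit 407) (nat_lit 5) (nat_lit 417) (nat_lit 409) (nat_lit 374))))) (XT.nd (nat_lit 312) (nat_lit 1672) (nat_lit 0) (XT.nd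 (nat_lit 156) (nat_lit 0) (nat_lit 76) (XT.nd (nat_lit 78) (nat_lit 836) (nat_lit 0) (XT.lf (nat_lit 76) (nat_lit 2341411281) (nat_lit 0) (nat_lit 3355760550) (nat_lit 836) (nat_lit 1545704420) (nat_lit 397) (nat_lit 5) (nat_lit 396) (nat_lit 5) (nat_lit 407) (nat_lit 5) (nat_lit 418) (nat_lit 409) (nat_lit 373)) (XT.lf (nat_lit 0) (nat_lit 381353499) (nat_lit 836) (nat_lit 910577187) (nat_lit 912) (nat_lit 6016530457) (nat_lit 385) (nat_lit 5) (nat_lit 396) (nat_lit 5) (nat_lit 397) (nat_lit 5) (nat_lit 419) (nat_lit 409) (nat_lit 372))) (XT.nd (nat_lit 78) (nat_lit 0) (nat_lit 0) (XT.lf (nat_lit 0) (nat_lit 2309930999) (nat_lit 836) (nat_lit 4181457201) (nat_lit 912) (nat_lit 884930444) (nat_lit 386) (nat_lit 5) (nat_lit 397) (nat_lit 5) (nat_lit 398) (nat_lit 5) (nat_lit 420) (nat_lit 409) (nat_lit 371)) (XT.lf (nat_lit 0) (nat_lit 4255410585) (nat_lit 836) (nat_lit 61814809) (nat_lit 912) (nat_lit 3130222350)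 (nat_lit 386) (nat_lit 5) (nat_lit 397) (nat_lit 5) (nat_lit 398) (nat_lit 5) (nat_lit 421) (nat_lit 409) (nat_lit 370)))) (XT.nd (nat_lit 156) (nat_lit 912) (nat_lit 0) (XT.nd (nat_lit 78) (nat_lit 836) (nat_lit 0) (XT.lf (nat_lit 76) (nat_lit 4219952125) (nat_lit 0) (nat_lit 2018670384) (nat_lit 912) (nat_lit 1282714177) (nat_lit 387) (nat_lit 5) (nat_lit 386) (nat_lit 5) (nat_lit 398) (nat_lit 5) (nat_lit 422) (nat_lit 409) (nat_lit 369)) (XT.lf (nat_lit 0) (nat_lit 624051303) (nat_lit 912) (nat_lit 6600023801) (nat_lit 76) (nat_lit 374571339) (nat_lit 375) (nat_lit 5) (nat_lit 387) (nat_lit 5) (nat_lit 376) (nat_lit 5) (nat_lit 423) (nat_lit 409) (nat_lit 368))) (XT.nd (nat_lit 78) (nat_lit 912) (nat_lit 0) (XT.lf (nat_lit 0) (nat_lit 2556941732) (nat_lit 912) (nat_lit 2261063879) (nat_lit 76) (nat_lit 2860054191) (nat_lit 375) (nat_lit 5) (nat_lit 387) (nat_lit 5) (nat_lit 376) (nat_lit 5) (nat_lit 424) (nat_lit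 409) (nat_lit 367)) (XT.lf (nat_lit 0) (nat_lit 2206384719) (nat_lit 912) (nat_lit 2305409146) (nat_lit 988) (nat_lit 3249148673) (nat_lit 363) (nat_lit 5) (nat_lit 375) (nat_lit 5) (nat_lit 376) (nat_lit 5) (nat_lit 425) (nat_lit 409) (nat_lit 366))))))) (XT.nd (nat_lit 1248) (nat_lit 5092) (nat_lit 0) (XT.nd (nat_lit 624) (nat_lit 2508) (nat_lit 0) (XT.nd (nat_lit 312) (nat_lit 3268) (nat_lit 0) (XT.nd (nat_lit 156) (nat_lit 1064) (nat_lit 0) (XT.nd (nat_lit 78) (nat_lit 1064) (nat_lit 0) (XT.lf (nat_lit 0) (nat_lit 6495185649) (nat_lit 988) (nat_lit 1040456995) (nat_lit 76) (nat_lit 311578332) (nat_lit 363) (nat_lit 5) (nat_lit 376) (nat_lit 5) (nat_lit 364) (nat_lit 5) (nat_lit 426) (nat_lit 409) (nat_lit 365)) (XT.lf (nat_lit 0) (nat_lit 593564675) (nat_lit 1064) (nat_lit 4329842269) (nat_lit 76) (nat_lit 3012413312) (nat_lit 349) (nat_lit 5) (nat_lit 363) (nat_lit 5) (nat_lit 350) (nat_lit 5) (nat_lit 427)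 (nat_lit 409) (nat_lit 364))) (XT.nd (nat_lit 78) (nat_lit 0) (nat_lit 0) (XT.lf (nat_lit 0) (nat_lit 334013440) (nat_lit 1064) (nat_lit 2196536021) (nat_lit 1140) (nat_lit 5497326248) (nat_lit 335) (nat_lit 5) (nat_lit 349) (nat_lit 5) (nat_lit 350) (nat_lit 5) (nat_lit 428) (nat_lit 409) (nat_lit 363)) (XT.lf (nat_lit 0) (nat_lit 4523256593) (nat_lit 1140) (nat_lit 2947749944) (nat_lit 76) (nat_lit 651763274) (nat_lit 335) (nat_lit 5) (nat_lit 350) (nat_lit 5) (nat_lit 336) (nat_lit 5) (nat_lit 429) (nat_lit 409) (nat_lit 362)))) (XT.nd (nat_lit 156) (nat_lit 2052) (nat_lit 0) (XT.nd (nat_lit 78) (nat_lit 76) (nat_lit 0) (XT.lf (nat_lit 0) (nat_lit 1911052520) (nat_lit 1140) (nat_lit 4653910225) (nat_lit 1216) (nat_lit 1655876670) (nat_lit 320) (nat_lit 5) (nat_lit 335) (nat_lit 5) (nat_lit 336) (nat_lit 5) (nat_lit 430) (nat_lit 409) (nat_lit 361)) (XT.lf (nat_lit 0) (nat_lit 319030294) (nat_lit 1216) (nat_lit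 1394334699) (nat_lit 76) (nat_lit 6608999799) (nat_lit 319) (nat_lit 5) (nat_lit 335) (nat_lit 5) (nat_lit 320) (nat_lit 5) (nat_lit 431) (nat_lit 409) (nat_lit 360))) (XT.nd (nat_lit 78) (nat_lit 836) (nat_lit 0) (XT.lf (nat_lit 0) (nat_lit 2319591712) (nat_lit 1292) (nat_lit 4760532875) (nat_lit 76) (nat_lit 1346333608) (nat_lit 303) (nat_lit 5) (nat_lit 320) (nat_lit 5) (nat_lit 304) (nat_lit 5) (nat_lit 432) (nat_lit 409) (nat_lit 359)) (XT.lf (nat_lit 0) (nat_lit 316895608) (nat_lit 836) (nat_lit 4049661055) (nat_lit 912) (nat_lit 4167530769) (nat_lit 292) (nat_lit 5) (nat_lit 303) (nat_lit 5) (nat_lit 304) (nat_lit 5) (nat_lit 433) (nat_lit 409) (nat_lit 358))))) (XT.nd (nat_lit 312) (nat_lit 1216) (nat_lit 0) (XT.nd (nat_lit 156) (nat_lit 684) (nat_lit 0) (XT.nd (nat_lit 78) (nat_lit 608) (nat_lit 0) (XT.lf (nat_lit 0) (nat_lit 5599170977) (nat_lit 836) (nat_lit 876948986) (nat_lit 912) (nat_lit 2168794398)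 (nat_lit 292) (nat_lit 5) (nat_lit 303) (nat_lit 5) (nat_lit 304) (nat_lit 5) (nat_lit 434) (nat_lit 409) (nat_lit 357)) (XT.lf (nat_lit 0) (nat_lit 2256766324) (nat_lit 608) (nat_lit 6391380331) (nat_lit 684) (nat_lit 110948513) (nat_lit 284) (nat_lit 5) (nat_lit 292) (nat_lit 5) (nat_lit 293) (nat_lit 5) (nat_lit 435) (nat_lit 409) (nat_lit 356))) (XT.nd (nat_lit 78) (nat_lit 608) (nat_lit 0) (XT.lf (nat_lit 0) (nat_lit 1964129993) (nat_lit 684) (nat_lit 1168882819) (nat_lit 76) (nat_lit 5743272670) (nat_lit 283) (nat_lit 5) (nat_lit 292) (nat_lit 5) (nat_lit 284) (nat_lit 5) (nat_lit 436) (nat_lit 409) (nat_lit 355)) (XT.lf (nat_lit 0) (nat_lit 4100011488) (nat_lit 684) (nat_lit 4635216109) (nat_lit 76) (nat_lit 261711531) (nat_lit 275) (nat_lit 5) (nat_lit 284) (nat_lit 5) (nat_lit 276) (nat_lit 5) (nat_lit 437) (nat_lit 409) (nat_lit 354)))) (XT.nd (nat_lit 156) (nat_lit 684) (nat_lit 0) (XT.nd (nat_lit 78)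 (nat_lit 0) (nat_lit 0) (XT.lf (nat_lit 0) (nat_lit 902713967) (nat_lit 532) (nat_lit 5405978427) (nat_lit 608) (nat_lit 2812262181) (nat_lit 268) (nat_lit 5) (nat_lit 275) (nat_lit 5) (nat_lit 276) (nat_lit 5) (nat_lit 438) (nat_lit 409) (nat_lit 353)) (XT.lf (nat_lit 0) (nat_lit 6657127485) (nat_lit 532) (nat_lit 1931238093) (nat_lit 608) (nat_lit 660186717) (nat_lit 268) (nat_lit 5) (nat_lit 275) (nat_lit 5) (nat_lit 276) (nat_lit 5) (nat_lit 439) (nat_lit 409) (nat_lit 352))) (XT.nd (nat_lit 78) (nat_lit 0) (nat_lit 0) (XT.lf (nat_lit 0) (nat_lit 1531919759) (nat_lit 684) (nat_lit 6188478704) (nat_lit 76) (nat_lit 1658958966) (nat_lit 259) (nat_lit 5) (nat_lit 268) (nat_lit 5) (nat_lit 260) (nat_lit 5) (nat_lit 440) (nat_lit 409) (nat_lit 351)) (XT.lf (nat_lit 0) (nat_lit 3781561019) (nat_lit 684) (nat_lit 384393634) (nat_lit 76) (nat_lit 5347788194) (nat_lit 259) (nat_lit 5) (nat_lit 268) (nat_lit 5) (nat_lit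 260) (nat_lit 5) (nat_lit 441) (nat_lit 409) (nat_lit 350)))))) (XT.nd (nat_lit 624) (nat_lit 2508) (nat_lit 0) (XT.nd (nat_lit 312) (nat_lit 988) (nat_lit 0) (XT.nd (nat_lit 156) (nat_lit 532) (nat_lit 0) (XT.nd (nat_lit 78) (nat_lit 532) (nat_lit 0) (XT.lf (nat_lit 0) (nat_lit 5660634283) (nat_lit 532) (nat_lit 453142670) (nat_lit 608) (nat_lit 3537933658) (nat_lit 252) (nat_lit 5) (nat_lit 259) (nat_lit 5) (nat_lit 260) (nat_lit 5) (nat_lit 442) (nat_lit 409) (nat_lit 349)) (XT.lf (nat_lit 0) (nat_lit 2064710574) (nat_lit 532) (nat_lit 6468778455) (nat_lit 608) (nat_lit 1259805740) (nat_lit 245) (nat_lit 5) (nat_lit 252) (nat_lit 5) (nat_lit 253) (nat_lit 5) (nat_lit 443) (nat_lit 409) (nat_lit 348))) (XT.nd (nat_lit 78) (nat_lit 456) (nat_lit 0) (XT.lf (nat_lit 0) (nat_lit 1072331448) (nat_lit 608) (nat_lit 1613923582) (nat_lit 76) (nat_lit 7252355004) (nat_lit 244) (nat_lit 5) (nat_lit 252) (nat_lit 5) (nat_lit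 245) (nat_lit 5) (nat_lit 444) (nat_lit 409) (nat_lit 347)) (XT.lf (nat_lit 0) (nat_lit 3469428825) (nat_lit 532) (nat_lit 5379352397) (nat_lit 76) (nat_lit 1238522802) (nat_lit 238) (nat_lit 5) (nat_lit 245) (nat_lit 5) (nat_lit 239) (nat_lit 5) (nat_lit 445) (nat_lit 409) (nat_lit 346)))) (XT.nd (nat_lit 156) (nat_lit 532) (nat_lit 0) (XT.nd (nat_lit 78) (nat_lit 0) (nat_lit 0) (XT.lf (nat_lit 0) (nat_lit 960613557) (nat_lit 456) (nat_lit 4993522874) (nat_lit 532) (nat_lit 4285854371) (nat_lit 232) (nat_lit 5) (nat_lit 238) (nat_lit 5) (nat_lit 239) (nat_lit 5) (nat_lit 446) (nat_lit 409) (nat_lit 345)) (XT.lf (nat_lit 0) (nat_lit 7557510463) (nat_lit 456) (nat_lit 974250870) (nat_lit 532) (nat_lit 1864948369) (nat_lit 232) (nat_lit 5) (nat_lit 238) (nat_lit 5) (nat_lit 239) (nat_lit 5) (nat_lit 447) (nat_lit 409) (nat_lit 344))) (XT.nd (nat_lit 78) (nat_lit 0) (nat_lit 0) (XT.lf (nat_lit 0) (nat_lit 648568816)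 (nat_lit 532) (nat_lit 6768983677) (nat_lit 76) (nat_lit 3139431551) (nat_lit 225) (nat_lit 5) (nat_lit 232) (nat_lit 5) (nat_lit 226) (nat_lit 5) (nat_lit 448) (nat_lit 409) (nat_lit 343)) (XT.lf (nat_lit 0) (nat_lit 3203903405) (nat_lit 532) (nat_lit 120903843) (nat_lit 76) (nat_lit 7396591120) (nat_lit 225) (nat_lit 5) (nat_lit 232) (nat_lit 5) (nat_lit 226) (nat_lit 5) (nat_lit 449) (nat_lit 409) (nat_lit 342))))) (XT.nd (nat_lit 312) (nat_lit 1140) (nat_lit 0) (XT.nd (nat_lit 156) (nat_lit 532) (nat_lit 0) (XT.nd (nat_lit 78) (nat_lit 380) (nat_lit 0) (XT.lf (nat_lit 0) (nat_lit 5876865829) (nat_lit 532) (nat_lit 4081522584) (nat_lit 76) (nat_lit 931130167) (nat_lit 219) (nat_lit 5) (nat_lit 226) (nat_lit 5) (nat_lit 220) (nat_lit 5) (nat_lit 450) (nat_lit 409) (nat_lit 341)) (XT.lf (nat_lit 0) (nat_lit 2864817836) (nat_lit 380) (nat_lit 5793690956) (nat_lit 456) (nat_lit 2403321272) (nat_lit 214) (nat_lit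 5) (nat_lit 219) (nat_lit 5) (nat_lit 220) (nat_lit 5) (nat_lit 451) (nat_lit 409) (nat_lit 340))) (XT.nd (nat_lit 78) (nat_lit 456) (nat_lit 0) (XT.lf (nat_lit 0) (nat_lit 287402084) (nat_lit 456) (nat_lit 1180988386) (nat_lit 76) (nat_lit 9770580936) (nat_lit 213) (nat_lit 5) (nat_lit 219) (nat_lit 5) (nat_lit 214) (nat_lit 5) (nat_lit 452) (nat_lit 409) (nat_lit 339)) (XT.lf (nat_lit 0) (nat_lit 3066598383) (nat_lit 532) (nat_lit 5350351203) (nat_lit 76) (nat_lit 3002084086) (nat_lit 207) (nat_lit 5) (nat_lit 214) (nat_lit 5) (nat_lit 208) (nat_lit 5) (nat_lit 453) (nat_lit 409) (nat_lit 338)))) (XT.nd (nat_lit 156) (nat_lit 760) (nat_lit 0) (XT.nd (nat_lit 78) (nat_lit 0) (nat_lit 0) (XT.lf (nat_lit 0) (nat_lit 1936872319) (nat_lit 380) (nat_lit 4005935162) (nat_lit 456) (nat_lit 5661283367) (nat_lit 202) (nat_lit 5) (nat_lit 207) (nat_lit 5) (nat_lit 208) (nat_lit 5) (nat_lit 454) (nat_lit 409) (nat_lit 337))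 (XT.lf (nat_lit 0) (nat_lit 8933882813) (nat_lit 456) (nat_lit 2288986096) (nat_lit 76) (nat_lit 570975517) (nat_lit 202) (nat_lit 5) (nat_lit 208) (nat_lit 5) (nat_lit 203) (nat_lit 5) (nat_lit 455) (nat_lit 409) (nat_lit 336))) (XT.nd (nat_lit 78) (nat_lit 304) (nat_lit 0) (XT.lf (nat_lit 0) (nat_lit 86194454) (nat_lit 456) (nat_lit 6654662750) (nat_lit 76) (nat_lit 5246589338) (nat_lit 196) (nat_lit 5) (nat_lit 202) (nat_lit 5) (nat_lit 197) (nat_lit 5) (nat_lit 456) (nat_lit 409) (nat_lit 335)) (XT.lf (nat_lit 0) (nat_lit 993252337) (nat_lit 304) (nat_lit 2072840322) (nat_lit 380) (nat_lit 9119831282) (nat_lit 192) (nat_lit 5) (nat_lit 196) (nat_lit 5) (nat_lit 197) (nat_lit 5) (nat_lit 457) (nat_lit 409) (nat_lit 334))))))))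
noncomputable def xc118 : XT := (XT.nd (nat_lit 2418) (nat_lit 3496) (nat_lit 0) (XT.nd (nat_lit 1170) (nat_lit 2432) (nat_lit 0) (XT.nd (nat_lit 546) (nat_lit 1596) (nat_lit 0) (XT.nd (nat_lit 234) (nat_lit 684) (nat_lit 0) (XT.nd (nat_lit 78) (nat_lit 760) (nat_lit 0) (XT.lf (nat_lit 0) (nat_lit 6199862309) (nat_lit 380) (nat_lit 3450198820) (nat_lit 76) (nat_lit 2738362152) (nat_lit 192) (nat_lit 5) (nat_lit 197) (nat_lit 5) (nat_lit 193) (nat_lit 5) (nat_lit 458) (nat_lit 409) (nat_lit 333)) (XT.nd (nat_lit 78) (nat_lit 380) (nat_lit 0) (XT.lf (nat_lit 0) (nat_lit 4552154734) (nat_lit 380) (nat_lit 4910953654) (nat_lit 456) (nat_lit 3132827111) (nat_lit 187) (nat_lit 5) (nat_lit 192) (nat_lit 5) (nat_lit 193) (nat_lit 5) (nat_lit 459) (nat_lit 409) (nat_lit 332)) (XT.lf (nat_lit 0) (nat_lit 15624487) (nat_lit 304) (nat_lit 5356659) (nat_lit 380) (nat_lit 12788488823) (nat_lit 182) (nat_lit 5) (nat_lit 186)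 (nat_lit 5) (nat_lit 187) (nat_lit 5) (nat_lit 460) (nat_lit 409) (nat_lit 331)))) (XT.nd (nat_lit 156) (nat_lit 380) (nat_lit 0) (XT.nd (nat_lit 78) (nat_lit 304) (nat_lit 0) (XT.lf (nat_lit 0) (nat_lit 3308665276) (nat_lit 380) (nat_lit 4666814379) (nat_lit 76) (nat_lit 5049935070) (nat_lit 182) (nat_lit 5) (nat_lit 187) (nat_lit 5) (nat_lit 183) (nat_lit 5) (nat_lit 461) (nat_lit 409) (nat_lit 330)) (XT.lf (nat_lit 0) (nat_lit 3736893783) (nat_lit 304) (nat_lit 2966564312) (nat_lit 380) (nat_lit 6544126983) (nat_lit 178) (nat_lit 5) (nat_lit 182) (nat_lit 5) (nat_lit 183) (nat_lit 5) (nat_lit 462) (nat_lit 409) (nat_lit 329))) (XT.nd (nat_lit 78) (nat_lit 380) (nat_lit 0) (XT.lf (nat_lit 0) (nat_lit 10241567218) (nat_lit 380) (nat_lit 1048474129) (nat_lit 76) (nat_lit 2185136571) (nat_lit 178) (nat_lit 5) (nat_lit 183) (nat_lit 5) (nat_lit 179) (nat_lit 5) (nat_lit 463) (nat_lit 409) (nat_lit 328)) (XT.lf (nat_lit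 0) (nat_lit 251016488) (nat_lit 380) (nat_lit 5959390571) (nat_lit 76) (nat_lit 7496795104) (nat_lit 173) (nat_lit 5) (nat_lit 178) (nat_lit 5) (nat_lit 174) (nat_lit 5) (nat_lit 464) (nat_lit 409) (nat_lit 327))))) (XT.nd (nat_lit 312) (nat_lit 608) (nat_lit 0) (XT.nd (nat_lit 156) (nat_lit 684) (nat_lit 0) (XT.nd (nat_lit 78) (nat_lit 0) (nat_lit 0) (XT.lf (nat_lit 0) (nat_lit 2868187970) (nat_lit 304) (nat_lit 918998566) (nat_lit 380) (nat_lit 10157681649) (nat_lit 169) (nat_lit 5) (nat_lit 173) (nat_lit 5) (nat_lit 174) (nat_lit 5) (nat_lit 465) (nat_lit 409) (nat_lit 326)) (XT.lf (nat_lit 0) (nat_lit 7507771382) (nat_lit 380) (nat_lit 2188791947) (nat_lit 76) (nat_lit 4490752346) (nat_lit 169) (nat_lit 5) (nat_lit 174) (nat_lit 5) (nat_lit 170) (nat_lit 5) (nat_lit 466) (nat_lit 409) (nat_lit 325))) (XT.nd (nat_lit 78) (nat_lit 380) (nat_lit 0) (XT.lf (nat_lit 0) (nat_lit 7055935636) (nat_lit 304) (nat_lit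 4335719902) (nat_lit 380) (nat_lit 3043831937) (nat_lit 165) (nat_lit 5) (nat_lit 169) (nat_lit 5) (nat_lit 170) (nat_lit 5) (nat_lit 467) (nat_lit 409) (nat_lit 324)) (XT.lf (nat_lit 0) (nat_lit 714716071) (nat_lit 380) (nat_lit 12777655467) (nat_lit 76) (nat_lit 1197708743) (nat_lit 160) (nat_lit 5) (nat_lit 165) (nat_lit 5) (nat_lit 161) (nat_lit 5) (nat_lit 468) (nat_lit 409) (nat_lit 323)))) (XT.nd (nat_lit 156) (nat_lit 380) (nat_lit 0) (XT.nd (nat_lit 78) (nat_lit 228) (nat_lit 0) (XT.lf (nat_lit 0) (nat_lit 4618142920) (nat_lit 380) (nat_lit 3428191346) (nat_lit 76) (nat_lit 6902274708) (nat_lit 160) (nat_lit 5) (nat_lit 165) (nat_lit 5) (nat_lit 161) (nat_lit 5) (nat_lit 469) (nat_lit 409) (nat_lit 322)) (XT.lf (nat_lit 0) (nat_lit 6286815984) (nat_lit 228) (nat_lit 2388129769) (nat_lit 304) (nat_lit 6538860770) (nat_lit 157) (nat_lit 5) (nat_lit 160) (nat_lit 5) (nat_lit 161) (nat_lit 5) (nat_lit 470)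 (nat_lit 409) (nat_lit 321))) (XT.nd (nat_lit 78) (nat_lit 76) (nat_lit 0) (XT.lf (nat_lit 0) (nat_lit 822430059) (nat_lit 304) (nat_lit 12083011640) (nat_lit 380) (nat_lit 2579959781) (nat_lit 153) (nat_lit 5) (nat_lit 157) (nat_lit 5) (nat_lit 158) (nat_lit 5) (nat_lit 471) (nat_lit 409) (nat_lit 320)) (XT.lf (nat_lit 0) (nat_lit 1559324339) (nat_lit 380) (nat_lit 4791987719) (nat_lit 76) (nat_lit 9410676158) (nat_lit 152) (nat_lit 5) (nat_lit 157) (nat_lit 5) (nat_lit 153) (nat_lit 5) (nat_lit 472) (nat_lit 409) (nat_lit 319)))))) (XT.nd (nat_lit 624) (nat_lit 1140) (nat_lit 0) (XT.nd (nat_lit 312) (nat_lit 532) (nat_lit 0) (XT.nd (nat_lit 156) (nat_lit 532) (nat_lit 0) (XT.nd (nat_lit 78) (nat_lit 0) (nat_lit 0) (XT.lf (nat_lit 0) (nat_lit 5418479117) (nat_lit 228) (nat_lit 381392663) (nat_lit 304) (nat_lit 10245367322) (nat_lit 149) (nat_lit 5) (nat_lit 152) (nat_lit 5) (nat_lit 153) (nat_lit 5) (nat_lit 473)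 (nat_lit 409) (nat_lit 318)) (XT.lf (nat_lit 0) (nat_lit 10248992371) (nat_lit 304) (nat_lit 394995453) (nat_lit 76) (nat_lit 5690560015) (nat_lit 149) (nat_lit 5) (nat_lit 153) (nat_lit 5) (nat_lit 150) (nat_lit 5) (nat_lit 474) (nat_lit 409) (nat_lit 317))) (XT.nd (nat_lit 78) (nat_lit 304) (nat_lit 0) (XT.lf (nat_lit 0) (nat_lit 10305084092) (nat_lit 228) (nat_lit 4607051994) (nat_lit 304) (nat_lit 1717984263) (nat_lit 146) (nat_lit 5) (nat_lit 149) (nat_lit 5) (nat_lit 150) (nat_lit 5) (nat_lit 475) (nat_lit 409) (nat_lit 316)) (XT.lf (nat_lit 0) (nat_lit 2766783368) (nat_lit 304) (nat_lit 12525778890) (nat_lit 76) (nat_lit 1639983973) (nat_lit 142) (nat_lit 5) (nat_lit 146) (nat_lit 5) (nat_lit 143) (nat_lit 5) (nat_lit 476) (nat_lit 409) (nat_lit 315)))) (XT.nd (nat_lit 156) (nat_lit 304) (nat_lit 0) (XT.nd (nat_lit 78) (nat_lit 228) (nat_lit 0) (XT.lf (nat_lit 0) (nat_lit 7439655238) (nat_lit 304) (nat_lit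 1751416270) (nat_lit 76) (nat_lit 8049821271) (nat_lit 142) (nat_lit 5) (nat_lit 146) (nat_lit 5) (nat_lit 143) (nat_lit 5) (nat_lit 477) (nat_lit 409) (nat_lit 314)) (XT.lf (nat_lit 0) (nat_lit 9496326426) (nat_lit 228) (nat_lit 2826286647) (nat_lit 304) (nat_lit 5233780542) (nat_lit 139) (nat_lit 5) (nat_lit 142) (nat_lit 5) (nat_lit 143) (nat_lit 5) (nat_lit 478) (nat_lit 409) (nat_lit 313))) (XT.nd (nat_lit 78) (nat_lit 76) (nat_lit 0) (XT.lf (nat_lit 0) (nat_lit 3228228870) (nat_lit 228) (nat_lit 14187344795) (nat_lit 304) (nat_lit 463881248) (nat_lit 136) (nat_lit 5) (nat_lit 139) (nat_lit 5) (nat_lit 140) (nat_lit 5) (nat_lit 479) (nat_lit 409) (nat_lit 312)) (XT.lf (nat_lit 0) (nat_lit 4451322133) (nat_lit 304) (nat_lit 3296316673) (nat_lit 76) (nat_lit 10460616266) (nat_lit 135) (nat_lit 5) (nat_lit 139) (nat_lit 5) (nat_lit 136) (nat_lit 5) (nat_lit 480) (nat_lit 409) (nat_lit 311))))) (XT.nd (nat_lit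 312) (nat_lit 456) (nat_lit 0) (XT.nd (nat_lit 156) (nat_lit 304) (nat_lit 0) (XT.nd (nat_lit 78) (nat_lit 152) (nat_lit 0) (XT.lf (nat_lit 0) (nat_lit 8526672871) (nat_lit 228) (nat_lit 1039410540) (nat_lit 304) (nat_lit 8978856062) (nat_lit 132) (nat_lit 5) (nat_lit 135) (nat_lit 5) (nat_lit 136) (nat_lit 5) (nat_lit 481) (nat_lit 409) (nat_lit 310)) (XT.lf (nat_lit 0) (nat_lit 1825564667) (nat_lit 152) (nat_lit 13095914528) (nat_lit 228) (nat_lit 3967630226) (nat_lit 130) (nat_lit 5) (nat_lit 132) (nat_lit 5) (nat_lit 133) (nat_lit 5) (nat_lit 482) (nat_lit 409) (nat_lit 309))) (XT.nd (nat_lit 78) (nat_lit 228) (nat_lit 0) (XT.lf (nat_lit 0) (nat_lit 1262758507) (nat_lit 228) (nat_lit 5067830799) (nat_lit 76) (nat_lit 12909907854) (nat_lit 129) (nat_lit 5) (nat_lit 132) (nat_lit 5) (nat_lit 130) (nat_lit 5) (nat_lit 483) (nat_lit 409) (nat_lit 308)) (XT.lf (nat_lit 0) (nat_lit 6628392864) (nat_lit 304) (nat_lit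 12248303681) (nat_lit 76) (nat_lit 722809799) (nat_lit 126) (nat_lit 5) (nat_lit 130) (nat_lit 5) (nat_lit 127) (nat_lit 5) (nat_lit 484) (nat_lit 409) (nat_lit 307)))) (XT.nd (nat_lit 156) (nat_lit 304) (nat_lit 0) (XT.nd (nat_lit 78) (nat_lit 0) (nat_lit 0) (XT.lf (nat_lit 0) (nat_lit 185695492) (nat_lit 152) (nat_lit 12065828753) (nat_lit 228) (nat_lit 7714866398) (nat_lit 124) (nat_lit 5) (nat_lit 126) (nat_lit 5) (nat_lit 127) (nat_lit 5) (nat_lit 485) (nat_lit 409) (nat_lit 306)) (XT.lf (nat_lit 0) (nat_lit 13210438646) (nat_lit 152) (nat_lit 4937227581) (nat_lit 228) (nat_lit 2193486401) (nat_lit 124) (nat_lit 5) (nat_lit 126) (nat_lit 5) (nat_lit 127) (nat_lit 5) (nat_lit 486) (nat_lit 409) (nat_lit 305))) (XT.nd (nat_lit 78) (nat_lit 0) (nat_lit 0) (XT.lf (nat_lit 0) (nat_lit 3487441089) (nat_lit 304) (nat_lit 14800391733) (nat_lit 76) (nat_lit 2436455485) (nat_lit 120) (nat_lit 5) (nat_lit 124) (nat_lit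 5) (nat_lit 121) (nat_lit 5) (nat_lit 487) (nat_lit 409) (nat_lit 304)) (XT.lf (nat_lit 0) (nat_lit 9397431869) (nat_lit 304) (nat_lit 1704625386) (nat_lit 76) (nat_lit 10013128204) (nat_lit 120) (nat_lit 5) (nat_lit 124) (nat_lit 5) (nat_lit 121) (nat_lit 5) (nat_lit 488) (nat_lit 409) (nat_lit 303))))))) (XT.nd (nat_lit 1170) (nat_lit 1596) (nat_lit 0) (XT.nd (nat_lit 546) (nat_lit 912) (nat_lit 0) (XT.nd (nat_lit 234) (nat_lit 532) (nat_lit 0) (XT.nd (nat_lit 78) (nat_lit 304) (nat_lit 0) (XT.lf (nat_lit 0) (nat_lit 11985989655) (nat_lit 152) (nat_lit 3595619055) (nat_lit 228) (nat_lit 5933294809) (nat_lit 118) (nat_lit 5) (nat_lit 120) (nat_lit 5) (nat_lit 121) (nat_lit 5) (nat_lit 489) (nat_lit 409) (nat_lit 302)) (XT.nd (nat_lit 78) (nat_lit 0) (nat_lit 0) (XT.lf (nat_lit 0) (nat_lit 104346125) (nat_lit 304) (nat_lit 17718949912) (nat_lit 76) (nat_lit 4100906603) (nat_lit 114) (nat_lit 5) (nat_lit 118) (nat_lit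 5) (nat_lit 115) (nat_lit 5) (nat_lit 490) (nat_lit 409) (nat_lit 301)) (XT.lf (nat_lit 0) (nat_lit 6318456639) (nat_lit 304) (nat_lit 3923478277) (nat_lit 76) (nat_lit 12098646180) (nat_lit 114) (nat_lit 5) (nat_lit 118) (nat_lit 5) (nat_lit 115) (nat_lit 5) (nat_lit 491) (nat_lit 409) (nat_lit 300)))) (XT.nd (nat_lit 156) (nat_lit 228) (nat_lit 0) (XT.nd (nat_lit 78) (nat_lit 152) (nat_lit 0) (XT.lf (nat_lit 0) (nat_lit 10458817023) (nat_lit 152) (nat_lit 2343057041) (nat_lit 228) (nat_lit 9965090852) (nat_lit 112) (nat_lit 5) (nat_lit 114) (nat_lit 5) (nat_lit 115) (nat_lit 5) (nat_lit 492) (nat_lit 409) (nat_lit 299)) (XT.lf (nat_lit 0) (nat_lit 2101774748) (nat_lit 152) (nat_lit 17476354533) (nat_lit 228) (nat_lit 3625061415) (nat_lit 110) (nat_lit 5) (nat_lit 112) (nat_lit 5) (nat_lit 113) (nat_lit 5) (nat_lit 493) (nat_lit 409) (nat_lit 298))) (XT.nd (nat_lit 78) (nat_lit 152) (nat_lit 0) (XT.lf (nat_lit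 0) (nat_lit 2979674271) (nat_lit 228) (nat_lit 6536092445) (nat_lit 76) (nat_lit 14131963354) (nat_lit 109) (nat_lit 5) (nat_lit 112) (nat_lit 5) (nat_lit 110) (nat_lit 5) (nat_lit 494) (nat_lit 409) (nat_lit 297)) (XT.lf (nat_lit 0) (nat_lit 8567122591) (nat_lit 152) (nat_lit 1207910409) (nat_lit 228) (nat_lit 14327536100) (nat_lit 107) (nat_lit 5) (nat_lit 109) (nat_lit 5) (nat_lit 110) (nat_lit 5) (nat_lit 495) (nat_lit 409) (nat_lit 296))))) (XT.nd (nat_lit 312) (nat_lit 532) (nat_lit 0) (XT.nd (nat_lit 156) (nat_lit 228) (nat_lit 0) (XT.nd (nat_lit 78) (nat_lit 152) (nat_lit 0) (XT.lf (nat_lit 0) (nat_lit 16894620426) (nat_lit 228) (nat_lit 413385551) (nat_lit 76) (nat_lit 7259436734) (nat_lit 107) (nat_lit 5) (nat_lit 110) (nat_lit 5) (nat_lit 108) (nat_lit 5) (nat_lit 496) (nat_lit 409) (nat_lit 295)) (XT.lf (nat_lit 0) (nat_lit 15421766743) (nat_lit 152) (nat_lit 8949792771) (nat_lit 228) (nat_lit 670390533)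 (nat_lit 105) (nat_lit 5) (nat_lit 107) (nat_lit 5) (nat_lit 108) (nat_lit 5) (nat_lit 497) (nat_lit 409) (nat_lit 294))) (XT.nd (nat_lit 78) (nat_lit 0) (nat_lit 0) (XT.lf (nat_lit 0) (nat_lit 6239117359) (nat_lit 152) (nat_lit 223123963) (nat_lit 228) (nat_lit 19065131464) (nat_lit 102) (nat_lit 5) (nat_lit 104) (nat_lit 5) (nat_lit 105) (nat_lit 5) (nat_lit 498) (nat_lit 409) (nat_lit 293)) (XT.lf (nat_lit 0) (nat_lit 13961410439) (nat_lit 228) (nat_lit 3374552878) (nat_lit 76) (nat_lit 8686215189) (nat_lit 102) (nat_lit 5) (nat_lit 105) (nat_lit 5) (nat_lit 103) (nat_lit 5) (nat_lit 499) (nat_lit 409) (nat_lit 292)))) (XT.nd (nat_lit 156) (nat_lit 152) (nat_lit 0) (XT.nd (nat_lit 78) (nat_lit 228) (nat_lit 0) (XT.lf (nat_lit 0) (nat_lit 13244000261) (nat_lit 152) (nat_lit 8555216457) (nat_lit 228) (nat_lit 4729202204) (nat_lit 100) (nat_lit 5) (nat_lit 102) (nat_lit 5) (nat_lit 103) (nat_lit 5) (nat_lit 500)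 (nat_lit 409) (nat_lit 291)) (XT.lf (nat_lit 0) (nat_lit 2823933753) (nat_lit 228) (nat_lit 23661656133) (nat_lit 76) (nat_lit 561742238) (nat_lit 97) (nat_lit 5) (nat_lit 100) (nat_lit 5) (nat_lit 98) (nat_lit 5) (nat_lit 501) (nat_lit 409) (nat_lit 290))) (XT.nd (nat_lit 78) (nat_lit 152) (nat_lit 0) (XT.lf (nat_lit 0) (nat_lit 10713029731) (nat_lit 228) (nat_lit 6911339780) (nat_lit 76) (nat_lit 9949906306) (nat_lit 97) (nat_lit 5) (nat_lit 100) (nat_lit 5) (nat_lit 98) (nat_lit 5) (nat_lit 502) (nat_lit 409) (nat_lit 289)) (XT.lf (nat_lit 0) (nat_lit 10518699688) (nat_lit 152) (nat_lit 8405908499) (nat_lit 228) (nat_lit 9189845689) (nat_lit 95) (nat_lit 5) (nat_lit 97) (nat_lit 5) (nat_lit 98) (nat_lit 5) (nat_lit 503) (nat_lit 409) (nat_lit 288)))))) (XT.nd (nat_lit 624) (nat_lit 836) (nat_lit 0) (XT.nd (nat_lit 312) (nat_lit 380) (nat_lit 0) (XT.nd (nat_lit 156) (nat_lit 152) (nat_lit 0) (XT.nd (nat_lit 78)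 (nat_lit 228) (nat_lit 0) (XT.lf (nat_lit 0) (nat_lit 27448239772) (nat_lit 228) (nat_lit 94689317) (nat_lit 76) (nat_lit 1125937347) (nat_lit 95) (nat_lit 5) (nat_lit 98) (nat_lit 5) (nat_lit 96) (nat_lit 4) (nat_lit 504) (nat_lit 409) (nat_lit 287)) (XT.lf (nat_lit 0) (nat_lit 7096861529) (nat_lit 228) (nat_lit 11126626230) (nat_lit 76) (nat_lit 11007042420) (nat_lit 92) (nat_lit 5) (nat_lit 95) (nat_lit 5) (nat_lit 93) (nat_lit 5) (nat_lit 505) (nat_lit 409) (nat_lit 286))) (XT.nd (nat_lit 78) (nat_lit 0) (nat_lit 0) (XT.lf (nat_lit 0) (nat_lit 7141329048) (nat_lit 152) (nat_lit 8552849336) (nat_lit 228) (nat_lit 14112858073) (nat_lit 90) (nat_lit 5) (nat_lit 92) (nat_lit 5) (nat_lit 93) (nat_lit 5) (nat_lit 506) (nat_lit 409) (nat_lit 285)) (XT.lf (nat_lit 0) (nat_lit 24661693748) (nat_lit 228) (nat_lit 4254066575) (nat_lit 76) (nat_lit 1481709525) (nat_lit 90) (nat_lit 5) (nat_lit 93) (nat_lit 5) (nat_lit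 91) (nat_lit 4) (nat_lit 507) (nat_lit 409) (nat_lit 284)))) (XT.nd (nat_lit 156) (nat_lit 76) (nat_lit 0) (XT.nd (nat_lit 78) (nat_lit 152) (nat_lit 0) (XT.lf (nat_lit 0) (nat_lit 3051797211) (nat_lit 152) (nat_lit 16139910910) (nat_lit 76) (nat_lit 11806605503) (nat_lit 88) (nat_lit 5) (nat_lit 90) (nat_lit 5) (nat_lit 89) (nat_lit 5) (nat_lit 508) (nat_lit 409) (nat_lit 283)) (XT.lf (nat_lit 0) (nat_lit 2990100630) (nat_lit 152) (nat_lit 9055467364) (nat_lit 228) (nat_lit 19568175684) (nat_lit 86) (nat_lit 5) (nat_lit 88) (nat_lit 5) (nat_lit 89) (nat_lit 5) (nat_lit 509) (nat_lit 409) (nat_lit 282))) (XT.nd (nat_lit 78) (nat_lit 76) (nat_lit 0) (XT.lf (nat_lit 0) (nat_lit 21472832292) (nat_lit 228) (nat_lit 9259441670) (nat_lit 76) (nat_lit 1510452524) (nat_lit 86) (nat_lit 5) (nat_lit 89) (nat_lit 5) (nat_lit 87) (nat_lit 4) (nat_lit 510) (nat_lit 409) (nat_lit 281)) (XT.lf (nat_lit 0) (nat_lit 10780536954)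 (nat_lit 76) (nat_lit 20581852276) (nat_lit 152) (nat_lit 1522805561) (nat_lit 85) (nat_lit 5) (nat_lit 86) (nat_lit 5) (nat_lit 87) (nat_lit 4) (nat_lit 511) (nat_lit 409) (nat_lit 280))))) (XT.nd (nat_lit 312) (nat_lit 456) (nat_lit 0) (XT.nd (nat_lit 156) (nat_lit 152) (nat_lit 0) (XT.nd (nat_lit 78) (nat_lit 152) (nat_lit 0) (XT.lf (nat_lit 0) (nat_lit 7926190027) (nat_lit 152) (nat_lit 2036329649) (nat_lit 76) (nat_lit 23579691109) (nat_lit 84) (nat_lit 5) (nat_lit 86) (nat_lit 5) (nat_lit 85) (nat_lit 5) (nat_lit 512) (nat_lit 409) (nat_lit 279)) (XT.lf (nat_lit 0) (nat_lit 17808168563) (nat_lit 228) (nat_lit 15260735699) (nat_lit 76) (nat_lit 1144177313) (nat_lit 82) (nat_lit 5) (nat_lit 85) (nat_lit 5) (nat_lit 83) (nat_lit 4) (nat_lit 513) (nat_lit 409) (nat_lit 278))) (XT.nd (nat_lit 78) (nat_lit 76) (nat_lit 0) (XT.lf (nat_lit 0) (nat_lit 5696107546) (nat_lit 76) (nat_lit 22451307615) (nat_lit 152) (nat_lit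 6751839295) (nat_lit 81) (nat_lit 5) (nat_lit 82) (nat_lit 5) (nat_lit 83) (nat_lit 4) (nat_lit 514) (nat_lit 409) (nat_lit 277)) (XT.lf (nat_lit 0) (nat_lit 3270858710) (nat_lit 152) (nat_lit 8064284470) (nat_lit 76) (nat_lit 24265680494) (nat_lit 80) (nat_lit 5) (nat_lit 82) (nat_lit 5) (nat_lit 81) (nat_lit 5) (nat_lit 515) (nat_lit 409) (nat_lit 276)))) (XT.nd (nat_lit 156) (nat_lit 304) (nat_lit 0) (XT.nd (nat_lit 78) (nat_lit 0) (nat_lit 0) (XT.lf (nat_lit 0) (nat_lit 13582066178) (nat_lit 228) (nat_lit 22432333714) (nat_lit 76) (nat_lit 303328772) (nat_lit 78) (nat_lit 5) (nat_lit 81) (nat_lit 5) (nat_lit 79) (nat_lit 4) (nat_lit 516) (nat_lit 409) (nat_lit 275)) (XT.lf (nat_lit 0) (nat_lit 24384169003) (nat_lit 228) (nat_lit 532343165) (nat_lit 76) (nat_lit 12134182064) (nat_lit 78) (nat_lit 5) (nat_lit 81) (nat_lit 5) (nat_lit 79) (nat_lit 4) (nat_lit 517) (nat_lit 409) (nat_lit 274))) (XT.nd (nat_lit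 78) (nat_lit 228) (nat_lit 0) (XT.lf (nat_lit 0) (nat_lit 22438736176) (nat_lit 76) (nat_lit 13274759867) (nat_lit 152) (nat_lit 2086058086) (nat_lit 77) (nat_lit 5) (nat_lit 78) (nat_lit 5) (nat_lit 79) (nat_lit 4) (nat_lit 518) (nat_lit 409) (nat_lit 273)) (XT.lf (nat_lit 0) (nat_lit 7578479685) (nat_lit 152) (nat_lit 1127152964) (nat_lit 228) (nat_lit 29860733421) (nat_lit 74) (nat_lit 5) (nat_lit 76) (nat_lit 5) (nat_lit 77) (nat_lit 5) (nat_lit 519) (nat_lit 409) (nat_lit 272))))))))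
noncomputable def xc119 : XT := (XT.nd (nat_lit 2418) (nat_lit 152) (nat_lit 0) (XT.nd (nat_lit 1170) (nat_lit 912) (nat_lit 0) (XT.nd (nat_lit 546) (nat_lit 532) (nat_lit 0) (XT.nd (nat_lit 234) (nat_lit 456) (nat_lit 0) (XT.nd (nat_lit 78) (nat_lit 152) (nat_lit 0) (XT.lf (nat_lit 0) (nat_lit 20032747698) (nat_lit 228) (nat_lit 7986137942) (nat_lit 76) (nat_lit 11329069248) (nat_lit 74) (nat_lit 5) (nat_lit 77) (nat_lit 5) (nat_lit 75) (nat_lit 4) (nat_lit 520) (nat_lit 409) (nat_lit 271)) (XT.nd (nat_lit 78) (nat_lit 76) (nat_lit 0) (XT.lf (nat_lit 0) (nat_lit 15983269240) (nat_lit 76) (nat_lit 15869084465) (nat_lit 152) (nat_lit 8296057515) (nat_lit 73) (nat_lit 5) (nat_lit 74) (nat_lit 5) (nat_lit 75) (nat_lit 4) (nat_lit 521) (nat_lit 409) (nat_lit 270)) (XT.lf (nat_lit 0) (nat_lit 3063412138) (nat_lit 152) (nat_lit 188286829) (nat_lit 76) (nat_lit 37718221821) (nat_lit 72) (nat_lit 5) (nat_lit 74) (nat_lit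 5) (nat_lit 73) (nat_lit 5) (nat_lit 522) (nat_lit 409) (nat_lit 269)))) (XT.nd (nat_lit 156) (nat_lit 228) (nat_lit 0) (XT.nd (nat_lit 78) (nat_lit 76) (nat_lit 0) (XT.lf (nat_lit 0) (nat_lit 14921160903) (nat_lit 228) (nat_lit 17014591009) (nat_lit 76) (nat_lit 9868132589) (nat_lit 70) (nat_lit 5) (nat_lit 73) (nat_lit 5) (nat_lit 71) (nat_lit 4) (nat_lit 523) (nat_lit 409) (nat_lit 268)) (XT.lf (nat_lit 0) (nat_lit 7957830805) (nat_lit 76) (nat_lit 19275692013) (nat_lit 152) (nat_lit 15426378040) (nat_lit 69) (nat_lit 5) (nat_lit 70) (nat_lit 5) (nat_lit 71) (nat_lit 4) (nat_lit 524) (nat_lit 409) (nat_lit 267))) (XT.nd (nat_lit 78) (nat_lit 228) (nat_lit 0) (XT.lf (nat_lit 0) (nat_lit 34005936113) (nat_lit 76) (nat_lit 6069531008) (nat_lit 152) (nat_lit 3461324390) (nat_lit 69) (nat_lit 5) (nat_lit 70) (nat_lit 5) (nat_lit 71) (nat_lit 4) (nat_lit 525) (nat_lit 409) (nat_lit 266)) (XT.lf (nat_lit 0) (nat_lit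 8912786486) (nat_lit 228) (nat_lit 27895092858) (nat_lit 76) (nat_lit 7622862424) (nat_lit 66) (nat_lit 5) (nat_lit 69) (nat_lit 5) (nat_lit 67) (nat_lit 4) (nat_lit 526) (nat_lit 409) (nat_lit 265))))) (XT.nd (nat_lit 312) (nat_lit 304) (nat_lit 0) (XT.nd (nat_lit 156) (nat_lit 152) (nat_lit 0) (XT.nd (nat_lit 78) (nat_lit 76) (nat_lit 0) (XT.lf (nat_lit 0) (nat_lit 21734489072) (nat_lit 228) (nat_lit 1886292676) (nat_lit 76) (nat_lit 21725322676) (nat_lit 66) (nat_lit 5) (nat_lit 69) (nat_lit 5) (nat_lit 67) (nat_lit 4) (nat_lit 527) (nat_lit 409) (nat_lit 264)) (XT.lf (nat_lit 0) (nat_lit 25376726765) (nat_lit 76) (nat_lit 9797030610) (nat_lit 152) (nat_lit 11108183281) (nat_lit 65) (nat_lit 5) (nat_lit 66) (nat_lit 5) (nat_lit 67) (nat_lit 4) (nat_lit 528) (nat_lit 409) (nat_lit 263))) (XT.nd (nat_lit 78) (nat_lit 0) (nat_lit 0) (XT.lf (nat_lit 0) (nat_lit 1848496020) (nat_lit 152) (nat_lit 40950612688) (nat_lit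 76) (nat_lit 4442852154) (nat_lit 63) (nat_lit 5) (nat_lit 65) (nat_lit 5) (nat_lit 64) (nat_lit 4) (nat_lit 529) (nat_lit 409) (nat_lit 262)) (XT.lf (nat_lit 0) (nat_lit 15269814082) (nat_lit 152) (nat_lit 13722445790) (nat_lit 76) (nat_lit 19226246408) (nat_lit 63) (nat_lit 5) (nat_lit 65) (nat_lit 5) (nat_lit 64) (nat_lit 4) (nat_lit 530) (nat_lit 409) (nat_lit 261)))) (XT.nd (nat_lit 156) (nat_lit 228) (nat_lit 0) (XT.nd (nat_lit 78) (nat_lit 0) (nat_lit 0) (XT.lf (nat_lit 0) (nat_lit 14586553550) (nat_lit 76) (nat_lit 14636762894) (nat_lit 152) (nat_lit 19997145393) (nat_lit 62) (nat_lit 5) (nat_lit 63) (nat_lit 5) (nat_lit 64) (nat_lit 4) (nat_lit 531) (nat_lit 409) (nat_lit 260)) (XT.lf (nat_lit 0) (nat_lit 43726150813) (nat_lit 152) (nat_lit 6245675546) (nat_lit 0) (nat_lit 276728010) (nat_lit 62) (nat_lit 5) (nat_lit 64) (nat_lit 4) (nat_lit 62) (nat_lit 4) (nat_lit 532) (nat_lit 409) (nat_lit 259))) (XT.nd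 (nat_lit 78) (nat_lit 76) (nat_lit 0) (XT.lf (nat_lit 0) (nat_lit 7574969087) (nat_lit 152) (nat_lit 28087436475) (nat_lit 76) (nat_lit 15632104485) (nat_lit 60) (nat_lit 5) (nat_lit 62) (nat_lit 5) (nat_lit 61) (nat_lit 4) (nat_lit 533) (nat_lit 409) (nat_lit 258)) (XT.lf (nat_lit 0) (nat_lit 1240410172) (nat_lit 76) (nat_lit 20789044048) (nat_lit 152) (nat_lit 30338494379) (nat_lit 59) (nat_lit 5) (nat_lit 60) (nat_lit 5) (nat_lit 61) (nat_lit 4) (nat_lit 534) (nat_lit 409) (nat_lit 257)))))) (XT.nd (nat_lit 624) (nat_lit 456) (nat_lit 0) (XT.nd (nat_lit 312) (nat_lit 228) (nat_lit 0) (XT.nd (nat_lit 156) (nat_lit 152) (nat_lit 0) (XT.nd (nat_lit 78) (nat_lit 76) (nat_lit 0) (XT.lf (nat_lit 0) (nat_lit 32003978878) (nat_lit 76) (nat_lit 5187000972) (nat_lit 152) (nat_lit 16274408380) (nat_lit 59) (nat_lit 5) (nat_lit 60) (nat_lit 5) (nat_lit 61) (nat_lit 4) (nat_lit 535) (nat_lit 409) (nat_lit 256)) (XT.lf (nat_lit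 0) (nat_lit 9149113722) (nat_lit 76) (nat_lit 43840784975) (nat_lit 76) (nat_lit 1600376030) (nat_lit 58) (nat_lit 4) (nat_lit 59) (nat_lit 5) (nat_lit 59) (nat_lit 4) (nat_lit 536) (nat_lit 409) (nat_lit 255))) (XT.nd (nat_lit 78) (nat_lit 76) (nat_lit 0) (XT.lf (nat_lit 0) (nat_lit 13510386524) (nat_lit 152) (nat_lit 14827436746) (nat_lit 76) (nat_lit 27399381124) (nat_lit 57) (nat_lit 5) (nat_lit 59) (nat_lit 5) (nat_lit 58) (nat_lit 4) (nat_lit 537) (nat_lit 409) (nat_lit 254)) (XT.lf (nat_lit 0) (nat_lit 17001671187) (nat_lit 76) (nat_lit 12194350048) (nat_lit 152) (nat_lit 27717433989) (nat_lit 56) (nat_lit 5) (nat_lit 57) (nat_lit 5) (nat_lit 58) (nat_lit 4) (nat_lit 538) (nat_lit 409) (nat_lit 253)))) (XT.nd (nat_lit 156) (nat_lit 76) (nat_lit 0) (XT.nd (nat_lit 78) (nat_lit 152) (nat_lit 0) (XT.lf (nat_lit 0) (nat_lit 45536351775) (nat_lit 152) (nat_lit 8093962099) (nat_lit 0) (nat_lit 4489155989) (nat_lit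 56) (nat_lit 5) (nat_lit 58) (nat_lit 4) (nat_lit 56) (nat_lit 4) (nat_lit 539) (nat_lit 409) (nat_lit 252)) (XT.lf (nat_lit 0) (nat_lit 3301967573) (nat_lit 152) (nat_lit 34355851849) (nat_lit 76) (nat_lit 21692317469) (nat_lit 54) (nat_lit 5) (nat_lit 56) (nat_lit 5) (nat_lit 55) (nat_lit 4) (nat_lit 540) (nat_lit 409) (nat_lit 251))) (XT.nd (nat_lit 78) (nat_lit 76) (nat_lit 0) (XT.lf (nat_lit 0) (nat_lit 19483828732) (nat_lit 152) (nat_lit 1517984608) (nat_lit 76) (nat_lit 39609979175) (nat_lit 54) (nat_lit 5) (nat_lit 56) (nat_lit 5) (nat_lit 55) (nat_lit 4) (nat_lit 541) (nat_lit 409) (nat_lit 250)) (XT.lf (nat_lit 0) (nat_lit 32929716419) (nat_lit 76) (nat_lit 3528832754) (nat_lit 152) (nat_lit 25443526611) (nat_lit 53) (nat_lit 5) (nat_lit 54) (nat_lit 5) (nat_lit 55) (nat_lit 4) (nat_lit 542) (nat_lit 409) (nat_lit 249))))) (XT.nd (nat_lit 312) (nat_lit 228) (nat_lit 0) (XT.nd (nat_lit 156) (nat_lit 76)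 (nat_lit 0) (XT.nd (nat_lit 78) (nat_lit 76) (nat_lit 0) (XT.lf (nat_lit 0) (nat_lit 5154824547) (nat_lit 76) (nat_lit 48982672490) (nat_lit 76) (nat_lit 9087721014) (nat_lit 52) (nat_lit 4) (nat_lit 53) (nat_lit 5) (nat_lit 53) (nat_lit 4) (nat_lit 543) (nat_lit 409) (nat_lit 248)) (XT.lf (nat_lit 0) (nat_lit 7928638579) (nat_lit 152) (nat_lit 23809864758) (nat_lit 76) (nat_lit 32837675429) (nat_lit 51) (nat_lit 5) (nat_lit 53) (nat_lit 5) (nat_lit 52) (nat_lit 4) (nat_lit 544) (nat_lit 409) (nat_lit 247))) (XT.nd (nat_lit 78) (nat_lit 0) (nat_lit 0) (XT.lf (nat_lit 0) (nat_lit 11597432934) (nat_lit 76) (nat_lit 13778030563) (nat_lit 152) (nat_lit 40586426690) (nat_lit 50) (nat_lit 5) (nat_lit 51) (nat_lit 5) (nat_lit 52) (nat_lit 4) (nat_lit 545) (nat_lit 409) (nat_lit 246)) (XT.lf (nat_lit 0) (nat_lit 43625048608) (nat_lit 152) (nat_lit 18892084143) (nat_lit 0) (nat_lit 4863659603) (nat_lit 50) (nat_lit 5) (nat_lit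 52) (nat_lit 4) (nat_lit 50) (nat_lit 4) (nat_lit 546) (nat_lit 409) (nat_lit 245)))) (XT.nd (nat_lit 156) (nat_lit 76) (nat_lit 0) (XT.nd (nat_lit 78) (nat_lit 76) (nat_lit 0) (XT.lf (nat_lit 0) (nat_lit 17839270402) (nat_lit 76) (nat_lit 44882164887) (nat_lit 76) (nat_lit 6111846943) (nat_lit 49) (nat_lit 4) (nat_lit 50) (nat_lit 5) (nat_lit 50) (nat_lit 4) (nat_lit 547) (nat_lit 409) (nat_lit 244)) (XT.lf (nat_lit 0) (nat_lit 12010088958) (nat_lit 152) (nat_lit 14398506228) (nat_lit 76) (nat_lit 43911750958) (nat_lit 48) (nat_lit 5) (nat_lit 50) (nat_lit 5) (nat_lit 49) (nat_lit 4) (nat_lit 548) (nat_lit 409) (nat_lit 243))) (XT.nd (nat_lit 78) (nat_lit 0) (nat_lit 0) (XT.lf (nat_lit 0) (nat_lit 23680038591) (nat_lit 76) (nat_lit 7092100219) (nat_lit 152) (nat_lit 41071488885) (nat_lit 47) (nat_lit 5) (nat_lit 48) (nat_lit 5) (nat_lit 49) (nat_lit 4) (nat_lit 549) (nat_lit 409) (nat_lit 242)) (XT.lf (nat_lit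 0) (nat_lit 50358645869) (nat_lit 152) (nat_lit 10353074393) (nat_lit 0) (nat_lit 12693039618) (nat_lit 47) (nat_lit 5) (nat_lit 49) (nat_lit 4) (nat_lit 47) (nat_lit 4) (nat_lit 550) (nat_lit 409) (nat_lit 241))))))) (XT.nd (nat_lit 52572) (nat_lit 0) (nat_lit 16948) (XT.nd (nat_lit 51948) (nat_lit 0) (nat_lit 25004) (XT.nd (nat_lit 51636) (nat_lit 0) (nat_lit 26600) (XT.nd (nat_lit 51480) (nat_lit 0) (nat_lit 27284) (XT.nd (nat_lit 78) (nat_lit 76) (nat_lit 0) (XT.lf (nat_lit 0) (nat_lit 29072927063) (nat_lit 76) (nat_lit 41801429599) (nat_lit 76) (nat_lit 4128121169) (nat_lit 46) (nat_lit 4) (nat_lit 47) (nat_lit 5) (nat_lit 47) (nat_lit 4) (nat_lit 551) (nat_lit 409) (nat_lit 240)) (XT.lf (nat_lit 0) (nat_lit 15155241308) (nat_lit 152) (nat_lit 6915646418) (nat_lit 76) (nat_lit 54569885654) (nat_lit 45) (nat_lit 5) (nat_lit 47) (nat_lit 5) (nat_lit 46) (nat_lit 4) (nat_lit 552) (nat_lit 409) (nat_lit 239)))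 (XT.nd (nat_lit 78) (nat_lit 684) (nat_lit 0) (XT.lf (nat_lit 0) (nat_lit 2767333764) (nat_lit 684) (nat_lit 332713375) (nat_lit 684) (nat_lit 332713375) (nat_lit 413) (nat_lit 3) (nat_lit 422) (nat_lit 3) (nat_lit 422) (nat_lit 5) (nat_lit 410) (nat_lit 410) (nat_lit 380)) (XT.lf (nat_lit 0) (nat_lit 661453680) (nat_lit 684) (nat_lit 4116087154) (nat_lit 760) (nat_lit 2131526729) (nat_lit 404) (nat_lit 5) (nat_lit 413) (nat_lit 3) (nat_lit 414) (nat_lit 5) (nat_lit 411) (nat_lit 410) (nat_lit 379)))) (XT.nd (nat_lit 156) (nat_lit 684) (nat_lit 0) (XT.nd (nat_lit 78) (nat_lit 0) (nat_lit 0) (XT.lf (nat_lit 0) (nat_lit 2616737466) (nat_lit 684) (nat_lit 639479031) (nat_lit 760) (nat_lit 3699419705) (nat_lit 404) (nat_lit 5) (nat_lit 413) (nat_lit 3) (nat_lit 414) (nat_lit 5) (nat_lit 412) (nat_lit 410) (nat_lit 378)) (XT.lf (nat_lit 76) (nat_lit 2959075177) (nat_lit 0) (nat_lit 1625456985) (nat_lit 760) (nat_lit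 2420463585) (nat_lit 405) (nat_lit 5) (nat_lit 404) (nat_lit 5) (nat_lit 414) (nat_lit 5) (nat_lit 413) (nat_lit 410) (nat_lit 377))) (XT.nd (nat_lit 78) (nat_lit 760) (nat_lit 0) (XT.lf (nat_lit 0) (nat_lit 6545920447) (nat_lit 684) (nat_lit 419745471) (nat_lit 760) (nat_lit 92142508) (nat_lit 405) (nat_lit 5) (nat_lit 414) (nat_lit 5) (nat_lit 415) (nat_lit 5) (nat_lit 414) (nat_lit 410) (nat_lit 376)) (XT.lf (nat_lit 0) (nat_lit 1403007742) (nat_lit 760) (nat_lit 3803657970) (nat_lit 836) (nat_lit 1905806068) (nat_lit 395) (nat_lit 5) (nat_lit 405) (nat_lit 5) (nat_lit 406) (nat_lit 5) (nat_lit 415) (nat_lit 410) (nat_lit 375))))) (XT.nd (nat_lit 312) (nat_lit 836) (nat_lit 0) (XT.nd (nat_lit 156) (nat_lit 760) (nat_lit 0) (XT.nd (nat_lit 78) (nat_lit 0) (nat_lit 0) (XT.lf (nat_lit 0) (nat_lit 3299941504) (nat_lit 760) (nat_lit 57894731) (nat_lit 836) (nat_lit 3812748731) (nat_lit 395) (nat_lit 5) (nat_lit 405)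 (nat_lit 5) (nat_lit 406) (nat_lit 5) (nat_lit 416) (nat_lit 410) (nat_lit 374)) (XT.lf (nat_lit 76) (nat_lit 3834314207) (nat_lit 0) (nat_lit 1388947269) (nat_lit 836) (nat_lit 2008103848) (nat_lit 396) (nat_lit 5) (nat_lit 395) (nat_lit 5) (nat_lit 406) (nat_lit 5) (nat_lit 417) (nat_lit 410) (nat_lit 373))) (XT.nd (nat_lit 78) (nat_lit 836) (nat_lit 0) (XT.lf (nat_lit 76) (nat_lit 511787417) (nat_lit 0) (nat_lit 6638585970) (nat_lit 836) (nat_lit 145220821) (nat_lit 397) (nat_lit 5) (nat_lit 396) (nat_lit 5) (nat_lit 407) (nat_lit 5) (nat_lit 418) (nat_lit 410) (nat_lit 372)) (XT.lf (nat_lit 0) (nat_lit 1722637840) (nat_lit 836) (nat_lit 2827786903) (nat_lit 912) (nat_lit 2811310272) (nat_lit 385) (nat_lit 5) (nat_lit 396) (nat_lit 5) (nat_lit 397) (nat_lit 5) (nat_lit 419) (nat_lit 410) (nat_lit 371)))) (XT.nd (nat_lit 156) (nat_lit 836) (nat_lit 0) (XT.nd (nat_lit 78) (nat_lit 0) (nat_lit 0) (XT.lf (nat_lit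 76) (nat_lit 1227235825) (nat_lit 0) (nat_lit 2365361303) (nat_lit 912) (nat_lit 3838757491) (nat_lit 386) (nat_lit 5) (nat_lit 385) (nat_lit 5) (nat_lit 397) (nat_lit 5) (nat_lit 420) (nat_lit 410) (nat_lit 370)) (XT.lf (nat_lit 76) (nat_lit 5420101982) (nat_lit 0) (nat_lit 65722989) (nat_lit 912) (nat_lit 2018229751) (nat_lit 386) (nat_lit 5) (nat_lit 385) (nat_lit 5) (nat_lit 397) (nat_lit 5) (nat_lit 421) (nat_lit 410) (nat_lit 369))) (XT.nd (nat_lit 78) (nat_lit 912) (nat_lit 0) (XT.lf (nat_lit 76) (nat_lit 2136843745) (nat_lit 0) (nat_lit 5282269102) (nat_lit 912) (nat_lit 160331890) (nat_lit 387) (nat_lit 5) (nat_lit 386) (nat_lit 5) (nat_lit 398) (nat_lit 5) (nat_lit 422) (nat_lit 410) (nat_lit 368)) (XT.lf (nat_lit 0) (nat_lit 1682322224) (nat_lit 912) (nat_lit 1190487115) (nat_lit 988) (nat_lit 4784890932) (nat_lit 374) (nat_lit 5) (nat_lit 386) (nat_lit 5) (nat_lit 387) (nat_lit 5) (nat_lit 423) (nat_lit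 410) (nat_lit 367)))))) (XT.nd (nat_lit 624) (nat_lit 3876) (nat_lit 0) (XT.nd (nat_lit 312) (nat_lit 2280) (nat_lit 0) (XT.nd (nat_lit 156) (nat_lit 1900) (nat_lit 0) (XT.nd (nat_lit 78) (nat_lit 0) (nat_lit 76) (XT.lf (nat_lit 76) (nat_lit 3208174517) (nat_lit 0) (nat_lit 342736374) (nat_lit 988) (nat_lit 4188134858) (nat_lit 375) (nat_lit 5) (nat_lit 374) (nat_lit 5) (nat_lit 387) (nat_lit 5) (nat_lit 424) (nat_lit 410) (nat_lit 366)) (XT.lf (nat_lit 0) (nat_lit 5453886351) (nat_lit 912) (nat_lit 124577472) (nat_lit 76) (nat_lit 2245023940) (nat_lit 375) (nat_lit 5) (nat_lit 387) (nat_lit 5) (nat_lit 376) (nat_lit 5) (nat_lit 425) (nat_lit 410) (nat_lit 365))) (XT.nd (nat_lit 78) (nat_lit 1064) (nat_lit 0) (XT.lf (nat_lit 0) (nat_lit 4455283621) (nat_lit 912) (nat_lit 2950939139) (nat_lit 988) (nat_lit 504477993) (nat_lit 363) (nat_lit 5) (nat_lit 375) (nat_lit 5) (nat_lit 376) (nat_lit 5) (nat_lit 426) (nat_lit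 410) (nat_lit 364)) (XT.lf (nat_lit 0) (nat_lit 1140405899) (nat_lit 988) (nat_lit 207476159) (nat_lit 1064) (nat_lit 6653477313) (nat_lit 349) (nat_lit 5) (nat_lit 362) (nat_lit 5) (nat_lit 363) (nat_lit 5) (nat_lit 427) (nat_lit 410) (nat_lit 363)))) (XT.nd (nat_lit 156) (nat_lit 1216) (nat_lit 0) (XT.nd (nat_lit 78) (nat_lit 1064) (nat_lit 0) (XT.lf (nat_lit 0) (nat_lit 3254012479) (nat_lit 1064) (nat_lit 2223327576) (nat_lit 76) (nat_lit 2617003045) (nat_lit 349) (nat_lit 5) (nat_lit 363) (nat_lit 5) (nat_lit 350) (nat_lit 5) (nat_lit 428) (nat_lit 410) (nat_lit 362)) (XT.lf (nat_lit 0) (nat_lit 2558518215) (nat_lit 1064) (nat_lit 2634905448) (nat_lit 1140) (nat_lit 2997414985) (nat_lit 335) (nat_lit 5) (nat_lit 349) (nat_lit 5) (nat_lit 350) (nat_lit 5) (nat_lit 429) (nat_lit 410) (nat_lit 361))) (XT.nd (nat_lit 78) (nat_lit 1216) (nat_lit 0) (XT.lf (nat_lit 0) (nat_lit 7167087570) (nat_lit 1140) (nat_lit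 807116282) (nat_lit 76) (nat_lit 316748163) (nat_lit 335) (nat_lit 5) (nat_lit 350) (nat_lit 5) (nat_lit 336) (nat_lit 5) (nat_lit 430) (nat_lit 410) (nat_lit 360)) (XT.lf (nat_lit 0) (nat_lit 808590767) (nat_lit 1216) (nat_lit 4225856944) (nat_lit 76) (nat_lit 3358840718) (nat_lit 319) (nat_lit 5) (nat_lit 335) (nat_lit 5) (nat_lit 320) (nat_lit 5) (nat_lit 431) (nat_lit 410) (nat_lit 359))))) (XT.nd (nat_lit 312) (nat_lit 1748) (nat_lit 0) (XT.nd (nat_lit 156) (nat_lit 912) (nat_lit 0) (XT.nd (nat_lit 78) (nat_lit 0) (nat_lit 0) (XT.lf (nat_lit 0) (nat_lit 769955732) (nat_lit 1216) (nat_lit 1974650888) (nat_lit 1292) (nat_lit 5754713860) (nat_lit 303) (nat_lit 5) (nat_lit 319) (nat_lit 5) (nat_lit 320) (nat_lit 5) (nat_lit 432) (nat_lit 410) (nat_lit 358)) (XT.lf (nat_lit 0) (nat_lit 4746662307) (nat_lit 1292) (nat_lit 2660903462) (nat_lit 76) (nat_lit 1200733441) (nat_lit 303) (nat_lit 5) (nat_lit 320) (nat_lit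 5) (nat_lit 304) (nat_lit 5) (nat_lit 433) (nat_lit 410) (nat_lit 357))) (XT.nd (nat_lit 78) (nat_lit 76) (nat_lit 0) (XT.lf (nat_lit 0) (nat_lit 2546863116) (nat_lit 836) (nat_lit 4260852967) (nat_lit 912) (nat_lit 1912867492) (nat_lit 292) (nat_lit 5) (nat_lit 303) (nat_lit 5) (nat_lit 304) (nat_lit 5) (nat_lit 434) (nat_lit 410) (nat_lit 356)) (XT.lf (nat_lit 0) (nat_lit 75026459) (nat_lit 912) (nat_lit 914562773) (nat_lit 76) (nat_lit 7847149056) (nat_lit 291) (nat_lit 5) (nat_lit 303) (nat_lit 5) (nat_lit 292) (nat_lit 5) (nat_lit 435) (nat_lit 410) (nat_lit 355)))) (XT.nd (nat_lit 156) (nat_lit 532) (nat_lit 0) (XT.nd (nat_lit 78) (nat_lit 608) (nat_lit 0) (XT.lf (nat_lit 0) (nat_lit 2107826453) (nat_lit 684) (nat_lit 4449597112) (nat_lit 76) (nat_lit 2397678416) (nat_lit 283) (nat_lit 5) (nat_lit 292) (nat_lit 5) (nat_lit 284) (nat_lit 5) (nat_lit 436) (nat_lit 410) (nat_lit 354)) (XT.lf (nat_lit 0) (nat_lit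 996766340) (nat_lit 608) (nat_lit 3191086038) (nat_lit 684) (nat_lit 4889580827) (nat_lit 275) (nat_lit 5) (nat_lit 283) (nat_lit 5) (nat_lit 284) (nat_lit 5) (nat_lit 437) (nat_lit 410) (nat_lit 353))) (XT.nd (nat_lit 78) (nat_lit 532) (nat_lit 0) (XT.lf (nat_lit 0) (nat_lit 6336666234) (nat_lit 684) (nat_lit 2551253741) (nat_lit 76) (nat_lit 315326543) (nat_lit 275) (nat_lit 5) (nat_lit 284) (nat_lit 5) (nat_lit 276) (nat_lit 5) (nat_lit 438) (nat_lit 410) (nat_lit 352)) (XT.lf (nat_lit 0) (nat_lit 3131019935) (nat_lit 532) (nat_lit 5440184399) (nat_lit 608) (nat_lit 760995758) (nat_lit 268) (nat_lit 5) (nat_lit 275) (nat_lit 5) (nat_lit 276) (nat_lit 5) (nat_lit 439) (nat_lit 410) (nat_lit 351))))))))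
noncomputable def xc120 : XT := (XT.nd (nat_lit 2418) (nat_lit 4560) (nat_lit 0) (XT.nd (nat_lit 1170) (nat_lit 3572) (nat_lit 0) (XT.nd (nat_lit 546) (nat_lit 2356) (nat_lit 0) (XT.nd (nat_lit 234) (nat_lit 1064) (nat_lit 0) (XT.nd (nat_lit 78) (nat_lit 1140) (nat_lit 0) (XT.lf (nat_lit 0) (nat_lit 1366248014) (nat_lit 608) (nat_lit 484884794) (nat_lit 76) (nat_lit 7613908082) (nat_lit 267) (nat_lit 5) (nat_lit 275) (nat_lit 5) (nat_lit 268) (nat_lit 5) (nat_lit 440) (nat_lit 410) (nat_lit 350)) (XT.nd (nat_lit 78) (nat_lit 532) (nat_lit 0) (XT.lf (nat_lit 0) (nat_lit 3573920794) (nat_lit 684) (nat_lit 4159289177) (nat_lit 76) (nat_lit 1867477041) (nat_lit 259) (nat_lit 5) (nat_lit 268) (nat_lit 5) (nat_lit 260) (nat_lit 5) (nat_lit 441) (nat_lit 410) (nat_lit 349)) (XT.lf (nat_lit 0) (nat_lit 1789324595) (nat_lit 532) (nat_lit 4060789591) (nat_lit 608) (nat_lit 3890222867) (nat_lit 252) (nat_lit 5) (nat_lit 259)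 (nat_lit 5) (nat_lit 260) (nat_lit 5) (nat_lit 442) (nat_lit 410) (nat_lit 348)))) (XT.nd (nat_lit 156) (nat_lit 456) (nat_lit 0) (XT.nd (nat_lit 78) (nat_lit 608) (nat_lit 0) (XT.lf (nat_lit 0) (nat_lit 7959705478) (nat_lit 532) (nat_lit 239414841) (nat_lit 608) (nat_lit 1684923622) (nat_lit 252) (nat_lit 5) (nat_lit 259) (nat_lit 5) (nat_lit 260) (nat_lit 5) (nat_lit 443) (nat_lit 410) (nat_lit 347)) (XT.lf (nat_lit 0) (nat_lit 615829079) (nat_lit 608) (nat_lit 5747370008) (nat_lit 76) (nat_lit 3667474582) (nat_lit 244) (nat_lit 5) (nat_lit 252) (nat_lit 5) (nat_lit 245) (nat_lit 5) (nat_lit 444) (nat_lit 410) (nat_lit 346))) (XT.nd (nat_lit 78) (nat_lit 0) (nat_lit 0) (XT.lf (nat_lit 0) (nat_lit 483598753) (nat_lit 456) (nat_lit 2458665988) (nat_lit 532) (nat_lit 7239224191) (nat_lit 238) (nat_lit 5) (nat_lit 244) (nat_lit 5) (nat_lit 245) (nat_lit 5) (nat_lit 445) (nat_lit 410) (nat_lit 345)) (XT.lf (nat_lit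 0) (nat_lit 5376603494) (nat_lit 532) (nat_lit 3374064544) (nat_lit 76) (nat_lit 1585020118) (nat_lit 238) (nat_lit 5) (nat_lit 245) (nat_lit 5) (nat_lit 239) (nat_lit 5) (nat_lit 446) (nat_lit 410) (nat_lit 344))))) (XT.nd (nat_lit 312) (nat_lit 912) (nat_lit 0) (XT.nd (nat_lit 156) (nat_lit 988) (nat_lit 0) (XT.nd (nat_lit 78) (nat_lit 0) (nat_lit 0) (XT.lf (nat_lit 0) (nat_lit 3134858541) (nat_lit 456) (nat_lit 4769099703) (nat_lit 532) (nat_lit 2589958258) (nat_lit 232) (nat_lit 5) (nat_lit 238) (nat_lit 5) (nat_lit 239) (nat_lit 5) (nat_lit 447) (nat_lit 410) (nat_lit 343)) (XT.lf (nat_lit 0) (nat_lit 9867174202) (nat_lit 456) (nat_lit 640149408) (nat_lit 532) (nat_lit 149565030) (nat_lit 232) (nat_lit 5) (nat_lit 238) (nat_lit 5) (nat_lit 239) (nat_lit 5) (nat_lit 448) (nat_lit 410) (nat_lit 342))) (XT.nd (nat_lit 78) (nat_lit 456) (nat_lit 0) (XT.lf (nat_lit 0) (nat_lit 2378117650) (nat_lit 532) (nat_lit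 4827618202) (nat_lit 76) (nat_lit 3616528585) (nat_lit 225) (nat_lit 5) (nat_lit 232) (nat_lit 5) (nat_lit 226) (nat_lit 5) (nat_lit 449) (nat_lit 410) (nat_lit 341)) (XT.lf (nat_lit 0) (nat_lit 1996401743) (nat_lit 456) (nat_lit 2983092671) (nat_lit 532) (nat_lit 6013038996) (nat_lit 219) (nat_lit 5) (nat_lit 225) (nat_lit 5) (nat_lit 226) (nat_lit 5) (nat_lit 450) (nat_lit 410) (nat_lit 340)))) (XT.nd (nat_lit 156) (nat_lit 532) (nat_lit 0) (XT.nd (nat_lit 78) (nat_lit 380) (nat_lit 0) (XT.lf (nat_lit 0) (nat_lit 7689046035) (nat_lit 532) (nat_lit 2097464388) (nat_lit 76) (nat_lit 1380498368) (nat_lit 219) (nat_lit 5) (nat_lit 226) (nat_lit 5) (nat_lit 220) (nat_lit 5) (nat_lit 451) (nat_lit 410) (nat_lit 339)) (XT.lf (nat_lit 0) (nat_lit 5036614246) (nat_lit 380) (nat_lit 5489927703) (nat_lit 456) (nat_lit 818779030) (nat_lit 214) (nat_lit 5) (nat_lit 219) (nat_lit 5) (nat_lit 220) (nat_lit 5) (nat_lit 452)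 (nat_lit 410) (nat_lit 338))) (XT.nd (nat_lit 78) (nat_lit 0) (nat_lit 0) (XT.lf (nat_lit 0) (nat_lit 856896503) (nat_lit 456) (nat_lit 1024369345) (nat_lit 532) (nat_lit 9647208436) (nat_lit 207) (nat_lit 5) (nat_lit 213) (nat_lit 5) (nat_lit 214) (nat_lit 5) (nat_lit 453) (nat_lit 410) (nat_lit 337)) (XT.lf (nat_lit 0) (nat_lit 4713913908) (nat_lit 532) (nat_lit 3432475382) (nat_lit 76) (nat_lit 3568450029) (nat_lit 207) (nat_lit 5) (nat_lit 214) (nat_lit 5) (nat_lit 208) (nat_lit 5) (nat_lit 454) (nat_lit 410) (nat_lit 336)))))) (XT.nd (nat_lit 624) (nat_lit 1672) (nat_lit 0) (XT.nd (nat_lit 312) (nat_lit 760) (nat_lit 0) (XT.nd (nat_lit 156) (nat_lit 760) (nat_lit 0) (XT.nd (nat_lit 78) (nat_lit 0) (nat_lit 0) (XT.lf (nat_lit 0) (nat_lit 4052988509) (nat_lit 380) (nat_lit 3597903109) (nat_lit 456) (nat_lit 4255325204) (nat_lit 202) (nat_lit 5) (nat_lit 207) (nat_lit 5) (nat_lit 208) (nat_lit 5) (nat_lit 455)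 (nat_lit 410) (nat_lit 335)) (XT.lf (nat_lit 0) (nat_lit 10692071522) (nat_lit 456) (nat_lit 319860249) (nat_lit 76) (nat_lit 1090923060) (nat_lit 202) (nat_lit 5) (nat_lit 208) (nat_lit 5) (nat_lit 203) (nat_lit 5) (nat_lit 456) (nat_lit 410) (nat_lit 334))) (XT.nd (nat_lit 78) (nat_lit 304) (nat_lit 0) (XT.lf (nat_lit 0) (nat_lit 1569557387) (nat_lit 456) (nat_lit 4806921188) (nat_lit 76) (nat_lit 5926074018) (nat_lit 196) (nat_lit 5) (nat_lit 202) (nat_lit 5) (nat_lit 197) (nat_lit 5) (nat_lit 457) (nat_lit 410) (nat_lit 333)) (XT.lf (nat_lit 0) (nat_lit 3050358986) (nat_lit 304) (nat_lit 1564851857) (nat_lit 380) (nat_lit 7892485460) (nat_lit 192) (nat_lit 5) (nat_lit 196) (nat_lit 5) (nat_lit 197) (nat_lit 5) (nat_lit 458) (nat_lit 410) (nat_lit 332)))) (XT.nd (nat_lit 156) (nat_lit 380) (nat_lit 0) (XT.nd (nat_lit 78) (nat_lit 380) (nat_lit 0) (XT.lf (nat_lit 0) (nat_lit 7805873967) (nat_lit 380) (nat_lit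 1548235292) (nat_lit 76) (nat_lit 3363277611) (nat_lit 192) (nat_lit 5) (nat_lit 197) (nat_lit 5) (nat_lit 193) (nat_lit 5) (nat_lit 459) (nat_lit 410) (nat_lit 331)) (XT.lf (nat_lit 0) (nat_lit 6674527403) (nat_lit 380) (nat_lit 4470219143) (nat_lit 456) (nat_lit 1787048616) (nat_lit 187) (nat_lit 5) (nat_lit 192) (nat_lit 5) (nat_lit 193) (nat_lit 5) (nat_lit 460) (nat_lit 410) (nat_lit 330))) (XT.nd (nat_lit 78) (nat_lit 0) (nat_lit 0) (XT.lf (nat_lit 0) (nat_lit 1417090217) (nat_lit 380) (nat_lit 11147404485) (nat_lit 76) (nat_lit 587313863) (nat_lit 182) (nat_lit 5) (nat_lit 187) (nat_lit 5) (nat_lit 183) (nat_lit 5) (nat_lit 461) (nat_lit 410) (nat_lit 329)) (XT.lf (nat_lit 0) (nat_lit 4762811324) (nat_lit 380) (nat_lit 2835747620) (nat_lit 76) (nat_lit 5776892889) (nat_lit 182) (nat_lit 5) (nat_lit 187) (nat_lit 5) (nat_lit 183) (nat_lit 5) (nat_lit 462) (nat_lit 410) (nat_lit 328))))) (XT.nd (nat_lit 312)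 (nat_lit 684) (nat_lit 0) (XT.nd (nat_lit 156) (nat_lit 380) (nat_lit 0) (XT.nd (nat_lit 78) (nat_lit 304) (nat_lit 0) (XT.lf (nat_lit 0) (nat_lit 5800747560) (nat_lit 304) (nat_lit 2437999052) (nat_lit 380) (nat_lit 5366164017) (nat_lit 178) (nat_lit 5) (nat_lit 182) (nat_lit 5) (nat_lit 183) (nat_lit 5) (nat_lit 463) (nat_lit 410) (nat_lit 327)) (XT.lf (nat_lit 0) (nat_lit 865021802) (nat_lit 304) (nat_lit 10993196055) (nat_lit 380) (nat_lit 1981859059) (nat_lit 174) (nat_lit 5) (nat_lit 178) (nat_lit 5) (nat_lit 179) (nat_lit 5) (nat_lit 464) (nat_lit 410) (nat_lit 326))) (XT.nd (nat_lit 78) (nat_lit 304) (nat_lit 0) (XT.lf (nat_lit 0) (nat_lit 1552851020) (nat_lit 380) (nat_lit 4203175316) (nat_lit 76) (nat_lit 8323492801) (nat_lit 173) (nat_lit 5) (nat_lit 178) (nat_lit 5) (nat_lit 174) (nat_lit 5) (nat_lit 465) (nat_lit 410) (nat_lit 325)) (XT.lf (nat_lit 0) (nat_lit 4870260023) (nat_lit 304) (nat_lit 305565989)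 (nat_lit 380) (nat_lit 9149069571) (nat_lit 169) (nat_lit 5) (nat_lit 173) (nat_lit 5) (nat_lit 174) (nat_lit 5) (nat_lit 466) (nat_lit 410) (nat_lit 324)))) (XT.nd (nat_lit 156) (nat_lit 380) (nat_lit 0) (XT.nd (nat_lit 78) (nat_lit 304) (nat_lit 0) (XT.lf (nat_lit 0) (nat_lit 8976874026) (nat_lit 380) (nat_lit 363015556) (nat_lit 76) (nat_lit 5235663525) (nat_lit 169) (nat_lit 5) (nat_lit 174) (nat_lit 5) (nat_lit 170) (nat_lit 5) (nat_lit 467) (nat_lit 410) (nat_lit 323)) (XT.lf (nat_lit 0) (nat_lit 9140510324) (nat_lit 304) (nat_lit 3818538603) (nat_lit 380) (nat_lit 1872669829) (nat_lit 165) (nat_lit 5) (nat_lit 169) (nat_lit 5) (nat_lit 170) (nat_lit 5) (nat_lit 468) (nat_lit 410) (nat_lit 322))) (XT.nd (nat_lit 78) (nat_lit 0) (nat_lit 0) (XT.lf (nat_lit 0) (nat_lit 1962343572) (nat_lit 380) (nat_lit 11251674941) (nat_lit 76) (nat_lit 1879918239) (nat_lit 160) (nat_lit 5) (nat_lit 165) (nat_lit 5) (nat_lit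 161) (nat_lit 5) (nat_lit 469) (nat_lit 410) (nat_lit 321)) (XT.lf (nat_lit 0) (nat_lit 5947159071) (nat_lit 380) (nat_lit 1677337873) (nat_lit 76) (nat_lit 7736797545) (nat_lit 160) (nat_lit 5) (nat_lit 165) (nat_lit 5) (nat_lit 161) (nat_lit 5) (nat_lit 470) (nat_lit 410) (nat_lit 320))))))) (XT.nd (nat_lit 1170) (nat_lit 1976) (nat_lit 0) (XT.nd (nat_lit 546) (nat_lit 1216) (nat_lit 0) (XT.nd (nat_lit 234) (nat_lit 760) (nat_lit 0) (XT.nd (nat_lit 78) (nat_lit 380) (nat_lit 0) (XT.lf (nat_lit 0) (nat_lit 8310946155) (nat_lit 228) (nat_lit 1797690091) (nat_lit 304) (nat_lit 5526324316) (nat_lit 157) (nat_lit 5) (nat_lit 160) (nat_lit 5) (nat_lit 161) (nat_lit 5) (nat_lit 471) (nat_lit 410) (nat_lit 319)) (XT.nd (nat_lit 78) (nat_lit 76) (nat_lit 0) (XT.lf (nat_lit 0) (nat_lit 2693245815) (nat_lit 304) (nat_lit 11762548569) (nat_lit 380) (nat_lit 1459218224) (nat_lit 153) (nat_lit 5) (nat_lit 157) (nat_lit 5)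 (nat_lit 158) (nat_lit 5) (nat_lit 472) (nat_lit 410) (nat_lit 318)) (XT.lf (nat_lit 0) (nat_lit 2746648066) (nat_lit 380) (nat_lit 3120624522) (nat_lit 76) (nat_lit 10333306890) (nat_lit 152) (nat_lit 5) (nat_lit 157) (nat_lit 5) (nat_lit 153) (nat_lit 5) (nat_lit 473) (nat_lit 410) (nat_lit 317)))) (XT.nd (nat_lit 156) (nat_lit 304) (nat_lit 0) (XT.nd (nat_lit 78) (nat_lit 228) (nat_lit 0) (XT.lf (nat_lit 0) (nat_lit 7101159706) (nat_lit 304) (nat_lit 9117137183) (nat_lit 76) (nat_lit 274430086) (nat_lit 149) (nat_lit 5) (nat_lit 153) (nat_lit 5) (nat_lit 150) (nat_lit 5) (nat_lit 474) (nat_lit 410) (nat_lit 316)) (XT.lf (nat_lit 0) (nat_lit 1391818381) (nat_lit 228) (nat_lit 10276146982) (nat_lit 304) (nat_lit 5123224740) (nat_lit 146) (nat_lit 5) (nat_lit 149) (nat_lit 5) (nat_lit 150) (nat_lit 5) (nat_lit 475) (nat_lit 410) (nat_lit 315))) (XT.nd (nat_lit 78) (nat_lit 304) (nat_lit 0) (XT.lf (nat_lit 0) (nat_lit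 12368373234) (nat_lit 228) (nat_lit 4074128779) (nat_lit 304) (nat_lit 653984245) (nat_lit 146) (nat_lit 5) (nat_lit 149) (nat_lit 5) (nat_lit 150) (nat_lit 5) (nat_lit 476) (nat_lit 410) (nat_lit 314)) (XT.lf (nat_lit 0) (nat_lit 3935138864) (nat_lit 304) (nat_lit 11117136916) (nat_lit 76) (nat_lit 2355641367) (nat_lit 142) (nat_lit 5) (nat_lit 146) (nat_lit 5) (nat_lit 143) (nat_lit 5) (nat_lit 477) (nat_lit 410) (nat_lit 313))))) (XT.nd (nat_lit 312) (nat_lit 684) (nat_lit 0) (XT.nd (nat_lit 156) (nat_lit 304) (nat_lit 0) (XT.nd (nat_lit 78) (nat_lit 228) (nat_lit 0) (XT.lf (nat_lit 0) (nat_lit 8716584696) (nat_lit 304) (nat_lit 71516680) (nat_lit 76) (nat_lit 8938362390) (nat_lit 142) (nat_lit 5) (nat_lit 146) (nat_lit 5) (nat_lit 143) (nat_lit 5) (nat_lit 478) (nat_lit 410) (nat_lit 312)) (XT.lf (nat_lit 0) (nat_lit 11496673571) (nat_lit 228) (nat_lit 2235156270) (nat_lit 304) (nat_lit 4320027098) (nat_lit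 139) (nat_lit 5) (nat_lit 142) (nat_lit 5) (nat_lit 143) (nat_lit 5) (nat_lit 479) (nat_lit 410) (nat_lit 311))) (XT.nd (nat_lit 78) (nat_lit 0) (nat_lit 0) (XT.lf (nat_lit 0) (nat_lit 573917720) (nat_lit 304) (nat_lit 13342256578) (nat_lit 76) (nat_lit 4468490391) (nat_lit 135) (nat_lit 5) (nat_lit 139) (nat_lit 5) (nat_lit 136) (nat_lit 5) (nat_lit 480) (nat_lit 410) (nat_lit 310)) (XT.lf (nat_lit 0) (nat_lit 5596892721) (nat_lit 304) (nat_lit 1702086403) (nat_lit 76) (nat_lit 11425123931) (nat_lit 135) (nat_lit 5) (nat_lit 139) (nat_lit 5) (nat_lit 136) (nat_lit 5) (nat_lit 481) (nat_lit 410) (nat_lit 309)))) (XT.nd (nat_lit 156) (nat_lit 304) (nat_lit 0) (XT.nd (nat_lit 78) (nat_lit 152) (nat_lit 0) (XT.lf (nat_lit 0) (nat_lit 10458993613) (nat_lit 228) (nat_lit 392742337) (nat_lit 304) (nat_lit 8219553994) (nat_lit 132) (nat_lit 5) (nat_lit 135) (nat_lit 5) (nat_lit 136) (nat_lit 5) (nat_lit 482) (nat_lit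 410) (nat_lit 308)) (XT.lf (nat_lit 0) (nat_lit 3563667273) (nat_lit 152) (nat_lit 12797546239) (nat_lit 228) (nat_lit 3064769976) (nat_lit 130) (nat_lit 5) (nat_lit 132) (nat_lit 5) (nat_lit 133) (nat_lit 5) (nat_lit 483) (nat_lit 410) (nat_lit 307))) (XT.nd (nat_lit 78) (nat_lit 228) (nat_lit 0) (XT.lf (nat_lit 0) (nat_lit 2273406717) (nat_lit 228) (nat_lit 3566164890) (nat_lit 76) (nat_lit 13948923083) (nat_lit 129) (nat_lit 5) (nat_lit 132) (nat_lit 5) (nat_lit 130) (nat_lit 5) (nat_lit 484) (nat_lit 410) (nat_lit 306)) (XT.lf (nat_lit 0) (nat_lit 7793928435) (nat_lit 304) (nat_lit 10955936870) (nat_lit 76) (nat_lit 1408592298) (nat_lit 126) (nat_lit 5) (nat_lit 130) (nat_lit 5) (nat_lit 127) (nat_lit 5) (nat_lit 485) (nat_lit 410) (nat_lit 305)))))) (XT.nd (nat_lit 624) (nat_lit 912) (nat_lit 0) (XT.nd (nat_lit 312) (nat_lit 608) (nat_lit 0) (XT.nd (nat_lit 156) (nat_lit 304) (nat_lit 0) (XT.nd (nat_lit 78)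 (nat_lit 0) (nat_lit 0) (XT.lf (nat_lit 0) (nat_lit 1834809574) (nat_lit 152) (nat_lit 11738587088) (nat_lit 228) (nat_lit 6963323455) (nat_lit 124) (nat_lit 5) (nat_lit 126) (nat_lit 5) (nat_lit 127) (nat_lit 5) (nat_lit 486) (nat_lit 410) (nat_lit 304)) (XT.lf (nat_lit 0) (nat_lit 15202424832) (nat_lit 152) (nat_lit 4416202149) (nat_lit 228) (nat_lit 1304932804) (nat_lit 124) (nat_lit 5) (nat_lit 126) (nat_lit 5) (nat_lit 127) (nat_lit 5) (nat_lit 487) (nat_lit 410) (nat_lit 303))) (XT.nd (nat_lit 78) (nat_lit 0) (nat_lit 0) (XT.lf (nat_lit 0) (nat_lit 4522396060) (nat_lit 304) (nat_lit 13624643734) (nat_lit 76) (nat_lit 3171037519) (nat_lit 120) (nat_lit 5) (nat_lit 124) (nat_lit 5) (nat_lit 121) (nat_lit 5) (nat_lit 488) (nat_lit 410) (nat_lit 302)) (XT.lf (nat_lit 0) (nat_lit 10582589522) (nat_lit 304) (nat_lit 183181865) (nat_lit 76) (nat_lit 10955743768) (nat_lit 120) (nat_lit 5) (nat_lit 124) (nat_lit 5)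 (nat_lit 121) (nat_lit 5) (nat_lit 489) (nat_lit 410) (nat_lit 301)))) (XT.nd (nat_lit 156) (nat_lit 152) (nat_lit 0) (XT.nd (nat_lit 78) (nat_lit 304) (nat_lit 0) (XT.lf (nat_lit 0) (nat_lit 13902734154) (nat_lit 152) (nat_lit 3038218129) (nat_lit 228) (nat_lit 5192613496) (nat_lit 118) (nat_lit 5) (nat_lit 120) (nat_lit 5) (nat_lit 121) (nat_lit 5) (nat_lit 490) (nat_lit 410) (nat_lit 300)) (XT.lf (nat_lit 0) (nat_lit 1003428981) (nat_lit 304) (nat_lit 16670572362) (nat_lit 76) (nat_lit 4881022422) (nat_lit 114) (nat_lit 5) (nat_lit 118) (nat_lit 5) (nat_lit 115) (nat_lit 5) (nat_lit 491) (nat_lit 410) (nat_lit 299))) (XT.nd (nat_lit 78) (nat_lit 152) (nat_lit 0) (XT.lf (nat_lit 0) (nat_lit 7377867107) (nat_lit 304) (nat_lit 2507254423) (nat_lit 76) (nat_lit 13099555683) (nat_lit 114) (nat_lit 5) (nat_lit 118) (nat_lit 5) (nat_lit 115) (nat_lit 5) (nat_lit 492) (nat_lit 410) (nat_lit 298)) (XT.lf (nat_lit 0)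 (nat_lit 12291471223) (nat_lit 152) (nat_lit 1753580694) (nat_lit 228) (nat_lit 9379123431) (nat_lit 112) (nat_lit 5) (nat_lit 114) (nat_lit 5) (nat_lit 115) (nat_lit 5) (nat_lit 493) (nat_lit 410) (nat_lit 297))))) (XT.nd (nat_lit 312) (nat_lit 380) (nat_lit 0) (XT.nd (nat_lit 156) (nat_lit 304) (nat_lit 0) (XT.nd (nat_lit 78) (nat_lit 76) (nat_lit 0) (XT.lf (nat_lit 0) (nat_lit 3688092277) (nat_lit 152) (nat_lit 17332279476) (nat_lit 228) (nat_lit 2853243565) (nat_lit 110) (nat_lit 5) (nat_lit 112) (nat_lit 5) (nat_lit 113) (nat_lit 5) (nat_lit 494) (nat_lit 410) (nat_lit 296)) (XT.lf (nat_lit 0) (nat_lit 3907303922) (nat_lit 228) (nat_lit 5236572488) (nat_lit 76) (nat_lit 15188115622) (nat_lit 109) (nat_lit 5) (nat_lit 112) (nat_lit 5) (nat_lit 110) (nat_lit 5) (nat_lit 495) (nat_lit 410) (nat_lit 295))) (XT.nd (nat_lit 78) (nat_lit 152) (nat_lit 0) (XT.lf (nat_lit 0) (nat_lit 10305076226) (nat_lit 152) (nat_lit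 591268147) (nat_lit 228) (nat_lit 13904437895) (nat_lit 107) (nat_lit 5) (nat_lit 109) (nat_lit 5) (nat_lit 110) (nat_lit 5) (nat_lit 496) (nat_lit 410) (nat_lit 294)) (XT.lf (nat_lit 0) (nat_lit 1050565612) (nat_lit 152) (nat_lit 17171027311) (nat_lit 228) (nat_lit 7058247603) (nat_lit 105) (nat_lit 5) (nat_lit 107) (nat_lit 5) (nat_lit 108) (nat_lit 5) (nat_lit 497) (nat_lit 410) (nat_lit 293)))) (XT.nd (nat_lit 156) (nat_lit 152) (nat_lit 0) (XT.nd (nat_lit 78) (nat_lit 152) (nat_lit 0) (XT.lf (nat_lit 0) (nat_lit 131215400) (nat_lit 228) (nat_lit 8444466075) (nat_lit 76) (nat_lit 17193458676) (nat_lit 104) (nat_lit 5) (nat_lit 107) (nat_lit 5) (nat_lit 105) (nat_lit 5) (nat_lit 498) (nat_lit 410) (nat_lit 292)) (XT.lf (nat_lit 0) (nat_lit 7458674969) (nat_lit 228) (nat_lit 18403521206) (nat_lit 76) (nat_lit 406901173) (nat_lit 102) (nat_lit 5) (nat_lit 105) (nat_lit 5) (nat_lit 103) (nat_lit 5) (nat_lit 499)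 (nat_lit 410) (nat_lit 291))) (XT.nd (nat_lit 78) (nat_lit 152) (nat_lit 0) (XT.lf (nat_lit 0) (nat_lit 15161588243) (nat_lit 228) (nat_lit 2057175158) (nat_lit 76) (nat_lit 9560621338) (nat_lit 102) (nat_lit 5) (nat_lit 105) (nat_lit 5) (nat_lit 103) (nat_lit 5) (nat_lit 500) (nat_lit 410) (nat_lit 290)) (XT.lf (nat_lit 0) (nat_lit 15046026593) (nat_lit 152) (nat_lit 8179247669) (nat_lit 228) (nat_lit 4075816294) (nat_lit 100) (nat_lit 5) (nat_lit 102) (nat_lit 5) (nat_lit 103) (nat_lit 5) (nat_lit 501) (nat_lit 410) (nat_lit 289))))))))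
noncomputable def xc121 : XT := (XT.nd (nat_lit 2418) (nat_lit 1216) (nat_lit 0) (XT.nd (nat_lit 1170) (nat_lit 1368) (nat_lit 0) (XT.nd (nat_lit 546) (nat_lit 760) (nat_lit 0) (XT.nd (nat_lit 234) (nat_lit 380) (nat_lit 0) (XT.nd (nat_lit 78) (nat_lit 152) (nat_lit 0) (XT.lf (nat_lit 0) (nat_lit 3685314125) (nat_lit 228) (nat_lit 22948164471) (nat_lit 76) (nat_lit 1201956181) (nat_lit 97) (nat_lit 5) (nat_lit 100) (nat_lit 5) (nat_lit 98) (nat_lit 5) (nat_lit 502) (nat_lit 410) (nat_lit 288)) (XT.nd (nat_lit 78) (nat_lit 152) (nat_lit 0) (XT.lf (nat_lit 0) (nat_lit 11788461748) (nat_lit 228) (nat_lit 5736795171) (nat_lit 76) (nat_lit 10853609005) (nat_lit 97) (nat_lit 5) (nat_lit 100) (nat_lit 5) (nat_lit 98) (nat_lit 5) (nat_lit 503) (nat_lit 410) (nat_lit 287)) (XT.lf (nat_lit 0) (nat_lit 12202597590) (nat_lit 152) (nat_lit 8034980896) (nat_lit 228) (nat_lit 8697935604) (nat_lit 95) (nat_lit 5) (nat_lit 97)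 (nat_lit 5) (nat_lit 98) (nat_lit 5) (nat_lit 504) (nat_lit 410) (nat_lit 286)))) (XT.nd (nat_lit 156) (nat_lit 152) (nat_lit 0) (XT.nd (nat_lit 78) (nat_lit 76) (nat_lit 0) (XT.lf (nat_lit 0) (nat_lit 1271673919) (nat_lit 152) (nat_lit 27741578628) (nat_lit 228) (nat_lit 493416954) (nat_lit 93) (nat_lit 5) (nat_lit 95) (nat_lit 5) (nat_lit 96) (nat_lit 4) (nat_lit 505) (nat_lit 410) (nat_lit 285)) (XT.lf (nat_lit 0) (nat_lit 8037815053) (nat_lit 228) (nat_lit 10114711702) (nat_lit 76) (nat_lit 11933062855) (nat_lit 92) (nat_lit 5) (nat_lit 95) (nat_lit 5) (nat_lit 93) (nat_lit 5) (nat_lit 506) (nat_lit 410) (nat_lit 284))) (XT.nd (nat_lit 78) (nat_lit 0) (nat_lit 0) (XT.lf (nat_lit 0) (nat_lit 8688088967) (nat_lit 152) (nat_lit 8196566173) (nat_lit 228) (nat_lit 13794988262) (nat_lit 90) (nat_lit 5) (nat_lit 92) (nat_lit 5) (nat_lit 93) (nat_lit 5) (nat_lit 507) (nat_lit 410) (nat_lit 283)) (XT.lf (nat_lit 0)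 (nat_lit 26105954922) (nat_lit 228) (nat_lit 3072724565) (nat_lit 76) (nat_lit 2109567965) (nat_lit 90) (nat_lit 5) (nat_lit 93) (nat_lit 5) (nat_lit 91) (nat_lit 4) (nat_lit 508) (nat_lit 410) (nat_lit 282))))) (XT.nd (nat_lit 312) (nat_lit 380) (nat_lit 0) (XT.nd (nat_lit 156) (nat_lit 76) (nat_lit 0) (XT.nd (nat_lit 78) (nat_lit 152) (nat_lit 0) (XT.lf (nat_lit 0) (nat_lit 3846611967) (nat_lit 152) (nat_lit 15313967575) (nat_lit 76) (nat_lit 12746572300) (nat_lit 88) (nat_lit 5) (nat_lit 90) (nat_lit 5) (nat_lit 89) (nat_lit 5) (nat_lit 509) (nat_lit 410) (nat_lit 281)) (XT.lf (nat_lit 0) (nat_lit 4377099796) (nat_lit 152) (nat_lit 8725083157) (nat_lit 228) (nat_lit 19439102620) (nat_lit 86) (nat_lit 5) (nat_lit 88) (nat_lit 5) (nat_lit 89) (nat_lit 5) (nat_lit 510) (nat_lit 410) (nat_lit 280))) (XT.nd (nat_lit 78) (nat_lit 76) (nat_lit 0) (XT.lf (nat_lit 0) (nat_lit 22797633935) (nat_lit 228) (nat_lit 8263070254)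 (nat_lit 76) (nat_lit 2128872992) (nat_lit 86) (nat_lit 5) (nat_lit 89) (nat_lit 5) (nat_lit 87) (nat_lit 4) (nat_lit 511) (nat_lit 410) (nat_lit 279)) (XT.lf (nat_lit 0) (nat_lit 12365616017) (nat_lit 76) (nat_lit 20610565654) (nat_lit 152) (nat_lit 875369109) (nat_lit 85) (nat_lit 5) (nat_lit 86) (nat_lit 5) (nat_lit 87) (nat_lit 4) (nat_lit 512) (nat_lit 410) (nat_lit 278)))) (XT.nd (nat_lit 156) (nat_lit 152) (nat_lit 0) (XT.nd (nat_lit 78) (nat_lit 152) (nat_lit 0) (XT.lf (nat_lit 0) (nat_lit 8823777028) (nat_lit 152) (nat_lit 859361180) (nat_lit 76) (nat_lit 24845533331) (nat_lit 84) (nat_lit 5) (nat_lit 86) (nat_lit 5) (nat_lit 85) (nat_lit 5) (nat_lit 513) (nat_lit 410) (nat_lit 277)) (XT.lf (nat_lit 0) (nat_lit 19000295042) (nat_lit 228) (nat_lit 14478568337) (nat_lit 76) (nat_lit 1740863005) (nat_lit 82) (nat_lit 5) (nat_lit 85) (nat_lit 5) (nat_lit 83) (nat_lit 4) (nat_lit 514) (nat_lit 410) (nat_lit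 276))) (XT.nd (nat_lit 78) (nat_lit 76) (nat_lit 0) (XT.lf (nat_lit 0) (nat_lit 7094823445) (nat_lit 76) (nat_lit 22547536677) (nat_lit 152) (nat_lit 6284345424) (nat_lit 81) (nat_lit 5) (nat_lit 82) (nat_lit 5) (nat_lit 83) (nat_lit 4) (nat_lit 515) (nat_lit 410) (nat_lit 275)) (XT.lf (nat_lit 0) (nat_lit 4006823286) (nat_lit 152) (nat_lit 7101437960) (nat_lit 76) (nat_lit 25541441728) (nat_lit 80) (nat_lit 5) (nat_lit 82) (nat_lit 5) (nat_lit 81) (nat_lit 5) (nat_lit 516) (nat_lit 410) (nat_lit 274)))))) (XT.nd (nat_lit 624) (nat_lit 608) (nat_lit 0) (XT.nd (nat_lit 312) (nat_lit 304) (nat_lit 0) (XT.nd (nat_lit 156) (nat_lit 228) (nat_lit 0) (XT.nd (nat_lit 78) (nat_lit 76) (nat_lit 0) (XT.lf (nat_lit 0) (nat_lit 14625661191) (nat_lit 228) (nat_lit 21898812948) (nat_lit 76) (nat_lit 863692448) (nat_lit 78) (nat_lit 5) (nat_lit 81) (nat_lit 5) (nat_lit 79) (nat_lit 4) (nat_lit 517) (nat_lit 410) (nat_lit 273))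 (XT.lf (nat_lit 0) (nat_lit 635436462) (nat_lit 76) (nat_lit 25103970696) (nat_lit 152) (nat_lit 12404086852) (nat_lit 77) (nat_lit 5) (nat_lit 78) (nat_lit 5) (nat_lit 79) (nat_lit 4) (nat_lit 518) (nat_lit 410) (nat_lit 272))) (XT.nd (nat_lit 78) (nat_lit 228) (nat_lit 0) (XT.lf (nat_lit 0) (nat_lit 24271764704) (nat_lit 76) (nat_lit 13123901955) (nat_lit 152) (nat_lit 1519541746) (nat_lit 77) (nat_lit 5) (nat_lit 78) (nat_lit 5) (nat_lit 79) (nat_lit 4) (nat_lit 519) (nat_lit 410) (nat_lit 271)) (XT.lf (nat_lit 0) (nat_lit 8966493909) (nat_lit 152) (nat_lit 610321113) (nat_lit 228) (nat_lit 30128232792) (nat_lit 74) (nat_lit 5) (nat_lit 76) (nat_lit 5) (nat_lit 77) (nat_lit 5) (nat_lit 520) (nat_lit 410) (nat_lit 270)))) (XT.nd (nat_lit 156) (nat_lit 228) (nat_lit 0) (XT.nd (nat_lit 78) (nat_lit 76) (nat_lit 0) (XT.lf (nat_lit 0) (nat_lit 21231115122) (nat_lit 228) (nat_lit 7086230894) (nat_lit 76) (nat_lit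 12193117389) (nat_lit 74) (nat_lit 5) (nat_lit 77) (nat_lit 5) (nat_lit 75) (nat_lit 4) (nat_lit 521) (nat_lit 410) (nat_lit 269)) (XT.lf (nat_lit 0) (nat_lit 17591087021) (nat_lit 76) (nat_lit 15807668825) (nat_lit 152) (nat_lit 7936374435) (nat_lit 73) (nat_lit 5) (nat_lit 74) (nat_lit 5) (nat_lit 75) (nat_lit 4) (nat_lit 522) (nat_lit 410) (nat_lit 268))) (XT.nd (nat_lit 78) (nat_lit 0) (nat_lit 0) (XT.lf (nat_lit 0) (nat_lit 931229490) (nat_lit 152) (nat_lit 2812346766) (nat_lit 228) (nat_lit 38437786451) (nat_lit 70) (nat_lit 5) (nat_lit 72) (nat_lit 5) (nat_lit 73) (nat_lit 5) (nat_lit 523) (nat_lit 410) (nat_lit 267)) (XT.lf (nat_lit 0) (nat_lit 15946798594) (nat_lit 228) (nat_lit 16416720488) (nat_lit 76) (nat_lit 10677134245) (nat_lit 70) (nat_lit 5) (nat_lit 73) (nat_lit 5) (nat_lit 71) (nat_lit 4) (nat_lit 524) (nat_lit 410) (nat_lit 266))))) (XT.nd (nat_lit 312) (nat_lit 304) (nat_lit 0) (XT.nd (nat_lit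 156) (nat_lit 228) (nat_lit 0) (XT.nd (nat_lit 78) (nat_lit 0) (nat_lit 0) (XT.lf (nat_lit 0) (nat_lit 9294008213) (nat_lit 76) (nat_lit 19328237408) (nat_lit 152) (nat_lit 15300293349) (nat_lit 69) (nat_lit 5) (nat_lit 70) (nat_lit 5) (nat_lit 71) (nat_lit 4) (nat_lit 525) (nat_lit 410) (nat_lit 265)) (XT.lf (nat_lit 0) (nat_lit 36091592336) (nat_lit 76) (nat_lit 5741203962) (nat_lit 152) (nat_lit 2993439819) (nat_lit 69) (nat_lit 5) (nat_lit 70) (nat_lit 5) (nat_lit 71) (nat_lit 4) (nat_lit 526) (nat_lit 410) (nat_lit 264))) (XT.nd (nat_lit 78) (nat_lit 0) (nat_lit 0) (XT.lf (nat_lit 0) (nat_lit 9739576425) (nat_lit 228) (nat_lit 27654135797) (nat_lit 76) (nat_lit 8353162835) (nat_lit 66) (nat_lit 5) (nat_lit 69) (nat_lit 5) (nat_lit 67) (nat_lit 4) (nat_lit 527) (nat_lit 410) (nat_lit 263)) (XT.lf (nat_lit 0) (nat_lit 22929636700) (nat_lit 228) (nat_lit 896464130) (nat_lit 76) (nat_lit 22864086763) (nat_lit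 66) (nat_lit 5) (nat_lit 69) (nat_lit 5) (nat_lit 67) (nat_lit 4) (nat_lit 528) (nat_lit 410) (nat_lit 262)))) (XT.nd (nat_lit 156) (nat_lit 76) (nat_lit 0) (XT.nd (nat_lit 78) (nat_lit 152) (nat_lit 0) (XT.lf (nat_lit 0) (nat_lit 27174186901) (nat_lit 76) (nat_lit 9592037514) (nat_lit 152) (nat_lit 10888050446) (nat_lit 65) (nat_lit 5) (nat_lit 66) (nat_lit 5) (nat_lit 67) (nat_lit 4) (nat_lit 529) (nat_lit 410) (nat_lit 261)) (XT.lf (nat_lit 0) (nat_lit 2445498800) (nat_lit 152) (nat_lit 41131130086) (nat_lit 76) (nat_lit 5066338347) (nat_lit 63) (nat_lit 5) (nat_lit 65) (nat_lit 5) (nat_lit 64) (nat_lit 4) (nat_lit 530) (nat_lit 410) (nat_lit 260))) (XT.nd (nat_lit 78) (nat_lit 76) (nat_lit 0) (XT.lf (nat_lit 0) (nat_lit 16253683165) (nat_lit 152) (nat_lit 13116642481) (nat_lit 76) (nat_lit 20278956741) (nat_lit 63) (nat_lit 5) (nat_lit 65) (nat_lit 5) (nat_lit 64) (nat_lit 4) (nat_lit 531) (nat_lit 410) (nat_lit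 259)) (XT.lf (nat_lit 0) (nat_lit 16031651578) (nat_lit 76) (nat_lit 14588509915) (nat_lit 152) (nat_lit 20061304162) (nat_lit 62) (nat_lit 5) (nat_lit 63) (nat_lit 5) (nat_lit 64) (nat_lit 4) (nat_lit 532) (nat_lit 410) (nat_lit 258))))))) (XT.nd (nat_lit 1248) (nat_lit 228) (nat_lit 0) (XT.nd (nat_lit 624) (nat_lit 532) (nat_lit 0) (XT.nd (nat_lit 312) (nat_lit 228) (nat_lit 0) (XT.nd (nat_lit 156) (nat_lit 76) (nat_lit 0) (XT.nd (nat_lit 78) (nat_lit 152) (nat_lit 0) (XT.lf (nat_lit 0) (nat_lit 45547479335) (nat_lit 152) (nat_lit 5444282029) (nat_lit 0) (nat_lit 748957809) (nat_lit 62) (nat_lit 5) (nat_lit 64) (nat_lit 4) (nat_lit 62) (nat_lit 4) (nat_lit 533) (nat_lit 410) (nat_lit 257)) (XT.lf (nat_lit 0) (nat_lit 8311328963) (nat_lit 152) (nat_lit 27940852054) (nat_lit 76) (nat_lit 16565885817) (nat_lit 60) (nat_lit 5) (nat_lit 62) (nat_lit 5) (nat_lit 61) (nat_lit 4) (nat_lit 534) (nat_lit 410) (nat_lit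 256))) (XT.nd (nat_lit 78) (nat_lit 0) (nat_lit 0) (XT.lf (nat_lit 0) (nat_lit 2257131879) (nat_lit 76) (nat_lit 20936903944) (nat_lit 152) (nat_lit 30729835254) (nat_lit 59) (nat_lit 5) (nat_lit 60) (nat_lit 5) (nat_lit 61) (nat_lit 4) (nat_lit 535) (nat_lit 410) (nat_lit 255)) (XT.lf (nat_lit 0) (nat_lit 33915078247) (nat_lit 76) (nat_lit 4880658161) (nat_lit 152) (nat_lit 16258937762) (nat_lit 59) (nat_lit 5) (nat_lit 60) (nat_lit 5) (nat_lit 61) (nat_lit 4) (nat_lit 536) (nat_lit 410) (nat_lit 254)))) (XT.nd (nat_lit 156) (nat_lit 76) (nat_lit 0) (XT.nd (nat_lit 78) (nat_lit 76) (nat_lit 0) (XT.lf (nat_lit 0) (nat_lit 10375378592) (nat_lit 76) (nat_lit 44692461157) (nat_lit 76) (nat_lit 1145491148) (nat_lit 58) (nat_lit 4) (nat_lit 59) (nat_lit 5) (nat_lit 59) (nat_lit 4) (nat_lit 537) (nat_lit 410) (nat_lit 253)) (XT.lf (nat_lit 0) (nat_lit 14394419332) (nat_lit 152) (nat_lit 14338658502) (nat_lit 76) (nat_lit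 28661876578) (nat_lit 57) (nat_lit 5) (nat_lit 59) (nat_lit 5) (nat_lit 58) (nat_lit 4) (nat_lit 538) (nat_lit 410) (nat_lit 252))) (XT.nd (nat_lit 78) (nat_lit 0) (nat_lit 0) (XT.lf (nat_lit 0) (nat_lit 18436169714) (nat_lit 76) (nat_lit 12109396397) (nat_lit 152) (nat_lit 28061078495) (nat_lit 56) (nat_lit 5) (nat_lit 57) (nat_lit 5) (nat_lit 58) (nat_lit 4) (nat_lit 539) (nat_lit 410) (nat_lit 251)) (XT.lf (nat_lit 0) (nat_lit 47366517524) (nat_lit 152) (nat_lit 7429664989) (nat_lit 0) (nat_lit 5052944970) (nat_lit 56) (nat_lit 5) (nat_lit 58) (nat_lit 4) (nat_lit 56) (nat_lit 4) (nat_lit 540) (nat_lit 410) (nat_lit 250))))) (XT.nd (nat_lit 312) (nat_lit 228) (nat_lit 0) (XT.nd (nat_lit 156) (nat_lit 152) (nat_lit 0) (XT.nd (nat_lit 78) (nat_lit 0) (nat_lit 0) (XT.lf (nat_lit 0) (nat_lit 3864769789) (nat_lit 152) (nat_lit 34479071347) (nat_lit 76) (nat_lit 22772883587) (nat_lit 54) (nat_lit 5) (nat_lit 56) (nat_lit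 5) (nat_lit 55) (nat_lit 4) (nat_lit 541) (nat_lit 410) (nat_lit 249)) (XT.lf (nat_lit 0) (nat_lit 20518579700) (nat_lit 152) (nat_lit 682498848) (nat_lit 76) (nat_lit 41215556797) (nat_lit 54) (nat_lit 5) (nat_lit 56) (nat_lit 5) (nat_lit 55) (nat_lit 4) (nat_lit 542) (nat_lit 410) (nat_lit 248))) (XT.nd (nat_lit 78) (nat_lit 76) (nat_lit 0) (XT.lf (nat_lit 0) (nat_lit 34789995706) (nat_lit 76) (nat_lit 3207818299) (nat_lit 152) (nat_lit 25747955051) (nat_lit 53) (nat_lit 5) (nat_lit 54) (nat_lit 5) (nat_lit 55) (nat_lit 4) (nat_lit 543) (nat_lit 410) (nat_lit 247)) (XT.lf (nat_lit 0) (nat_lit 6182478992) (nat_lit 76) (nat_lit 50024051155) (nat_lit 76) (nat_lit 8902093559) (nat_lit 52) (nat_lit 4) (nat_lit 53) (nat_lit 5) (nat_lit 53) (nat_lit 4) (nat_lit 544) (nat_lit 410) (nat_lit 246)))) (XT.nd (nat_lit 156) (nat_lit 76) (nat_lit 0) (XT.nd (nat_lit 78) (nat_lit 76) (nat_lit 0) (XT.lf (nat_lit 0) (nat_lit 8602727639)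 (nat_lit 152) (nat_lit 23667893197) (nat_lit 76) (nat_lit 34229752963) (nat_lit 51) (nat_lit 5) (nat_lit 53) (nat_lit 5) (nat_lit 52) (nat_lit 4) (nat_lit 545) (nat_lit 410) (nat_lit 245)) (XT.lf (nat_lit 0) (nat_lit 12793228646) (nat_lit 76) (nat_lit 13775173205) (nat_lit 152) (nat_lit 41359391476) (nat_lit 50) (nat_lit 5) (nat_lit 51) (nat_lit 5) (nat_lit 52) (nat_lit 4) (nat_lit 546) (nat_lit 410) (nat_lit 244))) (XT.nd (nat_lit 78) (nat_lit 76) (nat_lit 0) (XT.lf (nat_lit 0) (nat_lit 45356785699) (nat_lit 152) (nat_lit 18626977214) (nat_lit 0) (nat_lit 5405760408) (nat_lit 50) (nat_lit 5) (nat_lit 52) (nat_lit 4) (nat_lit 50) (nat_lit 4) (nat_lit 547) (nat_lit 410) (nat_lit 243)) (XT.lf (nat_lit 0) (nat_lit 19198162385) (nat_lit 76) (nat_lit 45823499667) (nat_lit 76) (nat_lit 5864057996) (nat_lit 49) (nat_lit 4) (nat_lit 50) (nat_lit 5) (nat_lit 50) (nat_lit 4) (nat_lit 548) (nat_lit 410) (nat_lit 242))))))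 (XT.nd (nat_lit 52026) (nat_lit 0) (nat_lit 24852) (XT.nd (nat_lit 51714) (nat_lit 0) (nat_lit 26448) (XT.nd (nat_lit 156) (nat_lit 76) (nat_lit 0) (XT.nd (nat_lit 78) (nat_lit 76) (nat_lit 0) (XT.lf (nat_lit 0) (nat_lit 12780810245) (nat_lit 152) (nat_lit 14022568115) (nat_lit 76) (nat_lit 45614262650) (nat_lit 48) (nat_lit 5) (nat_lit 50) (nat_lit 5) (nat_lit 49) (nat_lit 4) (nat_lit 549) (nat_lit 410) (nat_lit 241)) (XT.lf (nat_lit 0) (nat_lit 25190412527) (nat_lit 76) (nat_lit 6911044954) (nat_lit 152) (nat_lit 41885291537) (nat_lit 47) (nat_lit 5) (nat_lit 48) (nat_lit 5) (nat_lit 49) (nat_lit 4) (nat_lit 550) (nat_lit 410) (nat_lit 240))) (XT.nd (nat_lit 78) (nat_lit 76) (nat_lit 0) (XT.lf (nat_lit 0) (nat_lit 52267405369) (nat_lit 152) (nat_lit 9878836853) (nat_lit 0) (nat_lit 13448717660) (nat_lit 47) (nat_lit 5) (nat_lit 49) (nat_lit 4) (nat_lit 47) (nat_lit 4) (nat_lit 551) (nat_lit 410) (nat_lit 239))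 (XT.lf (nat_lit 0) (nat_lit 30722250236) (nat_lit 76) (nat_lit 42672215313) (nat_lit 76) (nat_lit 3846267561) (nat_lit 46) (nat_lit 4) (nat_lit 47) (nat_lit 5) (nat_lit 47) (nat_lit 4) (nat_lit 552) (nat_lit 410) (nat_lit 238)))) (XT.nd (nat_lit 156) (nat_lit 760) (nat_lit 0) (XT.nd (nat_lit 78) (nat_lit 0) (nat_lit 0) (XT.lf (nat_lit 0) (nat_lit 640222164) (nat_lit 0) (nat_lit 640222164) (nat_lit 684) (nat_lit 2196676752) (nat_lit 404) (nat_lit 5) (nat_lit 404) (nat_lit 3) (nat_lit 413) (nat_lit 3) (nat_lit 411) (nat_lit 411) (nat_lit 378)) (XT.lf (nat_lit 0) (nat_lit 4467119179) (nat_lit 684) (nat_lit 2204632218) (nat_lit 760) (nat_lit 330535640) (nat_lit 404) (nat_lit 5) (nat_lit 413) (nat_lit 3) (nat_lit 414) (nat_lit 5) (nat_lit 412) (nat_lit 411) (nat_lit 377))) (XT.nd (nat_lit 78) (nat_lit 760) (nat_lit 0) (XT.lf (nat_lit 76) (nat_lit 1343215086) (nat_lit 0) (nat_lit 5040491541) (nat_lit 760) (nat_lit 669480675)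 (nat_lit 405) (nat_lit 5) (nat_lit 404) (nat_lit 5) (nat_lit 414) (nat_lit 5) (nat_lit 413) (nat_lit 411) (nat_lit 376)) (XT.lf (nat_lit 0) (nat_lit 1178836336) (nat_lit 760) (nat_lit 2114487548) (nat_lit 836) (nat_lit 3813405395) (nat_lit 394) (nat_lit 5) (nat_lit 404) (nat_lit 5) (nat_lit 405) (nat_lit 5) (nat_lit 414) (nat_lit 411) (nat_lit 375))))) (XT.nd (nat_lit 312) (nat_lit 836) (nat_lit 0) (XT.nd (nat_lit 156) (nat_lit 760) (nat_lit 0) (XT.nd (nat_lit 78) (nat_lit 0) (nat_lit 76) (XT.lf (nat_lit 76) (nat_lit 1574140241) (nat_lit 0) (nat_lit 1440828428) (nat_lit 836) (nat_lit 4148343706) (nat_lit 395) (nat_lit 5) (nat_lit 394) (nat_lit 5) (nat_lit 405) (nat_lit 5) (nat_lit 415) (nat_lit 411) (nat_lit 374)) (XT.lf (nat_lit 0) (nat_lit 4864860398) (nat_lit 760) (nat_lit 1849631913) (nat_lit 836) (nat_lit 508348512) (nat_lit 395) (nat_lit 5) (nat_lit 405) (nat_lit 5) (nat_lit 406) (nat_lit 5) (nat_lit 416)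 (nat_lit 411) (nat_lit 373))) (XT.nd (nat_lit 78) (nat_lit 836) (nat_lit 0) (XT.lf (nat_lit 76) (nat_lit 1987041595) (nat_lit 0) (nat_lit 4751156505) (nat_lit 836) (nat_lit 546926433) (nat_lit 396) (nat_lit 5) (nat_lit 395) (nat_lit 5) (nat_lit 406) (nat_lit 5) (nat_lit 417) (nat_lit 411) (nat_lit 372)) (XT.lf (nat_lit 0) (nat_lit 1247065535) (nat_lit 836) (nat_lit 1425309683) (nat_lit 912) (nat_lit 4677898729) (nat_lit 384) (nat_lit 5) (nat_lit 395) (nat_lit 5) (nat_lit 396) (nat_lit 5) (nat_lit 418) (nat_lit 411) (nat_lit 371)))) (XT.nd (nat_lit 156) (nat_lit 836) (nat_lit 0) (XT.nd (nat_lit 78) (nat_lit 0) (nat_lit 76) (XT.lf (nat_lit 76) (nat_lit 2569076760) (nat_lit 0) (nat_lit 476854487) (nat_lit 912) (nat_lit 4372429958) (nat_lit 385) (nat_lit 5) (nat_lit 384) (nat_lit 5) (nat_lit 396) (nat_lit 5) (nat_lit 419) (nat_lit 411) (nat_lit 370)) (XT.lf (nat_lit 0) (nat_lit 4869468512) (nat_lit 836) (nat_lit 833802513)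 (nat_lit 912) (nat_lit 1786105895) (nat_lit 385) (nat_lit 5) (nat_lit 396) (nat_lit 5) (nat_lit 397) (nat_lit 5) (nat_lit 420) (nat_lit 411) (nat_lit 369))) (XT.nd (nat_lit 78) (nat_lit 912) (nat_lit 0) (XT.lf (nat_lit 76) (nat_lit 3322490328) (nat_lit 0) (nat_lit 3402673166) (nat_lit 912) (nat_lit 838042868) (nat_lit 386) (nat_lit 5) (nat_lit 385) (nat_lit 5) (nat_lit 397) (nat_lit 5) (nat_lit 421) (nat_lit 411) (nat_lit 368)) (XT.lf (nat_lit 0) (nat_lit 927880355) (nat_lit 912) (nat_lit 68649428) (nat_lit 988) (nat_lit 6643937854) (nat_lit 373) (nat_lit 5) (nat_lit 385) (nat_lit 5) (nat_lit 386) (nat_lit 5) (nat_lit 422) (nat_lit 411) (nat_lit 367))))))))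
noncomputable def xc122 : XT := (XT.nd (nat_lit 2418) (nat_lit 6308) (nat_lit 0) (XT.nd (nat_lit 1170) (nat_lit 5320) (nat_lit 0) (XT.nd (nat_lit 546) (nat_lit 5016) (nat_lit 0) (XT.nd (nat_lit 234) (nat_lit 1900) (nat_lit 0) (XT.nd (nat_lit 78) (nat_lit 0) (nat_lit 0) (XT.lf (nat_lit 0) (nat_lit 2729087017) (nat_lit 912) (nat_lit 3471049982) (nat_lit 988) (nat_lit 1519692567) (nat_lit 374) (nat_lit 5) (nat_lit 386) (nat_lit 5) (nat_lit 387) (nat_lit 5) (nat_lit 423) (nat_lit 411) (nat_lit 366)) (XT.nd (nat_lit 78) (nat_lit 0) (nat_lit 0) (XT.lf (nat_lit 76) (nat_lit 861721914) (nat_lit 0) (nat_lit 3686155658) (nat_lit 988) (nat_lit 3254794392) (nat_lit 375) (nat_lit 5) (nat_lit 374) (nat_lit 5) (nat_lit 387) (nat_lit 5) (nat_lit 424) (nat_lit 411) (nat_lit 365)) (XT.lf (nat_lit 76) (nat_lit 5355223114) (nat_lit 0) (nat_lit 1046979442) (nat_lit 988) (nat_lit 1486373827) (nat_lit 375) (nat_lit 5) (nat_lit 374) (nat_lit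 5) (nat_lit 387) (nat_lit 5) (nat_lit 425) (nat_lit 411) (nat_lit 364)))) (XT.nd (nat_lit 156) (nat_lit 988) (nat_lit 0) (XT.nd (nat_lit 78) (nat_lit 0) (nat_lit 0) (XT.lf (nat_lit 0) (nat_lit 311185822) (nat_lit 988) (nat_lit 5992365585) (nat_lit 76) (nat_lit 1673936657) (nat_lit 362) (nat_lit 5) (nat_lit 375) (nat_lit 5) (nat_lit 363) (nat_lit 5) (nat_lit 426) (nat_lit 411) (nat_lit 363)) (XT.lf (nat_lit 0) (nat_lit 2117244727) (nat_lit 988) (nat_lit 1444124419) (nat_lit 76) (nat_lit 4507728411) (nat_lit 362) (nat_lit 5) (nat_lit 375) (nat_lit 5) (nat_lit 363) (nat_lit 5) (nat_lit 427) (nat_lit 411) (nat_lit 362))) (XT.nd (nat_lit 78) (nat_lit 0) (nat_lit 0) (XT.lf (nat_lit 0) (nat_lit 3263892585) (nat_lit 988) (nat_lit 694720535) (nat_lit 1064) (nat_lit 4205413594) (nat_lit 349) (nat_lit 5) (nat_lit 362) (nat_lit 5) (nat_lit 363) (nat_lit 5) (nat_lit 428) (nat_lit 411) (nat_lit 361)) (XT.lf (nat_lit 0) (nat_lit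 5842575320) (nat_lit 1064) (nat_lit 181996524) (nat_lit 76) (nat_lit 2237616383) (nat_lit 349) (nat_lit 5) (nat_lit 363) (nat_lit 5) (nat_lit 350) (nat_lit 5) (nat_lit 429) (nat_lit 411) (nat_lit 360))))) (XT.nd (nat_lit 312) (nat_lit 1520) (nat_lit 0) (XT.nd (nat_lit 156) (nat_lit 1216) (nat_lit 0) (XT.nd (nat_lit 78) (nat_lit 1216) (nat_lit 0) (XT.lf (nat_lit 0) (nat_lit 4722637672) (nat_lit 1064) (nat_lit 3065044465) (nat_lit 1140) (nat_lit 575478588) (nat_lit 335) (nat_lit 5) (nat_lit 349) (nat_lit 5) (nat_lit 350) (nat_lit 5) (nat_lit 430) (nat_lit 411) (nat_lit 359)) (XT.lf (nat_lit 0) (nat_lit 1265381328) (nat_lit 1216) (nat_lit 7185496017) (nat_lit 76) (nat_lit 16890763) (nat_lit 319) (nat_lit 5) (nat_lit 335) (nat_lit 5) (nat_lit 320) (nat_lit 5) (nat_lit 431) (nat_lit 411) (nat_lit 358))) (XT.nd (nat_lit 78) (nat_lit 1216) (nat_lit 0) (XT.lf (nat_lit 0) (nat_lit 3171299104) (nat_lit 1216) (nat_lit 2225355115)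 (nat_lit 76) (nat_lit 3178051099) (nat_lit 319) (nat_lit 5) (nat_lit 335) (nat_lit 5) (nat_lit 320) (nat_lit 5) (nat_lit 432) (nat_lit 411) (nat_lit 357)) (XT.lf (nat_lit 0) (nat_lit 2899476280) (nat_lit 1216) (nat_lit 2218057156) (nat_lit 1292) (nat_lit 3567827402) (nat_lit 303) (nat_lit 5) (nat_lit 319) (nat_lit 5) (nat_lit 320) (nat_lit 5) (nat_lit 433) (nat_lit 411) (nat_lit 356)))) (XT.nd (nat_lit 156) (nat_lit 608) (nat_lit 0) (XT.nd (nat_lit 78) (nat_lit 912) (nat_lit 0) (XT.lf (nat_lit 0) (nat_lit 7111215860) (nat_lit 1292) (nat_lit 627010707) (nat_lit 76) (nat_lit 1061441866) (nat_lit 303) (nat_lit 5) (nat_lit 320) (nat_lit 5) (nat_lit 304) (nat_lit 5) (nat_lit 434) (nat_lit 411) (nat_lit 355)) (XT.lf (nat_lit 0) (nat_lit 267507856) (nat_lit 912) (nat_lit 4203022208) (nat_lit 76) (nat_lit 4446056964) (nat_lit 291) (nat_lit 5) (nat_lit 303) (nat_lit 5) (nat_lit 292) (nat_lit 5) (nat_lit 435) (nat_lit 411)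 (nat_lit 354))) (XT.nd (nat_lit 78) (nat_lit 0) (nat_lit 0) (XT.lf (nat_lit 0) (nat_lit 1155272593) (nat_lit 608) (nat_lit 1068366770) (nat_lit 684) (nat_lit 6813613324) (nat_lit 283) (nat_lit 5) (nat_lit 291) (nat_lit 5) (nat_lit 292) (nat_lit 5) (nat_lit 436) (nat_lit 411) (nat_lit 353)) (XT.lf (nat_lit 0) (nat_lit 4263504895) (nat_lit 684) (nat_lit 2465351877) (nat_lit 76) (nat_lit 2431933807) (nat_lit 283) (nat_lit 5) (nat_lit 292) (nat_lit 5) (nat_lit 284) (nat_lit 5) (nat_lit 437) (nat_lit 411) (nat_lit 352)))))) (XT.nd (nat_lit 624) (nat_lit 2356) (nat_lit 0) (XT.nd (nat_lit 312) (nat_lit 1140) (nat_lit 0) (XT.nd (nat_lit 156) (nat_lit 1216) (nat_lit 0) (XT.nd (nat_lit 78) (nat_lit 0) (nat_lit 0) (XT.lf (nat_lit 0) (nat_lit 3123640389) (nat_lit 608) (nat_lit 3241503616) (nat_lit 684) (nat_lit 2922876929) (nat_lit 275) (nat_lit 5) (nat_lit 283) (nat_lit 5) (nat_lit 284) (nat_lit 5) (nat_lit 438) (nat_lit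 411) (nat_lit 351)) (XT.lf (nat_lit 0) (nat_lit 8519088213) (nat_lit 684) (nat_lit 532382878) (nat_lit 76) (nat_lit 367922984) (nat_lit 275) (nat_lit 5) (nat_lit 284) (nat_lit 5) (nat_lit 276) (nat_lit 5) (nat_lit 439) (nat_lit 411) (nat_lit 350))) (XT.nd (nat_lit 78) (nat_lit 608) (nat_lit 0) (XT.lf (nat_lit 0) (nat_lit 1205228110) (nat_lit 608) (nat_lit 4265364196) (nat_lit 76) (nat_lit 4082417237) (nat_lit 267) (nat_lit 5) (nat_lit 275) (nat_lit 5) (nat_lit 268) (nat_lit 5) (nat_lit 440) (nat_lit 411) (nat_lit 349)) (XT.lf (nat_lit 0) (nat_lit 1584217157) (nat_lit 608) (nat_lit 1754517130) (nat_lit 684) (nat_lit 6352147975) (nat_lit 259) (nat_lit 5) (nat_lit 267) (nat_lit 5) (nat_lit 268) (nat_lit 5) (nat_lit 441) (nat_lit 411) (nat_lit 348)))) (XT.nd (nat_lit 156) (nat_lit 608) (nat_lit 0) (XT.nd (nat_lit 78) (nat_lit 532) (nat_lit 0) (XT.lf (nat_lit 0) (nat_lit 5562600800) (nat_lit 684) (nat_lit 2196365065)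 (nat_lit 76) (nat_lit 2073137799) (nat_lit 259) (nat_lit 5) (nat_lit 268) (nat_lit 5) (nat_lit 260) (nat_lit 5) (nat_lit 442) (nat_lit 411) (nat_lit 347)) (XT.lf (nat_lit 0) (nat_lit 3910239446) (nat_lit 532) (nat_lit 3961912201) (nat_lit 608) (nat_lit 2104844073) (nat_lit 252) (nat_lit 5) (nat_lit 259) (nat_lit 5) (nat_lit 260) (nat_lit 5) (nat_lit 443) (nat_lit 411) (nat_lit 346))) (XT.nd (nat_lit 78) (nat_lit 0) (nat_lit 0) (XT.lf (nat_lit 0) (nat_lit 79368926) (nat_lit 532) (nat_lit 30437439) (nat_lit 608) (nat_lit 10016770493) (nat_lit 244) (nat_lit 5) (nat_lit 251) (nat_lit 5) (nat_lit 252) (nat_lit 5) (nat_lit 444) (nat_lit 411) (nat_lit 345)) (XT.lf (nat_lit 0) (nat_lit 2414026965) (nat_lit 608) (nat_lit 3845516069) (nat_lit 76) (nat_lit 4018516919) (nat_lit 244) (nat_lit 5) (nat_lit 252) (nat_lit 5) (nat_lit 245) (nat_lit 5) (nat_lit 445) (nat_lit 411) (nat_lit 344))))) (XT.nd (nat_lit 312) (nat_lit 912)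 (nat_lit 0) (XT.nd (nat_lit 156) (nat_lit 988) (nat_lit 0) (XT.nd (nat_lit 78) (nat_lit 0) (nat_lit 0) (XT.lf (nat_lit 0) (nat_lit 2552045725) (nat_lit 456) (nat_lit 2226117098) (nat_lit 532) (nat_lit 5656203781) (nat_lit 238) (nat_lit 5) (nat_lit 244) (nat_lit 5) (nat_lit 245) (nat_lit 5) (nat_lit 446) (nat_lit 411) (nat_lit 343)) (XT.lf (nat_lit 0) (nat_lit 7237488557) (nat_lit 532) (nat_lit 1432993687) (nat_lit 76) (nat_lit 1924154878) (nat_lit 238) (nat_lit 5) (nat_lit 245) (nat_lit 5) (nat_lit 239) (nat_lit 5) (nat_lit 447) (nat_lit 411) (nat_lit 342))) (XT.nd (nat_lit 78) (nat_lit 532) (nat_lit 0) (XT.lf (nat_lit 0) (nat_lit 5251174613) (nat_lit 456) (nat_lit 4559426103) (nat_lit 532) (nat_lit 947917404) (nat_lit 232) (nat_lit 5) (nat_lit 238) (nat_lit 5) (nat_lit 239) (nat_lit 5) (nat_lit 448) (nat_lit 411) (nat_lit 341)) (XT.lf (nat_lit 0) (nat_lit 1207714650) (nat_lit 456) (nat_lit 289917980) (nat_lit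 532) (nat_lit 9429424047) (nat_lit 225) (nat_lit 5) (nat_lit 231) (nat_lit 5) (nat_lit 232) (nat_lit 5) (nat_lit 449) (nat_lit 411) (nat_lit 340)))) (XT.nd (nat_lit 156) (nat_lit 456) (nat_lit 0) (XT.nd (nat_lit 78) (nat_lit 456) (nat_lit 0) (XT.lf (nat_lit 0) (nat_lit 4061386685) (nat_lit 532) (nat_lit 2951111104) (nat_lit 76) (nat_lit 4085957696) (nat_lit 225) (nat_lit 5) (nat_lit 232) (nat_lit 5) (nat_lit 226) (nat_lit 5) (nat_lit 450) (nat_lit 411) (nat_lit 339)) (XT.lf (nat_lit 0) (nat_lit 4057812423) (nat_lit 456) (nat_lit 2655282864) (nat_lit 532) (nat_lit 4561571993) (nat_lit 219) (nat_lit 5) (nat_lit 225) (nat_lit 5) (nat_lit 226) (nat_lit 5) (nat_lit 451) (nat_lit 411) (nat_lit 338))) (XT.nd (nat_lit 78) (nat_lit 456) (nat_lit 0) (XT.lf (nat_lit 0) (nat_lit 9461685774) (nat_lit 532) (nat_lit 174806386) (nat_lit 76) (nat_lit 1819155562) (nat_lit 219) (nat_lit 5) (nat_lit 226) (nat_lit 5) (nat_lit 220)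 (nat_lit 5) (nat_lit 452) (nat_lit 411) (nat_lit 337)) (XT.lf (nat_lit 0) (nat_lit 704186760) (nat_lit 456) (nat_lit 4493168587) (nat_lit 76) (nat_lit 6442530452) (nat_lit 213) (nat_lit 5) (nat_lit 219) (nat_lit 5) (nat_lit 214) (nat_lit 5) (nat_lit 453) (nat_lit 411) (nat_lit 336))))))) (XT.nd (nat_lit 1170) (nat_lit 2660) (nat_lit 0) (XT.nd (nat_lit 546) (nat_lit 1672) (nat_lit 0) (XT.nd (nat_lit 234) (nat_lit 1140) (nat_lit 0) (XT.nd (nat_lit 78) (nat_lit 380) (nat_lit 0) (XT.lf (nat_lit 0) (nat_lit 2859720606) (nat_lit 456) (nat_lit 583466647) (nat_lit 532) (nat_lit 8385874004) (nat_lit 207) (nat_lit 5) (nat_lit 213) (nat_lit 5) (nat_lit 214) (nat_lit 5) (nat_lit 454) (nat_lit 411) (nat_lit 335)) (XT.nd (nat_lit 78) (nat_lit 380) (nat_lit 0) (XT.lf (nat_lit 0) (nat_lit 6321367307) (nat_lit 532) (nat_lit 1576371166) (nat_lit 76) (nat_lit 4124465186) (nat_lit 207) (nat_lit 5) (nat_lit 214) (nat_lit 5) (nat_lit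 208) (nat_lit 5) (nat_lit 455) (nat_lit 411) (nat_lit 334)) (XT.lf (nat_lit 0) (nat_lit 6114449990) (nat_lit 380) (nat_lit 3207951516) (nat_lit 456) (nat_lit 2897645471) (nat_lit 202) (nat_lit 5) (nat_lit 207) (nat_lit 5) (nat_lit 208) (nat_lit 5) (nat_lit 456) (nat_lit 411) (nat_lit 333)))) (XT.nd (nat_lit 156) (nat_lit 684) (nat_lit 0) (XT.nd (nat_lit 78) (nat_lit 0) (nat_lit 0) (XT.lf (nat_lit 0) (nat_lit 9634266) (nat_lit 456) (nat_lit 10800301147) (nat_lit 76) (nat_lit 1613301241) (nat_lit 196) (nat_lit 5) (nat_lit 202) (nat_lit 5) (nat_lit 197) (nat_lit 5) (nat_lit 457) (nat_lit 411) (nat_lit 332)) (XT.lf (nat_lit 0) (nat_lit 3012418544) (nat_lit 456) (nat_lit 3021275449) (nat_lit 76) (nat_lit 6595973308) (nat_lit 196) (nat_lit 5) (nat_lit 202) (nat_lit 5) (nat_lit 197) (nat_lit 5) (nat_lit 458) (nat_lit 411) (nat_lit 331))) (XT.nd (nat_lit 78) (nat_lit 380) (nat_lit 0) (XT.lf (nat_lit 0) (nat_lit 5052802999)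 (nat_lit 304) (nat_lit 1074354040) (nat_lit 380) (nat_lit 6714479402) (nat_lit 192) (nat_lit 5) (nat_lit 196) (nat_lit 5) (nat_lit 197) (nat_lit 5) (nat_lit 459) (nat_lit 411) (nat_lit 330)) (XT.lf (nat_lit 0) (nat_lit 301549301) (nat_lit 380) (nat_lit 9079900634) (nat_lit 456) (nat_lit 3677133001) (nat_lit 187) (nat_lit 5) (nat_lit 192) (nat_lit 5) (nat_lit 193) (nat_lit 5) (nat_lit 460) (nat_lit 411) (nat_lit 329))))) (XT.nd (nat_lit 312) (nat_lit 988) (nat_lit 0) (XT.nd (nat_lit 156) (nat_lit 304) (nat_lit 0) (XT.nd (nat_lit 78) (nat_lit 380) (nat_lit 0) (XT.lf (nat_lit 0) (nat_lit 8746577748) (nat_lit 380) (nat_lit 4050019826) (nat_lit 456) (nat_lit 483545069) (nat_lit 187) (nat_lit 5) (nat_lit 192) (nat_lit 5) (nat_lit 193) (nat_lit 5) (nat_lit 461) (nat_lit 411) (nat_lit 328)) (XT.lf (nat_lit 0) (nat_lit 2775026311) (nat_lit 380) (nat_lit 9568165269) (nat_lit 76) (nat_lit 1163632081) (nat_lit 182) (nat_lit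 5) (nat_lit 187) (nat_lit 5) (nat_lit 183) (nat_lit 5) (nat_lit 462) (nat_lit 411) (nat_lit 327))) (XT.nd (nat_lit 78) (nat_lit 304) (nat_lit 0) (XT.lf (nat_lit 0) (nat_lit 6182805749) (nat_lit 380) (nat_lit 1062896408) (nat_lit 76) (nat_lit 6492625697) (nat_lit 182) (nat_lit 5) (nat_lit 187) (nat_lit 5) (nat_lit 183) (nat_lit 5) (nat_lit 463) (nat_lit 411) (nat_lit 326)) (XT.lf (nat_lit 0) (nat_lit 7814478690) (nat_lit 304) (nat_lit 1929027430) (nat_lit 380) (nat_lit 4231751845) (nat_lit 178) (nat_lit 5) (nat_lit 182) (nat_lit 5) (nat_lit 183) (nat_lit 5) (nat_lit 464) (nat_lit 411) (nat_lit 325)))) (XT.nd (nat_lit 156) (nat_lit 608) (nat_lit 0) (XT.nd (nat_lit 78) (nat_lit 76) (nat_lit 0) (XT.lf (nat_lit 0) (nat_lit 2744533440) (nat_lit 304) (nat_lit 10713649216) (nat_lit 380) (nat_lit 759700049) (nat_lit 174) (nat_lit 5) (nat_lit 178) (nat_lit 5) (nat_lit 179) (nat_lit 5) (nat_lit 465) (nat_lit 411) (nat_lit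 324)) (XT.lf (nat_lit 0) (nat_lit 2819442241) (nat_lit 380) (nat_lit 2505350346) (nat_lit 76) (nat_lit 9140446000) (nat_lit 173) (nat_lit 5) (nat_lit 178) (nat_lit 5) (nat_lit 174) (nat_lit 5) (nat_lit 466) (nat_lit 411) (nat_lit 323))) (XT.nd (nat_lit 78) (nat_lit 304) (nat_lit 0) (XT.lf (nat_lit 0) (nat_lit 6535715680) (nat_lit 380) (nat_lit 7898899561) (nat_lit 76) (nat_lit 283824729) (nat_lit 169) (nat_lit 5) (nat_lit 174) (nat_lit 5) (nat_lit 170) (nat_lit 5) (nat_lit 467) (nat_lit 411) (nat_lit 322)) (XT.lf (nat_lit 0) (nat_lit 1436998744) (nat_lit 304) (nat_lit 8995461117) (nat_lit 380) (nat_lit 4544709282) (nat_lit 165) (nat_lit 5) (nat_lit 169) (nat_lit 5) (nat_lit 170) (nat_lit 5) (nat_lit 468) (nat_lit 411) (nat_lit 321)))))) (XT.nd (nat_lit 624) (nat_lit 1216) (nat_lit 0) (XT.nd (nat_lit 312) (nat_lit 836) (nat_lit 0) (XT.nd (nat_lit 156) (nat_lit 228) (nat_lit 0) (XT.nd (nat_lit 78) (nat_lit 380) (nat_lit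 0) (XT.lf (nat_lit 0) (nat_lit 11180110324) (nat_lit 304) (nat_lit 3322996828) (nat_lit 380) (nat_lit 738844206) (nat_lit 165) (nat_lit 5) (nat_lit 169) (nat_lit 5) (nat_lit 170) (nat_lit 5) (nat_lit 469) (nat_lit 411) (nat_lit 320)) (XT.lf (nat_lit 0) (nat_lit 3177011805) (nat_lit 380) (nat_lit 9789517214) (nat_lit 76) (nat_lit 2545495005) (nat_lit 160) (nat_lit 5) (nat_lit 165) (nat_lit 5) (nat_lit 161) (nat_lit 5) (nat_lit 470) (nat_lit 411) (nat_lit 319))) (XT.nd (nat_lit 78) (nat_lit 0) (nat_lit 0) (XT.lf (nat_lit 0) (nat_lit 20021987) (nat_lit 228) (nat_lit 7227878227) (nat_lit 304) (nat_lit 8540508083) (nat_lit 157) (nat_lit 5) (nat_lit 160) (nat_lit 5) (nat_lit 161) (nat_lit 5) (nat_lit 471) (nat_lit 411) (nat_lit 318)) (XT.lf (nat_lit 0) (nat_lit 10290433548) (nat_lit 228) (nat_lit 1227543528) (nat_lit 304) (nat_lit 4552796224) (nat_lit 157) (nat_lit 5) (nat_lit 160) (nat_lit 5) (nat_lit 161) (nat_lit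 5) (nat_lit 472) (nat_lit 411) (nat_lit 317)))) (XT.nd (nat_lit 156) (nat_lit 456) (nat_lit 0) (XT.nd (nat_lit 78) (nat_lit 76) (nat_lit 0) (XT.lf (nat_lit 0) (nat_lit 4514209891) (nat_lit 304) (nat_lit 11471675925) (nat_lit 380) (nat_lit 373632577) (nat_lit 153) (nat_lit 5) (nat_lit 157) (nat_lit 5) (nat_lit 158) (nat_lit 5) (nat_lit 473) (nat_lit 411) (nat_lit 316)) (XT.lf (nat_lit 0) (nat_lit 3904119614) (nat_lit 380) (nat_lit 1503315904) (nat_lit 76) (nat_lit 11246860106) (nat_lit 152) (nat_lit 5) (nat_lit 157) (nat_lit 5) (nat_lit 153) (nat_lit 5) (nat_lit 474) (nat_lit 411) (nat_lit 315))) (XT.nd (nat_lit 78) (nat_lit 228) (nat_lit 0) (XT.lf (nat_lit 0) (nat_lit 8380334507) (nat_lit 304) (nat_lit 7670744203) (nat_lit 76) (nat_lit 904398227) (nat_lit 149) (nat_lit 5) (nat_lit 153) (nat_lit 5) (nat_lit 150) (nat_lit 5) (nat_lit 475) (nat_lit 411) (nat_lit 314)) (XT.lf (nat_lit 0) (nat_lit 3136618193) (nat_lit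 228) (nat_lit 9932844231) (nat_lit 304) (nat_lit 4193873380) (nat_lit 146) (nat_lit 5) (nat_lit 149) (nat_lit 5) (nat_lit 150) (nat_lit 5) (nat_lit 476) (nat_lit 411) (nat_lit 313))))) (XT.nd (nat_lit 312) (nat_lit 684) (nat_lit 0) (XT.nd (nat_lit 156) (nat_lit 228) (nat_lit 0) (XT.nd (nat_lit 78) (nat_lit 228) (nat_lit 0) (XT.lf (nat_lit 0) (nat_lit 370525064) (nat_lit 304) (nat_lit 3189477109) (nat_lit 76) (nat_lit 14018599791) (nat_lit 145) (nat_lit 5) (nat_lit 149) (nat_lit 5) (nat_lit 146) (nat_lit 5) (nat_lit 477) (nat_lit 411) (nat_lit 312)) (XT.lf (nat_lit 0) (nat_lit 5076241380) (nat_lit 304) (nat_lit 9768668424) (nat_lit 76) (nat_lit 3054511075) (nat_lit 142) (nat_lit 5) (nat_lit 146) (nat_lit 5) (nat_lit 143) (nat_lit 5) (nat_lit 478) (nat_lit 411) (nat_lit 311))) (XT.nd (nat_lit 78) (nat_lit 0) (nat_lit 0) (XT.lf (nat_lit 0) (nat_lit 1590364371) (nat_lit 228) (nat_lit 8396256245) (nat_lit 304) (nat_lit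 8241339811) (nat_lit 139) (nat_lit 5) (nat_lit 142) (nat_lit 5) (nat_lit 143) (nat_lit 5) (nat_lit 479) (nat_lit 411) (nat_lit 310)) (XT.lf (nat_lit 0) (nat_lit 13458556860) (nat_lit 228) (nat_lit 1665092496) (nat_lit 304) (nat_lit 3440327449) (nat_lit 139) (nat_lit 5) (nat_lit 142) (nat_lit 5) (nat_lit 143) (nat_lit 5) (nat_lit 480) (nat_lit 411) (nat_lit 309)))) (XT.nd (nat_lit 156) (nat_lit 380) (nat_lit 0) (XT.nd (nat_lit 78) (nat_lit 0) (nat_lit 0) (XT.lf (nat_lit 0) (nat_lit 1573689547) (nat_lit 304) (nat_lit 12098718674) (nat_lit 76) (nat_lit 5234282168) (nat_lit 135) (nat_lit 5) (nat_lit 139) (nat_lit 5) (nat_lit 136) (nat_lit 5) (nat_lit 481) (nat_lit 411) (nat_lit 308)) (XT.lf (nat_lit 0) (nat_lit 6718735712) (nat_lit 304) (nat_lit 157221226) (nat_lit 76) (nat_lit 12381214605) (nat_lit 135) (nat_lit 5) (nat_lit 139) (nat_lit 5) (nat_lit 136) (nat_lit 5) (nat_lit 482) (nat_lit 411) (nat_lit 307))) (XT.nd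 (nat_lit 78) (nat_lit 152) (nat_lit 0) (XT.lf (nat_lit 0) (nat_lit 12120883656) (nat_lit 304) (nat_lit 7264361416) (nat_lit 76) (nat_lit 229840248) (nat_lit 132) (nat_lit 5) (nat_lit 136) (nat_lit 5) (nat_lit 133) (nat_lit 5) (nat_lit 483) (nat_lit 411) (nat_lit 306)) (XT.lf (nat_lit 0) (nat_lit 5257282604) (nat_lit 152) (nat_lit 12529907234) (nat_lit 228) (nat_lit 2193484536) (nat_lit 130) (nat_lit 5) (nat_lit 132) (nat_lit 5) (nat_lit 133) (nat_lit 5) (nat_lit 484) (nat_lit 411) (nat_lit 305))))))))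
noncomputable def xc123 : XT := (XT.nd (nat_lit 2418) (nat_lit 2432) (nat_lit 0) (XT.nd (nat_lit 1170) (nat_lit 1672) (nat_lit 0) (XT.nd (nat_lit 546) (nat_lit 1064) (nat_lit 0) (XT.nd (nat_lit 234) (nat_lit 456) (nat_lit 0) (XT.nd (nat_lit 78) (nat_lit 380) (nat_lit 0) (XT.lf (nat_lit 0) (nat_lit 3258533658) (nat_lit 228) (nat_lit 2114378196) (nat_lit 76) (nat_lit 14981697490) (nat_lit 129) (nat_lit 5) (nat_lit 132) (nat_lit 5) (nat_lit 130) (nat_lit 5) (nat_lit 485) (nat_lit 411) (nat_lit 304)) (XT.nd (nat_lit 78) (nat_lit 152) (nat_lit 0) (XT.lf (nat_lit 0) (nat_lit 8938938469) (nat_lit 304) (nat_lit 9720079278) (nat_lit 76) (nat_lit 2076826319) (nat_lit 126) (nat_lit 5) (nat_lit 130) (nat_lit 5) (nat_lit 127) (nat_lit 5) (nat_lit 486) (nat_lit 411) (nat_lit 303)) (XT.lf (nat_lit 0) (nat_lit 3439050973) (nat_lit 152) (nat_lit 11441092021) (nat_lit 228) (nat_lit 6245661810) (nat_lit 124) (nat_lit 5) (nat_lit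 126) (nat_lit 5) (nat_lit 127) (nat_lit 5) (nat_lit 487) (nat_lit 411) (nat_lit 302)))) (XT.nd (nat_lit 156) (nat_lit 152) (nat_lit 0) (XT.nd (nat_lit 78) (nat_lit 304) (nat_lit 0) (XT.lf (nat_lit 0) (nat_lit 17162572443) (nat_lit 152) (nat_lit 3917957457) (nat_lit 228) (nat_lit 444506663) (nat_lit 124) (nat_lit 5) (nat_lit 126) (nat_lit 5) (nat_lit 127) (nat_lit 5) (nat_lit 488) (nat_lit 411) (nat_lit 301)) (XT.lf (nat_lit 0) (nat_lit 5534994832) (nat_lit 304) (nat_lit 12506604131) (nat_lit 76) (nat_lit 3889684876) (nat_lit 120) (nat_lit 5) (nat_lit 124) (nat_lit 5) (nat_lit 121) (nat_lit 5) (nat_lit 489) (nat_lit 411) (nat_lit 300))) (XT.nd (nat_lit 78) (nat_lit 0) (nat_lit 0) (XT.lf (nat_lit 0) (nat_lit 1319378123) (nat_lit 152) (nat_lit 10444757083) (nat_lit 228) (nat_lit 10583076191) (nat_lit 118) (nat_lit 5) (nat_lit 120) (nat_lit 5) (nat_lit 121) (nat_lit 5) (nat_lit 490) (nat_lit 411) (nat_lit 299)) (XT.lf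 (nat_lit 0) (nat_lit 15787593358) (nat_lit 152) (nat_lit 2502284365) (nat_lit 228) (nat_lit 4482447742) (nat_lit 118) (nat_lit 5) (nat_lit 120) (nat_lit 5) (nat_lit 121) (nat_lit 5) (nat_lit 491) (nat_lit 411) (nat_lit 298))))) (XT.nd (nat_lit 312) (nat_lit 456) (nat_lit 0) (XT.nd (nat_lit 156) (nat_lit 304) (nat_lit 0) (XT.nd (nat_lit 78) (nat_lit 0) (nat_lit 0) (XT.lf (nat_lit 0) (nat_lit 1878052985) (nat_lit 304) (nat_lit 15681438852) (nat_lit 76) (nat_lit 5646822141) (nat_lit 114) (nat_lit 5) (nat_lit 118) (nat_lit 5) (nat_lit 115) (nat_lit 5) (nat_lit 492) (nat_lit 411) (nat_lit 297)) (XT.lf (nat_lit 0) (nat_lit 8419126552) (nat_lit 304) (nat_lit 1136597608) (nat_lit 76) (nat_lit 14093871524) (nat_lit 114) (nat_lit 5) (nat_lit 118) (nat_lit 5) (nat_lit 115) (nat_lit 5) (nat_lit 493) (nat_lit 411) (nat_lit 296))) (XT.nd (nat_lit 78) (nat_lit 152) (nat_lit 0) (XT.lf (nat_lit 0) (nat_lit 14091914568) (nat_lit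 152) (nat_lit 1184293442) (nat_lit 228) (nat_lit 8826375023) (nat_lit 112) (nat_lit 5) (nat_lit 114) (nat_lit 5) (nat_lit 115) (nat_lit 5) (nat_lit 494) (nat_lit 411) (nat_lit 295)) (XT.lf (nat_lit 0) (nat_lit 5234557730) (nat_lit 152) (nat_lit 17222249091) (nat_lit 228) (nat_lit 2108819482) (nat_lit 110) (nat_lit 5) (nat_lit 112) (nat_lit 5) (nat_lit 113) (nat_lit 5) (nat_lit 495) (nat_lit 411) (nat_lit 294)))) (XT.nd (nat_lit 156) (nat_lit 228) (nat_lit 0) (XT.nd (nat_lit 78) (nat_lit 152) (nat_lit 0) (XT.lf (nat_lit 0) (nat_lit 4814644091) (nat_lit 228) (nat_lit 3983920648) (nat_lit 76) (nat_lit 16239661972) (nat_lit 109) (nat_lit 5) (nat_lit 112) (nat_lit 5) (nat_lit 110) (nat_lit 5) (nat_lit 496) (nat_lit 411) (nat_lit 293)) (XT.lf (nat_lit 0) (nat_lit 12003822512) (nat_lit 228) (nat_lit 13511274140) (nat_lit 76) (nat_lit 6270625) (nat_lit 107) (nat_lit 5) (nat_lit 110) (nat_lit 5) (nat_lit 108) (nat_lit 5)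 (nat_lit 497) (nat_lit 411) (nat_lit 292))) (XT.nd (nat_lit 78) (nat_lit 76) (nat_lit 0) (XT.lf (nat_lit 0) (nat_lit 2481674182) (nat_lit 152) (nat_lit 17063556130) (nat_lit 228) (nat_lit 6469675523) (nat_lit 105) (nat_lit 5) (nat_lit 107) (nat_lit 5) (nat_lit 108) (nat_lit 5) (nat_lit 498) (nat_lit 411) (nat_lit 291)) (XT.lf (nat_lit 0) (nat_lit 896998844) (nat_lit 228) (nat_lit 7323791953) (nat_lit 76) (nat_lit 18298549091) (nat_lit 104) (nat_lit 5) (nat_lit 107) (nat_lit 5) (nat_lit 105) (nat_lit 5) (nat_lit 499) (nat_lit 411) (nat_lit 290)))))) (XT.nd (nat_lit 624) (nat_lit 760) (nat_lit 0) (XT.nd (nat_lit 312) (nat_lit 380) (nat_lit 0) (XT.nd (nat_lit 156) (nat_lit 380) (nat_lit 0) (XT.nd (nat_lit 78) (nat_lit 0) (nat_lit 0) (XT.lf (nat_lit 0) (nat_lit 8441013364) (nat_lit 228) (nat_lit 17578331399) (nat_lit 76) (nat_lit 1015049659) (nat_lit 102) (nat_lit 5) (nat_lit 105) (nat_lit 5) (nat_lit 103) (nat_lit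 5) (nat_lit 500) (nat_lit 411) (nat_lit 289)) (XT.lf (nat_lit 0) (nat_lit 16352919527) (nat_lit 228) (nat_lit 781710370) (nat_lit 76) (nat_lit 10426023911) (nat_lit 102) (nat_lit 5) (nat_lit 105) (nat_lit 5) (nat_lit 103) (nat_lit 5) (nat_lit 501) (nat_lit 411) (nat_lit 288))) (XT.nd (nat_lit 78) (nat_lit 228) (nat_lit 0) (XT.lf (nat_lit 0) (nat_lit 16821477825) (nat_lit 152) (nat_lit 7828315097) (nat_lit 228) (nat_lit 3448480097) (nat_lit 100) (nat_lit 5) (nat_lit 102) (nat_lit 5) (nat_lit 103) (nat_lit 5) (nat_lit 502) (nat_lit 411) (nat_lit 287)) (XT.lf (nat_lit 0) (nat_lit 4527952311) (nat_lit 228) (nat_lit 22294973676) (nat_lit 76) (nat_lit 1825593031) (nat_lit 97) (nat_lit 5) (nat_lit 100) (nat_lit 5) (nat_lit 98) (nat_lit 5) (nat_lit 503) (nat_lit 411) (nat_lit 286)))) (XT.nd (nat_lit 156) (nat_lit 228) (nat_lit 0) (XT.nd (nat_lit 78) (nat_lit 152) (nat_lit 0) (XT.lf (nat_lit 0) (nat_lit 12852871681) (nat_lit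 228) (nat_lit 4606340065) (nat_lit 76) (nat_lit 11749681513) (nat_lit 97) (nat_lit 5) (nat_lit 100) (nat_lit 5) (nat_lit 98) (nat_lit 5) (nat_lit 504) (nat_lit 411) (nat_lit 285)) (XT.lf (nat_lit 0) (nat_lit 13858464293) (nat_lit 152) (nat_lit 7688694233) (nat_lit 228) (nat_lit 8235331911) (nat_lit 95) (nat_lit 5) (nat_lit 97) (nat_lit 5) (nat_lit 98) (nat_lit 5) (nat_lit 505) (nat_lit 411) (nat_lit 284))) (XT.nd (nat_lit 78) (nat_lit 0) (nat_lit 0) (XT.lf (nat_lit 0) (nat_lit 208540135) (nat_lit 228) (nat_lit 27770642352) (nat_lit 76) (nat_lit 2391613780) (nat_lit 92) (nat_lit 5) (nat_lit 95) (nat_lit 5) (nat_lit 93) (nat_lit 5) (nat_lit 506) (nat_lit 411) (nat_lit 283)) (XT.lf (nat_lit 0) (nat_lit 8965204268) (nat_lit 228) (nat_lit 9149689188) (nat_lit 76) (nat_lit 12852662019) (nat_lit 92) (nat_lit 5) (nat_lit 95) (nat_lit 5) (nat_lit 93) (nat_lit 5) (nat_lit 507) (nat_lit 411) (nat_lit 282))))) (XT.nd (nat_lit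 312) (nat_lit 304) (nat_lit 0) (XT.nd (nat_lit 156) (nat_lit 304) (nat_lit 0) (XT.nd (nat_lit 78) (nat_lit 0) (nat_lit 0) (XT.lf (nat_lit 0) (nat_lit 10204759581) (nat_lit 152) (nat_lit 7864775682) (nat_lit 228) (nat_lit 13510133459) (nat_lit 90) (nat_lit 5) (nat_lit 92) (nat_lit 5) (nat_lit 93) (nat_lit 5) (nat_lit 508) (nat_lit 411) (nat_lit 281)) (XT.lf (nat_lit 0) (nat_lit 27553107895) (nat_lit 228) (nat_lit 1931082184) (nat_lit 76) (nat_lit 2722772201) (nat_lit 90) (nat_lit 5) (nat_lit 93) (nat_lit 5) (nat_lit 91) (nat_lit 4) (nat_lit 509) (nat_lit 411) (nat_lit 280))) (XT.nd (nat_lit 78) (nat_lit 152) (nat_lit 0) (XT.lf (nat_lit 0) (nat_lit 4624901117) (nat_lit 152) (nat_lit 14538453372) (nat_lit 76) (nat_lit 13681112584) (nat_lit 88) (nat_lit 5) (nat_lit 90) (nat_lit 5) (nat_lit 89) (nat_lit 5) (nat_lit 510) (nat_lit 411) (nat_lit 279)) (XT.lf (nat_lit 0) (nat_lit 5731238831) (nat_lit 152) (nat_lit 8419347455)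 (nat_lit 228) (nat_lit 19347265487) (nat_lit 86) (nat_lit 5) (nat_lit 88) (nat_lit 5) (nat_lit 89) (nat_lit 5) (nat_lit 511) (nat_lit 411) (nat_lit 278)))) (XT.nd (nat_lit 156) (nat_lit 228) (nat_lit 0) (XT.nd (nat_lit 78) (nat_lit 76) (nat_lit 0) (XT.lf (nat_lit 0) (nat_lit 24123109446) (nat_lit 228) (nat_lit 7309949385) (nat_lit 76) (nat_lit 2732947393) (nat_lit 86) (nat_lit 5) (nat_lit 89) (nat_lit 5) (nat_lit 87) (nat_lit 4) (nat_lit 512) (nat_lit 411) (nat_lit 277)) (XT.lf (nat_lit 0) (nat_lit 13925822836) (nat_lit 76) (nat_lit 20673936644) (nat_lit 152) (nat_lit 248297521) (nat_lit 85) (nat_lit 5) (nat_lit 86) (nat_lit 5) (nat_lit 87) (nat_lit 4) (nat_lit 513) (nat_lit 411) (nat_lit 276))) (XT.nd (nat_lit 78) (nat_lit 0) (nat_lit 0) (XT.lf (nat_lit 0) (nat_lit 287456031) (nat_lit 152) (nat_lit 9425723518) (nat_lit 228) (nat_lit 25832600592) (nat_lit 82) (nat_lit 5) (nat_lit 84) (nat_lit 5) (nat_lit 85) (nat_lit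 5) (nat_lit 514) (nat_lit 411) (nat_lit 275)) (XT.lf (nat_lit 0) (nat_lit 20190420231) (nat_lit 228) (nat_lit 13744116422) (nat_lit 76) (nat_lit 2323167482) (nat_lit 82) (nat_lit 5) (nat_lit 85) (nat_lit 5) (nat_lit 83) (nat_lit 4) (nat_lit 515) (nat_lit 411) (nat_lit 274))))))) (XT.nd (nat_lit 1248) (nat_lit 988) (nat_lit 0) (XT.nd (nat_lit 624) (nat_lit 760) (nat_lit 0) (XT.nd (nat_lit 312) (nat_lit 304) (nat_lit 0) (XT.nd (nat_lit 156) (nat_lit 228) (nat_lit 0) (XT.nd (nat_lit 78) (nat_lit 76) (nat_lit 0) (XT.lf (nat_lit 0) (nat_lit 8465018203) (nat_lit 76) (nat_lit 22679792575) (nat_lit 152) (nat_lit 5841290293) (nat_lit 81) (nat_lit 5) (nat_lit 82) (nat_lit 5) (nat_lit 83) (nat_lit 4) (nat_lit 516) (nat_lit 411) (nat_lit 273)) (XT.lf (nat_lit 0) (nat_lit 4728252242) (nat_lit 152) (nat_lit 6178865071) (nat_lit 76) (nat_lit 26824030366) (nat_lit 80) (nat_lit 5) (nat_lit 82) (nat_lit 5) (nat_lit 81) (nat_lit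 5) (nat_lit 517) (nat_lit 411) (nat_lit 272))) (XT.nd (nat_lit 78) (nat_lit 76) (nat_lit 0) (XT.lf (nat_lit 0) (nat_lit 15664047416) (nat_lit 228) (nat_lit 21418544065) (nat_lit 76) (nat_lit 1409222236) (nat_lit 78) (nat_lit 5) (nat_lit 81) (nat_lit 5) (nat_lit 79) (nat_lit 4) (nat_lit 518) (nat_lit 411) (nat_lit 271)) (XT.lf (nat_lit 0) (nat_lit 1780583482) (nat_lit 76) (nat_lit 25323982333) (nat_lit 152) (nat_lit 12165434620) (nat_lit 77) (nat_lit 5) (nat_lit 78) (nat_lit 5) (nat_lit 79) (nat_lit 4) (nat_lit 519) (nat_lit 411) (nat_lit 270)))) (XT.nd (nat_lit 156) (nat_lit 76) (nat_lit 0) (XT.nd (nat_lit 78) (nat_lit 228) (nat_lit 0) (XT.lf (nat_lit 0) (nat_lit 26093203010) (nat_lit 76) (nat_lit 13000038933) (nat_lit 152) (nat_lit 972142719) (nat_lit 77) (nat_lit 5) (nat_lit 78) (nat_lit 5) (nat_lit 79) (nat_lit 4) (nat_lit 520) (nat_lit 411) (nat_lit 269)) (XT.lf (nat_lit 0) (nat_lit 10329521937) (nat_lit 152)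 (nat_lit 109593664) (nat_lit 228) (nat_lit 30439825433) (nat_lit 74) (nat_lit 5) (nat_lit 76) (nat_lit 5) (nat_lit 77) (nat_lit 5) (nat_lit 521) (nat_lit 411) (nat_lit 268))) (XT.nd (nat_lit 78) (nat_lit 76) (nat_lit 0) (XT.lf (nat_lit 0) (nat_lit 22431141227) (nat_lit 228) (nat_lit 6224738091) (nat_lit 76) (nat_lit 13052997123) (nat_lit 74) (nat_lit 5) (nat_lit 77) (nat_lit 5) (nat_lit 75) (nat_lit 4) (nat_lit 522) (nat_lit 411) (nat_lit 267)) (XT.lf (nat_lit 0) (nat_lit 19182369168) (nat_lit 76) (nat_lit 15775264736) (nat_lit 152) (nat_lit 7600834972) (nat_lit 73) (nat_lit 5) (nat_lit 74) (nat_lit 5) (nat_lit 75) (nat_lit 4) (nat_lit 523) (nat_lit 411) (nat_lit 266))))) (XT.nd (nat_lit 312) (nat_lit 456) (nat_lit 0) (XT.nd (nat_lit 156) (nat_lit 76) (nat_lit 0) (XT.nd (nat_lit 78) (nat_lit 0) (nat_lit 0) (XT.lf (nat_lit 0) (nat_lit 2023380364) (nat_lit 152) (nat_lit 2388788489) (nat_lit 228) (nat_lit 39017938776)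 (nat_lit 70) (nat_lit 5) (nat_lit 72) (nat_lit 5) (nat_lit 73) (nat_lit 5) (nat_lit 524) (nat_lit 411) (nat_lit 265)) (XT.lf (nat_lit 0) (nat_lit 16970025687) (nat_lit 228) (nat_lit 15864535280) (nat_lit 76) (nat_lit 11480960080) (nat_lit 70) (nat_lit 5) (nat_lit 73) (nat_lit 5) (nat_lit 71) (nat_lit 4) (nat_lit 525) (nat_lit 411) (nat_lit 264))) (XT.nd (nat_lit 78) (nat_lit 0) (nat_lit 0) (XT.lf (nat_lit 0) (nat_lit 10607273254) (nat_lit 76) (nat_lit 19412537951) (nat_lit 152) (nat_lit 15204230011) (nat_lit 69) (nat_lit 5) (nat_lit 70) (nat_lit 5) (nat_lit 71) (nat_lit 4) (nat_lit 526) (nat_lit 411) (nat_lit 263)) (XT.lf (nat_lit 0) (nat_lit 38178655441) (nat_lit 76) (nat_lit 5432326897) (nat_lit 152) (nat_lit 2544338024) (nat_lit 69) (nat_lit 5) (nat_lit 70) (nat_lit 5) (nat_lit 71) (nat_lit 4) (nat_lit 527) (nat_lit 411) (nat_lit 262)))) (XT.nd (nat_lit 156) (nat_lit 152) (nat_lit 0) (XT.nd (nat_lit 78) (nat_lit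 76) (nat_lit 0) (XT.lf (nat_lit 0) (nat_lit 10559057850) (nat_lit 228) (nat_lit 27467820719) (nat_lit 76) (nat_lit 9076577532) (nat_lit 66) (nat_lit 5) (nat_lit 69) (nat_lit 5) (nat_lit 67) (nat_lit 4) (nat_lit 528) (nat_lit 411) (nat_lit 261)) (XT.lf (nat_lit 0) (nat_lit 64244274) (nat_lit 76) (nat_lit 24065835133) (nat_lit 152) (nat_lit 23945431008) (nat_lit 65) (nat_lit 5) (nat_lit 66) (nat_lit 5) (nat_lit 67) (nat_lit 4) (nat_lit 529) (nat_lit 411) (nat_lit 260))) (XT.nd (nat_lit 78) (nat_lit 152) (nat_lit 0) (XT.lf (nat_lit 0) (nat_lit 28966091115) (nat_lit 76) (nat_lit 9409533757) (nat_lit 152) (nat_lit 10693079806) (nat_lit 65) (nat_lit 5) (nat_lit 66) (nat_lit 5) (nat_lit 67) (nat_lit 4) (nat_lit 530) (nat_lit 411) (nat_lit 259)) (XT.lf (nat_lit 0) (nat_lit 3029324599) (nat_lit 152) (nat_lit 41377222549) (nat_lit 76) (nat_lit 5680389605) (nat_lit 63) (nat_lit 5) (nat_lit 65) (nat_lit 5) (nat_lit 64) (nat_lit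 4) (nat_lit 531) (nat_lit 411) (nat_lit 258)))))) (XT.nd (nat_lit 624) (nat_lit 532) (nat_lit 0) (XT.nd (nat_lit 312) (nat_lit 228) (nat_lit 0) (XT.nd (nat_lit 156) (nat_lit 152) (nat_lit 0) (XT.nd (nat_lit 78) (nat_lit 76) (nat_lit 0) (XT.lf (nat_lit 0) (nat_lit 17236886703) (nat_lit 152) (nat_lit 12551072397) (nat_lit 76) (nat_lit 21335928460) (nat_lit 63) (nat_lit 5) (nat_lit 65) (nat_lit 5) (nat_lit 64) (nat_lit 4) (nat_lit 532) (nat_lit 411) (nat_lit 257)) (XT.lf (nat_lit 0) (nat_lit 17462267843) (nat_lit 76) (nat_lit 14566785566) (nat_lit 152) (nat_lit 20158142256) (nat_lit 62) (nat_lit 5) (nat_lit 63) (nat_lit 5) (nat_lit 64) (nat_lit 4) (nat_lit 533) (nat_lit 411) (nat_lit 256))) (XT.nd (nat_lit 78) (nat_lit 152) (nat_lit 0) (XT.lf (nat_lit 0) (nat_lit 47394197803) (nat_lit 152) (nat_lit 4675605792) (nat_lit 0) (nat_lit 1208723139) (nat_lit 62) (nat_lit 5) (nat_lit 64) (nat_lit 4) (nat_lit 62) (nat_lit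 4) (nat_lit 534) (nat_lit 411) (nat_lit 255)) (XT.lf (nat_lit 0) (nat_lit 9040554592) (nat_lit 152) (nat_lit 27846654659) (nat_lit 76) (nat_lit 17500998122) (nat_lit 60) (nat_lit 5) (nat_lit 62) (nat_lit 5) (nat_lit 61) (nat_lit 4) (nat_lit 535) (nat_lit 411) (nat_lit 254)))) (XT.nd (nat_lit 156) (nat_lit 152) (nat_lit 0) (XT.nd (nat_lit 78) (nat_lit 0) (nat_lit 0) (XT.lf (nat_lit 0) (nat_lit 3248127391) (nat_lit 76) (nat_lit 21116513160) (nat_lit 152) (nat_lit 31162698399) (nat_lit 59) (nat_lit 5) (nat_lit 60) (nat_lit 5) (nat_lit 61) (nat_lit 4) (nat_lit 536) (nat_lit 411) (nat_lit 253)) (XT.lf (nat_lit 0) (nat_lit 35828920454) (nat_lit 76) (nat_lit 4591643049) (nat_lit 152) (nat_lit 16271917630) (nat_lit 59) (nat_lit 5) (nat_lit 60) (nat_lit 5) (nat_lit 61) (nat_lit 4) (nat_lit 537) (nat_lit 411) (nat_lit 252))) (XT.nd (nat_lit 78) (nat_lit 76) (nat_lit 0) (XT.lf (nat_lit 0) (nat_lit 11583794685) (nat_lit 76)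 (nat_lit 45596297138) (nat_lit 76) (nat_lit 705828015) (nat_lit 58) (nat_lit 4) (nat_lit 59) (nat_lit 5) (nat_lit 59) (nat_lit 4) (nat_lit 538) (nat_lit 411) (nat_lit 251)) (XT.lf (nat_lit 0) (nat_lit 15277492567) (nat_lit 152) (nat_lit 13888809448) (nat_lit 76) (nat_lit 29936959588) (nat_lit 57) (nat_lit 5) (nat_lit 59) (nat_lit 5) (nat_lit 58) (nat_lit 4) (nat_lit 539) (nat_lit 411) (nat_lit 250))))) (XT.nd (nat_lit 312) (nat_lit 228) (nat_lit 0) (XT.nd (nat_lit 156) (nat_lit 228) (nat_lit 0) (XT.nd (nat_lit 78) (nat_lit 0) (nat_lit 0) (XT.lf (nat_lit 0) (nat_lit 19860636078) (nat_lit 76) (nat_lit 12047770991) (nat_lit 152) (nat_lit 28443038559) (nat_lit 56) (nat_lit 5) (nat_lit 57) (nat_lit 5) (nat_lit 58) (nat_lit 4) (nat_lit 540) (nat_lit 411) (nat_lit 249)) (XT.lf (nat_lit 0) (nat_lit 49224948432) (nat_lit 152) (nat_lit 6797511133) (nat_lit 0) (nat_lit 5609014704) (nat_lit 56) (nat_lit 5) (nat_lit 58) (nat_lit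 4) (nat_lit 56) (nat_lit 4) (nat_lit 541) (nat_lit 411) (nat_lit 248))) (XT.nd (nat_lit 78) (nat_lit 76) (nat_lit 0) (XT.lf (nat_lit 0) (nat_lit 4417835316) (nat_lit 152) (nat_lit 34658079121) (nat_lit 76) (nat_lit 23861194605) (nat_lit 54) (nat_lit 5) (nat_lit 56) (nat_lit 5) (nat_lit 55) (nat_lit 4) (nat_lit 542) (nat_lit 411) (nat_lit 247)) (XT.lf (nat_lit 0) (nat_lit 130014070) (nat_lit 76) (nat_lit 21429763507) (nat_lit 152) (nat_lit 42716583973) (nat_lit 53) (nat_lit 5) (nat_lit 54) (nat_lit 5) (nat_lit 55) (nat_lit 4) (nat_lit 543) (nat_lit 411) (nat_lit 246)))) (XT.nd (nat_lit 156) (nat_lit 152) (nat_lit 0) (XT.nd (nat_lit 78) (nat_lit 76) (nat_lit 0) (XT.lf (nat_lit 0) (nat_lit 36656004744) (nat_lit 76) (nat_lit 2901678037) (nat_lit 152) (nat_lit 26087857781) (nat_lit 53) (nat_lit 5) (nat_lit 54) (nat_lit 5) (nat_lit 55) (nat_lit 4) (nat_lit 544) (nat_lit 411) (nat_lit 245)) (XT.lf (nat_lit 0) (nat_lit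 7190848742) (nat_lit 76) (nat_lit 51121245957) (nat_lit 76) (nat_lit 8737203226) (nat_lit 52) (nat_lit 4) (nat_lit 53) (nat_lit 5) (nat_lit 53) (nat_lit 4) (nat_lit 545) (nat_lit 411) (nat_lit 244))) (XT.nd (nat_lit 78) (nat_lit 76) (nat_lit 0) (XT.lf (nat_lit 0) (nat_lit 9271997991) (nat_lit 152) (nat_lit 23570815747) (nat_lit 76) (nat_lit 35640232386) (nat_lit 51) (nat_lit 5) (nat_lit 53) (nat_lit 5) (nat_lit 52) (nat_lit 4) (nat_lit 546) (nat_lit 411) (nat_lit 243)) (XT.lf (nat_lit 0) (nat_lit 13976226867) (nat_lit 76) (nat_lit 13796121609) (nat_lit 152) (nat_lit 42181068673) (nat_lit 50) (nat_lit 5) (nat_lit 51) (nat_lit 5) (nat_lit 52) (nat_lit 4) (nat_lit 547) (nat_lit 411) (nat_lit 242))))))))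
noncomputable def xc124 : XT := (XT.nd (nat_lit 53898) (nat_lit 0) (nat_lit 9272) (XT.nd (nat_lit 52650) (nat_lit 0) (nat_lit 17936) (XT.nd (nat_lit 52026) (nat_lit 0) (nat_lit 24776) (XT.nd (nat_lit 234) (nat_lit 76) (nat_lit 0) (XT.nd (nat_lit 78) (nat_lit 152) (nat_lit 0) (XT.lf (nat_lit 0) (nat_lit 47116193797) (nat_lit 152) (nat_lit 18401669786) (nat_lit 0) (nat_lit 5941381253) (nat_lit 50) (nat_lit 5) (nat_lit 52) (nat_lit 4) (nat_lit 50) (nat_lit 4) (nat_lit 548) (nat_lit 411) (nat_lit 241)) (XT.nd (nat_lit 78) (nat_lit 76) (nat_lit 0) (XT.lf (nat_lit 0) (nat_lit 20550536582) (nat_lit 76) (nat_lit 46816330619) (nat_lit 76) (nat_lit 5633584829) (nat_lit 49) (nat_lit 4) (nat_lit 50) (nat_lit 5) (nat_lit 50) (nat_lit 4) (nat_lit 549) (nat_lit 411) (nat_lit 240)) (XT.lf (nat_lit 0) (nat_lit 13551093463) (nat_lit 152) (nat_lit 13681728239) (nat_lit 76) (nat_lit 47345739981) (nat_lit 48) (nat_lit 5) (nat_lit 50)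 (nat_lit 5) (nat_lit 49) (nat_lit 4) (nat_lit 550) (nat_lit 411) (nat_lit 239)))) (XT.nd (nat_lit 51636) (nat_lit 0) (nat_lit 26296) (XT.nd (nat_lit 78) (nat_lit 0) (nat_lit 0) (XT.lf (nat_lit 0) (nat_lit 26700175970) (nat_lit 76) (nat_lit 6747164810) (nat_lit 152) (nat_lit 42747522811) (nat_lit 47) (nat_lit 5) (nat_lit 48) (nat_lit 5) (nat_lit 49) (nat_lit 4) (nat_lit 551) (nat_lit 411) (nat_lit 238)) (XT.lf (nat_lit 0) (nat_lit 54210580818) (nat_lit 152) (nat_lit 9435424627) (nat_lit 0) (nat_lit 14205546004) (nat_lit 47) (nat_lit 5) (nat_lit 49) (nat_lit 4) (nat_lit 47) (nat_lit 4) (nat_lit 552) (nat_lit 411) (nat_lit 237))) (XT.nd (nat_lit 78) (nat_lit 836) (nat_lit 0) (XT.lf (nat_lit 0) (nat_lit 1582755427) (nat_lit 0) (nat_lit 1582755427) (nat_lit 684) (nat_lit 360292275) (nat_lit 404) (nat_lit 5) (nat_lit 404) (nat_lit 3) (nat_lit 413) (nat_lit 3) (nat_lit 412) (nat_lit 412) (nat_lit 376)) (XT.lf (nat_lit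 0) (nat_lit 1058039013) (nat_lit 836) (nat_lit 376916680) (nat_lit 836) (nat_lit 5669166405) (nat_lit 393) (nat_lit 3) (nat_lit 404) (nat_lit 3) (nat_lit 404) (nat_lit 5) (nat_lit 413) (nat_lit 412) (nat_lit 375))))) (XT.nd (nat_lit 312) (nat_lit 760) (nat_lit 0) (XT.nd (nat_lit 156) (nat_lit 836) (nat_lit 0) (XT.nd (nat_lit 78) (nat_lit 0) (nat_lit 0) (XT.lf (nat_lit 0) (nat_lit 2841623723) (nat_lit 760) (nat_lit 3904889799) (nat_lit 836) (nat_lit 412511662) (nat_lit 394) (nat_lit 5) (nat_lit 404) (nat_lit 5) (nat_lit 405) (nat_lit 5) (nat_lit 414) (nat_lit 412) (nat_lit 374)) (XT.lf (nat_lit 0) (nat_lit 4629476106) (nat_lit 760) (nat_lit 265540561) (nat_lit 836) (nat_lit 2322044013) (nat_lit 394) (nat_lit 5) (nat_lit 404) (nat_lit 5) (nat_lit 405) (nat_lit 5) (nat_lit 415) (nat_lit 412) (nat_lit 373))) (XT.nd (nat_lit 78) (nat_lit 836) (nat_lit 0) (XT.lf (nat_lit 76) (nat_lit 3514997222) (nat_lit 0) (nat_lit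 2924423924) (nat_lit 836) (nat_lit 838370267) (nat_lit 395) (nat_lit 5) (nat_lit 394) (nat_lit 5) (nat_lit 405) (nat_lit 5) (nat_lit 416) (nat_lit 412) (nat_lit 372)) (XT.lf (nat_lit 76) (nat_lit 27875238) (nat_lit 0) (nat_lit 855207791) (nat_lit 912) (nat_lit 6458833859) (nat_lit 384) (nat_lit 5) (nat_lit 383) (nat_lit 5) (nat_lit 395) (nat_lit 5) (nat_lit 417) (nat_lit 412) (nat_lit 371)))) (XT.nd (nat_lit 156) (nat_lit 836) (nat_lit 0) (XT.nd (nat_lit 78) (nat_lit 0) (nat_lit 0) (XT.lf (nat_lit 0) (nat_lit 2627320200) (nat_lit 836) (nat_lit 3457658128) (nat_lit 912) (nat_lit 1323106276) (nat_lit 384) (nat_lit 5) (nat_lit 395) (nat_lit 5) (nat_lit 396) (nat_lit 5) (nat_lit 418) (nat_lit 412) (nat_lit 370)) (XT.lf (nat_lit 76) (nat_lit 477117210) (nat_lit 0) (nat_lit 3898996873) (nat_lit 912) (nat_lit 3101563385) (nat_lit 385) (nat_lit 5) (nat_lit 384) (nat_lit 5) (nat_lit 396) (nat_lit 5) (nat_lit 419) (nat_lit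 412) (nat_lit 369))) (XT.nd (nat_lit 78) (nat_lit 836) (nat_lit 0) (XT.lf (nat_lit 76) (nat_lit 4563045796) (nat_lit 0) (nat_lit 1589825928) (nat_lit 912) (nat_lit 1397228199) (nat_lit 385) (nat_lit 5) (nat_lit 384) (nat_lit 5) (nat_lit 396) (nat_lit 5) (nat_lit 420) (nat_lit 412) (nat_lit 368)) (XT.lf (nat_lit 0) (nat_lit 311741349) (nat_lit 912) (nat_lit 6506357072) (nat_lit 988) (nat_lit 807684890) (nat_lit 373) (nat_lit 5) (nat_lit 385) (nat_lit 5) (nat_lit 386) (nat_lit 5) (nat_lit 421) (nat_lit 412) (nat_lit 367)))))) (XT.nd (nat_lit 624) (nat_lit 5016) (nat_lit 0) (XT.nd (nat_lit 312) (nat_lit 1824) (nat_lit 0) (XT.nd (nat_lit 156) (nat_lit 0) (nat_lit 76) (XT.nd (nat_lit 78) (nat_lit 0) (nat_lit 0) (XT.lf (nat_lit 0) (nat_lit 2033361211) (nat_lit 912) (nat_lit 2361737709) (nat_lit 988) (nat_lit 3308545563) (nat_lit 373) (nat_lit 5) (nat_lit 385) (nat_lit 5) (nat_lit 386) (nat_lit 5) (nat_lit 422) (nat_lit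 412) (nat_lit 366)) (XT.lf (nat_lit 76) (nat_lit 1906198915) (nat_lit 0) (nat_lit 1863668132) (nat_lit 988) (nat_lit 4015083367) (nat_lit 374) (nat_lit 5) (nat_lit 373) (nat_lit 5) (nat_lit 386) (nat_lit 5) (nat_lit 423) (nat_lit 412) (nat_lit 365))) (XT.nd (nat_lit 78) (nat_lit 0) (nat_lit 0) (XT.lf (nat_lit 0) (nat_lit 5536010389) (nat_lit 912) (nat_lit 1564396681) (nat_lit 988) (nat_lit 768968052) (nat_lit 374) (nat_lit 5) (nat_lit 386) (nat_lit 5) (nat_lit 387) (nat_lit 5) (nat_lit 424) (nat_lit 412) (nat_lit 364)) (XT.lf (nat_lit 76) (nat_lit 2878644796) (nat_lit 0) (nat_lit 4470488849) (nat_lit 988) (nat_lit 607384751) (nat_lit 375) (nat_lit 5) (nat_lit 374) (nat_lit 5) (nat_lit 387) (nat_lit 5) (nat_lit 425) (nat_lit 412) (nat_lit 363)))) (XT.nd (nat_lit 156) (nat_lit 912) (nat_lit 0) (XT.nd (nat_lit 78) (nat_lit 0) (nat_lit 76) (XT.lf (nat_lit 0) (nat_lit 1112004349) (nat_lit 988) (nat_lit 609280190) (nat_lit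 1064) (nat_lit 6325725253) (nat_lit 361) (nat_lit 5) (nat_lit 374) (nat_lit 5) (nat_lit 375) (nat_lit 5) (nat_lit 426) (nat_lit 412) (nat_lit 362)) (XT.lf (nat_lit 0) (nat_lit 2870732613) (nat_lit 988) (nat_lit 4123631314) (nat_lit 76) (nat_lit 1145677843) (nat_lit 362) (nat_lit 5) (nat_lit 375) (nat_lit 5) (nat_lit 363) (nat_lit 5) (nat_lit 427) (nat_lit 412) (nat_lit 361))) (XT.nd (nat_lit 78) (nat_lit 0) (nat_lit 0) (XT.lf (nat_lit 0) (nat_lit 511370567) (nat_lit 988) (nat_lit 4150240327) (nat_lit 1064) (nat_lit 3574877232) (nat_lit 349) (nat_lit 5) (nat_lit 362) (nat_lit 5) (nat_lit 363) (nat_lit 5) (nat_lit 428) (nat_lit 412) (nat_lit 360)) (XT.lf (nat_lit 0) (nat_lit 5331150968) (nat_lit 988) (nat_lit 1168969721) (nat_lit 1064) (nat_lit 1835894941) (nat_lit 349) (nat_lit 5) (nat_lit 362) (nat_lit 5) (nat_lit 363) (nat_lit 5) (nat_lit 429) (nat_lit 412) (nat_lit 359))))) (XT.nd (nat_lit 312) (nat_lit 2736)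 (nat_lit 0) (XT.nd (nat_lit 156) (nat_lit 1140) (nat_lit 0) (XT.nd (nat_lit 78) (nat_lit 76) (nat_lit 0) (XT.lf (nat_lit 0) (nat_lit 1835379732) (nat_lit 1064) (nat_lit 6548067819) (nat_lit 1140) (nat_lit 55396327) (nat_lit 335) (nat_lit 5) (nat_lit 349) (nat_lit 5) (nat_lit 350) (nat_lit 5) (nat_lit 430) (nat_lit 412) (nat_lit 358)) (XT.lf (nat_lit 0) (nat_lit 1740289748) (nat_lit 1140) (nat_lit 1730070280) (nat_lit 76) (nat_lit 5073994222) (nat_lit 334) (nat_lit 5) (nat_lit 349) (nat_lit 5) (nat_lit 335) (nat_lit 5) (nat_lit 431) (nat_lit 412) (nat_lit 357))) (XT.nd (nat_lit 78) (nat_lit 0) (nat_lit 0) (XT.lf (nat_lit 0) (nat_lit 3315141782) (nat_lit 1140) (nat_lit 261050767) (nat_lit 1216) (nat_lit 5077201511) (nat_lit 319) (nat_lit 5) (nat_lit 334) (nat_lit 5) (nat_lit 335) (nat_lit 5) (nat_lit 432) (nat_lit 412) (nat_lit 356)) (XT.lf (nat_lit 0) (nat_lit 5470652059) (nat_lit 1216) (nat_lit 286952664) (nat_lit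 76) (nat_lit 3008000192) (nat_lit 319) (nat_lit 5) (nat_lit 335) (nat_lit 5) (nat_lit 320) (nat_lit 5) (nat_lit 433) (nat_lit 412) (nat_lit 355)))) (XT.nd (nat_lit 156) (nat_lit 608) (nat_lit 0) (XT.nd (nat_lit 78) (nat_lit 912) (nat_lit 0) (XT.lf (nat_lit 0) (nat_lit 4971965211) (nat_lit 1216) (nat_lit 2458193689) (nat_lit 1292) (nat_lit 1450780903) (nat_lit 303) (nat_lit 5) (nat_lit 319) (nat_lit 5) (nat_lit 320) (nat_lit 5) (nat_lit 434) (nat_lit 412) (nat_lit 354)) (XT.lf (nat_lit 0) (nat_lit 423692729) (nat_lit 912) (nat_lit 7631013805) (nat_lit 76) (nat_lit 945390706) (nat_lit 291) (nat_lit 5) (nat_lit 303) (nat_lit 5) (nat_lit 292) (nat_lit 5) (nat_lit 435) (nat_lit 412) (nat_lit 353))) (XT.nd (nat_lit 78) (nat_lit 608) (nat_lit 0) (XT.lf (nat_lit 0) (nat_lit 2348598066) (nat_lit 912) (nat_lit 2314813145) (nat_lit 76) (nat_lit 4458290327) (nat_lit 291) (nat_lit 5) (nat_lit 303) (nat_lit 5) (nat_lit 292)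 (nat_lit 5) (nat_lit 436) (nat_lit 412) (nat_lit 352)) (XT.lf (nat_lit 0) (nat_lit 3184482464) (nat_lit 608) (nat_lit 1137723372) (nat_lit 684) (nat_lit 4925023128) (nat_lit 283) (nat_lit 5) (nat_lit 291) (nat_lit 5) (nat_lit 292) (nat_lit 5) (nat_lit 437) (nat_lit 412) (nat_lit 351))))))) (XT.nd (nat_lit 1170) (nat_lit 3800) (nat_lit 0) (XT.nd (nat_lit 546) (nat_lit 2508) (nat_lit 0) (XT.nd (nat_lit 234) (nat_lit 1140) (nat_lit 0) (XT.nd (nat_lit 78) (nat_lit 1216) (nat_lit 0) (XT.lf (nat_lit 0) (nat_lit 6363738864) (nat_lit 684) (nat_lit 543145831) (nat_lit 76) (nat_lit 2469379557) (nat_lit 283) (nat_lit 5) (nat_lit 292) (nat_lit 5) (nat_lit 284) (nat_lit 5) (nat_lit 438) (nat_lit 412) (nat_lit 350)) (XT.nd (nat_lit 78) (nat_lit 608) (nat_lit 0) (XT.lf (nat_lit 0) (nat_lit 5193945942) (nat_lit 608) (nat_lit 3296034989) (nat_lit 684) (nat_lit 1018489222) (nat_lit 275) (nat_lit 5) (nat_lit 283) (nat_lit 5) (nat_lit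 284) (nat_lit 5) (nat_lit 439) (nat_lit 412) (nat_lit 349)) (XT.lf (nat_lit 0) (nat_lit 1001621335) (nat_lit 608) (nat_lit 8199703009) (nat_lit 76) (nat_lit 443428847) (nat_lit 267) (nat_lit 5) (nat_lit 275) (nat_lit 5) (nat_lit 268) (nat_lit 5) (nat_lit 440) (nat_lit 412) (nat_lit 348)))) (XT.nd (nat_lit 156) (nat_lit 532) (nat_lit 0) (XT.nd (nat_lit 78) (nat_lit 608) (nat_lit 0) (XT.lf (nat_lit 0) (nat_lit 3101841622) (nat_lit 608) (nat_lit 2400378797) (nat_lit 76) (nat_lit 4281405622) (nat_lit 267) (nat_lit 5) (nat_lit 275) (nat_lit 5) (nat_lit 268) (nat_lit 5) (nat_lit 441) (nat_lit 412) (nat_lit 347)) (XT.lf (nat_lit 0) (nat_lit 3605151307) (nat_lit 608) (nat_lit 1658983221) (nat_lit 684) (nat_lit 4662561632) (nat_lit 259) (nat_lit 5) (nat_lit 267) (nat_lit 5) (nat_lit 268) (nat_lit 5) (nat_lit 442) (nat_lit 412) (nat_lit 346))) (XT.nd (nat_lit 78) (nat_lit 532) (nat_lit 0) (XT.lf (nat_lit 0) (nat_lit 7502937568)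 (nat_lit 684) (nat_lit 294395910) (nat_lit 76) (nat_lit 2276378636) (nat_lit 259) (nat_lit 5) (nat_lit 268) (nat_lit 5) (nat_lit 260) (nat_lit 5) (nat_lit 443) (nat_lit 412) (nat_lit 345)) (XT.lf (nat_lit 0) (nat_lit 5976113990) (nat_lit 532) (nat_lit 3872737634) (nat_lit 608) (nat_lit 375091402) (nat_lit 252) (nat_lit 5) (nat_lit 259) (nat_lit 5) (nat_lit 260) (nat_lit 5) (nat_lit 444) (nat_lit 412) (nat_lit 344))))) (XT.nd (nat_lit 312) (nat_lit 988) (nat_lit 0) (XT.nd (nat_lit 156) (nat_lit 912) (nat_lit 0) (XT.nd (nat_lit 78) (nat_lit 0) (nat_lit 0) (XT.lf (nat_lit 0) (nat_lit 1840685616) (nat_lit 608) (nat_lit 8334463549) (nat_lit 76) (nat_lit 203259354) (nat_lit 244) (nat_lit 5) (nat_lit 252) (nat_lit 5) (nat_lit 245) (nat_lit 5) (nat_lit 445) (nat_lit 412) (nat_lit 343)) (XT.lf (nat_lit 0) (nat_lit 4164007406) (nat_lit 608) (nat_lit 2005678385) (nat_lit 76) (nat_lit 4366255102) (nat_lit 244) (nat_lit 5)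 (nat_lit 252) (nat_lit 5) (nat_lit 245) (nat_lit 5) (nat_lit 446) (nat_lit 412) (nat_lit 342))) (XT.nd (nat_lit 78) (nat_lit 456) (nat_lit 0) (XT.lf (nat_lit 0) (nat_lit 4564641604) (nat_lit 456) (nat_lit 2004175123) (nat_lit 532) (nat_lit 4129031439) (nat_lit 238) (nat_lit 5) (nat_lit 244) (nat_lit 5) (nat_lit 245) (nat_lit 5) (nat_lit 447) (nat_lit 412) (nat_lit 341)) (XT.lf (nat_lit 0) (nat_lit 458010774) (nat_lit 456) (nat_lit 8603028833) (nat_lit 532) (nat_lit 1803117462) (nat_lit 232) (nat_lit 5) (nat_lit 238) (nat_lit 5) (nat_lit 239) (nat_lit 5) (nat_lit 448) (nat_lit 412) (nat_lit 340)))) (XT.nd (nat_lit 156) (nat_lit 456) (nat_lit 0) (XT.nd (nat_lit 78) (nat_lit 456) (nat_lit 0) (XT.lf (nat_lit 0) (nat_lit 632084859) (nat_lit 532) (nat_lit 3725243716) (nat_lit 76) (nat_lit 6676425901) (nat_lit 231) (nat_lit 5) (nat_lit 238) (nat_lit 5) (nat_lit 232) (nat_lit 5) (nat_lit 449) (nat_lit 412) (nat_lit 339))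 (XT.lf (nat_lit 0) (nat_lit 3104667354) (nat_lit 532) (nat_lit 8045590022) (nat_lit 76) (nat_lit 57632178) (nat_lit 225) (nat_lit 5) (nat_lit 232) (nat_lit 5) (nat_lit 226) (nat_lit 5) (nat_lit 450) (nat_lit 412) (nat_lit 338))) (XT.nd (nat_lit 78) (nat_lit 456) (nat_lit 0) (XT.lf (nat_lit 0) (nat_lit 5702622674) (nat_lit 532) (nat_lit 1134341728) (nat_lit 76) (nat_lit 4548750635) (nat_lit 225) (nat_lit 5) (nat_lit 232) (nat_lit 5) (nat_lit 226) (nat_lit 5) (nat_lit 451) (nat_lit 412) (nat_lit 337)) (XT.lf (nat_lit 0) (nat_lit 6066170067) (nat_lit 456) (nat_lit 2341593638) (nat_lit 532) (nat_lit 3160236315) (nat_lit 219) (nat_lit 5) (nat_lit 225) (nat_lit 5) (nat_lit 226) (nat_lit 5) (nat_lit 452) (nat_lit 412) (nat_lit 336)))))) (XT.nd (nat_lit 624) (nat_lit 1748) (nat_lit 0) (XT.nd (nat_lit 312) (nat_lit 760) (nat_lit 0) (XT.nd (nat_lit 156) (nat_lit 836) (nat_lit 0) (XT.nd (nat_lit 78) (nat_lit 76) (nat_lit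 0) (XT.lf (nat_lit 0) (nat_lit 1725216008) (nat_lit 380) (nat_lit 9490357236) (nat_lit 456) (nat_lit 539536965) (nat_lit 214) (nat_lit 5) (nat_lit 219) (nat_lit 5) (nat_lit 220) (nat_lit 5) (nat_lit 453) (nat_lit 412) (nat_lit 335)) (XT.lf (nat_lit 0) (nat_lit 2168495051) (nat_lit 456) (nat_lit 2745889343) (nat_lit 76) (nat_lit 7031302737) (nat_lit 213) (nat_lit 5) (nat_lit 219) (nat_lit 5) (nat_lit 214) (nat_lit 5) (nat_lit 454) (nat_lit 412) (nat_lit 334))) (XT.nd (nat_lit 78) (nat_lit 380) (nat_lit 0) (XT.lf (nat_lit 0) (nat_lit 4809134817) (nat_lit 456) (nat_lit 156410576) (nat_lit 532) (nat_lit 7175718972) (nat_lit 207) (nat_lit 5) (nat_lit 213) (nat_lit 5) (nat_lit 214) (nat_lit 5) (nat_lit 455) (nat_lit 412) (nat_lit 333)) (XT.lf (nat_lit 0) (nat_lit 227394340) (nat_lit 380) (nat_lit 7667679359) (nat_lit 456) (nat_lit 4446180075) (nat_lit 202) (nat_lit 5) (nat_lit 207) (nat_lit 5) (nat_lit 208) (nat_lit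 5) (nat_lit 456) (nat_lit 412) (nat_lit 332)))) (XT.nd (nat_lit 156) (nat_lit 304) (nat_lit 0) (XT.nd (nat_lit 78) (nat_lit 456) (nat_lit 0) (XT.lf (nat_lit 0) (nat_lit 8126398738) (nat_lit 380) (nat_lit 2834882222) (nat_lit 456) (nat_lit 1584499910) (nat_lit 202) (nat_lit 5) (nat_lit 207) (nat_lit 5) (nat_lit 208) (nat_lit 5) (nat_lit 457) (nat_lit 412) (nat_lit 331)) (XT.lf (nat_lit 0) (nat_lit 1365044105) (nat_lit 456) (nat_lit 9250666128) (nat_lit 76) (nat_lit 2139483841) (nat_lit 196) (nat_lit 5) (nat_lit 202) (nat_lit 5) (nat_lit 197) (nat_lit 5) (nat_lit 458) (nat_lit 412) (nat_lit 330))) (XT.nd (nat_lit 78) (nat_lit 304) (nat_lit 0) (XT.lf (nat_lit 0) (nat_lit 4418442373) (nat_lit 456) (nat_lit 1292841816) (nat_lit 76) (nat_lit 7257720044) (nat_lit 196) (nat_lit 5) (nat_lit 202) (nat_lit 5) (nat_lit 197) (nat_lit 5) (nat_lit 459) (nat_lit 412) (nat_lit 329)) (XT.lf (nat_lit 0) (nat_lit 7005624947) (nat_lit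 304) (nat_lit 599992736) (nat_lit 380) (nat_lit 5582347358) (nat_lit 192) (nat_lit 5) (nat_lit 196) (nat_lit 5) (nat_lit 197) (nat_lit 5) (nat_lit 460) (nat_lit 412) (nat_lit 328))))) (XT.nd (nat_lit 312) (nat_lit 684) (nat_lit 0) (XT.nd (nat_lit 156) (nat_lit 608) (nat_lit 0) (XT.nd (nat_lit 78) (nat_lit 76) (nat_lit 0) (XT.lf (nat_lit 0) (nat_lit 2127891433) (nat_lit 380) (nat_lit 8814136593) (nat_lit 456) (nat_lit 2469859607) (nat_lit 187) (nat_lit 5) (nat_lit 192) (nat_lit 5) (nat_lit 193) (nat_lit 5) (nat_lit 461) (nat_lit 412) (nat_lit 327)) (XT.lf (nat_lit 0) (nat_lit 765916391) (nat_lit 456) (nat_lit 2875383310) (nat_lit 76) (nat_lit 9999689147) (nat_lit 186) (nat_lit 5) (nat_lit 192) (nat_lit 5) (nat_lit 187) (nat_lit 5) (nat_lit 462) (nat_lit 412) (nat_lit 326))) (XT.nd (nat_lit 78) (nat_lit 304) (nat_lit 0) (XT.lf (nat_lit 0) (nat_lit 4098189805) (nat_lit 380) (nat_lit 8051400867) (nat_lit 76) (nat_lit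 1725168248) (nat_lit 182) (nat_lit 5) (nat_lit 187) (nat_lit 5) (nat_lit 183) (nat_lit 5) (nat_lit 463) (nat_lit 412) (nat_lit 325)) (XT.lf (nat_lit 0) (nat_lit 669553319) (nat_lit 304) (nat_lit 6908971500) (nat_lit 380) (nat_lit 6535575853) (nat_lit 178) (nat_lit 5) (nat_lit 182) (nat_lit 5) (nat_lit 183) (nat_lit 5) (nat_lit 464) (nat_lit 412) (nat_lit 324)))) (XT.nd (nat_lit 156) (nat_lit 304) (nat_lit 0) (XT.nd (nat_lit 78) (nat_lit 380) (nat_lit 0) (XT.lf (nat_lit 0) (nat_lit 9783014948) (nat_lit 304) (nat_lit 1438202247) (nat_lit 380) (nat_lit 3137668401) (nat_lit 178) (nat_lit 5) (nat_lit 182) (nat_lit 5) (nat_lit 183) (nat_lit 5) (nat_lit 465) (nat_lit 412) (nat_lit 323)) (XT.lf (nat_lit 0) (nat_lit 417249712) (nat_lit 380) (nat_lit 10039231620) (nat_lit 76) (nat_lit 4152565329) (nat_lit 173) (nat_lit 5) (nat_lit 178) (nat_lit 5) (nat_lit 174) (nat_lit 5) (nat_lit 466) (nat_lit 412) (nat_lit 322))) (XT.nd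 (nat_lit 78) (nat_lit 304) (nat_lit 0) (XT.lf (nat_lit 0) (nat_lit 4053997881) (nat_lit 380) (nat_lit 861291109) (nat_lit 76) (nat_lit 9949345416) (nat_lit 173) (nat_lit 5) (nat_lit 178) (nat_lit 5) (nat_lit 174) (nat_lit 5) (nat_lit 467) (nat_lit 412) (nat_lit 321)) (XT.lf (nat_lit 0) (nat_lit 7870103951) (nat_lit 380) (nat_lit 6404930871) (nat_lit 76) (nat_lit 850748486) (nat_lit 169) (nat_lit 5) (nat_lit 174) (nat_lit 5) (nat_lit 170) (nat_lit 5) (nat_lit 468) (nat_lit 412) (nat_lit 320))))))))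
noncomputable def xc125 : XT := (XT.nd (nat_lit 2418) (nat_lit 3040) (nat_lit 0) (XT.nd (nat_lit 1170) (nat_lit 2052) (nat_lit 0) (XT.nd (nat_lit 546) (nat_lit 1292) (nat_lit 0) (XT.nd (nat_lit 234) (nat_lit 836) (nat_lit 0) (XT.nd (nat_lit 78) (nat_lit 380) (nat_lit 0) (XT.lf (nat_lit 0) (nat_lit 3194074426) (nat_lit 304) (nat_lit 8672996861) (nat_lit 380) (nat_lit 3525705204) (nat_lit 165) (nat_lit 5) (nat_lit 169) (nat_lit 5) (nat_lit 170) (nat_lit 5) (nat_lit 469) (nat_lit 412) (nat_lit 319)) (XT.nd (nat_lit 78) (nat_lit 304) (nat_lit 0) (XT.lf (nat_lit 0) (nat_lit 353646725) (nat_lit 380) (nat_lit 2490393053) (nat_lit 76) (nat_lit 12822340158) (nat_lit 164) (nat_lit 5) (nat_lit 169) (nat_lit 5) (nat_lit 165) (nat_lit 5) (nat_lit 470) (nat_lit 412) (nat_lit 318)) (XT.lf (nat_lit 0) (nat_lit 4361772555) (nat_lit 380) (nat_lit 8386805356) (nat_lit 76) (nat_lit 3196069695) (nat_lit 160) (nat_lit 5) (nat_lit 165)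 (nat_lit 5) (nat_lit 161) (nat_lit 5) (nat_lit 471) (nat_lit 412) (nat_lit 317)))) (XT.nd (nat_lit 156) (nat_lit 608) (nat_lit 0) (XT.nd (nat_lit 78) (nat_lit 0) (nat_lit 0) (XT.lf (nat_lit 0) (nat_lit 1700388674) (nat_lit 228) (nat_lit 6838814316) (nat_lit 304) (nat_lit 7690589518) (nat_lit 157) (nat_lit 5) (nat_lit 160) (nat_lit 5) (nat_lit 161) (nat_lit 5) (nat_lit 472) (nat_lit 412) (nat_lit 316)) (XT.lf (nat_lit 0) (nat_lit 12229987358) (nat_lit 228) (nat_lit 676117157) (nat_lit 304) (nat_lit 3615463793) (nat_lit 157) (nat_lit 5) (nat_lit 160) (nat_lit 5) (nat_lit 161) (nat_lit 5) (nat_lit 473) (nat_lit 412) (nat_lit 315))) (XT.nd (nat_lit 78) (nat_lit 228) (nat_lit 0) (XT.lf (nat_lit 0) (nat_lit 666427415) (nat_lit 380) (nat_lit 10535873908) (nat_lit 76) (nat_lit 5616753176) (nat_lit 152) (nat_lit 5) (nat_lit 157) (nat_lit 5) (nat_lit 153) (nat_lit 5) (nat_lit 474) (nat_lit 412) (nat_lit 314)) (XT.lf (nat_lit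 0) (nat_lit 65577392) (nat_lit 228) (nat_lit 4969654749) (nat_lit 304) (nat_lit 12088226425) (nat_lit 149) (nat_lit 5) (nat_lit 152) (nat_lit 5) (nat_lit 153) (nat_lit 5) (nat_lit 475) (nat_lit 412) (nat_lit 313))))) (XT.nd (nat_lit 312) (nat_lit 760) (nat_lit 0) (XT.nd (nat_lit 156) (nat_lit 304) (nat_lit 0) (XT.nd (nat_lit 78) (nat_lit 228) (nat_lit 0) (XT.lf (nat_lit 0) (nat_lit 9636683754) (nat_lit 304) (nat_lit 6279689137) (nat_lit 76) (nat_lit 1517575266) (nat_lit 149) (nat_lit 5) (nat_lit 153) (nat_lit 5) (nat_lit 150) (nat_lit 5) (nat_lit 476) (nat_lit 412) (nat_lit 312)) (XT.lf (nat_lit 0) (nat_lit 4836000235) (nat_lit 228) (nat_lit 9616646167) (nat_lit 304) (nat_lit 3298812870) (nat_lit 146) (nat_lit 5) (nat_lit 149) (nat_lit 5) (nat_lit 150) (nat_lit 5) (nat_lit 477) (nat_lit 412) (nat_lit 311))) (XT.nd (nat_lit 78) (nat_lit 228) (nat_lit 0) (XT.lf (nat_lit 0) (nat_lit 1353442495) (nat_lit 304) (nat_lit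 1707251897) (nat_lit 76) (nat_lit 15016070480) (nat_lit 145) (nat_lit 5) (nat_lit 149) (nat_lit 5) (nat_lit 146) (nat_lit 5) (nat_lit 478) (nat_lit 412) (nat_lit 310)) (XT.lf (nat_lit 0) (nat_lit 6192849810) (nat_lit 304) (nat_lit 8476298559) (nat_lit 76) (nat_lit 3738285597) (nat_lit 142) (nat_lit 5) (nat_lit 146) (nat_lit 5) (nat_lit 143) (nat_lit 5) (nat_lit 479) (nat_lit 412) (nat_lit 309)))) (XT.nd (nat_lit 156) (nat_lit 532) (nat_lit 0) (XT.nd (nat_lit 78) (nat_lit 0) (nat_lit 0) (XT.lf (nat_lit 0) (nat_lit 3207961790) (nat_lit 228) (nat_lit 8029582319) (nat_lit 304) (nat_lit 7508676644) (nat_lit 139) (nat_lit 5) (nat_lit 142) (nat_lit 5) (nat_lit 143) (nat_lit 5) (nat_lit 480) (nat_lit 412) (nat_lit 308)) (XT.lf (nat_lit 0) (nat_lit 15386475204) (nat_lit 228) (nat_lit 1114500014) (nat_lit 304) (nat_lit 2592174787) (nat_lit 139) (nat_lit 5) (nat_lit 142) (nat_lit 5) (nat_lit 143) (nat_lit 5) (nat_lit 481)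 (nat_lit 412) (nat_lit 307))) (XT.nd (nat_lit 78) (nat_lit 228) (nat_lit 0) (XT.lf (nat_lit 0) (nat_lit 2547051892) (nat_lit 304) (nat_lit 10912235798) (nat_lit 76) (nat_lit 5986783406) (nat_lit 135) (nat_lit 5) (nat_lit 139) (nat_lit 5) (nat_lit 136) (nat_lit 5) (nat_lit 482) (nat_lit 412) (nat_lit 306)) (XT.lf (nat_lit 0) (nat_lit 1369093059) (nat_lit 228) (nat_lit 6463541652) (nat_lit 304) (nat_lit 11974847450) (nat_lit 132) (nat_lit 5) (nat_lit 135) (nat_lit 5) (nat_lit 136) (nat_lit 5) (nat_lit 483) (nat_lit 412) (nat_lit 305)))))) (XT.nd (nat_lit 624) (nat_lit 988) (nat_lit 0) (XT.nd (nat_lit 312) (nat_lit 608) (nat_lit 0) (XT.nd (nat_lit 156) (nat_lit 304) (nat_lit 0) (XT.nd (nat_lit 78) (nat_lit 152) (nat_lit 0) (XT.lf (nat_lit 0) (nat_lit 13377604863) (nat_lit 304) (nat_lit 5971862184) (nat_lit 76) (nat_lit 827244573) (nat_lit 132) (nat_lit 5) (nat_lit 136) (nat_lit 5) (nat_lit 133) (nat_lit 5) (nat_lit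 484) (nat_lit 412) (nat_lit 304)) (XT.lf (nat_lit 0) (nat_lit 6910623019) (nat_lit 152) (nat_lit 12291641578) (nat_lit 228) (nat_lit 1351353791) (nat_lit 130) (nat_lit 5) (nat_lit 132) (nat_lit 5) (nat_lit 133) (nat_lit 5) (nat_lit 485) (nat_lit 412) (nat_lit 303))) (XT.nd (nat_lit 78) (nat_lit 228) (nat_lit 0) (XT.lf (nat_lit 0) (nat_lit 4220579175) (nat_lit 228) (nat_lit 708517771) (nat_lit 76) (nat_lit 16010191411) (nat_lit 129) (nat_lit 5) (nat_lit 132) (nat_lit 5) (nat_lit 130) (nat_lit 5) (nat_lit 486) (nat_lit 412) (nat_lit 302)) (XT.lf (nat_lit 0) (nat_lit 10065992645) (nat_lit 304) (nat_lit 8536956708) (nat_lit 76) (nat_lit 2729173762) (nat_lit 126) (nat_lit 5) (nat_lit 130) (nat_lit 5) (nat_lit 127) (nat_lit 5) (nat_lit 487) (nat_lit 412) (nat_lit 301)))) (XT.nd (nat_lit 156) (nat_lit 380) (nat_lit 0) (XT.nd (nat_lit 78) (nat_lit 76) (nat_lit 0) (XT.lf (nat_lit 0) (nat_lit 5002489363) (nat_lit 152) (nat_lit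 11171964824) (nat_lit 228) (nat_lit 5559658727) (nat_lit 124) (nat_lit 5) (nat_lit 126) (nat_lit 5) (nat_lit 127) (nat_lit 5) (nat_lit 488) (nat_lit 412) (nat_lit 300)) (XT.lf (nat_lit 0) (nat_lit 382480906) (nat_lit 228) (nat_lit 3054628736) (nat_lit 76) (nat_lit 18708841219) (nat_lit 123) (nat_lit 5) (nat_lit 126) (nat_lit 5) (nat_lit 124) (nat_lit 5) (nat_lit 489) (nat_lit 412) (nat_lit 299))) (XT.nd (nat_lit 78) (nat_lit 152) (nat_lit 0) (XT.lf (nat_lit 0) (nat_lit 6527632376) (nat_lit 304) (nat_lit 11442666696) (nat_lit 76) (nat_lit 4594099271) (nat_lit 120) (nat_lit 5) (nat_lit 124) (nat_lit 5) (nat_lit 121) (nat_lit 5) (nat_lit 490) (nat_lit 412) (nat_lit 298)) (XT.lf (nat_lit 0) (nat_lit 2783985855) (nat_lit 152) (nat_lit 10149283963) (nat_lit 228) (nat_lit 10059845993) (nat_lit 118) (nat_lit 5) (nat_lit 120) (nat_lit 5) (nat_lit 121) (nat_lit 5) (nat_lit 491) (nat_lit 412) (nat_lit 297))))) (XT.nd (nat_lit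 312) (nat_lit 532) (nat_lit 0) (XT.nd (nat_lit 156) (nat_lit 152) (nat_lit 0) (XT.nd (nat_lit 78) (nat_lit 304) (nat_lit 0) (XT.lf (nat_lit 0) (nat_lit 17644741923) (nat_lit 152) (nat_lit 1986269564) (nat_lit 228) (nat_lit 3800685753) (nat_lit 118) (nat_lit 5) (nat_lit 120) (nat_lit 5) (nat_lit 121) (nat_lit 5) (nat_lit 492) (nat_lit 412) (nat_lit 296)) (XT.lf (nat_lit 0) (nat_lit 2730436741) (nat_lit 304) (nat_lit 14748120418) (nat_lit 76) (nat_lit 6400041535) (nat_lit 114) (nat_lit 5) (nat_lit 118) (nat_lit 5) (nat_lit 115) (nat_lit 5) (nat_lit 493) (nat_lit 412) (nat_lit 295))) (XT.nd (nat_lit 78) (nat_lit 0) (nat_lit 0) (XT.lf (nat_lit 0) (nat_lit 196004557) (nat_lit 152) (nat_lit 9250436379) (nat_lit 228) (nat_lit 14889377645) (nat_lit 112) (nat_lit 5) (nat_lit 114) (nat_lit 5) (nat_lit 115) (nat_lit 5) (nat_lit 494) (nat_lit 412) (nat_lit 294)) (XT.lf (nat_lit 0) (nat_lit 15864185822) (nat_lit 152) (nat_lit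 633626871) (nat_lit 228) (nat_lit 8304926185) (nat_lit 112) (nat_lit 5) (nat_lit 114) (nat_lit 5) (nat_lit 115) (nat_lit 5) (nat_lit 495) (nat_lit 412) (nat_lit 293)))) (XT.nd (nat_lit 156) (nat_lit 304) (nat_lit 0) (XT.nd (nat_lit 78) (nat_lit 76) (nat_lit 0) (XT.lf (nat_lit 0) (nat_lit 6744995051) (nat_lit 152) (nat_lit 17145082302) (nat_lit 228) (nat_lit 1389709300) (nat_lit 110) (nat_lit 5) (nat_lit 112) (nat_lit 5) (nat_lit 113) (nat_lit 5) (nat_lit 496) (nat_lit 412) (nat_lit 292)) (XT.lf (nat_lit 0) (nat_lit 5703848284) (nat_lit 228) (nat_lit 2774614614) (nat_lit 76) (nat_lit 17288547450) (nat_lit 109) (nat_lit 5) (nat_lit 112) (nat_lit 5) (nat_lit 110) (nat_lit 5) (nat_lit 497) (nat_lit 412) (nat_lit 291))) (XT.nd (nat_lit 78) (nat_lit 152) (nat_lit 0) (XT.lf (nat_lit 0) (nat_lit 13105234149) (nat_lit 228) (nat_lit 12584301171) (nat_lit 76) (nat_lit 575214436) (nat_lit 107) (nat_lit 5) (nat_lit 110) (nat_lit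 5) (nat_lit 108) (nat_lit 5) (nat_lit 498) (nat_lit 412) (nat_lit 290)) (XT.lf (nat_lit 0) (nat_lit 3875373726) (nat_lit 152) (nat_lit 16988600716) (nat_lit 228) (nat_lit 5909387895) (nat_lit 105) (nat_lit 5) (nat_lit 107) (nat_lit 5) (nat_lit 108) (nat_lit 5) (nat_lit 499) (nat_lit 412) (nat_lit 289))))))) (XT.nd (nat_lit 1248) (nat_lit 1292) (nat_lit 0) (XT.nd (nat_lit 624) (nat_lit 760) (nat_lit 0) (XT.nd (nat_lit 312) (nat_lit 608) (nat_lit 0) (XT.nd (nat_lit 156) (nat_lit 152) (nat_lit 0) (XT.nd (nat_lit 78) (nat_lit 152) (nat_lit 0) (XT.lf (nat_lit 0) (nat_lit 1642022659) (nat_lit 228) (nat_lit 6248371294) (nat_lit 76) (nat_lit 19402964754) (nat_lit 104) (nat_lit 5) (nat_lit 107) (nat_lit 5) (nat_lit 105) (nat_lit 5) (nat_lit 500) (nat_lit 412) (nat_lit 288)) (XT.lf (nat_lit 0) (nat_lit 9409276422) (nat_lit 228) (nat_lit 16807448290) (nat_lit 76) (nat_lit 1607233122) (nat_lit 102) (nat_lit 5) (nat_lit 105)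 (nat_lit 5) (nat_lit 103) (nat_lit 5) (nat_lit 501) (nat_lit 412) (nat_lit 287))) (XT.nd (nat_lit 78) (nat_lit 0) (nat_lit 0) (XT.lf (nat_lit 0) (nat_lit 464319298) (nat_lit 152) (nat_lit 17077857599) (nat_lit 228) (nat_lit 10824319499) (nat_lit 100) (nat_lit 5) (nat_lit 102) (nat_lit 5) (nat_lit 103) (nat_lit 5) (nat_lit 502) (nat_lit 412) (nat_lit 286)) (XT.lf (nat_lit 0) (nat_lit 18574185534) (nat_lit 152) (nat_lit 7501085181) (nat_lit 228) (nat_lit 2845354534) (nat_lit 100) (nat_lit 5) (nat_lit 102) (nat_lit 5) (nat_lit 103) (nat_lit 5) (nat_lit 503) (nat_lit 412) (nat_lit 285)))) (XT.nd (nat_lit 156) (nat_lit 380) (nat_lit 0) (XT.nd (nat_lit 78) (nat_lit 0) (nat_lit 0) (XT.lf (nat_lit 0) (nat_lit 5353845327) (nat_lit 228) (nat_lit 21699202535) (nat_lit 76) (nat_lit 2434209597) (nat_lit 97) (nat_lit 5) (nat_lit 100) (nat_lit 5) (nat_lit 98) (nat_lit 5) (nat_lit 504) (nat_lit 412) (nat_lit 284)) (XT.lf (nat_lit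 0) (nat_lit 13908413604) (nat_lit 228) (nat_lit 3516743519) (nat_lit 76) (nat_lit 12639889215) (nat_lit 97) (nat_lit 5) (nat_lit 100) (nat_lit 5) (nat_lit 98) (nat_lit 5) (nat_lit 505) (nat_lit 412) (nat_lit 283))) (XT.nd (nat_lit 78) (nat_lit 228) (nat_lit 0) (XT.lf (nat_lit 0) (nat_lit 15489967844) (nat_lit 152) (nat_lit 7365734464) (nat_lit 228) (nat_lit 7800384364) (nat_lit 95) (nat_lit 5) (nat_lit 97) (nat_lit 5) (nat_lit 98) (nat_lit 5) (nat_lit 506) (nat_lit 412) (nat_lit 282)) (XT.lf (nat_lit 0) (nat_lit 881063099) (nat_lit 228) (nat_lit 27372243306) (nat_lit 76) (nat_lit 3008611978) (nat_lit 92) (nat_lit 5) (nat_lit 95) (nat_lit 5) (nat_lit 93) (nat_lit 5) (nat_lit 507) (nat_lit 412) (nat_lit 281))))) (XT.nd (nat_lit 312) (nat_lit 456) (nat_lit 0) (XT.nd (nat_lit 156) (nat_lit 152) (nat_lit 0) (XT.nd (nat_lit 78) (nat_lit 152) (nat_lit 0) (XT.lf (nat_lit 0) (nat_lit 9881021329) (nat_lit 228) (nat_lit 8228531013)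 (nat_lit 76) (nat_lit 13767610603) (nat_lit 92) (nat_lit 5) (nat_lit 95) (nat_lit 5) (nat_lit 93) (nat_lit 5) (nat_lit 508) (nat_lit 412) (nat_lit 280)) (XT.lf (nat_lit 0) (nat_lit 11694829172) (nat_lit 152) (nat_lit 7556193101) (nat_lit 228) (nat_lit 13256841505) (nat_lit 90) (nat_lit 5) (nat_lit 92) (nat_lit 5) (nat_lit 93) (nat_lit 5) (nat_lit 509) (nat_lit 412) (nat_lit 279))) (XT.nd (nat_lit 78) (nat_lit 152) (nat_lit 0) (XT.lf (nat_lit 0) (nat_lit 29005560614) (nat_lit 228) (nat_lit 826017083) (nat_lit 76) (nat_lit 3322805066) (nat_lit 90) (nat_lit 5) (nat_lit 93) (nat_lit 5) (nat_lit 91) (nat_lit 4) (nat_lit 510) (nat_lit 412) (nat_lit 278)) (XT.lf (nat_lit 0) (nat_lit 5388486298) (nat_lit 152) (nat_lit 13810563964) (nat_lit 76) (nat_lit 14611993803) (nat_lit 88) (nat_lit 5) (nat_lit 90) (nat_lit 5) (nat_lit 89) (nat_lit 5) (nat_lit 511) (nat_lit 412) (nat_lit 277)))) (XT.nd (nat_lit 156) (nat_lit 304) (nat_lit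 0) (XT.nd (nat_lit 78) (nat_lit 0) (nat_lit 0) (XT.lf (nat_lit 0) (nat_lit 7055806820) (nat_lit 152) (nat_lit 8137015826) (nat_lit 228) (nat_lit 19291421587) (nat_lit 86) (nat_lit 5) (nat_lit 88) (nat_lit 5) (nat_lit 89) (nat_lit 5) (nat_lit 512) (nat_lit 412) (nat_lit 276)) (XT.lf (nat_lit 0) (nat_lit 25451521829) (nat_lit 228) (nat_lit 6397177949) (nat_lit 76) (nat_lit 3324133866) (nat_lit 86) (nat_lit 5) (nat_lit 89) (nat_lit 5) (nat_lit 87) (nat_lit 4) (nat_lit 513) (nat_lit 412) (nat_lit 275))) (XT.nd (nat_lit 78) (nat_lit 152) (nat_lit 0) (XT.lf (nat_lit 0) (nat_lit 353055743) (nat_lit 152) (nat_lit 20414444019) (nat_lit 76) (nat_lit 15107947800) (nat_lit 84) (nat_lit 5) (nat_lit 86) (nat_lit 5) (nat_lit 85) (nat_lit 5) (nat_lit 514) (nat_lit 412) (nat_lit 274)) (XT.lf (nat_lit 0) (nat_lit 1417970662) (nat_lit 152) (nat_lit 9183613485) (nat_lit 228) (nat_lit 25992648877) (nat_lit 82) (nat_lit 5) (nat_lit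 84) (nat_lit 5) (nat_lit 85) (nat_lit 5) (nat_lit 515) (nat_lit 412) (nat_lit 273)))))) (XT.nd (nat_lit 624) (nat_lit 684) (nat_lit 0) (XT.nd (nat_lit 312) (nat_lit 304) (nat_lit 0) (XT.nd (nat_lit 156) (nat_lit 228) (nat_lit 0) (XT.nd (nat_lit 78) (nat_lit 76) (nat_lit 0) (XT.lf (nat_lit 0) (nat_lit 21380651960) (nat_lit 228) (nat_lit 13054725364) (nat_lit 76) (nat_lit 2892512414) (nat_lit 82) (nat_lit 5) (nat_lit 85) (nat_lit 5) (nat_lit 83) (nat_lit 4) (nat_lit 516) (nat_lit 412) (nat_lit 272)) (XT.lf (nat_lit 0) (nat_lit 9809882176) (nat_lit 76) (nat_lit 22847253747) (nat_lit 152) (nat_lit 5421199100) (nat_lit 81) (nat_lit 5) (nat_lit 82) (nat_lit 5) (nat_lit 83) (nat_lit 4) (nat_lit 517) (nat_lit 412) (nat_lit 271))) (XT.nd (nat_lit 78) (nat_lit 152) (nat_lit 0) (XT.lf (nat_lit 0) (nat_lit 5436811335) (nat_lit 152) (nat_lit 5293804001) (nat_lit 76) (nat_lit 28115456326) (nat_lit 80) (nat_lit 5) (nat_lit 82)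 (nat_lit 5) (nat_lit 81) (nat_lit 5) (nat_lit 518) (nat_lit 412) (nat_lit 270)) (XT.lf (nat_lit 0) (nat_lit 16699164795) (nat_lit 228) (nat_lit 20989148958) (nat_lit 76) (nat_lit 1941289660) (nat_lit 78) (nat_lit 5) (nat_lit 81) (nat_lit 5) (nat_lit 79) (nat_lit 4) (nat_lit 519) (nat_lit 412) (nat_lit 269)))) (XT.nd (nat_lit 156) (nat_lit 228) (nat_lit 0) (XT.nd (nat_lit 78) (nat_lit 0) (nat_lit 0) (XT.lf (nat_lit 0) (nat_lit 2895443087) (nat_lit 76) (nat_lit 25581196871) (nat_lit 152) (nat_lit 11954683795) (nat_lit 77) (nat_lit 5) (nat_lit 78) (nat_lit 5) (nat_lit 79) (nat_lit 4) (nat_lit 520) (nat_lit 412) (nat_lit 268)) (XT.lf (nat_lit 0) (nat_lit 27906525412) (nat_lit 76) (nat_lit 12902171235) (nat_lit 152) (nat_lit 442361502) (nat_lit 77) (nat_lit 5) (nat_lit 78) (nat_lit 5) (nat_lit 79) (nat_lit 4) (nat_lit 521) (nat_lit 412) (nat_lit 267))) (XT.nd (nat_lit 78) (nat_lit 0) (nat_lit 0) (XT.lf (nat_lit 0) (nat_lit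 11297895878) (nat_lit 228) (nat_lit 30422020730) (nat_lit 76) (nat_lit 369016601) (nat_lit 74) (nat_lit 5) (nat_lit 77) (nat_lit 5) (nat_lit 75) (nat_lit 4) (nat_lit 522) (nat_lit 412) (nat_lit 266)) (XT.lf (nat_lit 0) (nat_lit 23634844293) (nat_lit 228) (nat_lit 5399057074) (nat_lit 76) (nat_lit 13910310679) (nat_lit 74) (nat_lit 5) (nat_lit 77) (nat_lit 5) (nat_lit 75) (nat_lit 4) (nat_lit 523) (nat_lit 412) (nat_lit 265))))) (XT.nd (nat_lit 312) (nat_lit 304) (nat_lit 0) (XT.nd (nat_lit 156) (nat_lit 76) (nat_lit 0) (XT.nd (nat_lit 78) (nat_lit 228) (nat_lit 0) (XT.lf (nat_lit 0) (nat_lit 20760337686) (nat_lit 76) (nat_lit 15770971397) (nat_lit 152) (nat_lit 7288158074) (nat_lit 73) (nat_lit 5) (nat_lit 74) (nat_lit 5) (nat_lit 75) (nat_lit 4) (nat_lit 524) (nat_lit 412) (nat_lit 264)) (XT.lf (nat_lit 0) (nat_lit 3087205527) (nat_lit 152) (nat_lit 1981680647) (nat_lit 228) (nat_lit 39648387140) (nat_lit 70)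 (nat_lit 5) (nat_lit 72) (nat_lit 5) (nat_lit 73) (nat_lit 5) (nat_lit 525) (nat_lit 412) (nat_lit 263))) (XT.nd (nat_lit 78) (nat_lit 76) (nat_lit 0) (XT.lf (nat_lit 0) (nat_lit 17992674516) (nat_lit 228) (nat_lit 15355753813) (nat_lit 76) (nat_lit 12281145135) (nat_lit 70) (nat_lit 5) (nat_lit 73) (nat_lit 5) (nat_lit 71) (nat_lit 4) (nat_lit 526) (nat_lit 412) (nat_lit 262)) (XT.lf (nat_lit 0) (nat_lit 11900554884) (nat_lit 76) (nat_lit 19527813912) (nat_lit 152) (nat_lit 15137148184) (nat_lit 69) (nat_lit 5) (nat_lit 70) (nat_lit 5) (nat_lit 71) (nat_lit 4) (nat_lit 527) (nat_lit 412) (nat_lit 261)))) (XT.nd (nat_lit 156) (nat_lit 76) (nat_lit 0) (XT.nd (nat_lit 78) (nat_lit 228) (nat_lit 0) (XT.lf (nat_lit 0) (nat_lit 40270678631) (nat_lit 76) (nat_lit 5141801386) (nat_lit 152) (nat_lit 2112698527) (nat_lit 69) (nat_lit 5) (nat_lit 70) (nat_lit 5) (nat_lit 71) (nat_lit 4) (nat_lit 528) (nat_lit 412) (nat_lit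 260)) (XT.lf (nat_lit 0) (nat_lit 11372854877) (nat_lit 228) (nat_lit 27334235251) (nat_lit 76) (nat_lit 9794552879) (nat_lit 66) (nat_lit 5) (nat_lit 69) (nat_lit 5) (nat_lit 67) (nat_lit 4) (nat_lit 529) (nat_lit 412) (nat_lit 259))) (XT.nd (nat_lit 78) (nat_lit 0) (nat_lit 0) (XT.lf (nat_lit 0) (nat_lit 1014403259) (nat_lit 76) (nat_lit 24331242340) (nat_lit 152) (nat_lit 24157374372) (nat_lit 65) (nat_lit 5) (nat_lit 66) (nat_lit 5) (nat_lit 67) (nat_lit 4) (nat_lit 530) (nat_lit 412) (nat_lit 258)) (XT.lf (nat_lit 0) (nat_lit 30755687107) (nat_lit 76) (nat_lit 9248550016) (nat_lit 152) (nat_lit 10522202718) (nat_lit 65) (nat_lit 5) (nat_lit 66) (nat_lit 5) (nat_lit 67) (nat_lit 4) (nat_lit 531) (nat_lit 412) (nat_lit 257))))))))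
noncomputable def xc126 : XT := (XT.nd (nat_lit 53976) (nat_lit 0) (nat_lit 13072) (XT.nd (nat_lit 1170) (nat_lit 380) (nat_lit 0) (XT.nd (nat_lit 546) (nat_lit 532) (nat_lit 0) (XT.nd (nat_lit 234) (nat_lit 228) (nat_lit 0) (XT.nd (nat_lit 78) (nat_lit 76) (nat_lit 0) (XT.lf (nat_lit 0) (nat_lit 3601362632) (nat_lit 152) (nat_lit 41687403926) (nat_lit 76) (nat_lit 6286338202) (nat_lit 63) (nat_lit 5) (nat_lit 65) (nat_lit 5) (nat_lit 64) (nat_lit 4) (nat_lit 532) (nat_lit 412) (nat_lit 256)) (XT.nd (nat_lit 78) (nat_lit 76) (nat_lit 0) (XT.lf (nat_lit 0) (nat_lit 18221137279) (nat_lit 152) (nat_lit 12023589715) (nat_lit 76) (nat_lit 22398857682) (nat_lit 63) (nat_lit 5) (nat_lit 65) (nat_lit 5) (nat_lit 64) (nat_lit 4) (nat_lit 533) (nat_lit 412) (nat_lit 255)) (XT.lf (nat_lit 0) (nat_lit 18881287841) (nat_lit 76) (nat_lit 14570779759) (nat_lit 152) (nat_lit 20286874618) (nat_lit 62) (nat_lit 5) (nat_lit 63) (nat_lit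 5) (nat_lit 64) (nat_lit 4) (nat_lit 534) (nat_lit 412) (nat_lit 254)))) (XT.nd (nat_lit 156) (nat_lit 76) (nat_lit 0) (XT.nd (nat_lit 78) (nat_lit 152) (nat_lit 0) (XT.lf (nat_lit 0) (nat_lit 49268746979) (nat_lit 152) (nat_lit 3937370151) (nat_lit 0) (nat_lit 1657178816) (nat_lit 62) (nat_lit 5) (nat_lit 64) (nat_lit 4) (nat_lit 62) (nat_lit 4) (nat_lit 535) (nat_lit 412) (nat_lit 253)) (XT.lf (nat_lit 0) (nat_lit 9764109585) (nat_lit 152) (nat_lit 27803156234) (nat_lit 76) (nat_lit 18439013013) (nat_lit 60) (nat_lit 5) (nat_lit 62) (nat_lit 5) (nat_lit 61) (nat_lit 4) (nat_lit 536) (nat_lit 412) (nat_lit 252))) (XT.nd (nat_lit 78) (nat_lit 0) (nat_lit 0) (XT.lf (nat_lit 0) (nat_lit 4215852629) (nat_lit 76) (nat_lit 21327256266) (nat_lit 152) (nat_lit 31636619871) (nat_lit 59) (nat_lit 5) (nat_lit 60) (nat_lit 5) (nat_lit 61) (nat_lit 4) (nat_lit 537) (nat_lit 412) (nat_lit 251)) (XT.lf (nat_lit 0) (nat_lit 37748721482)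 (nat_lit 76) (nat_lit 4318953226) (nat_lit 152) (nat_lit 16312541683) (nat_lit 59) (nat_lit 5) (nat_lit 60) (nat_lit 5) (nat_lit 61) (nat_lit 4) (nat_lit 538) (nat_lit 412) (nat_lit 250))))) (XT.nd (nat_lit 312) (nat_lit 304) (nat_lit 0) (XT.nd (nat_lit 156) (nat_lit 76) (nat_lit 0) (XT.nd (nat_lit 78) (nat_lit 76) (nat_lit 0) (XT.lf (nat_lit 0) (nat_lit 12776962909) (nat_lit 76) (nat_lit 46552330220) (nat_lit 76) (nat_lit 280186128) (nat_lit 58) (nat_lit 4) (nat_lit 59) (nat_lit 5) (nat_lit 59) (nat_lit 4) (nat_lit 539) (nat_lit 412) (nat_lit 249)) (XT.lf (nat_lit 0) (nat_lit 16161154941) (nat_lit 152) (nat_lit 13475981028) (nat_lit 76) (nat_lit 31226459377) (nat_lit 57) (nat_lit 5) (nat_lit 59) (nat_lit 5) (nat_lit 58) (nat_lit 4) (nat_lit 540) (nat_lit 412) (nat_lit 248))) (XT.nd (nat_lit 78) (nat_lit 0) (nat_lit 0) (XT.lf (nat_lit 0) (nat_lit 21277815582) (nat_lit 76) (nat_lit 12008688240) (nat_lit 152) (nat_lit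 28862855976) (nat_lit 56) (nat_lit 5) (nat_lit 57) (nat_lit 5) (nat_lit 58) (nat_lit 4) (nat_lit 541) (nat_lit 412) (nat_lit 247)) (XT.lf (nat_lit 0) (nat_lit 51114021686) (nat_lit 152) (nat_lit 6195475673) (nat_lit 0) (nat_lit 6158547643) (nat_lit 56) (nat_lit 5) (nat_lit 58) (nat_lit 4) (nat_lit 56) (nat_lit 4) (nat_lit 542) (nat_lit 412) (nat_lit 246)))) (XT.nd (nat_lit 156) (nat_lit 76) (nat_lit 0) (XT.nd (nat_lit 78) (nat_lit 76) (nat_lit 0) (XT.lf (nat_lit 0) (nat_lit 4962400192) (nat_lit 152) (nat_lit 34891558542) (nat_lit 76) (nat_lit 24958899150) (nat_lit 54) (nat_lit 5) (nat_lit 56) (nat_lit 5) (nat_lit 55) (nat_lit 4) (nat_lit 543) (nat_lit 412) (nat_lit 245)) (XT.lf (nat_lit 0) (nat_lit 932272906) (nat_lit 76) (nat_lit 21682001256) (nat_lit 152) (nat_lit 43578143705) (nat_lit 53) (nat_lit 5) (nat_lit 54) (nat_lit 5) (nat_lit 55) (nat_lit 4) (nat_lit 544) (nat_lit 412) (nat_lit 244))) (XT.nd (nat_lit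 78) (nat_lit 76) (nat_lit 0) (XT.lf (nat_lit 0) (nat_lit 38530790143) (nat_lit 76) (nat_lit 2609451527) (nat_lit 152) (nat_lit 26462786925) (nat_lit 53) (nat_lit 5) (nat_lit 54) (nat_lit 5) (nat_lit 55) (nat_lit 4) (nat_lit 545) (nat_lit 412) (nat_lit 243)) (XT.lf (nat_lit 0) (nat_lit 8182232024) (nat_lit 76) (nat_lit 52274520689) (nat_lit 76) (nat_lit 8592162061) (nat_lit 52) (nat_lit 4) (nat_lit 53) (nat_lit 5) (nat_lit 53) (nat_lit 4) (nat_lit 546) (nat_lit 412) (nat_lit 242)))))) (XT.nd (nat_lit 52182) (nat_lit 0) (nat_lit 24700) (XT.nd (nat_lit 312) (nat_lit 152) (nat_lit 0) (XT.nd (nat_lit 156) (nat_lit 76) (nat_lit 0) (XT.nd (nat_lit 78) (nat_lit 76) (nat_lit 0) (XT.lf (nat_lit 0) (nat_lit 9937742549) (nat_lit 152) (nat_lit 23517157632) (nat_lit 76) (nat_lit 37071006738) (nat_lit 51) (nat_lit 5) (nat_lit 53) (nat_lit 5) (nat_lit 52) (nat_lit 4) (nat_lit 547) (nat_lit 412) (nat_lit 241)) (XT.lf (nat_lit 0)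 (nat_lit 15148837607) (nat_lit 76) (nat_lit 13840218480) (nat_lit 152) (nat_lit 43051454502) (nat_lit 50) (nat_lit 5) (nat_lit 51) (nat_lit 5) (nat_lit 52) (nat_lit 4) (nat_lit 548) (nat_lit 412) (nat_lit 240))) (XT.nd (nat_lit 78) (nat_lit 76) (nat_lit 0) (XT.lf (nat_lit 0) (nat_lit 48905496867) (nat_lit 152) (nat_lit 18214614645) (nat_lit 0) (nat_lit 6471633278) (nat_lit 50) (nat_lit 5) (nat_lit 52) (nat_lit 4) (nat_lit 50) (nat_lit 4) (nat_lit 549) (nat_lit 412) (nat_lit 239)) (XT.lf (nat_lit 0) (nat_lit 21898911784) (nat_lit 76) (nat_lit 47860867632) (nat_lit 76) (nat_lit 5419526198) (nat_lit 49) (nat_lit 4) (nat_lit 50) (nat_lit 5) (nat_lit 50) (nat_lit 4) (nat_lit 550) (nat_lit 412) (nat_lit 238)))) (XT.nd (nat_lit 51714) (nat_lit 0) (nat_lit 26296) (XT.nd (nat_lit 78) (nat_lit 76) (nat_lit 0) (XT.lf (nat_lit 0) (nat_lit 14322277893) (nat_lit 152) (nat_lit 13374377353) (nat_lit 76) (nat_lit 49108321108) (nat_lit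 48) (nat_lit 5) (nat_lit 50) (nat_lit 5) (nat_lit 49) (nat_lit 4) (nat_lit 551) (nat_lit 412) (nat_lit 237)) (XT.lf (nat_lit 0) (nat_lit 28211946701) (nat_lit 76) (nat_lit 6599677320) (nat_lit 152) (nat_lit 43658257034) (nat_lit 47) (nat_lit 5) (nat_lit 48) (nat_lit 5) (nat_lit 49) (nat_lit 4) (nat_lit 552) (nat_lit 412) (nat_lit 236))) (XT.nd (nat_lit 78) (nat_lit 0) (nat_lit 0) (XT.lf (nat_lit 0) (nat_lit 1394236763) (nat_lit 836) (nat_lit 1092246143) (nat_lit 836) (nat_lit 1092246143) (nat_lit 393) (nat_lit 3) (nat_lit 404) (nat_lit 3) (nat_lit 404) (nat_lit 5) (nat_lit 413) (nat_lit 413) (nat_lit 374)) (XT.lf (nat_lit 76) (nat_lit 1397345468) (nat_lit 0) (nat_lit 3119646055) (nat_lit 836) (nat_lit 2697025661) (nat_lit 394) (nat_lit 5) (nat_lit 393) (nat_lit 3) (nat_lit 404) (nat_lit 5) (nat_lit 414) (nat_lit 413) (nat_lit 373))))) (XT.nd (nat_lit 312) (nat_lit 836) (nat_lit 0) (XT.nd (nat_lit 156) (nat_lit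 0) (nat_lit 0) (XT.nd (nat_lit 78) (nat_lit 760) (nat_lit 0) (XT.lf (nat_lit 76) (nat_lit 5097114121) (nat_lit 0) (nat_lit 1156677667) (nat_lit 836) (nat_lit 1019796341) (nat_lit 394) (nat_lit 5) (nat_lit 393) (nat_lit 3) (nat_lit 404) (nat_lit 5) (nat_lit 415) (nat_lit 413) (nat_lit 372)) (XT.lf (nat_lit 0) (nat_lit 653413780) (nat_lit 836) (nat_lit 5783035171) (nat_lit 912) (nat_lit 899516343) (nat_lit 383) (nat_lit 5) (nat_lit 394) (nat_lit 5) (nat_lit 395) (nat_lit 5) (nat_lit 416) (nat_lit 413) (nat_lit 371))) (XT.nd (nat_lit 78) (nat_lit 0) (nat_lit 0) (XT.lf (nat_lit 0) (nat_lit 2327431941) (nat_lit 836) (nat_lit 2018909676) (nat_lit 912) (nat_lit 3054443205) (nat_lit 383) (nat_lit 5) (nat_lit 394) (nat_lit 5) (nat_lit 395) (nat_lit 5) (nat_lit 417) (nat_lit 413) (nat_lit 370)) (XT.lf (nat_lit 76) (nat_lit 1859056909) (nat_lit 0) (nat_lit 2149766317) (nat_lit 912) (nat_lit 3460018139) (nat_lit 384) (nat_lit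 5) (nat_lit 383) (nat_lit 5) (nat_lit 395) (nat_lit 5) (nat_lit 418) (nat_lit 413) (nat_lit 369)))) (XT.nd (nat_lit 156) (nat_lit 912) (nat_lit 0) (XT.nd (nat_lit 78) (nat_lit 0) (nat_lit 0) (XT.lf (nat_lit 0) (nat_lit 5703275962) (nat_lit 836) (nat_lit 1681896698) (nat_lit 912) (nat_lit 154895155) (nat_lit 384) (nat_lit 5) (nat_lit 395) (nat_lit 5) (nat_lit 396) (nat_lit 5) (nat_lit 419) (nat_lit 413) (nat_lit 368)) (XT.lf (nat_lit 76) (nat_lit 2352495516) (nat_lit 0) (nat_lit 5082632611) (nat_lit 912) (nat_lit 178712560) (nat_lit 385) (nat_lit 5) (nat_lit 384) (nat_lit 5) (nat_lit 396) (nat_lit 5) (nat_lit 420) (nat_lit 413) (nat_lit 367))) (XT.nd (nat_lit 78) (nat_lit 0) (nat_lit 0) (XT.lf (nat_lit 0) (nat_lit 1459856983) (nat_lit 912) (nat_lit 1198519924) (nat_lit 988) (nat_lit 5032197513) (nat_lit 372) (nat_lit 5) (nat_lit 384) (nat_lit 5) (nat_lit 385) (nat_lit 5) (nat_lit 421) (nat_lit 413) (nat_lit 366))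 (XT.lf (nat_lit 76) (nat_lit 3007444059) (nat_lit 0) (nat_lit 110538829) (nat_lit 988) (nat_lit 4652360501) (nat_lit 373) (nat_lit 5) (nat_lit 372) (nat_lit 5) (nat_lit 385) (nat_lit 5) (nat_lit 422) (nat_lit 413) (nat_lit 365))))))) (XT.nd (nat_lit 1170) (nat_lit 5472) (nat_lit 0) (XT.nd (nat_lit 546) (nat_lit 4408) (nat_lit 0) (XT.nd (nat_lit 234) (nat_lit 912) (nat_lit 0) (XT.nd (nat_lit 78) (nat_lit 912) (nat_lit 0) (XT.lf (nat_lit 0) (nat_lit 4808756934) (nat_lit 912) (nat_lit 549375257) (nat_lit 988) (nat_lit 2494891973) (nat_lit 373) (nat_lit 5) (nat_lit 385) (nat_lit 5) (nat_lit 386) (nat_lit 5) (nat_lit 423) (nat_lit 413) (nat_lit 364)) (XT.nd (nat_lit 78) (nat_lit 912) (nat_lit 0) (XT.lf (nat_lit 76) (nat_lit 3828136578) (nat_lit 0) (nat_lit 2708086456) (nat_lit 988) (nat_lit 1402388959) (nat_lit 374) (nat_lit 5) (nat_lit 373) (nat_lit 5) (nat_lit 386) (nat_lit 5) (nat_lit 424) (nat_lit 413) (nat_lit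 363)) (XT.lf (nat_lit 0) (nat_lit 240673646) (nat_lit 988) (nat_lit 7740711340) (nat_lit 1064) (nat_lit 46577700) (nat_lit 361) (nat_lit 5) (nat_lit 374) (nat_lit 5) (nat_lit 375) (nat_lit 5) (nat_lit 425) (nat_lit 413) (nat_lit 362)))) (XT.nd (nat_lit 156) (nat_lit 912) (nat_lit 0) (XT.nd (nat_lit 78) (nat_lit 0) (nat_lit 0) (XT.lf (nat_lit 0) (nat_lit 1923586731) (nat_lit 988) (nat_lit 3296664928) (nat_lit 1064) (nat_lit 2898768546) (nat_lit 361) (nat_lit 5) (nat_lit 374) (nat_lit 5) (nat_lit 375) (nat_lit 5) (nat_lit 426) (nat_lit 413) (nat_lit 361)) (XT.lf (nat_lit 76) (nat_lit 1268585563) (nat_lit 0) (nat_lit 2352065757) (nat_lit 1064) (nat_lit 4593253267) (nat_lit 362) (nat_lit 5) (nat_lit 361) (nat_lit 5) (nat_lit 375) (nat_lit 5) (nat_lit 427) (nat_lit 413) (nat_lit 360))) (XT.nd (nat_lit 78) (nat_lit 988) (nat_lit 0) (XT.lf (nat_lit 0) (nat_lit 5360673251) (nat_lit 988) (nat_lit 2316427596) (nat_lit 76)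 (nat_lit 634778207) (nat_lit 362) (nat_lit 5) (nat_lit 375) (nat_lit 5) (nat_lit 363) (nat_lit 5) (nat_lit 428) (nat_lit 413) (nat_lit 359)) (XT.lf (nat_lit 0) (nat_lit 2438693825) (nat_lit 988) (nat_lit 4714949061) (nat_lit 1064) (nat_lit 1259132227) (nat_lit 349) (nat_lit 5) (nat_lit 362) (nat_lit 5) (nat_lit 363) (nat_lit 5) (nat_lit 429) (nat_lit 413) (nat_lit 358))))) (XT.nd (nat_lit 312) (nat_lit 2128) (nat_lit 0) (XT.nd (nat_lit 156) (nat_lit 1140) (nat_lit 0) (XT.nd (nat_lit 78) (nat_lit 1064) (nat_lit 0) (XT.lf (nat_lit 0) (nat_lit 452442477) (nat_lit 1064) (nat_lit 1174407675) (nat_lit 76) (nat_lit 6890367580) (nat_lit 348) (nat_lit 5) (nat_lit 362) (nat_lit 5) (nat_lit 349) (nat_lit 5) (nat_lit 430) (nat_lit 413) (nat_lit 357)) (XT.lf (nat_lit 0) (nat_lit 2197905820) (nat_lit 1140) (nat_lit 4845708275) (nat_lit 76) (nat_lit 1580574437) (nat_lit 334) (nat_lit 5) (nat_lit 349) (nat_lit 5) (nat_lit 335)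 (nat_lit 5) (nat_lit 431) (nat_lit 413) (nat_lit 356))) (XT.nd (nat_lit 78) (nat_lit 0) (nat_lit 0) (XT.lf (nat_lit 0) (nat_lit 118704464) (nat_lit 1140) (nat_lit 3863139528) (nat_lit 1216) (nat_lit 4752945377) (nat_lit 319) (nat_lit 5) (nat_lit 334) (nat_lit 5) (nat_lit 335) (nat_lit 5) (nat_lit 432) (nat_lit 413) (nat_lit 355)) (XT.lf (nat_lit 0) (nat_lit 5294345160) (nat_lit 1140) (nat_lit 531672844) (nat_lit 1216) (nat_lit 3022492810) (nat_lit 319) (nat_lit 5) (nat_lit 334) (nat_lit 5) (nat_lit 335) (nat_lit 5) (nat_lit 433) (nat_lit 413) (nat_lit 354)))) (XT.nd (nat_lit 156) (nat_lit 836) (nat_lit 0) (XT.nd (nat_lit 78) (nat_lit 76) (nat_lit 0) (XT.lf (nat_lit 0) (nat_lit 1626230918) (nat_lit 1216) (nat_lit 6101856112) (nat_lit 1292) (nat_lit 1237483777) (nat_lit 303) (nat_lit 5) (nat_lit 319) (nat_lit 5) (nat_lit 320) (nat_lit 5) (nat_lit 434) (nat_lit 413) (nat_lit 353)) (XT.lf (nat_lit 0) (nat_lit 590356375)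 (nat_lit 1292) (nat_lit 2099251447) (nat_lit 76) (nat_lit 6396334905) (nat_lit 302) (nat_lit 5) (nat_lit 319) (nat_lit 5) (nat_lit 303) (nat_lit 5) (nat_lit 435) (nat_lit 413) (nat_lit 352))) (XT.nd (nat_lit 78) (nat_lit 0) (nat_lit 0) (XT.lf (nat_lit 0) (nat_lit 2449087952) (nat_lit 912) (nat_lit 5904313413) (nat_lit 76) (nat_lit 856132673) (nat_lit 291) (nat_lit 5) (nat_lit 303) (nat_lit 5) (nat_lit 292) (nat_lit 5) (nat_lit 436) (nat_lit 413) (nat_lit 351)) (XT.lf (nat_lit 0) (nat_lit 4373118572) (nat_lit 912) (nat_lit 485586855) (nat_lit 76) (nat_lit 4477845101) (nat_lit 291) (nat_lit 5) (nat_lit 303) (nat_lit 5) (nat_lit 292) (nat_lit 5) (nat_lit 437) (nat_lit 413) (nat_lit 350)))))) (XT.nd (nat_lit 624) (nat_lit 2432) (nat_lit 0) (XT.nd (nat_lit 312) (nat_lit 1216) (nat_lit 0) (XT.nd (nat_lit 156) (nat_lit 608) (nat_lit 0) (XT.nd (nat_lit 78) (nat_lit 608) (nat_lit 0) (XT.lf (nat_lit 0) (nat_lit 5160073204)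 (nat_lit 608) (nat_lit 1207019178) (nat_lit 684) (nat_lit 3099921908) (nat_lit 283) (nat_lit 5) (nat_lit 291) (nat_lit 5) (nat_lit 292) (nat_lit 5) (nat_lit 438) (nat_lit 413) (nat_lit 349)) (XT.lf (nat_lit 0) (nat_lit 1348451411) (nat_lit 608) (nat_lit 7078270839) (nat_lit 684) (nat_lit 1174497956) (nat_lit 275) (nat_lit 5) (nat_lit 283) (nat_lit 5) (nat_lit 284) (nat_lit 5) (nat_lit 439) (nat_lit 413) (nat_lit 348))) (XT.nd (nat_lit 78) (nat_lit 532) (nat_lit 0) (XT.lf (nat_lit 0) (nat_lit 812506446) (nat_lit 684) (nat_lit 2533943077) (nat_lit 76) (nat_lit 6392184778) (nat_lit 274) (nat_lit 5) (nat_lit 283) (nat_lit 5) (nat_lit 275) (nat_lit 5) (nat_lit 440) (nat_lit 413) (nat_lit 347)) (XT.lf (nat_lit 0) (nat_lit 2837938586) (nat_lit 608) (nat_lit 6510794756) (nat_lit 76) (nat_lit 531018963) (nat_lit 267) (nat_lit 5) (nat_lit 275) (nat_lit 5) (nat_lit 268) (nat_lit 5) (nat_lit 441) (nat_lit 413) (nat_lit 346))))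 (XT.nd (nat_lit 156) (nat_lit 608) (nat_lit 0) (XT.nd (nat_lit 78) (nat_lit 608) (nat_lit 0) (XT.lf (nat_lit 0) (nat_lit 4948555716) (nat_lit 608) (nat_lit 593847109) (nat_lit 76) (nat_lit 4481971336) (nat_lit 267) (nat_lit 5) (nat_lit 275) (nat_lit 5) (nat_lit 268) (nat_lit 5) (nat_lit 442) (nat_lit 413) (nat_lit 345)) (XT.lf (nat_lit 0) (nat_lit 5573431809) (nat_lit 608) (nat_lit 1569088826) (nat_lit 684) (nat_lit 3030216045) (nat_lit 259) (nat_lit 5) (nat_lit 267) (nat_lit 5) (nat_lit 268) (nat_lit 5) (nat_lit 443) (nat_lit 413) (nat_lit 344))) (XT.nd (nat_lit 78) (nat_lit 76) (nat_lit 0) (XT.lf (nat_lit 0) (nat_lit 1582550356) (nat_lit 532) (nat_lit 7832342739) (nat_lit 608) (nat_lit 910282126) (nat_lit 252) (nat_lit 5) (nat_lit 259) (nat_lit 5) (nat_lit 260) (nat_lit 5) (nat_lit 444) (nat_lit 413) (nat_lit 343)) (XT.lf (nat_lit 0) (nat_lit 1278195571) (nat_lit 608) (nat_lit 2501726874) (nat_lit 76) (nat_lit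 6701006192) (nat_lit 251) (nat_lit 5) (nat_lit 259) (nat_lit 5) (nat_lit 252) (nat_lit 5) (nat_lit 445) (nat_lit 413) (nat_lit 342))))) (XT.nd (nat_lit 312) (nat_lit 988) (nat_lit 0) (XT.nd (nat_lit 156) (nat_lit 912) (nat_lit 0) (XT.nd (nat_lit 78) (nat_lit 0) (nat_lit 0) (XT.lf (nat_lit 0) (nat_lit 3524604856) (nat_lit 608) (nat_lit 6686241954) (nat_lit 76) (nat_lit 429922839) (nat_lit 244) (nat_lit 5) (nat_lit 252) (nat_lit 5) (nat_lit 245) (nat_lit 5) (nat_lit 446) (nat_lit 413) (nat_lit 341)) (XT.lf (nat_lit 0) (nat_lit 5870188474) (nat_lit 608) (nat_lit 222882231) (nat_lit 76) (nat_lit 4711384216) (nat_lit 244) (nat_lit 5) (nat_lit 252) (nat_lit 5) (nat_lit 245) (nat_lit 5) (nat_lit 447) (nat_lit 413) (nat_lit 340))) (XT.nd (nat_lit 78) (nat_lit 456) (nat_lit 0) (XT.lf (nat_lit 0) (nat_lit 6526479059) (nat_lit 456) (nat_lit 1792148912) (nat_lit 532) (nat_lit 2653450544) (nat_lit 238) (nat_lit 5) (nat_lit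 244) (nat_lit 5) (nat_lit 245) (nat_lit 5) (nat_lit 448) (nat_lit 413) (nat_lit 339)) (XT.lf (nat_lit 0) (nat_lit 2322414909) (nat_lit 456) (nat_lit 8538306598) (nat_lit 532) (nat_lit 283405633) (nat_lit 232) (nat_lit 5) (nat_lit 238) (nat_lit 5) (nat_lit 239) (nat_lit 5) (nat_lit 449) (nat_lit 413) (nat_lit 338)))) (XT.nd (nat_lit 156) (nat_lit 456) (nat_lit 0) (XT.nd (nat_lit 78) (nat_lit 456) (nat_lit 0) (XT.lf (nat_lit 0) (nat_lit 2149197640) (nat_lit 532) (nat_lit 2010311636) (nat_lit 76) (nat_lit 7160201046) (nat_lit 231) (nat_lit 5) (nat_lit 238) (nat_lit 5) (nat_lit 232) (nat_lit 5) (nat_lit 450) (nat_lit 413) (nat_lit 337)) (XT.lf (nat_lit 0) (nat_lit 4672947557) (nat_lit 532) (nat_lit 6437149267) (nat_lit 76) (nat_lit 389666200) (nat_lit 225) (nat_lit 5) (nat_lit 232) (nat_lit 5) (nat_lit 226) (nat_lit 5) (nat_lit 451) (nat_lit 413) (nat_lit 336))) (XT.nd (nat_lit 78) (nat_lit 0) (nat_lit 0) (XT.lf (nat_lit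 0) (nat_lit 640048204) (nat_lit 456) (nat_lit 6671980619) (nat_lit 532) (nat_lit 4372002005) (nat_lit 219) (nat_lit 5) (nat_lit 225) (nat_lit 5) (nat_lit 226) (nat_lit 5) (nat_lit 452) (nat_lit 413) (nat_lit 335)) (XT.lf (nat_lit 0) (nat_lit 8026478546) (nat_lit 456) (nat_lit 2041073504) (nat_lit 532) (nat_lit 1805158555) (nat_lit 219) (nat_lit 5) (nat_lit 225) (nat_lit 5) (nat_lit 226) (nat_lit 5) (nat_lit 453) (nat_lit 413) (nat_lit 334))))))))
noncomputable def xc127 : XT := (XT.nd (nat_lit 2418) (nat_lit 3800) (nat_lit 0) (XT.nd (nat_lit 1170) (nat_lit 2812) (nat_lit 0) (XT.nd (nat_lit 546) (nat_lit 1748) (nat_lit 0) (XT.nd (nat_lit 234) (nat_lit 1140) (nat_lit 0) (XT.nd (nat_lit 78) (nat_lit 456) (nat_lit 0) (XT.lf (nat_lit 0) (nat_lit 856269325) (nat_lit 456) (nat_lit 8498192475) (nat_lit 76) (nat_lit 2711330672) (nat_lit 213) (nat_lit 5) (nat_lit 219) (nat_lit 5) (nat_lit 214) (nat_lit 5) (nat_lit 454) (nat_lit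 413) (nat_lit 333)) (XT.nd (nat_lit 78) (nat_lit 456) (nat_lit 0) (XT.lf (nat_lit 0) (nat_lit 3593888000) (nat_lit 456) (nat_lit 1054230487) (nat_lit 76) (nat_lit 7615035080) (nat_lit 213) (nat_lit 5) (nat_lit 219) (nat_lit 5) (nat_lit 214) (nat_lit 5) (nat_lit 455) (nat_lit 413) (nat_lit 332)) (XT.lf (nat_lit 0) (nat_lit 6454593736) (nat_lit 532) (nat_lit 5757710486) (nat_lit 76) (nat_lit 252904318) (nat_lit 207) (nat_lit 5) (nat_lit 214) (nat_lit 5) (nat_lit 208) (nat_lit 5) (nat_lit 456) (nat_lit 413) (nat_lit 331)))) (XT.nd (nat_lit 156) (nat_lit 760) (nat_lit 0) (XT.nd (nat_lit 78) (nat_lit 0) (nat_lit 0) (XT.lf (nat_lit 0) (nat_lit 2009473692) (nat_lit 380) (nat_lit 7442071061) (nat_lit 456) (nat_lit 3220269432) (nat_lit 202) (nat_lit 5) (nat_lit 207) (nat_lit 5) (nat_lit 208) (nat_lit 5) (nat_lit 457) (nat_lit 413) (nat_lit 330)) (XT.lf (nat_lit 0) (nat_lit 10093741692) (nat_lit 380) (nat_lit 2477561040)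 (nat_lit 456) (nat_lit 312330009) (nat_lit 202) (nat_lit 5) (nat_lit 207) (nat_lit 5) (nat_lit 208) (nat_lit 5) (nat_lit 458) (nat_lit 413) (nat_lit 329))) (XT.nd (nat_lit 78) (nat_lit 304) (nat_lit 0) (XT.lf (nat_lit 0) (nat_lit 2683326761) (nat_lit 456) (nat_lit 7762096893) (nat_lit 76) (nat_lit 2654025188) (nat_lit 196) (nat_lit 5) (nat_lit 202) (nat_lit 5) (nat_lit 197) (nat_lit 5) (nat_lit 459) (nat_lit 413) (nat_lit 328)) (XT.lf (nat_lit 0) (nat_lit 390645558) (nat_lit 304) (nat_lit 5404232717) (nat_lit 380) (nat_lit 7525800853) (nat_lit 192) (nat_lit 5) (nat_lit 196) (nat_lit 5) (nat_lit 197) (nat_lit 5) (nat_lit 460) (nat_lit 413) (nat_lit 327))))) (XT.nd (nat_lit 312) (nat_lit 988) (nat_lit 0) (XT.nd (nat_lit 156) (nat_lit 380) (nat_lit 0) (XT.nd (nat_lit 78) (nat_lit 380) (nat_lit 0) (XT.lf (nat_lit 0) (nat_lit 8913633131) (nat_lit 304) (nat_lit 140481043) (nat_lit 380) (nat_lit 4492803522) (nat_lit 192)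 (nat_lit 5) (nat_lit 196) (nat_lit 5) (nat_lit 197) (nat_lit 5) (nat_lit 461) (nat_lit 413) (nat_lit 326)) (XT.lf (nat_lit 0) (nat_lit 3904703624) (nat_lit 380) (nat_lit 8571292277) (nat_lit 456) (nat_lit 1302002918) (nat_lit 187) (nat_lit 5) (nat_lit 192) (nat_lit 5) (nat_lit 193) (nat_lit 5) (nat_lit 462) (nat_lit 413) (nat_lit 325))) (XT.nd (nat_lit 78) (nat_lit 304) (nat_lit 0) (XT.lf (nat_lit 0) (nat_lit 1971143894) (nat_lit 456) (nat_lit 1274962786) (nat_lit 76) (nat_lit 10768574363) (nat_lit 186) (nat_lit 5) (nat_lit 192) (nat_lit 5) (nat_lit 187) (nat_lit 5) (nat_lit 463) (nat_lit 413) (nat_lit 324)) (XT.lf (nat_lit 0) (nat_lit 5389872141) (nat_lit 380) (nat_lit 6592679570) (nat_lit 76) (nat_lit 2273319945) (nat_lit 182) (nat_lit 5) (nat_lit 187) (nat_lit 5) (nat_lit 183) (nat_lit 5) (nat_lit 464) (nat_lit 413) (nat_lit 323)))) (XT.nd (nat_lit 156) (nat_lit 684) (nat_lit 0) (XT.nd (nat_lit 78) (nat_lit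 0) (nat_lit 0) (XT.lf (nat_lit 0) (nat_lit 2373233994) (nat_lit 304) (nat_lit 6583526075) (nat_lit 380) (nat_lit 5546171284) (nat_lit 178) (nat_lit 5) (nat_lit 182) (nat_lit 5) (nat_lit 183) (nat_lit 5) (nat_lit 465) (nat_lit 413) (nat_lit 322)) (XT.lf (nat_lit 0) (nat_lit 11711062751) (nat_lit 304) (nat_lit 964149703) (nat_lit 380) (nat_lit 2080854914) (nat_lit 178) (nat_lit 5) (nat_lit 182) (nat_lit 5) (nat_lit 183) (nat_lit 5) (nat_lit 466) (nat_lit 413) (nat_lit 321))) (XT.nd (nat_lit 78) (nat_lit 304) (nat_lit 0) (XT.lf (nat_lit 0) (nat_lit 1546245235) (nat_lit 380) (nat_lit 8671263183) (nat_lit 76) (nat_lit 4796254945) (nat_lit 173) (nat_lit 5) (nat_lit 178) (nat_lit 5) (nat_lit 174) (nat_lit 5) (nat_lit 467) (nat_lit 413) (nat_lit 320)) (XT.lf (nat_lit 0) (nat_lit 747995749) (nat_lit 304) (nat_lit 4518771515) (nat_lit 380) (nat_lit 10011013091) (nat_lit 169) (nat_lit 5) (nat_lit 173) (nat_lit 5) (nat_lit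 174) (nat_lit 5) (nat_lit 468) (nat_lit 413) (nat_lit 319)))))) (XT.nd (nat_lit 624) (nat_lit 1292) (nat_lit 0) (XT.nd (nat_lit 312) (nat_lit 836) (nat_lit 0) (XT.nd (nat_lit 156) (nat_lit 380) (nat_lit 0) (XT.nd (nat_lit 78) (nat_lit 304) (nat_lit 0) (XT.lf (nat_lit 0) (nat_lit 9179179829) (nat_lit 380) (nat_lit 4965505910) (nat_lit 76) (nat_lit 1402624994) (nat_lit 169) (nat_lit 5) (nat_lit 174) (nat_lit 5) (nat_lit 170) (nat_lit 5) (nat_lit 469) (nat_lit 413) (nat_lit 318)) (XT.lf (nat_lit 0) (nat_lit 4905473734) (nat_lit 304) (nat_lit 8374860732) (nat_lit 380) (nat_lit 2542452552) (nat_lit 165) (nat_lit 5) (nat_lit 169) (nat_lit 5) (nat_lit 170) (nat_lit 5) (nat_lit 470) (nat_lit 413) (nat_lit 317))) (XT.nd (nat_lit 78) (nat_lit 304) (nat_lit 0) (XT.lf (nat_lit 0) (nat_lit 1400928972) (nat_lit 380) (nat_lit 975899526) (nat_lit 76) (nat_lit 13728390587) (nat_lit 164) (nat_lit 5) (nat_lit 169) (nat_lit 5) (nat_lit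 165) (nat_lit 5) (nat_lit 471) (nat_lit 413) (nat_lit 316)) (XT.lf (nat_lit 0) (nat_lit 5519537219) (nat_lit 380) (nat_lit 7039392291) (nat_lit 76) (nat_lit 3833199632) (nat_lit 160) (nat_lit 5) (nat_lit 165) (nat_lit 5) (nat_lit 161) (nat_lit 5) (nat_lit 472) (nat_lit 413) (nat_lit 315)))) (XT.nd (nat_lit 156) (nat_lit 608) (nat_lit 0) (XT.nd (nat_lit 78) (nat_lit 0) (nat_lit 0) (XT.lf (nat_lit 0) (nat_lit 3334740920) (nat_lit 228) (nat_lit 6472859642) (nat_lit 304) (nat_lit 6878670002) (nat_lit 157) (nat_lit 5) (nat_lit 160) (nat_lit 5) (nat_lit 161) (nat_lit 5) (nat_lit 473) (nat_lit 413) (nat_lit 314)) (XT.lf (nat_lit 0) (nat_lit 14134110849) (nat_lit 228) (nat_lit 141916104) (nat_lit 304) (nat_lit 2711658578) (nat_lit 157) (nat_lit 5) (nat_lit 160) (nat_lit 5) (nat_lit 161) (nat_lit 5) (nat_lit 474) (nat_lit 413) (nat_lit 313))) (XT.nd (nat_lit 78) (nat_lit 228) (nat_lit 0) (XT.lf (nat_lit 0) (nat_lit 1670263509)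 (nat_lit 380) (nat_lit 9286209228) (nat_lit 76) (nat_lit 6337593188) (nat_lit 152) (nat_lit 5) (nat_lit 157) (nat_lit 5) (nat_lit 153) (nat_lit 5) (nat_lit 475) (nat_lit 413) (nat_lit 312)) (XT.lf (nat_lit 0) (nat_lit 1617935210) (nat_lit 228) (nat_lit 4538444839) (nat_lit 304) (nat_lit 11451635943) (nat_lit 149) (nat_lit 5) (nat_lit 152) (nat_lit 5) (nat_lit 153) (nat_lit 5) (nat_lit 476) (nat_lit 413) (nat_lit 311))))) (XT.nd (nat_lit 312) (nat_lit 760) (nat_lit 0) (XT.nd (nat_lit 156) (nat_lit 304) (nat_lit 0) (XT.nd (nat_lit 78) (nat_lit 228) (nat_lit 0) (XT.lf (nat_lit 0) (nat_lit 10873035857) (nat_lit 304) (nat_lit 4939964633) (nat_lit 76) (nat_lit 2115506231) (nat_lit 149) (nat_lit 5) (nat_lit 153) (nat_lit 5) (nat_lit 150) (nat_lit 5) (nat_lit 477) (nat_lit 413) (nat_lit 310)) (XT.lf (nat_lit 0) (nat_lit 6494213899) (nat_lit 228) (nat_lit 9326218800) (nat_lit 304) (nat_lit 2435503044) (nat_lit 146) (nat_lit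 5) (nat_lit 149) (nat_lit 5) (nat_lit 150) (nat_lit 5) (nat_lit 478) (nat_lit 413) (nat_lit 309))) (XT.nd (nat_lit 78) (nat_lit 228) (nat_lit 0) (XT.lf (nat_lit 0) (nat_lit 2310062057) (nat_lit 304) (nat_lit 271138390) (nat_lit 76) (nat_lit 16010348141) (nat_lit 145) (nat_lit 5) (nat_lit 149) (nat_lit 5) (nat_lit 146) (nat_lit 5) (nat_lit 479) (nat_lit 413) (nat_lit 308)) (XT.lf (nat_lit 0) (nat_lit 7287600513) (nat_lit 304) (nat_lit 7236167760) (nat_lit 76) (nat_lit 4408582143) (nat_lit 142) (nat_lit 5) (nat_lit 146) (nat_lit 5) (nat_lit 143) (nat_lit 5) (nat_lit 480) (nat_lit 413) (nat_lit 307)))) (XT.nd (nat_lit 156) (nat_lit 532) (nat_lit 0) (XT.nd (nat_lit 78) (nat_lit 0) (nat_lit 0) (XT.lf (nat_lit 0) (nat_lit 4783969224) (nat_lit 228) (nat_lit 7687416142) (nat_lit 304) (nat_lit 6810284044) (nat_lit 139) (nat_lit 5) (nat_lit 142) (nat_lit 5) (nat_lit 143) (nat_lit 5) (nat_lit 481) (nat_lit 413) (nat_lit 306))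 (XT.lf (nat_lit 0) (nat_lit 17284737986) (nat_lit 228) (nat_lit 581863513) (nat_lit 304) (nat_lit 1773189643) (nat_lit 139) (nat_lit 5) (nat_lit 142) (nat_lit 5) (nat_lit 143) (nat_lit 5) (nat_lit 482) (nat_lit 413) (nat_lit 305))) (XT.nd (nat_lit 78) (nat_lit 228) (nat_lit 0) (XT.lf (nat_lit 0) (nat_lit 3496450214) (nat_lit 304) (nat_lit 9779102886) (nat_lit 76) (nat_lit 6727677108) (nat_lit 135) (nat_lit 5) (nat_lit 139) (nat_lit 5) (nat_lit 136) (nat_lit 5) (nat_lit 483) (nat_lit 413) (nat_lit 304)) (XT.lf (nat_lit 0) (nat_lit 2856347210) (nat_lit 228) (nat_lit 6072728089) (nat_lit 304) (nat_lit 11446755036) (nat_lit 132) (nat_lit 5) (nat_lit 135) (nat_lit 5) (nat_lit 136) (nat_lit 5) (nat_lit 484) (nat_lit 413) (nat_lit 303))))))) (XT.nd (nat_lit 1248) (nat_lit 1748) (nat_lit 0) (XT.nd (nat_lit 624) (nat_lit 988) (nat_lit 0) (XT.nd (nat_lit 312) (nat_lit 608) (nat_lit 0) (XT.nd (nat_lit 156) (nat_lit 304) (nat_lit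 0) (XT.nd (nat_lit 78) (nat_lit 152) (nat_lit 0) (XT.lf (nat_lit 0) (nat_lit 14620760418) (nat_lit 304) (nat_lit 4727292840) (nat_lit 76) (nat_lit 1408673389) (nat_lit 132) (nat_lit 5) (nat_lit 136) (nat_lit 5) (nat_lit 133) (nat_lit 5) (nat_lit 485) (nat_lit 413) (nat_lit 302)) (XT.lf (nat_lit 0) (nat_lit 8527708829) (nat_lit 152) (nat_lit 12081483413) (nat_lit 228) (nat_lit 536078324) (nat_lit 130) (nat_lit 5) (nat_lit 132) (nat_lit 5) (nat_lit 133) (nat_lit 5) (nat_lit 486) (nat_lit 413) (nat_lit 301))) (XT.nd (nat_lit 78) (nat_lit 0) (nat_lit 0) (XT.lf (nat_lit 0) (nat_lit 668214377) (nat_lit 228) (nat_lit 4500081213) (nat_lit 304) (nat_lit 16374509620) (nat_lit 126) (nat_lit 5) (nat_lit 129) (nat_lit 5) (nat_lit 130) (nat_lit 5) (nat_lit 487) (nat_lit 413) (nat_lit 300)) (XT.lf (nat_lit 0) (nat_lit 11177554876) (nat_lit 304) (nat_lit 7402995706) (nat_lit 76) (nat_lit 3367220767) (nat_lit 126) (nat_lit 5) (nat_lit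 130) (nat_lit 5) (nat_lit 127) (nat_lit 5) (nat_lit 488) (nat_lit 413) (nat_lit 299)))) (XT.nd (nat_lit 156) (nat_lit 380) (nat_lit 0) (XT.nd (nat_lit 78) (nat_lit 76) (nat_lit 0) (XT.lf (nat_lit 0) (nat_lit 6529005613) (nat_lit 152) (nat_lit 10929915778) (nat_lit 228) (nat_lit 4903210732) (nat_lit 124) (nat_lit 5) (nat_lit 126) (nat_lit 5) (nat_lit 127) (nat_lit 5) (nat_lit 489) (nat_lit 413) (nat_lit 298)) (XT.lf (nat_lit 0) (nat_lit 1177618851) (nat_lit 228) (nat_lit 1794294507) (nat_lit 76) (nat_lit 19814880510) (nat_lit 123) (nat_lit 5) (nat_lit 126) (nat_lit 5) (nat_lit 124) (nat_lit 5) (nat_lit 490) (nat_lit 413) (nat_lit 297))) (XT.nd (nat_lit 78) (nat_lit 152) (nat_lit 0) (XT.lf (nat_lit 0) (nat_lit 7502599531) (nat_lit 304) (nat_lit 10429423405) (nat_lit 76) (nat_lit 5285908344) (nat_lit 120) (nat_lit 5) (nat_lit 124) (nat_lit 5) (nat_lit 121) (nat_lit 5) (nat_lit 491) (nat_lit 413) (nat_lit 296)) (XT.lf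 (nat_lit 0) (nat_lit 4210729473) (nat_lit 152) (nat_lit 9879895169) (nat_lit 228) (nat_lit 9569179799) (nat_lit 118) (nat_lit 5) (nat_lit 120) (nat_lit 5) (nat_lit 121) (nat_lit 5) (nat_lit 492) (nat_lit 413) (nat_lit 295))))) (XT.nd (nat_lit 312) (nat_lit 532) (nat_lit 0) (XT.nd (nat_lit 156) (nat_lit 152) (nat_lit 0) (XT.nd (nat_lit 78) (nat_lit 304) (nat_lit 0) (XT.lf (nat_lit 0) (nat_lit 19478185194) (nat_lit 152) (nat_lit 1488704919) (nat_lit 228) (nat_lit 3145326157) (nat_lit 118) (nat_lit 5) (nat_lit 120) (nat_lit 5) (nat_lit 121) (nat_lit 5) (nat_lit 493) (nat_lit 413) (nat_lit 294)) (XT.lf (nat_lit 0) (nat_lit 3562695933) (nat_lit 304) (nat_lit 13867384089) (nat_lit 76) (nat_lit 7142344156) (nat_lit 114) (nat_lit 5) (nat_lit 118) (nat_lit 5) (nat_lit 115) (nat_lit 5) (nat_lit 494) (nat_lit 413) (nat_lit 293))) (XT.nd (nat_lit 78) (nat_lit 0) (nat_lit 0) (XT.lf (nat_lit 0) (nat_lit 1512092282) (nat_lit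 152) (nat_lit 8958827748) (nat_lit 228) (nat_lit 14572719083) (nat_lit 112) (nat_lit 5) (nat_lit 114) (nat_lit 5) (nat_lit 115) (nat_lit 5) (nat_lit 495) (nat_lit 413) (nat_lit 292)) (XT.lf (nat_lit 0) (nat_lit 17612157599) (nat_lit 152) (nat_lit 100090315) (nat_lit 228) (nat_lit 7812967279) (nat_lit 112) (nat_lit 5) (nat_lit 114) (nat_lit 5) (nat_lit 115) (nat_lit 5) (nat_lit 496) (nat_lit 413) (nat_lit 291)))) (XT.nd (nat_lit 156) (nat_lit 304) (nat_lit 0) (XT.nd (nat_lit 78) (nat_lit 76) (nat_lit 0) (XT.lf (nat_lit 0) (nat_lit 8223054761) (nat_lit 152) (nat_lit 17099689025) (nat_lit 228) (nat_lit 693937325) (nat_lit 110) (nat_lit 5) (nat_lit 112) (nat_lit 5) (nat_lit 113) (nat_lit 5) (nat_lit 497) (nat_lit 413) (nat_lit 290)) (XT.lf (nat_lit 0) (nat_lit 6576976053) (nat_lit 228) (nat_lit 1605309312) (nat_lit 76) (nat_lit 18336655866) (nat_lit 109) (nat_lit 5) (nat_lit 112) (nat_lit 5) (nat_lit 110) (nat_lit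 5) (nat_lit 498) (nat_lit 413) (nat_lit 289))) (XT.nd (nat_lit 78) (nat_lit 152) (nat_lit 0) (XT.lf (nat_lit 0) (nat_lit 14197134657) (nat_lit 228) (nat_lit 11705999127) (nat_lit 76) (nat_lit 1128577658) (nat_lit 107) (nat_lit 5) (nat_lit 110) (nat_lit 5) (nat_lit 108) (nat_lit 5) (nat_lit 499) (nat_lit 413) (nat_lit 288)) (XT.lf (nat_lit 0) (nat_lit 5235153948) (nat_lit 152) (nat_lit 16945084925) (nat_lit 228) (nat_lit 5375596015) (nat_lit 105) (nat_lit 5) (nat_lit 107) (nat_lit 5) (nat_lit 108) (nat_lit 5) (nat_lit 500) (nat_lit 413) (nat_lit 287)))))) (XT.nd (nat_lit 624) (nat_lit 760) (nat_lit 0) (XT.nd (nat_lit 312) (nat_lit 608) (nat_lit 0) (XT.nd (nat_lit 156) (nat_lit 152) (nat_lit 0) (XT.nd (nat_lit 78) (nat_lit 152) (nat_lit 0) (XT.lf (nat_lit 0) (nat_lit 2368174515) (nat_lit 228) (nat_lit 5215034028) (nat_lit 76) (nat_lit 20508627256) (nat_lit 104) (nat_lit 5) (nat_lit 107) (nat_lit 5) (nat_lit 105)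 (nat_lit 5) (nat_lit 501) (nat_lit 413) (nat_lit 286)) (XT.lf (nat_lit 0) (nat_lit 10365541572) (nat_lit 228) (nat_lit 16087962575) (nat_lit 76) (nat_lit 2184936376) (nat_lit 102) (nat_lit 5) (nat_lit 105) (nat_lit 5) (nat_lit 103) (nat_lit 5) (nat_lit 502) (nat_lit 413) (nat_lit 285))) (XT.nd (nat_lit 78) (nat_lit 0) (nat_lit 0) (XT.lf (nat_lit 0) (nat_lit 1689960891) (nat_lit 152) (nat_lit 17044485202) (nat_lit 228) (nat_lit 10463049118) (nat_lit 100) (nat_lit 5) (nat_lit 102) (nat_lit 5) (nat_lit 103) (nat_lit 5) (nat_lit 503) (nat_lit 413) (nat_lit 284)) (XT.lf (nat_lit 0) (nat_lit 20307830531) (nat_lit 152) (nat_lit 7196304024) (nat_lit 228) (nat_lit 2264695785) (nat_lit 100) (nat_lit 5) (nat_lit 102) (nat_lit 5) (nat_lit 103) (nat_lit 5) (nat_lit 504) (nat_lit 413) (nat_lit 283)))) (XT.nd (nat_lit 156) (nat_lit 380) (nat_lit 0) (XT.nd (nat_lit 78) (nat_lit 0) (nat_lit 0) (XT.lf (nat_lit 0) (nat_lit 6164903185)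 (nat_lit 228) (nat_lit 21158152643) (nat_lit 76) (nat_lit 3029291474) (nat_lit 97) (nat_lit 5) (nat_lit 100) (nat_lit 5) (nat_lit 98) (nat_lit 5) (nat_lit 505) (nat_lit 413) (nat_lit 282)) (XT.lf (nat_lit 0) (nat_lit 14957163584) (nat_lit 228) (nat_lit 2464939059) (nat_lit 76) (nat_lit 13525935978) (nat_lit 97) (nat_lit 5) (nat_lit 100) (nat_lit 5) (nat_lit 98) (nat_lit 5) (nat_lit 506) (nat_lit 413) (nat_lit 281))) (XT.nd (nat_lit 78) (nat_lit 228) (nat_lit 0) (XT.lf (nat_lit 0) (nat_lit 17100627501) (nat_lit 152) (nat_lit 7064865990) (nat_lit 228) (nat_lit 7391538411) (nat_lit 95) (nat_lit 5) (nat_lit 97) (nat_lit 5) (nat_lit 98) (nat_lit 5) (nat_lit 507) (nat_lit 413) (nat_lit 280)) (XT.lf (nat_lit 0) (nat_lit 1535515315) (nat_lit 228) (nat_lit 27032586479) (nat_lit 76) (nat_lit 3612820555) (nat_lit 92) (nat_lit 5) (nat_lit 95) (nat_lit 5) (nat_lit 93) (nat_lit 5) (nat_lit 508) (nat_lit 413) (nat_lit 279)))))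 (XT.nd (nat_lit 312) (nat_lit 456) (nat_lit 0) (XT.nd (nat_lit 156) (nat_lit 152) (nat_lit 0) (XT.nd (nat_lit 78) (nat_lit 152) (nat_lit 0) (XT.lf (nat_lit 0) (nat_lit 10787180437) (nat_lit 228) (nat_lit 7348373228) (nat_lit 76) (nat_lit 14679619714) (nat_lit 92) (nat_lit 5) (nat_lit 95) (nat_lit 5) (nat_lit 93) (nat_lit 5) (nat_lit 509) (nat_lit 413) (nat_lit 278)) (XT.lf (nat_lit 0) (nat_lit 13161638608) (nat_lit 152) (nat_lit 7269611054) (nat_lit 228) (nat_lit 13033756895) (nat_lit 90) (nat_lit 5) (nat_lit 92) (nat_lit 5) (nat_lit 93) (nat_lit 5) (nat_lit 510) (nat_lit 413) (nat_lit 277))) (XT.nd (nat_lit 78) (nat_lit 76) (nat_lit 0) (XT.lf (nat_lit 0) (nat_lit 250323872) (nat_lit 76) (nat_lit 30217742414) (nat_lit 152) (nat_lit 3663165919) (nat_lit 89) (nat_lit 5) (nat_lit 90) (nat_lit 5) (nat_lit 91) (nat_lit 4) (nat_lit 511) (nat_lit 413) (nat_lit 276)) (XT.lf (nat_lit 0) (nat_lit 6139110769) (nat_lit 152)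 (nat_lit 13127658703) (nat_lit 76) (nat_lit 15540925624) (nat_lit 88) (nat_lit 5) (nat_lit 90) (nat_lit 5) (nat_lit 89) (nat_lit 5) (nat_lit 512) (nat_lit 413) (nat_lit 275)))) (XT.nd (nat_lit 156) (nat_lit 304) (nat_lit 0) (XT.nd (nat_lit 78) (nat_lit 0) (nat_lit 0) (XT.lf (nat_lit 0) (nat_lit 8353946123) (nat_lit 152) (nat_lit 7876920388) (nat_lit 228) (nat_lit 19270426404) (nat_lit 86) (nat_lit 5) (nat_lit 88) (nat_lit 5) (nat_lit 89) (nat_lit 5) (nat_lit 513) (nat_lit 413) (nat_lit 274)) (XT.lf (nat_lit 0) (nat_lit 26785073234) (nat_lit 228) (nat_lit 5522008814) (nat_lit 76) (nat_lit 3903825881) (nat_lit 86) (nat_lit 5) (nat_lit 89) (nat_lit 5) (nat_lit 87) (nat_lit 4) (nat_lit 514) (nat_lit 413) (nat_lit 273))) (XT.nd (nat_lit 78) (nat_lit 152) (nat_lit 0) (XT.lf (nat_lit 0) (nat_lit 932797813) (nat_lit 152) (nat_lit 19958917323) (nat_lit 76) (nat_lit 16042911394) (nat_lit 84) (nat_lit 5) (nat_lit 86) (nat_lit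 5) (nat_lit 85) (nat_lit 5) (nat_lit 515) (nat_lit 413) (nat_lit 272)) (XT.lf (nat_lit 0) (nat_lit 2517999601) (nat_lit 152) (nat_lit 8964370511) (nat_lit 228) (nat_lit 26192798093) (nat_lit 82) (nat_lit 5) (nat_lit 84) (nat_lit 5) (nat_lit 85) (nat_lit 5) (nat_lit 516) (nat_lit 413) (nat_lit 271))))))))
noncomputable def xc128 : XT := (XT.nd (nat_lit 2418) (nat_lit 304) (nat_lit 0) (XT.nd (nat_lit 1170) (nat_lit 988) (nat_lit 0) (XT.nd (nat_lit 546) (nat_lit 684) (nat_lit 0) (XT.nd (nat_lit 234) (nat_lit 456) (nat_lit 0) (XT.nd (nat_lit 78) (nat_lit 152) (nat_lit 0) (XT.lf (nat_lit 0) (nat_lit 22573036853) (nat_lit 228) (nat_lit 12407895498) (nat_lit 76) (nat_lit 3450255746) (nat_lit 82) (nat_lit 5) (nat_lit 85) (nat_lit 5) (nat_lit 83) (nat_lit 4) (nat_lit 517) (nat_lit 413) (nat_lit 270)) (XT.nd (nat_lit 78) (nat_lit 76) (nat_lit 0) (XT.lf (nat_lit 0) (nat_lit 11132469175) (nat_lit 76) (nat_lit 23049183183)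 (nat_lit 152) (nat_lit 5022679543) (nat_lit 81) (nat_lit 5) (nat_lit 82) (nat_lit 5) (nat_lit 83) (nat_lit 4) (nat_lit 518) (nat_lit 413) (nat_lit 269)) (XT.lf (nat_lit 0) (nat_lit 6134095641) (nat_lit 152) (nat_lit 4443637989) (nat_lit 76) (nat_lit 29417686203) (nat_lit 80) (nat_lit 5) (nat_lit 82) (nat_lit 5) (nat_lit 81) (nat_lit 5) (nat_lit 519) (nat_lit 413) (nat_lit 268)))) (XT.nd (nat_lit 156) (nat_lit 228) (nat_lit 0) (XT.nd (nat_lit 78) (nat_lit 76) (nat_lit 0) (XT.lf (nat_lit 0) (nat_lit 17732891134) (nat_lit 228) (nat_lit 20608406395) (nat_lit 76) (nat_lit 2461203114) (nat_lit 78) (nat_lit 5) (nat_lit 81) (nat_lit 5) (nat_lit 79) (nat_lit 4) (nat_lit 520) (nat_lit 413) (nat_lit 267)) (XT.lf (nat_lit 0) (nat_lit 3982817362) (nat_lit 76) (nat_lit 25874973683) (nat_lit 152) (nat_lit 11770658777) (nat_lit 77) (nat_lit 5) (nat_lit 78) (nat_lit 5) (nat_lit 79) (nat_lit 4) (nat_lit 521) (nat_lit 413) (nat_lit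 266))) (XT.nd (nat_lit 78) (nat_lit 152) (nat_lit 0) (XT.lf (nat_lit 0) (nat_lit 69837489) (nat_lit 152) (nat_lit 12758830463) (nat_lit 76) (nat_lit 29644548350) (nat_lit 76) (nat_lit 5) (nat_lit 78) (nat_lit 5) (nat_lit 77) (nat_lit 5) (nat_lit 522) (nat_lit 413) (nat_lit 265)) (XT.lf (nat_lit 0) (nat_lit 12152142297) (nat_lit 228) (nat_lit 30351746245) (nat_lit 76) (nat_lit 832245976) (nat_lit 74) (nat_lit 5) (nat_lit 77) (nat_lit 5) (nat_lit 75) (nat_lit 4) (nat_lit 523) (nat_lit 413) (nat_lit 264))))) (XT.nd (nat_lit 312) (nat_lit 380) (nat_lit 0) (XT.nd (nat_lit 156) (nat_lit 228) (nat_lit 0) (XT.nd (nat_lit 78) (nat_lit 76) (nat_lit 0) (XT.lf (nat_lit 0) (nat_lit 24844190149) (nat_lit 228) (nat_lit 4606722857) (nat_lit 76) (nat_lit 14766609200) (nat_lit 74) (nat_lit 5) (nat_lit 77) (nat_lit 5) (nat_lit 75) (nat_lit 4) (nat_lit 524) (nat_lit 413) (nat_lit 263)) (XT.lf (nat_lit 0) (nat_lit 22328097805) (nat_lit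 76) (nat_lit 15793962655) (nat_lit 152) (nat_lit 6997139372) (nat_lit 73) (nat_lit 5) (nat_lit 74) (nat_lit 5) (nat_lit 75) (nat_lit 4) (nat_lit 525) (nat_lit 413) (nat_lit 262))) (XT.nd (nat_lit 78) (nat_lit 0) (nat_lit 0) (XT.lf (nat_lit 0) (nat_lit 4125362038) (nat_lit 152) (nat_lit 1589843012) (nat_lit 228) (nat_lit 40328752319) (nat_lit 70) (nat_lit 5) (nat_lit 72) (nat_lit 5) (nat_lit 73) (nat_lit 5) (nat_lit 526) (nat_lit 413) (nat_lit 261)) (XT.lf (nat_lit 0) (nat_lit 19016523050) (nat_lit 228) (nat_lit 14888235716) (nat_lit 76) (nat_lit 13079173469) (nat_lit 70) (nat_lit 5) (nat_lit 73) (nat_lit 5) (nat_lit 71) (nat_lit 4) (nat_lit 527) (nat_lit 413) (nat_lit 260)))) (XT.nd (nat_lit 156) (nat_lit 304) (nat_lit 0) (XT.nd (nat_lit 78) (nat_lit 0) (nat_lit 0) (XT.lf (nat_lit 0) (nat_lit 13176662333) (nat_lit 76) (nat_lit 19673361612) (nat_lit 152) (nat_lit 15098088223) (nat_lit 69) (nat_lit 5) (nat_lit 70)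 (nat_lit 5) (nat_lit 71) (nat_lit 4) (nat_lit 528) (nat_lit 413) (nat_lit 259)) (XT.lf (nat_lit 0) (nat_lit 42371120157) (nat_lit 76) (nat_lit 4868592595) (nat_lit 152) (nat_lit 1697269380) (nat_lit 69) (nat_lit 5) (nat_lit 70) (nat_lit 5) (nat_lit 71) (nat_lit 4) (nat_lit 529) (nat_lit 413) (nat_lit 258))) (XT.nd (nat_lit 78) (nat_lit 76) (nat_lit 0) (XT.lf (nat_lit 0) (nat_lit 12182534530) (nat_lit 228) (nat_lit 27251613531) (nat_lit 76) (nat_lit 10508483745) (nat_lit 66) (nat_lit 5) (nat_lit 69) (nat_lit 5) (nat_lit 67) (nat_lit 4) (nat_lit 530) (nat_lit 413) (nat_lit 257)) (XT.lf (nat_lit 0) (nat_lit 1938634637) (nat_lit 76) (nat_lit 24630820625) (nat_lit 152) (nat_lit 24404746592) (nat_lit 65) (nat_lit 5) (nat_lit 66) (nat_lit 5) (nat_lit 67) (nat_lit 4) (nat_lit 531) (nat_lit 413) (nat_lit 256)))))) (XT.nd (nat_lit 624) (nat_lit 532) (nat_lit 0) (XT.nd (nat_lit 312) (nat_lit 228) (nat_lit 0) (XT.nd (nat_lit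 156) (nat_lit 76) (nat_lit 0) (XT.nd (nat_lit 78) (nat_lit 152) (nat_lit 0) (XT.lf (nat_lit 0) (nat_lit 32546124012) (nat_lit 76) (nat_lit 9108182259) (nat_lit 152) (nat_lit 10374423158) (nat_lit 65) (nat_lit 5) (nat_lit 66) (nat_lit 5) (nat_lit 67) (nat_lit 4) (nat_lit 532) (nat_lit 413) (nat_lit 255)) (XT.lf (nat_lit 0) (nat_lit 4162941351) (nat_lit 152) (nat_lit 42060341720) (nat_lit 76) (nat_lit 6885463658) (nat_lit 63) (nat_lit 5) (nat_lit 65) (nat_lit 5) (nat_lit 64) (nat_lit 4) (nat_lit 533) (nat_lit 413) (nat_lit 254))) (XT.nd (nat_lit 78) (nat_lit 76) (nat_lit 0) (XT.lf (nat_lit 0) (nat_lit 19208099398) (nat_lit 152) (nat_lit 11532176703) (nat_lit 76) (nat_lit 23469401383) (nat_lit 63) (nat_lit 5) (nat_lit 65) (nat_lit 5) (nat_lit 64) (nat_lit 4) (nat_lit 534) (nat_lit 413) (nat_lit 253)) (XT.lf (nat_lit 0) (nat_lit 20291493055) (nat_lit 76) (nat_lit 14599750286) (nat_lit 152) (nat_lit 20446793981) (nat_lit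 62) (nat_lit 5) (nat_lit 63) (nat_lit 5) (nat_lit 64) (nat_lit 4) (nat_lit 535) (nat_lit 413) (nat_lit 252)))) (XT.nd (nat_lit 156) (nat_lit 76) (nat_lit 0) (XT.nd (nat_lit 78) (nat_lit 152) (nat_lit 0) (XT.lf (nat_lit 0) (nat_lit 51173544464) (nat_lit 152) (nat_lit 3227417153) (nat_lit 0) (nat_lit 2095426543) (nat_lit 62) (nat_lit 5) (nat_lit 64) (nat_lit 4) (nat_lit 62) (nat_lit 4) (nat_lit 536) (nat_lit 413) (nat_lit 251)) (XT.lf (nat_lit 0) (nat_lit 10483405155) (nat_lit 152) (nat_lit 27808805200) (nat_lit 76) (nat_lit 19381461325) (nat_lit 60) (nat_lit 5) (nat_lit 62) (nat_lit 5) (nat_lit 61) (nat_lit 4) (nat_lit 537) (nat_lit 413) (nat_lit 250))) (XT.nd (nat_lit 78) (nat_lit 0) (nat_lit 0) (XT.lf (nat_lit 0) (nat_lit 5162651912) (nat_lit 76) (nat_lit 21568589377) (nat_lit 152) (nat_lit 32151219947) (nat_lit 59) (nat_lit 5) (nat_lit 60) (nat_lit 5) (nat_lit 61) (nat_lit 4) (nat_lit 538) (nat_lit 413) (nat_lit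 249)) (XT.lf (nat_lit 0) (nat_lit 39677613906) (nat_lit 76) (nat_lit 4061643592) (nat_lit 152) (nat_lit 16380074710) (nat_lit 59) (nat_lit 5) (nat_lit 60) (nat_lit 5) (nat_lit 61) (nat_lit 4) (nat_lit 539) (nat_lit 413) (nat_lit 248))))) (XT.nd (nat_lit 312) (nat_lit 304) (nat_lit 0) (XT.nd (nat_lit 156) (nat_lit 76) (nat_lit 0) (XT.nd (nat_lit 78) (nat_lit 0) (nat_lit 0) (XT.lf (nat_lit 0) (nat_lit 129988873) (nat_lit 152) (nat_lit 47429384997) (nat_lit 76) (nat_lit 13826080652) (nat_lit 57) (nat_lit 5) (nat_lit 59) (nat_lit 5) (nat_lit 58) (nat_lit 4) (nat_lit 540) (nat_lit 413) (nat_lit 247)) (XT.lf (nat_lit 0) (nat_lit 17046911067) (nat_lit 152) (nat_lit 13098384030) (nat_lit 76) (nat_lit 32532176715) (nat_lit 57) (nat_lit 5) (nat_lit 59) (nat_lit 5) (nat_lit 58) (nat_lit 4) (nat_lit 541) (nat_lit 413) (nat_lit 246))) (XT.nd (nat_lit 78) (nat_lit 0) (nat_lit 0) (XT.lf (nat_lit 0) (nat_lit 22690361024) (nat_lit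 76) (nat_lit 11991424256) (nat_lit 152) (nat_lit 29320151081) (nat_lit 56) (nat_lit 5) (nat_lit 57) (nat_lit 5) (nat_lit 58) (nat_lit 4) (nat_lit 542) (nat_lit 413) (nat_lit 245)) (XT.lf (nat_lit 0) (nat_lit 53036098007) (nat_lit 152) (nat_lit 5621644597) (nat_lit 0) (nat_lit 6702680544) (nat_lit 56) (nat_lit 5) (nat_lit 58) (nat_lit 4) (nat_lit 56) (nat_lit 4) (nat_lit 543) (nat_lit 413) (nat_lit 244)))) (XT.nd (nat_lit 156) (nat_lit 76) (nat_lit 0) (XT.nd (nat_lit 78) (nat_lit 76) (nat_lit 0) (XT.lf (nat_lit 0) (nat_lit 5499649818) (nat_lit 152) (nat_lit 35178325137) (nat_lit 76) (nat_lit 26067614006) (nat_lit 54) (nat_lit 5) (nat_lit 56) (nat_lit 5) (nat_lit 55) (nat_lit 4) (nat_lit 544) (nat_lit 413) (nat_lit 243)) (XT.lf (nat_lit 0) (nat_lit 1712770469) (nat_lit 76) (nat_lit 21964231341) (nat_lit 152) (nat_lit 44489656376) (nat_lit 53) (nat_lit 5) (nat_lit 54) (nat_lit 5) (nat_lit 55) (nat_lit 4) (nat_lit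 545) (nat_lit 413) (nat_lit 242))) (XT.nd (nat_lit 78) (nat_lit 76) (nat_lit 0) (XT.lf (nat_lit 0) (nat_lit 40417324891) (nat_lit 76) (nat_lit 2330230265) (nat_lit 152) (nat_lit 26872367969) (nat_lit 53) (nat_lit 5) (nat_lit 54) (nat_lit 5) (nat_lit 55) (nat_lit 4) (nat_lit 546) (nat_lit 413) (nat_lit 241)) (XT.lf (nat_lit 0) (nat_lit 9158830871) (nat_lit 76) (nat_lit 53484228035) (nat_lit 76) (nat_lit 8466142153) (nat_lit 52) (nat_lit 4) (nat_lit 53) (nat_lit 5) (nat_lit 53) (nat_lit 4) (nat_lit 547) (nat_lit 413) (nat_lit 240))))))) (XT.nd (nat_lit 52806) (nat_lit 0) (nat_lit 17860) (XT.nd (nat_lit 52182) (nat_lit 0) (nat_lit 24548) (XT.nd (nat_lit 234) (nat_lit 152) (nat_lit 0) (XT.nd (nat_lit 78) (nat_lit 76) (nat_lit 0) (XT.lf (nat_lit 0) (nat_lit 10601210502) (nat_lit 152) (nat_lit 23505561807) (nat_lit 76) (nat_lit 38523948874) (nat_lit 51) (nat_lit 5) (nat_lit 53) (nat_lit 5) (nat_lit 52) (nat_lit 4) (nat_lit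 548) (nat_lit 413) (nat_lit 239)) (XT.nd (nat_lit 78) (nat_lit 0) (nat_lit 0) (XT.lf (nat_lit 0) (nat_lit 16313382793) (nat_lit 76) (nat_lit 13906865531) (nat_lit 152) (nat_lit 43970629175) (nat_lit 50) (nat_lit 5) (nat_lit 51) (nat_lit 5) (nat_lit 52) (nat_lit 4) (nat_lit 549) (nat_lit 413) (nat_lit 238)) (XT.lf (nat_lit 0) (nat_lit 50726905581) (nat_lit 152) (nat_lit 18064375513) (nat_lit 0) (nat_lit 6997586016) (nat_lit 50) (nat_lit 5) (nat_lit 52) (nat_lit 4) (nat_lit 50) (nat_lit 4) (nat_lit 550) (nat_lit 413) (nat_lit 237)))) (XT.nd (nat_lit 51792) (nat_lit 0) (nat_lit 25384) (XT.nd (nat_lit 78) (nat_lit 76) (nat_lit 0) (XT.lf (nat_lit 0) (nat_lit 23245726537) (nat_lit 76) (nat_lit 48957403525) (nat_lit 76) (nat_lit 5221035374) (nat_lit 49) (nat_lit 4) (nat_lit 50) (nat_lit 5) (nat_lit 50) (nat_lit 4) (nat_lit 551) (nat_lit 413) (nat_lit 236)) (XT.lf (nat_lit 0) (nat_lit 15095665361) (nat_lit 152) (nat_lit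 13099010753) (nat_lit 76) (nat_lit 50904135477) (nat_lit 48) (nat_lit 5) (nat_lit 50) (nat_lit 5) (nat_lit 49) (nat_lit 4) (nat_lit 552) (nat_lit 413) (nat_lit 235))) (XT.nd (nat_lit 78) (nat_lit 836) (nat_lit 0) (XT.lf (nat_lit 0) (nat_lit 3093238235) (nat_lit 836) (nat_lit 271468669) (nat_lit 836) (nat_lit 271468669) (nat_lit 393) (nat_lit 3) (nat_lit 404) (nat_lit 3) (nat_lit 404) (nat_lit 5) (nat_lit 414) (nat_lit 414) (nat_lit 372)) (XT.lf (nat_lit 0) (nat_lit 542735552) (nat_lit 836) (nat_lit 4208728800) (nat_lit 912) (nat_lit 2581403257) (nat_lit 382) (nat_lit 5) (nat_lit 393) (nat_lit 3) (nat_lit 394) (nat_lit 5) (nat_lit 415) (nat_lit 414) (nat_lit 371))))) (XT.nd (nat_lit 312) (nat_lit 836) (nat_lit 0) (XT.nd (nat_lit 156) (nat_lit 0) (nat_lit 76) (XT.nd (nat_lit 78) (nat_lit 0) (nat_lit 0) (XT.lf (nat_lit 0) (nat_lit 2141431362) (nat_lit 836) (nat_lit 527069444) (nat_lit 912) (nat_lit 4728091868) (nat_lit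 382) (nat_lit 5) (nat_lit 393) (nat_lit 3) (nat_lit 394) (nat_lit 5) (nat_lit 416) (nat_lit 414) (nat_lit 370)) (XT.lf (nat_lit 76) (nat_lit 3296763888) (nat_lit 0) (nat_lit 462350002) (nat_lit 912) (nat_lit 3703991833) (nat_lit 383) (nat_lit 5) (nat_lit 382) (nat_lit 5) (nat_lit 394) (nat_lit 5) (nat_lit 417) (nat_lit 414) (nat_lit 369))) (XT.nd (nat_lit 78) (nat_lit 0) (nat_lit 0) (XT.lf (nat_lit 0) (nat_lit 5389151312) (nat_lit 836) (nat_lit 337118926) (nat_lit 912) (nat_lit 1806435994) (nat_lit 383) (nat_lit 5) (nat_lit 394) (nat_lit 5) (nat_lit 395) (nat_lit 5) (nat_lit 418) (nat_lit 414) (nat_lit 368)) (XT.lf (nat_lit 76) (nat_lit 3640104715) (nat_lit 0) (nat_lit 3410321416) (nat_lit 912) (nat_lit 554505141) (nat_lit 384) (nat_lit 5) (nat_lit 383) (nat_lit 5) (nat_lit 395) (nat_lit 5) (nat_lit 419) (nat_lit 414) (nat_lit 367)))) (XT.nd (nat_lit 156) (nat_lit 0) (nat_lit 76) (XT.nd (nat_lit 78) (nat_lit 0)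 (nat_lit 76) (XT.lf (nat_lit 76) (nat_lit 20158921) (nat_lit 0) (nat_lit 988128774) (nat_lit 988) (nat_lit 6672313822) (nat_lit 372) (nat_lit 5) (nat_lit 371) (nat_lit 5) (nat_lit 384) (nat_lit 5) (nat_lit 420) (nat_lit 414) (nat_lit 366)) (XT.lf (nat_lit 0) (nat_lit 2606818129) (nat_lit 912) (nat_lit 3607404557) (nat_lit 988) (nat_lit 1544160558) (nat_lit 372) (nat_lit 5) (nat_lit 384) (nat_lit 5) (nat_lit 385) (nat_lit 5) (nat_lit 421) (nat_lit 414) (nat_lit 365))) (XT.nd (nat_lit 78) (nat_lit 0) (nat_lit 0) (XT.lf (nat_lit 76) (nat_lit 533222321) (nat_lit 0) (nat_lit 3681672653) (nat_lit 988) (nat_lit 3624761601) (nat_lit 373) (nat_lit 5) (nat_lit 372) (nat_lit 5) (nat_lit 385) (nat_lit 5) (nat_lit 422) (nat_lit 414) (nat_lit 364)) (XT.lf (nat_lit 76) (nat_lit 4837731776) (nat_lit 0) (nat_lit 1017814854) (nat_lit 988) (nat_lit 2068297197) (nat_lit 373) (nat_lit 5) (nat_lit 372) (nat_lit 5) (nat_lit 385) (nat_lit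 5) (nat_lit 423) (nat_lit 414) (nat_lit 363)))))) (XT.nd (nat_lit 624) (nat_lit 3876) (nat_lit 0) (XT.nd (nat_lit 312) (nat_lit 1976) (nat_lit 0) (XT.nd (nat_lit 156) (nat_lit 0) (nat_lit 0) (XT.nd (nat_lit 78) (nat_lit 988) (nat_lit 0) (XT.lf (nat_lit 76) (nat_lit 1233320369) (nat_lit 0) (nat_lit 6290132217) (nat_lit 988) (nat_lit 487768600) (nat_lit 374) (nat_lit 5) (nat_lit 373) (nat_lit 5) (nat_lit 386) (nat_lit 5) (nat_lit 424) (nat_lit 414) (nat_lit 362)) (XT.lf (nat_lit 0) (nat_lit 1109707119) (nat_lit 988) (nat_lit 2411660742) (nat_lit 1064) (nat_lit 4579775010) (nat_lit 360) (nat_lit 5) (nat_lit 373) (nat_lit 5) (nat_lit 374) (nat_lit 5) (nat_lit 425) (nat_lit 414) (nat_lit 361))) (XT.nd (nat_lit 78) (nat_lit 0) (nat_lit 76) (XT.lf (nat_lit 76) (nat_lit 2086869356) (nat_lit 0) (nat_lit 630174544) (nat_lit 1064) (nat_lit 5477426273) (nat_lit 361) (nat_lit 5) (nat_lit 360) (nat_lit 5) (nat_lit 374) (nat_lit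 5) (nat_lit 426) (nat_lit 414) (nat_lit 360)) (XT.lf (nat_lit 0) (nat_lit 4372646198) (nat_lit 988) (nat_lit 1578681880) (nat_lit 1064) (nat_lit 2339272767) (nat_lit 361) (nat_lit 5) (nat_lit 374) (nat_lit 5) (nat_lit 375) (nat_lit 5) (nat_lit 427) (nat_lit 414) (nat_lit 359)))) (XT.nd (nat_lit 156) (nat_lit 2052) (nat_lit 0) (XT.nd (nat_lit 78) (nat_lit 0) (nat_lit 76) (XT.lf (nat_lit 76) (nat_lit 3105713547) (nat_lit 0) (nat_lit 2962551918) (nat_lit 1064) (nat_lit 2321644276) (nat_lit 362) (nat_lit 5) (nat_lit 361) (nat_lit 5) (nat_lit 375) (nat_lit 5) (nat_lit 428) (nat_lit 414) (nat_lit 358)) (XT.lf (nat_lit 0) (nat_lit 7787323083) (nat_lit 988) (nat_lit 565850052) (nat_lit 76) (nat_lit 139852308) (nat_lit 362) (nat_lit 5) (nat_lit 375) (nat_lit 5) (nat_lit 363) (nat_lit 5) (nat_lit 429) (nat_lit 414) (nat_lit 357))) (XT.nd (nat_lit 78) (nat_lit 1064) (nat_lit 0) (XT.lf (nat_lit 0) (nat_lit 967735675) (nat_lit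 1064) (nat_lit 4293821781) (nat_lit 76) (nat_lit 3336573276) (nat_lit 348) (nat_lit 5) (nat_lit 362) (nat_lit 5) (nat_lit 349) (nat_lit 5) (nat_lit 430) (nat_lit 414) (nat_lit 356)) (XT.lf (nat_lit 0) (nat_lit 595193186) (nat_lit 1064) (nat_lit 2050655148) (nat_lit 1140) (nat_lit 6061275808) (nat_lit 334) (nat_lit 5) (nat_lit 348) (nat_lit 5) (nat_lit 349) (nat_lit 5) (nat_lit 431) (nat_lit 414) (nat_lit 355))))) (XT.nd (nat_lit 312) (nat_lit 1444) (nat_lit 0) (XT.nd (nat_lit 156) (nat_lit 1292) (nat_lit 0) (XT.nd (nat_lit 78) (nat_lit 1140) (nat_lit 0) (XT.lf (nat_lit 0) (nat_lit 4388313375) (nat_lit 1140) (nat_lit 3148011074) (nat_lit 76) (nat_lit 1282646750) (nat_lit 334) (nat_lit 5) (nat_lit 349) (nat_lit 5) (nat_lit 335) (nat_lit 5) (nat_lit 432) (nat_lit 414) (nat_lit 354)) (XT.lf (nat_lit 0) (nat_lit 1947264748) (nat_lit 1140) (nat_lit 4234170174) (nat_lit 1216) (nat_lit 2752791266) (nat_lit 319) (nat_lit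 5) (nat_lit 334) (nat_lit 5) (nat_lit 335) (nat_lit 5) (nat_lit 433) (nat_lit 414) (nat_lit 353))) (XT.nd (nat_lit 78) (nat_lit 1292) (nat_lit 0) (XT.lf (nat_lit 0) (nat_lit 7225019350) (nat_lit 1140) (nat_lit 795328331) (nat_lit 1216) (nat_lit 1032835097) (nat_lit 319) (nat_lit 5) (nat_lit 334) (nat_lit 5) (nat_lit 335) (nat_lit 5) (nat_lit 434) (nat_lit 414) (nat_lit 352)) (XT.lf (nat_lit 0) (nat_lit 745896380) (nat_lit 1292) (nat_lit 5690347173) (nat_lit 76) (nat_lit 2738607388) (nat_lit 302) (nat_lit 5) (nat_lit 319) (nat_lit 5) (nat_lit 303) (nat_lit 5) (nat_lit 435) (nat_lit 414) (nat_lit 351)))) (XT.nd (nat_lit 156) (nat_lit 608) (nat_lit 0) (XT.nd (nat_lit 78) (nat_lit 836) (nat_lit 0) (XT.lf (nat_lit 0) (nat_lit 2545574320) (nat_lit 1292) (nat_lit 359393459) (nat_lit 76) (nat_lit 6395247832) (nat_lit 302) (nat_lit 5) (nat_lit 319) (nat_lit 5) (nat_lit 303) (nat_lit 5) (nat_lit 436) (nat_lit 414) (nat_lit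 350)) (XT.lf (nat_lit 0) (nat_lit 4419708711) (nat_lit 912) (nat_lit 4238073219) (nat_lit 76) (nat_lit 770948755) (nat_lit 291) (nat_lit 5) (nat_lit 303) (nat_lit 5) (nat_lit 292) (nat_lit 5) (nat_lit 437) (nat_lit 414) (nat_lit 349))) (XT.nd (nat_lit 78) (nat_lit 0) (nat_lit 0) (XT.lf (nat_lit 0) (nat_lit 1315188830) (nat_lit 608) (nat_lit 5043657077) (nat_lit 684) (nat_lit 3201995287) (nat_lit 283) (nat_lit 5) (nat_lit 291) (nat_lit 5) (nat_lit 292) (nat_lit 5) (nat_lit 438) (nat_lit 414) (nat_lit 348)) (XT.lf (nat_lit 0) (nat_lit 7087008746) (nat_lit 608) (nat_lit 1276375295) (nat_lit 684) (nat_lit 1333317422) (nat_lit 283) (nat_lit 5) (nat_lit 291) (nat_lit 5) (nat_lit 292) (nat_lit 5) (nat_lit 439) (nat_lit 414) (nat_lit 347))))))))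
noncomputable def xc129 : XT := (XT.nd (nat_lit 2418) (nat_lit 4864) (nat_lit 0) (XT.nd (nat_lit 1170) (nat_lit 3800) (nat_lit 0) (XT.nd (nat_lit 546) (nat_lit 2432) (nat_lit 0) (XT.nd (nat_lit 234) (nat_lit 1216) (nat_lit 0) (XT.nd (nat_lit 78) (nat_lit 532) (nat_lit 0) (XT.lf (nat_lit 0) (nat_lit 601329390) (nat_lit 684) (nat_lit 6644128207) (nat_lit 76) (nat_lit 2590368971) (nat_lit 274) (nat_lit 5) (nat_lit 283) (nat_lit 5) (nat_lit 275) (nat_lit 5) (nat_lit 440) (nat_lit 414) (nat_lit 346)) (XT.nd (nat_lit 78) (nat_lit 532) (nat_lit 0) (XT.lf (nat_lit 0) (nat_lit 2572275853) (nat_lit 684) (nat_lit 819092476) (nat_lit 76) (nat_lit 6587212277) (nat_lit 274) (nat_lit 5) (nat_lit 283) (nat_lit 5) (nat_lit 275) (nat_lit 5) (nat_lit 441) (nat_lit 414) (nat_lit 345)) (XT.lf (nat_lit 0) (nat_lit 4625658146) (nat_lit 608) (nat_lit 4882290392) (nat_lit 76) (nat_lit 616972391) (nat_lit 267) (nat_lit 5) (nat_lit 275)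 (nat_lit 5) (nat_lit 268) (nat_lit 5) (nat_lit 442) (nat_lit 414) (nat_lit 344)))) (XT.nd (nat_lit 156) (nat_lit 608) (nat_lit 0) (XT.nd (nat_lit 78) (nat_lit 0) (nat_lit 0) (XT.lf (nat_lit 0) (nat_lit 1182111730) (nat_lit 608) (nat_lit 5579255491) (nat_lit 684) (nat_lit 3513665284) (nat_lit 259) (nat_lit 5) (nat_lit 267) (nat_lit 5) (nat_lit 268) (nat_lit 5) (nat_lit 443) (nat_lit 414) (nat_lit 343)) (XT.lf (nat_lit 0) (nat_lit 7493981887) (nat_lit 608) (nat_lit 1484514878) (nat_lit 684) (nat_lit 1450632908) (nat_lit 259) (nat_lit 5) (nat_lit 267) (nat_lit 5) (nat_lit 268) (nat_lit 5) (nat_lit 444) (nat_lit 414) (nat_lit 342))) (XT.nd (nat_lit 78) (nat_lit 0) (nat_lit 0) (XT.lf (nat_lit 0) (nat_lit 689443771) (nat_lit 608) (nat_lit 7180528531) (nat_lit 76) (nat_lit 2716836232) (nat_lit 251) (nat_lit 5) (nat_lit 259) (nat_lit 5) (nat_lit 252) (nat_lit 5) (nat_lit 445) (nat_lit 414) (nat_lit 341)) (XT.lf (nat_lit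 0) (nat_lit 2878423567) (nat_lit 608) (nat_lit 814290927) (nat_lit 76) (nat_lit 7055659165) (nat_lit 251) (nat_lit 5) (nat_lit 259) (nat_lit 5) (nat_lit 252) (nat_lit 5) (nat_lit 446) (nat_lit 414) (nat_lit 340))))) (XT.nd (nat_lit 312) (nat_lit 912) (nat_lit 0) (XT.nd (nat_lit 156) (nat_lit 532) (nat_lit 0) (XT.nd (nat_lit 78) (nat_lit 456) (nat_lit 0) (XT.lf (nat_lit 0) (nat_lit 5165547707) (nat_lit 608) (nat_lit 5097541343) (nat_lit 76) (nat_lit 650724855) (nat_lit 244) (nat_lit 5) (nat_lit 252) (nat_lit 5) (nat_lit 245) (nat_lit 5) (nat_lit 447) (nat_lit 414) (nat_lit 339)) (XT.lf (nat_lit 0) (nat_lit 1537608266) (nat_lit 456) (nat_lit 6013956298) (nat_lit 532) (nat_lit 3531746772) (nat_lit 238) (nat_lit 5) (nat_lit 244) (nat_lit 5) (nat_lit 245) (nat_lit 5) (nat_lit 448) (nat_lit 414) (nat_lit 338))) (XT.nd (nat_lit 78) (nat_lit 532) (nat_lit 0) (XT.lf (nat_lit 0) (nat_lit 8442415016) (nat_lit 456) (nat_lit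 1589384523) (nat_lit 532) (nat_lit 1225417301) (nat_lit 238) (nat_lit 5) (nat_lit 244) (nat_lit 5) (nat_lit 245) (nat_lit 5) (nat_lit 449) (nat_lit 414) (nat_lit 337)) (XT.lf (nat_lit 0) (nat_lit 1168303161) (nat_lit 532) (nat_lit 7310072756) (nat_lit 76) (nat_lit 2956414763) (nat_lit 231) (nat_lit 5) (nat_lit 238) (nat_lit 5) (nat_lit 232) (nat_lit 5) (nat_lit 450) (nat_lit 414) (nat_lit 336)))) (XT.nd (nat_lit 156) (nat_lit 456) (nat_lit 0) (XT.nd (nat_lit 78) (nat_lit 456) (nat_lit 0) (XT.lf (nat_lit 0) (nat_lit 3625823851) (nat_lit 532) (nat_lit 348791038) (nat_lit 76) (nat_lit 7642216397) (nat_lit 231) (nat_lit 5) (nat_lit 238) (nat_lit 5) (nat_lit 232) (nat_lit 5) (nat_lit 451) (nat_lit 414) (nat_lit 335)) (XT.lf (nat_lit 0) (nat_lit 6203597085) (nat_lit 532) (nat_lit 4886641862) (nat_lit 76) (nat_lit 712700381) (nat_lit 225) (nat_lit 5) (nat_lit 232) (nat_lit 5) (nat_lit 226) (nat_lit 5) (nat_lit 452) (nat_lit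 414) (nat_lit 334))) (XT.nd (nat_lit 78) (nat_lit 0) (nat_lit 0) (XT.lf (nat_lit 0) (nat_lit 2385777201) (nat_lit 456) (nat_lit 6512171160) (nat_lit 532) (nat_lit 3095506870) (nat_lit 219) (nat_lit 5) (nat_lit 225) (nat_lit 5) (nat_lit 226) (nat_lit 5) (nat_lit 453) (nat_lit 414) (nat_lit 333)) (XT.lf (nat_lit 0) (nat_lit 9943513243) (nat_lit 456) (nat_lit 1752821362) (nat_lit 532) (nat_lit 492657783) (nat_lit 219) (nat_lit 5) (nat_lit 225) (nat_lit 5) (nat_lit 226) (nat_lit 5) (nat_lit 454) (nat_lit 414) (nat_lit 332)))))) (XT.nd (nat_lit 624) (nat_lit 1748) (nat_lit 0) (XT.nd (nat_lit 312) (nat_lit 760) (nat_lit 0) (XT.nd (nat_lit 156) (nat_lit 380) (nat_lit 0) (XT.nd (nat_lit 78) (nat_lit 456) (nat_lit 0) (XT.lf (nat_lit 0) (nat_lit 2202674004) (nat_lit 456) (nat_lit 7030773651) (nat_lit 76) (nat_lit 3154605798) (nat_lit 213) (nat_lit 5) (nat_lit 219) (nat_lit 5) (nat_lit 214) (nat_lit 5) (nat_lit 455) (nat_lit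 414) (nat_lit 331)) (XT.lf (nat_lit 0) (nat_lit 598010577) (nat_lit 456) (nat_lit 4391691632) (nat_lit 532) (nat_lit 7602617402) (nat_lit 207) (nat_lit 5) (nat_lit 213) (nat_lit 5) (nat_lit 214) (nat_lit 5) (nat_lit 456) (nat_lit 414) (nat_lit 330))) (XT.nd (nat_lit 78) (nat_lit 380) (nat_lit 0) (XT.lf (nat_lit 0) (nat_lit 7912847064) (nat_lit 532) (nat_lit 4240523496) (nat_lit 76) (nat_lit 647769716) (nat_lit 207) (nat_lit 5) (nat_lit 214) (nat_lit 5) (nat_lit 208) (nat_lit 5) (nat_lit 457) (nat_lit 414) (nat_lit 329)) (XT.lf (nat_lit 0) (nat_lit 3743108380) (nat_lit 380) (nat_lit 7235850038) (nat_lit 456) (nat_lit 2035610624) (nat_lit 202) (nat_lit 5) (nat_lit 207) (nat_lit 5) (nat_lit 208) (nat_lit 5) (nat_lit 458) (nat_lit 414) (nat_lit 328)))) (XT.nd (nat_lit 156) (nat_lit 304) (nat_lit 0) (XT.nd (nat_lit 78) (nat_lit 380) (nat_lit 0) (XT.lf (nat_lit 0) (nat_lit 904252136) (nat_lit 456) (nat_lit 1221530624)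 (nat_lit 76) (nat_lit 11107782746) (nat_lit 201) (nat_lit 5) (nat_lit 207) (nat_lit 5) (nat_lit 202) (nat_lit 5) (nat_lit 459) (nat_lit 414) (nat_lit 327)) (XT.lf (nat_lit 0) (nat_lit 3967833853) (nat_lit 456) (nat_lit 6330251326) (nat_lit 76) (nat_lit 3158150451) (nat_lit 196) (nat_lit 5) (nat_lit 202) (nat_lit 5) (nat_lit 197) (nat_lit 5) (nat_lit 460) (nat_lit 414) (nat_lit 326))) (XT.nd (nat_lit 78) (nat_lit 0) (nat_lit 0) (XT.lf (nat_lit 0) (nat_lit 2050752727) (nat_lit 304) (nat_lit 5102756324) (nat_lit 380) (nat_lit 6531172687) (nat_lit 192) (nat_lit 5) (nat_lit 196) (nat_lit 5) (nat_lit 197) (nat_lit 5) (nat_lit 461) (nat_lit 414) (nat_lit 325)) (XT.lf (nat_lit 0) (nat_lit 10478949482) (nat_lit 380) (nat_lit 3140261980) (nat_lit 76) (nat_lit 299445339) (nat_lit 192) (nat_lit 5) (nat_lit 197) (nat_lit 5) (nat_lit 193) (nat_lit 5) (nat_lit 462) (nat_lit 414) (nat_lit 324))))) (XT.nd (nat_lit 312) (nat_lit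 684) (nat_lit 0) (XT.nd (nat_lit 156) (nat_lit 304) (nat_lit 0) (XT.nd (nat_lit 78) (nat_lit 380) (nat_lit 0) (XT.lf (nat_lit 0) (nat_lit 5636488383) (nat_lit 380) (nat_lit 8350281914) (nat_lit 456) (nat_lit 170403682) (nat_lit 187) (nat_lit 5) (nat_lit 192) (nat_lit 5) (nat_lit 193) (nat_lit 5) (nat_lit 463) (nat_lit 414) (nat_lit 323)) (XT.lf (nat_lit 0) (nat_lit 282153740) (nat_lit 304) (nat_lit 2865220728) (nat_lit 380) (nat_lit 11254168164) (nat_lit 182) (nat_lit 5) (nat_lit 186) (nat_lit 5) (nat_lit 187) (nat_lit 5) (nat_lit 464) (nat_lit 414) (nat_lit 322))) (XT.nd (nat_lit 78) (nat_lit 304) (nat_lit 0) (XT.lf (nat_lit 0) (nat_lit 6653214684) (nat_lit 380) (nat_lit 5187798704) (nat_lit 76) (nat_lit 2809420994) (nat_lit 182) (nat_lit 5) (nat_lit 187) (nat_lit 5) (nat_lit 183) (nat_lit 5) (nat_lit 465) (nat_lit 414) (nat_lit 321)) (XT.lf (nat_lit 0) (nat_lit 4031379902) (nat_lit 304) (nat_lit 6278897284) (nat_lit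 380) (nat_lit 4595135512) (nat_lit 178) (nat_lit 5) (nat_lit 182) (nat_lit 5) (nat_lit 183) (nat_lit 5) (nat_lit 466) (nat_lit 414) (nat_lit 320)))) (XT.nd (nat_lit 156) (nat_lit 304) (nat_lit 0) (XT.nd (nat_lit 78) (nat_lit 380) (nat_lit 0) (XT.lf (nat_lit 0) (nat_lit 13603121710) (nat_lit 304) (nat_lit 505564899) (nat_lit 380) (nat_lit 1058405891) (nat_lit 178) (nat_lit 5) (nat_lit 182) (nat_lit 5) (nat_lit 183) (nat_lit 5) (nat_lit 467) (nat_lit 414) (nat_lit 319)) (XT.lf (nat_lit 0) (nat_lit 2645020217) (nat_lit 380) (nat_lit 7358071466) (nat_lit 76) (nat_lit 5429456059) (nat_lit 173) (nat_lit 5) (nat_lit 178) (nat_lit 5) (nat_lit 174) (nat_lit 5) (nat_lit 468) (nat_lit 414) (nat_lit 318))) (XT.nd (nat_lit 78) (nat_lit 0) (nat_lit 0) (XT.lf (nat_lit 0) (nat_lit 2328340434) (nat_lit 304) (nat_lit 4133140941) (nat_lit 380) (nat_lit 9243475823) (nat_lit 169) (nat_lit 5) (nat_lit 173) (nat_lit 5) (nat_lit 174)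 (nat_lit 5) (nat_lit 469) (nat_lit 414) (nat_lit 317)) (XT.lf (nat_lit 0) (nat_lit 10465934958) (nat_lit 380) (nat_lit 3576557157) (nat_lit 76) (nat_lit 1940842921) (nat_lit 169) (nat_lit 5) (nat_lit 174) (nat_lit 5) (nat_lit 170) (nat_lit 5) (nat_lit 470) (nat_lit 414) (nat_lit 316))))))) (XT.nd (nat_lit 1170) (nat_lit 2052) (nat_lit 0) (XT.nd (nat_lit 546) (nat_lit 1292) (nat_lit 0) (XT.nd (nat_lit 234) (nat_lit 836) (nat_lit 0) (XT.nd (nat_lit 78) (nat_lit 380) (nat_lit 0) (XT.lf (nat_lit 0) (nat_lit 6575474288) (nat_lit 304) (nat_lit 8099830718) (nat_lit 380) (nat_lit 1592216743) (nat_lit 165) (nat_lit 5) (nat_lit 169) (nat_lit 5) (nat_lit 170) (nat_lit 5) (nat_lit 471) (nat_lit 414) (nat_lit 315)) (XT.nd (nat_lit 78) (nat_lit 0) (nat_lit 0) (XT.lf (nat_lit 0) (nat_lit 502609644) (nat_lit 304) (nat_lit 1922342170) (nat_lit 380) (nat_lit 14133914917) (nat_lit 160) (nat_lit 5) (nat_lit 164) (nat_lit 5) (nat_lit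 165) (nat_lit 5) (nat_lit 472) (nat_lit 414) (nat_lit 314)) (XT.lf (nat_lit 0) (nat_lit 6653085902) (nat_lit 380) (nat_lit 5743346965) (nat_lit 76) (nat_lit 4458373627) (nat_lit 160) (nat_lit 5) (nat_lit 165) (nat_lit 5) (nat_lit 161) (nat_lit 5) (nat_lit 473) (nat_lit 414) (nat_lit 313)))) (XT.nd (nat_lit 156) (nat_lit 608) (nat_lit 0) (XT.nd (nat_lit 78) (nat_lit 0) (nat_lit 0) (XT.lf (nat_lit 0) (nat_lit 4927233507) (nat_lit 228) (nat_lit 6128710900) (nat_lit 304) (nat_lit 6102244541) (nat_lit 157) (nat_lit 5) (nat_lit 160) (nat_lit 5) (nat_lit 161) (nat_lit 5) (nat_lit 474) (nat_lit 414) (nat_lit 312)) (XT.lf (nat_lit 0) (nat_lit 15634252778) (nat_lit 304) (nat_lit 1465985268) (nat_lit 76) (nat_lit 369134790) (nat_lit 157) (nat_lit 5) (nat_lit 161) (nat_lit 5) (nat_lit 158) (nat_lit 5) (nat_lit 475) (nat_lit 414) (nat_lit 311))) (XT.nd (nat_lit 78) (nat_lit 228) (nat_lit 0) (XT.lf (nat_lit 0) (nat_lit 2647738056)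 (nat_lit 380) (nat_lit 8088934541) (nat_lit 76) (nat_lit 7048351973) (nat_lit 152) (nat_lit 5) (nat_lit 157) (nat_lit 5) (nat_lit 153) (nat_lit 5) (nat_lit 476) (nat_lit 414) (nat_lit 310)) (XT.lf (nat_lit 0) (nat_lit 3127865006) (nat_lit 228) (nat_lit 4127610199) (nat_lit 304) (nat_lit 10853308053) (nat_lit 149) (nat_lit 5) (nat_lit 152) (nat_lit 5) (nat_lit 153) (nat_lit 5) (nat_lit 477) (nat_lit 414) (nat_lit 309))))) (XT.nd (nat_lit 312) (nat_lit 760) (nat_lit 0) (XT.nd (nat_lit 156) (nat_lit 304) (nat_lit 0) (XT.nd (nat_lit 78) (nat_lit 228) (nat_lit 0) (XT.lf (nat_lit 0) (nat_lit 12092102406) (nat_lit 304) (nat_lit 3647768457) (nat_lit 76) (nat_lit 2699664892) (nat_lit 149) (nat_lit 5) (nat_lit 153) (nat_lit 5) (nat_lit 150) (nat_lit 5) (nat_lit 478) (nat_lit 414) (nat_lit 308)) (XT.lf (nat_lit 0) (nat_lit 8115313910) (nat_lit 228) (nat_lit 9060311375) (nat_lit 304) (nat_lit 1601532400) (nat_lit 146) (nat_lit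 5) (nat_lit 149) (nat_lit 5) (nat_lit 150) (nat_lit 5) (nat_lit 479) (nat_lit 414) (nat_lit 307))) (XT.nd (nat_lit 78) (nat_lit 0) (nat_lit 0) (XT.lf (nat_lit 0) (nat_lit 1145023159) (nat_lit 228) (nat_lit 2108780627) (nat_lit 304) (nat_lit 15869221547) (nat_lit 142) (nat_lit 5) (nat_lit 145) (nat_lit 5) (nat_lit 146) (nat_lit 5) (nat_lit 480) (nat_lit 414) (nat_lit 306)) (XT.lf (nat_lit 0) (nat_lit 8363015415) (nat_lit 304) (nat_lit 6044618846) (nat_lit 76) (nat_lit 5066947608) (nat_lit 142) (nat_lit 5) (nat_lit 146) (nat_lit 5) (nat_lit 143) (nat_lit 5) (nat_lit 481) (nat_lit 414) (nat_lit 305)))) (XT.nd (nat_lit 156) (nat_lit 532) (nat_lit 0) (XT.nd (nat_lit 78) (nat_lit 0) (nat_lit 0) (XT.lf (nat_lit 0) (nat_lit 6322312112) (nat_lit 228) (nat_lit 7368454644) (nat_lit 304) (nat_lit 6143961121) (nat_lit 139) (nat_lit 5) (nat_lit 142) (nat_lit 5) (nat_lit 143) (nat_lit 5) (nat_lit 482) (nat_lit 414) (nat_lit 304))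 (XT.lf (nat_lit 0) (nat_lit 19157478000) (nat_lit 228) (nat_lit 65742737) (nat_lit 304) (nat_lit 981112085) (nat_lit 139) (nat_lit 5) (nat_lit 142) (nat_lit 5) (nat_lit 143) (nat_lit 5) (nat_lit 483) (nat_lit 414) (nat_lit 303))) (XT.nd (nat_lit 78) (nat_lit 228) (nat_lit 0) (XT.lf (nat_lit 0) (nat_lit 4424217474) (nat_lit 304) (nat_lit 8695814660) (nat_lit 76) (nat_lit 7458577268) (nat_lit 135) (nat_lit 5) (nat_lit 139) (nat_lit 5) (nat_lit 136) (nat_lit 5) (nat_lit 484) (nat_lit 414) (nat_lit 302)) (XT.lf (nat_lit 0) (nat_lit 4305202259) (nat_lit 228) (nat_lit 5703755427) (nat_lit 304) (nat_lit 10953756672) (nat_lit 132) (nat_lit 5) (nat_lit 135) (nat_lit 5) (nat_lit 136) (nat_lit 5) (nat_lit 485) (nat_lit 414) (nat_lit 301)))))) (XT.nd (nat_lit 624) (nat_lit 988) (nat_lit 0) (XT.nd (nat_lit 312) (nat_lit 608) (nat_lit 0) (XT.nd (nat_lit 156) (nat_lit 228) (nat_lit 0) (XT.nd (nat_lit 78) (nat_lit 228) (nat_lit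 0) (XT.lf (nat_lit 0) (nat_lit 15852886302) (nat_lit 304) (nat_lit 3527114067) (nat_lit 76) (nat_lit 1975593294) (nat_lit 132) (nat_lit 5) (nat_lit 136) (nat_lit 5) (nat_lit 133) (nat_lit 5) (nat_lit 486) (nat_lit 414) (nat_lit 300)) (XT.lf (nat_lit 0) (nat_lit 249561303) (nat_lit 228) (nat_lit 11646170774) (nat_lit 76) (nat_lit 9860299430) (nat_lit 129) (nat_lit 5) (nat_lit 132) (nat_lit 5) (nat_lit 130) (nat_lit 5) (nat_lit 487) (nat_lit 414) (nat_lit 299))) (XT.nd (nat_lit 78) (nat_lit 0) (nat_lit 0) (XT.lf (nat_lit 0) (nat_lit 2019688466) (nat_lit 228) (nat_lit 4084364522) (nat_lit 304) (nat_lit 16061587950) (nat_lit 126) (nat_lit 5) (nat_lit 129) (nat_lit 5) (nat_lit 130) (nat_lit 5) (nat_lit 488) (nat_lit 414) (nat_lit 298)) (XT.lf (nat_lit 0) (nat_lit 12275990628) (nat_lit 304) (nat_lit 6314811561) (nat_lit 76) (nat_lit 3992482645) (nat_lit 126) (nat_lit 5) (nat_lit 130) (nat_lit 5) (nat_lit 127) (nat_lit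 5) (nat_lit 489) (nat_lit 414) (nat_lit 297)))) (XT.nd (nat_lit 156) (nat_lit 380) (nat_lit 0) (XT.nd (nat_lit 78) (nat_lit 76) (nat_lit 0) (XT.lf (nat_lit 0) (nat_lit 8022303974) (nat_lit 152) (nat_lit 10713739360) (nat_lit 228) (nat_lit 4274326512) (nat_lit 124) (nat_lit 5) (nat_lit 126) (nat_lit 5) (nat_lit 127) (nat_lit 5) (nat_lit 490) (nat_lit 414) (nat_lit 296)) (XT.lf (nat_lit 0) (nat_lit 1951625443) (nat_lit 228) (nat_lit 573759038) (nat_lit 76) (nat_lit 20922828721) (nat_lit 123) (nat_lit 5) (nat_lit 126) (nat_lit 5) (nat_lit 124) (nat_lit 5) (nat_lit 491) (nat_lit 414) (nat_lit 295))) (XT.nd (nat_lit 78) (nat_lit 152) (nat_lit 0) (XT.lf (nat_lit 0) (nat_lit 8462089982) (nat_lit 304) (nat_lit 9463652803) (nat_lit 76) (nat_lit 5966670622) (nat_lit 120) (nat_lit 5) (nat_lit 124) (nat_lit 5) (nat_lit 121) (nat_lit 5) (nat_lit 492) (nat_lit 414) (nat_lit 294)) (XT.lf (nat_lit 0) (nat_lit 5603168846) (nat_lit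 152) (nat_lit 9635367042) (nat_lit 228) (nat_lit 9109284155) (nat_lit 118) (nat_lit 5) (nat_lit 120) (nat_lit 5) (nat_lit 121) (nat_lit 5) (nat_lit 493) (nat_lit 414) (nat_lit 293))))) (XT.nd (nat_lit 312) (nat_lit 532) (nat_lit 0) (XT.nd (nat_lit 156) (nat_lit 152) (nat_lit 0) (XT.nd (nat_lit 78) (nat_lit 304) (nat_lit 0) (XT.lf (nat_lit 0) (nat_lit 21291771029) (nat_lit 152) (nat_lit 1008196182) (nat_lit 228) (nat_lit 2514471342) (nat_lit 118) (nat_lit 5) (nat_lit 120) (nat_lit 5) (nat_lit 121) (nat_lit 5) (nat_lit 494) (nat_lit 414) (nat_lit 292)) (XT.lf (nat_lit 0) (nat_lit 4376849966) (nat_lit 304) (nat_lit 13036181612) (nat_lit 76) (nat_lit 7875326306) (nat_lit 114) (nat_lit 5) (nat_lit 118) (nat_lit 5) (nat_lit 115) (nat_lit 5) (nat_lit 495) (nat_lit 414) (nat_lit 291))) (XT.nd (nat_lit 78) (nat_lit 0) (nat_lit 0) (XT.lf (nat_lit 0) (nat_lit 2792451364) (nat_lit 152) (nat_lit 8691140773) (nat_lit 228) (nat_lit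 14290379596) (nat_lit 112) (nat_lit 5) (nat_lit 114) (nat_lit 5) (nat_lit 115) (nat_lit 5) (nat_lit 496) (nat_lit 414) (nat_lit 290)) (XT.lf (nat_lit 0) (nat_lit 18925829416) (nat_lit 228) (nat_lit 6935073704) (nat_lit 76) (nat_lit 409582477) (nat_lit 112) (nat_lit 5) (nat_lit 115) (nat_lit 5) (nat_lit 113) (nat_lit 5) (nat_lit 497) (nat_lit 414) (nat_lit 289)))) (XT.nd (nat_lit 156) (nat_lit 304) (nat_lit 0) (XT.nd (nat_lit 78) (nat_lit 76) (nat_lit 0) (XT.lf (nat_lit 0) (nat_lit 9672225298) (nat_lit 152) (nat_lit 17085065645) (nat_lit 228) (nat_lit 19625598) (nat_lit 110) (nat_lit 5) (nat_lit 112) (nat_lit 5) (nat_lit 113) (nat_lit 5) (nat_lit 498) (nat_lit 414) (nat_lit 288)) (XT.lf (nat_lit 0) (nat_lit 7435999276) (nat_lit 228) (nat_lit 472825986) (nat_lit 76) (nat_lit 19385814824) (nat_lit 109) (nat_lit 5) (nat_lit 112) (nat_lit 5) (nat_lit 110) (nat_lit 5) (nat_lit 499) (nat_lit 414) (nat_lit 287))) (XT.nd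 (nat_lit 78) (nat_lit 152) (nat_lit 0) (XT.lf (nat_lit 0) (nat_lit 15281681447) (nat_lit 228) (nat_lit 10873437862) (nat_lit 76) (nat_lit 1667767053) (nat_lit 107) (nat_lit 5) (nat_lit 110) (nat_lit 5) (nat_lit 108) (nat_lit 5) (nat_lit 500) (nat_lit 414) (nat_lit 286)) (XT.lf (nat_lit 0) (nat_lit 6564344498) (nat_lit 152) (nat_lit 16932018099) (nat_lit 228) (nat_lit 4866608907) (nat_lit 105) (nat_lit 5) (nat_lit 107) (nat_lit 5) (nat_lit 108) (nat_lit 5) (nat_lit 501) (nat_lit 414) (nat_lit 285))))))))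
noncomputable def xc130 : XT := (XT.nd (nat_lit 2418) (nat_lit 1216) (nat_lit 0) (XT.nd (nat_lit 1170) (nat_lit 1444) (nat_lit 0) (XT.nd (nat_lit 546) (nat_lit 836) (nat_lit 0) (XT.nd (nat_lit 234) (nat_lit 380) (nat_lit 0) (XT.nd (nat_lit 78) (nat_lit 304) (nat_lit 0) (XT.lf (nat_lit 0) (nat_lit 3077254604) (nat_lit 228) (nat_lit 4220774893) (nat_lit 76) (nat_lit 21617404370) (nat_lit 104) (nat_lit 5) (nat_lit 107) (nat_lit 5) (nat_lit 105) (nat_lit 5) (nat_lit 502) (nat_lit 414) (nat_lit 284)) (XT.nd (nat_lit 78) (nat_lit 152) (nat_lit 0) (XT.lf (nat_lit 0) (nat_lit 11311805074) (nat_lit 228) (nat_lit 15417138202) (nat_lit 76) (nat_lit 2749576050) (nat_lit 102) (nat_lit 5) (nat_lit 105) (nat_lit 5) (nat_lit 103) (nat_lit 5) (nat_lit 503) (nat_lit 414) (nat_lit 283)) (XT.lf (nat_lit 0) (nat_lit 2882814505) (nat_lit 152) (nat_lit 17041437512) (nat_lit 228) (nat_lit 10130319829) (nat_lit 100) (nat_lit 5) (nat_lit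 102) (nat_lit 5) (nat_lit 103) (nat_lit 5) (nat_lit 504) (nat_lit 414) (nat_lit 282)))) (XT.nd (nat_lit 156) (nat_lit 152) (nat_lit 0) (XT.nd (nat_lit 78) (nat_lit 228) (nat_lit 0) (XT.lf (nat_lit 0) (nat_lit 22025953590) (nat_lit 152) (nat_lit 6912792905) (nat_lit 228) (nat_lit 1704849510) (nat_lit 100) (nat_lit 5) (nat_lit 102) (nat_lit 5) (nat_lit 103) (nat_lit 5) (nat_lit 505) (nat_lit 414) (nat_lit 281)) (XT.lf (nat_lit 0) (nat_lit 6962954719) (nat_lit 228) (nat_lit 20669298420) (nat_lit 76) (nat_lit 3612257681) (nat_lit 97) (nat_lit 5) (nat_lit 100) (nat_lit 5) (nat_lit 98) (nat_lit 5) (nat_lit 506) (nat_lit 414) (nat_lit 280))) (XT.nd (nat_lit 78) (nat_lit 152) (nat_lit 0) (XT.lf (nat_lit 0) (nat_lit 16001125519) (nat_lit 228) (nat_lit 1448014608) (nat_lit 76) (nat_lit 14409468876) (nat_lit 97) (nat_lit 5) (nat_lit 100) (nat_lit 5) (nat_lit 98) (nat_lit 5) (nat_lit 507) (nat_lit 414) (nat_lit 279)) (XT.lf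 (nat_lit 0) (nat_lit 18693824120) (nat_lit 152) (nat_lit 6784927241) (nat_lit 228) (nat_lit 7007329729) (nat_lit 95) (nat_lit 5) (nat_lit 97) (nat_lit 5) (nat_lit 98) (nat_lit 5) (nat_lit 508) (nat_lit 414) (nat_lit 278))))) (XT.nd (nat_lit 312) (nat_lit 380) (nat_lit 0) (XT.nd (nat_lit 156) (nat_lit 228) (nat_lit 0) (XT.nd (nat_lit 78) (nat_lit 0) (nat_lit 0) (XT.lf (nat_lit 0) (nat_lit 2173550162) (nat_lit 228) (nat_lit 26749376000) (nat_lit 76) (nat_lit 4205652543) (nat_lit 92) (nat_lit 5) (nat_lit 95) (nat_lit 5) (nat_lit 93) (nat_lit 5) (nat_lit 509) (nat_lit 414) (nat_lit 277)) (XT.lf (nat_lit 0) (nat_lit 11685523410) (nat_lit 228) (nat_lit 6506505907) (nat_lit 76) (nat_lit 15590345560) (nat_lit 92) (nat_lit 5) (nat_lit 95) (nat_lit 5) (nat_lit 93) (nat_lit 5) (nat_lit 510) (nat_lit 414) (nat_lit 276))) (XT.nd (nat_lit 78) (nat_lit 76) (nat_lit 0) (XT.lf (nat_lit 0) (nat_lit 14608391396) (nat_lit 152) (nat_lit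 7003895219) (nat_lit 228) (nat_lit 12839615624) (nat_lit 90) (nat_lit 5) (nat_lit 92) (nat_lit 5) (nat_lit 93) (nat_lit 5) (nat_lit 511) (nat_lit 414) (nat_lit 275)) (XT.lf (nat_lit 0) (nat_lit 1311706724) (nat_lit 76) (nat_lit 30636600068) (nat_lit 152) (nat_lit 3189865229) (nat_lit 89) (nat_lit 5) (nat_lit 90) (nat_lit 5) (nat_lit 91) (nat_lit 4) (nat_lit 512) (nat_lit 414) (nat_lit 274)))) (XT.nd (nat_lit 156) (nat_lit 152) (nat_lit 0) (XT.nd (nat_lit 78) (nat_lit 152) (nat_lit 0) (XT.lf (nat_lit 0) (nat_lit 6878444693) (nat_lit 152) (nat_lit 12487251326) (nat_lit 76) (nat_lit 16469564559) (nat_lit 88) (nat_lit 5) (nat_lit 90) (nat_lit 5) (nat_lit 89) (nat_lit 5) (nat_lit 513) (nat_lit 414) (nat_lit 273)) (XT.lf (nat_lit 0) (nat_lit 9628662065) (nat_lit 152) (nat_lit 7637965569) (nat_lit 228) (nat_lit 19283228771) (nat_lit 86) (nat_lit 5) (nat_lit 88) (nat_lit 5) (nat_lit 89) (nat_lit 5) (nat_lit 514) (nat_lit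 414) (nat_lit 272))) (XT.nd (nat_lit 78) (nat_lit 152) (nat_lit 0) (XT.lf (nat_lit 0) (nat_lit 28125910518) (nat_lit 228) (nat_lit 4681839619) (nat_lit 76) (nat_lit 4473356530) (nat_lit 86) (nat_lit 5) (nat_lit 89) (nat_lit 5) (nat_lit 87) (nat_lit 4) (nat_lit 515) (nat_lit 414) (nat_lit 271)) (XT.lf (nat_lit 0) (nat_lit 1497260585) (nat_lit 152) (nat_lit 19551030101) (nat_lit 76) (nat_lit 16978270901) (nat_lit 84) (nat_lit 5) (nat_lit 86) (nat_lit 5) (nat_lit 85) (nat_lit 5) (nat_lit 516) (nat_lit 414) (nat_lit 270)))))) (XT.nd (nat_lit 624) (nat_lit 684) (nat_lit 0) (XT.nd (nat_lit 312) (nat_lit 456) (nat_lit 0) (XT.nd (nat_lit 156) (nat_lit 152) (nat_lit 0) (XT.nd (nat_lit 78) (nat_lit 0) (nat_lit 0) (XT.lf (nat_lit 0) (nat_lit 3590325167) (nat_lit 152) (nat_lit 8766951000) (nat_lit 228) (nat_lit 26432224933) (nat_lit 82) (nat_lit 5) (nat_lit 84) (nat_lit 5) (nat_lit 85) (nat_lit 5) (nat_lit 517) (nat_lit 414)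 (nat_lit 269)) (XT.lf (nat_lit 0) (nat_lit 23769565628) (nat_lit 228) (nat_lit 11801273255) (nat_lit 76) (nat_lit 3997695889) (nat_lit 82) (nat_lit 5) (nat_lit 85) (nat_lit 5) (nat_lit 83) (nat_lit 4) (nat_lit 518) (nat_lit 414) (nat_lit 268))) (XT.nd (nat_lit 78) (nat_lit 76) (nat_lit 0) (XT.lf (nat_lit 0) (nat_lit 12435705700) (nat_lit 76) (nat_lit 23284924702) (nat_lit 152) (nat_lit 4644417022) (nat_lit 81) (nat_lit 5) (nat_lit 82) (nat_lit 5) (nat_lit 83) (nat_lit 4) (nat_lit 519) (nat_lit 414) (nat_lit 267)) (XT.lf (nat_lit 0) (nat_lit 6821634360) (nat_lit 152) (nat_lit 3625886584) (nat_lit 76) (nat_lit 30732647921) (nat_lit 80) (nat_lit 5) (nat_lit 82) (nat_lit 5) (nat_lit 81) (nat_lit 5) (nat_lit 520) (nat_lit 414) (nat_lit 266)))) (XT.nd (nat_lit 156) (nat_lit 228) (nat_lit 0) (XT.nd (nat_lit 78) (nat_lit 76) (nat_lit 0) (XT.lf (nat_lit 0) (nat_lit 18767047155) (nat_lit 228) (nat_lit 20274243626) (nat_lit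 76) (nat_lit 2970211952) (nat_lit 78) (nat_lit 5) (nat_lit 81) (nat_lit 5) (nat_lit 79) (nat_lit 4) (nat_lit 521) (nat_lit 414) (nat_lit 265)) (XT.lf (nat_lit 0) (nat_lit 5045379442) (nat_lit 76) (nat_lit 26204753769) (nat_lit 152) (nat_lit 11612264229) (nat_lit 77) (nat_lit 5) (nat_lit 78) (nat_lit 5) (nat_lit 79) (nat_lit 4) (nat_lit 522) (nat_lit 414) (nat_lit 264))) (XT.nd (nat_lit 78) (nat_lit 152) (nat_lit 0) (XT.lf (nat_lit 0) (nat_lit 558857685) (nat_lit 152) (nat_lit 12216288147) (nat_lit 76) (nat_lit 30957652020) (nat_lit 76) (nat_lit 5) (nat_lit 78) (nat_lit 5) (nat_lit 77) (nat_lit 5) (nat_lit 523) (nat_lit 414) (nat_lit 263)) (XT.lf (nat_lit 0) (nat_lit 13002435233) (nat_lit 228) (nat_lit 30335788022) (nat_lit 76) (nat_lit 1283416462) (nat_lit 74) (nat_lit 5) (nat_lit 77) (nat_lit 5) (nat_lit 75) (nat_lit 4) (nat_lit 524) (nat_lit 414) (nat_lit 262))))) (XT.nd (nat_lit 312) (nat_lit 380) (nat_lit 0)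 (XT.nd (nat_lit 156) (nat_lit 228) (nat_lit 0) (XT.nd (nat_lit 78) (nat_lit 76) (nat_lit 0) (XT.lf (nat_lit 0) (nat_lit 26061097084) (nat_lit 228) (nat_lit 3845399678) (nat_lit 76) (nat_lit 15623396901) (nat_lit 74) (nat_lit 5) (nat_lit 77) (nat_lit 5) (nat_lit 75) (nat_lit 4) (nat_lit 525) (nat_lit 414) (nat_lit 261)) (XT.lf (nat_lit 0) (nat_lit 23888646732) (nat_lit 76) (nat_lit 15843483407) (nat_lit 152) (nat_lit 6726646876) (nat_lit 73) (nat_lit 5) (nat_lit 74) (nat_lit 5) (nat_lit 75) (nat_lit 4) (nat_lit 526) (nat_lit 414) (nat_lit 260))) (XT.nd (nat_lit 78) (nat_lit 0) (nat_lit 0) (XT.lf (nat_lit 0) (nat_lit 5140385360) (nat_lit 152) (nat_lit 1212156029) (nat_lit 228) (nat_lit 41058752097) (nat_lit 70) (nat_lit 5) (nat_lit 72) (nat_lit 5) (nat_lit 73) (nat_lit 5) (nat_lit 527) (nat_lit 414) (nat_lit 259)) (XT.lf (nat_lit 0) (nat_lit 20043299540) (nat_lit 228) (nat_lit 14459974020) (nat_lit 76) (nat_lit 13876482200)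 (nat_lit 70) (nat_lit 5) (nat_lit 73) (nat_lit 5) (nat_lit 71) (nat_lit 4) (nat_lit 528) (nat_lit 414) (nat_lit 258)))) (XT.nd (nat_lit 156) (nat_lit 304) (nat_lit 0) (XT.nd (nat_lit 78) (nat_lit 0) (nat_lit 0) (XT.lf (nat_lit 0) (nat_lit 14438293434) (nat_lit 76) (nat_lit 19848550002) (nat_lit 152) (nat_lit 15086166692) (nat_lit 69) (nat_lit 5) (nat_lit 70) (nat_lit 5) (nat_lit 71) (nat_lit 4) (nat_lit 529) (nat_lit 414) (nat_lit 257)) (XT.lf (nat_lit 0) (nat_lit 44483352044) (nat_lit 76) (nat_lit 4611725656) (nat_lit 152) (nat_lit 1296863017) (nat_lit 69) (nat_lit 5) (nat_lit 70) (nat_lit 5) (nat_lit 71) (nat_lit 4) (nat_lit 530) (nat_lit 414) (nat_lit 256))) (XT.nd (nat_lit 78) (nat_lit 76) (nat_lit 0) (XT.lf (nat_lit 0) (nat_lit 12989611100) (nat_lit 228) (nat_lit 27218328891) (nat_lit 76) (nat_lit 11219717406) (nat_lit 66) (nat_lit 5) (nat_lit 69) (nat_lit 5) (nat_lit 67) (nat_lit 4) (nat_lit 531) (nat_lit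 414) (nat_lit 255)) (XT.lf (nat_lit 0) (nat_lit 2839285221) (nat_lit 76) (nat_lit 24964090625) (nat_lit 152) (nat_lit 24686941764) (nat_lit 65) (nat_lit 5) (nat_lit 66) (nat_lit 5) (nat_lit 67) (nat_lit 4) (nat_lit 532) (nat_lit 414) (nat_lit 254))))))) (XT.nd (nat_lit 1170) (nat_lit 304) (nat_lit 0) (XT.nd (nat_lit 546) (nat_lit 456) (nat_lit 0) (XT.nd (nat_lit 234) (nat_lit 304) (nat_lit 0) (XT.nd (nat_lit 78) (nat_lit 152) (nat_lit 0) (XT.lf (nat_lit 0) (nat_lit 34340460689) (nat_lit 76) (nat_lit 8987588291) (nat_lit 152) (nat_lit 10248813886) (nat_lit 65) (nat_lit 5) (nat_lit 66) (nat_lit 5) (nat_lit 67) (nat_lit 4) (nat_lit 533) (nat_lit 414) (nat_lit 253)) (XT.nd (nat_lit 78) (nat_lit 0) (nat_lit 0) (XT.lf (nat_lit 0) (nat_lit 4715332504) (nat_lit 152) (nat_lit 42494850318) (nat_lit 76) (nat_lit 7478996470) (nat_lit 63) (nat_lit 5) (nat_lit 65) (nat_lit 5) (nat_lit 64) (nat_lit 4) (nat_lit 534) (nat_lit 414)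 (nat_lit 252)) (XT.lf (nat_lit 0) (nat_lit 20199393752) (nat_lit 152) (nat_lit 11074936516) (nat_lit 76) (nat_lit 24549181389) (nat_lit 63) (nat_lit 5) (nat_lit 65) (nat_lit 5) (nat_lit 64) (nat_lit 4) (nat_lit 535) (nat_lit 414) (nat_lit 251)))) (XT.nd (nat_lit 156) (nat_lit 228) (nat_lit 0) (XT.nd (nat_lit 78) (nat_lit 0) (nat_lit 0) (XT.lf (nat_lit 0) (nat_lit 21695568772) (nat_lit 76) (nat_lit 14653019574) (nat_lit 152) (nat_lit 20637267388) (nat_lit 62) (nat_lit 5) (nat_lit 63) (nat_lit 5) (nat_lit 64) (nat_lit 4) (nat_lit 536) (nat_lit 414) (nat_lit 250)) (XT.lf (nat_lit 0) (nat_lit 53110989535) (nat_lit 152) (nat_lit 2543700407) (nat_lit 0) (nat_lit 2524518354) (nat_lit 62) (nat_lit 5) (nat_lit 64) (nat_lit 4) (nat_lit 62) (nat_lit 4) (nat_lit 537) (nat_lit 414) (nat_lit 249))) (XT.nd (nat_lit 78) (nat_lit 76) (nat_lit 0) (XT.lf (nat_lit 0) (nat_lit 11199804080) (nat_lit 152) (nat_lit 27862179809) (nat_lit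 76) (nat_lit 20329836941) (nat_lit 60) (nat_lit 5) (nat_lit 62) (nat_lit 5) (nat_lit 61) (nat_lit 4) (nat_lit 538) (nat_lit 414) (nat_lit 248)) (XT.lf (nat_lit 0) (nat_lit 6090765236) (nat_lit 76) (nat_lit 21840037125) (nat_lit 152) (nat_lit 32706200018) (nat_lit 59) (nat_lit 5) (nat_lit 60) (nat_lit 5) (nat_lit 61) (nat_lit 4) (nat_lit 539) (nat_lit 414) (nat_lit 247))))) (XT.nd (nat_lit 312) (nat_lit 228) (nat_lit 0) (XT.nd (nat_lit 156) (nat_lit 76) (nat_lit 0) (XT.nd (nat_lit 78) (nat_lit 152) (nat_lit 0) (XT.lf (nat_lit 0) (nat_lit 41618654719) (nat_lit 76) (nat_lit 3818823062) (nat_lit 152) (nat_lit 16473849254) (nat_lit 59) (nat_lit 5) (nat_lit 60) (nat_lit 5) (nat_lit 61) (nat_lit 4) (nat_lit 540) (nat_lit 414) (nat_lit 246)) (XT.lf (nat_lit 0) (nat_lit 523132693) (nat_lit 152) (nat_lit 48093163218) (nat_lit 76) (nat_lit 14599041282) (nat_lit 57) (nat_lit 5) (nat_lit 59) (nat_lit 5) (nat_lit 58) (nat_lit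 4) (nat_lit 541) (nat_lit 414) (nat_lit 245))) (XT.nd (nat_lit 78) (nat_lit 76) (nat_lit 0) (XT.lf (nat_lit 0) (nat_lit 17936225344) (nat_lit 152) (nat_lit 12754342027) (nat_lit 76) (nat_lit 33855887852) (nat_lit 57) (nat_lit 5) (nat_lit 59) (nat_lit 5) (nat_lit 58) (nat_lit 4) (nat_lit 542) (nat_lit 414) (nat_lit 244)) (XT.lf (nat_lit 0) (nat_lit 24100839951) (nat_lit 76) (nat_lit 11995313811) (nat_lit 152) (nat_lit 29814619810) (nat_lit 56) (nat_lit 5) (nat_lit 57) (nat_lit 5) (nat_lit 58) (nat_lit 4) (nat_lit 543) (nat_lit 414) (nat_lit 243)))) (XT.nd (nat_lit 156) (nat_lit 76) (nat_lit 0) (XT.nd (nat_lit 78) (nat_lit 152) (nat_lit 0) (XT.lf (nat_lit 0) (nat_lit 54993526192) (nat_lit 152) (nat_lit 5074208208) (nat_lit 0) (nat_lit 7242507752) (nat_lit 56) (nat_lit 5) (nat_lit 58) (nat_lit 4) (nat_lit 56) (nat_lit 4) (nat_lit 544) (nat_lit 414) (nat_lit 242)) (XT.lf (nat_lit 0) (nat_lit 6030722468) (nat_lit 152)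 (nat_lit 35517320700) (nat_lit 76) (nat_lit 27188927826) (nat_lit 54) (nat_lit 5) (nat_lit 56) (nat_lit 5) (nat_lit 55) (nat_lit 4) (nat_lit 545) (nat_lit 414) (nat_lit 241))) (XT.nd (nat_lit 78) (nat_lit 0) (nat_lit 0) (XT.lf (nat_lit 0) (nat_lit 2473484693) (nat_lit 76) (nat_lit 22276066235) (nat_lit 152) (nat_lit 45451236782) (nat_lit 53) (nat_lit 5) (nat_lit 54) (nat_lit 5) (nat_lit 55) (nat_lit 4) (nat_lit 546) (nat_lit 414) (nat_lit 240)) (XT.lf (nat_lit 0) (nat_lit 42318515619) (nat_lit 76) (nat_lit 2063154604) (nat_lit 152) (nat_lit 27316296984) (nat_lit 53) (nat_lit 5) (nat_lit 54) (nat_lit 5) (nat_lit 55) (nat_lit 4) (nat_lit 547) (nat_lit 414) (nat_lit 239)))))) (XT.nd (nat_lit 52338) (nat_lit 0) (nat_lit 23560) (XT.nd (nat_lit 312) (nat_lit 76) (nat_lit 0) (XT.nd (nat_lit 156) (nat_lit 76) (nat_lit 0) (XT.nd (nat_lit 78) (nat_lit 76) (nat_lit 0) (XT.lf (nat_lit 0) (nat_lit 10122757723) (nat_lit 76)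 (nat_lit 54750807591) (nat_lit 76) (nat_lit 8358372464) (nat_lit 52) (nat_lit 4) (nat_lit 53) (nat_lit 5) (nat_lit 53) (nat_lit 4) (nat_lit 548) (nat_lit 414) (nat_lit 238)) (XT.lf (nat_lit 0) (nat_lit 11263610730) (nat_lit 152) (nat_lit 23534783187) (nat_lit 76) (nat_lit 40000915274) (nat_lit 51) (nat_lit 5) (nat_lit 53) (nat_lit 5) (nat_lit 52) (nat_lit 4) (nat_lit 549) (nat_lit 414) (nat_lit 237))) (XT.nd (nat_lit 78) (nat_lit 0) (nat_lit 0) (XT.lf (nat_lit 0) (nat_lit 17472102835) (nat_lit 76) (nat_lit 13995520735) (nat_lit 152) (nat_lit 44938754590) (nat_lit 50) (nat_lit 5) (nat_lit 51) (nat_lit 5) (nat_lit 52) (nat_lit 4) (nat_lit 550) (nat_lit 414) (nat_lit 236)) (XT.lf (nat_lit 0) (nat_lit 52582621513) (nat_lit 152) (nat_lit 17949621350) (nat_lit 0) (nat_lit 7520270444) (nat_lit 50) (nat_lit 5) (nat_lit 52) (nat_lit 4) (nat_lit 50) (nat_lit 4) (nat_lit 551) (nat_lit 414) (nat_lit 235)))) (XT.nd (nat_lit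 51870) (nat_lit 0) (nat_lit 25308) (XT.nd (nat_lit 51792) (nat_lit 0) (nat_lit 25308) (XT.lf (nat_lit 0) (nat_lit 24593345669) (nat_lit 76) (nat_lit 50106312136) (nat_lit 76) (nat_lit 5037317099) (nat_lit 49) (nat_lit 4) (nat_lit 50) (nat_lit 5) (nat_lit 50) (nat_lit 4) (nat_lit 552) (nat_lit 414) (nat_lit 234)) (XT.lf (nat_lit 0) (nat_lit 519788738) (nat_lit 0) (nat_lit 519788738) (nat_lit 836) (nat_lit 2658024787) (nat_lit 382) (nat_lit 5) (nat_lit 382) (nat_lit 3) (nat_lit 393) (nat_lit 3) (nat_lit 415) (nat_lit 415) (nat_lit 370))) (XT.nd (nat_lit 78) (nat_lit 0) (nat_lit 0) (XT.lf (nat_lit 0) (nat_lit 3637973635) (nat_lit 836) (nat_lit 2680037469) (nat_lit 912) (nat_lit 1142118253) (nat_lit 382) (nat_lit 5) (nat_lit 393) (nat_lit 3) (nat_lit 394) (nat_lit 5) (nat_lit 416) (nat_lit 415) (nat_lit 369)) (XT.lf (nat_lit 76) (nat_lit 1085042228) (nat_lit 0) (nat_lit 4120339850) (nat_lit 912) (nat_lit 2322771901)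 (nat_lit 383) (nat_lit 5) (nat_lit 382) (nat_lit 5) (nat_lit 394) (nat_lit 5) (nat_lit 417) (nat_lit 415) (nat_lit 368))))) (XT.nd (nat_lit 312) (nat_lit 912) (nat_lit 0) (XT.nd (nat_lit 156) (nat_lit 0) (nat_lit 0) (XT.nd (nat_lit 78) (nat_lit 836) (nat_lit 0) (XT.lf (nat_lit 76) (nat_lit 4986665022) (nat_lit 0) (nat_lit 1802727279) (nat_lit 912) (nat_lit 809746257) (nat_lit 383) (nat_lit 5) (nat_lit 382) (nat_lit 5) (nat_lit 394) (nat_lit 5) (nat_lit 418) (nat_lit 415) (nat_lit 367)) (XT.lf (nat_lit 0) (nat_lit 696435269) (nat_lit 912) (nat_lit 6359322162) (nat_lit 988) (nat_lit 617414336) (nat_lit 371) (nat_lit 5) (nat_lit 383) (nat_lit 5) (nat_lit 384) (nat_lit 5) (nat_lit 419) (nat_lit 415) (nat_lit 366))) (XT.nd (nat_lit 78) (nat_lit 0) (nat_lit 0) (XT.lf (nat_lit 0) (nat_lit 2221219710) (nat_lit 912) (nat_lit 2396384637) (nat_lit 988) (nat_lit 3131896376) (nat_lit 371) (nat_lit 5) (nat_lit 383) (nat_lit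 5) (nat_lit 384) (nat_lit 5) (nat_lit 420) (nat_lit 415) (nat_lit 365)) (XT.lf (nat_lit 76) (nat_lit 1686171075) (nat_lit 0) (nat_lit 2068582906) (nat_lit 988) (nat_lit 4074481244) (nat_lit 372) (nat_lit 5) (nat_lit 371) (nat_lit 5) (nat_lit 384) (nat_lit 5) (nat_lit 421) (nat_lit 415) (nat_lit 364)))) (XT.nd (nat_lit 156) (nat_lit 988) (nat_lit 0) (XT.nd (nat_lit 78) (nat_lit 0) (nat_lit 0) (XT.lf (nat_lit 0) (nat_lit 5312320365) (nat_lit 912) (nat_lit 2009517222) (nat_lit 988) (nat_lit 590189089) (nat_lit 372) (nat_lit 5) (nat_lit 384) (nat_lit 5) (nat_lit 385) (nat_lit 5) (nat_lit 422) (nat_lit 415) (nat_lit 363)) (XT.lf (nat_lit 76) (nat_lit 2238601899) (nat_lit 0) (nat_lit 4669753765) (nat_lit 988) (nat_lit 1089199479) (nat_lit 373) (nat_lit 5) (nat_lit 372) (nat_lit 5) (nat_lit 385) (nat_lit 5) (nat_lit 423) (nat_lit 415) (nat_lit 362))) (XT.nd (nat_lit 78) (nat_lit 0) (nat_lit 76) (XT.lf (nat_lit 0) (nat_lit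 428413985) (nat_lit 988) (nat_lit 1467678039) (nat_lit 1064) (nat_lit 6190301183) (nat_lit 359) (nat_lit 5) (nat_lit 372) (nat_lit 5) (nat_lit 373) (nat_lit 5) (nat_lit 424) (nat_lit 415) (nat_lit 361)) (XT.lf (nat_lit 0) (nat_lit 1959810859) (nat_lit 988) (nat_lit 5220831852) (nat_lit 1064) (nat_lit 997230835) (nat_lit 360) (nat_lit 5) (nat_lit 373) (nat_lit 5) (nat_lit 374) (nat_lit 5) (nat_lit 425) (nat_lit 415) (nat_lit 360))))))))
noncomputable def xc131 : XT := (XT.nd (nat_lit 2418) (nat_lit 6384) (nat_lit 0) (XT.nd (nat_lit 1170) (nat_lit 5244) (nat_lit 0) (XT.nd (nat_lit 546) (nat_lit 3952) (nat_lit 0) (XT.nd (nat_lit 234) (nat_lit 1976) (nat_lit 0) (XT.nd (nat_lit 78) (nat_lit 0) (nat_lit 0) (XT.lf (nat_lit 0) (nat_lit 3523977801) (nat_lit 988) (nat_lit 779567265) (nat_lit 1064) (nat_lit 3968953297) (nat_lit 360) (nat_lit 5) (nat_lit 373) (nat_lit 5) (nat_lit 374) (nat_lit 5) (nat_lit 426) (nat_lit 415)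 (nat_lit 359)) (XT.nd (nat_lit 78) (nat_lit 0) (nat_lit 76) (XT.lf (nat_lit 76) (nat_lit 3837208507) (nat_lit 0) (nat_lit 1289200784) (nat_lit 1064) (nat_lit 3243817219) (nat_lit 361) (nat_lit 5) (nat_lit 360) (nat_lit 5) (nat_lit 374) (nat_lit 5) (nat_lit 427) (nat_lit 415) (nat_lit 358)) (XT.lf (nat_lit 76) (nat_lit 88266540) (nat_lit 0) (nat_lit 6670486001) (nat_lit 1064) (nat_lit 1712683428) (nat_lit 362) (nat_lit 5) (nat_lit 361) (nat_lit 5) (nat_lit 375) (nat_lit 5) (nat_lit 428) (nat_lit 415) (nat_lit 357)))) (XT.nd (nat_lit 156) (nat_lit 988) (nat_lit 0) (XT.nd (nat_lit 78) (nat_lit 1064) (nat_lit 0) (XT.lf (nat_lit 76) (nat_lit 4894681370) (nat_lit 0) (nat_lit 3560358806) (nat_lit 1064) (nat_lit 120196810) (nat_lit 362) (nat_lit 5) (nat_lit 361) (nat_lit 5) (nat_lit 375) (nat_lit 5) (nat_lit 429) (nat_lit 415) (nat_lit 356)) (XT.lf (nat_lit 76) (nat_lit 1137429067) (nat_lit 0) (nat_lit 321310726) (nat_lit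 1140) (nat_lit 7223928005) (nat_lit 348) (nat_lit 5) (nat_lit 347) (nat_lit 5) (nat_lit 362) (nat_lit 5) (nat_lit 430) (nat_lit 415) (nat_lit 355))) (XT.nd (nat_lit 78) (nat_lit 1064) (nat_lit 0) (XT.lf (nat_lit 0) (nat_lit 3107555340) (nat_lit 1064) (nat_lit 2681647376) (nat_lit 76) (nat_lit 3003339432) (nat_lit 348) (nat_lit 5) (nat_lit 362) (nat_lit 5) (nat_lit 349) (nat_lit 5) (nat_lit 431) (nat_lit 415) (nat_lit 354)) (XT.lf (nat_lit 0) (nat_lit 2336969519) (nat_lit 1064) (nat_lit 2454133988) (nat_lit 1140) (nat_lit 4115055174) (nat_lit 334) (nat_lit 5) (nat_lit 348) (nat_lit 5) (nat_lit 349) (nat_lit 5) (nat_lit 432) (nat_lit 415) (nat_lit 353))))) (XT.nd (nat_lit 312) (nat_lit 1520) (nat_lit 0) (XT.nd (nat_lit 156) (nat_lit 1292) (nat_lit 0) (XT.nd (nat_lit 78) (nat_lit 1140) (nat_lit 0) (XT.lf (nat_lit 0) (nat_lit 6522479866) (nat_lit 1140) (nat_lit 1505182626) (nat_lit 76) (nat_lit 995605444) (nat_lit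 334) (nat_lit 5) (nat_lit 349) (nat_lit 5) (nat_lit 335) (nat_lit 5) (nat_lit 433) (nat_lit 415) (nat_lit 352)) (XT.lf (nat_lit 0) (nat_lit 3725919424) (nat_lit 1140) (nat_lit 4601685863) (nat_lit 1216) (nat_lit 815634715) (nat_lit 319) (nat_lit 5) (nat_lit 334) (nat_lit 5) (nat_lit 335) (nat_lit 5) (nat_lit 434) (nat_lit 415) (nat_lit 351))) (XT.nd (nat_lit 78) (nat_lit 1216) (nat_lit 0) (XT.lf (nat_lit 0) (nat_lit 879587239) (nat_lit 1216) (nat_lit 164204838) (nat_lit 76) (nat_lit 8223433335) (nat_lit 318) (nat_lit 5) (nat_lit 334) (nat_lit 5) (nat_lit 319) (nat_lit 5) (nat_lit 435) (nat_lit 415) (nat_lit 350)) (XT.lf (nat_lit 0) (nat_lit 2649348275) (nat_lit 1292) (nat_lit 4110731830) (nat_lit 76) (nat_lit 2633409183) (nat_lit 302) (nat_lit 5) (nat_lit 319) (nat_lit 5) (nat_lit 303) (nat_lit 5) (nat_lit 436) (nat_lit 415) (nat_lit 349)))) (XT.nd (nat_lit 156) (nat_lit 684) (nat_lit 0) (XT.nd (nat_lit 78) (nat_lit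 0) (nat_lit 0) (XT.lf (nat_lit 0) (nat_lit 1355623225) (nat_lit 836) (nat_lit 3105635816) (nat_lit 912) (nat_lit 5062613678) (nat_lit 291) (nat_lit 5) (nat_lit 302) (nat_lit 5) (nat_lit 303) (nat_lit 5) (nat_lit 437) (nat_lit 415) (nat_lit 348)) (XT.lf (nat_lit 0) (nat_lit 6340544030) (nat_lit 912) (nat_lit 2627662775) (nat_lit 76) (nat_lit 689573590) (nat_lit 291) (nat_lit 5) (nat_lit 303) (nat_lit 5) (nat_lit 292) (nat_lit 5) (nat_lit 438) (nat_lit 415) (nat_lit 347))) (XT.nd (nat_lit 78) (nat_lit 76) (nat_lit 0) (XT.lf (nat_lit 0) (nat_lit 3075162306) (nat_lit 608) (nat_lit 5227146927) (nat_lit 684) (nat_lit 1492616172) (nat_lit 283) (nat_lit 5) (nat_lit 291) (nat_lit 5) (nat_lit 292) (nat_lit 5) (nat_lit 439) (nat_lit 415) (nat_lit 346)) (XT.lf (nat_lit 0) (nat_lit 372130305) (nat_lit 684) (nat_lit 970021314) (nat_lit 76) (nat_lit 8594136559) (nat_lit 282) (nat_lit 5) (nat_lit 291) (nat_lit 5) (nat_lit 283)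 (nat_lit 5) (nat_lit 440) (nat_lit 415) (nat_lit 345)))))) (XT.nd (nat_lit 624) (nat_lit 2356) (nat_lit 0) (XT.nd (nat_lit 312) (nat_lit 1140) (nat_lit 0) (XT.nd (nat_lit 156) (nat_lit 608) (nat_lit 0) (XT.nd (nat_lit 78) (nat_lit 532) (nat_lit 0) (XT.lf (nat_lit 0) (nat_lit 2304218022) (nat_lit 684) (nat_lit 5104744390) (nat_lit 76) (nat_lit 2671246988) (nat_lit 274) (nat_lit 5) (nat_lit 283) (nat_lit 5) (nat_lit 275) (nat_lit 5) (nat_lit 441) (nat_lit 415) (nat_lit 344)) (XT.lf (nat_lit 0) (nat_lit 861205666) (nat_lit 532) (nat_lit 3432292384) (nat_lit 608) (nat_lit 5934976121) (nat_lit 267) (nat_lit 5) (nat_lit 274) (nat_lit 5) (nat_lit 275) (nat_lit 5) (nat_lit 442) (nat_lit 415) (nat_lit 343))) (XT.nd (nat_lit 78) (nat_lit 608) (nat_lit 0) (XT.lf (nat_lit 0) (nat_lit 6369274156) (nat_lit 608) (nat_lit 3309626098) (nat_lit 76) (nat_lit 701484823) (nat_lit 267) (nat_lit 5) (nat_lit 275) (nat_lit 5) (nat_lit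 268) (nat_lit 5) (nat_lit 443) (nat_lit 415) (nat_lit 342)) (XT.lf (nat_lit 0) (nat_lit 2919853843) (nat_lit 608) (nat_lit 5618820910) (nat_lit 684) (nat_lit 1997240661) (nat_lit 259) (nat_lit 5) (nat_lit 267) (nat_lit 5) (nat_lit 268) (nat_lit 5) (nat_lit 444) (nat_lit 415) (nat_lit 341)))) (XT.nd (nat_lit 156) (nat_lit 532) (nat_lit 0) (XT.nd (nat_lit 78) (nat_lit 532) (nat_lit 0) (XT.lf (nat_lit 0) (nat_lit 78875017) (nat_lit 684) (nat_lit 1325289265) (nat_lit 76) (nat_lit 9291827669) (nat_lit 258) (nat_lit 5) (nat_lit 267) (nat_lit 5) (nat_lit 259) (nat_lit 5) (nat_lit 445) (nat_lit 415) (nat_lit 340)) (XT.lf (nat_lit 0) (nat_lit 2226517500) (nat_lit 608) (nat_lit 5684791229) (nat_lit 76) (nat_lit 2947489656) (nat_lit 251) (nat_lit 5) (nat_lit 259) (nat_lit 5) (nat_lit 252) (nat_lit 5) (nat_lit 446) (nat_lit 415) (nat_lit 339))) (XT.nd (nat_lit 78) (nat_lit 0) (nat_lit 0) (XT.lf (nat_lit 0) (nat_lit 838965326)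 (nat_lit 532) (nat_lit 3606099300) (nat_lit 608) (nat_lit 6581232472) (nat_lit 244) (nat_lit 5) (nat_lit 251) (nat_lit 5) (nat_lit 252) (nat_lit 5) (nat_lit 447) (nat_lit 415) (nat_lit 338)) (XT.lf (nat_lit 0) (nat_lit 6767591813) (nat_lit 608) (nat_lit 3563892157) (nat_lit 76) (nat_lit 866216372) (nat_lit 244) (nat_lit 5) (nat_lit 252) (nat_lit 5) (nat_lit 245) (nat_lit 5) (nat_lit 448) (nat_lit 415) (nat_lit 337))))) (XT.nd (nat_lit 312) (nat_lit 912) (nat_lit 0) (XT.nd (nat_lit 156) (nat_lit 912) (nat_lit 0) (XT.nd (nat_lit 78) (nat_lit 76) (nat_lit 0) (XT.lf (nat_lit 0) (nat_lit 3253776887) (nat_lit 456) (nat_lit 5945317844) (nat_lit 532) (nat_lit 2173974165) (nat_lit 238) (nat_lit 5) (nat_lit 244) (nat_lit 5) (nat_lit 245) (nat_lit 5) (nat_lit 449) (nat_lit 415) (nat_lit 336)) (XT.lf (nat_lit 0) (nat_lit 155811468) (nat_lit 532) (nat_lit 1237878149) (nat_lit 76) (nat_lit 10159701028) (nat_lit 237) (nat_lit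 5) (nat_lit 244) (nat_lit 5) (nat_lit 238) (nat_lit 5) (nat_lit 450) (nat_lit 415) (nat_lit 335))) (XT.nd (nat_lit 78) (nat_lit 456) (nat_lit 0) (XT.lf (nat_lit 0) (nat_lit 2574371947) (nat_lit 532) (nat_lit 5857695378) (nat_lit 76) (nat_lit 3304533730) (nat_lit 231) (nat_lit 5) (nat_lit 238) (nat_lit 5) (nat_lit 232) (nat_lit 5) (nat_lit 451) (nat_lit 415) (nat_lit 334)) (XT.lf (nat_lit 0) (nat_lit 1288885902) (nat_lit 456) (nat_lit 3789189304) (nat_lit 532) (nat_lit 6846856959) (nat_lit 225) (nat_lit 5) (nat_lit 231) (nat_lit 5) (nat_lit 232) (nat_lit 5) (nat_lit 452) (nat_lit 415) (nat_lit 333)))) (XT.nd (nat_lit 156) (nat_lit 456) (nat_lit 0) (XT.nd (nat_lit 78) (nat_lit 456) (nat_lit 0) (XT.lf (nat_lit 0) (nat_lit 7700347944) (nat_lit 532) (nat_lit 3389710264) (nat_lit 76) (nat_lit 1027553157) (nat_lit 225) (nat_lit 5) (nat_lit 232) (nat_lit 5) (nat_lit 226) (nat_lit 5) (nat_lit 453) (nat_lit 415) (nat_lit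 332)) (XT.lf (nat_lit 0) (nat_lit 4084768323) (nat_lit 456) (nat_lit 6368231103) (nat_lit 532) (nat_lit 1861522049) (nat_lit 219) (nat_lit 5) (nat_lit 225) (nat_lit 5) (nat_lit 226) (nat_lit 5) (nat_lit 454) (nat_lit 415) (nat_lit 331))) (XT.nd (nat_lit 78) (nat_lit 380) (nat_lit 0) (XT.lf (nat_lit 0) (nat_lit 765530829) (nat_lit 532) (nat_lit 702722297) (nat_lit 76) (nat_lit 11048574738) (nat_lit 218) (nat_lit 5) (nat_lit 225) (nat_lit 5) (nat_lit 219) (nat_lit 5) (nat_lit 455) (nat_lit 415) (nat_lit 330)) (XT.lf (nat_lit 0) (nat_lit 3513656289) (nat_lit 456) (nat_lit 5618203036) (nat_lit 76) (nat_lit 3590402616) (nat_lit 213) (nat_lit 5) (nat_lit 219) (nat_lit 5) (nat_lit 214) (nat_lit 5) (nat_lit 456) (nat_lit 415) (nat_lit 329))))))) (XT.nd (nat_lit 1248) (nat_lit 2736) (nat_lit 0) (XT.nd (nat_lit 624) (nat_lit 1596) (nat_lit 0) (XT.nd (nat_lit 312) (nat_lit 760) (nat_lit 0) (XT.nd (nat_lit 156) (nat_lit 836)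 (nat_lit 0) (XT.nd (nat_lit 78) (nat_lit 0) (nat_lit 0) (XT.lf (nat_lit 0) (nat_lit 2223528113) (nat_lit 456) (nat_lit 4139960959) (nat_lit 532) (nat_lit 6569793705) (nat_lit 207) (nat_lit 5) (nat_lit 213) (nat_lit 5) (nat_lit 214) (nat_lit 5) (nat_lit 457) (nat_lit 415) (nat_lit 328)) (XT.lf (nat_lit 0) (nat_lit 9342253888) (nat_lit 532) (nat_lit 2774829121) (nat_lit 76) (nat_lit 1032249718) (nat_lit 207) (nat_lit 5) (nat_lit 214) (nat_lit 5) (nat_lit 208) (nat_lit 5) (nat_lit 458) (nat_lit 415) (nat_lit 327))) (XT.nd (nat_lit 78) (nat_lit 456) (nat_lit 0) (XT.lf (nat_lit 0) (nat_lit 5432694946) (nat_lit 380) (nat_lit 7048096474) (nat_lit 456) (nat_lit 888962013) (nat_lit 202) (nat_lit 5) (nat_lit 207) (nat_lit 5) (nat_lit 208) (nat_lit 5) (nat_lit 459) (nat_lit 415) (nat_lit 326)) (XT.lf (nat_lit 0) (nat_lit 302024499) (nat_lit 380) (nat_lit 1781918661) (nat_lit 456) (nat_lit 11511978176) (nat_lit 196) (nat_lit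 5) (nat_lit 201) (nat_lit 5) (nat_lit 202) (nat_lit 5) (nat_lit 460) (nat_lit 415) (nat_lit 325)))) (XT.nd (nat_lit 156) (nat_lit 456) (nat_lit 0) (XT.nd (nat_lit 78) (nat_lit 304) (nat_lit 0) (XT.lf (nat_lit 0) (nat_lit 5221761214) (nat_lit 456) (nat_lit 4951011469) (nat_lit 76) (nat_lit 3653031176) (nat_lit 196) (nat_lit 5) (nat_lit 202) (nat_lit 5) (nat_lit 197) (nat_lit 5) (nat_lit 461) (nat_lit 415) (nat_lit 324)) (XT.lf (nat_lit 0) (nat_lit 3666038908) (nat_lit 304) (nat_lit 4818848369) (nat_lit 380) (nat_lit 5576761754) (nat_lit 192) (nat_lit 5) (nat_lit 196) (nat_lit 5) (nat_lit 197) (nat_lit 5) (nat_lit 462) (nat_lit 415) (nat_lit 323))) (XT.nd (nat_lit 78) (nat_lit 456) (nat_lit 0) (XT.lf (nat_lit 0) (nat_lit 11881641826) (nat_lit 380) (nat_lit 1697444464) (nat_lit 76) (nat_lit 724412567) (nat_lit 192) (nat_lit 5) (nat_lit 197) (nat_lit 5) (nat_lit 193) (nat_lit 5) (nat_lit 463) (nat_lit 415) (nat_lit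 322)) (XT.lf (nat_lit 0) (nat_lit 909835389) (nat_lit 456) (nat_lit 7231066014) (nat_lit 76) (nat_lit 6408516590) (nat_lit 186) (nat_lit 5) (nat_lit 192) (nat_lit 5) (nat_lit 187) (nat_lit 5) (nat_lit 464) (nat_lit 415) (nat_lit 321))))) (XT.nd (nat_lit 312) (nat_lit 988) (nat_lit 0) (XT.nd (nat_lit 156) (nat_lit 304) (nat_lit 0) (XT.nd (nat_lit 78) (nat_lit 0) (nat_lit 0) (XT.lf (nat_lit 0) (nat_lit 1819038465) (nat_lit 304) (nat_lit 2487863168) (nat_lit 380) (nat_lit 10494671932) (nat_lit 182) (nat_lit 5) (nat_lit 186) (nat_lit 5) (nat_lit 187) (nat_lit 5) (nat_lit 465) (nat_lit 415) (nat_lit 320)) (XT.lf (nat_lit 0) (nat_lit 7891218494) (nat_lit 380) (nat_lit 3832770724) (nat_lit 76) (nat_lit 3334745618) (nat_lit 182) (nat_lit 5) (nat_lit 187) (nat_lit 5) (nat_lit 183) (nat_lit 5) (nat_lit 466) (nat_lit 415) (nat_lit 319))) (XT.nd (nat_lit 78) (nat_lit 0) (nat_lit 0) (XT.lf (nat_lit 0) (nat_lit 5648172829) (nat_lit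 304) (nat_lit 5993954207) (nat_lit 380) (nat_lit 3679713197) (nat_lit 178) (nat_lit 5) (nat_lit 182) (nat_lit 5) (nat_lit 183) (nat_lit 5) (nat_lit 467) (nat_lit 415) (nat_lit 318)) (XT.lf (nat_lit 0) (nat_lit 15463498400) (nat_lit 304) (nat_lit 61207578) (nat_lit 380) (nat_lit 67559641) (nat_lit 178) (nat_lit 5) (nat_lit 182) (nat_lit 5) (nat_lit 183) (nat_lit 5) (nat_lit 468) (nat_lit 415) (nat_lit 317)))) (XT.nd (nat_lit 156) (nat_lit 304) (nat_lit 0) (XT.nd (nat_lit 78) (nat_lit 304) (nat_lit 0) (XT.lf (nat_lit 0) (nat_lit 3716347095) (nat_lit 380) (nat_lit 6095799554) (nat_lit 76) (nat_lit 6053564612) (nat_lit 173) (nat_lit 5) (nat_lit 178) (nat_lit 5) (nat_lit 174) (nat_lit 5) (nat_lit 469) (nat_lit 415) (nat_lit 316)) (XT.lf (nat_lit 0) (nat_lit 3866665350) (nat_lit 304) (nat_lit 3765860101) (nat_lit 380) (nat_lit 8514212409) (nat_lit 169) (nat_lit 5) (nat_lit 173) (nat_lit 5) (nat_lit 174) (nat_lit 5) (nat_lit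 470) (nat_lit 415) (nat_lit 315))) (XT.nd (nat_lit 78) (nat_lit 304) (nat_lit 0) (XT.lf (nat_lit 0) (nat_lit 11733235406) (nat_lit 380) (nat_lit 2234222493) (nat_lit 76) (nat_lit 2466726968) (nat_lit 169) (nat_lit 5) (nat_lit 174) (nat_lit 5) (nat_lit 170) (nat_lit 5) (nat_lit 471) (nat_lit 415) (nat_lit 314)) (XT.lf (nat_lit 0) (nat_lit 8208157823) (nat_lit 304) (nat_lit 7846760190) (nat_lit 380) (nat_lit 672399698) (nat_lit 165) (nat_lit 5) (nat_lit 169) (nat_lit 5) (nat_lit 170) (nat_lit 5) (nat_lit 472) (nat_lit 415) (nat_lit 313)))))) (XT.nd (nat_lit 624) (nat_lit 1292) (nat_lit 0) (XT.nd (nat_lit 312) (nat_lit 836) (nat_lit 0) (XT.nd (nat_lit 156) (nat_lit 228) (nat_lit 0) (XT.nd (nat_lit 78) (nat_lit 0) (nat_lit 0) (XT.lf (nat_lit 0) (nat_lit 1957777613) (nat_lit 304) (nat_lit 1474836175) (nat_lit 380) (nat_lit 13594925285) (nat_lit 160) (nat_lit 5) (nat_lit 164) (nat_lit 5) (nat_lit 165) (nat_lit 5) (nat_lit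 473) (nat_lit 415) (nat_lit 312)) (XT.lf (nat_lit 0) (nat_lit 7765076034) (nat_lit 380) (nat_lit 4494941280) (nat_lit 76) (nat_lit 5073016537) (nat_lit 160) (nat_lit 5) (nat_lit 165) (nat_lit 5) (nat_lit 161) (nat_lit 5) (nat_lit 474) (nat_lit 415) (nat_lit 311))) (XT.nd (nat_lit 78) (nat_lit 0) (nat_lit 0) (XT.lf (nat_lit 0) (nat_lit 6481828115) (nat_lit 228) (nat_lit 5805140299) (nat_lit 304) (nat_lit 5358942227) (nat_lit 157) (nat_lit 5) (nat_lit 160) (nat_lit 5) (nat_lit 161) (nat_lit 5) (nat_lit 475) (nat_lit 415) (nat_lit 310)) (XT.lf (nat_lit 0) (nat_lit 16981167179) (nat_lit 304) (nat_lit 122660137) (nat_lit 76) (nat_lit 863247768) (nat_lit 157) (nat_lit 5) (nat_lit 161) (nat_lit 5) (nat_lit 158) (nat_lit 5) (nat_lit 476) (nat_lit 415) (nat_lit 309)))) (XT.nd (nat_lit 156) (nat_lit 228) (nat_lit 0) (XT.nd (nat_lit 78) (nat_lit 228) (nat_lit 0) (XT.lf (nat_lit 0) (nat_lit 3601302201) (nat_lit 380) (nat_lit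 6940462070) (nat_lit 76) (nat_lit 7750547173) (nat_lit 152) (nat_lit 5) (nat_lit 157) (nat_lit 5) (nat_lit 153) (nat_lit 5) (nat_lit 477) (nat_lit 415) (nat_lit 308)) (XT.lf (nat_lit 0) (nat_lit 4599202831) (nat_lit 228) (nat_lit 3735849869) (nat_lit 304) (nat_lit 10291097918) (nat_lit 149) (nat_lit 5) (nat_lit 152) (nat_lit 5) (nat_lit 153) (nat_lit 5) (nat_lit 478) (nat_lit 415) (nat_lit 307))) (XT.nd (nat_lit 78) (nat_lit 228) (nat_lit 0) (XT.lf (nat_lit 0) (nat_lit 13296486248) (nat_lit 304) (nat_lit 2399490967) (nat_lit 76) (nat_lit 3271458378) (nat_lit 149) (nat_lit 5) (nat_lit 153) (nat_lit 5) (nat_lit 150) (nat_lit 5) (nat_lit 479) (nat_lit 415) (nat_lit 306)) (XT.lf (nat_lit 0) (nat_lit 9703172983) (nat_lit 228) (nat_lit 8817751796) (nat_lit 304) (nat_lit 794610199) (nat_lit 146) (nat_lit 5) (nat_lit 149) (nat_lit 5) (nat_lit 150) (nat_lit 5) (nat_lit 480) (nat_lit 415) (nat_lit 305))))) (XT.nd (nat_lit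 312) (nat_lit 532) (nat_lit 0) (XT.nd (nat_lit 156) (nat_lit 456) (nat_lit 0) (XT.nd (nat_lit 78) (nat_lit 0) (nat_lit 0) (XT.lf (nat_lit 0) (nat_lit 2527148171) (nat_lit 228) (nat_lit 1651093967) (nat_lit 304) (nat_lit 15493634807) (nat_lit 142) (nat_lit 5) (nat_lit 145) (nat_lit 5) (nat_lit 146) (nat_lit 5) (nat_lit 481) (nat_lit 415) (nat_lit 304)) (XT.lf (nat_lit 0) (nat_lit 9421509692) (nat_lit 304) (nat_lit 4898184814) (nat_lit 76) (nat_lit 5714863285) (nat_lit 142) (nat_lit 5) (nat_lit 146) (nat_lit 5) (nat_lit 143) (nat_lit 5) (nat_lit 482) (nat_lit 415) (nat_lit 303))) (XT.nd (nat_lit 78) (nat_lit 228) (nat_lit 0) (XT.lf (nat_lit 0) (nat_lit 7826736693) (nat_lit 228) (nat_lit 7071472670) (nat_lit 304) (nat_lit 5507626317) (nat_lit 139) (nat_lit 5) (nat_lit 142) (nat_lit 5) (nat_lit 143) (nat_lit 5) (nat_lit 483) (nat_lit 415) (nat_lit 302)) (XT.lf (nat_lit 0) (nat_lit 221577899) (nat_lit 228) (nat_lit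 20358167300) (nat_lit 304) (nat_lit 207291273) (nat_lit 136) (nat_lit 5) (nat_lit 139) (nat_lit 5) (nat_lit 140) (nat_lit 5) (nat_lit 484) (nat_lit 415) (nat_lit 301)))) (XT.nd (nat_lit 156) (nat_lit 228) (nat_lit 0) (XT.nd (nat_lit 78) (nat_lit 228) (nat_lit 0) (XT.lf (nat_lit 0) (nat_lit 5332581433) (nat_lit 304) (nat_lit 7659053778) (nat_lit 76) (nat_lit 8181033659) (nat_lit 135) (nat_lit 5) (nat_lit 139) (nat_lit 5) (nat_lit 136) (nat_lit 5) (nat_lit 485) (nat_lit 415) (nat_lit 300)) (XT.lf (nat_lit 0) (nat_lit 5719271734) (nat_lit 228) (nat_lit 5355352110) (nat_lit 304) (nat_lit 10493981196) (nat_lit 132) (nat_lit 5) (nat_lit 135) (nat_lit 5) (nat_lit 136) (nat_lit 5) (nat_lit 486) (nat_lit 415) (nat_lit 299))) (XT.nd (nat_lit 78) (nat_lit 228) (nat_lit 0) (XT.lf (nat_lit 0) (nat_lit 17076425640) (nat_lit 304) (nat_lit 2367966080) (nat_lit 76) (nat_lit 2529403183) (nat_lit 132) (nat_lit 5) (nat_lit 136) (nat_lit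 5) (nat_lit 133) (nat_lit 5) (nat_lit 487) (nat_lit 415) (nat_lit 298)) (XT.lf (nat_lit 0) (nat_lit 1002591864) (nat_lit 228) (nat_lit 10728131909) (nat_lit 76) (nat_lit 10655595988) (nat_lit 129) (nat_lit 5) (nat_lit 132) (nat_lit 5) (nat_lit 130) (nat_lit 5) (nat_lit 488) (nat_lit 415) (nat_lit 297))))))))
noncomputable def xc132 : XT := (XT.nd (nat_lit 2418) (nat_lit 2356) (nat_lit 0) (XT.nd (nat_lit 1170) (nat_lit 1672) (nat_lit 0) (XT.nd (nat_lit 546) (nat_lit 1064) (nat_lit 0) (XT.nd (nat_lit 234) (nat_lit 456) (nat_lit 0) (XT.nd (nat_lit 78) (nat_lit 152) (nat_lit 0) (XT.lf (nat_lit 0) (nat_lit 3335277383) (nat_lit 228) (nat_lit 3687789861) (nat_lit 304) (nat_lit 15785440530) (nat_lit 126) (nat_lit 5) (nat_lit 129) (nat_lit 5) (nat_lit 130) (nat_lit 5) (nat_lit 489) (nat_lit 415) (nat_lit 296)) (XT.nd (nat_lit 78) (nat_lit 152) (nat_lit 0) (XT.lf (nat_lit 0) (nat_lit 13363573869) (nat_lit 304) (nat_lit 5269196981)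 (nat_lit 76) (nat_lit 4606408558) (nat_lit 126) (nat_lit 5) (nat_lit 130) (nat_lit 5) (nat_lit 127) (nat_lit 5) (nat_lit 490) (nat_lit 415) (nat_lit 295)) (XT.lf (nat_lit 0) (nat_lit 9485923599) (nat_lit 152) (nat_lit 10522309717) (nat_lit 228) (nat_lit 3671120222) (nat_lit 124) (nat_lit 5) (nat_lit 126) (nat_lit 5) (nat_lit 127) (nat_lit 5) (nat_lit 491) (nat_lit 415) (nat_lit 294)))) (XT.nd (nat_lit 156) (nat_lit 152) (nat_lit 0) (XT.nd (nat_lit 78) (nat_lit 0) (nat_lit 0) (XT.lf (nat_lit 0) (nat_lit 622383719) (nat_lit 228) (nat_lit 2090048106) (nat_lit 304) (nat_lit 21418137289) (nat_lit 120) (nat_lit 5) (nat_lit 123) (nat_lit 5) (nat_lit 124) (nat_lit 5) (nat_lit 492) (nat_lit 415) (nat_lit 293)) (XT.lf (nat_lit 0) (nat_lit 9408206866) (nat_lit 304) (nat_lit 8542309012) (nat_lit 76) (nat_lit 6637880211) (nat_lit 120) (nat_lit 5) (nat_lit 124) (nat_lit 5) (nat_lit 121) (nat_lit 5) (nat_lit 493) (nat_lit 415)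 (nat_lit 292))) (XT.nd (nat_lit 78) (nat_lit 0) (nat_lit 0) (XT.lf (nat_lit 0) (nat_lit 6964701076) (nat_lit 152) (nat_lit 9414554379) (nat_lit 228) (nat_lit 8678470835) (nat_lit 118) (nat_lit 5) (nat_lit 120) (nat_lit 5) (nat_lit 121) (nat_lit 5) (nat_lit 494) (nat_lit 415) (nat_lit 291)) (XT.lf (nat_lit 0) (nat_lit 23089201019) (nat_lit 152) (nat_lit 543419082) (nat_lit 228) (nat_lit 1906321167) (nat_lit 118) (nat_lit 5) (nat_lit 120) (nat_lit 5) (nat_lit 121) (nat_lit 5) (nat_lit 495) (nat_lit 415) (nat_lit 290))))) (XT.nd (nat_lit 312) (nat_lit 380) (nat_lit 0) (XT.nd (nat_lit 156) (nat_lit 228) (nat_lit 0) (XT.nd (nat_lit 78) (nat_lit 152) (nat_lit 0) (XT.lf (nat_lit 0) (nat_lit 5174828247) (nat_lit 304) (nat_lit 12251638820) (nat_lit 76) (nat_lit 8600521740) (nat_lit 114) (nat_lit 5) (nat_lit 118) (nat_lit 5) (nat_lit 115) (nat_lit 5) (nat_lit 496) (nat_lit 415) (nat_lit 289)) (XT.lf (nat_lit 0) (nat_lit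 4040327378) (nat_lit 152) (nat_lit 8446217716) (nat_lit 228) (nat_lit 14040873376) (nat_lit 112) (nat_lit 5) (nat_lit 114) (nat_lit 5) (nat_lit 115) (nat_lit 5) (nat_lit 497) (nat_lit 415) (nat_lit 288))) (XT.nd (nat_lit 78) (nat_lit 228) (nat_lit 0) (XT.lf (nat_lit 0) (nat_lit 20137590591) (nat_lit 228) (nat_lit 5998451935) (nat_lit 76) (nat_lit 903219548) (nat_lit 112) (nat_lit 5) (nat_lit 115) (nat_lit 5) (nat_lit 113) (nat_lit 5) (nat_lit 498) (nat_lit 415) (nat_lit 287)) (XT.lf (nat_lit 0) (nat_lit 622620808) (nat_lit 228) (nat_lit 16471382711) (nat_lit 76) (nat_lit 10466935685) (nat_lit 109) (nat_lit 5) (nat_lit 112) (nat_lit 5) (nat_lit 110) (nat_lit 5) (nat_lit 499) (nat_lit 415) (nat_lit 286)))) (XT.nd (nat_lit 156) (nat_lit 228) (nat_lit 0) (XT.nd (nat_lit 78) (nat_lit 0) (nat_lit 0) (XT.lf (nat_lit 0) (nat_lit 638313928) (nat_lit 152) (nat_lit 7650630044) (nat_lit 228) (nat_lit 19805622443) (nat_lit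 107) (nat_lit 5) (nat_lit 109) (nat_lit 5) (nat_lit 110) (nat_lit 5) (nat_lit 500) (nat_lit 415) (nat_lit 285)) (XT.lf (nat_lit 0) (nat_lit 16360956425) (nat_lit 228) (nat_lit 10083851349) (nat_lit 76) (nat_lit 2194124003) (nat_lit 107) (nat_lit 5) (nat_lit 110) (nat_lit 5) (nat_lit 108) (nat_lit 5) (nat_lit 501) (nat_lit 415) (nat_lit 284))) (XT.nd (nat_lit 78) (nat_lit 76) (nat_lit 0) (XT.lf (nat_lit 0) (nat_lit 7866125368) (nat_lit 152) (nat_lit 16948490874) (nat_lit 228) (nat_lit 4380827564) (nat_lit 105) (nat_lit 5) (nat_lit 107) (nat_lit 5) (nat_lit 108) (nat_lit 5) (nat_lit 502) (nat_lit 415) (nat_lit 283)) (XT.lf (nat_lit 0) (nat_lit 3770981285) (nat_lit 228) (nat_lit 3262743454) (nat_lit 76) (nat_lit 22731114827) (nat_lit 104) (nat_lit 5) (nat_lit 107) (nat_lit 5) (nat_lit 105) (nat_lit 5) (nat_lit 503) (nat_lit 415) (nat_lit 282)))))) (XT.nd (nat_lit 624) (nat_lit 760) (nat_lit 0) (XT.nd (nat_lit 312)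 (nat_lit 380) (nat_lit 0) (XT.nd (nat_lit 156) (nat_lit 228) (nat_lit 0) (XT.nd (nat_lit 78) (nat_lit 152) (nat_lit 0) (XT.lf (nat_lit 0) (nat_lit 12249987820) (nat_lit 228) (nat_lit 14792402606) (nat_lit 76) (nat_lit 3302505015) (nat_lit 102) (nat_lit 5) (nat_lit 105) (nat_lit 5) (nat_lit 103) (nat_lit 5) (nat_lit 504) (nat_lit 415) (nat_lit 281)) (XT.lf (nat_lit 0) (nat_lit 4045889371) (nat_lit 152) (nat_lit 17067826037) (nat_lit 228) (nat_lit 9824727338) (nat_lit 100) (nat_lit 5) (nat_lit 102) (nat_lit 5) (nat_lit 103) (nat_lit 5) (nat_lit 505) (nat_lit 415) (nat_lit 280))) (XT.nd (nat_lit 78) (nat_lit 228) (nat_lit 0) (XT.lf (nat_lit 0) (nat_lit 23731965626) (nat_lit 152) (nat_lit 6649444070) (nat_lit 228) (nat_lit 1164245398) (nat_lit 100) (nat_lit 5) (nat_lit 102) (nat_lit 5) (nat_lit 103) (nat_lit 5) (nat_lit 506) (nat_lit 415) (nat_lit 279)) (XT.lf (nat_lit 0) (nat_lit 7749753095) (nat_lit 228) (nat_lit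 20230277738) (nat_lit 76) (nat_lit 4184465041) (nat_lit 97) (nat_lit 5) (nat_lit 100) (nat_lit 5) (nat_lit 98) (nat_lit 5) (nat_lit 507) (nat_lit 415) (nat_lit 278)))) (XT.nd (nat_lit 156) (nat_lit 228) (nat_lit 0) (XT.nd (nat_lit 78) (nat_lit 152) (nat_lit 0) (XT.lf (nat_lit 0) (nat_lit 17042236697) (nat_lit 228) (nat_lit 463202974) (nat_lit 76) (nat_lit 15292082680) (nat_lit 97) (nat_lit 5) (nat_lit 100) (nat_lit 5) (nat_lit 98) (nat_lit 5) (nat_lit 508) (nat_lit 415) (nat_lit 277)) (XT.lf (nat_lit 0) (nat_lit 20272810013) (nat_lit 152) (nat_lit 6524826525) (nat_lit 228) (nat_lit 6646379072) (nat_lit 95) (nat_lit 5) (nat_lit 97) (nat_lit 5) (nat_lit 98) (nat_lit 5) (nat_lit 509) (nat_lit 415) (nat_lit 276))) (XT.nd (nat_lit 78) (nat_lit 0) (nat_lit 0) (XT.lf (nat_lit 0) (nat_lit 2796744589) (nat_lit 228) (nat_lit 26520480078) (nat_lit 76) (nat_lit 4788460230) (nat_lit 92) (nat_lit 5) (nat_lit 95) (nat_lit 5)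 (nat_lit 93) (nat_lit 5) (nat_lit 510) (nat_lit 415) (nat_lit 275)) (XT.lf (nat_lit 0) (nat_lit 12577824960) (nat_lit 228) (nat_lit 5700363996) (nat_lit 76) (nat_lit 16501393898) (nat_lit 92) (nat_lit 5) (nat_lit 95) (nat_lit 5) (nat_lit 93) (nat_lit 5) (nat_lit 511) (nat_lit 415) (nat_lit 274))))) (XT.nd (nat_lit 312) (nat_lit 304) (nat_lit 0) (XT.nd (nat_lit 156) (nat_lit 228) (nat_lit 0) (XT.nd (nat_lit 78) (nat_lit 76) (nat_lit 0) (XT.lf (nat_lit 0) (nat_lit 16038163197) (nat_lit 152) (nat_lit 6757980248) (nat_lit 228) (nat_lit 12673240347) (nat_lit 90) (nat_lit 5) (nat_lit 92) (nat_lit 5) (nat_lit 93) (nat_lit 5) (nat_lit 512) (nat_lit 415) (nat_lit 273)) (XT.lf (nat_lit 0) (nat_lit 2344434431) (nat_lit 76) (nat_lit 31096017971) (nat_lit 152) (nat_lit 2735843336) (nat_lit 89) (nat_lit 5) (nat_lit 90) (nat_lit 5) (nat_lit 91) (nat_lit 4) (nat_lit 513) (nat_lit 415) (nat_lit 272))) (XT.nd (nat_lit 78) (nat_lit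 152) (nat_lit 0) (XT.lf (nat_lit 0) (nat_lit 7608090146) (nat_lit 152) (nat_lit 11887001171) (nat_lit 76) (nat_lit 17399518370) (nat_lit 88) (nat_lit 5) (nat_lit 90) (nat_lit 5) (nat_lit 89) (nat_lit 5) (nat_lit 514) (nat_lit 415) (nat_lit 271)) (XT.lf (nat_lit 0) (nat_lit 10882832096) (nat_lit 152) (nat_lit 7419124113) (nat_lit 228) (nat_lit 19328866339) (nat_lit 86) (nat_lit 5) (nat_lit 88) (nat_lit 5) (nat_lit 89) (nat_lit 5) (nat_lit 515) (nat_lit 415) (nat_lit 270)))) (XT.nd (nat_lit 156) (nat_lit 152) (nat_lit 0) (XT.nd (nat_lit 78) (nat_lit 152) (nat_lit 0) (XT.lf (nat_lit 0) (nat_lit 29476130560) (nat_lit 228) (nat_lit 3874204074) (nat_lit 76) (nat_lit 5034002577) (nat_lit 86) (nat_lit 5) (nat_lit 89) (nat_lit 5) (nat_lit 87) (nat_lit 4) (nat_lit 516) (nat_lit 415) (nat_lit 269)) (XT.lf (nat_lit 0) (nat_lit 2047861159) (nat_lit 152) (nat_lit 19188692362) (nat_lit 76) (nat_lit 17915625593) (nat_lit 84) (nat_lit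 5) (nat_lit 86) (nat_lit 5) (nat_lit 85) (nat_lit 5) (nat_lit 517) (nat_lit 415) (nat_lit 268))) (XT.nd (nat_lit 78) (nat_lit 0) (nat_lit 0) (XT.lf (nat_lit 0) (nat_lit 4637600931) (nat_lit 152) (nat_lit 8590379338) (nat_lit 228) (nat_lit 26710197710) (nat_lit 82) (nat_lit 5) (nat_lit 84) (nat_lit 5) (nat_lit 85) (nat_lit 5) (nat_lit 518) (nat_lit 415) (nat_lit 267)) (XT.lf (nat_lit 0) (nat_lit 24972178160) (nat_lit 228) (nat_lit 11232642861) (nat_lit 76) (nat_lit 4536075697) (nat_lit 82) (nat_lit 5) (nat_lit 85) (nat_lit 5) (nat_lit 83) (nat_lit 4) (nat_lit 519) (nat_lit 415) (nat_lit 266))))))) (XT.nd (nat_lit 1170) (nat_lit 1064) (nat_lit 0) (XT.nd (nat_lit 546) (nat_lit 684) (nat_lit 0) (XT.nd (nat_lit 234) (nat_lit 304) (nat_lit 0) (XT.nd (nat_lit 78) (nat_lit 228) (nat_lit 0) (XT.lf (nat_lit 0) (nat_lit 13722399691) (nat_lit 76) (nat_lit 23553899461) (nat_lit 152) (nat_lit 4285170112) (nat_lit 81) (nat_lit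 5) (nat_lit 82) (nat_lit 5) (nat_lit 83) (nat_lit 4) (nat_lit 520) (nat_lit 415) (nat_lit 265)) (XT.nd (nat_lit 78) (nat_lit 152) (nat_lit 0) (XT.lf (nat_lit 0) (nat_lit 7500895372) (nat_lit 152) (nat_lit 2838197402) (nat_lit 76) (nat_lit 32062235174) (nat_lit 80) (nat_lit 5) (nat_lit 82) (nat_lit 5) (nat_lit 81) (nat_lit 5) (nat_lit 521) (nat_lit 415) (nat_lit 264)) (XT.lf (nat_lit 0) (nat_lit 19803401284) (nat_lit 228) (nat_lit 19984728490) (nat_lit 76) (nat_lit 3469510359) (nat_lit 78) (nat_lit 5) (nat_lit 81) (nat_lit 5) (nat_lit 79) (nat_lit 4) (nat_lit 522) (nat_lit 415) (nat_lit 263)))) (XT.nd (nat_lit 156) (nat_lit 152) (nat_lit 0) (XT.nd (nat_lit 78) (nat_lit 76) (nat_lit 0) (XT.lf (nat_lit 0) (nat_lit 6085681875) (nat_lit 76) (nat_lit 26570056412) (nat_lit 152) (nat_lit 11478480859) (nat_lit 77) (nat_lit 5) (nat_lit 78) (nat_lit 5) (nat_lit 79) (nat_lit 4) (nat_lit 523) (nat_lit 415) (nat_lit 262)) (XT.lf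 (nat_lit 0) (nat_lit 1034596997) (nat_lit 152) (nat_lit 11710585982) (nat_lit 76) (nat_lit 32285822829) (nat_lit 76) (nat_lit 5) (nat_lit 78) (nat_lit 5) (nat_lit 77) (nat_lit 5) (nat_lit 524) (nat_lit 415) (nat_lit 261))) (XT.nd (nat_lit 78) (nat_lit 0) (nat_lit 0) (XT.lf (nat_lit 0) (nat_lit 13850354145) (nat_lit 228) (nat_lit 30372536551) (nat_lit 76) (nat_lit 1723656262) (nat_lit 74) (nat_lit 5) (nat_lit 77) (nat_lit 5) (nat_lit 75) (nat_lit 4) (nat_lit 525) (nat_lit 415) (nat_lit 260)) (XT.lf (nat_lit 0) (nat_lit 27287440535) (nat_lit 228) (nat_lit 3112873211) (nat_lit 76) (nat_lit 16482135027) (nat_lit 74) (nat_lit 5) (nat_lit 77) (nat_lit 5) (nat_lit 75) (nat_lit 4) (nat_lit 526) (nat_lit 415) (nat_lit 259))))) (XT.nd (nat_lit 312) (nat_lit 304) (nat_lit 0) (XT.nd (nat_lit 156) (nat_lit 76) (nat_lit 0) (XT.nd (nat_lit 78) (nat_lit 228) (nat_lit 0) (XT.lf (nat_lit 0) (nat_lit 25444881960) (nat_lit 76) (nat_lit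 15918846229) (nat_lit 152) (nat_lit 6475616914) (nat_lit 73) (nat_lit 5) (nat_lit 74) (nat_lit 5) (nat_lit 75) (nat_lit 4) (nat_lit 527) (nat_lit 415) (nat_lit 258)) (XT.lf (nat_lit 0) (nat_lit 6134697271) (nat_lit 152) (nat_lit 847557119) (nat_lit 228) (nat_lit 41838197955) (nat_lit 70) (nat_lit 5) (nat_lit 72) (nat_lit 5) (nat_lit 73) (nat_lit 5) (nat_lit 528) (nat_lit 415) (nat_lit 257))) (XT.nd (nat_lit 78) (nat_lit 76) (nat_lit 0) (XT.lf (nat_lit 0) (nat_lit 21074686940) (nat_lit 228) (nat_lit 14069087815) (nat_lit 76) (nat_lit 14674465353) (nat_lit 70) (nat_lit 5) (nat_lit 73) (nat_lit 5) (nat_lit 71) (nat_lit 4) (nat_lit 529) (nat_lit 415) (nat_lit 256)) (XT.lf (nat_lit 0) (nat_lit 15688042510) (nat_lit 76) (nat_lit 20052817457) (nat_lit 152) (nat_lit 15100572621) (nat_lit 69) (nat_lit 5) (nat_lit 70) (nat_lit 5) (nat_lit 71) (nat_lit 4) (nat_lit 530) (nat_lit 415) (nat_lit 255)))) (XT.nd (nat_lit 156) (nat_lit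 76) (nat_lit 0) (XT.nd (nat_lit 78) (nat_lit 228) (nat_lit 0) (XT.lf (nat_lit 0) (nat_lit 46610668405) (nat_lit 76) (nat_lit 4370282236) (nat_lit 152) (nat_lit 910352332) (nat_lit 69) (nat_lit 5) (nat_lit 70) (nat_lit 5) (nat_lit 71) (nat_lit 4) (nat_lit 531) (nat_lit 415) (nat_lit 254)) (XT.lf (nat_lit 0) (nat_lit 13795550290) (nat_lit 228) (nat_lit 27232887009) (nat_lit 76) (nat_lit 11929557254) (nat_lit 66) (nat_lit 5) (nat_lit 69) (nat_lit 5) (nat_lit 67) (nat_lit 4) (nat_lit 532) (nat_lit 415) (nat_lit 253))) (XT.nd (nat_lit 78) (nat_lit 0) (nat_lit 0) (XT.lf (nat_lit 0) (nat_lit 3718592862) (nat_lit 76) (nat_lit 25330644960) (nat_lit 152) (nat_lit 25003431603) (nat_lit 65) (nat_lit 5) (nat_lit 66) (nat_lit 5) (nat_lit 67) (nat_lit 4) (nat_lit 533) (nat_lit 415) (nat_lit 252)) (XT.lf (nat_lit 0) (nat_lit 36141673620) (nat_lit 76) (nat_lit 8885984499) (nat_lit 152) (nat_lit 10144512852) (nat_lit 65) (nat_lit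 5) (nat_lit 66) (nat_lit 5) (nat_lit 67) (nat_lit 4) (nat_lit 534) (nat_lit 415) (nat_lit 251)))))) (XT.nd (nat_lit 624) (nat_lit 456) (nat_lit 0) (XT.nd (nat_lit 312) (nat_lit 380) (nat_lit 0) (XT.nd (nat_lit 156) (nat_lit 76) (nat_lit 0) (XT.nd (nat_lit 78) (nat_lit 0) (nat_lit 0) (XT.lf (nat_lit 0) (nat_lit 5259754976) (nat_lit 152) (nat_lit 42989884673) (nat_lit 76) (nat_lit 8068121669) (nat_lit 63) (nat_lit 5) (nat_lit 65) (nat_lit 5) (nat_lit 64) (nat_lit 4) (nat_lit 535) (nat_lit 415) (nat_lit 250)) (XT.lf (nat_lit 0) (nat_lit 21196601289) (nat_lit 152) (nat_lit 10650086403) (nat_lit 76) (nat_lit 25639788194) (nat_lit 63) (nat_lit 5) (nat_lit 65) (nat_lit 5) (nat_lit 64) (nat_lit 4) (nat_lit 536) (nat_lit 415) (nat_lit 249))) (XT.nd (nat_lit 78) (nat_lit 0) (nat_lit 0) (XT.lf (nat_lit 0) (nat_lit 23096111512) (nat_lit 76) (nat_lit 14729971627) (nat_lit 152) (nat_lit 20857732932) (nat_lit 62) (nat_lit 5)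 (nat_lit 63) (nat_lit 5) (nat_lit 64) (nat_lit 4) (nat_lit 537) (nat_lit 415) (nat_lit 248)) (XT.lf (nat_lit 0) (nat_lit 55083467809) (nat_lit 152) (nat_lit 1884278304) (nat_lit 0) (nat_lit 2945459876) (nat_lit 62) (nat_lit 5) (nat_lit 64) (nat_lit 4) (nat_lit 62) (nat_lit 4) (nat_lit 538) (nat_lit 415) (nat_lit 247)))) (XT.nd (nat_lit 156) (nat_lit 152) (nat_lit 0) (XT.nd (nat_lit 78) (nat_lit 76) (nat_lit 0) (XT.lf (nat_lit 0) (nat_lit 11914624453) (nat_lit 152) (nat_lit 27961981911) (nat_lit 76) (nat_lit 21285600441) (nat_lit 60) (nat_lit 5) (nat_lit 62) (nat_lit 5) (nat_lit 61) (nat_lit 4) (nat_lit 539) (nat_lit 415) (nat_lit 246)) (XT.lf (nat_lit 0) (nat_lit 7002335179) (nat_lit 76) (nat_lit 22141189853) (nat_lit 152) (nat_lit 33301339710) (nat_lit 59) (nat_lit 5) (nat_lit 60) (nat_lit 5) (nat_lit 61) (nat_lit 4) (nat_lit 540) (nat_lit 415) (nat_lit 245))) (XT.nd (nat_lit 78) (nat_lit 152) (nat_lit 0) (XT.lf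 (nat_lit 0) (nat_lit 43574832793) (nat_lit 76) (nat_lit 3589651457) (nat_lit 152) (nat_lit 16593262492) (nat_lit 59) (nat_lit 5) (nat_lit 60) (nat_lit 5) (nat_lit 61) (nat_lit 4) (nat_lit 541) (nat_lit 415) (nat_lit 244)) (XT.lf (nat_lit 0) (nat_lit 905726621) (nat_lit 152) (nat_lit 48820430421) (nat_lit 76) (nat_lit 15374629836) (nat_lit 57) (nat_lit 5) (nat_lit 59) (nat_lit 5) (nat_lit 58) (nat_lit 4) (nat_lit 542) (nat_lit 415) (nat_lit 243))))) (XT.nd (nat_lit 312) (nat_lit 228) (nat_lit 0) (XT.nd (nat_lit 156) (nat_lit 152) (nat_lit 0) (XT.nd (nat_lit 78) (nat_lit 76) (nat_lit 0) (XT.lf (nat_lit 0) (nat_lit 18830525645) (nat_lit 152) (nat_lit 12442285208) (nat_lit 76) (nat_lit 35199348289) (nat_lit 57) (nat_lit 5) (nat_lit 59) (nat_lit 5) (nat_lit 58) (nat_lit 4) (nat_lit 543) (nat_lit 415) (nat_lit 242)) (XT.lf (nat_lit 0) (nat_lit 25511741573) (nat_lit 76) (nat_lit 12019747481) (nat_lit 152) (nat_lit 30346030971)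 (nat_lit 56) (nat_lit 5) (nat_lit 57) (nat_lit 5) (nat_lit 58) (nat_lit 4) (nat_lit 544) (nat_lit 415) (nat_lit 241))) (XT.nd (nat_lit 78) (nat_lit 152) (nat_lit 0) (XT.lf (nat_lit 0) (nat_lit 56988647508) (nat_lit 152) (nat_lit 4551454979) (nat_lit 0) (nat_lit 7779084325) (nat_lit 56) (nat_lit 5) (nat_lit 58) (nat_lit 4) (nat_lit 56) (nat_lit 4) (nat_lit 545) (nat_lit 415) (nat_lit 240)) (XT.lf (nat_lit 0) (nat_lit 6556712627) (nat_lit 152) (nat_lit 35907607791) (nat_lit 76) (nat_lit 28324404691) (nat_lit 54) (nat_lit 5) (nat_lit 56) (nat_lit 5) (nat_lit 55) (nat_lit 4) (nat_lit 546) (nat_lit 415) (nat_lit 239)))) (XT.nd (nat_lit 156) (nat_lit 152) (nat_lit 0) (XT.nd (nat_lit 78) (nat_lit 0) (nat_lit 0) (XT.lf (nat_lit 0) (nat_lit 3216301837) (nat_lit 76) (nat_lit 22617180678) (nat_lit 152) (nat_lit 46463082600) (nat_lit 53) (nat_lit 5) (nat_lit 54) (nat_lit 5) (nat_lit 55) (nat_lit 4) (nat_lit 547) (nat_lit 415)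 (nat_lit 238)) (XT.lf (nat_lit 0) (nat_lit 44237209538) (nat_lit 76) (nat_lit 1807410850) (nat_lit 152) (nat_lit 27794338043) (nat_lit 53) (nat_lit 5) (nat_lit 54) (nat_lit 5) (nat_lit 55) (nat_lit 4) (nat_lit 548) (nat_lit 415) (nat_lit 237))) (XT.nd (nat_lit 78) (nat_lit 76) (nat_lit 0) (XT.lf (nat_lit 0) (nat_lit 11076041667) (nat_lit 76) (nat_lit 56074784090) (nat_lit 76) (nat_lit 8268135841) (nat_lit 52) (nat_lit 4) (nat_lit 53) (nat_lit 5) (nat_lit 53) (nat_lit 4) (nat_lit 549) (nat_lit 415) (nat_lit 236)) (XT.lf (nat_lit 0) (nat_lit 11926115069) (nat_lit 152) (nat_lit 23603683244) (nat_lit 76) (nat_lit 41503749721) (nat_lit 51) (nat_lit 5) (nat_lit 53) (nat_lit 5) (nat_lit 52) (nat_lit 4) (nat_lit 550) (nat_lit 415) (nat_lit 235))))))))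
noncomputable def xc133 : XT := (XT.nd (nat_lit 54210) (nat_lit 0) (nat_lit 8132) (XT.nd (nat_lit 52962) (nat_lit 0) (nat_lit 16492) (XT.nd (nat_lit 52338) (nat_lit 0) (nat_lit 23484) (XT.nd (nat_lit 52026) (nat_lit 0) (nat_lit 24320) (XT.nd (nat_lit 78) (nat_lit 0) (nat_lit 0) (XT.lf (nat_lit 0) (nat_lit 18627162855) (nat_lit 76) (nat_lit 14105695753) (nat_lit 152) (nat_lit 45956072227) (nat_lit 50) (nat_lit 5) (nat_lit 51) (nat_lit 5) (nat_lit 52) (nat_lit 4) (nat_lit 551) (nat_lit 415) (nat_lit 234)) (XT.nd (nat_lit 51870) (nat_lit 0) (nat_lit 25232) (XT.lf (nat_lit 0) (nat_lit 54474841193) (nat_lit 152) (nat_lit 17869120992) (nat_lit 0) (nat_lit 8040681882) (nat_lit 50) (nat_lit 5) (nat_lit 52) (nat_lit 4) (nat_lit 50) (nat_lit 4) (nat_lit 552) (nat_lit 415) (nat_lit 233)) (XT.lf (nat_lit 0) (nat_lit 1286311014) (nat_lit 0) (nat_lit 1286311014) (nat_lit 836) (nat_lit 1190679964) (nat_lit 382) (nat_lit 5) (nat_lit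 382) (nat_lit 3) (nat_lit 393) (nat_lit 3) (nat_lit 416) (nat_lit 416) (nat_lit 368)))) (XT.nd (nat_lit 156) (nat_lit 0) (nat_lit 0) (XT.nd (nat_lit 78) (nat_lit 912) (nat_lit 0) (XT.lf (nat_lit 0) (nat_lit 6393487609) (nat_lit 0) (nat_lit 258319708) (nat_lit 836) (nat_lit 944649900) (nat_lit 382) (nat_lit 5) (nat_lit 382) (nat_lit 3) (nat_lit 393) (nat_lit 3) (nat_lit 417) (nat_lit 416) (nat_lit 367)) (XT.lf (nat_lit 0) (nat_lit 515123394) (nat_lit 912) (nat_lit 5011495572) (nat_lit 988) (nat_lit 2141926828) (nat_lit 370) (nat_lit 5) (nat_lit 382) (nat_lit 5) (nat_lit 383) (nat_lit 5) (nat_lit 418) (nat_lit 416) (nat_lit 366))) (XT.nd (nat_lit 78) (nat_lit 0) (nat_lit 0) (XT.lf (nat_lit 0) (nat_lit 1959802507) (nat_lit 912) (nat_lit 1127576288) (nat_lit 988) (nat_lit 4656340713) (nat_lit 370) (nat_lit 5) (nat_lit 382) (nat_lit 5) (nat_lit 383) (nat_lit 5) (nat_lit 419) (nat_lit 416) (nat_lit 365)) (XT.lf (nat_lit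 76) (nat_lit 2899693384) (nat_lit 0) (nat_lit 522869827) (nat_lit 988) (nat_lit 4399348854) (nat_lit 371) (nat_lit 5) (nat_lit 370) (nat_lit 5) (nat_lit 383) (nat_lit 5) (nat_lit 420) (nat_lit 416) (nat_lit 364))))) (XT.nd (nat_lit 312) (nat_lit 0) (nat_lit 0) (XT.nd (nat_lit 156) (nat_lit 912) (nat_lit 0) (XT.nd (nat_lit 78) (nat_lit 0) (nat_lit 0) (XT.lf (nat_lit 0) (nat_lit 4909418184) (nat_lit 912) (nat_lit 882927351) (nat_lit 988) (nat_lit 2110704218) (nat_lit 371) (nat_lit 5) (nat_lit 383) (nat_lit 5) (nat_lit 384) (nat_lit 5) (nat_lit 421) (nat_lit 416) (nat_lit 363)) (XT.lf (nat_lit 76) (nat_lit 3306562396) (nat_lit 0) (nat_lit 3121129853) (nat_lit 988) (nat_lit 1559330449) (nat_lit 372) (nat_lit 5) (nat_lit 371) (nat_lit 5) (nat_lit 384) (nat_lit 5) (nat_lit 422) (nat_lit 416) (nat_lit 362))) (XT.nd (nat_lit 78) (nat_lit 912) (nat_lit 0) (XT.lf (nat_lit 76) (nat_lit 7609806962) (nat_lit 0) (nat_lit 341647192)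 (nat_lit 988) (nat_lit 123267859) (nat_lit 372) (nat_lit 5) (nat_lit 371) (nat_lit 5) (nat_lit 384) (nat_lit 5) (nat_lit 423) (nat_lit 416) (nat_lit 361)) (XT.lf (nat_lit 0) (nat_lit 1343889545) (nat_lit 988) (nat_lit 4279637510) (nat_lit 1064) (nat_lit 2540705180) (nat_lit 359) (nat_lit 5) (nat_lit 372) (nat_lit 5) (nat_lit 373) (nat_lit 5) (nat_lit 424) (nat_lit 416) (nat_lit 360)))) (XT.nd (nat_lit 156) (nat_lit 0) (nat_lit 76) (XT.nd (nat_lit 78) (nat_lit 0) (nat_lit 76) (XT.lf (nat_lit 76) (nat_lit 83414659) (nat_lit 0) (nat_lit 2731345984) (nat_lit 1064) (nat_lit 5442770123) (nat_lit 360) (nat_lit 5) (nat_lit 359) (nat_lit 5) (nat_lit 373) (nat_lit 5) (nat_lit 425) (nat_lit 416) (nat_lit 359)) (XT.lf (nat_lit 0) (nat_lit 4330235737) (nat_lit 988) (nat_lit 3722657488) (nat_lit 1064) (nat_lit 300725465) (nat_lit 360) (nat_lit 5) (nat_lit 373) (nat_lit 5) (nat_lit 374) (nat_lit 5) (nat_lit 426) (nat_lit 416)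 (nat_lit 358))) (XT.nd (nat_lit 78) (nat_lit 0) (nat_lit 0) (XT.lf (nat_lit 76) (nat_lit 819641148) (nat_lit 0) (nat_lit 5062236385) (nat_lit 1064) (nat_lit 2570995276) (nat_lit 361) (nat_lit 5) (nat_lit 360) (nat_lit 5) (nat_lit 374) (nat_lit 5) (nat_lit 427) (nat_lit 416) (nat_lit 357)) (XT.lf (nat_lit 76) (nat_lit 5543175051) (nat_lit 0) (nat_lit 1931252247) (nat_lit 1064) (nat_lit 1080850990) (nat_lit 361) (nat_lit 5) (nat_lit 360) (nat_lit 5) (nat_lit 374) (nat_lit 5) (nat_lit 428) (nat_lit 416) (nat_lit 356)))))) (XT.nd (nat_lit 624) (nat_lit 2660) (nat_lit 0) (XT.nd (nat_lit 312) (nat_lit 3420) (nat_lit 0) (XT.nd (nat_lit 156) (nat_lit 0) (nat_lit 0) (XT.nd (nat_lit 78) (nat_lit 0) (nat_lit 0) (XT.lf (nat_lit 0) (nat_lit 432281170) (nat_lit 1064) (nat_lit 6928061335) (nat_lit 1140) (nat_lit 1300672461) (nat_lit 347) (nat_lit 5) (nat_lit 361) (nat_lit 5) (nat_lit 362) (nat_lit 5) (nat_lit 429) (nat_lit 416)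 (nat_lit 355)) (XT.lf (nat_lit 0) (nat_lit 1977566384) (nat_lit 1064) (nat_lit 2149349290) (nat_lit 1140) (nat_lit 4642436647) (nat_lit 347) (nat_lit 5) (nat_lit 361) (nat_lit 5) (nat_lit 362) (nat_lit 5) (nat_lit 430) (nat_lit 416) (nat_lit 354))) (XT.nd (nat_lit 78) (nat_lit 0) (nat_lit 76) (XT.lf (nat_lit 76) (nat_lit 2795902190) (nat_lit 0) (nat_lit 760032747) (nat_lit 1140) (nat_lit 5325407114) (nat_lit 348) (nat_lit 5) (nat_lit 347) (nat_lit 5) (nat_lit 362) (nat_lit 5) (nat_lit 431) (nat_lit 416) (nat_lit 353)) (XT.lf (nat_lit 0) (nat_lit 5190401752) (nat_lit 1064) (nat_lit 1121047634) (nat_lit 76) (nat_lit 2684983548) (nat_lit 348) (nat_lit 5) (nat_lit 362) (nat_lit 5) (nat_lit 349) (nat_lit 5) (nat_lit 432) (nat_lit 416) (nat_lit 352)))) (XT.nd (nat_lit 156) (nat_lit 1292) (nat_lit 0) (XT.nd (nat_lit 78) (nat_lit 1140) (nat_lit 0) (XT.lf (nat_lit 0) (nat_lit 4032039051) (nat_lit 1064) (nat_lit 2850087337)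 (nat_lit 1140) (nat_lit 2232607208) (nat_lit 334) (nat_lit 5) (nat_lit 348) (nat_lit 5) (nat_lit 349) (nat_lit 5) (nat_lit 433) (nat_lit 416) (nat_lit 351)) (XT.lf (nat_lit 0) (nat_lit 88939876) (nat_lit 1140) (nat_lit 8517633746) (nat_lit 1216) (nat_lit 630554187) (nat_lit 319) (nat_lit 5) (nat_lit 334) (nat_lit 5) (nat_lit 335) (nat_lit 5) (nat_lit 434) (nat_lit 416) (nat_lit 350))) (XT.nd (nat_lit 78) (nat_lit 1216) (nat_lit 0) (XT.lf (nat_lit 0) (nat_lit 1042938652) (nat_lit 1216) (nat_lit 3912951591) (nat_lit 76) (nat_lit 4405714827) (nat_lit 318) (nat_lit 5) (nat_lit 334) (nat_lit 5) (nat_lit 319) (nat_lit 5) (nat_lit 435) (nat_lit 416) (nat_lit 349)) (XT.lf (nat_lit 0) (nat_lit 1470053118) (nat_lit 1216) (nat_lit 1262333331) (nat_lit 1292) (nat_lit 6757893542) (nat_lit 302) (nat_lit 5) (nat_lit 318) (nat_lit 5) (nat_lit 319) (nat_lit 5) (nat_lit 436) (nat_lit 416) (nat_lit 348))))) (XT.nd (nat_lit 312) (nat_lit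 1140) (nat_lit 0) (XT.nd (nat_lit 156) (nat_lit 684) (nat_lit 0) (XT.nd (nat_lit 78) (nat_lit 836) (nat_lit 0) (XT.lf (nat_lit 0) (nat_lit 4501922327) (nat_lit 1292) (nat_lit 2584203885) (nat_lit 76) (nat_lit 2535810057) (nat_lit 302) (nat_lit 5) (nat_lit 319) (nat_lit 5) (nat_lit 303) (nat_lit 5) (nat_lit 437) (nat_lit 416) (nat_lit 347)) (XT.lf (nat_lit 0) (nat_lit 3029966823) (nat_lit 836) (nat_lit 3302283972) (nat_lit 912) (nat_lit 3425063398) (nat_lit 291) (nat_lit 5) (nat_lit 302) (nat_lit 5) (nat_lit 303) (nat_lit 5) (nat_lit 438) (nat_lit 416) (nat_lit 346))) (XT.nd (nat_lit 78) (nat_lit 684) (nat_lit 0) (XT.lf (nat_lit 0) (nat_lit 8216351884) (nat_lit 912) (nat_lit 1068682647) (nat_lit 76) (nat_lit 611756106) (nat_lit 291) (nat_lit 5) (nat_lit 303) (nat_lit 5) (nat_lit 292) (nat_lit 5) (nat_lit 439) (nat_lit 416) (nat_lit 345)) (XT.lf (nat_lit 0) (nat_lit 161196605) (nat_lit 684) (nat_lit 5251469826) (nat_lit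 76) (nat_lit 4626345851) (nat_lit 282) (nat_lit 5) (nat_lit 291) (nat_lit 5) (nat_lit 283) (nat_lit 5) (nat_lit 440) (nat_lit 416) (nat_lit 344)))) (XT.nd (nat_lit 156) (nat_lit 532) (nat_lit 0) (XT.nd (nat_lit 78) (nat_lit 0) (nat_lit 0) (XT.lf (nat_lit 0) (nat_lit 619874801) (nat_lit 608) (nat_lit 1389369441) (nat_lit 684) (nat_lit 8176211845) (nat_lit 274) (nat_lit 5) (nat_lit 282) (nat_lit 5) (nat_lit 283) (nat_lit 5) (nat_lit 441) (nat_lit 416) (nat_lit 343)) (XT.lf (nat_lit 0) (nat_lit 3961476103) (nat_lit 684) (nat_lit 3618987990) (nat_lit 76) (nat_lit 2754369550) (nat_lit 274) (nat_lit 5) (nat_lit 283) (nat_lit 5) (nat_lit 275) (nat_lit 5) (nat_lit 442) (nat_lit 416) (nat_lit 342))) (XT.nd (nat_lit 78) (nat_lit 0) (nat_lit 0) (XT.lf (nat_lit 0) (nat_lit 2509872932) (nat_lit 532) (nat_lit 3469904987) (nat_lit 608) (nat_lit 4508692160) (nat_lit 267) (nat_lit 5) (nat_lit 274) (nat_lit 5) (nat_lit 275) (nat_lit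 5) (nat_lit 443) (nat_lit 416) (nat_lit 341)) (XT.lf (nat_lit 0) (nat_lit 8073073906) (nat_lit 608) (nat_lit 1788467142) (nat_lit 76) (nat_lit 784743770) (nat_lit 267) (nat_lit 5) (nat_lit 275) (nat_lit 5) (nat_lit 268) (nat_lit 5) (nat_lit 444) (nat_lit 416) (nat_lit 340))))))) (XT.nd (nat_lit 1248) (nat_lit 3344) (nat_lit 0) (XT.nd (nat_lit 624) (nat_lit 2280) (nat_lit 0) (XT.nd (nat_lit 312) (nat_lit 988) (nat_lit 0) (XT.nd (nat_lit 156) (nat_lit 532) (nat_lit 0) (XT.nd (nat_lit 78) (nat_lit 608) (nat_lit 0) (XT.lf (nat_lit 0) (nat_lit 4612010455) (nat_lit 608) (nat_lit 5666910237) (nat_lit 684) (nat_lit 528423240) (nat_lit 259) (nat_lit 5) (nat_lit 267) (nat_lit 5) (nat_lit 268) (nat_lit 5) (nat_lit 445) (nat_lit 416) (nat_lit 339)) (XT.lf (nat_lit 0) (nat_lit 226275080) (nat_lit 532) (nat_lit 1312387420) (nat_lit 608) (nat_lit 9434367453) (nat_lit 251) (nat_lit 5) (nat_lit 258) (nat_lit 5) (nat_lit 259) (nat_lit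 5) (nat_lit 446) (nat_lit 416) (nat_lit 338))) (XT.nd (nat_lit 78) (nat_lit 532) (nat_lit 0) (XT.lf (nat_lit 0) (nat_lit 3722656428) (nat_lit 608) (nat_lit 4242408999) (nat_lit 76) (nat_lit 3176500958) (nat_lit 251) (nat_lit 5) (nat_lit 259) (nat_lit 5) (nat_lit 252) (nat_lit 5) (nat_lit 447) (nat_lit 416) (nat_lit 337)) (XT.lf (nat_lit 0) (nat_lit 2461247253) (nat_lit 532) (nat_lit 3520233780) (nat_lit 608) (nat_lit 5333400762) (nat_lit 244) (nat_lit 5) (nat_lit 251) (nat_lit 5) (nat_lit 252) (nat_lit 5) (nat_lit 448) (nat_lit 416) (nat_lit 336)))) (XT.nd (nat_lit 156) (nat_lit 532) (nat_lit 0) (XT.nd (nat_lit 78) (nat_lit 456) (nat_lit 0) (XT.lf (nat_lit 0) (nat_lit 8334629063) (nat_lit 608) (nat_lit 2081049824) (nat_lit 76) (nat_lit 1076923168) (nat_lit 244) (nat_lit 5) (nat_lit 252) (nat_lit 5) (nat_lit 245) (nat_lit 5) (nat_lit 449) (nat_lit 416) (nat_lit 335)) (XT.lf (nat_lit 0) (nat_lit 4925563417) (nat_lit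 456) (nat_lit 5888917136) (nat_lit 532) (nat_lit 859492184) (nat_lit 238) (nat_lit 5) (nat_lit 244) (nat_lit 5) (nat_lit 245) (nat_lit 5) (nat_lit 450) (nat_lit 416) (nat_lit 334))) (XT.nd (nat_lit 78) (nat_lit 0) (nat_lit 0) (XT.lf (nat_lit 0) (nat_lit 285111106) (nat_lit 456) (nat_lit 1191492325) (nat_lit 532) (nat_lit 10383805644) (nat_lit 231) (nat_lit 5) (nat_lit 237) (nat_lit 5) (nat_lit 238) (nat_lit 5) (nat_lit 451) (nat_lit 416) (nat_lit 333)) (XT.lf (nat_lit 0) (nat_lit 3943920659) (nat_lit 532) (nat_lit 4457707924) (nat_lit 76) (nat_lit 3648204123) (nat_lit 231) (nat_lit 5) (nat_lit 238) (nat_lit 5) (nat_lit 232) (nat_lit 5) (nat_lit 452) (nat_lit 416) (nat_lit 332))))) (XT.nd (nat_lit 312) (nat_lit 912) (nat_lit 0) (XT.nd (nat_lit 156) (nat_lit 912) (nat_lit 0) (XT.nd (nat_lit 78) (nat_lit 0) (nat_lit 0) (XT.lf (nat_lit 0) (nat_lit 2887822575) (nat_lit 456) (nat_lit 3612270393) (nat_lit 532) (nat_lit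 5744402862) (nat_lit 225) (nat_lit 5) (nat_lit 231) (nat_lit 5) (nat_lit 232) (nat_lit 5) (nat_lit 453) (nat_lit 416) (nat_lit 331)) (XT.lf (nat_lit 0) (nat_lit 9166765061) (nat_lit 532) (nat_lit 1942216113) (nat_lit 76) (nat_lit 1335005036) (nat_lit 225) (nat_lit 5) (nat_lit 232) (nat_lit 5) (nat_lit 226) (nat_lit 5) (nat_lit 454) (nat_lit 416) (nat_lit 330))) (XT.nd (nat_lit 78) (nat_lit 456) (nat_lit 0) (XT.lf (nat_lit 0) (nat_lit 5741308740) (nat_lit 456) (nat_lit 6239450351) (nat_lit 532) (nat_lit 666684302) (nat_lit 219) (nat_lit 5) (nat_lit 225) (nat_lit 5) (nat_lit 226) (nat_lit 5) (nat_lit 455) (nat_lit 416) (nat_lit 329)) (XT.lf (nat_lit 0) (nat_lit 805000372) (nat_lit 380) (nat_lit 1181795770) (nat_lit 456) (nat_lit 10869504028) (nat_lit 213) (nat_lit 5) (nat_lit 218) (nat_lit 5) (nat_lit 219) (nat_lit 5) (nat_lit 456) (nat_lit 416) (nat_lit 328)))) (XT.nd (nat_lit 156) (nat_lit 456) (nat_lit 0) (XT.nd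 (nat_lit 78) (nat_lit 456) (nat_lit 0) (XT.lf (nat_lit 0) (nat_lit 4792505571) (nat_lit 456) (nat_lit 4256450489) (nat_lit 76) (nat_lit 4019689436) (nat_lit 213) (nat_lit 5) (nat_lit 219) (nat_lit 5) (nat_lit 214) (nat_lit 5) (nat_lit 457) (nat_lit 416) (nat_lit 327)) (XT.lf (nat_lit 0) (nat_lit 3805529666) (nat_lit 456) (nat_lit 3902691768) (nat_lit 532) (nat_lit 5578366244) (nat_lit 207) (nat_lit 5) (nat_lit 213) (nat_lit 5) (nat_lit 214) (nat_lit 5) (nat_lit 458) (nat_lit 416) (nat_lit 326))) (XT.nd (nat_lit 78) (nat_lit 456) (nat_lit 0) (XT.lf (nat_lit 0) (nat_lit 10746116012) (nat_lit 532) (nat_lit 1356603469) (nat_lit 76) (nat_lit 1407308935) (nat_lit 207) (nat_lit 5) (nat_lit 214) (nat_lit 5) (nat_lit 208) (nat_lit 5) (nat_lit 459) (nat_lit 416) (nat_lit 325)) (XT.lf (nat_lit 0) (nat_lit 218411349) (nat_lit 456) (nat_lit 6657332273) (nat_lit 76) (nat_lit 6861809145) (nat_lit 201) (nat_lit 5) (nat_lit 207)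 (nat_lit 5) (nat_lit 202) (nat_lit 5) (nat_lit 460) (nat_lit 416) (nat_lit 324)))))) (XT.nd (nat_lit 624) (nat_lit 1596) (nat_lit 0) (XT.nd (nat_lit 312) (nat_lit 1064) (nat_lit 0) (XT.nd (nat_lit 156) (nat_lit 304) (nat_lit 0) (XT.nd (nat_lit 78) (nat_lit 0) (nat_lit 0) (XT.lf (nat_lit 0) (nat_lit 1805327126) (nat_lit 380) (nat_lit 1439162913) (nat_lit 456) (nat_lit 10726298110) (nat_lit 196) (nat_lit 5) (nat_lit 201) (nat_lit 5) (nat_lit 202) (nat_lit 5) (nat_lit 461) (nat_lit 416) (nat_lit 323)) (XT.lf (nat_lit 0) (nat_lit 6448158932) (nat_lit 456) (nat_lit 3620469895) (nat_lit 76) (nat_lit 4139788868) (nat_lit 196) (nat_lit 5) (nat_lit 202) (nat_lit 5) (nat_lit 197) (nat_lit 5) (nat_lit 462) (nat_lit 416) (nat_lit 322))) (XT.nd (nat_lit 78) (nat_lit 0) (nat_lit 0) (XT.lf (nat_lit 0) (nat_lit 5240591288) (nat_lit 304) (nat_lit 4551508227) (nat_lit 380) (nat_lit 4659753066) (nat_lit 192) (nat_lit 5) (nat_lit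 196) (nat_lit 5) (nat_lit 197) (nat_lit 5) (nat_lit 463) (nat_lit 416) (nat_lit 321)) (XT.lf (nat_lit 0) (nat_lit 13263940700) (nat_lit 380) (nat_lit 299573967) (nat_lit 76) (nat_lit 1138249635) (nat_lit 192) (nat_lit 5) (nat_lit 197) (nat_lit 5) (nat_lit 193) (nat_lit 5) (nat_lit 464) (nat_lit 416) (nat_lit 320)))) (XT.nd (nat_lit 156) (nat_lit 304) (nat_lit 0) (XT.nd (nat_lit 78) (nat_lit 304) (nat_lit 0) (XT.lf (nat_lit 0) (nat_lit 1956949695) (nat_lit 456) (nat_lit 5993051265) (nat_lit 76) (nat_lit 7005244639) (nat_lit 186) (nat_lit 5) (nat_lit 192) (nat_lit 5) (nat_lit 187) (nat_lit 5) (nat_lit 465) (nat_lit 416) (nat_lit 319)) (XT.lf (nat_lit 0) (nat_lit 3314292165) (nat_lit 304) (nat_lit 2125781010) (nat_lit 380) (nat_lit 9775370063) (nat_lit 182) (nat_lit 5) (nat_lit 186) (nat_lit 5) (nat_lit 187) (nat_lit 5) (nat_lit 466) (nat_lit 416) (nat_lit 318))) (XT.nd (nat_lit 78) (nat_lit 304) (nat_lit 0) (XT.lf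 (nat_lit 0) (nat_lit 9106753587) (nat_lit 380) (nat_lit 2523810080) (nat_lit 76) (nat_lit 3850512365) (nat_lit 182) (nat_lit 5) (nat_lit 187) (nat_lit 5) (nat_lit 183) (nat_lit 5) (nat_lit 467) (nat_lit 416) (nat_lit 317)) (XT.lf (nat_lit 0) (nat_lit 7227601546) (nat_lit 304) (nat_lit 5727632768) (nat_lit 380) (nat_lit 2797290587) (nat_lit 178) (nat_lit 5) (nat_lit 182) (nat_lit 5) (nat_lit 183) (nat_lit 5) (nat_lit 468) (nat_lit 416) (nat_lit 316))))) (XT.nd (nat_lit 312) (nat_lit 912) (nat_lit 0) (XT.nd (nat_lit 156) (nat_lit 304) (nat_lit 0) (XT.nd (nat_lit 78) (nat_lit 0) (nat_lit 0) (XT.lf (nat_lit 0) (nat_lit 892936022) (nat_lit 380) (nat_lit 14754235166) (nat_lit 76) (nat_lit 383995464) (nat_lit 173) (nat_lit 5) (nat_lit 178) (nat_lit 5) (nat_lit 174) (nat_lit 5) (nat_lit 469) (nat_lit 416) (nat_lit 315)) (XT.lf (nat_lit 0) (nat_lit 4762870282) (nat_lit 380) (nat_lit 4880790557) (nat_lit 76) (nat_lit 6669920227)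 (nat_lit 173) (nat_lit 5) (nat_lit 178) (nat_lit 5) (nat_lit 174) (nat_lit 5) (nat_lit 470) (nat_lit 416) (nat_lit 314))) (XT.nd (nat_lit 78) (nat_lit 0) (nat_lit 0) (XT.lf (nat_lit 0) (nat_lit 5366843558) (nat_lit 304) (nat_lit 3415762035) (nat_lit 380) (nat_lit 7820852196) (nat_lit 169) (nat_lit 5) (nat_lit 173) (nat_lit 5) (nat_lit 174) (nat_lit 5) (nat_lit 471) (nat_lit 416) (nat_lit 313)) (XT.lf (nat_lit 0) (nat_lit 12983830262) (nat_lit 380) (nat_lit 934832561) (nat_lit 76) (nat_lit 2981542010) (nat_lit 169) (nat_lit 5) (nat_lit 174) (nat_lit 5) (nat_lit 170) (nat_lit 5) (nat_lit 472) (nat_lit 416) (nat_lit 312)))) (XT.nd (nat_lit 156) (nat_lit 228) (nat_lit 0) (XT.nd (nat_lit 78) (nat_lit 304) (nat_lit 0) (XT.lf (nat_lit 0) (nat_lit 215185981) (nat_lit 380) (nat_lit 7397214793) (nat_lit 76) (nat_lit 9590063986) (nat_lit 164) (nat_lit 5) (nat_lit 169) (nat_lit 5) (nat_lit 165) (nat_lit 5) (nat_lit 473) (nat_lit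 416) (nat_lit 311)) (XT.lf (nat_lit 0) (nat_lit 3373933582) (nat_lit 304) (nat_lit 1042904184) (nat_lit 380) (nat_lit 13095046510) (nat_lit 160) (nat_lit 5) (nat_lit 164) (nat_lit 5) (nat_lit 165) (nat_lit 5) (nat_lit 474) (nat_lit 416) (nat_lit 310))) (XT.nd (nat_lit 78) (nat_lit 228) (nat_lit 0) (XT.lf (nat_lit 0) (nat_lit 8858050518) (nat_lit 380) (nat_lit 3290637765) (nat_lit 76) (nat_lit 5678493583) (nat_lit 160) (nat_lit 5) (nat_lit 165) (nat_lit 5) (nat_lit 161) (nat_lit 5) (nat_lit 475) (nat_lit 416) (nat_lit 309)) (XT.lf (nat_lit 0) (nat_lit 8002305772) (nat_lit 228) (nat_lit 5500991250) (nat_lit 304) (nat_lit 4646518252) (nat_lit 157) (nat_lit 5) (nat_lit 160) (nat_lit 5) (nat_lit 161) (nat_lit 5) (nat_lit 476) (nat_lit 416) (nat_lit 308))))))))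
noncomputable def xc134 : XT := (XT.nd (nat_lit 2418) (nat_lit 2888) (nat_lit 0) (XT.nd (nat_lit 1170) (nat_lit 1976) (nat_lit 0) (XT.nd (nat_lit 546) (nat_lit 1216) (nat_lit 0) (XT.nd (nat_lit 234) (nat_lit 532) (nat_lit 0) (XT.nd (nat_lit 78) (nat_lit 304) (nat_lit 0) (XT.lf (nat_lit 0) (nat_lit 1204838523) (nat_lit 304) (nat_lit 17124837838) (nat_lit 380) (nat_lit 151198846) (nat_lit 153) (nat_lit 5) (nat_lit 157) (nat_lit 5) (nat_lit 158) (nat_lit 5) (nat_lit 477) (nat_lit 416) (nat_lit 307)) (XT.nd (nat_lit 78) (nat_lit 228) (nat_lit 0) (XT.lf (nat_lit 0) (nat_lit 4533294518) (nat_lit 380) (nat_lit 5837392580) (nat_lit 76) (nat_lit 8445637479) (nat_lit 152) (nat_lit 5) (nat_lit 157) (nat_lit 5) (nat_lit 153) (nat_lit 5) (nat_lit 478) (nat_lit 416) (nat_lit 306)) (XT.lf (nat_lit 0) (nat_lit 6035606548) (nat_lit 228) (nat_lit 3361933626) (nat_lit 304) (nat_lit 9762985369) (nat_lit 149) (nat_lit 5) (nat_lit 152)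 (nat_lit 5) (nat_lit 153) (nat_lit 5) (nat_lit 479) (nat_lit 416) (nat_lit 305)))) (XT.nd (nat_lit 156) (nat_lit 304) (nat_lit 0) (XT.nd (nat_lit 78) (nat_lit 228) (nat_lit 0) (XT.lf (nat_lit 0) (nat_lit 14488689129) (nat_lit 304) (nat_lit 1191703293) (nat_lit 76) (nat_lit 3832231537) (nat_lit 149) (nat_lit 5) (nat_lit 153) (nat_lit 5) (nat_lit 150) (nat_lit 5) (nat_lit 480) (nat_lit 416) (nat_lit 304)) (XT.lf (nat_lit 0) (nat_lit 11261493788) (nat_lit 228) (nat_lit 8597442309) (nat_lit 304) (nat_lit 12559002) (nat_lit 146) (nat_lit 5) (nat_lit 149) (nat_lit 5) (nat_lit 150) (nat_lit 5) (nat_lit 481) (nat_lit 416) (nat_lit 303))) (XT.nd (nat_lit 78) (nat_lit 0) (nat_lit 0) (XT.lf (nat_lit 0) (nat_lit 3873369174) (nat_lit 228) (nat_lit 1209581372) (nat_lit 304) (nat_lit 15155669428) (nat_lit 142) (nat_lit 5) (nat_lit 145) (nat_lit 5) (nat_lit 146) (nat_lit 5) (nat_lit 482) (nat_lit 416) (nat_lit 302)) (XT.lf (nat_lit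 0) (nat_lit 10465399035) (nat_lit 304) (nat_lit 3793577341) (nat_lit 76) (nat_lit 6353749329) (nat_lit 142) (nat_lit 5) (nat_lit 146) (nat_lit 5) (nat_lit 143) (nat_lit 5) (nat_lit 483) (nat_lit 416) (nat_lit 301))))) (XT.nd (nat_lit 312) (nat_lit 456) (nat_lit 0) (XT.nd (nat_lit 156) (nat_lit 228) (nat_lit 0) (XT.nd (nat_lit 78) (nat_lit 304) (nat_lit 0) (XT.lf (nat_lit 0) (nat_lit 9300821684) (nat_lit 228) (nat_lit 6795318600) (nat_lit 304) (nat_lit 4899310345) (nat_lit 139) (nat_lit 5) (nat_lit 142) (nat_lit 5) (nat_lit 143) (nat_lit 5) (nat_lit 484) (nat_lit 416) (nat_lit 300)) (XT.lf (nat_lit 0) (nat_lit 543702390) (nat_lit 304) (nat_lit 19920529824) (nat_lit 76) (nat_lit 923856716) (nat_lit 135) (nat_lit 5) (nat_lit 139) (nat_lit 5) (nat_lit 136) (nat_lit 5) (nat_lit 485) (nat_lit 416) (nat_lit 299))) (XT.nd (nat_lit 78) (nat_lit 228) (nat_lit 0) (XT.lf (nat_lit 0) (nat_lit 6223671548) (nat_lit 304) (nat_lit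 6665679646) (nat_lit 76) (nat_lit 8896536374) (nat_lit 135) (nat_lit 5) (nat_lit 139) (nat_lit 5) (nat_lit 136) (nat_lit 5) (nat_lit 486) (nat_lit 416) (nat_lit 298)) (XT.lf (nat_lit 0) (nat_lit 7102004006) (nat_lit 228) (nat_lit 5026319035) (nat_lit 304) (nat_lit 10065669163) (nat_lit 132) (nat_lit 5) (nat_lit 135) (nat_lit 5) (nat_lit 136) (nat_lit 5) (nat_lit 487) (nat_lit 416) (nat_lit 297)))) (XT.nd (nat_lit 156) (nat_lit 228) (nat_lit 0) (XT.nd (nat_lit 78) (nat_lit 228) (nat_lit 0) (XT.lf (nat_lit 0) (nat_lit 18293735611) (nat_lit 304) (nat_lit 1246657614) (nat_lit 76) (nat_lit 3071438629) (nat_lit 132) (nat_lit 5) (nat_lit 136) (nat_lit 5) (nat_lit 133) (nat_lit 5) (nat_lit 488) (nat_lit 416) (nat_lit 296)) (XT.lf (nat_lit 0) (nat_lit 1735416082) (nat_lit 228) (nat_lit 9855307199) (nat_lit 76) (nat_lit 11446078812) (nat_lit 129) (nat_lit 5) (nat_lit 132) (nat_lit 5) (nat_lit 130) (nat_lit 5) (nat_lit 489)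 (nat_lit 416) (nat_lit 295))) (XT.nd (nat_lit 78) (nat_lit 0) (nat_lit 0) (XT.lf (nat_lit 0) (nat_lit 4618291933) (nat_lit 228) (nat_lit 3309116746) (nat_lit 304) (nat_lit 15544520703) (nat_lit 126) (nat_lit 5) (nat_lit 129) (nat_lit 5) (nat_lit 130) (nat_lit 5) (nat_lit 490) (nat_lit 416) (nat_lit 294)) (XT.lf (nat_lit 0) (nat_lit 14442493642) (nat_lit 304) (nat_lit 4263111398) (nat_lit 76) (nat_lit 5210385934) (nat_lit 126) (nat_lit 5) (nat_lit 130) (nat_lit 5) (nat_lit 127) (nat_lit 5) (nat_lit 491) (nat_lit 416) (nat_lit 293)))))) (XT.nd (nat_lit 624) (nat_lit 912) (nat_lit 0) (XT.nd (nat_lit 312) (nat_lit 456) (nat_lit 0) (XT.nd (nat_lit 156) (nat_lit 152) (nat_lit 0) (XT.nd (nat_lit 78) (nat_lit 304) (nat_lit 0) (XT.lf (nat_lit 0) (nat_lit 10923249451) (nat_lit 152) (nat_lit 10354576403) (nat_lit 228) (nat_lit 3091805168) (nat_lit 124) (nat_lit 5) (nat_lit 126) (nat_lit 5) (nat_lit 127) (nat_lit 5) (nat_lit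 492) (nat_lit 416) (nat_lit 292)) (XT.lf (nat_lit 0) (nat_lit 1795845527) (nat_lit 228) (nat_lit 1665365662) (nat_lit 304) (nat_lit 21373231356) (nat_lit 120) (nat_lit 5) (nat_lit 123) (nat_lit 5) (nat_lit 124) (nat_lit 5) (nat_lit 493) (nat_lit 416) (nat_lit 291))) (XT.nd (nat_lit 78) (nat_lit 152) (nat_lit 0) (XT.lf (nat_lit 0) (nat_lit 10342969035) (nat_lit 304) (nat_lit 7662511383) (nat_lit 76) (nat_lit 7300971251) (nat_lit 120) (nat_lit 5) (nat_lit 124) (nat_lit 5) (nat_lit 121) (nat_lit 5) (nat_lit 494) (nat_lit 416) (nat_lit 290)) (XT.lf (nat_lit 0) (nat_lit 8298571098) (nat_lit 152) (nat_lit 9216386170) (nat_lit 228) (nat_lit 8275150868) (nat_lit 118) (nat_lit 5) (nat_lit 120) (nat_lit 5) (nat_lit 121) (nat_lit 5) (nat_lit 495) (nat_lit 416) (nat_lit 289)))) (XT.nd (nat_lit 156) (nat_lit 152) (nat_lit 0) (XT.nd (nat_lit 78) (nat_lit 304) (nat_lit 0) (XT.lf (nat_lit 0) (nat_lit 24874041117) (nat_lit 152)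 (nat_lit 93115013) (nat_lit 228) (nat_lit 1319167024) (nat_lit 118) (nat_lit 5) (nat_lit 120) (nat_lit 5) (nat_lit 121) (nat_lit 5) (nat_lit 496) (nat_lit 416) (nat_lit 288)) (XT.lf (nat_lit 0) (nat_lit 5958476132) (nat_lit 304) (nat_lit 11511045615) (nat_lit 76) (nat_lit 9319406130) (nat_lit 114) (nat_lit 5) (nat_lit 118) (nat_lit 5) (nat_lit 115) (nat_lit 5) (nat_lit 497) (nat_lit 416) (nat_lit 287))) (XT.nd (nat_lit 78) (nat_lit 0) (nat_lit 0) (XT.lf (nat_lit 0) (nat_lit 5258815428) (nat_lit 152) (nat_lit 8222973765) (nat_lit 228) (nat_lit 13822814435) (nat_lit 112) (nat_lit 5) (nat_lit 114) (nat_lit 5) (nat_lit 115) (nat_lit 5) (nat_lit 498) (nat_lit 416) (nat_lit 286)) (XT.lf (nat_lit 0) (nat_lit 21348737153) (nat_lit 228) (nat_lit 5099440483) (nat_lit 76) (nat_lit 1384034295) (nat_lit 112) (nat_lit 5) (nat_lit 115) (nat_lit 5) (nat_lit 113) (nat_lit 5) (nat_lit 499) (nat_lit 416) (nat_lit 285))))) (XT.nd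 (nat_lit 312) (nat_lit 380) (nat_lit 0) (XT.nd (nat_lit 156) (nat_lit 152) (nat_lit 0) (XT.nd (nat_lit 78) (nat_lit 152) (nat_lit 0) (XT.lf (nat_lit 0) (nat_lit 1246861426) (nat_lit 228) (nat_lit 15885068960) (nat_lit 76) (nat_lit 11237653695) (nat_lit 109) (nat_lit 5) (nat_lit 112) (nat_lit 5) (nat_lit 110) (nat_lit 5) (nat_lit 500) (nat_lit 416) (nat_lit 284)) (XT.lf (nat_lit 0) (nat_lit 1727325880) (nat_lit 152) (nat_lit 7408494850) (nat_lit 228) (nat_lit 19783620463) (nat_lit 107) (nat_lit 5) (nat_lit 109) (nat_lit 5) (nat_lit 110) (nat_lit 5) (nat_lit 501) (nat_lit 416) (nat_lit 283))) (XT.nd (nat_lit 78) (nat_lit 152) (nat_lit 0) (XT.lf (nat_lit 0) (nat_lit 17436971785) (nat_lit 228) (nat_lit 9334628132) (nat_lit 76) (nat_lit 2708928718) (nat_lit 107) (nat_lit 5) (nat_lit 110) (nat_lit 5) (nat_lit 108) (nat_lit 5) (nat_lit 502) (nat_lit 416) (nat_lit 282)) (XT.lf (nat_lit 0) (nat_lit 9143536723) (nat_lit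 152) (nat_lit 16993671241) (nat_lit 228) (nat_lit 3916739515) (nat_lit 105) (nat_lit 5) (nat_lit 107) (nat_lit 5) (nat_lit 108) (nat_lit 5) (nat_lit 503) (nat_lit 416) (nat_lit 281)))) (XT.nd (nat_lit 156) (nat_lit 152) (nat_lit 0) (XT.nd (nat_lit 78) (nat_lit 152) (nat_lit 0) (XT.lf (nat_lit 0) (nat_lit 4450996427) (nat_lit 228) (nat_lit 2338234689) (nat_lit 76) (nat_lit 23851532886) (nat_lit 104) (nat_lit 5) (nat_lit 107) (nat_lit 5) (nat_lit 105) (nat_lit 5) (nat_lit 504) (nat_lit 416) (nat_lit 280)) (XT.lf (nat_lit 0) (nat_lit 13181940836) (nat_lit 228) (nat_lit 14211337526) (nat_lit 76) (nat_lit 3845016573) (nat_lit 102) (nat_lit 5) (nat_lit 105) (nat_lit 5) (nat_lit 103) (nat_lit 5) (nat_lit 505) (nat_lit 416) (nat_lit 279))) (XT.nd (nat_lit 78) (nat_lit 0) (nat_lit 0) (XT.lf (nat_lit 0) (nat_lit 5182055787) (nat_lit 152) (nat_lit 17122838855) (nat_lit 228) (nat_lit 9544954986) (nat_lit 100) (nat_lit 5) (nat_lit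 102) (nat_lit 5) (nat_lit 103) (nat_lit 5) (nat_lit 506) (nat_lit 416) (nat_lit 278)) (XT.lf (nat_lit 0) (nat_lit 25429157348) (nat_lit 152) (nat_lit 6405216749) (nat_lit 228) (nat_lit 641392010) (nat_lit 100) (nat_lit 5) (nat_lit 102) (nat_lit 5) (nat_lit 103) (nat_lit 5) (nat_lit 507) (nat_lit 416) (nat_lit 277))))))) (XT.nd (nat_lit 1170) (nat_lit 1368) (nat_lit 0) (XT.nd (nat_lit 546) (nat_lit 684) (nat_lit 0) (XT.nd (nat_lit 234) (nat_lit 456) (nat_lit 0) (XT.nd (nat_lit 78) (nat_lit 152) (nat_lit 0) (XT.lf (nat_lit 0) (nat_lit 8526981041) (nat_lit 228) (nat_lit 19838883088) (nat_lit 76) (nat_lit 4747212329) (nat_lit 97) (nat_lit 5) (nat_lit 100) (nat_lit 5) (nat_lit 98) (nat_lit 5) (nat_lit 508) (nat_lit 416) (nat_lit 276)) (XT.nd (nat_lit 78) (nat_lit 0) (nat_lit 0) (XT.lf (nat_lit 0) (nat_lit 501921427) (nat_lit 152) (nat_lit 17585276420) (nat_lit 228) (nat_lit 15678227476) (nat_lit 95) (nat_lit 5) (nat_lit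 97) (nat_lit 5) (nat_lit 98) (nat_lit 5) (nat_lit 509) (nat_lit 416) (nat_lit 275)) (XT.lf (nat_lit 0) (nat_lit 21840718292) (nat_lit 152) (nat_lit 6283538111) (nat_lit 228) (nat_lit 6307387422) (nat_lit 95) (nat_lit 5) (nat_lit 97) (nat_lit 5) (nat_lit 98) (nat_lit 5) (nat_lit 510) (nat_lit 416) (nat_lit 274)))) (XT.nd (nat_lit 156) (nat_lit 228) (nat_lit 0) (XT.nd (nat_lit 78) (nat_lit 0) (nat_lit 0) (XT.lf (nat_lit 0) (nat_lit 3406604060) (nat_lit 228) (nat_lit 26343922550) (nat_lit 76) (nat_lit 5362539253) (nat_lit 92) (nat_lit 5) (nat_lit 95) (nat_lit 5) (nat_lit 93) (nat_lit 5) (nat_lit 511) (nat_lit 416) (nat_lit 273)) (XT.lf (nat_lit 0) (nat_lit 13465797702) (nat_lit 228) (nat_lit 4927518672) (nat_lit 76) (nat_lit 17414324274) (nat_lit 92) (nat_lit 5) (nat_lit 95) (nat_lit 5) (nat_lit 93) (nat_lit 5) (nat_lit 512) (nat_lit 416) (nat_lit 272))) (XT.nd (nat_lit 78) (nat_lit 76) (nat_lit 0) (XT.lf (nat_lit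 0) (nat_lit 17453910844) (nat_lit 152) (nat_lit 6530865920) (nat_lit 228) (nat_lit 12533535827) (nat_lit 90) (nat_lit 5) (nat_lit 92) (nat_lit 5) (nat_lit 93) (nat_lit 5) (nat_lit 513) (nat_lit 416) (nat_lit 271)) (XT.lf (nat_lit 0) (nat_lit 3351120095) (nat_lit 76) (nat_lit 31595605928) (nat_lit 152) (nat_lit 2299756839) (nat_lit 89) (nat_lit 5) (nat_lit 90) (nat_lit 5) (nat_lit 91) (nat_lit 4) (nat_lit 514) (nat_lit 416) (nat_lit 270))))) (XT.nd (nat_lit 312) (nat_lit 304) (nat_lit 0) (XT.nd (nat_lit 156) (nat_lit 152) (nat_lit 0) (XT.nd (nat_lit 78) (nat_lit 152) (nat_lit 0) (XT.lf (nat_lit 0) (nat_lit 8329585854) (nat_lit 152) (nat_lit 11324704905) (nat_lit 76) (nat_lit 18332350253) (nat_lit 88) (nat_lit 5) (nat_lit 90) (nat_lit 5) (nat_lit 89) (nat_lit 5) (nat_lit 515) (nat_lit 416) (nat_lit 269)) (XT.lf (nat_lit 0) (nat_lit 12119214475) (nat_lit 152) (nat_lit 7219433323) (nat_lit 228) (nat_lit 19406461338)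 (nat_lit 86) (nat_lit 5) (nat_lit 88) (nat_lit 5) (nat_lit 89) (nat_lit 5) (nat_lit 516) (nat_lit 416) (nat_lit 268))) (XT.nd (nat_lit 78) (nat_lit 152) (nat_lit 0) (XT.lf (nat_lit 0) (nat_lit 30837785318) (nat_lit 228) (nat_lit 3096763750) (nat_lit 76) (nat_lit 5586988297) (nat_lit 86) (nat_lit 5) (nat_lit 89) (nat_lit 5) (nat_lit 87) (nat_lit 4) (nat_lit 517) (nat_lit 416) (nat_lit 267)) (XT.lf (nat_lit 0) (nat_lit 2585951492) (nat_lit 152) (nat_lit 18869953433) (nat_lit 76) (nat_lit 18856531598) (nat_lit 84) (nat_lit 5) (nat_lit 86) (nat_lit 5) (nat_lit 85) (nat_lit 5) (nat_lit 518) (nat_lit 416) (nat_lit 266)))) (XT.nd (nat_lit 156) (nat_lit 152) (nat_lit 0) (XT.nd (nat_lit 78) (nat_lit 0) (nat_lit 0) (XT.lf (nat_lit 0) (nat_lit 5662360034) (nat_lit 152) (nat_lit 8433744228) (nat_lit 228) (nat_lit 27026072432) (nat_lit 82) (nat_lit 5) (nat_lit 84) (nat_lit 5) (nat_lit 85) (nat_lit 5) (nat_lit 519) (nat_lit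 416) (nat_lit 265)) (XT.lf (nat_lit 0) (nat_lit 26182768298) (nat_lit 228) (nat_lit 10699918508) (nat_lit 76) (nat_lit 5066586219) (nat_lit 82) (nat_lit 5) (nat_lit 85) (nat_lit 5) (nat_lit 83) (nat_lit 4) (nat_lit 520) (nat_lit 416) (nat_lit 264))) (XT.nd (nat_lit 78) (nat_lit 76) (nat_lit 0) (XT.lf (nat_lit 0) (nat_lit 14995248815) (nat_lit 76) (nat_lit 23855602709) (nat_lit 152) (nat_lit 3943766293) (nat_lit 81) (nat_lit 5) (nat_lit 82) (nat_lit 5) (nat_lit 83) (nat_lit 4) (nat_lit 521) (nat_lit 416) (nat_lit 263)) (XT.lf (nat_lit 0) (nat_lit 8173289545) (nat_lit 152) (nat_lit 2078338349) (nat_lit 76) (nat_lit 33408311689) (nat_lit 80) (nat_lit 5) (nat_lit 82) (nat_lit 5) (nat_lit 81) (nat_lit 5) (nat_lit 522) (nat_lit 416) (nat_lit 262)))))) (XT.nd (nat_lit 624) (nat_lit 608) (nat_lit 0) (XT.nd (nat_lit 312) (nat_lit 304) (nat_lit 0) (XT.nd (nat_lit 156) (nat_lit 228) (nat_lit 0) (XT.nd (nat_lit 78) (nat_lit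 76) (nat_lit 0) (XT.lf (nat_lit 0) (nat_lit 20843674230) (nat_lit 228) (nat_lit 19738061987) (nat_lit 76) (nat_lit 3960241016) (nat_lit 78) (nat_lit 5) (nat_lit 81) (nat_lit 5) (nat_lit 79) (nat_lit 4) (nat_lit 523) (nat_lit 416) (nat_lit 261)) (XT.lf (nat_lit 0) (nat_lit 7106164527) (nat_lit 76) (nat_lit 26970476070) (nat_lit 152) (nat_lit 11368361445) (nat_lit 77) (nat_lit 5) (nat_lit 78) (nat_lit 5) (nat_lit 79) (nat_lit 4) (nat_lit 524) (nat_lit 416) (nat_lit 260))) (XT.nd (nat_lit 78) (nat_lit 152) (nat_lit 0) (XT.lf (nat_lit 0) (nat_lit 1498261527) (nat_lit 152) (nat_lit 11239780073) (nat_lit 76) (nat_lit 33630909200) (nat_lit 76) (nat_lit 5) (nat_lit 78) (nat_lit 5) (nat_lit 77) (nat_lit 5) (nat_lit 525) (nat_lit 416) (nat_lit 259)) (XT.lf (nat_lit 0) (nat_lit 14697428399) (nat_lit 228) (nat_lit 30460519971) (nat_lit 76) (nat_lit 2154041890) (nat_lit 74) (nat_lit 5) (nat_lit 77) (nat_lit 5) (nat_lit 75)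 (nat_lit 4) (nat_lit 526) (nat_lit 416) (nat_lit 258)))) (XT.nd (nat_lit 156) (nat_lit 228) (nat_lit 0) (XT.nd (nat_lit 78) (nat_lit 76) (nat_lit 0) (XT.lf (nat_lit 0) (nat_lit 28525057566) (nat_lit 228) (nat_lit 2407043216) (nat_lit 76) (nat_lit 17344245622) (nat_lit 74) (nat_lit 5) (nat_lit 77) (nat_lit 5) (nat_lit 75) (nat_lit 4) (nat_lit 527) (nat_lit 416) (nat_lit 257)) (XT.lf (nat_lit 0) (nat_lit 26999609158) (nat_lit 76) (nat_lit 16019428225) (nat_lit 152) (nat_lit 6243050311) (nat_lit 73) (nat_lit 5) (nat_lit 74) (nat_lit 5) (nat_lit 75) (nat_lit 4) (nat_lit 528) (nat_lit 416) (nat_lit 256))) (XT.nd (nat_lit 78) (nat_lit 0) (nat_lit 0) (XT.lf (nat_lit 0) (nat_lit 7110613343) (nat_lit 152) (nat_lit 495037192) (nat_lit 228) (nat_lit 42666992019) (nat_lit 70) (nat_lit 5) (nat_lit 72) (nat_lit 5) (nat_lit 73) (nat_lit 5) (nat_lit 529) (nat_lit 416) (nat_lit 255)) (XT.lf (nat_lit 0) (nat_lit 22112327128) (nat_lit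 228) (nat_lit 13713815342) (nat_lit 76) (nat_lit 15474477508) (nat_lit 70) (nat_lit 5) (nat_lit 73) (nat_lit 5) (nat_lit 71) (nat_lit 4) (nat_lit 530) (nat_lit 416) (nat_lit 254))))) (XT.nd (nat_lit 312) (nat_lit 228) (nat_lit 0) (XT.nd (nat_lit 156) (nat_lit 304) (nat_lit 0) (XT.nd (nat_lit 78) (nat_lit 0) (nat_lit 0) (XT.lf (nat_lit 0) (nat_lit 16928407863) (nat_lit 76) (nat_lit 20285668787) (nat_lit 152) (nat_lit 15140563999) (nat_lit 69) (nat_lit 5) (nat_lit 70) (nat_lit 5) (nat_lit 71) (nat_lit 4) (nat_lit 531) (nat_lit 416) (nat_lit 253)) (XT.lf (nat_lit 0) (nat_lit 48756293387) (nat_lit 76) (nat_lit 4143397311) (nat_lit 152) (nat_lit 536666979) (nat_lit 69) (nat_lit 5) (nat_lit 70) (nat_lit 5) (nat_lit 71) (nat_lit 4) (nat_lit 532) (nat_lit 416) (nat_lit 252))) (XT.nd (nat_lit 78) (nat_lit 76) (nat_lit 0) (XT.lf (nat_lit 0) (nat_lit 14601773153) (nat_lit 228) (nat_lit 27293919479) (nat_lit 76) (nat_lit 12639266317)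 (nat_lit 66) (nat_lit 5) (nat_lit 69) (nat_lit 5) (nat_lit 67) (nat_lit 4) (nat_lit 533) (nat_lit 416) (nat_lit 251)) (XT.lf (nat_lit 0) (nat_lit 4578693474) (nat_lit 76) (nat_lit 25730145434) (nat_lit 152) (nat_lit 25353762269) (nat_lit 65) (nat_lit 5) (nat_lit 66) (nat_lit 5) (nat_lit 67) (nat_lit 4) (nat_lit 534) (nat_lit 416) (nat_lit 250)))) (XT.nd (nat_lit 156) (nat_lit 76) (nat_lit 0) (XT.nd (nat_lit 78) (nat_lit 152) (nat_lit 0) (XT.lf (nat_lit 0) (nat_lit 37952664437) (nat_lit 76) (nat_lit 8802642797) (nat_lit 152) (nat_lit 10060719809) (nat_lit 65) (nat_lit 5) (nat_lit 66) (nat_lit 5) (nat_lit 67) (nat_lit 4) (nat_lit 535) (nat_lit 416) (nat_lit 249)) (XT.lf (nat_lit 0) (nat_lit 5797378426) (nat_lit 152) (nat_lit 43544534410) (nat_lit 76) (nat_lit 8653982178) (nat_lit 63) (nat_lit 5) (nat_lit 65) (nat_lit 5) (nat_lit 64) (nat_lit 4) (nat_lit 536) (nat_lit 416) (nat_lit 248))) (XT.nd (nat_lit 78) (nat_lit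 76) (nat_lit 0) (XT.lf (nat_lit 0) (nat_lit 22201267096) (nat_lit 152) (nat_lit 10255951322) (nat_lit 76) (nat_lit 26742784615) (nat_lit 63) (nat_lit 5) (nat_lit 65) (nat_lit 5) (nat_lit 64) (nat_lit 4) (nat_lit 537) (nat_lit 416) (nat_lit 247)) (XT.lf (nat_lit 0) (nat_lit 24495636083) (nat_lit 76) (nat_lit 14830049176) (nat_lit 152) (nat_lit 21107696726) (nat_lit 62) (nat_lit 5) (nat_lit 63) (nat_lit 5) (nat_lit 64) (nat_lit 4) (nat_lit 538) (nat_lit 416) (nat_lit 246))))))))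
noncomputable def xc135 : XT := (XT.nd (nat_lit 54288) (nat_lit 0) (nat_lit 10412) (XT.nd (nat_lit 53040) (nat_lit 0) (nat_lit 21584) (XT.nd (nat_lit 546) (nat_lit 456) (nat_lit 0) (XT.nd (nat_lit 234) (nat_lit 228) (nat_lit 0) (XT.nd (nat_lit 78) (nat_lit 228) (nat_lit 0) (XT.lf (nat_lit 0) (nat_lit 57093355751) (nat_lit 152) (nat_lit 1247307629) (nat_lit 0) (nat_lit 3359213408) (nat_lit 62) (nat_lit 5) (nat_lit 64) (nat_lit 4) (nat_lit 62) (nat_lit 4) (nat_lit 539) (nat_lit 416) (nat_lit 245)) (XT.nd (nat_lit 78) (nat_lit 76) (nat_lit 0) (XT.lf (nat_lit 0) (nat_lit 12629143261) (nat_lit 152) (nat_lit 28107031120) (nat_lit 76) (nat_lit 22250182585) (nat_lit 60) (nat_lit 5) (nat_lit 62) (nat_lit 5) (nat_lit 61) (nat_lit 4) (nat_lit 540) (nat_lit 416) (nat_lit 244)) (XT.lf (nat_lit 0) (nat_lit 7899413421) (nat_lit 76) (nat_lit 22471700989) (nat_lit 152) (nat_lit 33936494231) (nat_lit 59) (nat_lit 5) (nat_lit 60)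 (nat_lit 5) (nat_lit 61) (nat_lit 4) (nat_lit 541) (nat_lit 416) (nat_lit 243)))) (XT.nd (nat_lit 156) (nat_lit 76) (nat_lit 0) (XT.nd (nat_lit 78) (nat_lit 152) (nat_lit 0) (XT.lf (nat_lit 0) (nat_lit 45549076017) (nat_lit 76) (nat_lit 3373336573) (nat_lit 152) (nat_lit 16737773308) (nat_lit 59) (nat_lit 5) (nat_lit 60) (nat_lit 5) (nat_lit 61) (nat_lit 4) (nat_lit 542) (nat_lit 416) (nat_lit 242)) (XT.lf (nat_lit 0) (nat_lit 1278736809) (nat_lit 152) (nat_lit 49610589858) (nat_lit 76) (nat_lit 16154105432) (nat_lit 57) (nat_lit 5) (nat_lit 59) (nat_lit 5) (nat_lit 58) (nat_lit 4) (nat_lit 543) (nat_lit 416) (nat_lit 241))) (XT.nd (nat_lit 78) (nat_lit 76) (nat_lit 0) (XT.lf (nat_lit 0) (nat_lit 19731206841) (nat_lit 152) (nat_lit 12160744564) (nat_lit 76) (nat_lit 36564296408) (nat_lit 57) (nat_lit 5) (nat_lit 59) (nat_lit 5) (nat_lit 58) (nat_lit 4) (nat_lit 544) (nat_lit 416) (nat_lit 240)) (XT.lf (nat_lit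 0) (nat_lit 26925483322) (nat_lit 76) (nat_lit 12064168970) (nat_lit 152) (nat_lit 30914223727) (nat_lit 56) (nat_lit 5) (nat_lit 57) (nat_lit 5) (nat_lit 58) (nat_lit 4) (nat_lit 545) (nat_lit 416) (nat_lit 239))))) (XT.nd (nat_lit 312) (nat_lit 228) (nat_lit 0) (XT.nd (nat_lit 156) (nat_lit 76) (nat_lit 0) (XT.nd (nat_lit 78) (nat_lit 152) (nat_lit 0) (XT.lf (nat_lit 0) (nat_lit 59023799938) (nat_lit 152) (nat_lit 4051765735) (nat_lit 0) (nat_lit 8313428991) (nat_lit 56) (nat_lit 5) (nat_lit 58) (nat_lit 4) (nat_lit 56) (nat_lit 4) (nat_lit 546) (nat_lit 416) (nat_lit 238)) (XT.lf (nat_lit 0) (nat_lit 7078674148) (nat_lit 152) (nat_lit 36348364604) (nat_lit 76) (nat_lit 29475587515) (nat_lit 54) (nat_lit 5) (nat_lit 56) (nat_lit 5) (nat_lit 55) (nat_lit 4) (nat_lit 547) (nat_lit 416) (nat_lit 237))) (XT.nd (nat_lit 78) (nat_lit 0) (nat_lit 0) (XT.lf (nat_lit 0) (nat_lit 3943022397) (nat_lit 76) (nat_lit 22987309311)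 (nat_lit 152) (nat_lit 47525472311) (nat_lit 53) (nat_lit 5) (nat_lit 54) (nat_lit 5) (nat_lit 55) (nat_lit 4) (nat_lit 548) (nat_lit 416) (nat_lit 236)) (XT.lf (nat_lit 0) (nat_lit 46176201071) (nat_lit 76) (nat_lit 1562228527) (nat_lit 152) (nat_lit 28306320837) (nat_lit 53) (nat_lit 5) (nat_lit 54) (nat_lit 5) (nat_lit 55) (nat_lit 4) (nat_lit 549) (nat_lit 416) (nat_lit 235)))) (XT.nd (nat_lit 156) (nat_lit 76) (nat_lit 0) (XT.nd (nat_lit 78) (nat_lit 76) (nat_lit 0) (XT.lf (nat_lit 0) (nat_lit 12020634362) (nat_lit 76) (nat_lit 57456765827) (nat_lit 76) (nat_lit 8194766214) (nat_lit 52) (nat_lit 4) (nat_lit 53) (nat_lit 5) (nat_lit 53) (nat_lit 4) (nat_lit 550) (nat_lit 416) (nat_lit 234)) (XT.lf (nat_lit 0) (nat_lit 12589861398) (nat_lit 152) (nat_lit 23711224942) (nat_lit 76) (nat_lit 43034286842) (nat_lit 51) (nat_lit 5) (nat_lit 53) (nat_lit 5) (nat_lit 52) (nat_lit 4) (nat_lit 551) (nat_lit 416) (nat_lit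 233))) (XT.nd (nat_lit 51948) (nat_lit 0) (nat_lit 24244) (XT.lf (nat_lit 0) (nat_lit 19780658611) (nat_lit 76) (nat_lit 14236953530) (nat_lit 152) (nat_lit 47022901251) (nat_lit 50) (nat_lit 5) (nat_lit 51) (nat_lit 5) (nat_lit 52) (nat_lit 4) (nat_lit 552) (nat_lit 416) (nat_lit 232)) (XT.lf (nat_lit 0) (nat_lit 227351422) (nat_lit 988) (nat_lit 1803075358) (nat_lit 988) (nat_lit 1803075358) (nat_lit 369) (nat_lit 3) (nat_lit 382) (nat_lit 3) (nat_lit 382) (nat_lit 5) (nat_lit 417) (nat_lit 417) (nat_lit 366)))))) (XT.nd (nat_lit 624) (nat_lit 1824) (nat_lit 0) (XT.nd (nat_lit 312) (nat_lit 836) (nat_lit 0) (XT.nd (nat_lit 156) (nat_lit 0) (nat_lit 76) (XT.nd (nat_lit 78) (nat_lit 0) (nat_lit 76) (XT.lf (nat_lit 76) (nat_lit 204253666) (nat_lit 0) (nat_lit 1620056968) (nat_lit 988) (nat_lit 5916664740) (nat_lit 370) (nat_lit 5) (nat_lit 369) (nat_lit 3) (nat_lit 382) (nat_lit 5) (nat_lit 418) (nat_lit 417) (nat_lit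 365)) (XT.lf (nat_lit 0) (nat_lit 3227243169) (nat_lit 912) (nat_lit 3651884939) (nat_lit 988) (nat_lit 938276268) (nat_lit 370) (nat_lit 5) (nat_lit 382) (nat_lit 5) (nat_lit 383) (nat_lit 5) (nat_lit 419) (nat_lit 417) (nat_lit 364))) (XT.nd (nat_lit 78) (nat_lit 0) (nat_lit 0) (XT.lf (nat_lit 76) (nat_lit 310634228) (nat_lit 0) (nat_lit 4329070761) (nat_lit 988) (nat_lit 3257403717) (nat_lit 371) (nat_lit 5) (nat_lit 370) (nat_lit 5) (nat_lit 383) (nat_lit 5) (nat_lit 420) (nat_lit 417) (nat_lit 363)) (XT.lf (nat_lit 76) (nat_lit 4438288083) (nat_lit 0) (nat_lit 1642772138) (nat_lit 988) (nat_lit 1898553890) (nat_lit 371) (nat_lit 5) (nat_lit 370) (nat_lit 5) (nat_lit 383) (nat_lit 5) (nat_lit 421) (nat_lit 417) (nat_lit 362)))) (XT.nd (nat_lit 156) (nat_lit 0) (nat_lit 0) (XT.nd (nat_lit 78) (nat_lit 988) (nat_lit 0) (XT.lf (nat_lit 76) (nat_lit 596569361) (nat_lit 0) (nat_lit 6936939464) (nat_lit 988) (nat_lit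 532055640) (nat_lit 372) (nat_lit 5) (nat_lit 371) (nat_lit 5) (nat_lit 384) (nat_lit 5) (nat_lit 422) (nat_lit 417) (nat_lit 361)) (XT.lf (nat_lit 0) (nat_lit 862708574) (nat_lit 988) (nat_lit 3276974821) (nat_lit 1064) (nat_lit 4014031920) (nat_lit 358) (nat_lit 5) (nat_lit 371) (nat_lit 5) (nat_lit 372) (nat_lit 5) (nat_lit 423) (nat_lit 417) (nat_lit 360))) (XT.nd (nat_lit 78) (nat_lit 0) (nat_lit 76) (XT.lf (nat_lit 76) (nat_lit 1026327426) (nat_lit 0) (nat_lit 1225533364) (nat_lit 1064) (nat_lit 5993599614) (nat_lit 359) (nat_lit 5) (nat_lit 358) (nat_lit 5) (nat_lit 372) (nat_lit 5) (nat_lit 424) (nat_lit 417) (nat_lit 359)) (XT.lf (nat_lit 0) (nat_lit 3687791091) (nat_lit 988) (nat_lit 2860943801) (nat_lit 1064) (nat_lit 1791074618) (nat_lit 359) (nat_lit 5) (nat_lit 372) (nat_lit 5) (nat_lit 373) (nat_lit 5) (nat_lit 425) (nat_lit 417) (nat_lit 358))))) (XT.nd (nat_lit 312) (nat_lit 912) (nat_lit 0) (XT.nd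 (nat_lit 156) (nat_lit 988) (nat_lit 0) (XT.nd (nat_lit 78) (nat_lit 0) (nat_lit 0) (XT.lf (nat_lit 76) (nat_lit 1617832454) (nat_lit 0) (nat_lit 3532586871) (nat_lit 1064) (nat_lit 3287065795) (nat_lit 360) (nat_lit 5) (nat_lit 359) (nat_lit 5) (nat_lit 373) (nat_lit 5) (nat_lit 426) (nat_lit 417) (nat_lit 357)) (XT.lf (nat_lit 76) (nat_lit 6260314340) (nat_lit 0) (nat_lit 382438200) (nat_lit 1064) (nat_lit 1895768173) (nat_lit 360) (nat_lit 5) (nat_lit 359) (nat_lit 5) (nat_lit 373) (nat_lit 5) (nat_lit 427) (nat_lit 417) (nat_lit 356))) (XT.nd (nat_lit 78) (nat_lit 1064) (nat_lit 0) (XT.lf (nat_lit 76) (nat_lit 2388745225) (nat_lit 0) (nat_lit 5799904874) (nat_lit 1064) (nat_lit 453677809) (nat_lit 361) (nat_lit 5) (nat_lit 360) (nat_lit 5) (nat_lit 374) (nat_lit 5) (nat_lit 428) (nat_lit 417) (nat_lit 355)) (XT.lf (nat_lit 0) (nat_lit 997404557) (nat_lit 1064) (nat_lit 1550452647) (nat_lit 1140) (nat_lit 6201522888)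 (nat_lit 346) (nat_lit 5) (nat_lit 360) (nat_lit 5) (nat_lit 361) (nat_lit 5) (nat_lit 429) (nat_lit 417) (nat_lit 354)))) (XT.nd (nat_lit 156) (nat_lit 988) (nat_lit 0) (XT.nd (nat_lit 78) (nat_lit 0) (nat_lit 0) (XT.lf (nat_lit 0) (nat_lit 2483068306) (nat_lit 1064) (nat_lit 5543249848) (nat_lit 1140) (nat_lit 833189906) (nat_lit 347) (nat_lit 5) (nat_lit 361) (nat_lit 5) (nat_lit 362) (nat_lit 5) (nat_lit 430) (nat_lit 417) (nat_lit 353)) (XT.lf (nat_lit 0) (nat_lit 4015358134) (nat_lit 1064) (nat_lit 667564403) (nat_lit 1140) (nat_lit 4289959525) (nat_lit 347) (nat_lit 5) (nat_lit 361) (nat_lit 5) (nat_lit 362) (nat_lit 5) (nat_lit 431) (nat_lit 417) (nat_lit 352))) (XT.nd (nat_lit 78) (nat_lit 988) (nat_lit 0) (XT.lf (nat_lit 76) (nat_lit 4410885158) (nat_lit 0) (nat_lit 1187285325) (nat_lit 1140) (nat_lit 3491353952) (nat_lit 348) (nat_lit 5) (nat_lit 347) (nat_lit 5) (nat_lit 362) (nat_lit 5) (nat_lit 432)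 (nat_lit 417) (nat_lit 351)) (XT.lf (nat_lit 0) (nat_lit 399972060) (nat_lit 1064) (nat_lit 6825393959) (nat_lit 1140) (nat_lit 1984396752) (nat_lit 334) (nat_lit 5) (nat_lit 348) (nat_lit 5) (nat_lit 349) (nat_lit 5) (nat_lit 433) (nat_lit 417) (nat_lit 350))))))) (XT.nd (nat_lit 1248) (nat_lit 4332) (nat_lit 0) (XT.nd (nat_lit 624) (nat_lit 2888) (nat_lit 0) (XT.nd (nat_lit 312) (nat_lit 1520) (nat_lit 0) (XT.nd (nat_lit 156) (nat_lit 1216) (nat_lit 0) (XT.nd (nat_lit 78) (nat_lit 1216) (nat_lit 0) (XT.lf (nat_lit 0) (nat_lit 5684681292) (nat_lit 1064) (nat_lit 3239416264) (nat_lit 1140) (nat_lit 408832647) (nat_lit 334) (nat_lit 5) (nat_lit 348) (nat_lit 5) (nat_lit 349) (nat_lit 5) (nat_lit 434) (nat_lit 417) (nat_lit 349)) (XT.lf (nat_lit 0) (nat_lit 1175483245) (nat_lit 1216) (nat_lit 7805892389) (nat_lit 76) (nat_lit 478515050) (nat_lit 318) (nat_lit 5) (nat_lit 334) (nat_lit 5) (nat_lit 319) (nat_lit 5)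 (nat_lit 435) (nat_lit 417) (nat_lit 348))) (XT.nd (nat_lit 78) (nat_lit 1216) (nat_lit 0) (XT.lf (nat_lit 0) (nat_lit 2833722484) (nat_lit 1216) (nat_lit 2466749779) (nat_lit 76) (nat_lit 4289031199) (nat_lit 318) (nat_lit 5) (nat_lit 334) (nat_lit 5) (nat_lit 319) (nat_lit 5) (nat_lit 436) (nat_lit 417) (nat_lit 347)) (XT.lf (nat_lit 0) (nat_lit 3062415755) (nat_lit 1216) (nat_lit 1475073346) (nat_lit 1292) (nat_lit 5185645271) (nat_lit 302) (nat_lit 5) (nat_lit 318) (nat_lit 5) (nat_lit 319) (nat_lit 5) (nat_lit 437) (nat_lit 417) (nat_lit 346)))) (XT.nd (nat_lit 156) (nat_lit 684) (nat_lit 0) (XT.nd (nat_lit 78) (nat_lit 836) (nat_lit 0) (XT.lf (nat_lit 0) (nat_lit 6308290774) (nat_lit 1292) (nat_lit 1106588235) (nat_lit 76) (nat_lit 2445420600) (nat_lit 302) (nat_lit 5) (nat_lit 319) (nat_lit 5) (nat_lit 303) (nat_lit 5) (nat_lit 438) (nat_lit 417) (nat_lit 345)) (XT.lf (nat_lit 0) (nat_lit 4660761106) (nat_lit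 836) (nat_lit 3498891451) (nat_lit 912) (nat_lit 1841107138) (nat_lit 291) (nat_lit 5) (nat_lit 302) (nat_lit 5) (nat_lit 303) (nat_lit 5) (nat_lit 439) (nat_lit 417) (nat_lit 344))) (XT.nd (nat_lit 78) (nat_lit 76) (nat_lit 0) (XT.lf (nat_lit 0) (nat_lit 451867451) (nat_lit 608) (nat_lit 9604150298) (nat_lit 684) (nat_lit 89734844) (nat_lit 283) (nat_lit 5) (nat_lit 291) (nat_lit 5) (nat_lit 292) (nat_lit 5) (nat_lit 440) (nat_lit 417) (nat_lit 343)) (XT.lf (nat_lit 0) (nat_lit 1738839700) (nat_lit 684) (nat_lit 3848916090) (nat_lit 76) (nat_lit 4705104551) (nat_lit 282) (nat_lit 5) (nat_lit 291) (nat_lit 5) (nat_lit 283) (nat_lit 5) (nat_lit 441) (nat_lit 417) (nat_lit 342))))) (XT.nd (nat_lit 312) (nat_lit 1748) (nat_lit 0) (XT.nd (nat_lit 156) (nat_lit 532) (nat_lit 0) (XT.nd (nat_lit 78) (nat_lit 0) (nat_lit 0) (XT.lf (nat_lit 0) (nat_lit 2183273799) (nat_lit 608) (nat_lit 1428094639) (nat_lit 684) (nat_lit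 6833261856) (nat_lit 274) (nat_lit 5) (nat_lit 282) (nat_lit 5) (nat_lit 283) (nat_lit 5) (nat_lit 442) (nat_lit 417) (nat_lit 341)) (XT.lf (nat_lit 0) (nat_lit 5577286679) (nat_lit 684) (nat_lit 2182738391) (nat_lit 76) (nat_lit 2839814429) (nat_lit 274) (nat_lit 5) (nat_lit 283) (nat_lit 5) (nat_lit 275) (nat_lit 5) (nat_lit 443) (nat_lit 417) (nat_lit 340))) (XT.nd (nat_lit 78) (nat_lit 0) (nat_lit 0) (XT.lf (nat_lit 0) (nat_lit 4114843073) (nat_lit 532) (nat_lit 3512397678) (nat_lit 608) (nat_lit 3131714971) (nat_lit 267) (nat_lit 5) (nat_lit 274) (nat_lit 5) (nat_lit 275) (nat_lit 5) (nat_lit 444) (nat_lit 417) (nat_lit 339)) (XT.lf (nat_lit 0) (nat_lit 9741151244) (nat_lit 608) (nat_lit 314693747) (nat_lit 76) (nat_lit 866929125) (nat_lit 267) (nat_lit 5) (nat_lit 275) (nat_lit 5) (nat_lit 268) (nat_lit 5) (nat_lit 445) (nat_lit 417) (nat_lit 338)))) (XT.nd (nat_lit 156) (nat_lit 532) (nat_lit 0) (XT.nd (nat_lit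 78) (nat_lit 532) (nat_lit 0) (XT.lf (nat_lit 0) (nat_lit 879205174) (nat_lit 684) (nat_lit 4835274597) (nat_lit 76) (nat_lit 5374739976) (nat_lit 258) (nat_lit 5) (nat_lit 267) (nat_lit 5) (nat_lit 259) (nat_lit 5) (nat_lit 446) (nat_lit 417) (nat_lit 337)) (XT.lf (nat_lit 0) (nat_lit 1758645530) (nat_lit 532) (nat_lit 1212550731) (nat_lit 608) (nat_lit 8289321093) (nat_lit 251) (nat_lit 5) (nat_lit 258) (nat_lit 5) (nat_lit 259) (nat_lit 5) (nat_lit 447) (nat_lit 417) (nat_lit 336))) (XT.nd (nat_lit 78) (nat_lit 532) (nat_lit 0) (XT.lf (nat_lit 0) (nat_lit 5181629365) (nat_lit 608) (nat_lit 2849343851) (nat_lit 76) (nat_lit 3404312352) (nat_lit 251) (nat_lit 5) (nat_lit 259) (nat_lit 5) (nat_lit 252) (nat_lit 5) (nat_lit 448) (nat_lit 417) (nat_lit 335)) (XT.lf (nat_lit 0) (nat_lit 4040516820) (nat_lit 532) (nat_lit 3442931472) (nat_lit 608) (nat_lit 4131098436) (nat_lit 244) (nat_lit 5) (nat_lit 251) (nat_lit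 5) (nat_lit 252) (nat_lit 5) (nat_lit 449) (nat_lit 417) (nat_lit 334)))))) (XT.nd (nat_lit 624) (nat_lit 1976) (nat_lit 0) (XT.nd (nat_lit 312) (nat_lit 1368) (nat_lit 0) (XT.nd (nat_lit 156) (nat_lit 456) (nat_lit 0) (XT.nd (nat_lit 78) (nat_lit 532) (nat_lit 0) (XT.lf (nat_lit 0) (nat_lit 9870377706) (nat_lit 608) (nat_lit 644980897) (nat_lit 76) (nat_lit 1283347466) (nat_lit 244) (nat_lit 5) (nat_lit 252) (nat_lit 5) (nat_lit 245) (nat_lit 5) (nat_lit 450) (nat_lit 417) (nat_lit 333)) (XT.lf (nat_lit 0) (nat_lit 407121251) (nat_lit 532) (nat_lit 5433068228) (nat_lit 76) (nat_lit 6145907183) (nat_lit 237) (nat_lit 5) (nat_lit 244) (nat_lit 5) (nat_lit 238) (nat_lit 5) (nat_lit 451) (nat_lit 417) (nat_lit 332))) (XT.nd (nat_lit 78) (nat_lit 0) (nat_lit 0) (XT.lf (nat_lit 0) (nat_lit 1788151091) (nat_lit 456) (nat_lit 985100110) (nat_lit 532) (nat_lit 9405305622) (nat_lit 231) (nat_lit 5) (nat_lit 237) (nat_lit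 5) (nat_lit 238) (nat_lit 5) (nat_lit 452) (nat_lit 417) (nat_lit 331)) (XT.lf (nat_lit 0) (nat_lit 5280371517) (nat_lit 532) (nat_lit 3106173523) (nat_lit 76) (nat_lit 3988147353) (nat_lit 231) (nat_lit 5) (nat_lit 238) (nat_lit 5) (nat_lit 232) (nat_lit 5) (nat_lit 453) (nat_lit 417) (nat_lit 330)))) (XT.nd (nat_lit 156) (nat_lit 912) (nat_lit 0) (XT.nd (nat_lit 78) (nat_lit 0) (nat_lit 0) (XT.lf (nat_lit 0) (nat_lit 4445161463) (nat_lit 456) (nat_lit 3446725233) (nat_lit 532) (nat_lit 4683951645) (nat_lit 225) (nat_lit 5) (nat_lit 231) (nat_lit 5) (nat_lit 232) (nat_lit 5) (nat_lit 454) (nat_lit 417) (nat_lit 329)) (XT.lf (nat_lit 0) (nat_lit 10606257295) (nat_lit 532) (nat_lit 540226720) (nat_lit 76) (nat_lit 1635801048) (nat_lit 225) (nat_lit 5) (nat_lit 232) (nat_lit 5) (nat_lit 226) (nat_lit 5) (nat_lit 455) (nat_lit 417) (nat_lit 328))) (XT.nd (nat_lit 78) (nat_lit 380) (nat_lit 0) (XT.lf (nat_lit 0) (nat_lit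 482599555) (nat_lit 532) (nat_lit 5637692730) (nat_lit 76) (nat_lit 6872014780) (nat_lit 218) (nat_lit 5) (nat_lit 225) (nat_lit 5) (nat_lit 219) (nat_lit 5) (nat_lit 456) (nat_lit 417) (nat_lit 327)) (XT.lf (nat_lit 0) (nat_lit 2283773306) (nat_lit 380) (nat_lit 898827594) (nat_lit 456) (nat_lit 10025223497) (nat_lit 213) (nat_lit 5) (nat_lit 218) (nat_lit 5) (nat_lit 219) (nat_lit 5) (nat_lit 457) (nat_lit 417) (nat_lit 326))))) (XT.nd (nat_lit 312) (nat_lit 1064) (nat_lit 0) (XT.nd (nat_lit 156) (nat_lit 456) (nat_lit 0) (XT.nd (nat_lit 78) (nat_lit 456) (nat_lit 0) (XT.lf (nat_lit 0) (nat_lit 6042360098) (nat_lit 456) (nat_lit 2941690768) (nat_lit 76) (nat_lit 4443395156) (nat_lit 213) (nat_lit 5) (nat_lit 219) (nat_lit 5) (nat_lit 214) (nat_lit 5) (nat_lit 458) (nat_lit 417) (nat_lit 325)) (XT.lf (nat_lit 0) (nat_lit 5348007094) (nat_lit 456) (nat_lit 3679054245) (nat_lit 532) (nat_lit 4625421941) (nat_lit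 207) (nat_lit 5) (nat_lit 213) (nat_lit 5) (nat_lit 214) (nat_lit 5) (nat_lit 459) (nat_lit 417) (nat_lit 324))) (XT.nd (nat_lit 78) (nat_lit 76) (nat_lit 0) (XT.lf (nat_lit 0) (nat_lit 18336206) (nat_lit 380) (nat_lit 12109435130) (nat_lit 456) (nat_lit 1755707707) (nat_lit 202) (nat_lit 5) (nat_lit 207) (nat_lit 5) (nat_lit 208) (nat_lit 5) (nat_lit 460) (nat_lit 417) (nat_lit 323)) (XT.lf (nat_lit 0) (nat_lit 1277065647) (nat_lit 456) (nat_lit 5434640736) (nat_lit 76) (nat_lit 7406341976) (nat_lit 201) (nat_lit 5) (nat_lit 207) (nat_lit 5) (nat_lit 202) (nat_lit 5) (nat_lit 461) (nat_lit 417) (nat_lit 322)))) (XT.nd (nat_lit 156) (nat_lit 684) (nat_lit 0) (XT.nd (nat_lit 78) (nat_lit 0) (nat_lit 0) (XT.lf (nat_lit 0) (nat_lit 3267953234) (nat_lit 380) (nat_lit 1108868757) (nat_lit 456) (nat_lit 9981973931) (nat_lit 196) (nat_lit 5) (nat_lit 201) (nat_lit 5) (nat_lit 202) (nat_lit 5) (nat_lit 462) (nat_lit 417)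 (nat_lit 321)) (XT.lf (nat_lit 0) (nat_lit 7649940850) (nat_lit 456) (nat_lit 2334916854) (nat_lit 76) (nat_lit 4619498376) (nat_lit 196) (nat_lit 5) (nat_lit 202) (nat_lit 5) (nat_lit 197) (nat_lit 5) (nat_lit 463) (nat_lit 417) (nat_lit 320))) (XT.nd (nat_lit 78) (nat_lit 380) (nat_lit 0) (XT.lf (nat_lit 0) (nat_lit 6778307860) (nat_lit 304) (nat_lit 4299792946) (nat_lit 380) (nat_lit 3777478035) (nat_lit 192) (nat_lit 5) (nat_lit 196) (nat_lit 5) (nat_lit 197) (nat_lit 5) (nat_lit 464) (nat_lit 417) (nat_lit 319)) (XT.lf (nat_lit 0) (nat_lit 1078103637) (nat_lit 380) (nat_lit 13561080329) (nat_lit 456) (nat_lit 474253156) (nat_lit 187) (nat_lit 5) (nat_lit 192) (nat_lit 5) (nat_lit 193) (nat_lit 5) (nat_lit 465) (nat_lit 417) (nat_lit 318))))))))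
noncomputable def xc136 : XT := (XT.nd (nat_lit 2418) (nat_lit 3344) (nat_lit 0) (XT.nd (nat_lit 1170) (nat_lit 2356) (nat_lit 0) (XT.nd (nat_lit 546) (nat_lit 1520) (nat_lit 0) (XT.nd (nat_lit 234) (nat_lit 988) (nat_lit 0) (XT.nd (nat_lit 78) (nat_lit 304) (nat_lit 0) (XT.lf (nat_lit 0) (nat_lit 2976935634) (nat_lit 456) (nat_lit 4801415967) (nat_lit 76) (nat_lit 7596656149) (nat_lit 186) (nat_lit 5) (nat_lit 192) (nat_lit 5) (nat_lit 187) (nat_lit 5) (nat_lit 466) (nat_lit 417) (nat_lit 317)) (XT.nd (nat_lit 78) (nat_lit 0) (nat_lit 0) (XT.lf (nat_lit 0) (nat_lit 4771702404) (nat_lit 304) (nat_lit 1777905791) (nat_lit 380) (nat_lit 9093853120) (nat_lit 182) (nat_lit 5) (nat_lit 186) (nat_lit 5) (nat_lit 187) (nat_lit 5) (nat_lit 467) (nat_lit 417) (nat_lit 316)) (XT.lf (nat_lit 0) (nat_lit 10302567693) (nat_lit 380) (nat_lit 1257320814) (nat_lit 76) (nat_lit 4357887835) (nat_lit 182) (nat_lit 5) (nat_lit 187)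 (nat_lit 5) (nat_lit 183) (nat_lit 5) (nat_lit 468) (nat_lit 417) (nat_lit 315)))) (XT.nd (nat_lit 156) (nat_lit 304) (nat_lit 0) (XT.nd (nat_lit 78) (nat_lit 380) (nat_lit 0) (XT.lf (nat_lit 0) (nat_lit 8773474303) (nat_lit 304) (nat_lit 5478931950) (nat_lit 380) (nat_lit 1945386883) (nat_lit 178) (nat_lit 5) (nat_lit 182) (nat_lit 5) (nat_lit 183) (nat_lit 5) (nat_lit 469) (nat_lit 417) (nat_lit 314)) (XT.lf (nat_lit 0) (nat_lit 1827522913) (nat_lit 380) (nat_lit 13839694277) (nat_lit 76) (nat_lit 817601422) (nat_lit 173) (nat_lit 5) (nat_lit 178) (nat_lit 5) (nat_lit 174) (nat_lit 5) (nat_lit 470) (nat_lit 417) (nat_lit 313))) (XT.nd (nat_lit 78) (nat_lit 304) (nat_lit 0) (XT.lf (nat_lit 0) (nat_lit 5787114459) (nat_lit 380) (nat_lit 3709575493) (nat_lit 76) (nat_lit 7279810159) (nat_lit 173) (nat_lit 5) (nat_lit 178) (nat_lit 5) (nat_lit 174) (nat_lit 5) (nat_lit 471) (nat_lit 417) (nat_lit 312)) (XT.lf (nat_lit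 0) (nat_lit 6832569619) (nat_lit 304) (nat_lit 3081743361) (nat_lit 380) (nat_lit 7161155408) (nat_lit 169) (nat_lit 5) (nat_lit 173) (nat_lit 5) (nat_lit 174) (nat_lit 5) (nat_lit 472) (nat_lit 417) (nat_lit 311))))) (XT.nd (nat_lit 312) (nat_lit 836) (nat_lit 0) (XT.nd (nat_lit 156) (nat_lit 304) (nat_lit 0) (XT.nd (nat_lit 78) (nat_lit 76) (nat_lit 0) (XT.lf (nat_lit 0) (nat_lit 331571316) (nat_lit 304) (nat_lit 13891975724) (nat_lit 380) (nat_lit 3158112970) (nat_lit 165) (nat_lit 5) (nat_lit 169) (nat_lit 5) (nat_lit 170) (nat_lit 5) (nat_lit 473) (nat_lit 417) (nat_lit 310)) (XT.lf (nat_lit 0) (nat_lit 1064551451) (nat_lit 380) (nat_lit 6326961883) (nat_lit 76) (nat_lit 10301695740) (nat_lit 164) (nat_lit 5) (nat_lit 169) (nat_lit 5) (nat_lit 165) (nat_lit 5) (nat_lit 474) (nat_lit 417) (nat_lit 309))) (XT.nd (nat_lit 78) (nat_lit 0) (nat_lit 0) (XT.lf (nat_lit 0) (nat_lit 4754652617) (nat_lit 304) (nat_lit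 625348745) (nat_lit 380) (nat_lit 12632278587) (nat_lit 160) (nat_lit 5) (nat_lit 164) (nat_lit 5) (nat_lit 165) (nat_lit 5) (nat_lit 475) (nat_lit 417) (nat_lit 308)) (XT.lf (nat_lit 0) (nat_lit 9934445444) (nat_lit 380) (nat_lit 2127077935) (nat_lit 76) (nat_lit 6276114438) (nat_lit 160) (nat_lit 5) (nat_lit 165) (nat_lit 5) (nat_lit 161) (nat_lit 5) (nat_lit 476) (nat_lit 417) (nat_lit 307)))) (XT.nd (nat_lit 156) (nat_lit 228) (nat_lit 0) (XT.nd (nat_lit 78) (nat_lit 380) (nat_lit 0) (XT.lf (nat_lit 0) (nat_lit 9492278625) (nat_lit 228) (nat_lit 5215174293) (nat_lit 304) (nat_lit 3962846364) (nat_lit 157) (nat_lit 5) (nat_lit 160) (nat_lit 5) (nat_lit 161) (nat_lit 5) (nat_lit 477) (nat_lit 417) (nat_lit 306)) (XT.lf (nat_lit 0) (nat_lit 647258746) (nat_lit 380) (nat_lit 16519730135) (nat_lit 76) (nat_lit 1844322338) (nat_lit 152) (nat_lit 5) (nat_lit 157) (nat_lit 5) (nat_lit 153) (nat_lit 5) (nat_lit 478)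 (nat_lit 417) (nat_lit 305))) (XT.nd (nat_lit 78) (nat_lit 228) (nat_lit 0) (XT.lf (nat_lit 0) (nat_lit 5445948316) (nat_lit 380) (nat_lit 4776504035) (nat_lit 76) (nat_lit 9135026860) (nat_lit 152) (nat_lit 5) (nat_lit 157) (nat_lit 5) (nat_lit 153) (nat_lit 5) (nat_lit 479) (nat_lit 417) (nat_lit 304)) (XT.lf (nat_lit 0) (nat_lit 7440567319) (nat_lit 228) (nat_lit 3004697809) (nat_lit 304) (nat_lit 9267067798) (nat_lit 149) (nat_lit 5) (nat_lit 152) (nat_lit 5) (nat_lit 153) (nat_lit 5) (nat_lit 480) (nat_lit 417) (nat_lit 303)))))) (XT.nd (nat_lit 624) (nat_lit 1064) (nat_lit 0) (XT.nd (nat_lit 312) (nat_lit 760) (nat_lit 0) (XT.nd (nat_lit 156) (nat_lit 228) (nat_lit 0) (XT.nd (nat_lit 78) (nat_lit 304) (nat_lit 0) (XT.lf (nat_lit 0) (nat_lit 15671118955) (nat_lit 304) (nat_lit 21146159) (nat_lit 76) (nat_lit 4383271071) (nat_lit 149) (nat_lit 5) (nat_lit 153) (nat_lit 5) (nat_lit 150) (nat_lit 5) (nat_lit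 481) (nat_lit 417) (nat_lit 302)) (XT.lf (nat_lit 0) (nat_lit 732121718) (nat_lit 304) (nat_lit 7658840741) (nat_lit 76) (nat_lit 12054305571) (nat_lit 145) (nat_lit 5) (nat_lit 149) (nat_lit 5) (nat_lit 146) (nat_lit 5) (nat_lit 482) (nat_lit 417) (nat_lit 301))) (XT.nd (nat_lit 78) (nat_lit 0) (nat_lit 0) (XT.lf (nat_lit 0) (nat_lit 5187050274) (nat_lit 228) (nat_lit 783011415) (nat_lit 304) (nat_lit 14853647623) (nat_lit 142) (nat_lit 5) (nat_lit 145) (nat_lit 5) (nat_lit 146) (nat_lit 5) (nat_lit 483) (nat_lit 417) (nat_lit 300)) (XT.lf (nat_lit 0) (nat_lit 11496906535) (nat_lit 304) (nat_lit 2727675907) (nat_lit 76) (nat_lit 6984968976) (nat_lit 142) (nat_lit 5) (nat_lit 146) (nat_lit 5) (nat_lit 143) (nat_lit 5) (nat_lit 484) (nat_lit 417) (nat_lit 299)))) (XT.nd (nat_lit 156) (nat_lit 228) (nat_lit 0) (XT.nd (nat_lit 78) (nat_lit 304) (nat_lit 0) (XT.lf (nat_lit 0) (nat_lit 10747989317) (nat_lit 228) (nat_lit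 6538910225) (nat_lit 304) (nat_lit 4317149528) (nat_lit 139) (nat_lit 5) (nat_lit 142) (nat_lit 5) (nat_lit 143) (nat_lit 5) (nat_lit 485) (nat_lit 417) (nat_lit 298)) (XT.lf (nat_lit 0) (nat_lit 1269831590) (nat_lit 304) (nat_lit 19330625577) (nat_lit 76) (nat_lit 1407952714) (nat_lit 135) (nat_lit 5) (nat_lit 139) (nat_lit 5) (nat_lit 136) (nat_lit 5) (nat_lit 486) (nat_lit 417) (nat_lit 297))) (XT.nd (nat_lit 78) (nat_lit 228) (nat_lit 0) (XT.lf (nat_lit 0) (nat_lit 7099525508) (nat_lit 304) (nat_lit 5712717859) (nat_lit 76) (nat_lit 9606520133) (nat_lit 135) (nat_lit 5) (nat_lit 139) (nat_lit 5) (nat_lit 136) (nat_lit 5) (nat_lit 487) (nat_lit 417) (nat_lit 296)) (XT.lf (nat_lit 0) (nat_lit 8456693046) (nat_lit 228) (nat_lit 4715525386) (nat_lit 304) (nat_lit 9667166555) (nat_lit 132) (nat_lit 5) (nat_lit 135) (nat_lit 5) (nat_lit 136) (nat_lit 5) (nat_lit 488) (nat_lit 417) (nat_lit 295))))) (XT.nd (nat_lit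 312) (nat_lit 608) (nat_lit 0) (XT.nd (nat_lit 156) (nat_lit 228) (nat_lit 0) (XT.nd (nat_lit 78) (nat_lit 228) (nat_lit 0) (XT.lf (nat_lit 0) (nat_lit 19507094009) (nat_lit 304) (nat_lit 160155515) (nat_lit 76) (nat_lit 3602976029) (nat_lit 132) (nat_lit 5) (nat_lit 136) (nat_lit 5) (nat_lit 133) (nat_lit 5) (nat_lit 489) (nat_lit 417) (nat_lit 294)) (XT.lf (nat_lit 0) (nat_lit 2449884505) (nat_lit 228) (nat_lit 9024876617) (nat_lit 76) (nat_lit 12233249417) (nat_lit 129) (nat_lit 5) (nat_lit 132) (nat_lit 5) (nat_lit 130) (nat_lit 5) (nat_lit 490) (nat_lit 417) (nat_lit 293))) (XT.nd (nat_lit 78) (nat_lit 0) (nat_lit 0) (XT.lf (nat_lit 0) (nat_lit 5871890393) (nat_lit 228) (nat_lit 2947171649) (nat_lit 304) (nat_lit 15337387532) (nat_lit 126) (nat_lit 5) (nat_lit 129) (nat_lit 5) (nat_lit 130) (nat_lit 5) (nat_lit 491) (nat_lit 417) (nat_lit 292)) (XT.lf (nat_lit 0) (nat_lit 15514860314) (nat_lit 304) (nat_lit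 3293670880) (nat_lit 76) (nat_lit 5805744660) (nat_lit 126) (nat_lit 5) (nat_lit 130) (nat_lit 5) (nat_lit 127) (nat_lit 5) (nat_lit 492) (nat_lit 417) (nat_lit 291)))) (XT.nd (nat_lit 156) (nat_lit 152) (nat_lit 0) (XT.nd (nat_lit 78) (nat_lit 304) (nat_lit 0) (XT.lf (nat_lit 0) (nat_lit 12337522620) (nat_lit 152) (nat_lit 10209560377) (nat_lit 228) (nat_lit 2534687835) (nat_lit 124) (nat_lit 5) (nat_lit 126) (nat_lit 5) (nat_lit 127) (nat_lit 5) (nat_lit 493) (nat_lit 417) (nat_lit 290)) (XT.lf (nat_lit 0) (nat_lit 2938221503) (nat_lit 228) (nat_lit 1255920573) (nat_lit 304) (nat_lit 21366440690) (nat_lit 120) (nat_lit 5) (nat_lit 123) (nat_lit 5) (nat_lit 124) (nat_lit 5) (nat_lit 494) (nat_lit 417) (nat_lit 289))) (XT.nd (nat_lit 78) (nat_lit 152) (nat_lit 0) (XT.lf (nat_lit 0) (nat_lit 11268316984) (nat_lit 304) (nat_lit 6821534712) (nat_lit 76) (nat_lit 7957322128) (nat_lit 120) (nat_lit 5) (nat_lit 124)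 (nat_lit 5) (nat_lit 121) (nat_lit 5) (nat_lit 495) (nat_lit 417) (nat_lit 288)) (XT.lf (nat_lit 0) (nat_lit 9607881694) (nat_lit 152) (nat_lit 9039861598) (nat_lit 228) (nat_lit 7897828910) (nat_lit 118) (nat_lit 5) (nat_lit 120) (nat_lit 5) (nat_lit 121) (nat_lit 5) (nat_lit 496) (nat_lit 417) (nat_lit 287))))))) (XT.nd (nat_lit 1170) (nat_lit 1596) (nat_lit 0) (XT.nd (nat_lit 546) (nat_lit 912) (nat_lit 0) (XT.nd (nat_lit 234) (nat_lit 380) (nat_lit 0) (XT.nd (nat_lit 78) (nat_lit 456) (nat_lit 0) (XT.lf (nat_lit 0) (nat_lit 26309124588) (nat_lit 228) (nat_lit 410779080) (nat_lit 76) (nat_lit 337202064) (nat_lit 118) (nat_lit 5) (nat_lit 121) (nat_lit 5) (nat_lit 119) (nat_lit 5) (nat_lit 497) (nat_lit 417) (nat_lit 286)) (XT.nd (nat_lit 78) (nat_lit 152) (nat_lit 0) (XT.lf (nat_lit 0) (nat_lit 6729560548) (nat_lit 304) (nat_lit 10811846520) (nat_lit 76) (nat_lit 10033401302) (nat_lit 114) (nat_lit 5) (nat_lit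 118) (nat_lit 5) (nat_lit 115) (nat_lit 5) (nat_lit 498) (nat_lit 417) (nat_lit 285)) (XT.lf (nat_lit 0) (nat_lit 6450869861) (nat_lit 152) (nat_lit 8020393035) (nat_lit 228) (nat_lit 13634911309) (nat_lit 112) (nat_lit 5) (nat_lit 114) (nat_lit 5) (nat_lit 115) (nat_lit 5) (nat_lit 499) (nat_lit 417) (nat_lit 284)))) (XT.nd (nat_lit 156) (nat_lit 152) (nat_lit 0) (XT.nd (nat_lit 78) (nat_lit 228) (nat_lit 0) (XT.lf (nat_lit 0) (nat_lit 22561372747) (nat_lit 228) (nat_lit 4235395692) (nat_lit 76) (nat_lit 1853228206) (nat_lit 112) (nat_lit 5) (nat_lit 115) (nat_lit 5) (nat_lit 113) (nat_lit 5) (nat_lit 500) (nat_lit 417) (nat_lit 283)) (XT.lf (nat_lit 0) (nat_lit 1855067528) (nat_lit 228) (nat_lit 15343188346) (nat_lit 76) (nat_lit 12005276227) (nat_lit 109) (nat_lit 5) (nat_lit 112) (nat_lit 5) (nat_lit 110) (nat_lit 5) (nat_lit 501) (nat_lit 417) (nat_lit 282))) (XT.nd (nat_lit 78) (nat_lit 0) (nat_lit 0) (XT.lf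 (nat_lit 0) (nat_lit 2787593705) (nat_lit 152) (nat_lit 7186170475) (nat_lit 228) (nat_lit 19796329139) (nat_lit 107) (nat_lit 5) (nat_lit 109) (nat_lit 5) (nat_lit 110) (nat_lit 5) (nat_lit 502) (nat_lit 417) (nat_lit 281)) (XT.lf (nat_lit 0) (nat_lit 18511675497) (nat_lit 228) (nat_lit 8623302325) (nat_lit 76) (nat_lit 3213404229) (nat_lit 107) (nat_lit 5) (nat_lit 110) (nat_lit 5) (nat_lit 108) (nat_lit 5) (nat_lit 503) (nat_lit 417) (nat_lit 280))))) (XT.nd (nat_lit 312) (nat_lit 380) (nat_lit 0) (XT.nd (nat_lit 156) (nat_lit 304) (nat_lit 0) (XT.nd (nat_lit 78) (nat_lit 76) (nat_lit 0) (XT.lf (nat_lit 0) (nat_lit 10399488214) (nat_lit 152) (nat_lit 17066800862) (nat_lit 228) (nat_lit 3472913699) (nat_lit 105) (nat_lit 5) (nat_lit 107) (nat_lit 5) (nat_lit 108) (nat_lit 5) (nat_lit 504) (nat_lit 417) (nat_lit 279)) (XT.lf (nat_lit 0) (nat_lit 5118870465) (nat_lit 228) (nat_lit 1444680090) (nat_lit 76) (nat_lit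 24980392676) (nat_lit 104) (nat_lit 5) (nat_lit 107) (nat_lit 5) (nat_lit 105) (nat_lit 5) (nat_lit 505) (nat_lit 417) (nat_lit 278))) (XT.nd (nat_lit 78) (nat_lit 152) (nat_lit 0) (XT.lf (nat_lit 0) (nat_lit 14109450511) (nat_lit 228) (nat_lit 13671670338) (nat_lit 76) (nat_lit 4378348413) (nat_lit 102) (nat_lit 5) (nat_lit 105) (nat_lit 5) (nat_lit 103) (nat_lit 5) (nat_lit 506) (nat_lit 417) (nat_lit 277)) (XT.lf (nat_lit 0) (nat_lit 6294054114) (nat_lit 152) (nat_lit 17205736987) (nat_lit 228) (nat_lit 9289768927) (nat_lit 100) (nat_lit 5) (nat_lit 102) (nat_lit 5) (nat_lit 103) (nat_lit 5) (nat_lit 507) (nat_lit 417) (nat_lit 276)))) (XT.nd (nat_lit 156) (nat_lit 152) (nat_lit 0) (XT.nd (nat_lit 78) (nat_lit 228) (nat_lit 0) (XT.lf (nat_lit 0) (nat_lit 27120708430) (nat_lit 152) (nat_lit 6179133413) (nat_lit 228) (nat_lit 134871918) (nat_lit 100) (nat_lit 5) (nat_lit 102) (nat_lit 5) (nat_lit 103) (nat_lit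 5) (nat_lit 508) (nat_lit 417) (nat_lit 275)) (XT.lf (nat_lit 0) (nat_lit 9296255786) (nat_lit 228) (nat_lit 19493053273) (nat_lit 76) (nat_lit 5301744202) (nat_lit 97) (nat_lit 5) (nat_lit 100) (nat_lit 5) (nat_lit 98) (nat_lit 5) (nat_lit 509) (nat_lit 417) (nat_lit 274))) (XT.nd (nat_lit 78) (nat_lit 0) (nat_lit 0) (XT.lf (nat_lit 0) (nat_lit 1448749924) (nat_lit 152) (nat_lit 17688530625) (nat_lit 228) (nat_lit 15625872337) (nat_lit 95) (nat_lit 5) (nat_lit 97) (nat_lit 5) (nat_lit 98) (nat_lit 5) (nat_lit 510) (nat_lit 417) (nat_lit 273)) (XT.lf (nat_lit 0) (nat_lit 23400571737) (nat_lit 152) (nat_lit 6060098538) (nat_lit 228) (nat_lit 5989131411) (nat_lit 95) (nat_lit 5) (nat_lit 97) (nat_lit 5) (nat_lit 98) (nat_lit 5) (nat_lit 511) (nat_lit 417) (nat_lit 272)))))) (XT.nd (nat_lit 624) (nat_lit 760) (nat_lit 0) (XT.nd (nat_lit 312) (nat_lit 380) (nat_lit 0) (XT.nd (nat_lit 156) (nat_lit 228) (nat_lit 0)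 (XT.nd (nat_lit 78) (nat_lit 0) (nat_lit 0) (XT.lf (nat_lit 0) (nat_lit 4004567224) (nat_lit 228) (nat_lit 26217874941) (nat_lit 76) (nat_lit 5929132477) (nat_lit 92) (nat_lit 5) (nat_lit 95) (nat_lit 5) (nat_lit 93) (nat_lit 5) (nat_lit 512) (nat_lit 417) (nat_lit 271)) (XT.lf (nat_lit 0) (nat_lit 14351096917) (nat_lit 228) (nat_lit 4185669198) (nat_lit 76) (nat_lit 18330654048) (nat_lit 92) (nat_lit 5) (nat_lit 95) (nat_lit 5) (nat_lit 93) (nat_lit 5) (nat_lit 513) (nat_lit 417) (nat_lit 270))) (XT.nd (nat_lit 78) (nat_lit 76) (nat_lit 0) (XT.lf (nat_lit 0) (nat_lit 18858480899) (nat_lit 152) (nat_lit 6321613524) (nat_lit 228) (nat_lit 12419484657) (nat_lit 90) (nat_lit 5) (nat_lit 92) (nat_lit 5) (nat_lit 93) (nat_lit 5) (nat_lit 514) (nat_lit 417) (nat_lit 269)) (XT.lf (nat_lit 0) (nat_lit 4334255858) (nat_lit 76) (nat_lit 32135054291) (nat_lit 152) (nat_lit 1880332354) (nat_lit 89) (nat_lit 5) (nat_lit 90)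 (nat_lit 5) (nat_lit 91) (nat_lit 4) (nat_lit 515) (nat_lit 417) (nat_lit 268)))) (XT.nd (nat_lit 156) (nat_lit 152) (nat_lit 0) (XT.nd (nat_lit 78) (nat_lit 152) (nat_lit 0) (XT.lf (nat_lit 0) (nat_lit 9044411693) (nat_lit 152) (nat_lit 10798288732) (nat_lit 76) (nat_lit 19269582833) (nat_lit 88) (nat_lit 5) (nat_lit 90) (nat_lit 5) (nat_lit 89) (nat_lit 5) (nat_lit 516) (nat_lit 417) (nat_lit 267)) (XT.lf (nat_lit 0) (nat_lit 13340456491) (nat_lit 152) (nat_lit 7037991519) (nat_lit 228) (nat_lit 19515216597) (nat_lit 86) (nat_lit 5) (nat_lit 88) (nat_lit 5) (nat_lit 89) (nat_lit 5) (nat_lit 517) (nat_lit 417) (nat_lit 266))) (XT.nd (nat_lit 78) (nat_lit 152) (nat_lit 0) (XT.lf (nat_lit 0) (nat_lit 32212886680) (nat_lit 228) (nat_lit 2347300325) (nat_lit 76) (nat_lit 6133489117) (nat_lit 86) (nat_lit 5) (nat_lit 89) (nat_lit 5) (nat_lit 87) (nat_lit 4) (nat_lit 518) (nat_lit 417) (nat_lit 265)) (XT.lf (nat_lit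 0) (nat_lit 3112822616) (nat_lit 152) (nat_lit 18592994537) (nat_lit 76) (nat_lit 19802505836) (nat_lit 84) (nat_lit 5) (nat_lit 86) (nat_lit 5) (nat_lit 85) (nat_lit 5) (nat_lit 519) (nat_lit 417) (nat_lit 264))))) (XT.nd (nat_lit 312) (nat_lit 456) (nat_lit 0) (XT.nd (nat_lit 156) (nat_lit 152) (nat_lit 0) (XT.nd (nat_lit 78) (nat_lit 0) (nat_lit 0) (XT.lf (nat_lit 0) (nat_lit 6667023064) (nat_lit 152) (nat_lit 8296195247) (nat_lit 228) (nat_lit 27379289133) (nat_lit 82) (nat_lit 5) (nat_lit 84) (nat_lit 5) (nat_lit 85) (nat_lit 5) (nat_lit 520) (nat_lit 417) (nat_lit 263)) (XT.lf (nat_lit 0) (nat_lit 27403188469) (nat_lit 228) (nat_lit 10201136971) (nat_lit 76) (nat_lit 5590370261) (nat_lit 82) (nat_lit 5) (nat_lit 85) (nat_lit 5) (nat_lit 83) (nat_lit 4) (nat_lit 521) (nat_lit 417) (nat_lit 262))) (XT.nd (nat_lit 78) (nat_lit 76) (nat_lit 0) (XT.lf (nat_lit 0) (nat_lit 16256848322) (nat_lit 76) (nat_lit 24189600760)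 (nat_lit 152) (nat_lit 3619097924) (nat_lit 81) (nat_lit 5) (nat_lit 82) (nat_lit 5) (nat_lit 83) (nat_lit 4) (nat_lit 522) (nat_lit 417) (nat_lit 261)) (XT.lf (nat_lit 0) (nat_lit 8840174829) (nat_lit 152) (nat_lit 1344190266) (nat_lit 76) (nat_lit 34772715305) (nat_lit 80) (nat_lit 5) (nat_lit 82) (nat_lit 5) (nat_lit 81) (nat_lit 5) (nat_lit 523) (nat_lit 417) (nat_lit 260)))) (XT.nd (nat_lit 156) (nat_lit 228) (nat_lit 0) (XT.nd (nat_lit 78) (nat_lit 76) (nat_lit 0) (XT.lf (nat_lit 0) (nat_lit 21889543328) (nat_lit 228) (nat_lit 19532571312) (nat_lit 76) (nat_lit 4443498569) (nat_lit 78) (nat_lit 5) (nat_lit 81) (nat_lit 5) (nat_lit 79) (nat_lit 4) (nat_lit 524) (nat_lit 417) (nat_lit 259)) (XT.lf (nat_lit 0) (nat_lit 8109162072) (nat_lit 76) (nat_lit 27405679490) (nat_lit 152) (nat_lit 11281027106) (nat_lit 77) (nat_lit 5) (nat_lit 78) (nat_lit 5) (nat_lit 79) (nat_lit 4) (nat_lit 525) (nat_lit 417) (nat_lit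 258))) (XT.nd (nat_lit 78) (nat_lit 152) (nat_lit 0) (XT.lf (nat_lit 0) (nat_lit 1951001454) (nat_lit 152) (nat_lit 10802043237) (nat_lit 76) (nat_lit 34994734852) (nat_lit 76) (nat_lit 5) (nat_lit 78) (nat_lit 5) (nat_lit 77) (nat_lit 5) (nat_lit 526) (nat_lit 417) (nat_lit 257)) (XT.lf (nat_lit 0) (nat_lit 15545141363) (nat_lit 228) (nat_lit 30598397520) (nat_lit 76) (nat_lit 2575601539) (nat_lit 74) (nat_lit 5) (nat_lit 77) (nat_lit 5) (nat_lit 75) (nat_lit 4) (nat_lit 527) (nat_lit 417) (nat_lit 256))))))))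
noncomputable def xc137 : XT := (XT.nd (nat_lit 54366) (nat_lit 0) (nat_lit 13680) (XT.nd (nat_lit 1170) (nat_lit 608) (nat_lit 0) (XT.nd (nat_lit 546) (nat_lit 532) (nat_lit 0) (XT.nd (nat_lit 234) (nat_lit 304) (nat_lit 0) (XT.nd (nat_lit 78) (nat_lit 304) (nat_lit 0) (XT.lf (nat_lit 0) (nat_lit 29775751149) (nat_lit 228) (nat_lit 1725916599) (nat_lit 76) (nat_lit 18211115119) (nat_lit 74) (nat_lit 5) (nat_lit 77) (nat_lit 5) (nat_lit 75) (nat_lit 4) (nat_lit 528) (nat_lit 417) (nat_lit 255)) (XT.nd (nat_lit 78) (nat_lit 228) (nat_lit 0) (XT.lf (nat_lit 0) (nat_lit 28555549679) (nat_lit 76) (nat_lit 16144668070) (nat_lit 152) (nat_lit 6028008791) (nat_lit 73) (nat_lit 5) (nat_lit 74) (nat_lit 5) (nat_lit 75) (nat_lit 4) (nat_lit 529) (nat_lit 417) (nat_lit 254)) (XT.lf (nat_lit 0) (nat_lit 8070350023) (nat_lit 152) (nat_lit 153637350) (nat_lit 228) (nat_lit 43545124247) (nat_lit 70) (nat_lit 5) (nat_lit 72) (nat_lit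 5) (nat_lit 73) (nat_lit 5) (nat_lit 530) (nat_lit 417) (nat_lit 253)))) (XT.nd (nat_lit 156) (nat_lit 228) (nat_lit 0) (XT.nd (nat_lit 78) (nat_lit 76) (nat_lit 0) (XT.lf (nat_lit 0) (nat_lit 23157824927) (nat_lit 228) (nat_lit 13392507483) (nat_lit 76) (nat_lit 16277837287) (nat_lit 70) (nat_lit 5) (nat_lit 73) (nat_lit 5) (nat_lit 71) (nat_lit 4) (nat_lit 531) (nat_lit 417) (nat_lit 252)) (XT.lf (nat_lit 0) (nat_lit 18161798866) (nat_lit 76) (nat_lit 20546672450) (nat_lit 152) (nat_lit 15205464488) (nat_lit 69) (nat_lit 5) (nat_lit 70) (nat_lit 5) (nat_lit 71) (nat_lit 4) (nat_lit 532) (nat_lit 417) (nat_lit 251))) (XT.nd (nat_lit 78) (nat_lit 228) (nat_lit 0) (XT.lf (nat_lit 0) (nat_lit 50923388758) (nat_lit 76) (nat_lit 3930256123) (nat_lit 152) (nat_lit 174789872) (nat_lit 69) (nat_lit 5) (nat_lit 70) (nat_lit 5) (nat_lit 71) (nat_lit 4) (nat_lit 533) (nat_lit 417) (nat_lit 250)) (XT.lf (nat_lit 0) (nat_lit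 15409659843) (nat_lit 228) (nat_lit 27400177782) (nat_lit 76) (nat_lit 13350070610) (nat_lit 66) (nat_lit 5) (nat_lit 69) (nat_lit 5) (nat_lit 67) (nat_lit 4) (nat_lit 534) (nat_lit 417) (nat_lit 249))))) (XT.nd (nat_lit 312) (nat_lit 304) (nat_lit 0) (XT.nd (nat_lit 156) (nat_lit 152) (nat_lit 0) (XT.nd (nat_lit 78) (nat_lit 0) (nat_lit 0) (XT.lf (nat_lit 0) (nat_lit 5421627684) (nat_lit 76) (nat_lit 26162320441) (nat_lit 152) (nat_lit 25737551419) (nat_lit 65) (nat_lit 5) (nat_lit 66) (nat_lit 5) (nat_lit 67) (nat_lit 4) (nat_lit 535) (nat_lit 417) (nat_lit 248)) (XT.lf (nat_lit 0) (nat_lit 39776267094) (nat_lit 76) (nat_lit 8736887754) (nat_lit 152) (nat_lit 9996693133) (nat_lit 65) (nat_lit 5) (nat_lit 66) (nat_lit 5) (nat_lit 67) (nat_lit 4) (nat_lit 536) (nat_lit 417) (nat_lit 247))) (XT.nd (nat_lit 78) (nat_lit 0) (nat_lit 0) (XT.lf (nat_lit 0) (nat_lit 6329326738) (nat_lit 152) (nat_lit 44158018332) (nat_lit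 76) (nat_lit 9237682007) (nat_lit 63) (nat_lit 5) (nat_lit 65) (nat_lit 5) (nat_lit 64) (nat_lit 4) (nat_lit 537) (nat_lit 417) (nat_lit 246)) (XT.lf (nat_lit 0) (nat_lit 23214904098) (nat_lit 152) (nat_lit 9890957910) (nat_lit 76) (nat_lit 27859709284) (nat_lit 63) (nat_lit 5) (nat_lit 65) (nat_lit 5) (nat_lit 64) (nat_lit 4) (nat_lit 538) (nat_lit 417) (nat_lit 245)))) (XT.nd (nat_lit 156) (nat_lit 228) (nat_lit 0) (XT.nd (nat_lit 78) (nat_lit 0) (nat_lit 0) (XT.lf (nat_lit 0) (nat_lit 25896582294) (nat_lit 76) (nat_lit 14952751011) (nat_lit 152) (nat_lit 21386730066) (nat_lit 62) (nat_lit 5) (nat_lit 63) (nat_lit 5) (nat_lit 64) (nat_lit 4) (nat_lit 539) (nat_lit 417) (nat_lit 244)) (XT.lf (nat_lit 0) (nat_lit 59143025034) (nat_lit 152) (nat_lit 631037515) (nat_lit 0) (nat_lit 3766700845) (nat_lit 62) (nat_lit 5) (nat_lit 64) (nat_lit 4) (nat_lit 62) (nat_lit 4) (nat_lit 540) (nat_lit 417) (nat_lit 243))) (XT.nd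 (nat_lit 78) (nat_lit 76) (nat_lit 0) (XT.lf (nat_lit 0) (nat_lit 13344599776) (nat_lit 152) (nat_lit 28296259352) (nat_lit 76) (nat_lit 23224987649) (nat_lit 60) (nat_lit 5) (nat_lit 62) (nat_lit 5) (nat_lit 61) (nat_lit 4) (nat_lit 541) (nat_lit 417) (nat_lit 242)) (XT.lf (nat_lit 0) (nat_lit 8783966931) (nat_lit 76) (nat_lit 22831284613) (nat_lit 152) (nat_lit 34611591914) (nat_lit 59) (nat_lit 5) (nat_lit 60) (nat_lit 5) (nat_lit 61) (nat_lit 4) (nat_lit 542) (nat_lit 417) (nat_lit 241)))))) (XT.nd (nat_lit 624) (nat_lit 152) (nat_lit 0) (XT.nd (nat_lit 312) (nat_lit 228) (nat_lit 0) (XT.nd (nat_lit 156) (nat_lit 76) (nat_lit 0) (XT.nd (nat_lit 78) (nat_lit 152) (nat_lit 0) (XT.lf (nat_lit 0) (nat_lit 47544258110) (nat_lit 76) (nat_lit 3169131423) (nat_lit 152) (nat_lit 16906899571) (nat_lit 59) (nat_lit 5) (nat_lit 60) (nat_lit 5) (nat_lit 61) (nat_lit 4) (nat_lit 543) (nat_lit 417) (nat_lit 240)) (XT.lf (nat_lit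 0) (nat_lit 1643084763) (nat_lit 152) (nat_lit 50463170466) (nat_lit 76) (nat_lit 16938697207) (nat_lit 57) (nat_lit 5) (nat_lit 59) (nat_lit 5) (nat_lit 58) (nat_lit 4) (nat_lit 544) (nat_lit 417) (nat_lit 239))) (XT.nd (nat_lit 78) (nat_lit 76) (nat_lit 0) (XT.lf (nat_lit 0) (nat_lit 20639634163) (nat_lit 152) (nat_lit 11908346428) (nat_lit 76) (nat_lit 37952456963) (nat_lit 57) (nat_lit 5) (nat_lit 59) (nat_lit 5) (nat_lit 58) (nat_lit 4) (nat_lit 545) (nat_lit 417) (nat_lit 238)) (XT.lf (nat_lit 0) (nat_lit 28344417113) (nat_lit 76) (nat_lit 12128072610) (nat_lit 152) (nat_lit 31519105267) (nat_lit 56) (nat_lit 5) (nat_lit 57) (nat_lit 5) (nat_lit 58) (nat_lit 4) (nat_lit 546) (nat_lit 417) (nat_lit 237)))) (XT.nd (nat_lit 156) (nat_lit 76) (nat_lit 0) (XT.nd (nat_lit 78) (nat_lit 152) (nat_lit 0) (XT.lf (nat_lit 0) (nat_lit 61101322312) (nat_lit 152) (nat_lit 3573608185) (nat_lit 0) (nat_lit 8846526966) (nat_lit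 56) (nat_lit 5) (nat_lit 58) (nat_lit 4) (nat_lit 56) (nat_lit 4) (nat_lit 547) (nat_lit 417) (nat_lit 236)) (XT.lf (nat_lit 0) (nat_lit 7597623252) (nat_lit 152) (nat_lit 36838880185) (nat_lit 76) (nat_lit 30644001322) (nat_lit 54) (nat_lit 5) (nat_lit 56) (nat_lit 5) (nat_lit 55) (nat_lit 4) (nat_lit 548) (nat_lit 417) (nat_lit 235))) (XT.nd (nat_lit 78) (nat_lit 0) (nat_lit 0) (XT.lf (nat_lit 0) (nat_lit 4655366707) (nat_lit 76) (nat_lit 23386244466) (nat_lit 152) (nat_lit 48638763328) (nat_lit 53) (nat_lit 5) (nat_lit 54) (nat_lit 5) (nat_lit 55) (nat_lit 4) (nat_lit 549) (nat_lit 417) (nat_lit 234)) (XT.lf (nat_lit 0) (nat_lit 48138238208) (nat_lit 76) (nat_lit 1326877787) (nat_lit 152) (nat_lit 28852138470) (nat_lit 53) (nat_lit 5) (nat_lit 54) (nat_lit 5) (nat_lit 55) (nat_lit 4) (nat_lit 550) (nat_lit 417) (nat_lit 233))))) (XT.nd (nat_lit 52260) (nat_lit 0) (nat_lit 23256) (XT.nd (nat_lit 52104) (nat_lit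 0) (nat_lit 24168) (XT.nd (nat_lit 78) (nat_lit 76) (nat_lit 0) (XT.lf (nat_lit 0) (nat_lit 12958415656) (nat_lit 76) (nat_lit 58897443270) (nat_lit 76) (nat_lit 8137645959) (nat_lit 52) (nat_lit 4) (nat_lit 53) (nat_lit 5) (nat_lit 53) (nat_lit 4) (nat_lit 551) (nat_lit 417) (nat_lit 232)) (XT.lf (nat_lit 0) (nat_lit 13255956596) (nat_lit 152) (nat_lit 23856467997) (nat_lit 76) (nat_lit 44594355535) (nat_lit 51) (nat_lit 5) (nat_lit 53) (nat_lit 5) (nat_lit 52) (nat_lit 4) (nat_lit 552) (nat_lit 417) (nat_lit 231))) (XT.nd (nat_lit 78) (nat_lit 0) (nat_lit 0) (XT.lf (nat_lit 0) (nat_lit 1581914729) (nat_lit 988) (nat_lit 1163005643) (nat_lit 988) (nat_lit 1163005643) (nat_lit 369) (nat_lit 3) (nat_lit 382) (nat_lit 3) (nat_lit 382) (nat_lit 5) (nat_lit 418) (nat_lit 418) (nat_lit 364)) (XT.lf (nat_lit 76) (nat_lit 1585094208) (nat_lit 0) (nat_lit 2924136567) (nat_lit 988) (nat_lit 3384779000) (nat_lit 370) (nat_lit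 5) (nat_lit 369) (nat_lit 3) (nat_lit 382) (nat_lit 5) (nat_lit 419) (nat_lit 418) (nat_lit 363)))) (XT.nd (nat_lit 156) (nat_lit 912) (nat_lit 0) (XT.nd (nat_lit 78) (nat_lit 0) (nat_lit 76) (XT.lf (nat_lit 76) (nat_lit 5634916763) (nat_lit 0) (nat_lit 233252272) (nat_lit 988) (nat_lit 2107153502) (nat_lit 370) (nat_lit 5) (nat_lit 369) (nat_lit 3) (nat_lit 382) (nat_lit 5) (nat_lit 420) (nat_lit 418) (nat_lit 362)) (XT.lf (nat_lit 76) (nat_lit 1729277428) (nat_lit 0) (nat_lit 5530997462) (nat_lit 988) (nat_lit 799033178) (nat_lit 371) (nat_lit 5) (nat_lit 370) (nat_lit 5) (nat_lit 383) (nat_lit 5) (nat_lit 421) (nat_lit 418) (nat_lit 361))) (XT.nd (nat_lit 78) (nat_lit 0) (nat_lit 76) (XT.lf (nat_lit 0) (nat_lit 515866096) (nat_lit 988) (nat_lit 2211809657) (nat_lit 1064) (nat_lit 5418637288) (nat_lit 357) (nat_lit 5) (nat_lit 370) (nat_lit 5) (nat_lit 371) (nat_lit 5) (nat_lit 422) (nat_lit 418) (nat_lit 360))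 (XT.lf (nat_lit 0) (nat_lit 1829159919) (nat_lit 988) (nat_lit 6203854968) (nat_lit 1064) (nat_lit 203430635) (nat_lit 358) (nat_lit 5) (nat_lit 371) (nat_lit 5) (nat_lit 372) (nat_lit 5) (nat_lit 423) (nat_lit 418) (nat_lit 359))))))) (XT.nd (nat_lit 1170) (nat_lit 5396) (nat_lit 0) (XT.nd (nat_lit 546) (nat_lit 3268) (nat_lit 0) (XT.nd (nat_lit 234) (nat_lit 988) (nat_lit 0) (XT.nd (nat_lit 78) (nat_lit 0) (nat_lit 0) (XT.lf (nat_lit 0) (nat_lit 3186146567) (nat_lit 988) (nat_lit 1934563569) (nat_lit 1064) (nat_lit 3208447792) (nat_lit 358) (nat_lit 5) (nat_lit 371) (nat_lit 5) (nat_lit 372) (nat_lit 5) (nat_lit 424) (nat_lit 418) (nat_lit 358)) (XT.nd (nat_lit 78) (nat_lit 0) (nat_lit 76) (XT.lf (nat_lit 76) (nat_lit 2483713035) (nat_lit 0) (nat_lit 2080054497) (nat_lit 1064) (nat_lit 3861491063) (nat_lit 359) (nat_lit 5) (nat_lit 358) (nat_lit 5) (nat_lit 372) (nat_lit 5) (nat_lit 425) (nat_lit 418) (nat_lit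 357)) (XT.lf (nat_lit 0) (nat_lit 5969774490) (nat_lit 988) (nat_lit 1488498164) (nat_lit 1064) (nat_lit 1066362406) (nat_lit 359) (nat_lit 5) (nat_lit 372) (nat_lit 5) (nat_lit 373) (nat_lit 5) (nat_lit 426) (nat_lit 418) (nat_lit 356)))) (XT.nd (nat_lit 156) (nat_lit 0) (nat_lit 76) (XT.nd (nat_lit 78) (nat_lit 1064) (nat_lit 0) (XT.lf (nat_lit 76) (nat_lit 3110344575) (nat_lit 0) (nat_lit 4316574193) (nat_lit 1064) (nat_lit 1199809702) (nat_lit 360) (nat_lit 5) (nat_lit 359) (nat_lit 5) (nat_lit 373) (nat_lit 5) (nat_lit 427) (nat_lit 418) (nat_lit 355)) (XT.lf (nat_lit 0) (nat_lit 166252046) (nat_lit 1064) (nat_lit 884242340) (nat_lit 1140) (nat_lit 7682112464) (nat_lit 345) (nat_lit 5) (nat_lit 359) (nat_lit 5) (nat_lit 360) (nat_lit 5) (nat_lit 428) (nat_lit 418) (nat_lit 354))) (XT.nd (nat_lit 78) (nat_lit 0) (nat_lit 0) (XT.lf (nat_lit 0) (nat_lit 1569943965) (nat_lit 1064) (nat_lit 4940278700) (nat_lit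 1140) (nat_lit 2330463634) (nat_lit 346) (nat_lit 5) (nat_lit 360) (nat_lit 5) (nat_lit 361) (nat_lit 5) (nat_lit 429) (nat_lit 418) (nat_lit 353)) (XT.lf (nat_lit 0) (nat_lit 2996369057) (nat_lit 1064) (nat_lit 144131660) (nat_lit 1140) (nat_lit 5812092621) (nat_lit 346) (nat_lit 5) (nat_lit 360) (nat_lit 5) (nat_lit 361) (nat_lit 5) (nat_lit 430) (nat_lit 418) (nat_lit 352))))) (XT.nd (nat_lit 312) (nat_lit 2432) (nat_lit 0) (XT.nd (nat_lit 156) (nat_lit 988) (nat_lit 0) (XT.nd (nat_lit 78) (nat_lit 0) (nat_lit 0) (XT.lf (nat_lit 0) (nat_lit 4478399927) (nat_lit 1064) (nat_lit 4208318833) (nat_lit 1140) (nat_lit 380758203) (nat_lit 347) (nat_lit 5) (nat_lit 361) (nat_lit 5) (nat_lit 362) (nat_lit 5) (nat_lit 431) (nat_lit 418) (nat_lit 351)) (XT.lf (nat_lit 76) (nat_lit 785234833) (nat_lit 0) (nat_lit 5223024991) (nat_lit 1140) (nat_lit 3177449887) (nat_lit 348) (nat_lit 5) (nat_lit 347) (nat_lit 5) (nat_lit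 362) (nat_lit 5) (nat_lit 432) (nat_lit 418) (nat_lit 350))) (XT.nd (nat_lit 78) (nat_lit 988) (nat_lit 0) (XT.lf (nat_lit 76) (nat_lit 5986425872) (nat_lit 0) (nat_lit 1604138305) (nat_lit 1140) (nat_lit 1716732354) (nat_lit 348) (nat_lit 5) (nat_lit 347) (nat_lit 5) (nat_lit 362) (nat_lit 5) (nat_lit 433) (nat_lit 418) (nat_lit 349)) (XT.lf (nat_lit 0) (nat_lit 1899040221) (nat_lit 1064) (nat_lit 7325132775) (nat_lit 1140) (nat_lit 208246347) (nat_lit 334) (nat_lit 5) (nat_lit 348) (nat_lit 5) (nat_lit 349) (nat_lit 5) (nat_lit 434) (nat_lit 418) (nat_lit 348)))) (XT.nd (nat_lit 156) (nat_lit 1216) (nat_lit 0) (XT.nd (nat_lit 78) (nat_lit 1140) (nat_lit 0) (XT.lf (nat_lit 0) (nat_lit 1334557886) (nat_lit 1140) (nat_lit 2274949882) (nat_lit 76) (nat_lit 5950943736) (nat_lit 333) (nat_lit 5) (nat_lit 348) (nat_lit 5) (nat_lit 334) (nat_lit 5) (nat_lit 435) (nat_lit 418) (nat_lit 347)) (XT.lf (nat_lit 0) (nat_lit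 2918995968) (nat_lit 1216) (nat_lit 6522020267) (nat_lit 76) (nat_lit 251263636) (nat_lit 318) (nat_lit 5) (nat_lit 334) (nat_lit 5) (nat_lit 319) (nat_lit 5) (nat_lit 436) (nat_lit 418) (nat_lit 346))) (XT.nd (nat_lit 78) (nat_lit 1216) (nat_lit 0) (XT.lf (nat_lit 0) (nat_lit 4577227582) (nat_lit 1216) (nat_lit 1066918395) (nat_lit 76) (nat_lit 4183132362) (nat_lit 318) (nat_lit 5) (nat_lit 334) (nat_lit 5) (nat_lit 319) (nat_lit 5) (nat_lit 437) (nat_lit 418) (nat_lit 345)) (XT.lf (nat_lit 0) (nat_lit 4613672753) (nat_lit 1216) (nat_lit 1684157307) (nat_lit 1292) (nat_lit 3668120957) (nat_lit 302) (nat_lit 5) (nat_lit 318) (nat_lit 5) (nat_lit 319) (nat_lit 5) (nat_lit 438) (nat_lit 418) (nat_lit 344)))))) (XT.nd (nat_lit 624) (nat_lit 2052) (nat_lit 0) (XT.nd (nat_lit 312) (nat_lit 1824) (nat_lit 0) (XT.nd (nat_lit 156) (nat_lit 684) (nat_lit 0) (XT.nd (nat_lit 78) (nat_lit 0) (nat_lit 0) (XT.lf (nat_lit 0)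 (nat_lit 332574103) (nat_lit 836) (nat_lit 7743533002) (nat_lit 912) (nat_lit 2032497963) (nat_lit 291) (nat_lit 5) (nat_lit 302) (nat_lit 5) (nat_lit 303) (nat_lit 5) (nat_lit 439) (nat_lit 418) (nat_lit 343)) (XT.lf (nat_lit 0) (nat_lit 6252082929) (nat_lit 836) (nat_lit 3695798019) (nat_lit 912) (nat_lit 306456138) (nat_lit 291) (nat_lit 5) (nat_lit 302) (nat_lit 5) (nat_lit 303) (nat_lit 5) (nat_lit 440) (nat_lit 418) (nat_lit 342))) (XT.nd (nat_lit 78) (nat_lit 0) (nat_lit 0) (XT.lf (nat_lit 0) (nat_lit 1436373970) (nat_lit 684) (nat_lit 8469155146) (nat_lit 76) (nat_lit 498678721) (nat_lit 282) (nat_lit 5) (nat_lit 291) (nat_lit 5) (nat_lit 283) (nat_lit 5) (nat_lit 441) (nat_lit 418) (nat_lit 341)) (XT.lf (nat_lit 0) (nat_lit 3273526521) (nat_lit 684) (nat_lit 2493841740) (nat_lit 76) (nat_lit 4789672076) (nat_lit 282) (nat_lit 5) (nat_lit 291) (nat_lit 5) (nat_lit 283) (nat_lit 5) (nat_lit 442) (nat_lit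 418) (nat_lit 340)))) (XT.nd (nat_lit 156) (nat_lit 1216) (nat_lit 0) (XT.nd (nat_lit 78) (nat_lit 0) (nat_lit 0) (XT.lf (nat_lit 0) (nat_lit 3704896769) (nat_lit 608) (nat_lit 1468151272) (nat_lit 684) (nat_lit 5541194631) (nat_lit 274) (nat_lit 5) (nat_lit 282) (nat_lit 5) (nat_lit 283) (nat_lit 5) (nat_lit 443) (nat_lit 418) (nat_lit 339)) (XT.lf (nat_lit 0) (nat_lit 7155639583) (nat_lit 684) (nat_lit 792080248) (nat_lit 76) (nat_lit 2927661130) (nat_lit 274) (nat_lit 5) (nat_lit 283) (nat_lit 5) (nat_lit 275) (nat_lit 5) (nat_lit 444) (nat_lit 418) (nat_lit 338))) (XT.nd (nat_lit 78) (nat_lit 684) (nat_lit 0) (XT.lf (nat_lit 0) (nat_lit 5680152775) (nat_lit 532) (nat_lit 3559701499) (nat_lit 608) (nat_lit 1800237112) (nat_lit 267) (nat_lit 5) (nat_lit 274) (nat_lit 5) (nat_lit 275) (nat_lit 5) (nat_lit 445) (nat_lit 418) (nat_lit 337)) (XT.lf (nat_lit 0) (nat_lit 175177694) (nat_lit 684) (nat_lit 10073594853)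 (nat_lit 76) (nat_lit 960868494) (nat_lit 258) (nat_lit 5) (nat_lit 267) (nat_lit 5) (nat_lit 259) (nat_lit 5) (nat_lit 446) (nat_lit 418) (nat_lit 336))))) (XT.nd (nat_lit 312) (nat_lit 988) (nat_lit 0) (XT.nd (nat_lit 156) (nat_lit 532) (nat_lit 0) (XT.nd (nat_lit 78) (nat_lit 532) (nat_lit 0) (XT.lf (nat_lit 0) (nat_lit 2237337695) (nat_lit 684) (nat_lit 3528087597) (nat_lit 76) (nat_lit 5616409345) (nat_lit 258) (nat_lit 5) (nat_lit 267) (nat_lit 5) (nat_lit 259) (nat_lit 5) (nat_lit 447) (nat_lit 418) (nat_lit 335)) (XT.lf (nat_lit 0) (nat_lit 3249412434) (nat_lit 532) (nat_lit 1117710068) (nat_lit 608) (nat_lit 7191900825) (nat_lit 251) (nat_lit 5) (nat_lit 258) (nat_lit 5) (nat_lit 259) (nat_lit 5) (nat_lit 448) (nat_lit 418) (nat_lit 334))) (XT.nd (nat_lit 78) (nat_lit 532) (nat_lit 0) (XT.lf (nat_lit 0) (nat_lit 6607031346) (nat_lit 608) (nat_lit 1501760335) (nat_lit 76) (nat_lit 3631351106) (nat_lit 251)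 (nat_lit 5) (nat_lit 259) (nat_lit 5) (nat_lit 252) (nat_lit 5) (nat_lit 449) (nat_lit 418) (nat_lit 333)) (XT.lf (nat_lit 0) (nat_lit 5580746510) (nat_lit 532) (nat_lit 3373809838) (nat_lit 608) (nat_lit 2970928882) (nat_lit 244) (nat_lit 5) (nat_lit 251) (nat_lit 5) (nat_lit 252) (nat_lit 5) (nat_lit 450) (nat_lit 418) (nat_lit 332)))) (XT.nd (nat_lit 156) (nat_lit 456) (nat_lit 0) (XT.nd (nat_lit 78) (nat_lit 76) (nat_lit 0) (XT.lf (nat_lit 0) (nat_lit 763039695) (nat_lit 456) (nat_lit 10622688917) (nat_lit 532) (nat_lit 730264598) (nat_lit 238) (nat_lit 5) (nat_lit 244) (nat_lit 5) (nat_lit 245) (nat_lit 5) (nat_lit 451) (nat_lit 418) (nat_lit 331)) (XT.lf (nat_lit 0) (nat_lit 1621260856) (nat_lit 532) (nat_lit 4173415775) (nat_lit 76) (nat_lit 6514853856) (nat_lit 237) (nat_lit 5) (nat_lit 244) (nat_lit 5) (nat_lit 238) (nat_lit 5) (nat_lit 452) (nat_lit 418) (nat_lit 330))) (XT.nd (nat_lit 78) (nat_lit 0)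 (nat_lit 0) (XT.lf (nat_lit 0) (nat_lit 3250492628) (nat_lit 456) (nat_lit 786415782) (nat_lit 532) (nat_lit 8471502691) (nat_lit 231) (nat_lit 5) (nat_lit 237) (nat_lit 5) (nat_lit 238) (nat_lit 5) (nat_lit 453) (nat_lit 418) (nat_lit 329)) (XT.lf (nat_lit 0) (nat_lit 6586990070) (nat_lit 532) (nat_lit 1799353415) (nat_lit 76) (nat_lit 4325057404) (nat_lit 231) (nat_lit 5) (nat_lit 238) (nat_lit 5) (nat_lit 232) (nat_lit 5) (nat_lit 454) (nat_lit 418) (nat_lit 328))))))))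
noncomputable def xc138 : XT := (XT.nd (nat_lit 2418) (nat_lit 4028) (nat_lit 0) (XT.nd (nat_lit 1170) (nat_lit 3040) (nat_lit 0) (XT.nd (nat_lit 546) (nat_lit 1520) (nat_lit 0) (XT.nd (nat_lit 234) (nat_lit 1216) (nat_lit 0) (XT.nd (nat_lit 78) (nat_lit 532) (nat_lit 0) (XT.lf (nat_lit 0) (nat_lit 5964796079) (nat_lit 456) (nat_lit 3291937461) (nat_lit 532) (nat_lit 3662453696) (nat_lit 225) (nat_lit 5) (nat_lit 231) (nat_lit 5) (nat_lit 232) (nat_lit 5) (nat_lit 455) (nat_lit 418) (nat_lit 327)) (XT.nd (nat_lit 78) (nat_lit 76) (nat_lit 0) (XT.lf (nat_lit 0) (nat_lit 836317255) (nat_lit 456) (nat_lit 11193809784) (nat_lit 532) (nat_lit 1102374999) (nat_lit 219) (nat_lit 5) (nat_lit 225) (nat_lit 5) (nat_lit 226) (nat_lit 5) (nat_lit 456) (nat_lit 418) (nat_lit 326)) (XT.lf (nat_lit 0) (nat_lit 1586609724) (nat_lit 532) (nat_lit 4422126435) (nat_lit 76) (nat_lit 7340577694) (nat_lit 218) (nat_lit 5) (nat_lit 225)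 (nat_lit 5) (nat_lit 219) (nat_lit 5) (nat_lit 457) (nat_lit 418) (nat_lit 325)))) (XT.nd (nat_lit 156) (nat_lit 836) (nat_lit 0) (XT.nd (nat_lit 78) (nat_lit 0) (nat_lit 0) (XT.lf (nat_lit 0) (nat_lit 3723408120) (nat_lit 380) (nat_lit 625649102) (nat_lit 456) (nat_lit 9222798326) (nat_lit 213) (nat_lit 5) (nat_lit 218) (nat_lit 5) (nat_lit 219) (nat_lit 5) (nat_lit 458) (nat_lit 418) (nat_lit 324)) (XT.lf (nat_lit 0) (nat_lit 7266216781) (nat_lit 456) (nat_lit 1670290972) (nat_lit 76) (nat_lit 4862412004) (nat_lit 213) (nat_lit 5) (nat_lit 219) (nat_lit 5) (nat_lit 214) (nat_lit 5) (nat_lit 459) (nat_lit 418) (nat_lit 323))) (XT.nd (nat_lit 78) (nat_lit 380) (nat_lit 0) (XT.lf (nat_lit 0) (nat_lit 6854767918) (nat_lit 456) (nat_lit 3468266218) (nat_lit 532) (nat_lit 3708198842) (nat_lit 207) (nat_lit 5) (nat_lit 213) (nat_lit 5) (nat_lit 214) (nat_lit 5) (nat_lit 460) (nat_lit 418) (nat_lit 322)) (XT.lf (nat_lit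 0) (nat_lit 1379473361) (nat_lit 380) (nat_lit 12123509076) (nat_lit 456) (nat_lit 766591706) (nat_lit 202) (nat_lit 5) (nat_lit 207) (nat_lit 5) (nat_lit 208) (nat_lit 5) (nat_lit 461) (nat_lit 418) (nat_lit 321))))) (XT.nd (nat_lit 312) (nat_lit 760) (nat_lit 0) (XT.nd (nat_lit 156) (nat_lit 304) (nat_lit 0) (XT.nd (nat_lit 78) (nat_lit 380) (nat_lit 0) (XT.lf (nat_lit 0) (nat_lit 2307084618) (nat_lit 456) (nat_lit 4256920692) (nat_lit 76) (nat_lit 7947769257) (nat_lit 201) (nat_lit 5) (nat_lit 207) (nat_lit 5) (nat_lit 202) (nat_lit 5) (nat_lit 462) (nat_lit 418) (nat_lit 320)) (XT.lf (nat_lit 0) (nat_lit 4693606398) (nat_lit 380) (nat_lit 790104428) (nat_lit 456) (nat_lit 9276519281) (nat_lit 196) (nat_lit 5) (nat_lit 201) (nat_lit 5) (nat_lit 202) (nat_lit 5) (nat_lit 463) (nat_lit 418) (nat_lit 319))) (XT.nd (nat_lit 78) (nat_lit 304) (nat_lit 0) (XT.lf (nat_lit 0) (nat_lit 8829893547) (nat_lit 456) (nat_lit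 1090828118) (nat_lit 76) (nat_lit 5093191106) (nat_lit 196) (nat_lit 5) (nat_lit 202) (nat_lit 5) (nat_lit 197) (nat_lit 5) (nat_lit 464) (nat_lit 418) (nat_lit 318)) (XT.lf (nat_lit 0) (nat_lit 8282909648) (nat_lit 304) (nat_lit 4062813949) (nat_lit 380) (nat_lit 2927405616) (nat_lit 192) (nat_lit 5) (nat_lit 196) (nat_lit 5) (nat_lit 197) (nat_lit 5) (nat_lit 465) (nat_lit 418) (nat_lit 317)))) (XT.nd (nat_lit 156) (nat_lit 304) (nat_lit 0) (XT.nd (nat_lit 78) (nat_lit 0) (nat_lit 0) (XT.lf (nat_lit 0) (nat_lit 454330343) (nat_lit 456) (nat_lit 13120215550) (nat_lit 76) (nat_lit 1964381603) (nat_lit 186) (nat_lit 5) (nat_lit 192) (nat_lit 5) (nat_lit 187) (nat_lit 5) (nat_lit 466) (nat_lit 418) (nat_lit 316)) (XT.lf (nat_lit 0) (nat_lit 3972339893) (nat_lit 456) (nat_lit 3652757122) (nat_lit 76) (nat_lit 8183924456) (nat_lit 186) (nat_lit 5) (nat_lit 192) (nat_lit 5) (nat_lit 187) (nat_lit 5) (nat_lit 467) (nat_lit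 418) (nat_lit 315))) (XT.nd (nat_lit 78) (nat_lit 0) (nat_lit 0) (XT.lf (nat_lit 0) (nat_lit 6194881259) (nat_lit 304) (nat_lit 1443224632) (nat_lit 380) (nat_lit 8447846917) (nat_lit 182) (nat_lit 5) (nat_lit 186) (nat_lit 5) (nat_lit 187) (nat_lit 5) (nat_lit 468) (nat_lit 418) (nat_lit 314)) (XT.lf (nat_lit 0) (nat_lit 11481294548) (nat_lit 380) (nat_lit 29884846) (nat_lit 76) (nat_lit 4857990196) (nat_lit 182) (nat_lit 5) (nat_lit 187) (nat_lit 5) (nat_lit 183) (nat_lit 5) (nat_lit 469) (nat_lit 418) (nat_lit 313)))))) (XT.nd (nat_lit 624) (nat_lit 1368) (nat_lit 0) (XT.nd (nat_lit 312) (nat_lit 684) (nat_lit 0) (XT.nd (nat_lit 156) (nat_lit 304) (nat_lit 0) (XT.nd (nat_lit 78) (nat_lit 380) (nat_lit 0) (XT.lf (nat_lit 0) (nat_lit 10289430638) (nat_lit 304) (nat_lit 5246910239) (nat_lit 380) (nat_lit 1121646104) (nat_lit 178) (nat_lit 5) (nat_lit 182) (nat_lit 5) (nat_lit 183) (nat_lit 5) (nat_lit 470) (nat_lit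 418) (nat_lit 312)) (XT.lf (nat_lit 0) (nat_lit 2738036046) (nat_lit 380) (nat_lit 12975624153) (nat_lit 76) (nat_lit 1239986091) (nat_lit 173) (nat_lit 5) (nat_lit 178) (nat_lit 5) (nat_lit 174) (nat_lit 5) (nat_lit 471) (nat_lit 418) (nat_lit 311))) (XT.nd (nat_lit 78) (nat_lit 304) (nat_lit 0) (XT.lf (nat_lit 0) (nat_lit 6791492402) (nat_lit 380) (nat_lit 2578861833) (nat_lit 76) (nat_lit 7884473032) (nat_lit 173) (nat_lit 5) (nat_lit 178) (nat_lit 5) (nat_lit 174) (nat_lit 5) (nat_lit 472) (nat_lit 418) (nat_lit 310)) (XT.lf (nat_lit 0) (nat_lit 8267371153) (nat_lit 304) (nat_lit 2762760527) (nat_lit 380) (nat_lit 6533005477) (nat_lit 169) (nat_lit 5) (nat_lit 173) (nat_lit 5) (nat_lit 174) (nat_lit 5) (nat_lit 473) (nat_lit 418) (nat_lit 309)))) (XT.nd (nat_lit 156) (nat_lit 304) (nat_lit 0) (XT.nd (nat_lit 78) (nat_lit 76) (nat_lit 0) (XT.lf (nat_lit 0) (nat_lit 1579723758) (nat_lit 304) (nat_lit 13880824581)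 (nat_lit 380) (nat_lit 2418210292) (nat_lit 165) (nat_lit 5) (nat_lit 169) (nat_lit 5) (nat_lit 170) (nat_lit 5) (nat_lit 474) (nat_lit 418) (nat_lit 308)) (XT.lf (nat_lit 0) (nat_lit 1891011409) (nat_lit 380) (nat_lit 5298777191) (nat_lit 76) (nat_lit 11010341140) (nat_lit 164) (nat_lit 5) (nat_lit 169) (nat_lit 5) (nat_lit 165) (nat_lit 5) (nat_lit 475) (nat_lit 418) (nat_lit 307))) (XT.nd (nat_lit 78) (nat_lit 0) (nat_lit 0) (XT.lf (nat_lit 0) (nat_lit 6103344630) (nat_lit 304) (nat_lit 221032042) (nat_lit 380) (nat_lit 12204743677) (nat_lit 160) (nat_lit 5) (nat_lit 164) (nat_lit 5) (nat_lit 165) (nat_lit 5) (nat_lit 476) (nat_lit 418) (nat_lit 306)) (XT.lf (nat_lit 0) (nat_lit 10996597396) (nat_lit 380) (nat_lit 1001071286) (nat_lit 76) (nat_lit 6867137100) (nat_lit 160) (nat_lit 5) (nat_lit 165) (nat_lit 5) (nat_lit 161) (nat_lit 5) (nat_lit 477) (nat_lit 418) (nat_lit 305))))) (XT.nd (nat_lit 312) (nat_lit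 532) (nat_lit 0) (XT.nd (nat_lit 156) (nat_lit 228) (nat_lit 0) (XT.nd (nat_lit 78) (nat_lit 380) (nat_lit 0) (XT.lf (nat_lit 0) (nat_lit 10955201079) (nat_lit 228) (nat_lit 4946663271) (nat_lit 304) (nat_lit 3305911758) (nat_lit 157) (nat_lit 5) (nat_lit 160) (nat_lit 5) (nat_lit 161) (nat_lit 5) (nat_lit 478) (nat_lit 418) (nat_lit 304)) (XT.lf (nat_lit 0) (nat_lit 1420710454) (nat_lit 380) (nat_lit 15815312018) (nat_lit 76) (nat_lit 2322972646) (nat_lit 152) (nat_lit 5) (nat_lit 157) (nat_lit 5) (nat_lit 153) (nat_lit 5) (nat_lit 479) (nat_lit 418) (nat_lit 303))) (XT.nd (nat_lit 78) (nat_lit 228) (nat_lit 0) (XT.lf (nat_lit 0) (nat_lit 6341398557) (nat_lit 380) (nat_lit 3754740883) (nat_lit 76) (nat_lit 9820068577) (nat_lit 152) (nat_lit 5) (nat_lit 157) (nat_lit 5) (nat_lit 153) (nat_lit 5) (nat_lit 480) (nat_lit 418) (nat_lit 302)) (XT.lf (nat_lit 0) (nat_lit 8817420472) (nat_lit 228) (nat_lit 2663041378)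 (nat_lit 304) (nat_lit 8801553456) (nat_lit 149) (nat_lit 5) (nat_lit 152) (nat_lit 5) (nat_lit 153) (nat_lit 5) (nat_lit 481) (nat_lit 418) (nat_lit 301)))) (XT.nd (nat_lit 156) (nat_lit 228) (nat_lit 0) (XT.nd (nat_lit 78) (nat_lit 76) (nat_lit 0) (XT.lf (nat_lit 0) (nat_lit 1137476932) (nat_lit 228) (nat_lit 15719553859) (nat_lit 304) (nat_lit 3799266631) (nat_lit 146) (nat_lit 5) (nat_lit 149) (nat_lit 5) (nat_lit 150) (nat_lit 5) (nat_lit 482) (nat_lit 418) (nat_lit 300)) (XT.lf (nat_lit 0) (nat_lit 1456135579) (nat_lit 304) (nat_lit 6748690550) (nat_lit 76) (nat_lit 12832708744) (nat_lit 145) (nat_lit 5) (nat_lit 149) (nat_lit 5) (nat_lit 146) (nat_lit 5) (nat_lit 483) (nat_lit 418) (nat_lit 299))) (XT.nd (nat_lit 78) (nat_lit 0) (nat_lit 0) (XT.lf (nat_lit 0) (nat_lit 6471401555) (nat_lit 228) (nat_lit 370214268) (nat_lit 304) (nat_lit 14586002374) (nat_lit 142) (nat_lit 5) (nat_lit 145) (nat_lit 5) (nat_lit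 146) (nat_lit 5) (nat_lit 484) (nat_lit 418) (nat_lit 298)) (XT.lf (nat_lit 0) (nat_lit 12518169211) (nat_lit 304) (nat_lit 1697517538) (nat_lit 76) (nat_lit 7609832560) (nat_lit 142) (nat_lit 5) (nat_lit 146) (nat_lit 5) (nat_lit 143) (nat_lit 5) (nat_lit 485) (nat_lit 418) (nat_lit 297))))))) (XT.nd (nat_lit 1170) (nat_lit 1748) (nat_lit 0) (XT.nd (nat_lit 546) (nat_lit 1064) (nat_lit 0) (XT.nd (nat_lit 234) (nat_lit 684) (nat_lit 0) (XT.nd (nat_lit 78) (nat_lit 304) (nat_lit 0) (XT.lf (nat_lit 0) (nat_lit 12171515793) (nat_lit 228) (nat_lit 6301230862) (nat_lit 304) (nat_lit 3759379512) (nat_lit 139) (nat_lit 5) (nat_lit 142) (nat_lit 5) (nat_lit 143) (nat_lit 5) (nat_lit 486) (nat_lit 418) (nat_lit 296)) (XT.nd (nat_lit 78) (nat_lit 0) (nat_lit 0) (XT.lf (nat_lit 0) (nat_lit 1976998201) (nat_lit 304) (nat_lit 18791192717) (nat_lit 76) (nat_lit 1880373497) (nat_lit 135) (nat_lit 5) (nat_lit 139) (nat_lit 5)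 (nat_lit 136) (nat_lit 5) (nat_lit 487) (nat_lit 418) (nat_lit 295)) (XT.lf (nat_lit 0) (nat_lit 7962095413) (nat_lit 304) (nat_lit 4797350243) (nat_lit 76) (nat_lit 10312368359) (nat_lit 135) (nat_lit 5) (nat_lit 139) (nat_lit 5) (nat_lit 136) (nat_lit 5) (nat_lit 488) (nat_lit 418) (nat_lit 294)))) (XT.nd (nat_lit 156) (nat_lit 304) (nat_lit 0) (XT.nd (nat_lit 78) (nat_lit 152) (nat_lit 0) (XT.lf (nat_lit 0) (nat_lit 9786488586) (nat_lit 228) (nat_lit 4421904693) (nat_lit 304) (nat_lit 9296918866) (nat_lit 132) (nat_lit 5) (nat_lit 135) (nat_lit 5) (nat_lit 136) (nat_lit 5) (nat_lit 489) (nat_lit 418) (nat_lit 293)) (XT.lf (nat_lit 0) (nat_lit 912225897) (nat_lit 152) (nat_lit 19815248457) (nat_lit 228) (nat_lit 3221779501) (nat_lit 130) (nat_lit 5) (nat_lit 132) (nat_lit 5) (nat_lit 133) (nat_lit 5) (nat_lit 490) (nat_lit 418) (nat_lit 292))) (XT.nd (nat_lit 78) (nat_lit 228) (nat_lit 0) (XT.lf (nat_lit 0) (nat_lit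 3147762169) (nat_lit 228) (nat_lit 8234175279) (nat_lit 76) (nat_lit 13018559880) (nat_lit 129) (nat_lit 5) (nat_lit 132) (nat_lit 5) (nat_lit 130) (nat_lit 5) (nat_lit 491) (nat_lit 418) (nat_lit 291)) (XT.lf (nat_lit 0) (nat_lit 7099088393) (nat_lit 228) (nat_lit 2600844034) (nat_lit 304) (nat_lit 15162700229) (nat_lit 126) (nat_lit 5) (nat_lit 129) (nat_lit 5) (nat_lit 130) (nat_lit 5) (nat_lit 492) (nat_lit 418) (nat_lit 290))))) (XT.nd (nat_lit 312) (nat_lit 608) (nat_lit 0) (XT.nd (nat_lit 156) (nat_lit 304) (nat_lit 0) (XT.nd (nat_lit 78) (nat_lit 152) (nat_lit 0) (XT.lf (nat_lit 0) (nat_lit 16582711499) (nat_lit 304) (nat_lit 2358138599) (nat_lit 76) (nat_lit 6393761046) (nat_lit 126) (nat_lit 5) (nat_lit 130) (nat_lit 5) (nat_lit 127) (nat_lit 5) (nat_lit 493) (nat_lit 418) (nat_lit 289)) (XT.lf (nat_lit 0) (nat_lit 13731850094) (nat_lit 152) (nat_lit 10086350234) (nat_lit 228) (nat_lit 1998162264) (nat_lit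 124) (nat_lit 5) (nat_lit 126) (nat_lit 5) (nat_lit 127) (nat_lit 5) (nat_lit 494) (nat_lit 418) (nat_lit 288))) (XT.nd (nat_lit 78) (nat_lit 0) (nat_lit 0) (XT.lf (nat_lit 0) (nat_lit 4052384370) (nat_lit 228) (nat_lit 860563919) (nat_lit 304) (nat_lit 21396643444) (nat_lit 120) (nat_lit 5) (nat_lit 123) (nat_lit 5) (nat_lit 124) (nat_lit 5) (nat_lit 495) (nat_lit 418) (nat_lit 287)) (XT.lf (nat_lit 0) (nat_lit 12186118475) (nat_lit 304) (nat_lit 6016800027) (nat_lit 76) (nat_lit 8608259474) (nat_lit 120) (nat_lit 5) (nat_lit 124) (nat_lit 5) (nat_lit 121) (nat_lit 5) (nat_lit 496) (nat_lit 418) (nat_lit 286)))) (XT.nd (nat_lit 156) (nat_lit 228) (nat_lit 0) (XT.nd (nat_lit 78) (nat_lit 228) (nat_lit 0) (XT.lf (nat_lit 0) (nat_lit 10895602982) (nat_lit 152) (nat_lit 8884046271) (nat_lit 228) (nat_lit 7545097942) (nat_lit 118) (nat_lit 5) (nat_lit 120) (nat_lit 5) (nat_lit 121) (nat_lit 5) (nat_lit 497) (nat_lit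 418) (nat_lit 285)) (XT.lf (nat_lit 0) (nat_lit 571122117) (nat_lit 228) (nat_lit 27092550993) (nat_lit 304) (nat_lit 188170110) (nat_lit 115) (nat_lit 5) (nat_lit 118) (nat_lit 5) (nat_lit 119) (nat_lit 5) (nat_lit 498) (nat_lit 418) (nat_lit 284))) (XT.nd (nat_lit 78) (nat_lit 152) (nat_lit 0) (XT.lf (nat_lit 0) (nat_lit 7489775324) (nat_lit 304) (nat_lit 10151631772) (nat_lit 76) (nat_lit 10743879245) (nat_lit 114) (nat_lit 5) (nat_lit 118) (nat_lit 5) (nat_lit 115) (nat_lit 5) (nat_lit 499) (nat_lit 418) (nat_lit 283)) (XT.lf (nat_lit 0) (nat_lit 7619313451) (nat_lit 152) (nat_lit 7837524815) (nat_lit 228) (nat_lit 13475962079) (nat_lit 112) (nat_lit 5) (nat_lit 114) (nat_lit 5) (nat_lit 115) (nat_lit 5) (nat_lit 500) (nat_lit 418) (nat_lit 282)))))) (XT.nd (nat_lit 624) (nat_lit 836) (nat_lit 0) (XT.nd (nat_lit 312) (nat_lit 532) (nat_lit 0) (XT.nd (nat_lit 156) (nat_lit 152) (nat_lit 0) (XT.nd (nat_lit 78)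 (nat_lit 228) (nat_lit 0) (XT.lf (nat_lit 0) (nat_lit 23777542310) (nat_lit 228) (nat_lit 3403811125) (nat_lit 76) (nat_lit 2311947762) (nat_lit 112) (nat_lit 5) (nat_lit 115) (nat_lit 5) (nat_lit 113) (nat_lit 5) (nat_lit 501) (nat_lit 418) (nat_lit 281)) (XT.lf (nat_lit 0) (nat_lit 2448753542) (nat_lit 228) (nat_lit 14843513515) (nat_lit 76) (nat_lit 12771215380) (nat_lit 109) (nat_lit 5) (nat_lit 112) (nat_lit 5) (nat_lit 110) (nat_lit 5) (nat_lit 502) (nat_lit 418) (nat_lit 280))) (XT.nd (nat_lit 78) (nat_lit 0) (nat_lit 0) (XT.lf (nat_lit 0) (nat_lit 3821780522) (nat_lit 152) (nat_lit 6982697034) (nat_lit 228) (nat_lit 19842759369) (nat_lit 107) (nat_lit 5) (nat_lit 109) (nat_lit 5) (nat_lit 110) (nat_lit 5) (nat_lit 503) (nat_lit 418) (nat_lit 279)) (XT.lf (nat_lit 0) (nat_lit 19586956536) (nat_lit 228) (nat_lit 7947545130) (nat_lit 76) (nat_lit 3708720155) (nat_lit 107) (nat_lit 5) (nat_lit 110) (nat_lit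 5) (nat_lit 108) (nat_lit 5) (nat_lit 504) (nat_lit 418) (nat_lit 278)))) (XT.nd (nat_lit 156) (nat_lit 304) (nat_lit 0) (XT.nd (nat_lit 78) (nat_lit 76) (nat_lit 0) (XT.lf (nat_lit 0) (nat_lit 11636767789) (nat_lit 152) (nat_lit 17167191620) (nat_lit 228) (nat_lit 3047995633) (nat_lit 105) (nat_lit 5) (nat_lit 107) (nat_lit 5) (nat_lit 108) (nat_lit 5) (nat_lit 505) (nat_lit 418) (nat_lit 277)) (XT.lf (nat_lit 0) (nat_lit 5776107185) (nat_lit 228) (nat_lit 579639270) (nat_lit 76) (nat_lit 26119392356) (nat_lit 104) (nat_lit 5) (nat_lit 107) (nat_lit 5) (nat_lit 105) (nat_lit 5) (nat_lit 506) (nat_lit 418) (nat_lit 276))) (XT.nd (nat_lit 78) (nat_lit 152) (nat_lit 0) (XT.lf (nat_lit 0) (nat_lit 15034243545) (nat_lit 228) (nat_lit 13171265907) (nat_lit 76) (nat_lit 4903686370) (nat_lit 102) (nat_lit 5) (nat_lit 105) (nat_lit 5) (nat_lit 103) (nat_lit 5) (nat_lit 507) (nat_lit 418) (nat_lit 275)) (XT.lf (nat_lit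 0) (nat_lit 7384503274) (nat_lit 152) (nat_lit 17315851002) (nat_lit 228) (nat_lit 9058013594) (nat_lit 100) (nat_lit 5) (nat_lit 102) (nat_lit 5) (nat_lit 103) (nat_lit 5) (nat_lit 508) (nat_lit 418) (nat_lit 274))))) (XT.nd (nat_lit 312) (nat_lit 456) (nat_lit 0) (XT.nd (nat_lit 156) (nat_lit 152) (nat_lit 0) (XT.nd (nat_lit 78) (nat_lit 152) (nat_lit 0) (XT.lf (nat_lit 0) (nat_lit 349703118) (nat_lit 228) (nat_lit 5617041822) (nat_lit 76) (nat_lit 28456461789) (nat_lit 99) (nat_lit 5) (nat_lit 102) (nat_lit 5) (nat_lit 100) (nat_lit 5) (nat_lit 509) (nat_lit 418) (nat_lit 273)) (XT.lf (nat_lit 0) (nat_lit 10059133765) (nat_lit 228) (nat_lit 19190865602) (nat_lit 76) (nat_lit 5849254915) (nat_lit 97) (nat_lit 5) (nat_lit 100) (nat_lit 5) (nat_lit 98) (nat_lit 5) (nat_lit 510) (nat_lit 418) (nat_lit 272))) (XT.nd (nat_lit 78) (nat_lit 0) (nat_lit 0) (XT.lf (nat_lit 0) (nat_lit 2370495816) (nat_lit 152) (nat_lit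 17819239246) (nat_lit 228) (nat_lit 15601951775) (nat_lit 95) (nat_lit 5) (nat_lit 97) (nat_lit 5) (nat_lit 98) (nat_lit 5) (nat_lit 511) (nat_lit 418) (nat_lit 271)) (XT.lf (nat_lit 0) (nat_lit 24955291214) (nat_lit 152) (nat_lit 5853603147) (nat_lit 228) (nat_lit 5690459012) (nat_lit 95) (nat_lit 5) (nat_lit 97) (nat_lit 5) (nat_lit 98) (nat_lit 5) (nat_lit 512) (nat_lit 418) (nat_lit 270)))) (XT.nd (nat_lit 156) (nat_lit 228) (nat_lit 0) (XT.nd (nat_lit 78) (nat_lit 0) (nat_lit 0) (XT.lf (nat_lit 0) (nat_lit 4592010341) (nat_lit 228) (nat_lit 26140649021) (nat_lit 76) (nat_lit 6489433681) (nat_lit 92) (nat_lit 5) (nat_lit 95) (nat_lit 5) (nat_lit 93) (nat_lit 5) (nat_lit 513) (nat_lit 418) (nat_lit 269)) (XT.lf (nat_lit 0) (nat_lit 15235325068) (nat_lit 228) (nat_lit 3472635227) (nat_lit 76) (nat_lit 19251862241) (nat_lit 92) (nat_lit 5) (nat_lit 95) (nat_lit 5) (nat_lit 93) (nat_lit 5) (nat_lit 514) (nat_lit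 418) (nat_lit 268))) (XT.nd (nat_lit 78) (nat_lit 76) (nat_lit 0) (XT.lf (nat_lit 0) (nat_lit 20254617765) (nat_lit 152) (nat_lit 6129342454) (nat_lit 228) (nat_lit 12330143243) (nat_lit 90) (nat_lit 5) (nat_lit 92) (nat_lit 5) (nat_lit 93) (nat_lit 5) (nat_lit 515) (nat_lit 418) (nat_lit 267)) (XT.lf (nat_lit 0) (nat_lit 5296220718) (nat_lit 76) (nat_lit 32714131073) (nat_lit 152) (nat_lit 1476362279) (nat_lit 89) (nat_lit 5) (nat_lit 90) (nat_lit 5) (nat_lit 91) (nat_lit 4) (nat_lit 516) (nat_lit 418) (nat_lit 266))))))))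
noncomputable def xc139 : XT := (XT.nd (nat_lit 2418) (nat_lit 304) (nat_lit 0) (XT.nd (nat_lit 1170) (nat_lit 1064) (nat_lit 0) (XT.nd (nat_lit 546) (nat_lit 836) (nat_lit 0) (XT.nd (nat_lit 234) (nat_lit 380) (nat_lit 0) (XT.nd (nat_lit 78) (nat_lit 152) (nat_lit 0) (XT.lf (nat_lit 0) (nat_lit 9753992949) (nat_lit 152) (nat_lit 10305801047) (nat_lit 76) (nat_lit 20212701963) (nat_lit 88) (nat_lit 5) (nat_lit 90) (nat_lit 5) (nat_lit 89) (nat_lit 5) (nat_lit 517) (nat_lit 418) (nat_lit 265)) (XT.nd (nat_lit 78) (nat_lit 0) (nat_lit 0) (XT.lf (nat_lit 0) (nat_lit 14549102255) (nat_lit 152) (nat_lit 6873954713) (nat_lit 228) (nat_lit 19654411824) (nat_lit 86) (nat_lit 5) (nat_lit 88) (nat_lit 5) (nat_lit 89) (nat_lit 5) (nat_lit 518) (nat_lit 418) (nat_lit 264)) (XT.lf (nat_lit 0) (nat_lit 33603411090) (nat_lit 228) (nat_lit 1623708271) (nat_lit 76) (nat_lit 6674635058) (nat_lit 86) (nat_lit 5) (nat_lit 89) (nat_lit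 5) (nat_lit 87) (nat_lit 4) (nat_lit 519) (nat_lit 418) (nat_lit 263)))) (XT.nd (nat_lit 156) (nat_lit 76) (nat_lit 0) (XT.nd (nat_lit 78) (nat_lit 152) (nat_lit 0) (XT.lf (nat_lit 0) (nat_lit 3629708642) (nat_lit 152) (nat_lit 18356121824) (nat_lit 76) (nat_lit 20755029771) (nat_lit 84) (nat_lit 5) (nat_lit 86) (nat_lit 5) (nat_lit 85) (nat_lit 5) (nat_lit 520) (nat_lit 418) (nat_lit 262)) (XT.lf (nat_lit 0) (nat_lit 7653905496) (nat_lit 152) (nat_lit 8176939614) (nat_lit 228) (nat_lit 27769368465) (nat_lit 82) (nat_lit 5) (nat_lit 84) (nat_lit 5) (nat_lit 85) (nat_lit 5) (nat_lit 521) (nat_lit 418) (nat_lit 261))) (XT.nd (nat_lit 78) (nat_lit 76) (nat_lit 0) (XT.lf (nat_lit 0) (nat_lit 28635254075) (nat_lit 228) (nat_lit 9734450661) (nat_lit 76) (nat_lit 6108525761) (nat_lit 82) (nat_lit 5) (nat_lit 85) (nat_lit 5) (nat_lit 83) (nat_lit 4) (nat_lit 522) (nat_lit 418) (nat_lit 260)) (XT.lf (nat_lit 0) (nat_lit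 17509698500) (nat_lit 76) (nat_lit 24555528173) (nat_lit 152) (nat_lit 3310118447) (nat_lit 81) (nat_lit 5) (nat_lit 82) (nat_lit 5) (nat_lit 83) (nat_lit 4) (nat_lit 523) (nat_lit 418) (nat_lit 259))))) (XT.nd (nat_lit 312) (nat_lit 456) (nat_lit 0) (XT.nd (nat_lit 156) (nat_lit 152) (nat_lit 0) (XT.nd (nat_lit 78) (nat_lit 152) (nat_lit 0) (XT.lf (nat_lit 0) (nat_lit 9502860136) (nat_lit 152) (nat_lit 633739997) (nat_lit 76) (nat_lit 36157261893) (nat_lit 80) (nat_lit 5) (nat_lit 82) (nat_lit 5) (nat_lit 81) (nat_lit 5) (nat_lit 524) (nat_lit 418) (nat_lit 258)) (XT.lf (nat_lit 0) (nat_lit 22942646700) (nat_lit 228) (nat_lit 19366703286) (nat_lit 76) (nat_lit 4920332909) (nat_lit 78) (nat_lit 5) (nat_lit 81) (nat_lit 5) (nat_lit 79) (nat_lit 4) (nat_lit 525) (nat_lit 418) (nat_lit 257))) (XT.nd (nat_lit 78) (nat_lit 76) (nat_lit 0) (XT.lf (nat_lit 0) (nat_lit 9096911068) (nat_lit 76) (nat_lit 27875403025) (nat_lit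 152) (nat_lit 11215663799) (nat_lit 77) (nat_lit 5) (nat_lit 78) (nat_lit 5) (nat_lit 79) (nat_lit 4) (nat_lit 526) (nat_lit 418) (nat_lit 256)) (XT.lf (nat_lit 0) (nat_lit 2393914646) (nat_lit 152) (nat_lit 10395658463) (nat_lit 76) (nat_lit 36379102654) (nat_lit 76) (nat_lit 5) (nat_lit 78) (nat_lit 5) (nat_lit 77) (nat_lit 5) (nat_lit 527) (nat_lit 418) (nat_lit 255)))) (XT.nd (nat_lit 156) (nat_lit 304) (nat_lit 0) (XT.nd (nat_lit 78) (nat_lit 0) (nat_lit 0) (XT.lf (nat_lit 0) (nat_lit 16394934299) (nat_lit 228) (nat_lit 30784953414) (nat_lit 76) (nat_lit 2989318254) (nat_lit 74) (nat_lit 5) (nat_lit 77) (nat_lit 5) (nat_lit 75) (nat_lit 4) (nat_lit 528) (nat_lit 418) (nat_lit 254)) (XT.lf (nat_lit 0) (nat_lit 31041294262) (nat_lit 228) (nat_lit 1067600863) (nat_lit 76) (nat_lit 19084097766) (nat_lit 74) (nat_lit 5) (nat_lit 77) (nat_lit 5) (nat_lit 75) (nat_lit 4) (nat_lit 529) (nat_lit 418) (nat_lit 253)))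 (XT.nd (nat_lit 78) (nat_lit 228) (nat_lit 0) (XT.lf (nat_lit 0) (nat_lit 30115347706) (nat_lit 76) (nat_lit 16294063252) (nat_lit 152) (nat_lit 5829611588) (nat_lit 73) (nat_lit 5) (nat_lit 74) (nat_lit 5) (nat_lit 75) (nat_lit 4) (nat_lit 530) (nat_lit 418) (nat_lit 252)) (XT.lf (nat_lit 0) (nat_lit 8840183877) (nat_lit 228) (nat_lit 44296822391) (nat_lit 76) (nat_lit 174089501) (nat_lit 70) (nat_lit 5) (nat_lit 73) (nat_lit 5) (nat_lit 71) (nat_lit 4) (nat_lit 531) (nat_lit 418) (nat_lit 251)))))) (XT.nd (nat_lit 624) (nat_lit 532) (nat_lit 0) (XT.nd (nat_lit 312) (nat_lit 228) (nat_lit 0) (XT.nd (nat_lit 156) (nat_lit 228) (nat_lit 0) (XT.nd (nat_lit 78) (nat_lit 76) (nat_lit 0) (XT.lf (nat_lit 0) (nat_lit 24212751951) (nat_lit 228) (nat_lit 13103621648) (nat_lit 76) (nat_lit 17085830672) (nat_lit 70) (nat_lit 5) (nat_lit 73) (nat_lit 5) (nat_lit 71) (nat_lit 4) (nat_lit 532) (nat_lit 418) (nat_lit 250)) (XT.lf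 (nat_lit 0) (nat_lit 19390542705) (nat_lit 76) (nat_lit 20835457957) (nat_lit 152) (nat_lit 15294660348) (nat_lit 69) (nat_lit 5) (nat_lit 70) (nat_lit 5) (nat_lit 71) (nat_lit 4) (nat_lit 533) (nat_lit 418) (nat_lit 249))) (XT.nd (nat_lit 78) (nat_lit 152) (nat_lit 0) (XT.lf (nat_lit 0) (nat_lit 172806919) (nat_lit 152) (nat_lit 3555539385) (nat_lit 76) (nat_lit 52940509241) (nat_lit 68) (nat_lit 5) (nat_lit 70) (nat_lit 5) (nat_lit 69) (nat_lit 5) (nat_lit 534) (nat_lit 418) (nat_lit 248)) (XT.lf (nat_lit 0) (nat_lit 16220553178) (nat_lit 228) (nat_lit 27550527652) (nat_lit 76) (nat_lit 14063162325) (nat_lit 66) (nat_lit 5) (nat_lit 69) (nat_lit 5) (nat_lit 67) (nat_lit 4) (nat_lit 535) (nat_lit 418) (nat_lit 247)))) (XT.nd (nat_lit 156) (nat_lit 152) (nat_lit 0) (XT.nd (nat_lit 78) (nat_lit 0) (nat_lit 0) (XT.lf (nat_lit 0) (nat_lit 6249347120) (nat_lit 76) (nat_lit 26626962552) (nat_lit 152) (nat_lit 26154485467)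 (nat_lit 65) (nat_lit 5) (nat_lit 66) (nat_lit 5) (nat_lit 67) (nat_lit 4) (nat_lit 536) (nat_lit 418) (nat_lit 246)) (XT.lf (nat_lit 0) (nat_lit 41615254724) (nat_lit 76) (nat_lit 8688093900) (nat_lit 152) (nat_lit 9951746845) (nat_lit 65) (nat_lit 5) (nat_lit 66) (nat_lit 5) (nat_lit 67) (nat_lit 4) (nat_lit 537) (nat_lit 418) (nat_lit 245))) (XT.nd (nat_lit 78) (nat_lit 0) (nat_lit 0) (XT.lf (nat_lit 0) (nat_lit 6856681287) (nat_lit 152) (nat_lit 44829679317) (nat_lit 76) (nat_lit 9820289293) (nat_lit 63) (nat_lit 5) (nat_lit 65) (nat_lit 5) (nat_lit 64) (nat_lit 4) (nat_lit 538) (nat_lit 418) (nat_lit 244)) (XT.lf (nat_lit 0) (nat_lit 24238996607) (nat_lit 152) (nat_lit 9553628817) (nat_lit 76) (nat_lit 28992080004) (nat_lit 63) (nat_lit 5) (nat_lit 65) (nat_lit 5) (nat_lit 64) (nat_lit 4) (nat_lit 539) (nat_lit 418) (nat_lit 243))))) (XT.nd (nat_lit 312) (nat_lit 228) (nat_lit 0) (XT.nd (nat_lit 156) (nat_lit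 228) (nat_lit 0) (XT.nd (nat_lit 78) (nat_lit 0) (nat_lit 0) (XT.lf (nat_lit 0) (nat_lit 27301321339) (nat_lit 76) (nat_lit 15097629478) (nat_lit 152) (nat_lit 21694466794) (nat_lit 62) (nat_lit 5) (nat_lit 63) (nat_lit 5) (nat_lit 64) (nat_lit 4) (nat_lit 540) (nat_lit 418) (nat_lit 242)) (XT.lf (nat_lit 0) (nat_lit 61234846758) (nat_lit 152) (nat_lit 33803740) (nat_lit 0) (nat_lit 4168806437) (nat_lit 62) (nat_lit 5) (nat_lit 64) (nat_lit 4) (nat_lit 62) (nat_lit 4) (nat_lit 541) (nat_lit 418) (nat_lit 241))) (XT.nd (nat_lit 78) (nat_lit 76) (nat_lit 0) (XT.lf (nat_lit 0) (nat_lit 14062198790) (nat_lit 152) (nat_lit 28528705713) (nat_lit 76) (nat_lit 24211396611) (nat_lit 60) (nat_lit 5) (nat_lit 62) (nat_lit 5) (nat_lit 61) (nat_lit 4) (nat_lit 542) (nat_lit 418) (nat_lit 240)) (XT.lf (nat_lit 0) (nat_lit 9657883815) (nat_lit 76) (nat_lit 23219713202) (nat_lit 152) (nat_lit 35326631967) (nat_lit 59) (nat_lit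 5) (nat_lit 60) (nat_lit 5) (nat_lit 61) (nat_lit 4) (nat_lit 543) (nat_lit 418) (nat_lit 239)))) (XT.nd (nat_lit 156) (nat_lit 76) (nat_lit 0) (XT.nd (nat_lit 78) (nat_lit 152) (nat_lit 0) (XT.lf (nat_lit 0) (nat_lit 49563205150) (nat_lit 76) (nat_lit 2976331628) (nat_lit 152) (nat_lit 17100215582) (nat_lit 59) (nat_lit 5) (nat_lit 60) (nat_lit 5) (nat_lit 61) (nat_lit 4) (nat_lit 544) (nat_lit 418) (nat_lit 238)) (XT.lf (nat_lit 0) (nat_lit 1999650236) (nat_lit 152) (nat_lit 51377822403) (nat_lit 76) (nat_lit 17729607310) (nat_lit 57) (nat_lit 5) (nat_lit 59) (nat_lit 5) (nat_lit 58) (nat_lit 4) (nat_lit 545) (nat_lit 418) (nat_lit 237))) (XT.nd (nat_lit 78) (nat_lit 76) (nat_lit 0) (XT.lf (nat_lit 0) (nat_lit 21557146420) (nat_lit 152) (nat_lit 11683807327) (nat_lit 76) (nat_lit 39365544445) (nat_lit 57) (nat_lit 5) (nat_lit 59) (nat_lit 5) (nat_lit 58) (nat_lit 4) (nat_lit 546) (nat_lit 418) (nat_lit 236))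 (XT.lf (nat_lit 0) (nat_lit 29770835301) (nat_lit 76) (nat_lit 12211001007) (nat_lit 152) (nat_lit 32160648665) (nat_lit 56) (nat_lit 5) (nat_lit 57) (nat_lit 5) (nat_lit 58) (nat_lit 4) (nat_lit 547) (nat_lit 418) (nat_lit 235))))))) (XT.nd (nat_lit 53274) (nat_lit 0) (nat_lit 16340) (XT.nd (nat_lit 52650) (nat_lit 0) (nat_lit 22268) (XT.nd (nat_lit 312) (nat_lit 76) (nat_lit 0) (XT.nd (nat_lit 156) (nat_lit 76) (nat_lit 0) (XT.nd (nat_lit 78) (nat_lit 152) (nat_lit 0) (XT.lf (nat_lit 0) (nat_lit 63223558301) (nat_lit 152) (nat_lit 3115531746) (nat_lit 0) (nat_lit 9379332621) (nat_lit 56) (nat_lit 5) (nat_lit 58) (nat_lit 4) (nat_lit 56) (nat_lit 4) (nat_lit 548) (nat_lit 418) (nat_lit 234)) (XT.lf (nat_lit 0) (nat_lit 8114541374) (nat_lit 152) (nat_lit 37378549977) (nat_lit 76) (nat_lit 31831156389) (nat_lit 54) (nat_lit 5) (nat_lit 56) (nat_lit 5) (nat_lit 55) (nat_lit 4) (nat_lit 549) (nat_lit 418) (nat_lit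 233))) (XT.nd (nat_lit 78) (nat_lit 0) (nat_lit 0) (XT.lf (nat_lit 0) (nat_lit 5354980237) (nat_lit 76) (nat_lit 23813834133) (nat_lit 152) (nat_lit 49803390312) (nat_lit 53) (nat_lit 5) (nat_lit 54) (nat_lit 5) (nat_lit 55) (nat_lit 4) (nat_lit 550) (nat_lit 418) (nat_lit 232)) (XT.lf (nat_lit 0) (nat_lit 50126028586) (nat_lit 76) (nat_lit 1100666968) (nat_lit 152) (nat_lit 29431745425) (nat_lit 53) (nat_lit 5) (nat_lit 54) (nat_lit 5) (nat_lit 55) (nat_lit 4) (nat_lit 551) (nat_lit 418) (nat_lit 231)))) (XT.nd (nat_lit 52182) (nat_lit 0) (nat_lit 23104) (XT.nd (nat_lit 52104) (nat_lit 0) (nat_lit 24092) (XT.lf (nat_lit 0) (nat_lit 13891198914) (nat_lit 76) (nat_lit 60397587861) (nat_lit 76) (nat_lit 8096203426) (nat_lit 52) (nat_lit 4) (nat_lit 53) (nat_lit 5) (nat_lit 53) (nat_lit 4) (nat_lit 552) (nat_lit 418) (nat_lit 230)) (XT.lf (nat_lit 0) (nat_lit 2899748987) (nat_lit 988) (nat_lit 543581573) (nat_lit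 988) (nat_lit 543581573) (nat_lit 369) (nat_lit 3) (nat_lit 382) (nat_lit 3) (nat_lit 382) (nat_lit 5) (nat_lit 419) (nat_lit 419) (nat_lit 362))) (XT.nd (nat_lit 78) (nat_lit 988) (nat_lit 0) (XT.lf (nat_lit 76) (nat_lit 2928445821) (nat_lit 0) (nat_lit 4195268987) (nat_lit 988) (nat_lit 932466510) (nat_lit 370) (nat_lit 5) (nat_lit 369) (nat_lit 3) (nat_lit 382) (nat_lit 5) (nat_lit 420) (nat_lit 419) (nat_lit 361)) (XT.lf (nat_lit 0) (nat_lit 303071877) (nat_lit 988) (nat_lit 1083057651) (nat_lit 1064) (nat_lit 6755889032) (nat_lit 356) (nat_lit 5) (nat_lit 369) (nat_lit 3) (nat_lit 370) (nat_lit 5) (nat_lit 421) (nat_lit 419) (nat_lit 360))))) (XT.nd (nat_lit 312) (nat_lit 912) (nat_lit 0) (XT.nd (nat_lit 156) (nat_lit 0) (nat_lit 0) (XT.nd (nat_lit 78) (nat_lit 0) (nat_lit 0) (XT.lf (nat_lit 0) (nat_lit 1555402737) (nat_lit 988) (nat_lit 5136332390) (nat_lit 1064) (nat_lit 1538469694) (nat_lit 357) (nat_lit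 5) (nat_lit 370) (nat_lit 5) (nat_lit 371) (nat_lit 5) (nat_lit 422) (nat_lit 419) (nat_lit 359)) (XT.lf (nat_lit 0) (nat_lit 2824882988) (nat_lit 988) (nat_lit 942544578) (nat_lit 1064) (nat_lit 4554226494) (nat_lit 357) (nat_lit 5) (nat_lit 370) (nat_lit 5) (nat_lit 371) (nat_lit 5) (nat_lit 423) (nat_lit 419) (nat_lit 358))) (XT.nd (nat_lit 78) (nat_lit 0) (nat_lit 76) (XT.lf (nat_lit 76) (nat_lit 3418209210) (nat_lit 0) (nat_lit 703222921) (nat_lit 1064) (nat_lit 4294749741) (nat_lit 358) (nat_lit 5) (nat_lit 357) (nat_lit 5) (nat_lit 371) (nat_lit 5) (nat_lit 424) (nat_lit 419) (nat_lit 357)) (XT.lf (nat_lit 0) (nat_lit 5447398543) (nat_lit 988) (nat_lit 634583229) (nat_lit 1064) (nat_lit 2431852619) (nat_lit 358) (nat_lit 5) (nat_lit 371) (nat_lit 5) (nat_lit 372) (nat_lit 5) (nat_lit 425) (nat_lit 419) (nat_lit 356)))) (XT.nd (nat_lit 156) (nat_lit 988) (nat_lit 0) (XT.nd (nat_lit 78) (nat_lit 0) (nat_lit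 76) (XT.lf (nat_lit 76) (nat_lit 3902927778) (nat_lit 0) (nat_lit 2913268774) (nat_lit 1064) (nat_lit 1798132723) (nat_lit 359) (nat_lit 5) (nat_lit 358) (nat_lit 5) (nat_lit 372) (nat_lit 5) (nat_lit 426) (nat_lit 419) (nat_lit 355)) (XT.lf (nat_lit 0) (nat_lit 8195573036) (nat_lit 988) (nat_lit 158590048) (nat_lit 1064) (nat_lit 364594724) (nat_lit 359) (nat_lit 5) (nat_lit 372) (nat_lit 5) (nat_lit 373) (nat_lit 5) (nat_lit 427) (nat_lit 419) (nat_lit 354))) (XT.nd (nat_lit 78) (nat_lit 0) (nat_lit 0) (XT.lf (nat_lit 0) (nat_lit 808495655) (nat_lit 1064) (nat_lit 4268500727) (nat_lit 1140) (nat_lit 3748081988) (nat_lit 345) (nat_lit 5) (nat_lit 359) (nat_lit 5) (nat_lit 360) (nat_lit 5) (nat_lit 428) (nat_lit 419) (nat_lit 353)) (XT.lf (nat_lit 76) (nat_lit 458859518) (nat_lit 0) (nat_lit 1678135259) (nat_lit 1140) (nat_lit 6798420737) (nat_lit 346) (nat_lit 5) (nat_lit 345) (nat_lit 5) (nat_lit 360) (nat_lit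 5) (nat_lit 429) (nat_lit 419) (nat_lit 352)))))) (XT.nd (nat_lit 624) (nat_lit 3876) (nat_lit 0) (XT.nd (nat_lit 312) (nat_lit 2128) (nat_lit 0) (XT.nd (nat_lit 156) (nat_lit 0) (nat_lit 0) (XT.nd (nat_lit 78) (nat_lit 0) (nat_lit 0) (XT.lf (nat_lit 0) (nat_lit 3528733898) (nat_lit 1064) (nat_lit 3677968064) (nat_lit 1140) (nat_lit 1841663024) (nat_lit 346) (nat_lit 5) (nat_lit 360) (nat_lit 5) (nat_lit 361) (nat_lit 5) (nat_lit 430) (nat_lit 419) (nat_lit 351)) (XT.lf (nat_lit 76) (nat_lit 1245280211) (nat_lit 0) (nat_lit 3708961588) (nat_lit 1140) (nat_lit 4210704303) (nat_lit 347) (nat_lit 5) (nat_lit 346) (nat_lit 5) (nat_lit 361) (nat_lit 5) (nat_lit 431) (nat_lit 419) (nat_lit 350))) (XT.nd (nat_lit 78) (nat_lit 0) (nat_lit 76) (XT.lf (nat_lit 76) (nat_lit 6364903210) (nat_lit 0) (nat_lit 58991297) (nat_lit 1140) (nat_lit 2861092308) (nat_lit 347) (nat_lit 5) (nat_lit 346) (nat_lit 5) (nat_lit 361) (nat_lit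 5) (nat_lit 432) (nat_lit 419) (nat_lit 349)) (XT.lf (nat_lit 76) (nat_lit 2209970673) (nat_lit 0) (nat_lit 5749846245) (nat_lit 1140) (nat_lit 1448149873) (nat_lit 348) (nat_lit 5) (nat_lit 347) (nat_lit 5) (nat_lit 362) (nat_lit 5) (nat_lit 433) (nat_lit 419) (nat_lit 348)))) (XT.nd (nat_lit 156) (nat_lit 1064) (nat_lit 0) (XT.nd (nat_lit 78) (nat_lit 0) (nat_lit 76) (XT.lf (nat_lit 0) (nat_lit 3181493) (nat_lit 1140) (nat_lit 2008398839) (nat_lit 1216) (nat_lit 7523172791) (nat_lit 332) (nat_lit 5) (nat_lit 347) (nat_lit 5) (nat_lit 348) (nat_lit 5) (nat_lit 434) (nat_lit 419) (nat_lit 347)) (XT.lf (nat_lit 0) (nat_lit 1486233926) (nat_lit 1140) (nat_lit 6321688894) (nat_lit 76) (nat_lit 1856474607) (nat_lit 333) (nat_lit 5) (nat_lit 348) (nat_lit 5) (nat_lit 334) (nat_lit 5) (nat_lit 435) (nat_lit 419) (nat_lit 346))) (XT.nd (nat_lit 78) (nat_lit 1140) (nat_lit 0) (XT.lf (nat_lit 0) (nat_lit 3021722894) (nat_lit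 1140) (nat_lit 949383080) (nat_lit 76) (nat_lit 5826589803) (nat_lit 333) (nat_lit 5) (nat_lit 348) (nat_lit 5) (nat_lit 334) (nat_lit 5) (nat_lit 436) (nat_lit 419) (nat_lit 345)) (XT.lf (nat_lit 0) (nat_lit 4616753636) (nat_lit 1216) (nat_lit 5286774198) (nat_lit 76) (nat_lit 31063901) (nat_lit 318) (nat_lit 5) (nat_lit 334) (nat_lit 5) (nat_lit 319) (nat_lit 5) (nat_lit 437) (nat_lit 419) (nat_lit 344))))) (XT.nd (nat_lit 312) (nat_lit 1748) (nat_lit 0) (XT.nd (nat_lit 156) (nat_lit 912) (nat_lit 0) (XT.nd (nat_lit 78) (nat_lit 0) (nat_lit 0) (XT.lf (nat_lit 0) (nat_lit 296081451) (nat_lit 1216) (nat_lit 5984598190) (nat_lit 1292) (nat_lit 3794286489) (nat_lit 302) (nat_lit 5) (nat_lit 318) (nat_lit 5) (nat_lit 319) (nat_lit 5) (nat_lit 438) (nat_lit 419) (nat_lit 343)) (XT.lf (nat_lit 0) (nat_lit 6127692819) (nat_lit 1216) (nat_lit 1890051770) (nat_lit 1292) (nat_lit 2201113335) (nat_lit 302) (nat_lit 5) (nat_lit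 318) (nat_lit 5) (nat_lit 319) (nat_lit 5) (nat_lit 439) (nat_lit 419) (nat_lit 342))) (XT.nd (nat_lit 78) (nat_lit 76) (nat_lit 0) (XT.lf (nat_lit 0) (nat_lit 1751773646) (nat_lit 836) (nat_lit 8065100957) (nat_lit 912) (nat_lit 549895995) (nat_lit 291) (nat_lit 5) (nat_lit 302) (nat_lit 5) (nat_lit 303) (nat_lit 5) (nat_lit 440) (nat_lit 419) (nat_lit 341)) (XT.lf (nat_lit 0) (nat_lit 1159884556) (nat_lit 912) (nat_lit 2721736946) (nat_lit 76) (nat_lit 6636225311) (nat_lit 290) (nat_lit 5) (nat_lit 302) (nat_lit 5) (nat_lit 291) (nat_lit 5) (nat_lit 441) (nat_lit 419) (nat_lit 340)))) (XT.nd (nat_lit 156) (nat_lit 1140) (nat_lit 0) (XT.nd (nat_lit 78) (nat_lit 0) (nat_lit 0) (XT.lf (nat_lit 0) (nat_lit 2918806577) (nat_lit 684) (nat_lit 7295519283) (nat_lit 76) (nat_lit 458701596) (nat_lit 282) (nat_lit 5) (nat_lit 291) (nat_lit 5) (nat_lit 283) (nat_lit 5) (nat_lit 442) (nat_lit 419) (nat_lit 339)) (XT.lf (nat_lit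 0) (nat_lit 4769151140) (nat_lit 684) (nat_lit 1182530276) (nat_lit 76) (nat_lit 4880024873) (nat_lit 282) (nat_lit 5) (nat_lit 291) (nat_lit 5) (nat_lit 283) (nat_lit 5) (nat_lit 443) (nat_lit 419) (nat_lit 338))) (XT.nd (nat_lit 78) (nat_lit 532) (nat_lit 0) (XT.lf (nat_lit 0) (nat_lit 5188580910) (nat_lit 608) (nat_lit 1509569544) (nat_lit 684) (nat_lit 4296303049) (nat_lit 274) (nat_lit 5) (nat_lit 282) (nat_lit 5) (nat_lit 283) (nat_lit 5) (nat_lit 444) (nat_lit 419) (nat_lit 337)) (XT.lf (nat_lit 0) (nat_lit 567788835) (nat_lit 532) (nat_lit 8138013032) (nat_lit 608) (nat_lit 2455660081) (nat_lit 267) (nat_lit 5) (nat_lit 274) (nat_lit 5) (nat_lit 275) (nat_lit 5) (nat_lit 445) (nat_lit 419) (nat_lit 336))))))))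
noncomputable def xc140 : XT := (XT.nd (nat_lit 2418) (nat_lit 4712) (nat_lit 0) (XT.nd (nat_lit 1170) (nat_lit 3724) (nat_lit 0) (XT.nd (nat_lit 546) (nat_lit 1824) (nat_lit 0) (XT.nd (nat_lit 234) (nat_lit 1596) (nat_lit 0) (XT.nd (nat_lit 78) (nat_lit 684) (nat_lit 0) (XT.lf (nat_lit 0) (nat_lit 7209652852) (nat_lit 532) (nat_lit 3611757781) (nat_lit 608) (nat_lit 510640390) (nat_lit 267) (nat_lit 5) (nat_lit 274) (nat_lit 5) (nat_lit 275) (nat_lit 5) (nat_lit 446) (nat_lit 419) (nat_lit 335)) (XT.nd (nat_lit 78) (nat_lit 0) (nat_lit 0) (XT.lf (nat_lit 0) (nat_lit 1473400370) (nat_lit 684) (nat_lit 8965855867) (nat_lit 76) (nat_lit 1067779179) (nat_lit 258) (nat_lit 5) (nat_lit 267) (nat_lit 5) (nat_lit 259) (nat_lit 5) (nat_lit 447) (nat_lit 419) (nat_lit 334)) (XT.lf (nat_lit 0) (nat_lit 3559765928) (nat_lit 684) (nat_lit 2265049806) (nat_lit 76) (nat_lit 5860711946) (nat_lit 258) (nat_lit 5) (nat_lit 267)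 (nat_lit 5) (nat_lit 259) (nat_lit 5) (nat_lit 448) (nat_lit 419) (nat_lit 333)))) (XT.nd (nat_lit 156) (nat_lit 1064) (nat_lit 0) (XT.nd (nat_lit 78) (nat_lit 0) (nat_lit 0) (XT.lf (nat_lit 0) (nat_lit 4702354831) (nat_lit 532) (nat_lit 1027556588) (nat_lit 608) (nat_lit 6138829590) (nat_lit 251) (nat_lit 5) (nat_lit 258) (nat_lit 5) (nat_lit 259) (nat_lit 5) (nat_lit 449) (nat_lit 419) (nat_lit 332)) (XT.lf (nat_lit 0) (nat_lit 8002294883) (nat_lit 608) (nat_lit 196013041) (nat_lit 76) (nat_lit 3858030714) (nat_lit 251) (nat_lit 5) (nat_lit 259) (nat_lit 5) (nat_lit 252) (nat_lit 5) (nat_lit 450) (nat_lit 419) (nat_lit 331))) (XT.nd (nat_lit 78) (nat_lit 532) (nat_lit 0) (XT.lf (nat_lit 0) (nat_lit 7085725871) (nat_lit 532) (nat_lit 3312511570) (nat_lit 608) (nat_lit 1849666979) (nat_lit 244) (nat_lit 5) (nat_lit 251) (nat_lit 5) (nat_lit 252) (nat_lit 5) (nat_lit 451) (nat_lit 419) (nat_lit 330)) (XT.lf (nat_lit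 0) (nat_lit 429423474) (nat_lit 532) (nat_lit 10305103526) (nat_lit 76) (nat_lit 1710066727) (nat_lit 237) (nat_lit 5) (nat_lit 244) (nat_lit 5) (nat_lit 238) (nat_lit 5) (nat_lit 452) (nat_lit 419) (nat_lit 329))))) (XT.nd (nat_lit 312) (nat_lit 912) (nat_lit 0) (XT.nd (nat_lit 156) (nat_lit 456) (nat_lit 0) (XT.nd (nat_lit 78) (nat_lit 456) (nat_lit 0) (XT.lf (nat_lit 0) (nat_lit 2802829183) (nat_lit 532) (nat_lit 2957639363) (nat_lit 76) (nat_lit 6884273886) (nat_lit 237) (nat_lit 5) (nat_lit 244) (nat_lit 5) (nat_lit 238) (nat_lit 5) (nat_lit 453) (nat_lit 419) (nat_lit 328)) (XT.lf (nat_lit 0) (nat_lit 4675839440) (nat_lit 456) (nat_lit 594872681) (nat_lit 532) (nat_lit 7579486871) (nat_lit 231) (nat_lit 5) (nat_lit 237) (nat_lit 5) (nat_lit 238) (nat_lit 5) (nat_lit 454) (nat_lit 419) (nat_lit 327))) (XT.nd (nat_lit 78) (nat_lit 456) (nat_lit 0) (XT.lf (nat_lit 0) (nat_lit 7866895378) (nat_lit 532) (nat_lit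 533694735) (nat_lit 76) (nat_lit 4659602820) (nat_lit 231) (nat_lit 5) (nat_lit 238) (nat_lit 5) (nat_lit 232) (nat_lit 5) (nat_lit 455) (nat_lit 419) (nat_lit 326)) (XT.lf (nat_lit 0) (nat_lit 7450441604) (nat_lit 456) (nat_lit 3147327190) (nat_lit 532) (nat_lit 2677015309) (nat_lit 225) (nat_lit 5) (nat_lit 231) (nat_lit 5) (nat_lit 232) (nat_lit 5) (nat_lit 456) (nat_lit 419) (nat_lit 325)))) (XT.nd (nat_lit 156) (nat_lit 380) (nat_lit 0) (XT.nd (nat_lit 78) (nat_lit 76) (nat_lit 0) (XT.lf (nat_lit 0) (nat_lit 2184646377) (nat_lit 456) (nat_lit 11253737907) (nat_lit 532) (nat_lit 56595755) (nat_lit 219) (nat_lit 5) (nat_lit 225) (nat_lit 5) (nat_lit 226) (nat_lit 5) (nat_lit 457) (nat_lit 419) (nat_lit 324)) (XT.lf (nat_lit 0) (nat_lit 2661196594) (nat_lit 532) (nat_lit 3249580427) (nat_lit 76) (nat_lit 7808134520) (nat_lit 218) (nat_lit 5) (nat_lit 225) (nat_lit 5) (nat_lit 219) (nat_lit 5) (nat_lit 458) (nat_lit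 419) (nat_lit 323))) (XT.nd (nat_lit 78) (nat_lit 0) (nat_lit 0) (XT.lf (nat_lit 0) (nat_lit 5127523990) (nat_lit 380) (nat_lit 361504709) (nat_lit 456) (nat_lit 8459627553) (nat_lit 213) (nat_lit 5) (nat_lit 218) (nat_lit 5) (nat_lit 219) (nat_lit 5) (nat_lit 459) (nat_lit 419) (nat_lit 322)) (XT.lf (nat_lit 0) (nat_lit 8466940469) (nat_lit 456) (nat_lit 438798684) (nat_lit 76) (nat_lit 5277598148) (nat_lit 213) (nat_lit 5) (nat_lit 219) (nat_lit 5) (nat_lit 214) (nat_lit 5) (nat_lit 460) (nat_lit 419) (nat_lit 321)))))) (XT.nd (nat_lit 624) (nat_lit 1672) (nat_lit 0) (XT.nd (nat_lit 312) (nat_lit 760) (nat_lit 0) (XT.nd (nat_lit 156) (nat_lit 380) (nat_lit 0) (XT.nd (nat_lit 78) (nat_lit 456) (nat_lit 0) (XT.lf (nat_lit 0) (nat_lit 8329447257) (nat_lit 456) (nat_lit 3269590429) (nat_lit 532) (nat_lit 2824076952) (nat_lit 207) (nat_lit 5) (nat_lit 213) (nat_lit 5) (nat_lit 214) (nat_lit 5) (nat_lit 461) (nat_lit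 419) (nat_lit 320)) (XT.lf (nat_lit 0) (nat_lit 188640608) (nat_lit 456) (nat_lit 11967505764) (nat_lit 76) (nat_lit 2512795859) (nat_lit 201) (nat_lit 5) (nat_lit 207) (nat_lit 5) (nat_lit 202) (nat_lit 5) (nat_lit 462) (nat_lit 419) (nat_lit 319))) (XT.nd (nat_lit 78) (nat_lit 380) (nat_lit 0) (XT.lf (nat_lit 0) (nat_lit 3311076119) (nat_lit 456) (nat_lit 3120834114) (nat_lit 76) (nat_lit 8487113845) (nat_lit 201) (nat_lit 5) (nat_lit 207) (nat_lit 5) (nat_lit 202) (nat_lit 5) (nat_lit 463) (nat_lit 419) (nat_lit 318)) (XT.lf (nat_lit 0) (nat_lit 6085818650) (nat_lit 380) (nat_lit 481985153) (nat_lit 456) (nat_lit 8607587159) (nat_lit 196) (nat_lit 5) (nat_lit 201) (nat_lit 5) (nat_lit 202) (nat_lit 5) (nat_lit 464) (nat_lit 419) (nat_lit 317)))) (XT.nd (nat_lit 156) (nat_lit 456) (nat_lit 0) (XT.nd (nat_lit 78) (nat_lit 0) (nat_lit 0) (XT.lf (nat_lit 0) (nat_lit 117438123) (nat_lit 304) (nat_lit 9874375614)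 (nat_lit 380) (nat_lit 5445548823) (nat_lit 192) (nat_lit 5) (nat_lit 196) (nat_lit 5) (nat_lit 197) (nat_lit 5) (nat_lit 465) (nat_lit 419) (nat_lit 316)) (XT.lf (nat_lit 0) (nat_lit 9757952271) (nat_lit 304) (nat_lit 3839733918) (nat_lit 380) (nat_lit 2107133940) (nat_lit 192) (nat_lit 5) (nat_lit 196) (nat_lit 5) (nat_lit 197) (nat_lit 5) (nat_lit 466) (nat_lit 419) (nat_lit 315))) (XT.nd (nat_lit 78) (nat_lit 0) (nat_lit 0) (XT.lf (nat_lit 0) (nat_lit 1347665292) (nat_lit 456) (nat_lit 12258772187) (nat_lit 76) (nat_lit 2372214626) (nat_lit 186) (nat_lit 5) (nat_lit 192) (nat_lit 5) (nat_lit 187) (nat_lit 5) (nat_lit 467) (nat_lit 419) (nat_lit 314)) (XT.lf (nat_lit 0) (nat_lit 4945592652) (nat_lit 456) (nat_lit 2543844855) (nat_lit 76) (nat_lit 8768181583) (nat_lit 186) (nat_lit 5) (nat_lit 192) (nat_lit 5) (nat_lit 187) (nat_lit 5) (nat_lit 468) (nat_lit 419) (nat_lit 313))))) (XT.nd (nat_lit 312) (nat_lit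 684) (nat_lit 0) (XT.nd (nat_lit 156) (nat_lit 380) (nat_lit 0) (XT.nd (nat_lit 78) (nat_lit 304) (nat_lit 0) (XT.lf (nat_lit 0) (nat_lit 7587276648) (nat_lit 304) (nat_lit 1120776877) (nat_lit 380) (nat_lit 7835204657) (nat_lit 182) (nat_lit 5) (nat_lit 186) (nat_lit 5) (nat_lit 187) (nat_lit 5) (nat_lit 469) (nat_lit 419) (nat_lit 312)) (XT.lf (nat_lit 0) (nat_lit 1184870179) (nat_lit 304) (nat_lit 11471981268) (nat_lit 380) (nat_lit 4178412042) (nat_lit 178) (nat_lit 5) (nat_lit 182) (nat_lit 5) (nat_lit 183) (nat_lit 5) (nat_lit 470) (nat_lit 419) (nat_lit 311))) (XT.nd (nat_lit 78) (nat_lit 380) (nat_lit 0) (XT.lf (nat_lit 0) (nat_lit 11778952568) (nat_lit 304) (nat_lit 5030682265) (nat_lit 380) (nat_lit 323829387) (nat_lit 178) (nat_lit 5) (nat_lit 182) (nat_lit 5) (nat_lit 183) (nat_lit 5) (nat_lit 471) (nat_lit 419) (nat_lit 310)) (XT.lf (nat_lit 0) (nat_lit 3626744612) (nat_lit 380) (nat_lit 12159066737)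 (nat_lit 76) (nat_lit 1652203701) (nat_lit 173) (nat_lit 5) (nat_lit 178) (nat_lit 5) (nat_lit 174) (nat_lit 5) (nat_lit 472) (nat_lit 419) (nat_lit 309)))) (XT.nd (nat_lit 156) (nat_lit 380) (nat_lit 0) (XT.nd (nat_lit 78) (nat_lit 304) (nat_lit 0) (XT.lf (nat_lit 0) (nat_lit 7778312403) (nat_lit 380) (nat_lit 1485522697) (nat_lit 76) (nat_lit 8485102395) (nat_lit 173) (nat_lit 5) (nat_lit 178) (nat_lit 5) (nat_lit 174) (nat_lit 5) (nat_lit 473) (nat_lit 419) (nat_lit 308)) (XT.lf (nat_lit 0) (nat_lit 9674619778) (nat_lit 304) (nat_lit 2457826267) (nat_lit 380) (nat_lit 5934401813) (nat_lit 169) (nat_lit 5) (nat_lit 173) (nat_lit 5) (nat_lit 174) (nat_lit 5) (nat_lit 474) (nat_lit 419) (nat_lit 307))) (XT.nd (nat_lit 78) (nat_lit 76) (nat_lit 0) (XT.lf (nat_lit 0) (nat_lit 2794242724) (nat_lit 304) (nat_lit 13893902712) (nat_lit 380) (nat_lit 1704022631) (nat_lit 165) (nat_lit 5) (nat_lit 169) (nat_lit 5) (nat_lit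 170) (nat_lit 5) (nat_lit 475) (nat_lit 419) (nat_lit 306)) (XT.lf (nat_lit 0) (nat_lit 2696656271) (nat_lit 380) (nat_lit 4309664772) (nat_lit 76) (nat_lit 11717307542) (nat_lit 164) (nat_lit 5) (nat_lit 169) (nat_lit 5) (nat_lit 165) (nat_lit 5) (nat_lit 476) (nat_lit 419) (nat_lit 305))))))) (XT.nd (nat_lit 1170) (nat_lit 2128) (nat_lit 0) (XT.nd (nat_lit 546) (nat_lit 1216) (nat_lit 0) (XT.nd (nat_lit 234) (nat_lit 836) (nat_lit 0) (XT.nd (nat_lit 78) (nat_lit 228) (nat_lit 0) (XT.lf (nat_lit 0) (nat_lit 7253782244) (nat_lit 380) (nat_lit 11641196489) (nat_lit 76) (nat_lit 167788481) (nat_lit 160) (nat_lit 5) (nat_lit 165) (nat_lit 5) (nat_lit 161) (nat_lit 5) (nat_lit 477) (nat_lit 419) (nat_lit 304)) (XT.nd (nat_lit 78) (nat_lit 0) (nat_lit 0) (XT.lf (nat_lit 0) (nat_lit 92214522) (nat_lit 228) (nat_lit 11955422273) (nat_lit 304) (nat_lit 7361443462) (nat_lit 157) (nat_lit 5) (nat_lit 160) (nat_lit 5) (nat_lit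 161) (nat_lit 5) (nat_lit 478) (nat_lit 419) (nat_lit 303)) (XT.lf (nat_lit 0) (nat_lit 12394380342) (nat_lit 228) (nat_lit 4694491720) (nat_lit 304) (nat_lit 2673804355) (nat_lit 157) (nat_lit 5) (nat_lit 160) (nat_lit 5) (nat_lit 161) (nat_lit 5) (nat_lit 479) (nat_lit 419) (nat_lit 302)))) (XT.nd (nat_lit 156) (nat_lit 456) (nat_lit 0) (XT.nd (nat_lit 78) (nat_lit 0) (nat_lit 0) (XT.lf (nat_lit 0) (nat_lit 2174081079) (nat_lit 380) (nat_lit 15158646840) (nat_lit 76) (nat_lit 2791682127) (nat_lit 152) (nat_lit 5) (nat_lit 157) (nat_lit 5) (nat_lit 153) (nat_lit 5) (nat_lit 480) (nat_lit 419) (nat_lit 301)) (XT.lf (nat_lit 0) (nat_lit 7221688389) (nat_lit 380) (nat_lit 2769203946) (nat_lit 76) (nat_lit 10502068985) (nat_lit 152) (nat_lit 5) (nat_lit 157) (nat_lit 5) (nat_lit 153) (nat_lit 5) (nat_lit 481) (nat_lit 419) (nat_lit 300))) (XT.nd (nat_lit 78) (nat_lit 228) (nat_lit 0) (XT.lf (nat_lit 0) (nat_lit 10169355786)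 (nat_lit 228) (nat_lit 2335922189) (nat_lit 304) (nat_lit 8364755140) (nat_lit 149) (nat_lit 5) (nat_lit 152) (nat_lit 5) (nat_lit 153) (nat_lit 5) (nat_lit 482) (nat_lit 419) (nat_lit 299)) (XT.lf (nat_lit 0) (nat_lit 2264721188) (nat_lit 228) (nat_lit 15772911472) (nat_lit 304) (nat_lit 3218077265) (nat_lit 146) (nat_lit 5) (nat_lit 149) (nat_lit 5) (nat_lit 150) (nat_lit 5) (nat_lit 483) (nat_lit 419) (nat_lit 298))))) (XT.nd (nat_lit 312) (nat_lit 684) (nat_lit 0) (XT.nd (nat_lit 156) (nat_lit 228) (nat_lit 0) (XT.nd (nat_lit 78) (nat_lit 228) (nat_lit 0) (XT.lf (nat_lit 0) (nat_lit 2161569302) (nat_lit 304) (nat_lit 5876671661) (nat_lit 76) (nat_lit 13610539479) (nat_lit 145) (nat_lit 5) (nat_lit 149) (nat_lit 5) (nat_lit 146) (nat_lit 5) (nat_lit 484) (nat_lit 419) (nat_lit 297)) (XT.lf (nat_lit 0) (nat_lit 7699854616) (nat_lit 304) (nat_lit 14321637027) (nat_lit 76) (nat_lit 29338218) (nat_lit 142) (nat_lit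 5) (nat_lit 146) (nat_lit 5) (nat_lit 143) (nat_lit 5) (nat_lit 485) (nat_lit 419) (nat_lit 296))) (XT.nd (nat_lit 78) (nat_lit 228) (nat_lit 0) (XT.lf (nat_lit 0) (nat_lit 13531244196) (nat_lit 304) (nat_lit 700287116) (nat_lit 76) (nat_lit 8229601299) (nat_lit 142) (nat_lit 5) (nat_lit 146) (nat_lit 5) (nat_lit 143) (nat_lit 5) (nat_lit 486) (nat_lit 419) (nat_lit 295)) (XT.lf (nat_lit 0) (nat_lit 13574541177) (nat_lit 228) (nat_lit 6081325691) (nat_lit 304) (nat_lit 3224329337) (nat_lit 139) (nat_lit 5) (nat_lit 142) (nat_lit 5) (nat_lit 143) (nat_lit 5) (nat_lit 487) (nat_lit 419) (nat_lit 294)))) (XT.nd (nat_lit 156) (nat_lit 380) (nat_lit 0) (XT.nd (nat_lit 78) (nat_lit 0) (nat_lit 0) (XT.lf (nat_lit 0) (nat_lit 2666972361) (nat_lit 304) (nat_lit 18299832234) (nat_lit 76) (nat_lit 2342272684) (nat_lit 135) (nat_lit 5) (nat_lit 139) (nat_lit 5) (nat_lit 136) (nat_lit 5) (nat_lit 488) (nat_lit 419) (nat_lit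 293)) (XT.lf (nat_lit 0) (nat_lit 8813253629) (nat_lit 304) (nat_lit 3916905444) (nat_lit 76) (nat_lit 11015417063) (nat_lit 135) (nat_lit 5) (nat_lit 139) (nat_lit 5) (nat_lit 136) (nat_lit 5) (nat_lit 489) (nat_lit 419) (nat_lit 292))) (XT.nd (nat_lit 78) (nat_lit 152) (nat_lit 0) (XT.lf (nat_lit 0) (nat_lit 11094405752) (nat_lit 228) (nat_lit 4144451122) (nat_lit 304) (nat_lit 8953465526) (nat_lit 132) (nat_lit 5) (nat_lit 135) (nat_lit 5) (nat_lit 136) (nat_lit 5) (nat_lit 490) (nat_lit 419) (nat_lit 291)) (XT.lf (nat_lit 0) (nat_lit 1958038436) (nat_lit 152) (nat_lit 19991490880) (nat_lit 228) (nat_lit 2700173140) (nat_lit 130) (nat_lit 5) (nat_lit 132) (nat_lit 5) (nat_lit 133) (nat_lit 5) (nat_lit 491) (nat_lit 419) (nat_lit 290)))))) (XT.nd (nat_lit 624) (nat_lit 912) (nat_lit 0) (XT.nd (nat_lit 312) (nat_lit 760) (nat_lit 0) (XT.nd (nat_lit 156) (nat_lit 152) (nat_lit 0) (XT.nd (nat_lit 78) (nat_lit 228)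 (nat_lit 0) (XT.lf (nat_lit 0) (nat_lit 3830734133) (nat_lit 228) (nat_lit 7480684337) (nat_lit 76) (nat_lit 13803416780) (nat_lit 129) (nat_lit 5) (nat_lit 132) (nat_lit 5) (nat_lit 130) (nat_lit 5) (nat_lit 492) (nat_lit 419) (nat_lit 289)) (XT.lf (nat_lit 0) (nat_lit 8302768263) (nat_lit 228) (nat_lit 2269082604) (nat_lit 304) (nat_lit 15019212937) (nat_lit 126) (nat_lit 5) (nat_lit 129) (nat_lit 5) (nat_lit 130) (nat_lit 5) (nat_lit 493) (nat_lit 419) (nat_lit 288))) (XT.nd (nat_lit 78) (nat_lit 152) (nat_lit 0) (XT.lf (nat_lit 0) (nat_lit 17648017686) (nat_lit 304) (nat_lit 1453915835) (nat_lit 76) (nat_lit 6975661582) (nat_lit 126) (nat_lit 5) (nat_lit 130) (nat_lit 5) (nat_lit 127) (nat_lit 5) (nat_lit 494) (nat_lit 419) (nat_lit 287)) (XT.lf (nat_lit 0) (nat_lit 15109214020) (nat_lit 152) (nat_lit 9984098670) (nat_lit 228) (nat_lit 1480704733) (nat_lit 124) (nat_lit 5) (nat_lit 126) (nat_lit 5) (nat_lit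 127) (nat_lit 5) (nat_lit 495) (nat_lit 419) (nat_lit 286)))) (XT.nd (nat_lit 156) (nat_lit 456) (nat_lit 0) (XT.nd (nat_lit 78) (nat_lit 0) (nat_lit 0) (XT.lf (nat_lit 0) (nat_lit 5141074595) (nat_lit 228) (nat_lit 478204504) (nat_lit 304) (nat_lit 21462814151) (nat_lit 120) (nat_lit 5) (nat_lit 123) (nat_lit 5) (nat_lit 124) (nat_lit 5) (nat_lit 496) (nat_lit 419) (nat_lit 285)) (XT.lf (nat_lit 0) (nat_lit 13098173875) (nat_lit 304) (nat_lit 5245865884) (nat_lit 76) (nat_lit 9255061960) (nat_lit 120) (nat_lit 5) (nat_lit 124) (nat_lit 5) (nat_lit 121) (nat_lit 5) (nat_lit 497) (nat_lit 419) (nat_lit 284))) (XT.nd (nat_lit 78) (nat_lit 304) (nat_lit 0) (XT.lf (nat_lit 0) (nat_lit 12164581390) (nat_lit 152) (nat_lit 8748068671) (nat_lit 228) (nat_lit 7215634277) (nat_lit 118) (nat_lit 5) (nat_lit 120) (nat_lit 5) (nat_lit 121) (nat_lit 5) (nat_lit 498) (nat_lit 419) (nat_lit 283)) (XT.lf (nat_lit 0) (nat_lit 352032799)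 (nat_lit 304) (nat_lit 27141386324) (nat_lit 76) (nat_lit 1177757346) (nat_lit 114) (nat_lit 5) (nat_lit 118) (nat_lit 5) (nat_lit 115) (nat_lit 5) (nat_lit 499) (nat_lit 419) (nat_lit 282))))) (XT.nd (nat_lit 312) (nat_lit 532) (nat_lit 0) (XT.nd (nat_lit 156) (nat_lit 228) (nat_lit 0) (XT.nd (nat_lit 78) (nat_lit 152) (nat_lit 0) (XT.lf (nat_lit 0) (nat_lit 8240746235) (nat_lit 304) (nat_lit 9528128937) (nat_lit 76) (nat_lit 11452165935) (nat_lit 114) (nat_lit 5) (nat_lit 118) (nat_lit 5) (nat_lit 115) (nat_lit 5) (nat_lit 500) (nat_lit 419) (nat_lit 281)) (XT.lf (nat_lit 0) (nat_lit 8766846096) (nat_lit 152) (nat_lit 7673480034) (nat_lit 228) (nat_lit 13344849700) (nat_lit 112) (nat_lit 5) (nat_lit 114) (nat_lit 5) (nat_lit 115) (nat_lit 5) (nat_lit 501) (nat_lit 419) (nat_lit 280))) (XT.nd (nat_lit 78) (nat_lit 228) (nat_lit 0) (XT.lf (nat_lit 0) (nat_lit 24999237305) (nat_lit 228) (nat_lit 2602309249) (nat_lit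 76) (nat_lit 2761288011) (nat_lit 112) (nat_lit 5) (nat_lit 115) (nat_lit 5) (nat_lit 113) (nat_lit 5) (nat_lit 502) (nat_lit 419) (nat_lit 279)) (XT.lf (nat_lit 0) (nat_lit 3029364785) (nat_lit 228) (nat_lit 14383954673) (nat_lit 76) (nat_lit 13536839225) (nat_lit 109) (nat_lit 5) (nat_lit 112) (nat_lit 5) (nat_lit 110) (nat_lit 5) (nat_lit 503) (nat_lit 419) (nat_lit 278)))) (XT.nd (nat_lit 156) (nat_lit 380) (nat_lit 0) (XT.nd (nat_lit 78) (nat_lit 0) (nat_lit 0) (XT.lf (nat_lit 0) (nat_lit 4832426967) (nat_lit 152) (nat_lit 6797175066) (nat_lit 228) (nat_lit 19922008928) (nat_lit 107) (nat_lit 5) (nat_lit 109) (nat_lit 5) (nat_lit 110) (nat_lit 5) (nat_lit 504) (nat_lit 419) (nat_lit 277)) (XT.lf (nat_lit 0) (nat_lit 20664649854) (nat_lit 228) (nat_lit 7305156832) (nat_lit 76) (nat_lit 4195996275) (nat_lit 107) (nat_lit 5) (nat_lit 110) (nat_lit 5) (nat_lit 108) (nat_lit 5) (nat_lit 505) (nat_lit 419) (nat_lit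 276))) (XT.nd (nat_lit 78) (nat_lit 228) (nat_lit 0) (XT.lf (nat_lit 0) (nat_lit 12858050038) (nat_lit 152) (nat_lit 17294222385) (nat_lit 228) (nat_lit 2640702844) (nat_lit 105) (nat_lit 5) (nat_lit 107) (nat_lit 5) (nat_lit 108) (nat_lit 5) (nat_lit 506) (nat_lit 419) (nat_lit 275)) (XT.lf (nat_lit 0) (nat_lit 264366723) (nat_lit 152) (nat_lit 6162322784) (nat_lit 228) (nat_lit 27008372618) (nat_lit 102) (nat_lit 5) (nat_lit 104) (nat_lit 5) (nat_lit 105) (nat_lit 5) (nat_lit 507) (nat_lit 419) (nat_lit 274))))))))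
noncomputable def xc141 : XT := (XT.nd (nat_lit 2418) (nat_lit 912) (nat_lit 0) (XT.nd (nat_lit 1170) (nat_lit 1292) (nat_lit 0) (XT.nd (nat_lit 546) (nat_lit 760) (nat_lit 0) (XT.nd (nat_lit 234) (nat_lit 532) (nat_lit 0) (XT.nd (nat_lit 78) (nat_lit 228) (nat_lit 0) (XT.lf (nat_lit 0) (nat_lit 15957991673) (nat_lit 228) (nat_lit 12708118898) (nat_lit 76) (nat_lit 5422167971) (nat_lit 102) (nat_lit 5) (nat_lit 105) (nat_lit 5) (nat_lit 103) (nat_lit 5) (nat_lit 508) (nat_lit 419) (nat_lit 273)) (XT.nd (nat_lit 78) (nat_lit 76) (nat_lit 0) (XT.lf (nat_lit 0) (nat_lit 8455908800) (nat_lit 152) (nat_lit 17452577833) (nat_lit 228) (nat_lit 8848607428) (nat_lit 100) (nat_lit 5) (nat_lit 102) (nat_lit 5) (nat_lit 103) (nat_lit 5) (nat_lit 509) (nat_lit 419) (nat_lit 272)) (XT.lf (nat_lit 0) (nat_lit 818211368) (nat_lit 228) (nat_lit 4951310165) (nat_lit 76) (nat_lit 29672630331) (nat_lit 99) (nat_lit 5) (nat_lit 102)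 (nat_lit 5) (nat_lit 100) (nat_lit 5) (nat_lit 510) (nat_lit 419) (nat_lit 271)))) (XT.nd (nat_lit 156) (nat_lit 228) (nat_lit 0) (XT.nd (nat_lit 78) (nat_lit 152) (nat_lit 0) (XT.lf (nat_lit 0) (nat_lit 10817115060) (nat_lit 228) (nat_lit 18930528538) (nat_lit 76) (nat_lit 6390891849) (nat_lit 97) (nat_lit 5) (nat_lit 100) (nat_lit 5) (nat_lit 98) (nat_lit 5) (nat_lit 511) (nat_lit 419) (nat_lit 270)) (XT.lf (nat_lit 0) (nat_lit 3269477025) (nat_lit 152) (nat_lit 17976827737) (nat_lit 228) (nat_lit 15605596404) (nat_lit 95) (nat_lit 5) (nat_lit 97) (nat_lit 5) (nat_lit 98) (nat_lit 5) (nat_lit 512) (nat_lit 419) (nat_lit 269))) (XT.nd (nat_lit 78) (nat_lit 228) (nat_lit 0) (XT.lf (nat_lit 0) (nat_lit 26507703674) (nat_lit 152) (nat_lit 5663202808) (nat_lit 228) (nat_lit 5410285477) (nat_lit 95) (nat_lit 5) (nat_lit 97) (nat_lit 5) (nat_lit 98) (nat_lit 5) (nat_lit 513) (nat_lit 419) (nat_lit 268)) (XT.lf (nat_lit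 0) (nat_lit 5170251470) (nat_lit 228) (nat_lit 26110689804) (nat_lit 76) (nat_lit 7044591033) (nat_lit 92) (nat_lit 5) (nat_lit 95) (nat_lit 5) (nat_lit 93) (nat_lit 5) (nat_lit 514) (nat_lit 419) (nat_lit 267))))) (XT.nd (nat_lit 312) (nat_lit 456) (nat_lit 0) (XT.nd (nat_lit 156) (nat_lit 152) (nat_lit 0) (XT.nd (nat_lit 78) (nat_lit 152) (nat_lit 0) (XT.lf (nat_lit 0) (nat_lit 16120036100) (nat_lit 228) (nat_lit 2786349539) (nat_lit 76) (nat_lit 20179393197) (nat_lit 92) (nat_lit 5) (nat_lit 95) (nat_lit 5) (nat_lit 93) (nat_lit 5) (nat_lit 515) (nat_lit 419) (nat_lit 266)) (XT.lf (nat_lit 0) (nat_lit 21644971388) (nat_lit 152) (nat_lit 5953226991) (nat_lit 228) (nat_lit 12264638026) (nat_lit 90) (nat_lit 5) (nat_lit 92) (nat_lit 5) (nat_lit 93) (nat_lit 5) (nat_lit 516) (nat_lit 419) (nat_lit 265))) (XT.nd (nat_lit 78) (nat_lit 76) (nat_lit 0) (XT.lf (nat_lit 0) (nat_lit 6239287927) (nat_lit 76) (nat_lit 33332679289)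 (nat_lit 152) (nat_lit 1086700801) (nat_lit 89) (nat_lit 5) (nat_lit 90) (nat_lit 5) (nat_lit 91) (nat_lit 4) (nat_lit 517) (nat_lit 419) (nat_lit 264)) (XT.lf (nat_lit 0) (nat_lit 10459704363) (nat_lit 152) (nat_lit 9845405517) (nat_lit 76) (nat_lit 21163160357) (nat_lit 88) (nat_lit 5) (nat_lit 90) (nat_lit 5) (nat_lit 89) (nat_lit 5) (nat_lit 518) (nat_lit 419) (nat_lit 263)))) (XT.nd (nat_lit 156) (nat_lit 304) (nat_lit 0) (XT.nd (nat_lit 78) (nat_lit 0) (nat_lit 0) (XT.lf (nat_lit 0) (nat_lit 15747600084) (nat_lit 152) (nat_lit 6726533472) (nat_lit 228) (nat_lit 19823400131) (nat_lit 86) (nat_lit 5) (nat_lit 88) (nat_lit 5) (nat_lit 89) (nat_lit 5) (nat_lit 519) (nat_lit 419) (nat_lit 262)) (XT.lf (nat_lit 0) (nat_lit 35011303988) (nat_lit 228) (nat_lit 923987939) (nat_lit 76) (nat_lit 7211514008) (nat_lit 86) (nat_lit 5) (nat_lit 89) (nat_lit 5) (nat_lit 87) (nat_lit 4) (nat_lit 520) (nat_lit 419) (nat_lit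 261))) (XT.nd (nat_lit 78) (nat_lit 152) (nat_lit 0) (XT.lf (nat_lit 0) (nat_lit 4137790539) (nat_lit 152) (nat_lit 18157759811) (nat_lit 76) (nat_lit 21715553000) (nat_lit 84) (nat_lit 5) (nat_lit 86) (nat_lit 5) (nat_lit 85) (nat_lit 5) (nat_lit 521) (nat_lit 419) (nat_lit 260)) (XT.lf (nat_lit 0) (nat_lit 8625224744) (nat_lit 152) (nat_lit 8075239140) (nat_lit 228) (nat_lit 28195908523) (nat_lit 82) (nat_lit 5) (nat_lit 84) (nat_lit 5) (nat_lit 85) (nat_lit 5) (nat_lit 522) (nat_lit 419) (nat_lit 259)))))) (XT.nd (nat_lit 624) (nat_lit 684) (nat_lit 0) (XT.nd (nat_lit 312) (nat_lit 304) (nat_lit 0) (XT.nd (nat_lit 156) (nat_lit 228) (nat_lit 0) (XT.nd (nat_lit 78) (nat_lit 76) (nat_lit 0) (XT.lf (nat_lit 0) (nat_lit 29880747697) (nat_lit 228) (nat_lit 9298121075) (nat_lit 76) (nat_lit 6622108985) (nat_lit 82) (nat_lit 5) (nat_lit 85) (nat_lit 5) (nat_lit 83) (nat_lit 4) (nat_lit 523) (nat_lit 419) (nat_lit 258))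 (XT.lf (nat_lit 0) (nat_lit 18756211747) (nat_lit 76) (nat_lit 24953085139) (nat_lit 152) (nat_lit 3015838802) (nat_lit 81) (nat_lit 5) (nat_lit 82) (nat_lit 5) (nat_lit 83) (nat_lit 4) (nat_lit 524) (nat_lit 419) (nat_lit 257))) (XT.nd (nat_lit 78) (nat_lit 0) (nat_lit 0) (XT.lf (nat_lit 0) (nat_lit 56019305) (nat_lit 152) (nat_lit 10107128207) (nat_lit 228) (nat_lit 37508268310) (nat_lit 78) (nat_lit 5) (nat_lit 80) (nat_lit 5) (nat_lit 81) (nat_lit 5) (nat_lit 525) (nat_lit 419) (nat_lit 256)) (XT.lf (nat_lit 0) (nat_lit 24004587211) (nat_lit 228) (nat_lit 19239018208) (nat_lit 76) (nat_lit 5391752287) (nat_lit 78) (nat_lit 5) (nat_lit 81) (nat_lit 5) (nat_lit 79) (nat_lit 4) (nat_lit 526) (nat_lit 419) (nat_lit 255)))) (XT.nd (nat_lit 156) (nat_lit 152) (nat_lit 0) (XT.nd (nat_lit 78) (nat_lit 76) (nat_lit 0) (XT.lf (nat_lit 0) (nat_lit 10071556673) (nat_lit 76) (nat_lit 28379450157) (nat_lit 152) (nat_lit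 11171519027) (nat_lit 77) (nat_lit 5) (nat_lit 78) (nat_lit 5) (nat_lit 79) (nat_lit 4) (nat_lit 527) (nat_lit 419) (nat_lit 254)) (XT.lf (nat_lit 0) (nat_lit 2828050069) (nat_lit 152) (nat_lit 10019012738) (nat_lit 76) (nat_lit 37785798344) (nat_lit 76) (nat_lit 5) (nat_lit 78) (nat_lit 5) (nat_lit 77) (nat_lit 5) (nat_lit 528) (nat_lit 419) (nat_lit 253))) (XT.nd (nat_lit 78) (nat_lit 0) (nat_lit 0) (XT.lf (nat_lit 0) (nat_lit 17248210073) (nat_lit 228) (nat_lit 31019091109) (nat_lit 76) (nat_lit 3396132940) (nat_lit 74) (nat_lit 5) (nat_lit 77) (nat_lit 5) (nat_lit 75) (nat_lit 4) (nat_lit 529) (nat_lit 419) (nat_lit 252)) (XT.lf (nat_lit 0) (nat_lit 32323433813) (nat_lit 228) (nat_lit 430297911) (nat_lit 76) (nat_lit 19964518891) (nat_lit 74) (nat_lit 5) (nat_lit 77) (nat_lit 5) (nat_lit 75) (nat_lit 4) (nat_lit 530) (nat_lit 419) (nat_lit 251))))) (XT.nd (nat_lit 312) (nat_lit 304) (nat_lit 0) (XT.nd (nat_lit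 156) (nat_lit 76) (nat_lit 0) (XT.nd (nat_lit 78) (nat_lit 228) (nat_lit 0) (XT.lf (nat_lit 0) (nat_lit 31681577047) (nat_lit 76) (nat_lit 16467167494) (nat_lit 152) (nat_lit 5647032250) (nat_lit 73) (nat_lit 5) (nat_lit 74) (nat_lit 5) (nat_lit 75) (nat_lit 4) (nat_lit 531) (nat_lit 419) (nat_lit 250)) (XT.lf (nat_lit 0) (nat_lit 9455090632) (nat_lit 228) (nat_lit 44955182345) (nat_lit 76) (nat_lit 489660017) (nat_lit 70) (nat_lit 5) (nat_lit 73) (nat_lit 5) (nat_lit 71) (nat_lit 4) (nat_lit 532) (nat_lit 419) (nat_lit 249))) (XT.nd (nat_lit 78) (nat_lit 76) (nat_lit 0) (XT.lf (nat_lit 0) (nat_lit 25278650275) (nat_lit 228) (nat_lit 12845716007) (nat_lit 76) (nat_lit 17899714166) (nat_lit 70) (nat_lit 5) (nat_lit 73) (nat_lit 5) (nat_lit 71) (nat_lit 4) (nat_lit 533) (nat_lit 419) (nat_lit 248)) (XT.lf (nat_lit 0) (nat_lit 20616890783) (nat_lit 76) (nat_lit 21151713450) (nat_lit 152) (nat_lit 15407597553) (nat_lit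 69) (nat_lit 5) (nat_lit 70) (nat_lit 5) (nat_lit 71) (nat_lit 4) (nat_lit 534) (nat_lit 419) (nat_lit 247)))) (XT.nd (nat_lit 156) (nat_lit 76) (nat_lit 0) (XT.nd (nat_lit 78) (nat_lit 152) (nat_lit 0) (XT.lf (nat_lit 0) (nat_lit 507265689) (nat_lit 152) (nat_lit 3029792146) (nat_lit 76) (nat_lit 54821981041) (nat_lit 68) (nat_lit 5) (nat_lit 70) (nat_lit 5) (nat_lit 69) (nat_lit 5) (nat_lit 535) (nat_lit 419) (nat_lit 246)) (XT.lf (nat_lit 0) (nat_lit 17035762044) (nat_lit 228) (nat_lit 27743943790) (nat_lit 76) (nat_lit 14779702870) (nat_lit 66) (nat_lit 5) (nat_lit 69) (nat_lit 5) (nat_lit 67) (nat_lit 4) (nat_lit 536) (nat_lit 419) (nat_lit 245))) (XT.nd (nat_lit 78) (nat_lit 0) (nat_lit 0) (XT.lf (nat_lit 0) (nat_lit 7063720366) (nat_lit 76) (nat_lit 27123926296) (nat_lit 152) (nat_lit 26604317039) (nat_lit 65) (nat_lit 5) (nat_lit 66) (nat_lit 5) (nat_lit 67) (nat_lit 4) (nat_lit 537) (nat_lit 419) (nat_lit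 244)) (XT.lf (nat_lit 0) (nat_lit 43472346183) (nat_lit 76) (nat_lit 8655683189) (nat_lit 152) (nat_lit 9925247801) (nat_lit 65) (nat_lit 5) (nat_lit 66) (nat_lit 5) (nat_lit 67) (nat_lit 4) (nat_lit 538) (nat_lit 419) (nat_lit 243))))))) (XT.nd (nat_lit 53430) (nat_lit 0) (nat_lit 20140) (XT.nd (nat_lit 624) (nat_lit 304) (nat_lit 0) (XT.nd (nat_lit 312) (nat_lit 304) (nat_lit 0) (XT.nd (nat_lit 156) (nat_lit 152) (nat_lit 0) (XT.nd (nat_lit 78) (nat_lit 0) (nat_lit 0) (XT.lf (nat_lit 0) (nat_lit 7380484042) (nat_lit 152) (nat_lit 45558979570) (nat_lit 76) (nat_lit 10402839178) (nat_lit 63) (nat_lit 5) (nat_lit 65) (nat_lit 5) (nat_lit 64) (nat_lit 4) (nat_lit 539) (nat_lit 419) (nat_lit 242)) (XT.lf (nat_lit 0) (nat_lit 25275003705) (nat_lit 152) (nat_lit 9242577365) (nat_lit 76) (nat_lit 30141396973) (nat_lit 63) (nat_lit 5) (nat_lit 65) (nat_lit 5) (nat_lit 64) (nat_lit 4) (nat_lit 540) (nat_lit 419) (nat_lit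 241))) (XT.nd (nat_lit 78) (nat_lit 76) (nat_lit 0) (XT.lf (nat_lit 0) (nat_lit 28712161881) (nat_lit 76) (nat_lit 15264288154) (nat_lit 152) (nat_lit 22030600851) (nat_lit 62) (nat_lit 5) (nat_lit 63) (nat_lit 5) (nat_lit 64) (nat_lit 4) (nat_lit 541) (nat_lit 419) (nat_lit 240)) (XT.lf (nat_lit 0) (nat_lit 556842667) (nat_lit 76) (nat_lit 62819705602) (nat_lit 76) (nat_lit 4014889456) (nat_lit 61) (nat_lit 4) (nat_lit 62) (nat_lit 5) (nat_lit 62) (nat_lit 4) (nat_lit 542) (nat_lit 419) (nat_lit 239)))) (XT.nd (nat_lit 156) (nat_lit 152) (nat_lit 0) (XT.nd (nat_lit 78) (nat_lit 76) (nat_lit 0) (XT.lf (nat_lit 0) (nat_lit 14783113695) (nat_lit 152) (nat_lit 28803511725) (nat_lit 76) (nat_lit 25210770212) (nat_lit 60) (nat_lit 5) (nat_lit 62) (nat_lit 5) (nat_lit 61) (nat_lit 4) (nat_lit 543) (nat_lit 419) (nat_lit 238)) (XT.lf (nat_lit 0) (nat_lit 10522978870) (nat_lit 76) (nat_lit 23636815533) (nat_lit 152) (nat_lit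 36081682406) (nat_lit 59) (nat_lit 5) (nat_lit 60) (nat_lit 5) (nat_lit 61) (nat_lit 4) (nat_lit 544) (nat_lit 419) (nat_lit 237))) (XT.nd (nat_lit 78) (nat_lit 152) (nat_lit 0) (XT.lf (nat_lit 0) (nat_lit 51608701830) (nat_lit 76) (nat_lit 2794272970) (nat_lit 152) (nat_lit 17317349700) (nat_lit 59) (nat_lit 5) (nat_lit 60) (nat_lit 5) (nat_lit 61) (nat_lit 4) (nat_lit 545) (nat_lit 419) (nat_lit 236)) (XT.lf (nat_lit 0) (nat_lit 2349273949) (nat_lit 152) (nat_lit 52354312907) (nat_lit 76) (nat_lit 18528013756) (nat_lit 57) (nat_lit 5) (nat_lit 59) (nat_lit 5) (nat_lit 58) (nat_lit 4) (nat_lit 546) (nat_lit 419) (nat_lit 235))))) (XT.nd (nat_lit 312) (nat_lit 76) (nat_lit 0) (XT.nd (nat_lit 156) (nat_lit 152) (nat_lit 0) (XT.nd (nat_lit 78) (nat_lit 76) (nat_lit 0) (XT.lf (nat_lit 0) (nat_lit 22485059071) (nat_lit 152) (nat_lit 11485929151) (nat_lit 76) (nat_lit 40805266338) (nat_lit 57) (nat_lit 5) (nat_lit 59)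 (nat_lit 5) (nat_lit 58) (nat_lit 4) (nat_lit 547) (nat_lit 419) (nat_lit 234)) (XT.lf (nat_lit 0) (nat_lit 31206976361) (nat_lit 76) (nat_lit 12312542857) (nat_lit 152) (nat_lit 32838890917) (nat_lit 56) (nat_lit 5) (nat_lit 57) (nat_lit 5) (nat_lit 58) (nat_lit 4) (nat_lit 548) (nat_lit 419) (nat_lit 233))) (XT.nd (nat_lit 78) (nat_lit 152) (nat_lit 0) (XT.lf (nat_lit 0) (nat_lit 65392860318) (nat_lit 152) (nat_lit 2676162667) (nat_lit 0) (nat_lit 9912772026) (nat_lit 56) (nat_lit 5) (nat_lit 58) (nat_lit 4) (nat_lit 56) (nat_lit 4) (nat_lit 549) (nat_lit 419) (nat_lit 232)) (XT.lf (nat_lit 0) (nat_lit 8630377863) (nat_lit 152) (nat_lit 37966871682) (nat_lit 76) (nat_lit 33038551283) (nat_lit 54) (nat_lit 5) (nat_lit 56) (nat_lit 5) (nat_lit 55) (nat_lit 4) (nat_lit 550) (nat_lit 419) (nat_lit 231)))) (XT.nd (nat_lit 52338) (nat_lit 0) (nat_lit 23028) (XT.nd (nat_lit 52260) (nat_lit 0) (nat_lit 23028) (XT.lf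 (nat_lit 0) (nat_lit 6043438607) (nat_lit 76) (nat_lit 24269980077) (nat_lit 152) (nat_lit 51019863673) (nat_lit 53) (nat_lit 5) (nat_lit 54) (nat_lit 5) (nat_lit 55) (nat_lit 4) (nat_lit 551) (nat_lit 419) (nat_lit 230)) (XT.lf (nat_lit 0) (nat_lit 56307404) (nat_lit 0) (nat_lit 56307404) (nat_lit 988) (nat_lit 3957782905) (nat_lit 356) (nat_lit 5) (nat_lit 356) (nat_lit 3) (nat_lit 369) (nat_lit 3) (nat_lit 420) (nat_lit 420) (nat_lit 360))) (XT.nd (nat_lit 78) (nat_lit 0) (nat_lit 0) (XT.lf (nat_lit 0) (nat_lit 1418581036) (nat_lit 988) (nat_lit 4003696978) (nat_lit 1064) (nat_lit 2804807907) (nat_lit 356) (nat_lit 5) (nat_lit 369) (nat_lit 3) (nat_lit 370) (nat_lit 5) (nat_lit 421) (nat_lit 420) (nat_lit 359)) (XT.lf (nat_lit 76) (nat_lit 118449612) (nat_lit 0) (nat_lit 2486386903) (nat_lit 1064) (nat_lit 5712420281) (nat_lit 357) (nat_lit 5) (nat_lit 356) (nat_lit 5) (nat_lit 370) (nat_lit 5) (nat_lit 422)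 (nat_lit 420) (nat_lit 358)))))) (XT.nd (nat_lit 624) (nat_lit 1976) (nat_lit 0) (XT.nd (nat_lit 312) (nat_lit 988) (nat_lit 0) (XT.nd (nat_lit 156) (nat_lit 0) (nat_lit 0) (XT.nd (nat_lit 78) (nat_lit 0) (nat_lit 0) (XT.lf (nat_lit 0) (nat_lit 3828803566) (nat_lit 988) (nat_lit 3993704528) (nat_lit 1064) (nat_lit 587565617) (nat_lit 357) (nat_lit 5) (nat_lit 370) (nat_lit 5) (nat_lit 371) (nat_lit 5) (nat_lit 423) (nat_lit 420) (nat_lit 357)) (XT.lf (nat_lit 76) (nat_lit 293862757) (nat_lit 0) (nat_lit 4780473786) (nat_lit 1064) (nat_lit 3431797680) (nat_lit 358) (nat_lit 5) (nat_lit 357) (nat_lit 5) (nat_lit 371) (nat_lit 5) (nat_lit 424) (nat_lit 420) (nat_lit 356))) (XT.nd (nat_lit 78) (nat_lit 0) (nat_lit 76) (XT.lf (nat_lit 76) (nat_lit 4767362199) (nat_lit 0) (nat_lit 1588610875) (nat_lit 1064) (nat_lit 2249145716) (nat_lit 358) (nat_lit 5) (nat_lit 357) (nat_lit 5) (nat_lit 371) (nat_lit 5) (nat_lit 425)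 (nat_lit 420) (nat_lit 355)) (XT.lf (nat_lit 76) (nat_lit 638908173) (nat_lit 0) (nat_lit 7019403303) (nat_lit 1064) (nat_lit 1049298075) (nat_lit 359) (nat_lit 5) (nat_lit 358) (nat_lit 5) (nat_lit 372) (nat_lit 5) (nat_lit 426) (nat_lit 420) (nat_lit 354)))) (XT.nd (nat_lit 156) (nat_lit 0) (nat_lit 76) (XT.nd (nat_lit 78) (nat_lit 0) (nat_lit 0) (XT.lf (nat_lit 0) (nat_lit 198088839) (nat_lit 1064) (nat_lit 3527142533) (nat_lit 1140) (nat_lit 5087438342) (nat_lit 344) (nat_lit 5) (nat_lit 358) (nat_lit 5) (nat_lit 359) (nat_lit 5) (nat_lit 427) (nat_lit 420) (nat_lit 353)) (XT.lf (nat_lit 76) (nat_lit 1137452761) (nat_lit 0) (nat_lit 296762104) (nat_lit 1140) (nat_lit 7487186802) (nat_lit 345) (nat_lit 5) (nat_lit 344) (nat_lit 5) (nat_lit 359) (nat_lit 5) (nat_lit 428) (nat_lit 420) (nat_lit 352))) (XT.nd (nat_lit 78) (nat_lit 0) (nat_lit 0) (XT.lf (nat_lit 0) (nat_lit 2736968323) (nat_lit 1064) (nat_lit 3075511936)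 (nat_lit 1140) (nat_lit 3220032777) (nat_lit 345) (nat_lit 5) (nat_lit 359) (nat_lit 5) (nat_lit 360) (nat_lit 5) (nat_lit 429) (nat_lit 420) (nat_lit 351)) (XT.lf (nat_lit 76) (nat_lit 1780717707) (nat_lit 0) (nat_lit 2281716242) (nat_lit 1140) (nat_lit 5085018566) (nat_lit 346) (nat_lit 5) (nat_lit 345) (nat_lit 5) (nat_lit 360) (nat_lit 5) (nat_lit 430) (nat_lit 420) (nat_lit 350))))) (XT.nd (nat_lit 312) (nat_lit 1064) (nat_lit 0) (XT.nd (nat_lit 156) (nat_lit 1064) (nat_lit 0) (XT.nd (nat_lit 78) (nat_lit 0) (nat_lit 0) (XT.lf (nat_lit 0) (nat_lit 5436548611) (nat_lit 1064) (nat_lit 2458757670) (nat_lit 1140) (nat_lit 1370270896) (nat_lit 346) (nat_lit 5) (nat_lit 360) (nat_lit 5) (nat_lit 361) (nat_lit 5) (nat_lit 431) (nat_lit 420) (nat_lit 349)) (XT.lf (nat_lit 76) (nat_lit 2599153256) (nat_lit 0) (nat_lit 4265839578) (nat_lit 1140) (nat_lit 2521863007) (nat_lit 347) (nat_lit 5) (nat_lit 346) (nat_lit 5)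 (nat_lit 361) (nat_lit 5) (nat_lit 432) (nat_lit 420) (nat_lit 348))) (XT.nd (nat_lit 78) (nat_lit 1064) (nat_lit 0) (XT.lf (nat_lit 76) (nat_lit 7834019858) (nat_lit 0) (nat_lit 493391271) (nat_lit 1140) (nat_lit 1184631461) (nat_lit 347) (nat_lit 5) (nat_lit 346) (nat_lit 5) (nat_lit 361) (nat_lit 5) (nat_lit 433) (nat_lit 420) (nat_lit 347)) (XT.lf (nat_lit 0) (nat_lit 223833560) (nat_lit 1140) (nat_lit 6045131292) (nat_lit 1216) (nat_lit 3370921354) (nat_lit 332) (nat_lit 5) (nat_lit 347) (nat_lit 5) (nat_lit 348) (nat_lit 5) (nat_lit 434) (nat_lit 420) (nat_lit 346)))) (XT.nd (nat_lit 156) (nat_lit 1064) (nat_lit 0) (XT.nd (nat_lit 78) (nat_lit 0) (nat_lit 76) (XT.lf (nat_lit 0) (nat_lit 1640482328) (nat_lit 1140) (nat_lit 753634694) (nat_lit 1216) (nat_lit 7377407108) (nat_lit 332) (nat_lit 5) (nat_lit 347) (nat_lit 5) (nat_lit 348) (nat_lit 5) (nat_lit 435) (nat_lit 420) (nat_lit 345)) (XT.lf (nat_lit 0)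 (nat_lit 3129974605) (nat_lit 1140) (nat_lit 5158120825) (nat_lit 76) (nat_lit 1618108413) (nat_lit 333) (nat_lit 5) (nat_lit 348) (nat_lit 5) (nat_lit 334) (nat_lit 5) (nat_lit 436) (nat_lit 420) (nat_lit 344))) (XT.nd (nat_lit 78) (nat_lit 0) (nat_lit 0) (XT.lf (nat_lit 0) (nat_lit 342625890) (nat_lit 1140) (nat_lit 4325618590) (nat_lit 1216) (nat_lit 5376559571) (nat_lit 318) (nat_lit 5) (nat_lit 333) (nat_lit 5) (nat_lit 334) (nat_lit 5) (nat_lit 437) (nat_lit 420) (nat_lit 343)) (XT.lf (nat_lit 0) (nat_lit 6088499320) (nat_lit 1140) (nat_lit 186304219) (nat_lit 1216) (nat_lit 3912097295) (nat_lit 318) (nat_lit 5) (nat_lit 333) (nat_lit 5) (nat_lit 334) (nat_lit 5) (nat_lit 438) (nat_lit 420) (nat_lit 342))))))))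
noncomputable def xc142 : XT := (XT.nd (nat_lit 2418) (nat_lit 5472) (nat_lit 0) (XT.nd (nat_lit 1170) (nat_lit 3876) (nat_lit 0) (XT.nd (nat_lit 546) (nat_lit 2812) (nat_lit 0) (XT.nd (nat_lit 234) (nat_lit 1216) (nat_lit 0) (XT.nd (nat_lit 78) (nat_lit 912) (nat_lit 0) (XT.lf (nat_lit 0) (nat_lit 1640507471) (nat_lit 1216) (nat_lit 6314980546) (nat_lit 1292) (nat_lit 2376997364) (nat_lit 302) (nat_lit 5) (nat_lit 318) (nat_lit 5) (nat_lit 319) (nat_lit 5) (nat_lit 439) (nat_lit 420) (nat_lit 341)) (XT.nd (nat_lit 78) (nat_lit 912) (nat_lit 0) (XT.lf (nat_lit 0) (nat_lit 7608167852) (nat_lit 1216) (nat_lit 2093204208) (nat_lit 1292) (nat_lit 780624677) (nat_lit 302) (nat_lit 5) (nat_lit 318) (nat_lit 5) (nat_lit 319) (nat_lit 5) (nat_lit 440) (nat_lit 420) (nat_lit 340)) (XT.lf (nat_lit 0) (nat_lit 871237076) (nat_lit 912) (nat_lit 7511157086) (nat_lit 76) (nat_lit 2252619187) (nat_lit 290) (nat_lit 5) (nat_lit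 302) (nat_lit 5) (nat_lit 291) (nat_lit 5) (nat_lit 441) (nat_lit 420) (nat_lit 339)))) (XT.nd (nat_lit 156) (nat_lit 608) (nat_lit 0) (XT.nd (nat_lit 78) (nat_lit 608) (nat_lit 0) (XT.lf (nat_lit 0) (nat_lit 2579707876) (nat_lit 912) (nat_lit 1486063560) (nat_lit 76) (nat_lit 6725937285) (nat_lit 290) (nat_lit 5) (nat_lit 302) (nat_lit 5) (nat_lit 291) (nat_lit 5) (nat_lit 442) (nat_lit 420) (nat_lit 338)) (XT.lf (nat_lit 0) (nat_lit 4363088079) (nat_lit 684) (nat_lit 6168630768) (nat_lit 76) (nat_lit 420678794) (nat_lit 282) (nat_lit 5) (nat_lit 291) (nat_lit 5) (nat_lit 283) (nat_lit 5) (nat_lit 443) (nat_lit 420) (nat_lit 337))) (XT.nd (nat_lit 78) (nat_lit 0) (nat_lit 0) (XT.lf (nat_lit 0) (nat_lit 90313529) (nat_lit 608) (nat_lit 6139981560) (nat_lit 684) (nat_lit 4886704656) (nat_lit 274) (nat_lit 5) (nat_lit 282) (nat_lit 5) (nat_lit 283) (nat_lit 5) (nat_lit 444) (nat_lit 420) (nat_lit 336)) (XT.lf (nat_lit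 0) (nat_lit 6637986323) (nat_lit 608) (nat_lit 1552381122) (nat_lit 684) (nat_lit 3095069206) (nat_lit 274) (nat_lit 5) (nat_lit 282) (nat_lit 5) (nat_lit 283) (nat_lit 5) (nat_lit 445) (nat_lit 420) (nat_lit 335))))) (XT.nd (nat_lit 312) (nat_lit 1596) (nat_lit 0) (XT.nd (nat_lit 156) (nat_lit 608) (nat_lit 0) (XT.nd (nat_lit 78) (nat_lit 76) (nat_lit 0) (XT.lf (nat_lit 0) (nat_lit 1904332688) (nat_lit 532) (nat_lit 8329012876) (nat_lit 608) (nat_lit 1224860140) (nat_lit 267) (nat_lit 5) (nat_lit 274) (nat_lit 5) (nat_lit 275) (nat_lit 5) (nat_lit 446) (nat_lit 420) (nat_lit 334)) (XT.lf (nat_lit 0) (nat_lit 726065744) (nat_lit 608) (nat_lit 2935120166) (nat_lit 76) (nat_lit 7973622706) (nat_lit 266) (nat_lit 5) (nat_lit 274) (nat_lit 5) (nat_lit 267) (nat_lit 5) (nat_lit 447) (nat_lit 420) (nat_lit 333))) (XT.nd (nat_lit 78) (nat_lit 0) (nat_lit 0) (XT.lf (nat_lit 0) (nat_lit 2736348111) (nat_lit 684) (nat_lit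 7905821427) (nat_lit 76) (nat_lit 1173414807) (nat_lit 258) (nat_lit 5) (nat_lit 267) (nat_lit 5) (nat_lit 259) (nat_lit 5) (nat_lit 448) (nat_lit 420) (nat_lit 332)) (XT.lf (nat_lit 0) (nat_lit 4849807188) (nat_lit 684) (nat_lit 1042700216) (nat_lit 76) (nat_lit 6107991802) (nat_lit 258) (nat_lit 5) (nat_lit 267) (nat_lit 5) (nat_lit 259) (nat_lit 5) (nat_lit 449) (nat_lit 420) (nat_lit 331)))) (XT.nd (nat_lit 156) (nat_lit 532) (nat_lit 0) (XT.nd (nat_lit 78) (nat_lit 532) (nat_lit 0) (XT.lf (nat_lit 0) (nat_lit 6121076549) (nat_lit 532) (nat_lit 941798516) (nat_lit 608) (nat_lit 5127002152) (nat_lit 251) (nat_lit 5) (nat_lit 258) (nat_lit 5) (nat_lit 259) (nat_lit 5) (nat_lit 450) (nat_lit 420) (nat_lit 330)) (XT.lf (nat_lit 0) (nat_lit 1092687488) (nat_lit 532) (nat_lit 8288516703) (nat_lit 608) (nat_lit 3002568097) (nat_lit 244) (nat_lit 5) (nat_lit 251) (nat_lit 5) (nat_lit 252) (nat_lit 5) (nat_lit 451)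 (nat_lit 420) (nat_lit 329))) (XT.nd (nat_lit 78) (nat_lit 532) (nat_lit 0) (XT.lf (nat_lit 0) (nat_lit 8559073372) (nat_lit 532) (nat_lit 3258703240) (nat_lit 608) (nat_lit 764248544) (nat_lit 244) (nat_lit 5) (nat_lit 251) (nat_lit 5) (nat_lit 252) (nat_lit 5) (nat_lit 452) (nat_lit 420) (nat_lit 328)) (XT.lf (nat_lit 0) (nat_lit 1542238704) (nat_lit 532) (nat_lit 9312335384) (nat_lit 76) (nat_lit 1930275927) (nat_lit 237) (nat_lit 5) (nat_lit 244) (nat_lit 5) (nat_lit 238) (nat_lit 5) (nat_lit 453) (nat_lit 420) (nat_lit 327)))))) (XT.nd (nat_lit 624) (nat_lit 1596) (nat_lit 0) (XT.nd (nat_lit 312) (nat_lit 1368) (nat_lit 0) (XT.nd (nat_lit 156) (nat_lit 456) (nat_lit 0) (XT.nd (nat_lit 78) (nat_lit 456) (nat_lit 0) (XT.lf (nat_lit 0) (nat_lit 3954809713) (nat_lit 532) (nat_lit 1782367332) (nat_lit 76) (nat_lit 7254789675) (nat_lit 237) (nat_lit 5) (nat_lit 244) (nat_lit 5) (nat_lit 238) (nat_lit 5) (nat_lit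 454) (nat_lit 420) (nat_lit 326)) (XT.lf (nat_lit 0) (nat_lit 6067723666) (nat_lit 456) (nat_lit 409932949) (nat_lit 532) (nat_lit 6726504901) (nat_lit 231) (nat_lit 5) (nat_lit 237) (nat_lit 5) (nat_lit 238) (nat_lit 5) (nat_lit 455) (nat_lit 420) (nat_lit 325))) (XT.nd (nat_lit 78) (nat_lit 0) (nat_lit 0) (XT.lf (nat_lit 0) (nat_lit 707996574) (nat_lit 456) (nat_lit 8421878771) (nat_lit 532) (nat_lit 4291237724) (nat_lit 225) (nat_lit 5) (nat_lit 231) (nat_lit 5) (nat_lit 232) (nat_lit 5) (nat_lit 456) (nat_lit 420) (nat_lit 324)) (XT.lf (nat_lit 0) (nat_lit 8905646474) (nat_lit 456) (nat_lit 3012348953) (nat_lit 532) (nat_lit 1724889160) (nat_lit 225) (nat_lit 5) (nat_lit 231) (nat_lit 5) (nat_lit 232) (nat_lit 5) (nat_lit 457) (nat_lit 420) (nat_lit 323)))) (XT.nd (nat_lit 156) (nat_lit 836) (nat_lit 0) (XT.nd (nat_lit 78) (nat_lit 0) (nat_lit 0) (XT.lf (nat_lit 0) (nat_lit 939920179) (nat_lit 532) (nat_lit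 10381889338) (nat_lit 76) (nat_lit 2548054475) (nat_lit 218) (nat_lit 5) (nat_lit 225) (nat_lit 5) (nat_lit 219) (nat_lit 5) (nat_lit 458) (nat_lit 420) (nat_lit 322)) (XT.lf (nat_lit 0) (nat_lit 3709067724) (nat_lit 532) (nat_lit 2116782422) (nat_lit 76) (nat_lit 8275519753) (nat_lit 218) (nat_lit 5) (nat_lit 225) (nat_lit 5) (nat_lit 219) (nat_lit 5) (nat_lit 459) (nat_lit 420) (nat_lit 321))) (XT.nd (nat_lit 78) (nat_lit 456) (nat_lit 0) (XT.lf (nat_lit 0) (nat_lit 6499573506) (nat_lit 380) (nat_lit 105676398) (nat_lit 456) (nat_lit 7733253572) (nat_lit 213) (nat_lit 5) (nat_lit 218) (nat_lit 5) (nat_lit 219) (nat_lit 5) (nat_lit 460) (nat_lit 420) (nat_lit 320)) (XT.lf (nat_lit 0) (nat_lit 771116490) (nat_lit 456) (nat_lit 8883568687) (nat_lit 532) (nat_lit 4926076116) (nat_lit 207) (nat_lit 5) (nat_lit 213) (nat_lit 5) (nat_lit 214) (nat_lit 5) (nat_lit 461) (nat_lit 420) (nat_lit 319))))) (XT.nd (nat_lit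 312) (nat_lit 760) (nat_lit 0) (XT.nd (nat_lit 156) (nat_lit 380) (nat_lit 0) (XT.nd (nat_lit 78) (nat_lit 456) (nat_lit 0) (XT.lf (nat_lit 0) (nat_lit 9775519101) (nat_lit 456) (nat_lit 3082331949) (nat_lit 532) (nat_lit 1970569593) (nat_lit 207) (nat_lit 5) (nat_lit 213) (nat_lit 5) (nat_lit 214) (nat_lit 5) (nat_lit 462) (nat_lit 420) (nat_lit 318)) (XT.lf (nat_lit 0) (nat_lit 1101852217) (nat_lit 456) (nat_lit 11099546278) (nat_lit 76) (nat_lit 2880326832) (nat_lit 201) (nat_lit 5) (nat_lit 207) (nat_lit 5) (nat_lit 202) (nat_lit 5) (nat_lit 463) (nat_lit 420) (nat_lit 317))) (XT.nd (nat_lit 78) (nat_lit 380) (nat_lit 0) (XT.lf (nat_lit 0) (nat_lit 4291527229) (nat_lit 456) (nat_lit 2023211895) (nat_lit 76) (nat_lit 9025365220) (nat_lit 201) (nat_lit 5) (nat_lit 207) (nat_lit 5) (nat_lit 202) (nat_lit 5) (nat_lit 464) (nat_lit 420) (nat_lit 316)) (XT.lf (nat_lit 0) (nat_lit 7447961557) (nat_lit 380) (nat_lit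 183670264) (nat_lit 456) (nat_lit 7972961818) (nat_lit 196) (nat_lit 5) (nat_lit 201) (nat_lit 5) (nat_lit 202) (nat_lit 5) (nat_lit 465) (nat_lit 420) (nat_lit 315)))) (XT.nd (nat_lit 156) (nat_lit 456) (nat_lit 0) (XT.nd (nat_lit 78) (nat_lit 0) (nat_lit 0) (XT.lf (nat_lit 0) (nat_lit 1311791688) (nat_lit 304) (nat_lit 9835689941) (nat_lit 380) (nat_lit 4727270778) (nat_lit 192) (nat_lit 5) (nat_lit 196) (nat_lit 5) (nat_lit 197) (nat_lit 5) (nat_lit 466) (nat_lit 420) (nat_lit 314)) (XT.lf (nat_lit 0) (nat_lit 11206836878) (nat_lit 304) (nat_lit 3629763856) (nat_lit 380) (nat_lit 1314382415) (nat_lit 192) (nat_lit 5) (nat_lit 196) (nat_lit 5) (nat_lit 197) (nat_lit 5) (nat_lit 467) (nat_lit 420) (nat_lit 313))) (XT.nd (nat_lit 78) (nat_lit 0) (nat_lit 0) (XT.lf (nat_lit 0) (nat_lit 2217301622) (nat_lit 456) (nat_lit 11443530517) (nat_lit 76) (nat_lit 2772254262) (nat_lit 186) (nat_lit 5) (nat_lit 192) (nat_lit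 5) (nat_lit 187) (nat_lit 5) (nat_lit 468) (nat_lit 420) (nat_lit 312)) (XT.lf (nat_lit 0) (nat_lit 5899015161) (nat_lit 456) (nat_lit 1471611817) (nat_lit 76) (nat_lit 9350521397) (nat_lit 186) (nat_lit 5) (nat_lit 192) (nat_lit 5) (nat_lit 187) (nat_lit 5) (nat_lit 469) (nat_lit 420) (nat_lit 311))))))) (XT.nd (nat_lit 1170) (nat_lit 2432) (nat_lit 0) (XT.nd (nat_lit 546) (nat_lit 1444) (nat_lit 0) (XT.nd (nat_lit 234) (nat_lit 912) (nat_lit 0) (XT.nd (nat_lit 78) (nat_lit 380) (nat_lit 0) (XT.lf (nat_lit 0) (nat_lit 8952183053) (nat_lit 304) (nat_lit 809650920) (nat_lit 380) (nat_lit 7253899531) (nat_lit 182) (nat_lit 5) (nat_lit 186) (nat_lit 5) (nat_lit 187) (nat_lit 5) (nat_lit 470) (nat_lit 420) (nat_lit 310)) (XT.nd (nat_lit 78) (nat_lit 76) (nat_lit 0) (XT.lf (nat_lit 0) (nat_lit 2366861926) (nat_lit 304) (nat_lit 11453388006) (nat_lit 380) (nat_lit 3496515762) (nat_lit 178) (nat_lit 5) (nat_lit 182) (nat_lit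 5) (nat_lit 183) (nat_lit 5) (nat_lit 471) (nat_lit 420) (nat_lit 309)) (XT.lf (nat_lit 0) (nat_lit 441407403) (nat_lit 380) (nat_lit 4383550893) (nat_lit 76) (nat_lit 12799510414) (nat_lit 177) (nat_lit 5) (nat_lit 182) (nat_lit 5) (nat_lit 178) (nat_lit 5) (nat_lit 472) (nat_lit 420) (nat_lit 308)))) (XT.nd (nat_lit 156) (nat_lit 608) (nat_lit 0) (XT.nd (nat_lit 78) (nat_lit 0) (nat_lit 0) (XT.lf (nat_lit 0) (nat_lit 4495814162) (nat_lit 380) (nat_lit 11387231952) (nat_lit 76) (nat_lit 2055260271) (nat_lit 173) (nat_lit 5) (nat_lit 178) (nat_lit 5) (nat_lit 174) (nat_lit 5) (nat_lit 473) (nat_lit 420) (nat_lit 307)) (XT.lf (nat_lit 0) (nat_lit 8749785281) (nat_lit 380) (nat_lit 426586643) (nat_lit 76) (nat_lit 9082850087) (nat_lit 173) (nat_lit 5) (nat_lit 178) (nat_lit 5) (nat_lit 174) (nat_lit 5) (nat_lit 474) (nat_lit 420) (nat_lit 306))) (XT.nd (nat_lit 78) (nat_lit 304) (nat_lit 0) (XT.lf (nat_lit 0) (nat_lit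 11057541462) (nat_lit 304) (nat_lit 2166006267) (nat_lit 380) (nat_lit 5363452976) (nat_lit 169) (nat_lit 5) (nat_lit 173) (nat_lit 5) (nat_lit 174) (nat_lit 5) (nat_lit 475) (nat_lit 420) (nat_lit 305)) (XT.lf (nat_lit 0) (nat_lit 3978199380) (nat_lit 304) (nat_lit 13930526932) (nat_lit 380) (nat_lit 1013571089) (nat_lit 165) (nat_lit 5) (nat_lit 169) (nat_lit 5) (nat_lit 170) (nat_lit 5) (nat_lit 476) (nat_lit 420) (nat_lit 304))))) (XT.nd (nat_lit 312) (nat_lit 836) (nat_lit 0) (XT.nd (nat_lit 156) (nat_lit 228) (nat_lit 0) (XT.nd (nat_lit 78) (nat_lit 304) (nat_lit 0) (XT.lf (nat_lit 0) (nat_lit 3483479722) (nat_lit 380) (nat_lit 3356783223) (nat_lit 76) (nat_lit 12423861330) (nat_lit 164) (nat_lit 5) (nat_lit 169) (nat_lit 5) (nat_lit 165) (nat_lit 5) (nat_lit 477) (nat_lit 420) (nat_lit 303)) (XT.lf (nat_lit 0) (nat_lit 8170672464) (nat_lit 380) (nat_lit 10901579462) (nat_lit 76) (nat_lit 541385581) (nat_lit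 160) (nat_lit 5) (nat_lit 165) (nat_lit 5) (nat_lit 161) (nat_lit 5) (nat_lit 478) (nat_lit 420) (nat_lit 302))) (XT.nd (nat_lit 78) (nat_lit 0) (nat_lit 0) (XT.lf (nat_lit 0) (nat_lit 1173158852) (nat_lit 228) (nat_lit 11925180621) (nat_lit 304) (nat_lit 6872301566) (nat_lit 157) (nat_lit 5) (nat_lit 160) (nat_lit 5) (nat_lit 161) (nat_lit 5) (nat_lit 479) (nat_lit 420) (nat_lit 301)) (XT.lf (nat_lit 0) (nat_lit 13812986407) (nat_lit 228) (nat_lit 4457749463) (nat_lit 304) (nat_lit 2064712467) (nat_lit 157) (nat_lit 5) (nat_lit 160) (nat_lit 5) (nat_lit 161) (nat_lit 5) (nat_lit 480) (nat_lit 420) (nat_lit 300)))) (XT.nd (nat_lit 156) (nat_lit 456) (nat_lit 0) (XT.nd (nat_lit 78) (nat_lit 0) (nat_lit 0) (XT.lf (nat_lit 0) (nat_lit 2909252905) (nat_lit 380) (nat_lit 14547212884) (nat_lit 76) (nat_lit 3251547495) (nat_lit 152) (nat_lit 5) (nat_lit 157) (nat_lit 5) (nat_lit 153) (nat_lit 5) (nat_lit 481) (nat_lit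 420) (nat_lit 299)) (XT.lf (nat_lit 0) (nat_lit 8088775345) (nat_lit 380) (nat_lit 1817140879) (nat_lit 76) (nat_lit 11182291156) (nat_lit 152) (nat_lit 5) (nat_lit 157) (nat_lit 5) (nat_lit 153) (nat_lit 5) (nat_lit 482) (nat_lit 420) (nat_lit 298))) (XT.nd (nat_lit 78) (nat_lit 228) (nat_lit 0) (XT.lf (nat_lit 0) (nat_lit 11499427223) (nat_lit 228) (nat_lit 2022353487) (nat_lit 304) (nat_lit 7955084239) (nat_lit 149) (nat_lit 5) (nat_lit 152) (nat_lit 5) (nat_lit 153) (nat_lit 5) (nat_lit 483) (nat_lit 420) (nat_lit 297)) (XT.lf (nat_lit 0) (nat_lit 3363033215) (nat_lit 228) (nat_lit 15851877868) (nat_lit 304) (nat_lit 2659357669) (nat_lit 146) (nat_lit 5) (nat_lit 149) (nat_lit 5) (nat_lit 150) (nat_lit 5) (nat_lit 484) (nat_lit 420) (nat_lit 296)))))) (XT.nd (nat_lit 624) (nat_lit 1216) (nat_lit 0) (XT.nd (nat_lit 312) (nat_lit 684) (nat_lit 0) (XT.nd (nat_lit 156) (nat_lit 228) (nat_lit 0) (XT.nd (nat_lit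 78) (nat_lit 228) (nat_lit 0) (XT.lf (nat_lit 0) (nat_lit 2850178899) (nat_lit 304) (nat_lit 5040171730) (nat_lit 76) (nat_lit 14389153970) (nat_lit 145) (nat_lit 5) (nat_lit 149) (nat_lit 5) (nat_lit 146) (nat_lit 5) (nat_lit 485) (nat_lit 420) (nat_lit 295)) (XT.lf (nat_lit 0) (nat_lit 8549811331) (nat_lit 304) (nat_lit 13733659003) (nat_lit 76) (nat_lit 410289978) (nat_lit 142) (nat_lit 5) (nat_lit 146) (nat_lit 5) (nat_lit 143) (nat_lit 5) (nat_lit 486) (nat_lit 420) (nat_lit 294))) (XT.nd (nat_lit 78) (nat_lit 0) (nat_lit 0) (XT.lf (nat_lit 0) (nat_lit 271999469) (nat_lit 228) (nat_lit 14268729762) (nat_lit 304) (nat_lit 8576106060) (nat_lit 139) (nat_lit 5) (nat_lit 142) (nat_lit 5) (nat_lit 143) (nat_lit 5) (nat_lit 487) (nat_lit 420) (nat_lit 293)) (XT.lf (nat_lit 0) (nat_lit 14960078770) (nat_lit 228) (nat_lit 5878298314) (nat_lit 304) (nat_lit 2710415839) (nat_lit 139) (nat_lit 5) (nat_lit 142) (nat_lit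 5) (nat_lit 143) (nat_lit 5) (nat_lit 488) (nat_lit 420) (nat_lit 292)))) (XT.nd (nat_lit 156) (nat_lit 380) (nat_lit 0) (XT.nd (nat_lit 78) (nat_lit 0) (nat_lit 0) (XT.lf (nat_lit 0) (nat_lit 3341443039) (nat_lit 304) (nat_lit 17854297778) (nat_lit 76) (nat_lit 2794752179) (nat_lit 135) (nat_lit 5) (nat_lit 139) (nat_lit 5) (nat_lit 136) (nat_lit 5) (nat_lit 489) (nat_lit 420) (nat_lit 291)) (XT.lf (nat_lit 0) (nat_lit 9654798332) (nat_lit 304) (nat_lit 3068850061) (nat_lit 76) (nat_lit 11716958521) (nat_lit 135) (nat_lit 5) (nat_lit 139) (nat_lit 5) (nat_lit 136) (nat_lit 5) (nat_lit 490) (nat_lit 420) (nat_lit 290))) (XT.nd (nat_lit 78) (nat_lit 152) (nat_lit 0) (XT.lf (nat_lit 0) (nat_lit 12383334172) (nat_lit 228) (nat_lit 3882215976) (nat_lit 304) (nat_lit 8635434648) (nat_lit 132) (nat_lit 5) (nat_lit 135) (nat_lit 5) (nat_lit 136) (nat_lit 5) (nat_lit 491) (nat_lit 420) (nat_lit 289)) (XT.lf (nat_lit 0)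 (nat_lit 2976762398) (nat_lit 152) (nat_lit 20197027828) (nat_lit 228) (nat_lit 2198409227) (nat_lit 130) (nat_lit 5) (nat_lit 132) (nat_lit 5) (nat_lit 133) (nat_lit 5) (nat_lit 492) (nat_lit 420) (nat_lit 288))))) (XT.nd (nat_lit 312) (nat_lit 760) (nat_lit 0) (XT.nd (nat_lit 156) (nat_lit 152) (nat_lit 0) (XT.nd (nat_lit 78) (nat_lit 228) (nat_lit 0) (XT.lf (nat_lit 0) (nat_lit 4500410703) (nat_lit 228) (nat_lit 6762022389) (nat_lit 76) (nat_lit 14589184949) (nat_lit 129) (nat_lit 5) (nat_lit 132) (nat_lit 5) (nat_lit 130) (nat_lit 5) (nat_lit 493) (nat_lit 420) (nat_lit 287)) (XT.lf (nat_lit 0) (nat_lit 9485687881) (nat_lit 228) (nat_lit 1950891767) (nat_lit 304) (nat_lit 14905769814) (nat_lit 126) (nat_lit 5) (nat_lit 129) (nat_lit 5) (nat_lit 130) (nat_lit 5) (nat_lit 494) (nat_lit 420) (nat_lit 286))) (XT.nd (nat_lit 78) (nat_lit 152) (nat_lit 0) (XT.lf (nat_lit 0) (nat_lit 18712687591) (nat_lit 304) (nat_lit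 578533478) (nat_lit 76) (nat_lit 7552626504) (nat_lit 126) (nat_lit 5) (nat_lit 130) (nat_lit 5) (nat_lit 127) (nat_lit 5) (nat_lit 495) (nat_lit 420) (nat_lit 285)) (XT.lf (nat_lit 0) (nat_lit 16472480471) (nat_lit 152) (nat_lit 9902019149) (nat_lit 228) (nat_lit 980868735) (nat_lit 124) (nat_lit 5) (nat_lit 126) (nat_lit 5) (nat_lit 127) (nat_lit 5) (nat_lit 496) (nat_lit 420) (nat_lit 284)))) (XT.nd (nat_lit 156) (nat_lit 456) (nat_lit 0) (XT.nd (nat_lit 78) (nat_lit 0) (nat_lit 0) (XT.lf (nat_lit 0) (nat_lit 6206908957) (nat_lit 228) (nat_lit 107805297) (nat_lit 304) (nat_lit 21564019157) (nat_lit 120) (nat_lit 5) (nat_lit 123) (nat_lit 5) (nat_lit 124) (nat_lit 5) (nat_lit 497) (nat_lit 420) (nat_lit 283)) (XT.lf (nat_lit 0) (nat_lit 14006221218) (nat_lit 304) (nat_lit 4506420159) (nat_lit 76) (nat_lit 9898963890) (nat_lit 120) (nat_lit 5) (nat_lit 124) (nat_lit 5) (nat_lit 121) (nat_lit 5) (nat_lit 498) (nat_lit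 420) (nat_lit 282))) (XT.nd (nat_lit 78) (nat_lit 304) (nat_lit 0) (XT.lf (nat_lit 0) (nat_lit 13417548164) (nat_lit 152) (nat_lit 8631116833) (nat_lit 228) (nat_lit 6908192848) (nat_lit 118) (nat_lit 5) (nat_lit 120) (nat_lit 5) (nat_lit 121) (nat_lit 5) (nat_lit 499) (nat_lit 420) (nat_lit 281)) (XT.lf (nat_lit 0) (nat_lit 873542958) (nat_lit 304) (nat_lit 27054606760) (nat_lit 76) (nat_lit 1587818525) (nat_lit 114) (nat_lit 5) (nat_lit 118) (nat_lit 5) (nat_lit 115) (nat_lit 5) (nat_lit 500) (nat_lit 420) (nat_lit 280))))))))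
noncomputable def xc143 : XT := (XT.nd (nat_lit 2418) (nat_lit 1444) (nat_lit 0) (XT.nd (nat_lit 1170) (nat_lit 1444) (nat_lit 0) (XT.nd (nat_lit 546) (nat_lit 988) (nat_lit 0) (XT.nd (nat_lit 234) (nat_lit 532) (nat_lit 0) (XT.nd (nat_lit 78) (nat_lit 152) (nat_lit 0) (XT.lf (nat_lit 0) (nat_lit 8984035782) (nat_lit 304) (nat_lit 8939194986) (nat_lit 76) (nat_lit 12159544951) (nat_lit 114) (nat_lit 5) (nat_lit 118) (nat_lit 5) (nat_lit 115) (nat_lit 5) (nat_lit 501) (nat_lit 420) (nat_lit 279)) (XT.nd (nat_lit 78) (nat_lit 0) (nat_lit 0) (XT.lf (nat_lit 0) (nat_lit 9896053045) (nat_lit 152) (nat_lit 7527427930) (nat_lit 228) (nat_lit 13240537596) (nat_lit 112) (nat_lit 5) (nat_lit 114) (nat_lit 5) (nat_lit 115) (nat_lit 5) (nat_lit 502) (nat_lit 420) (nat_lit 278)) (XT.lf (nat_lit 0) (nat_lit 26228400705) (nat_lit 228) (nat_lit 1828633583) (nat_lit 76) (nat_lit 3202295957) (nat_lit 112) (nat_lit 5) (nat_lit 115)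 (nat_lit 5) (nat_lit 113) (nat_lit 5) (nat_lit 503) (nat_lit 420) (nat_lit 277)))) (XT.nd (nat_lit 156) (nat_lit 152) (nat_lit 0) (XT.nd (nat_lit 78) (nat_lit 152) (nat_lit 0) (XT.lf (nat_lit 0) (nat_lit 3598281959) (nat_lit 228) (nat_lit 13962551975) (nat_lit 76) (nat_lit 14303475446) (nat_lit 109) (nat_lit 5) (nat_lit 112) (nat_lit 5) (nat_lit 110) (nat_lit 5) (nat_lit 504) (nat_lit 420) (nat_lit 276)) (XT.lf (nat_lit 0) (nat_lit 5821959141) (nat_lit 152) (nat_lit 6628762220) (nat_lit 228) (nat_lit 20033258392) (nat_lit 107) (nat_lit 5) (nat_lit 109) (nat_lit 5) (nat_lit 110) (nat_lit 5) (nat_lit 505) (nat_lit 420) (nat_lit 275))) (XT.nd (nat_lit 78) (nat_lit 152) (nat_lit 0) (XT.lf (nat_lit 0) (nat_lit 21746541108) (nat_lit 228) (nat_lit 6694059249) (nat_lit 76) (nat_lit 4676305907) (nat_lit 107) (nat_lit 5) (nat_lit 110) (nat_lit 5) (nat_lit 108) (nat_lit 5) (nat_lit 506) (nat_lit 420) (nat_lit 274)) (XT.lf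 (nat_lit 0) (nat_lit 14065904098) (nat_lit 152) (nat_lit 17447336000) (nat_lit 228) (nat_lit 2249820566) (nat_lit 105) (nat_lit 5) (nat_lit 107) (nat_lit 5) (nat_lit 108) (nat_lit 5) (nat_lit 507) (nat_lit 420) (nat_lit 273))))) (XT.nd (nat_lit 312) (nat_lit 532) (nat_lit 0) (XT.nd (nat_lit 156) (nat_lit 228) (nat_lit 0) (XT.nd (nat_lit 78) (nat_lit 0) (nat_lit 0) (XT.lf (nat_lit 0) (nat_lit 1095445249) (nat_lit 152) (nat_lit 5979462350) (nat_lit 228) (nat_lit 27349532673) (nat_lit 102) (nat_lit 5) (nat_lit 104) (nat_lit 5) (nat_lit 105) (nat_lit 5) (nat_lit 508) (nat_lit 420) (nat_lit 272)) (XT.lf (nat_lit 0) (nat_lit 16882316136) (nat_lit 228) (nat_lit 12280346548) (nat_lit 76) (nat_lit 5934885804) (nat_lit 102) (nat_lit 5) (nat_lit 105) (nat_lit 5) (nat_lit 103) (nat_lit 5) (nat_lit 509) (nat_lit 420) (nat_lit 271))) (XT.nd (nat_lit 78) (nat_lit 76) (nat_lit 0) (XT.lf (nat_lit 0) (nat_lit 9510670452) (nat_lit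 152) (nat_lit 17615377810) (nat_lit 228) (nat_lit 8660538858) (nat_lit 100) (nat_lit 5) (nat_lit 102) (nat_lit 5) (nat_lit 103) (nat_lit 5) (nat_lit 510) (nat_lit 420) (nat_lit 270)) (XT.lf (nat_lit 0) (nat_lit 1274482808) (nat_lit 228) (nat_lit 4313495515) (nat_lit 76) (nat_lit 30904476398) (nat_lit 99) (nat_lit 5) (nat_lit 102) (nat_lit 5) (nat_lit 100) (nat_lit 5) (nat_lit 511) (nat_lit 420) (nat_lit 269)))) (XT.nd (nat_lit 156) (nat_lit 228) (nat_lit 0) (XT.nd (nat_lit 78) (nat_lit 152) (nat_lit 0) (XT.lf (nat_lit 0) (nat_lit 11571647629) (nat_lit 228) (nat_lit 18710374801) (nat_lit 76) (nat_lit 6927758851) (nat_lit 97) (nat_lit 5) (nat_lit 100) (nat_lit 5) (nat_lit 98) (nat_lit 5) (nat_lit 512) (nat_lit 420) (nat_lit 268)) (XT.lf (nat_lit 0) (nat_lit 4147904757) (nat_lit 152) (nat_lit 18160784576) (nat_lit 228) (nat_lit 15636009631) (nat_lit 95) (nat_lit 5) (nat_lit 97) (nat_lit 5) (nat_lit 98) (nat_lit 5)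 (nat_lit 513) (nat_lit 420) (nat_lit 267))) (XT.nd (nat_lit 78) (nat_lit 228) (nat_lit 0) (XT.lf (nat_lit 0) (nat_lit 28060549756) (nat_lit 152) (nat_lit 5488100840) (nat_lit 228) (nat_lit 5147589512) (nat_lit 95) (nat_lit 5) (nat_lit 97) (nat_lit 5) (nat_lit 98) (nat_lit 5) (nat_lit 514) (nat_lit 420) (nat_lit 266)) (XT.lf (nat_lit 0) (nat_lit 5740554432) (nat_lit 228) (nat_lit 26126568999) (nat_lit 76) (nat_lit 7595710403) (nat_lit 92) (nat_lit 5) (nat_lit 95) (nat_lit 5) (nat_lit 93) (nat_lit 5) (nat_lit 515) (nat_lit 420) (nat_lit 265)))))) (XT.nd (nat_lit 624) (nat_lit 684) (nat_lit 0) (XT.nd (nat_lit 312) (nat_lit 456) (nat_lit 0) (XT.nd (nat_lit 156) (nat_lit 152) (nat_lit 0) (XT.nd (nat_lit 78) (nat_lit 152) (nat_lit 0) (XT.lf (nat_lit 0) (nat_lit 17006739530) (nat_lit 228) (nat_lit 2124851190) (nat_lit 76) (nat_lit 21114660080) (nat_lit 92) (nat_lit 5) (nat_lit 95) (nat_lit 5) (nat_lit 93) (nat_lit 5)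 (nat_lit 516) (nat_lit 420) (nat_lit 264)) (XT.lf (nat_lit 0) (nat_lit 23032104572) (nat_lit 152) (nat_lit 5792493293) (nat_lit 228) (nat_lit 12222161940) (nat_lit 90) (nat_lit 5) (nat_lit 92) (nat_lit 5) (nat_lit 93) (nat_lit 5) (nat_lit 517) (nat_lit 420) (nat_lit 263))) (XT.nd (nat_lit 78) (nat_lit 76) (nat_lit 0) (XT.lf (nat_lit 0) (nat_lit 7165631978) (nat_lit 76) (nat_lit 33990614503) (nat_lit 152) (nat_lit 710260117) (nat_lit 89) (nat_lit 5) (nat_lit 90) (nat_lit 5) (nat_lit 91) (nat_lit 4) (nat_lit 518) (nat_lit 420) (nat_lit 262)) (XT.lf (nat_lit 0) (nat_lit 11162873969) (nat_lit 152) (nat_lit 9415374563) (nat_lit 76) (nat_lit 22122381056) (nat_lit 88) (nat_lit 5) (nat_lit 90) (nat_lit 5) (nat_lit 89) (nat_lit 5) (nat_lit 519) (nat_lit 420) (nat_lit 261)))) (XT.nd (nat_lit 156) (nat_lit 304) (nat_lit 0) (XT.nd (nat_lit 78) (nat_lit 0) (nat_lit 0) (XT.lf (nat_lit 0) (nat_lit 16938309509) (nat_lit 152) (nat_lit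 6594989969) (nat_lit 228) (nat_lit 20021604777) (nat_lit 86) (nat_lit 5) (nat_lit 88) (nat_lit 5) (nat_lit 89) (nat_lit 5) (nat_lit 520) (nat_lit 420) (nat_lit 260)) (XT.lf (nat_lit 0) (nat_lit 36438484058) (nat_lit 228) (nat_lit 246239032) (nat_lit 76) (nat_lit 7745174819) (nat_lit 86) (nat_lit 5) (nat_lit 89) (nat_lit 5) (nat_lit 87) (nat_lit 4) (nat_lit 521) (nat_lit 420) (nat_lit 259))) (XT.nd (nat_lit 78) (nat_lit 152) (nat_lit 0) (XT.lf (nat_lit 0) (nat_lit 4638199718) (nat_lit 152) (nat_lit 17996445223) (nat_lit 76) (nat_lit 22685496670) (nat_lit 84) (nat_lit 5) (nat_lit 86) (nat_lit 5) (nat_lit 85) (nat_lit 5) (nat_lit 522) (nat_lit 420) (nat_lit 258)) (XT.lf (nat_lit 0) (nat_lit 9583106836) (nat_lit 152) (nat_lit 7990407368) (nat_lit 228) (nat_lit 28658581899) (nat_lit 82) (nat_lit 5) (nat_lit 84) (nat_lit 5) (nat_lit 85) (nat_lit 5) (nat_lit 523) (nat_lit 420) (nat_lit 257))))) (XT.nd (nat_lit 312) (nat_lit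 380) (nat_lit 0) (XT.nd (nat_lit 156) (nat_lit 228) (nat_lit 0) (XT.nd (nat_lit 78) (nat_lit 76) (nat_lit 0) (XT.lf (nat_lit 0) (nat_lit 31141423121) (nat_lit 228) (nat_lit 8890512623) (nat_lit 76) (nat_lit 7132137558) (nat_lit 82) (nat_lit 5) (nat_lit 85) (nat_lit 5) (nat_lit 83) (nat_lit 4) (nat_lit 524) (nat_lit 420) (nat_lit 256)) (XT.lf (nat_lit 0) (nat_lit 19998719280) (nat_lit 76) (nat_lit 25382035051) (nat_lit 152) (nat_lit 2735324053) (nat_lit 81) (nat_lit 5) (nat_lit 82) (nat_lit 5) (nat_lit 83) (nat_lit 4) (nat_lit 525) (nat_lit 420) (nat_lit 255))) (XT.nd (nat_lit 78) (nat_lit 0) (nat_lit 0) (XT.lf (nat_lit 0) (nat_lit 738030312) (nat_lit 152) (nat_lit 10089707264) (nat_lit 228) (nat_lit 38263024179) (nat_lit 78) (nat_lit 5) (nat_lit 80) (nat_lit 5) (nat_lit 81) (nat_lit 5) (nat_lit 526) (nat_lit 420) (nat_lit 254)) (XT.lf (nat_lit 0) (nat_lit 25076936261) (nat_lit 228) (nat_lit 19148184063) (nat_lit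 76) (nat_lit 5858726263) (nat_lit 78) (nat_lit 5) (nat_lit 81) (nat_lit 5) (nat_lit 79) (nat_lit 4) (nat_lit 527) (nat_lit 420) (nat_lit 253)))) (XT.nd (nat_lit 156) (nat_lit 228) (nat_lit 0) (XT.nd (nat_lit 78) (nat_lit 76) (nat_lit 0) (XT.lf (nat_lit 0) (nat_lit 11035158998) (nat_lit 76) (nat_lit 28917689201) (nat_lit 152) (nat_lit 11147898751) (nat_lit 77) (nat_lit 5) (nat_lit 78) (nat_lit 5) (nat_lit 79) (nat_lit 4) (nat_lit 528) (nat_lit 420) (nat_lit 252)) (XT.lf (nat_lit 0) (nat_lit 3254411020) (nat_lit 152) (nat_lit 9670591246) (nat_lit 76) (nat_lit 39216594096) (nat_lit 76) (nat_lit 5) (nat_lit 78) (nat_lit 5) (nat_lit 77) (nat_lit 5) (nat_lit 529) (nat_lit 420) (nat_lit 251))) (XT.nd (nat_lit 78) (nat_lit 76) (nat_lit 0) (XT.lf (nat_lit 0) (nat_lit 18106336690) (nat_lit 228) (nat_lit 31299827941) (nat_lit 76) (nat_lit 3796947213) (nat_lit 74) (nat_lit 5) (nat_lit 77) (nat_lit 5) (nat_lit 75) (nat_lit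 4) (nat_lit 530) (nat_lit 420) (nat_lit 250)) (XT.lf (nat_lit 0) (nat_lit 191437427) (nat_lit 76) (nat_lit 33434297201) (nat_lit 152) (nat_lit 20664080822) (nat_lit 73) (nat_lit 5) (nat_lit 74) (nat_lit 5) (nat_lit 75) (nat_lit 4) (nat_lit 531) (nat_lit 420) (nat_lit 249))))))) (XT.nd (nat_lit 1248) (nat_lit 228) (nat_lit 0) (XT.nd (nat_lit 624) (nat_lit 608) (nat_lit 0) (XT.nd (nat_lit 312) (nat_lit 304) (nat_lit 0) (XT.nd (nat_lit 156) (nat_lit 76) (nat_lit 0) (XT.nd (nat_lit 78) (nat_lit 228) (nat_lit 0) (XT.lf (nat_lit 0) (nat_lit 33256747621) (nat_lit 76) (nat_lit 16663588349) (nat_lit 152) (nat_lit 5479495640) (nat_lit 73) (nat_lit 5) (nat_lit 74) (nat_lit 5) (nat_lit 75) (nat_lit 4) (nat_lit 532) (nat_lit 420) (nat_lit 248)) (XT.lf (nat_lit 0) (nat_lit 10068370308) (nat_lit 228) (nat_lit 45671785106) (nat_lit 76) (nat_lit 796882413) (nat_lit 70) (nat_lit 5) (nat_lit 73) (nat_lit 5) (nat_lit 71) (nat_lit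 4) (nat_lit 533) (nat_lit 420) (nat_lit 247))) (XT.nd (nat_lit 78) (nat_lit 76) (nat_lit 0) (XT.lf (nat_lit 0) (nat_lit 26357035955) (nat_lit 228) (nat_lit 12617444081) (nat_lit 76) (nat_lit 18720717820) (nat_lit 70) (nat_lit 5) (nat_lit 73) (nat_lit 5) (nat_lit 71) (nat_lit 4) (nat_lit 534) (nat_lit 420) (nat_lit 246)) (XT.lf (nat_lit 0) (nat_lit 21843024801) (nat_lit 76) (nat_lit 21495183466) (nat_lit 152) (nat_lit 15543779098) (nat_lit 69) (nat_lit 5) (nat_lit 70) (nat_lit 5) (nat_lit 71) (nat_lit 4) (nat_lit 535) (nat_lit 420) (nat_lit 245)))) (XT.nd (nat_lit 156) (nat_lit 76) (nat_lit 0) (XT.nd (nat_lit 78) (nat_lit 152) (nat_lit 0) (XT.lf (nat_lit 0) (nat_lit 832856516) (nat_lit 152) (nat_lit 2524575607) (nat_lit 76) (nat_lit 56743062871) (nat_lit 68) (nat_lit 5) (nat_lit 70) (nat_lit 5) (nat_lit 69) (nat_lit 5) (nat_lit 536) (nat_lit 420) (nat_lit 244)) (XT.lf (nat_lit 0) (nat_lit 17856564635) (nat_lit 228)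 (nat_lit 27979504924) (nat_lit 76) (nat_lit 15500825764) (nat_lit 66) (nat_lit 5) (nat_lit 69) (nat_lit 5) (nat_lit 67) (nat_lit 4) (nat_lit 537) (nat_lit 420) (nat_lit 243))) (XT.nd (nat_lit 78) (nat_lit 0) (nat_lit 0) (XT.lf (nat_lit 0) (nat_lit 7866538596) (nat_lit 76) (nat_lit 27653126097) (nat_lit 152) (nat_lit 27086862619) (nat_lit 65) (nat_lit 5) (nat_lit 66) (nat_lit 5) (nat_lit 67) (nat_lit 4) (nat_lit 538) (nat_lit 420) (nat_lit 242)) (XT.lf (nat_lit 0) (nat_lit 45350212315) (nat_lit 76) (nat_lit 8639122629) (nat_lit 152) (nat_lit 9916613069) (nat_lit 65) (nat_lit 5) (nat_lit 66) (nat_lit 5) (nat_lit 67) (nat_lit 4) (nat_lit 539) (nat_lit 420) (nat_lit 241))))) (XT.nd (nat_lit 312) (nat_lit 304) (nat_lit 0) (XT.nd (nat_lit 156) (nat_lit 152) (nat_lit 0) (XT.nd (nat_lit 78) (nat_lit 0) (nat_lit 0) (XT.lf (nat_lit 0) (nat_lit 7901740505) (nat_lit 152) (nat_lit 46345496223) (nat_lit 76) (nat_lit 10986336556)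 (nat_lit 63) (nat_lit 5) (nat_lit 65) (nat_lit 5) (nat_lit 64) (nat_lit 4) (nat_lit 540) (nat_lit 420) (nat_lit 240)) (XT.lf (nat_lit 0) (nat_lit 26324362497) (nat_lit 152) (nat_lit 8956502516) (nat_lit 76) (nat_lit 31309145876) (nat_lit 63) (nat_lit 5) (nat_lit 65) (nat_lit 5) (nat_lit 64) (nat_lit 4) (nat_lit 541) (nat_lit 420) (nat_lit 239))) (XT.nd (nat_lit 78) (nat_lit 76) (nat_lit 0) (XT.lf (nat_lit 0) (nat_lit 30131355847) (nat_lit 76) (nat_lit 15452379672) (nat_lit 152) (nat_lit 22394883994) (nat_lit 62) (nat_lit 5) (nat_lit 63) (nat_lit 5) (nat_lit 64) (nat_lit 4) (nat_lit 542) (nat_lit 420) (nat_lit 238)) (XT.lf (nat_lit 0) (nat_lit 1131897899) (nat_lit 76) (nat_lit 64433436176) (nat_lit 76) (nat_lit 3839219051) (nat_lit 61) (nat_lit 4) (nat_lit 62) (nat_lit 5) (nat_lit 62) (nat_lit 4) (nat_lit 543) (nat_lit 420) (nat_lit 237)))) (XT.nd (nat_lit 156) (nat_lit 152) (nat_lit 0) (XT.nd (nat_lit 78) (nat_lit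 76) (nat_lit 0) (XT.lf (nat_lit 0) (nat_lit 15508489414) (nat_lit 152) (nat_lit 29119916860) (nat_lit 76) (nat_lit 26224451884) (nat_lit 60) (nat_lit 5) (nat_lit 62) (nat_lit 5) (nat_lit 61) (nat_lit 4) (nat_lit 544) (nat_lit 420) (nat_lit 236)) (XT.lf (nat_lit 0) (nat_lit 11380998843) (nat_lit 76) (nat_lit 24082474749) (nat_lit 152) (nat_lit 36876878169) (nat_lit 59) (nat_lit 5) (nat_lit 60) (nat_lit 5) (nat_lit 61) (nat_lit 4) (nat_lit 545) (nat_lit 420) (nat_lit 235))) (XT.nd (nat_lit 78) (nat_lit 152) (nat_lit 0) (XT.lf (nat_lit 0) (nat_lit 53683497454) (nat_lit 76) (nat_lit 2622329072) (nat_lit 152) (nat_lit 17557982125) (nat_lit 59) (nat_lit 5) (nat_lit 60) (nat_lit 5) (nat_lit 61) (nat_lit 4) (nat_lit 546) (nat_lit 420) (nat_lit 234)) (XT.lf (nat_lit 0) (nat_lit 2692760185) (nat_lit 152) (nat_lit 53392522492) (nat_lit 76) (nat_lit 19335073159) (nat_lit 57) (nat_lit 5) (nat_lit 59) (nat_lit 5) (nat_lit 58)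 (nat_lit 4) (nat_lit 547) (nat_lit 420) (nat_lit 233)))))) (XT.nd (nat_lit 52884) (nat_lit 0) (nat_lit 22040) (XT.nd (nat_lit 52572) (nat_lit 0) (nat_lit 22952) (XT.nd (nat_lit 156) (nat_lit 152) (nat_lit 0) (XT.nd (nat_lit 78) (nat_lit 76) (nat_lit 0) (XT.lf (nat_lit 0) (nat_lit 23424667172) (nat_lit 152) (nat_lit 11313594596) (nat_lit 76) (nat_lit 42273326261) (nat_lit 57) (nat_lit 5) (nat_lit 59) (nat_lit 5) (nat_lit 58) (nat_lit 4) (nat_lit 548) (nat_lit 420) (nat_lit 232)) (XT.lf (nat_lit 0) (nat_lit 32655030312) (nat_lit 76) (nat_lit 12432330888) (nat_lit 152) (nat_lit 33553931140) (nat_lit 56) (nat_lit 5) (nat_lit 57) (nat_lit 5) (nat_lit 58) (nat_lit 4) (nat_lit 549) (nat_lit 420) (nat_lit 231))) (XT.nd (nat_lit 78) (nat_lit 152) (nat_lit 0) (XT.lf (nat_lit 0) (nat_lit 67611593311) (nat_lit 152) (nat_lit 2254199426) (nat_lit 0) (nat_lit 10447745371) (nat_lit 56) (nat_lit 5) (nat_lit 58) (nat_lit 4) (nat_lit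 56) (nat_lit 4) (nat_lit 550) (nat_lit 420) (nat_lit 230)) (XT.lf (nat_lit 0) (nat_lit 9146052559) (nat_lit 152) (nat_lit 38603441416) (nat_lit 76) (nat_lit 34267675774) (nat_lit 54) (nat_lit 5) (nat_lit 56) (nat_lit 5) (nat_lit 55) (nat_lit 4) (nat_lit 551) (nat_lit 420) (nat_lit 229)))) (XT.nd (nat_lit 156) (nat_lit 0) (nat_lit 0) (XT.nd (nat_lit 78) (nat_lit 0) (nat_lit 0) (XT.lf (nat_lit 0) (nat_lit 633646845) (nat_lit 0) (nat_lit 633646845) (nat_lit 988) (nat_lit 2890555868) (nat_lit 356) (nat_lit 5) (nat_lit 356) (nat_lit 3) (nat_lit 369) (nat_lit 3) (nat_lit 421) (nat_lit 421) (nat_lit 358)) (XT.lf (nat_lit 0) (nat_lit 3685928634) (nat_lit 988) (nat_lit 2927994670) (nat_lit 1064) (nat_lit 1792996397) (nat_lit 356) (nat_lit 5) (nat_lit 369) (nat_lit 3) (nat_lit 370) (nat_lit 5) (nat_lit 422) (nat_lit 421) (nat_lit 357))) (XT.nd (nat_lit 78) (nat_lit 0) (nat_lit 0) (XT.lf (nat_lit 76) (nat_lit 1306092659)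 (nat_lit 0) (nat_lit 3548261598) (nat_lit 1064) (nat_lit 3647050817) (nat_lit 357) (nat_lit 5) (nat_lit 356) (nat_lit 5) (nat_lit 370) (nat_lit 5) (nat_lit 423) (nat_lit 421) (nat_lit 356)) (XT.lf (nat_lit 76) (nat_lit 5704573031) (nat_lit 0) (nat_lit 341290164) (nat_lit 1064) (nat_lit 2553225264) (nat_lit 357) (nat_lit 5) (nat_lit 356) (nat_lit 5) (nat_lit 370) (nat_lit 5) (nat_lit 424) (nat_lit 421) (nat_lit 355))))) (XT.nd (nat_lit 312) (nat_lit 0) (nat_lit 0) (XT.nd (nat_lit 156) (nat_lit 988) (nat_lit 0) (XT.nd (nat_lit 78) (nat_lit 0) (nat_lit 0) (XT.lf (nat_lit 76) (nat_lit 1512976419) (nat_lit 0) (nat_lit 5763005734) (nat_lit 1064) (nat_lit 1423638488) (nat_lit 358) (nat_lit 5) (nat_lit 357) (nat_lit 5) (nat_lit 371) (nat_lit 5) (nat_lit 425) (nat_lit 421) (nat_lit 354)) (XT.lf (nat_lit 76) (nat_lit 6085429453) (nat_lit 0) (nat_lit 2450946614) (nat_lit 1064) (nat_lit 266995697) (nat_lit 358) (nat_lit 5)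 (nat_lit 357) (nat_lit 5) (nat_lit 371) (nat_lit 5) (nat_lit 426) (nat_lit 421) (nat_lit 353))) (XT.nd (nat_lit 78) (nat_lit 0) (nat_lit 0) (XT.lf (nat_lit 0) (nat_lit 895676773) (nat_lit 1064) (nat_lit 7030666809) (nat_lit 1140) (nat_lit 983948123) (nat_lit 344) (nat_lit 5) (nat_lit 358) (nat_lit 5) (nat_lit 359) (nat_lit 5) (nat_lit 427) (nat_lit 421) (nat_lit 352)) (XT.lf (nat_lit 0) (nat_lit 2102443095) (nat_lit 1064) (nat_lit 2400232032) (nat_lit 1140) (nat_lit 4517231178) (nat_lit 344) (nat_lit 5) (nat_lit 358) (nat_lit 5) (nat_lit 359) (nat_lit 5) (nat_lit 428) (nat_lit 421) (nat_lit 351)))) (XT.nd (nat_lit 156) (nat_lit 0) (nat_lit 76) (XT.nd (nat_lit 78) (nat_lit 0) (nat_lit 76) (XT.lf (nat_lit 76) (nat_lit 2392215584) (nat_lit 0) (nat_lit 939877308) (nat_lit 1140) (nat_lit 5801119693) (nat_lit 345) (nat_lit 5) (nat_lit 344) (nat_lit 5) (nat_lit 359) (nat_lit 5) (nat_lit 429) (nat_lit 421) (nat_lit 350))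 (XT.lf (nat_lit 0) (nat_lit 4613985279) (nat_lit 1064) (nat_lit 1922566800) (nat_lit 1140) (nat_lit 2712908931) (nat_lit 345) (nat_lit 5) (nat_lit 359) (nat_lit 5) (nat_lit 360) (nat_lit 5) (nat_lit 430) (nat_lit 421) (nat_lit 349))) (XT.nd (nat_lit 78) (nat_lit 0) (nat_lit 76) (XT.lf (nat_lit 76) (nat_lit 3067141786) (nat_lit 0) (nat_lit 2871646591) (nat_lit 1140) (nat_lit 3430278339) (nat_lit 346) (nat_lit 5) (nat_lit 345) (nat_lit 5) (nat_lit 360) (nat_lit 5) (nat_lit 431) (nat_lit 421) (nat_lit 348)) (XT.lf (nat_lit 0) (nat_lit 7298158308) (nat_lit 1064) (nat_lit 1279292540) (nat_lit 1140) (nat_lit 914968410) (nat_lit 346) (nat_lit 5) (nat_lit 360) (nat_lit 5) (nat_lit 361) (nat_lit 5) (nat_lit 432) (nat_lit 421) (nat_lit 347))))))))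
noncomputable def xc144 : XT := (XT.nd (nat_lit 2418) (nat_lit 5928) (nat_lit 0) (XT.nd (nat_lit 1170) (nat_lit 4560) (nat_lit 0) (XT.nd (nat_lit 546) (nat_lit 3876) (nat_lit 0) (XT.nd (nat_lit 234) (nat_lit 988) (nat_lit 0) (XT.nd (nat_lit 78) (nat_lit 1140) (nat_lit 0) (XT.lf (nat_lit 76) (nat_lit 3918069166) (nat_lit 0) (nat_lit 4813844120) (nat_lit 1140) (nat_lit 886554221) (nat_lit 347) (nat_lit 5) (nat_lit 346) (nat_lit 5) (nat_lit 361) (nat_lit 5) (nat_lit 433) (nat_lit 421) (nat_lit 346)) (XT.nd (nat_lit 78) (nat_lit 0) (nat_lit 76) (XT.lf (nat_lit 0) (nat_lit 432355623) (nat_lit 1140) (nat_lit 479266931) (nat_lit 1216) (nat_lit 8837116276) (nat_lit 331) (nat_lit 5) (nat_lit 346) (nat_lit 5) (nat_lit 347) (nat_lit 5) (nat_lit 434) (nat_lit 421) (nat_lit 345)) (XT.lf (nat_lit 0) (nat_lit 1820068363) (nat_lit 1140) (nat_lit 4949770561) (nat_lit 1216) (nat_lit 3111407377) (nat_lit 332) (nat_lit 5) (nat_lit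 347) (nat_lit 5) (nat_lit 348) (nat_lit 5) (nat_lit 435) (nat_lit 421) (nat_lit 344)))) (XT.nd (nat_lit 156) (nat_lit 1064) (nat_lit 0) (XT.nd (nat_lit 78) (nat_lit 0) (nat_lit 76) (XT.lf (nat_lit 76) (nat_lit 472505351) (nat_lit 0) (nat_lit 2764956560) (nat_lit 1216) (nat_lit 6780628488) (nat_lit 333) (nat_lit 5) (nat_lit 332) (nat_lit 5) (nat_lit 348) (nat_lit 5) (nat_lit 436) (nat_lit 421) (nat_lit 343)) (XT.lf (nat_lit 0) (nat_lit 4731229543) (nat_lit 1140) (nat_lit 4037326005) (nat_lit 76) (nat_lit 1389471505) (nat_lit 333) (nat_lit 5) (nat_lit 348) (nat_lit 5) (nat_lit 334) (nat_lit 5) (nat_lit 437) (nat_lit 421) (nat_lit 342))) (XT.nd (nat_lit 78) (nat_lit 0) (nat_lit 0) (XT.lf (nat_lit 0) (nat_lit 1615937832) (nat_lit 1140) (nat_lit 4667947165) (nat_lit 1216) (nat_lit 4017857287) (nat_lit 318) (nat_lit 5) (nat_lit 333) (nat_lit 5) (nat_lit 334) (nat_lit 5) (nat_lit 438) (nat_lit 421) (nat_lit 341)) (XT.lf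 (nat_lit 0) (nat_lit 7497400091) (nat_lit 1140) (nat_lit 398262293) (nat_lit 1216) (nat_lit 2553732961) (nat_lit 318) (nat_lit 5) (nat_lit 333) (nat_lit 5) (nat_lit 334) (nat_lit 5) (nat_lit 439) (nat_lit 421) (nat_lit 340))))) (XT.nd (nat_lit 312) (nat_lit 1748) (nat_lit 0) (XT.nd (nat_lit 156) (nat_lit 836) (nat_lit 0) (XT.nd (nat_lit 78) (nat_lit 76) (nat_lit 0) (XT.lf (nat_lit 0) (nat_lit 2948600607) (nat_lit 1216) (nat_lit 6646615288) (nat_lit 1292) (nat_lit 1005081986) (nat_lit 302) (nat_lit 5) (nat_lit 318) (nat_lit 5) (nat_lit 319) (nat_lit 5) (nat_lit 440) (nat_lit 421) (nat_lit 339)) (XT.lf (nat_lit 0) (nat_lit 585493719) (nat_lit 1292) (nat_lit 1702638280) (nat_lit 76) (nat_lit 8467218394) (nat_lit 301) (nat_lit 5) (nat_lit 318) (nat_lit 5) (nat_lit 302) (nat_lit 5) (nat_lit 441) (nat_lit 421) (nat_lit 338))) (XT.nd (nat_lit 78) (nat_lit 0) (nat_lit 0) (XT.lf (nat_lit 0) (nat_lit 2242060385) (nat_lit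 912) (nat_lit 6457535008) (nat_lit 76) (nat_lit 2214008651) (nat_lit 290) (nat_lit 5) (nat_lit 302) (nat_lit 5) (nat_lit 291) (nat_lit 5) (nat_lit 442) (nat_lit 421) (nat_lit 337)) (XT.lf (nat_lit 0) (nat_lit 3962619692) (nat_lit 912) (nat_lit 288939844) (nat_lit 76) (nat_lit 6824619179) (nat_lit 290) (nat_lit 5) (nat_lit 302) (nat_lit 5) (nat_lit 291) (nat_lit 5) (nat_lit 443) (nat_lit 421) (nat_lit 336)))) (XT.nd (nat_lit 156) (nat_lit 532) (nat_lit 0) (XT.nd (nat_lit 78) (nat_lit 608) (nat_lit 0) (XT.lf (nat_lit 0) (nat_lit 5772816902) (nat_lit 684) (nat_lit 5085187388) (nat_lit 76) (nat_lit 384487912) (nat_lit 282) (nat_lit 5) (nat_lit 291) (nat_lit 5) (nat_lit 283) (nat_lit 5) (nat_lit 444) (nat_lit 421) (nat_lit 335)) (XT.lf (nat_lit 0) (nat_lit 1349088941) (nat_lit 608) (nat_lit 6321777602) (nat_lit 684) (nat_lit 3741924306) (nat_lit 274) (nat_lit 5) (nat_lit 282) (nat_lit 5) (nat_lit 283) (nat_lit 5) (nat_lit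 445) (nat_lit 421) (nat_lit 334))) (XT.nd (nat_lit 78) (nat_lit 532) (nat_lit 0) (XT.lf (nat_lit 0) (nat_lit 8056607472) (nat_lit 608) (nat_lit 1596619152) (nat_lit 684) (nat_lit 1934152846) (nat_lit 274) (nat_lit 5) (nat_lit 282) (nat_lit 5) (nat_lit 283) (nat_lit 5) (nat_lit 446) (nat_lit 421) (nat_lit 333)) (XT.lf (nat_lit 0) (nat_lit 3205227575) (nat_lit 532) (nat_lit 8528793201) (nat_lit 608) (nat_lit 32018101) (nat_lit 267) (nat_lit 5) (nat_lit 274) (nat_lit 5) (nat_lit 275) (nat_lit 5) (nat_lit 447) (nat_lit 421) (nat_lit 332)))))) (XT.nd (nat_lit 624) (nat_lit 2280) (nat_lit 0) (XT.nd (nat_lit 312) (nat_lit 1064) (nat_lit 0) (XT.nd (nat_lit 156) (nat_lit 532) (nat_lit 0) (XT.nd (nat_lit 78) (nat_lit 608) (nat_lit 0) (XT.lf (nat_lit 0) (nat_lit 1918327479) (nat_lit 608) (nat_lit 1792243330) (nat_lit 76) (nat_lit 8238070817) (nat_lit 266) (nat_lit 5) (nat_lit 274) (nat_lit 5) (nat_lit 267) (nat_lit 5) (nat_lit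 448) (nat_lit 421) (nat_lit 331)) (XT.lf (nat_lit 0) (nat_lit 3967223294) (nat_lit 684) (nat_lit 6890276571) (nat_lit 76) (nat_lit 1277994434) (nat_lit 258) (nat_lit 5) (nat_lit 267) (nat_lit 5) (nat_lit 259) (nat_lit 5) (nat_lit 449) (nat_lit 421) (nat_lit 330))) (XT.nd (nat_lit 78) (nat_lit 0) (nat_lit 0) (XT.lf (nat_lit 0) (nat_lit 145082379) (nat_lit 532) (nat_lit 5966938635) (nat_lit 608) (nat_lit 6214900285) (nat_lit 251) (nat_lit 5) (nat_lit 258) (nat_lit 5) (nat_lit 259) (nat_lit 5) (nat_lit 450) (nat_lit 421) (nat_lit 329)) (XT.lf (nat_lit 0) (nat_lit 7509017520) (nat_lit 532) (nat_lit 860160144) (nat_lit 608) (nat_lit 4153474742) (nat_lit 251) (nat_lit 5) (nat_lit 258) (nat_lit 5) (nat_lit 259) (nat_lit 5) (nat_lit 451) (nat_lit 421) (nat_lit 328)))) (XT.nd (nat_lit 156) (nat_lit 456) (nat_lit 0) (XT.nd (nat_lit 78) (nat_lit 76) (nat_lit 0) (XT.lf (nat_lit 0) (nat_lit 2349522214) (nat_lit 532) (nat_lit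 8388450187) (nat_lit 608) (nat_lit 1984967038) (nat_lit 244) (nat_lit 5) (nat_lit 251) (nat_lit 5) (nat_lit 252) (nat_lit 5) (nat_lit 452) (nat_lit 421) (nat_lit 327)) (XT.lf (nat_lit 0) (nat_lit 282615039) (nat_lit 608) (nat_lit 2926605133) (nat_lit 76) (nat_lit 9718778716) (nat_lit 243) (nat_lit 5) (nat_lit 251) (nat_lit 5) (nat_lit 244) (nat_lit 5) (nat_lit 453) (nat_lit 421) (nat_lit 326))) (XT.nd (nat_lit 78) (nat_lit 0) (nat_lit 0) (XT.lf (nat_lit 0) (nat_lit 2625297763) (nat_lit 532) (nat_lit 8364519804) (nat_lit 76) (nat_lit 2147395440) (nat_lit 237) (nat_lit 5) (nat_lit 244) (nat_lit 5) (nat_lit 238) (nat_lit 5) (nat_lit 454) (nat_lit 421) (nat_lit 325)) (XT.lf (nat_lit 0) (nat_lit 5080048081) (nat_lit 532) (nat_lit 644395981) (nat_lit 76) (nat_lit 7627007379) (nat_lit 237) (nat_lit 5) (nat_lit 244) (nat_lit 5) (nat_lit 238) (nat_lit 5) (nat_lit 455) (nat_lit 421) (nat_lit 324))))) (XT.nd (nat_lit 312)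 (nat_lit 836) (nat_lit 0) (XT.nd (nat_lit 156) (nat_lit 532) (nat_lit 0) (XT.nd (nat_lit 78) (nat_lit 456) (nat_lit 0) (XT.lf (nat_lit 0) (nat_lit 7429516940) (nat_lit 456) (nat_lit 231085766) (nat_lit 532) (nat_lit 5909950933) (nat_lit 231) (nat_lit 5) (nat_lit 237) (nat_lit 5) (nat_lit 238) (nat_lit 5) (nat_lit 456) (nat_lit 421) (nat_lit 323)) (XT.lf (nat_lit 0) (nat_lit 1925053581) (nat_lit 456) (nat_lit 8451818578) (nat_lit 532) (nat_lit 3417609217) (nat_lit 225) (nat_lit 5) (nat_lit 231) (nat_lit 5) (nat_lit 232) (nat_lit 5) (nat_lit 457) (nat_lit 421) (nat_lit 322))) (XT.nd (nat_lit 78) (nat_lit 532) (nat_lit 0) (XT.lf (nat_lit 0) (nat_lit 10333803353) (nat_lit 456) (nat_lit 2886489755) (nat_lit 532) (nat_lit 803465312) (nat_lit 225) (nat_lit 5) (nat_lit 231) (nat_lit 5) (nat_lit 232) (nat_lit 5) (nat_lit 458) (nat_lit 421) (nat_lit 321)) (XT.lf (nat_lit 0) (nat_lit 1907957816) (nat_lit 532) (nat_lit 9498894156)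 (nat_lit 76) (nat_lit 2850846785) (nat_lit 218) (nat_lit 5) (nat_lit 225) (nat_lit 5) (nat_lit 219) (nat_lit 5) (nat_lit 459) (nat_lit 421) (nat_lit 320)))) (XT.nd (nat_lit 156) (nat_lit 456) (nat_lit 0) (XT.nd (nat_lit 78) (nat_lit 380) (nat_lit 0) (XT.lf (nat_lit 0) (nat_lit 4732805805) (nat_lit 532) (nat_lit 1020623892) (nat_lit 76) (nat_lit 8743543283) (nat_lit 218) (nat_lit 5) (nat_lit 225) (nat_lit 5) (nat_lit 219) (nat_lit 5) (nat_lit 460) (nat_lit 421) (nat_lit 319)) (XT.lf (nat_lit 0) (nat_lit 7701704839) (nat_lit 456) (nat_lit 6900205087) (nat_lit 76) (nat_lit 139737563) (nat_lit 213) (nat_lit 5) (nat_lit 219) (nat_lit 5) (nat_lit 214) (nat_lit 5) (nat_lit 461) (nat_lit 421) (nat_lit 318))) (XT.nd (nat_lit 78) (nat_lit 0) (nat_lit 0) (XT.lf (nat_lit 0) (nat_lit 1955597972) (nat_lit 456) (nat_lit 8873040609) (nat_lit 532) (nat_lit 4162955809) (nat_lit 207) (nat_lit 5) (nat_lit 213) (nat_lit 5) (nat_lit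 214) (nat_lit 5) (nat_lit 462) (nat_lit 421) (nat_lit 317)) (XT.lf (nat_lit 0) (nat_lit 11196306991) (nat_lit 456) (nat_lit 2905835754) (nat_lit 532) (nat_lit 1145315233) (nat_lit 207) (nat_lit 5) (nat_lit 213) (nat_lit 5) (nat_lit 214) (nat_lit 5) (nat_lit 463) (nat_lit 421) (nat_lit 316))))))) (XT.nd (nat_lit 1170) (nat_lit 2660) (nat_lit 0) (XT.nd (nat_lit 546) (nat_lit 1672) (nat_lit 0) (XT.nd (nat_lit 234) (nat_lit 760) (nat_lit 0) (XT.nd (nat_lit 78) (nat_lit 380) (nat_lit 0) (XT.lf (nat_lit 0) (nat_lit 1990362954) (nat_lit 456) (nat_lit 10275981946) (nat_lit 76) (nat_lit 3242113296) (nat_lit 201) (nat_lit 5) (nat_lit 207) (nat_lit 5) (nat_lit 202) (nat_lit 5) (nat_lit 464) (nat_lit 421) (nat_lit 315)) (XT.nd (nat_lit 78) (nat_lit 380) (nat_lit 0) (XT.lf (nat_lit 0) (nat_lit 5250812047) (nat_lit 456) (nat_lit 961043475) (nat_lit 76) (nat_lit 9563482156) (nat_lit 201) (nat_lit 5) (nat_lit 207) (nat_lit 5)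 (nat_lit 202) (nat_lit 5) (nat_lit 465) (nat_lit 421) (nat_lit 314)) (XT.lf (nat_lit 0) (nat_lit 8678632635) (nat_lit 456) (nat_lit 7265927061) (nat_lit 76) (nat_lit 103578131) (nat_lit 196) (nat_lit 5) (nat_lit 202) (nat_lit 5) (nat_lit 197) (nat_lit 5) (nat_lit 466) (nat_lit 421) (nat_lit 313)))) (XT.nd (nat_lit 156) (nat_lit 456) (nat_lit 0) (XT.nd (nat_lit 78) (nat_lit 0) (nat_lit 0) (XT.lf (nat_lit 0) (nat_lit 2473617321) (nat_lit 304) (nat_lit 9815069300) (nat_lit 380) (nat_lit 4038054393) (nat_lit 192) (nat_lit 5) (nat_lit 196) (nat_lit 5) (nat_lit 197) (nat_lit 5) (nat_lit 467) (nat_lit 421) (nat_lit 312)) (XT.lf (nat_lit 0) (nat_lit 12632820511) (nat_lit 304) (nat_lit 3432160326) (nat_lit 380) (nat_lit 546984268) (nat_lit 192) (nat_lit 5) (nat_lit 196) (nat_lit 5) (nat_lit 197) (nat_lit 5) (nat_lit 468) (nat_lit 421) (nat_lit 311))) (XT.nd (nat_lit 78) (nat_lit 0) (nat_lit 0) (XT.lf (nat_lit 0) (nat_lit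 3065427204) (nat_lit 456) (nat_lit 10671740914) (nat_lit 76) (nat_lit 3165416420) (nat_lit 186) (nat_lit 5) (nat_lit 192) (nat_lit 5) (nat_lit 187) (nat_lit 5) (nat_lit 469) (nat_lit 421) (nat_lit 310)) (XT.lf (nat_lit 0) (nat_lit 6834826910) (nat_lit 456) (nat_lit 433143164) (nat_lit 76) (nat_lit 9932002603) (nat_lit 186) (nat_lit 5) (nat_lit 192) (nat_lit 5) (nat_lit 187) (nat_lit 5) (nat_lit 470) (nat_lit 421) (nat_lit 309))))) (XT.nd (nat_lit 312) (nat_lit 684) (nat_lit 0) (XT.nd (nat_lit 156) (nat_lit 380) (nat_lit 0) (XT.nd (nat_lit 78) (nat_lit 304) (nat_lit 0) (XT.lf (nat_lit 0) (nat_lit 10292751660) (nat_lit 304) (nat_lit 508981202) (nat_lit 380) (nat_lit 6702017728) (nat_lit 182) (nat_lit 5) (nat_lit 186) (nat_lit 5) (nat_lit 187) (nat_lit 5) (nat_lit 471) (nat_lit 421) (nat_lit 308)) (XT.lf (nat_lit 0) (nat_lit 3518502756) (nat_lit 304) (nat_lit 11455060435) (nat_lit 380) (nat_lit 2840501968) (nat_lit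 178) (nat_lit 5) (nat_lit 182) (nat_lit 5) (nat_lit 183) (nat_lit 5) (nat_lit 472) (nat_lit 421) (nat_lit 307))) (XT.nd (nat_lit 78) (nat_lit 304) (nat_lit 0) (XT.lf (nat_lit 0) (nat_lit 1178980874) (nat_lit 380) (nat_lit 3451441738) (nat_lit 76) (nat_lit 13501010319) (nat_lit 177) (nat_lit 5) (nat_lit 182) (nat_lit 5) (nat_lit 178) (nat_lit 5) (nat_lit 473) (nat_lit 421) (nat_lit 306)) (XT.lf (nat_lit 0) (nat_lit 5347313351) (nat_lit 380) (nat_lit 10657488002) (nat_lit 76) (nat_lit 2450116739) (nat_lit 173) (nat_lit 5) (nat_lit 178) (nat_lit 5) (nat_lit 174) (nat_lit 5) (nat_lit 474) (nat_lit 421) (nat_lit 305)))) (XT.nd (nat_lit 156) (nat_lit 380) (nat_lit 0) (XT.nd (nat_lit 78) (nat_lit 0) (nat_lit 0) (XT.lf (nat_lit 0) (nat_lit 612728518) (nat_lit 304) (nat_lit 9101192440) (nat_lit 380) (nat_lit 9071990838) (nat_lit 169) (nat_lit 5) (nat_lit 173) (nat_lit 5) (nat_lit 174) (nat_lit 5) (nat_lit 475) (nat_lit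 421) (nat_lit 304)) (XT.lf (nat_lit 0) (nat_lit 12419226317) (nat_lit 304) (nat_lit 1886416007) (nat_lit 380) (nat_lit 4818370240) (nat_lit 169) (nat_lit 5) (nat_lit 173) (nat_lit 5) (nat_lit 174) (nat_lit 5) (nat_lit 476) (nat_lit 421) (nat_lit 303))) (XT.nd (nat_lit 78) (nat_lit 76) (nat_lit 0) (XT.lf (nat_lit 0) (nat_lit 5134522810) (nat_lit 304) (nat_lit 13990074504) (nat_lit 380) (nat_lit 344975280) (nat_lit 165) (nat_lit 5) (nat_lit 169) (nat_lit 5) (nat_lit 170) (nat_lit 5) (nat_lit 477) (nat_lit 421) (nat_lit 302)) (XT.lf (nat_lit 0) (nat_lit 4253384965) (nat_lit 380) (nat_lit 2437436299) (nat_lit 76) (nat_lit 13131231296) (nat_lit 164) (nat_lit 5) (nat_lit 169) (nat_lit 5) (nat_lit 165) (nat_lit 5) (nat_lit 478) (nat_lit 421) (nat_lit 301)))))) (XT.nd (nat_lit 624) (nat_lit 1216) (nat_lit 0) (XT.nd (nat_lit 312) (nat_lit 532) (nat_lit 0) (XT.nd (nat_lit 156) (nat_lit 380) (nat_lit 0) (XT.nd (nat_lit 78)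 (nat_lit 228) (nat_lit 0) (XT.lf (nat_lit 0) (nat_lit 9074928045) (nat_lit 380) (nat_lit 10202278535) (nat_lit 76) (nat_lit 905033545) (nat_lit 160) (nat_lit 5) (nat_lit 165) (nat_lit 5) (nat_lit 161) (nat_lit 5) (nat_lit 479) (nat_lit 421) (nat_lit 300)) (XT.lf (nat_lit 0) (nat_lit 2224639689) (nat_lit 228) (nat_lit 11916356420) (nat_lit 304) (nat_lit 6409241469) (nat_lit 157) (nat_lit 5) (nat_lit 160) (nat_lit 5) (nat_lit 161) (nat_lit 5) (nat_lit 480) (nat_lit 421) (nat_lit 299))) (XT.nd (nat_lit 78) (nat_lit 380) (nat_lit 0) (XT.lf (nat_lit 0) (nat_lit 15214061506) (nat_lit 228) (nat_lit 4235579403) (nat_lit 304) (nat_lit 1476916807) (nat_lit 157) (nat_lit 5) (nat_lit 160) (nat_lit 5) (nat_lit 161) (nat_lit 5) (nat_lit 481) (nat_lit 421) (nat_lit 298)) (XT.lf (nat_lit 0) (nat_lit 3628022050) (nat_lit 380) (nat_lit 13978639769) (nat_lit 76) (nat_lit 3703618289) (nat_lit 152) (nat_lit 5) (nat_lit 157) (nat_lit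 5) (nat_lit 153) (nat_lit 5) (nat_lit 482) (nat_lit 421) (nat_lit 297)))) (XT.nd (nat_lit 156) (nat_lit 304) (nat_lit 0) (XT.nd (nat_lit 78) (nat_lit 228) (nat_lit 0) (XT.lf (nat_lit 0) (nat_lit 8944537206) (nat_lit 380) (nat_lit 895937143) (nat_lit 76) (nat_lit 11861958308) (nat_lit 152) (nat_lit 5) (nat_lit 157) (nat_lit 5) (nat_lit 153) (nat_lit 5) (nat_lit 483) (nat_lit 421) (nat_lit 296)) (XT.lf (nat_lit 0) (nat_lit 12810562140) (nat_lit 228) (nat_lit 1721400596) (nat_lit 304) (nat_lit 7571045132) (nat_lit 149) (nat_lit 5) (nat_lit 152) (nat_lit 5) (nat_lit 153) (nat_lit 5) (nat_lit 484) (nat_lit 421) (nat_lit 295))) (XT.nd (nat_lit 78) (nat_lit 76) (nat_lit 0) (XT.lf (nat_lit 0) (nat_lit 4435147127) (nat_lit 228) (nat_lit 15955843152) (nat_lit 304) (nat_lit 2121491200) (nat_lit 146) (nat_lit 5) (nat_lit 149) (nat_lit 5) (nat_lit 150) (nat_lit 5) (nat_lit 485) (nat_lit 421) (nat_lit 294)) (XT.lf (nat_lit 0)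 (nat_lit 3523640264) (nat_lit 304) (nat_lit 4236715669) (nat_lit 76) (nat_lit 15169870258) (nat_lit 145) (nat_lit 5) (nat_lit 149) (nat_lit 5) (nat_lit 146) (nat_lit 5) (nat_lit 486) (nat_lit 421) (nat_lit 293))))) (XT.nd (nat_lit 312) (nat_lit 456) (nat_lit 0) (XT.nd (nat_lit 156) (nat_lit 304) (nat_lit 0) (XT.nd (nat_lit 78) (nat_lit 228) (nat_lit 0) (XT.lf (nat_lit 0) (nat_lit 9389735850) (nat_lit 304) (nat_lit 13186457599) (nat_lit 76) (nat_lit 780852626) (nat_lit 142) (nat_lit 5) (nat_lit 146) (nat_lit 5) (nat_lit 143) (nat_lit 5) (nat_lit 487) (nat_lit 421) (nat_lit 292)) (XT.lf (nat_lit 0) (nat_lit 1229966596) (nat_lit 228) (nat_lit 14322551706) (nat_lit 304) (nat_lit 8240531593) (nat_lit 139) (nat_lit 5) (nat_lit 142) (nat_lit 5) (nat_lit 143) (nat_lit 5) (nat_lit 488) (nat_lit 421) (nat_lit 291))) (XT.nd (nat_lit 78) (nat_lit 304) (nat_lit 0) (XT.lf (nat_lit 0) (nat_lit 16331023990) (nat_lit 228) (nat_lit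 5691307507) (nat_lit 304) (nat_lit 2216138364) (nat_lit 139) (nat_lit 5) (nat_lit 142) (nat_lit 5) (nat_lit 143) (nat_lit 5) (nat_lit 489) (nat_lit 421) (nat_lit 290)) (XT.lf (nat_lit 0) (nat_lit 4002023316) (nat_lit 304) (nat_lit 17452487346) (nat_lit 76) (nat_lit 3238865565) (nat_lit 135) (nat_lit 5) (nat_lit 139) (nat_lit 5) (nat_lit 136) (nat_lit 5) (nat_lit 490) (nat_lit 421) (nat_lit 289)))) (XT.nd (nat_lit 156) (nat_lit 228) (nat_lit 0) (XT.nd (nat_lit 78) (nat_lit 228) (nat_lit 0) (XT.lf (nat_lit 0) (nat_lit 10488458773) (nat_lit 304) (nat_lit 2250780257) (nat_lit 76) (nat_lit 12418244772) (nat_lit 135) (nat_lit 5) (nat_lit 139) (nat_lit 5) (nat_lit 136) (nat_lit 5) (nat_lit 491) (nat_lit 421) (nat_lit 288)) (XT.lf (nat_lit 0) (nat_lit 13656046608) (nat_lit 228) (nat_lit 3634304399) (nat_lit 304) (nat_lit 8341538083) (nat_lit 132) (nat_lit 5) (nat_lit 135) (nat_lit 5) (nat_lit 136) (nat_lit 5) (nat_lit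 492) (nat_lit 421) (nat_lit 287))) (XT.nd (nat_lit 78) (nat_lit 76) (nat_lit 0) (XT.lf (nat_lit 0) (nat_lit 3970941138) (nat_lit 152) (nat_lit 20431360024) (nat_lit 228) (nat_lit 1715045727) (nat_lit 130) (nat_lit 5) (nat_lit 132) (nat_lit 5) (nat_lit 133) (nat_lit 5) (nat_lit 493) (nat_lit 421) (nat_lit 286)) (XT.lf (nat_lit 0) (nat_lit 5158332391) (nat_lit 228) (nat_lit 6075937376) (nat_lit 76) (nat_lit 15377191033) (nat_lit 129) (nat_lit 5) (nat_lit 132) (nat_lit 5) (nat_lit 130) (nat_lit 5) (nat_lit 494) (nat_lit 421) (nat_lit 285))))))))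
noncomputable def xc145 : XT := (XT.nd (nat_lit 2418) (nat_lit 1976) (nat_lit 0) (XT.nd (nat_lit 1170) (nat_lit 1520) (nat_lit 0) (XT.nd (nat_lit 546) (nat_lit 912) (nat_lit 0) (XT.nd (nat_lit 234) (nat_lit 760) (nat_lit 0) (XT.nd (nat_lit 78) (nat_lit 152) (nat_lit 0) (XT.lf (nat_lit 0) (nat_lit 10650489049) (nat_lit 228) (nat_lit 1645328299) (nat_lit 304) (nat_lit 14821300424) (nat_lit 126) (nat_lit 5) (nat_lit 129) (nat_lit 5) (nat_lit 130) (nat_lit 5) (nat_lit 495) (nat_lit 421) (nat_lit 284)) (XT.nd (nat_lit 78) (nat_lit 0) (nat_lit 0) (XT.lf (nat_lit 0) (nat_lit 275736614) (nat_lit 152) (nat_lit 19505487171) (nat_lit 228) (nat_lit 7852707107) (nat_lit 124) (nat_lit 5) (nat_lit 126) (nat_lit 5) (nat_lit 127) (nat_lit 5) (nat_lit 496) (nat_lit 421) (nat_lit 283)) (XT.lf (nat_lit 0) (nat_lit 17824407764) (nat_lit 152) (nat_lit 9839382786) (nat_lit 228) (nat_lit 497280243) (nat_lit 124) (nat_lit 5) (nat_lit 126)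 (nat_lit 5) (nat_lit 127) (nat_lit 5) (nat_lit 497) (nat_lit 421) (nat_lit 282)))) (XT.nd (nat_lit 156) (nat_lit 456) (nat_lit 0) (XT.nd (nat_lit 78) (nat_lit 0) (nat_lit 0) (XT.lf (nat_lit 0) (nat_lit 7003187455) (nat_lit 304) (nat_lit 21450211128) (nat_lit 76) (nat_lit 246709916) (nat_lit 120) (nat_lit 5) (nat_lit 124) (nat_lit 5) (nat_lit 121) (nat_lit 5) (nat_lit 498) (nat_lit 421) (nat_lit 281)) (XT.lf (nat_lit 0) (nat_lit 14911941012) (nat_lit 304) (nat_lit 3796272296) (nat_lit 76) (nat_lit 10541158626) (nat_lit 120) (nat_lit 5) (nat_lit 124) (nat_lit 5) (nat_lit 121) (nat_lit 5) (nat_lit 499) (nat_lit 421) (nat_lit 280))) (XT.nd (nat_lit 78) (nat_lit 304) (nat_lit 0) (XT.lf (nat_lit 0) (nat_lit 14657127424) (nat_lit 152) (nat_lit 8532435201) (nat_lit 228) (nat_lit 6621602780) (nat_lit 118) (nat_lit 5) (nat_lit 120) (nat_lit 5) (nat_lit 121) (nat_lit 5) (nat_lit 500) (nat_lit 421) (nat_lit 279)) (XT.lf (nat_lit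 0) (nat_lit 1381367849) (nat_lit 304) (nat_lit 27016946109) (nat_lit 76) (nat_lit 1988670593) (nat_lit 114) (nat_lit 5) (nat_lit 118) (nat_lit 5) (nat_lit 115) (nat_lit 5) (nat_lit 501) (nat_lit 421) (nat_lit 278))))) (XT.nd (nat_lit 312) (nat_lit 532) (nat_lit 0) (XT.nd (nat_lit 156) (nat_lit 228) (nat_lit 0) (XT.nd (nat_lit 78) (nat_lit 152) (nat_lit 0) (XT.lf (nat_lit 0) (nat_lit 9721147732) (nat_lit 304) (nat_lit 8382808841) (nat_lit 76) (nat_lit 12867260924) (nat_lit 114) (nat_lit 5) (nat_lit 118) (nat_lit 5) (nat_lit 115) (nat_lit 5) (nat_lit 502) (nat_lit 421) (nat_lit 277)) (XT.lf (nat_lit 0) (nat_lit 11009412690) (nat_lit 152) (nat_lit 7398592926) (nat_lit 228) (nat_lit 13162065540) (nat_lit 112) (nat_lit 5) (nat_lit 114) (nat_lit 5) (nat_lit 115) (nat_lit 5) (nat_lit 503) (nat_lit 421) (nat_lit 276))) (XT.nd (nat_lit 78) (nat_lit 228) (nat_lit 0) (XT.lf (nat_lit 0) (nat_lit 27466931755) (nat_lit 228)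 (nat_lit 1080641291) (nat_lit 76) (nat_lit 3635973758) (nat_lit 112) (nat_lit 5) (nat_lit 115) (nat_lit 5) (nat_lit 113) (nat_lit 5) (nat_lit 504) (nat_lit 421) (nat_lit 275)) (XT.lf (nat_lit 0) (nat_lit 4156825413) (nat_lit 228) (nat_lit 13577468370) (nat_lit 76) (nat_lit 15072414796) (nat_lit 109) (nat_lit 5) (nat_lit 112) (nat_lit 5) (nat_lit 110) (nat_lit 5) (nat_lit 505) (nat_lit 421) (nat_lit 274)))) (XT.nd (nat_lit 156) (nat_lit 380) (nat_lit 0) (XT.nd (nat_lit 78) (nat_lit 0) (nat_lit 0) (XT.lf (nat_lit 0) (nat_lit 6792696117) (nat_lit 152) (nat_lit 6476670144) (nat_lit 228) (nat_lit 20175767310) (nat_lit 107) (nat_lit 5) (nat_lit 109) (nat_lit 5) (nat_lit 110) (nat_lit 5) (nat_lit 506) (nat_lit 421) (nat_lit 273)) (XT.lf (nat_lit 0) (nat_lit 22834371179) (nat_lit 228) (nat_lit 6112288616) (nat_lit 76) (nat_lit 5150679111) (nat_lit 107) (nat_lit 5) (nat_lit 110) (nat_lit 5) (nat_lit 108) (nat_lit 5) (nat_lit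 507) (nat_lit 421) (nat_lit 272))) (XT.nd (nat_lit 78) (nat_lit 228) (nat_lit 0) (XT.lf (nat_lit 0) (nat_lit 15262801157) (nat_lit 152) (nat_lit 17626036448) (nat_lit 228) (nat_lit 1874197676) (nat_lit 105) (nat_lit 5) (nat_lit 107) (nat_lit 5) (nat_lit 108) (nat_lit 5) (nat_lit 508) (nat_lit 421) (nat_lit 271)) (XT.lf (nat_lit 0) (nat_lit 1904204096) (nat_lit 152) (nat_lit 5812225316) (nat_lit 228) (nat_lit 27727855279) (nat_lit 102) (nat_lit 5) (nat_lit 104) (nat_lit 5) (nat_lit 105) (nat_lit 5) (nat_lit 509) (nat_lit 421) (nat_lit 270)))))) (XT.nd (nat_lit 624) (nat_lit 760) (nat_lit 0) (XT.nd (nat_lit 312) (nat_lit 380) (nat_lit 0) (XT.nd (nat_lit 156) (nat_lit 228) (nat_lit 0) (XT.nd (nat_lit 78) (nat_lit 152) (nat_lit 0) (XT.lf (nat_lit 0) (nat_lit 17808791947) (nat_lit 228) (nat_lit 11886181851) (nat_lit 76) (nat_lit 6442890711) (nat_lit 102) (nat_lit 5) (nat_lit 105) (nat_lit 5) (nat_lit 103) (nat_lit 5)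 (nat_lit 510) (nat_lit 421) (nat_lit 269)) (XT.lf (nat_lit 0) (nat_lit 10551089432) (nat_lit 152) (nat_lit 17803771882) (nat_lit 228) (nat_lit 8492862524) (nat_lit 100) (nat_lit 5) (nat_lit 102) (nat_lit 5) (nat_lit 103) (nat_lit 5) (nat_lit 511) (nat_lit 421) (nat_lit 268))) (XT.nd (nat_lit 78) (nat_lit 152) (nat_lit 0) (XT.lf (nat_lit 0) (nat_lit 1719659604) (nat_lit 228) (nat_lit 3701686359) (nat_lit 76) (nat_lit 32153664755) (nat_lit 99) (nat_lit 5) (nat_lit 102) (nat_lit 5) (nat_lit 100) (nat_lit 5) (nat_lit 512) (nat_lit 421) (nat_lit 267)) (XT.lf (nat_lit 0) (nat_lit 12324131318) (nat_lit 228) (nat_lit 18528854871) (nat_lit 76) (nat_lit 7460919400) (nat_lit 97) (nat_lit 5) (nat_lit 100) (nat_lit 5) (nat_lit 98) (nat_lit 5) (nat_lit 513) (nat_lit 421) (nat_lit 266)))) (XT.nd (nat_lit 156) (nat_lit 228) (nat_lit 0) (XT.nd (nat_lit 78) (nat_lit 0) (nat_lit 0) (XT.lf (nat_lit 0) (nat_lit 5007890416) (nat_lit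 152) (nat_lit 18370658548) (nat_lit 228) (nat_lit 15692464164) (nat_lit 95) (nat_lit 5) (nat_lit 97) (nat_lit 5) (nat_lit 98) (nat_lit 5) (nat_lit 514) (nat_lit 421) (nat_lit 265)) (XT.lf (nat_lit 0) (nat_lit 29616491021) (nat_lit 152) (nat_lit 5327550113) (nat_lit 228) (nat_lit 4901409667) (nat_lit 95) (nat_lit 5) (nat_lit 97) (nat_lit 5) (nat_lit 98) (nat_lit 5) (nat_lit 515) (nat_lit 421) (nat_lit 264))) (XT.nd (nat_lit 78) (nat_lit 0) (nat_lit 0) (XT.lf (nat_lit 0) (nat_lit 6304132567) (nat_lit 228) (nat_lit 26186978851) (nat_lit 76) (nat_lit 8143858499) (nat_lit 92) (nat_lit 5) (nat_lit 95) (nat_lit 5) (nat_lit 93) (nat_lit 5) (nat_lit 516) (nat_lit 421) (nat_lit 263)) (XT.lf (nat_lit 0) (nat_lit 17896904340) (nat_lit 228) (nat_lit 1486279039) (nat_lit 76) (nat_lit 22059048216) (nat_lit 92) (nat_lit 5) (nat_lit 95) (nat_lit 5) (nat_lit 93) (nat_lit 5) (nat_lit 517) (nat_lit 421) (nat_lit 262))))) (XT.nd (nat_lit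 312) (nat_lit 304) (nat_lit 0) (XT.nd (nat_lit 156) (nat_lit 228) (nat_lit 0) (XT.nd (nat_lit 78) (nat_lit 76) (nat_lit 0) (XT.lf (nat_lit 0) (nat_lit 24418499929) (nat_lit 152) (nat_lit 5646416542) (nat_lit 228) (nat_lit 12201971084) (nat_lit 90) (nat_lit 5) (nat_lit 92) (nat_lit 5) (nat_lit 93) (nat_lit 5) (nat_lit 518) (nat_lit 421) (nat_lit 261)) (XT.lf (nat_lit 0) (nat_lit 8077335232) (nat_lit 76) (nat_lit 34687922564) (nat_lit 152) (nat_lit 346006881) (nat_lit 89) (nat_lit 5) (nat_lit 90) (nat_lit 5) (nat_lit 91) (nat_lit 4) (nat_lit 519) (nat_lit 421) (nat_lit 260))) (XT.nd (nat_lit 78) (nat_lit 152) (nat_lit 0) (XT.lf (nat_lit 0) (nat_lit 11864786747) (nat_lit 152) (nat_lit 9014083213) (nat_lit 76) (nat_lit 23091760743) (nat_lit 88) (nat_lit 5) (nat_lit 90) (nat_lit 5) (nat_lit 89) (nat_lit 5) (nat_lit 520) (nat_lit 421) (nat_lit 259)) (XT.lf (nat_lit 0) (nat_lit 18123507924) (nat_lit 152) (nat_lit 6478635213)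 (nat_lit 228) (nat_lit 20248516132) (nat_lit 86) (nat_lit 5) (nat_lit 88) (nat_lit 5) (nat_lit 89) (nat_lit 5) (nat_lit 521) (nat_lit 421) (nat_lit 258)))) (XT.nd (nat_lit 156) (nat_lit 152) (nat_lit 0) (XT.nd (nat_lit 78) (nat_lit 76) (nat_lit 0) (XT.lf (nat_lit 0) (nat_lit 419532144) (nat_lit 76) (nat_lit 37471347972) (nat_lit 152) (nat_lit 7861130907) (nat_lit 85) (nat_lit 5) (nat_lit 86) (nat_lit 5) (nat_lit 87) (nat_lit 4) (nat_lit 522) (nat_lit 421) (nat_lit 257)) (XT.lf (nat_lit 0) (nat_lit 5132021421) (nat_lit 152) (nat_lit 17870821205) (nat_lit 76) (nat_lit 23666256764) (nat_lit 84) (nat_lit 5) (nat_lit 86) (nat_lit 5) (nat_lit 85) (nat_lit 5) (nat_lit 523) (nat_lit 421) (nat_lit 256))) (XT.nd (nat_lit 78) (nat_lit 0) (nat_lit 0) (XT.lf (nat_lit 0) (nat_lit 10529592735) (nat_lit 152) (nat_lit 7921806886) (nat_lit 228) (nat_lit 29157132947) (nat_lit 82) (nat_lit 5) (nat_lit 84) (nat_lit 5) (nat_lit 85)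 (nat_lit 5) (nat_lit 524) (nat_lit 421) (nat_lit 255)) (XT.lf (nat_lit 0) (nat_lit 32419009195) (nat_lit 228) (nat_lit 8510086816) (nat_lit 76) (nat_lit 7639593346) (nat_lit 82) (nat_lit 5) (nat_lit 85) (nat_lit 5) (nat_lit 83) (nat_lit 4) (nat_lit 525) (nat_lit 421) (nat_lit 254))))))) (XT.nd (nat_lit 1170) (nat_lit 684) (nat_lit 0) (XT.nd (nat_lit 546) (nat_lit 608) (nat_lit 0) (XT.nd (nat_lit 234) (nat_lit 380) (nat_lit 0) (XT.nd (nat_lit 78) (nat_lit 228) (nat_lit 0) (XT.lf (nat_lit 0) (nat_lit 21239477523) (nat_lit 76) (nat_lit 25842202256) (nat_lit 152) (nat_lit 2467690200) (nat_lit 81) (nat_lit 5) (nat_lit 82) (nat_lit 5) (nat_lit 83) (nat_lit 4) (nat_lit 526) (nat_lit 421) (nat_lit 253)) (XT.nd (nat_lit 78) (nat_lit 0) (nat_lit 0) (XT.lf (nat_lit 0) (nat_lit 1401447900) (nat_lit 152) (nat_lit 10090169441) (nat_lit 228) (nat_lit 39061690490) (nat_lit 78) (nat_lit 5) (nat_lit 80) (nat_lit 5) (nat_lit 81)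 (nat_lit 5) (nat_lit 527) (nat_lit 421) (nat_lit 252)) (XT.lf (nat_lit 0) (nat_lit 26161237405) (nat_lit 228) (nat_lit 19092971096) (nat_lit 76) (nat_lit 6322188500) (nat_lit 78) (nat_lit 5) (nat_lit 81) (nat_lit 5) (nat_lit 79) (nat_lit 4) (nat_lit 528) (nat_lit 421) (nat_lit 251)))) (XT.nd (nat_lit 156) (nat_lit 228) (nat_lit 0) (XT.nd (nat_lit 78) (nat_lit 76) (nat_lit 0) (XT.lf (nat_lit 0) (nat_lit 11989699135) (nat_lit 76) (nat_lit 29490051189) (nat_lit 152) (nat_lit 11144164495) (nat_lit 77) (nat_lit 5) (nat_lit 78) (nat_lit 5) (nat_lit 79) (nat_lit 4) (nat_lit 529) (nat_lit 421) (nat_lit 250)) (XT.lf (nat_lit 0) (nat_lit 3673958185) (nat_lit 152) (nat_lit 9348971898) (nat_lit 76) (nat_lit 40673251974) (nat_lit 76) (nat_lit 5) (nat_lit 78) (nat_lit 5) (nat_lit 77) (nat_lit 5) (nat_lit 530) (nat_lit 421) (nat_lit 249))) (XT.nd (nat_lit 78) (nat_lit 76) (nat_lit 0) (XT.lf (nat_lit 0) (nat_lit 18970650661) (nat_lit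 228) (nat_lit 31626290117) (nat_lit 76) (nat_lit 4192626093) (nat_lit 74) (nat_lit 5) (nat_lit 77) (nat_lit 5) (nat_lit 75) (nat_lit 4) (nat_lit 531) (nat_lit 421) (nat_lit 248)) (XT.lf (nat_lit 0) (nat_lit 803707989) (nat_lit 76) (nat_lit 34148399739) (nat_lit 152) (nat_lit 20956869676) (nat_lit 73) (nat_lit 5) (nat_lit 74) (nat_lit 5) (nat_lit 75) (nat_lit 4) (nat_lit 532) (nat_lit 421) (nat_lit 247))))) (XT.nd (nat_lit 312) (nat_lit 304) (nat_lit 0) (XT.nd (nat_lit 156) (nat_lit 76) (nat_lit 0) (XT.nd (nat_lit 78) (nat_lit 228) (nat_lit 0) (XT.lf (nat_lit 0) (nat_lit 34843311642) (nat_lit 76) (nat_lit 16882984952) (nat_lit 152) (nat_lit 5326275101) (nat_lit 73) (nat_lit 5) (nat_lit 74) (nat_lit 5) (nat_lit 75) (nat_lit 4) (nat_lit 533) (nat_lit 421) (nat_lit 246)) (XT.lf (nat_lit 0) (nat_lit 10681126438) (nat_lit 228) (nat_lit 46446168362) (nat_lit 76) (nat_lit 1096528913) (nat_lit 70) (nat_lit 5) (nat_lit 73)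 (nat_lit 5) (nat_lit 71) (nat_lit 4) (nat_lit 534) (nat_lit 421) (nat_lit 245))) (XT.nd (nat_lit 78) (nat_lit 76) (nat_lit 0) (XT.lf (nat_lit 0) (nat_lit 27449402394) (nat_lit 228) (nat_lit 12417549639) (nat_lit 76) (nat_lit 19550048120) (nat_lit 70) (nat_lit 5) (nat_lit 73) (nat_lit 5) (nat_lit 71) (nat_lit 4) (nat_lit 535) (nat_lit 421) (nat_lit 244)) (XT.lf (nat_lit 0) (nat_lit 23071062548) (nat_lit 76) (nat_lit 21865666844) (nat_lit 152) (nat_lit 15702762486) (nat_lit 69) (nat_lit 5) (nat_lit 70) (nat_lit 5) (nat_lit 71) (nat_lit 4) (nat_lit 536) (nat_lit 421) (nat_lit 243)))) (XT.nd (nat_lit 156) (nat_lit 76) (nat_lit 0) (XT.nd (nat_lit 78) (nat_lit 152) (nat_lit 0) (XT.lf (nat_lit 0) (nat_lit 1150398397) (nat_lit 152) (nat_lit 2038421742) (nat_lit 76) (nat_lit 58705909380) (nat_lit 68) (nat_lit 5) (nat_lit 70) (nat_lit 5) (nat_lit 69) (nat_lit 5) (nat_lit 537) (nat_lit 421) (nat_lit 242)) (XT.lf (nat_lit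 0) (nat_lit 18684211550) (nat_lit 228) (nat_lit 28256389195) (nat_lit 76) (nat_lit 16227639403) (nat_lit 66) (nat_lit 5) (nat_lit 69) (nat_lit 5) (nat_lit 67) (nat_lit 4) (nat_lit 538) (nat_lit 421) (nat_lit 241))) (XT.nd (nat_lit 78) (nat_lit 0) (nat_lit 0) (XT.lf (nat_lit 0) (nat_lit 8659520915) (nat_lit 76) (nat_lit 28214534389) (nat_lit 152) (nat_lit 27602000375) (nat_lit 65) (nat_lit 5) (nat_lit 66) (nat_lit 5) (nat_lit 67) (nat_lit 4) (nat_lit 539) (nat_lit 421) (nat_lit 240)) (XT.lf (nat_lit 0) (nat_lit 47251481949) (nat_lit 76) (nat_lit 8637922045) (nat_lit 152) (nat_lit 9925307459) (nat_lit 65) (nat_lit 5) (nat_lit 66) (nat_lit 5) (nat_lit 67) (nat_lit 4) (nat_lit 540) (nat_lit 421) (nat_lit 239)))))) (XT.nd (nat_lit 624) (nat_lit 76) (nat_lit 0) (XT.nd (nat_lit 312) (nat_lit 304) (nat_lit 0) (XT.nd (nat_lit 156) (nat_lit 152) (nat_lit 0) (XT.nd (nat_lit 78) (nat_lit 0) (nat_lit 0) (XT.lf (nat_lit 0) (nat_lit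 8421422508) (nat_lit 152) (nat_lit 47188917256) (nat_lit 76) (nat_lit 11571758684) (nat_lit 63) (nat_lit 5) (nat_lit 65) (nat_lit 5) (nat_lit 64) (nat_lit 4) (nat_lit 541) (nat_lit 421) (nat_lit 238)) (XT.lf (nat_lit 0) (nat_lit 27388491224) (nat_lit 152) (nat_lit 8694184142) (nat_lit 76) (nat_lit 32496800865) (nat_lit 63) (nat_lit 5) (nat_lit 65) (nat_lit 5) (nat_lit 64) (nat_lit 4) (nat_lit 542) (nat_lit 421) (nat_lit 237))) (XT.nd (nat_lit 78) (nat_lit 76) (nat_lit 0) (XT.lf (nat_lit 0) (nat_lit 31561103959) (nat_lit 76) (nat_lit 15661603691) (nat_lit 152) (nat_lit 22787123688) (nat_lit 62) (nat_lit 5) (nat_lit 63) (nat_lit 5) (nat_lit 64) (nat_lit 4) (nat_lit 543) (nat_lit 421) (nat_lit 236)) (XT.lf (nat_lit 0) (nat_lit 1692153217) (nat_lit 76) (nat_lit 66111127174) (nat_lit 76) (nat_lit 3675276867) (nat_lit 61) (nat_lit 4) (nat_lit 62) (nat_lit 5) (nat_lit 62) (nat_lit 4) (nat_lit 544) (nat_lit 421) (nat_lit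 235)))) (XT.nd (nat_lit 156) (nat_lit 152) (nat_lit 0) (XT.nd (nat_lit 78) (nat_lit 76) (nat_lit 0) (XT.lf (nat_lit 0) (nat_lit 16239445206) (nat_lit 152) (nat_lit 29477254382) (nat_lit 76) (nat_lit 27253770571) (nat_lit 60) (nat_lit 5) (nat_lit 62) (nat_lit 5) (nat_lit 61) (nat_lit 4) (nat_lit 545) (nat_lit 421) (nat_lit 234)) (XT.lf (nat_lit 0) (nat_lit 12233627420) (nat_lit 76) (nat_lit 24556626577) (nat_lit 152) (nat_lit 37712419401) (nat_lit 59) (nat_lit 5) (nat_lit 60) (nat_lit 5) (nat_lit 61) (nat_lit 4) (nat_lit 546) (nat_lit 421) (nat_lit 233))) (XT.nd (nat_lit 78) (nat_lit 152) (nat_lit 0) (XT.lf (nat_lit 0) (nat_lit 55790311710) (nat_lit 76) (nat_lit 2459909221) (nat_lit 152) (nat_lit 17821842838) (nat_lit 59) (nat_lit 5) (nat_lit 60) (nat_lit 5) (nat_lit 61) (nat_lit 4) (nat_lit 547) (nat_lit 421) (nat_lit 232)) (XT.lf (nat_lit 0) (nat_lit 3030879231) (nat_lit 152) (nat_lit 54492441439) (nat_lit 76)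 (nat_lit 20151923346) (nat_lit 57) (nat_lit 5) (nat_lit 59) (nat_lit 5) (nat_lit 58) (nat_lit 4) (nat_lit 548) (nat_lit 421) (nat_lit 231))))) (XT.nd (nat_lit 52650) (nat_lit 0) (nat_lit 21812) (XT.nd (nat_lit 156) (nat_lit 0) (nat_lit 0) (XT.nd (nat_lit 78) (nat_lit 76) (nat_lit 0) (XT.lf (nat_lit 0) (nat_lit 24377248197) (nat_lit 152) (nat_lit 11165762893) (nat_lit 76) (nat_lit 43771427012) (nat_lit 57) (nat_lit 5) (nat_lit 59) (nat_lit 5) (nat_lit 58) (nat_lit 4) (nat_lit 549) (nat_lit 421) (nat_lit 230)) (XT.lf (nat_lit 0) (nat_lit 34117143904) (nat_lit 76) (nat_lit 12570039946) (nat_lit 152) (nat_lit 34305928937) (nat_lit 56) (nat_lit 5) (nat_lit 57) (nat_lit 5) (nat_lit 58) (nat_lit 4) (nat_lit 550) (nat_lit 421) (nat_lit 229))) (XT.nd (nat_lit 52416) (nat_lit 0) (nat_lit 22800) (XT.lf (nat_lit 0) (nat_lit 69882138475) (nat_lit 152) (nat_lit 1848408385) (nat_lit 0) (nat_lit 10985129267) (nat_lit 56) (nat_lit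 5) (nat_lit 58) (nat_lit 4) (nat_lit 56) (nat_lit 4) (nat_lit 551) (nat_lit 421) (nat_lit 228)) (XT.lf (nat_lit 0) (nat_lit 1195261792) (nat_lit 0) (nat_lit 1195261792) (nat_lit 988) (nat_lit 1859391005) (nat_lit 356) (nat_lit 5) (nat_lit 356) (nat_lit 3) (nat_lit 369) (nat_lit 3) (nat_lit 422) (nat_lit 422) (nat_lit 356)))) (XT.nd (nat_lit 156) (nat_lit 988) (nat_lit 0) (XT.nd (nat_lit 78) (nat_lit 0) (nat_lit 0) (XT.lf (nat_lit 0) (nat_lit 5893584604) (nat_lit 988) (nat_lit 1888665862) (nat_lit 1064) (nat_lit 813742885) (nat_lit 356) (nat_lit 5) (nat_lit 369) (nat_lit 3) (nat_lit 370) (nat_lit 5) (nat_lit 423) (nat_lit 422) (nat_lit 355)) (XT.lf (nat_lit 76) (nat_lit 2461393413) (nat_lit 0) (nat_lit 4585318446) (nat_lit 1064) (nat_lit 1648118415) (nat_lit 357) (nat_lit 5) (nat_lit 356) (nat_lit 5) (nat_lit 370) (nat_lit 5) (nat_lit 424) (nat_lit 422) (nat_lit 354))) (XT.nd (nat_lit 78) (nat_lit 988) (nat_lit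 0) (XT.lf (nat_lit 76) (nat_lit 6959319906) (nat_lit 0) (nat_lit 1255032752) (nat_lit 1064) (nat_lit 582886170) (nat_lit 357) (nat_lit 5) (nat_lit 356) (nat_lit 5) (nat_lit 370) (nat_lit 5) (nat_lit 425) (nat_lit 422) (nat_lit 353)) (XT.lf (nat_lit 0) (nat_lit 513362039) (nat_lit 1064) (nat_lit 6208298861) (nat_lit 1140) (nat_lit 2180641458) (nat_lit 343) (nat_lit 5) (nat_lit 357) (nat_lit 5) (nat_lit 358) (nat_lit 5) (nat_lit 426) (nat_lit 422) (nat_lit 352))))))))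
noncomputable def xc146 : XT := (XT.nd (nat_lit 2418) (nat_lit 6764) (nat_lit 0) (XT.nd (nat_lit 1170) (nat_lit 5320) (nat_lit 0) (XT.nd (nat_lit 546) (nat_lit 3192) (nat_lit 0) (XT.nd (nat_lit 234) (nat_lit 0) (nat_lit 76) (XT.nd (nat_lit 78) (nat_lit 0) (nat_lit 76) (XT.lf (nat_lit 0) (nat_lit 1624628701) (nat_lit 1064) (nat_lit 1651352343) (nat_lit 1140) (nat_lit 5734551989) (nat_lit 343) (nat_lit 5) (nat_lit 357) (nat_lit 5) (nat_lit 358) (nat_lit 5) (nat_lit 427) (nat_lit 422) (nat_lit 351)) (XT.nd (nat_lit 78) (nat_lit 0) (nat_lit 0) (XT.lf (nat_lit 0) (nat_lit 2765665126) (nat_lit 1064) (nat_lit 6044766642) (nat_lit 1140) (nat_lit 311689562) (nat_lit 344) (nat_lit 5) (nat_lit 358) (nat_lit 5) (nat_lit 359) (nat_lit 5) (nat_lit 428) (nat_lit 422) (nat_lit 350)) (XT.lf (nat_lit 0) (nat_lit 3954951387) (nat_lit 1064) (nat_lit 1310277661) (nat_lit 1140) (nat_lit 3971411216) (nat_lit 344) (nat_lit 5) (nat_lit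 358) (nat_lit 5) (nat_lit 359) (nat_lit 5) (nat_lit 429) (nat_lit 422) (nat_lit 349)))) (XT.nd (nat_lit 156) (nat_lit 0) (nat_lit 76) (XT.nd (nat_lit 78) (nat_lit 0) (nat_lit 76) (XT.lf (nat_lit 76) (nat_lit 3614551605) (nat_lit 0) (nat_lit 1565879585) (nat_lit 1140) (nat_lit 4174151575) (nat_lit 345) (nat_lit 5) (nat_lit 344) (nat_lit 5) (nat_lit 359) (nat_lit 5) (nat_lit 430) (nat_lit 422) (nat_lit 348)) (XT.lf (nat_lit 0) (nat_lit 6444277687) (nat_lit 1064) (nat_lit 806513486) (nat_lit 1140) (nat_lit 2225227645) (nat_lit 345) (nat_lit 5) (nat_lit 359) (nat_lit 5) (nat_lit 360) (nat_lit 5) (nat_lit 431) (nat_lit 422) (nat_lit 347))) (XT.nd (nat_lit 78) (nat_lit 0) (nat_lit 76) (XT.lf (nat_lit 76) (nat_lit 4321379198) (nat_lit 0) (nat_lit 3449339831) (nat_lit 1140) (nat_lit 1829641790) (nat_lit 346) (nat_lit 5) (nat_lit 345) (nat_lit 5) (nat_lit 360) (nat_lit 5) (nat_lit 432) (nat_lit 422) (nat_lit 346)) (XT.lf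 (nat_lit 0) (nat_lit 9118114688) (nat_lit 1064) (nat_lit 136383862) (nat_lit 1140) (nat_lit 474502849) (nat_lit 346) (nat_lit 5) (nat_lit 360) (nat_lit 5) (nat_lit 361) (nat_lit 5) (nat_lit 433) (nat_lit 422) (nat_lit 345))))) (XT.nd (nat_lit 312) (nat_lit 2280) (nat_lit 0) (XT.nd (nat_lit 156) (nat_lit 0) (nat_lit 76) (XT.nd (nat_lit 78) (nat_lit 0) (nat_lit 0) (XT.lf (nat_lit 0) (nat_lit 685945790) (nat_lit 1140) (nat_lit 4661304898) (nat_lit 1216) (nat_lit 4512444947) (nat_lit 331) (nat_lit 5) (nat_lit 346) (nat_lit 5) (nat_lit 347) (nat_lit 5) (nat_lit 434) (nat_lit 422) (nat_lit 344)) (XT.lf (nat_lit 76) (nat_lit 686080466) (nat_lit 0) (nat_lit 1301061993) (nat_lit 1216) (nat_lit 8007657549) (nat_lit 332) (nat_lit 5) (nat_lit 331) (nat_lit 5) (nat_lit 347) (nat_lit 5) (nat_lit 435) (nat_lit 422) (nat_lit 343))) (XT.nd (nat_lit 78) (nat_lit 0) (nat_lit 0) (XT.lf (nat_lit 0) (nat_lit 3372945271) (nat_lit 1140)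 (nat_lit 3894837653) (nat_lit 1216) (nat_lit 2864810284) (nat_lit 332) (nat_lit 5) (nat_lit 347) (nat_lit 5) (nat_lit 348) (nat_lit 5) (nat_lit 436) (nat_lit 422) (nat_lit 342)) (XT.lf (nat_lit 76) (nat_lit 1678308242) (nat_lit 0) (nat_lit 3122367964) (nat_lit 1216) (nat_lit 5473836098) (nat_lit 333) (nat_lit 5) (nat_lit 332) (nat_lit 5) (nat_lit 348) (nat_lit 5) (nat_lit 437) (nat_lit 422) (nat_lit 341)))) (XT.nd (nat_lit 156) (nat_lit 1292) (nat_lit 0) (XT.nd (nat_lit 78) (nat_lit 1140) (nat_lit 0) (XT.lf (nat_lit 0) (nat_lit 6293993744) (nat_lit 1140) (nat_lit 2956128466) (nat_lit 76) (nat_lit 1169886765) (nat_lit 333) (nat_lit 5) (nat_lit 348) (nat_lit 5) (nat_lit 334) (nat_lit 5) (nat_lit 438) (nat_lit 422) (nat_lit 340)) (XT.lf (nat_lit 0) (nat_lit 2854945862) (nat_lit 1140) (nat_lit 5008343782) (nat_lit 1216) (nat_lit 2705648100) (nat_lit 318) (nat_lit 5) (nat_lit 333) (nat_lit 5) (nat_lit 334) (nat_lit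 5) (nat_lit 439) (nat_lit 422) (nat_lit 339))) (XT.nd (nat_lit 78) (nat_lit 1292) (nat_lit 0) (XT.lf (nat_lit 0) (nat_lit 8878176361) (nat_lit 1140) (nat_lit 604732689) (nat_lit 1216) (nat_lit 1239330479) (nat_lit 318) (nat_lit 5) (nat_lit 333) (nat_lit 5) (nat_lit 334) (nat_lit 5) (nat_lit 440) (nat_lit 422) (nat_lit 338)) (XT.lf (nat_lit 0) (nat_lit 318799089) (nat_lit 1292) (nat_lit 6658018717) (nat_lit 76) (nat_lit 3901653459) (nat_lit 301) (nat_lit 5) (nat_lit 318) (nat_lit 5) (nat_lit 302) (nat_lit 5) (nat_lit 441) (nat_lit 422) (nat_lit 337)))))) (XT.nd (nat_lit 624) (nat_lit 2660) (nat_lit 0) (XT.nd (nat_lit 312) (nat_lit 1216) (nat_lit 0) (XT.nd (nat_lit 156) (nat_lit 608) (nat_lit 0) (XT.nd (nat_lit 78) (nat_lit 836) (nat_lit 0) (XT.lf (nat_lit 0) (nat_lit 1898041427) (nat_lit 1292) (nat_lit 575777459) (nat_lit 76) (nat_lit 8565226883) (nat_lit 301) (nat_lit 5) (nat_lit 318) (nat_lit 5) (nat_lit 302)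 (nat_lit 5) (nat_lit 442) (nat_lit 422) (nat_lit 336)) (XT.lf (nat_lit 0) (nat_lit 3576817905) (nat_lit 912) (nat_lit 5445721619) (nat_lit 76) (nat_lit 2180335488) (nat_lit 290) (nat_lit 5) (nat_lit 302) (nat_lit 5) (nat_lit 291) (nat_lit 5) (nat_lit 443) (nat_lit 422) (nat_lit 335))) (XT.nd (nat_lit 78) (nat_lit 0) (nat_lit 0) (XT.lf (nat_lit 0) (nat_lit 890189401) (nat_lit 608) (nat_lit 4430444284) (nat_lit 684) (nat_lit 6050547317) (nat_lit 282) (nat_lit 5) (nat_lit 290) (nat_lit 5) (nat_lit 291) (nat_lit 5) (nat_lit 444) (nat_lit 422) (nat_lit 334)) (XT.lf (nat_lit 0) (nat_lit 7151427162) (nat_lit 684) (nat_lit 4042057928) (nat_lit 76) (nat_lit 350013270) (nat_lit 282) (nat_lit 5) (nat_lit 291) (nat_lit 5) (nat_lit 283) (nat_lit 5) (nat_lit 445) (nat_lit 422) (nat_lit 333)))) (XT.nd (nat_lit 156) (nat_lit 608) (nat_lit 0) (XT.nd (nat_lit 78) (nat_lit 0) (nat_lit 0) (XT.lf (nat_lit 0) (nat_lit 2573524287) (nat_lit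 608) (nat_lit 6509165489) (nat_lit 684) (nat_lit 2636931126) (nat_lit 274) (nat_lit 5) (nat_lit 282) (nat_lit 5) (nat_lit 283) (nat_lit 5) (nat_lit 446) (nat_lit 422) (nat_lit 332)) (XT.lf (nat_lit 0) (nat_lit 9447784025) (nat_lit 608) (nat_lit 1642318270) (nat_lit 684) (nat_lit 810380432) (nat_lit 274) (nat_lit 5) (nat_lit 282) (nat_lit 5) (nat_lit 283) (nat_lit 5) (nat_lit 447) (nat_lit 422) (nat_lit 331))) (XT.nd (nat_lit 78) (nat_lit 0) (nat_lit 0) (XT.lf (nat_lit 0) (nat_lit 1104053006) (nat_lit 608) (nat_lit 7622240532) (nat_lit 76) (nat_lit 3358550337) (nat_lit 266) (nat_lit 5) (nat_lit 274) (nat_lit 5) (nat_lit 267) (nat_lit 5) (nat_lit 448) (nat_lit 422) (nat_lit 330)) (XT.lf (nat_lit 0) (nat_lit 3079166740) (nat_lit 608) (nat_lit 685740631) (nat_lit 76) (nat_lit 8509003526) (nat_lit 266) (nat_lit 5) (nat_lit 274) (nat_lit 5) (nat_lit 267) (nat_lit 5) (nat_lit 449) (nat_lit 422) (nat_lit 329))))) (XT.nd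 (nat_lit 312) (nat_lit 988) (nat_lit 0) (XT.nd (nat_lit 156) (nat_lit 532) (nat_lit 0) (XT.nd (nat_lit 78) (nat_lit 532) (nat_lit 0) (XT.lf (nat_lit 0) (nat_lit 5169079789) (nat_lit 684) (nat_lit 5916176593) (nat_lit 76) (nat_lit 1381728915) (nat_lit 258) (nat_lit 5) (nat_lit 267) (nat_lit 5) (nat_lit 259) (nat_lit 5) (nat_lit 450) (nat_lit 422) (nat_lit 328)) (XT.lf (nat_lit 0) (nat_lit 1318666573) (nat_lit 532) (nat_lit 6039255214) (nat_lit 608) (nat_lit 5306844891) (nat_lit 251) (nat_lit 5) (nat_lit 258) (nat_lit 5) (nat_lit 259) (nat_lit 5) (nat_lit 451) (nat_lit 422) (nat_lit 327))) (XT.nd (nat_lit 78) (nat_lit 532) (nat_lit 0) (XT.lf (nat_lit 0) (nat_lit 8869464475) (nat_lit 532) (nat_lit 782380891) (nat_lit 608) (nat_lit 3215455292) (nat_lit 251) (nat_lit 5) (nat_lit 258) (nat_lit 5) (nat_lit 259) (nat_lit 5) (nat_lit 452) (nat_lit 422) (nat_lit 326)) (XT.lf (nat_lit 0) (nat_lit 3573796269) (nat_lit 532)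 (nat_lit 8499918929) (nat_lit 608) (nat_lit 1000423201) (nat_lit 244) (nat_lit 5) (nat_lit 251) (nat_lit 5) (nat_lit 252) (nat_lit 5) (nat_lit 453) (nat_lit 422) (nat_lit 325)))) (XT.nd (nat_lit 156) (nat_lit 456) (nat_lit 0) (XT.nd (nat_lit 78) (nat_lit 456) (nat_lit 0) (XT.lf (nat_lit 0) (nat_lit 1284995272) (nat_lit 608) (nat_lit 1874363333) (nat_lit 76) (nat_lit 10126586738) (nat_lit 243) (nat_lit 5) (nat_lit 251) (nat_lit 5) (nat_lit 244) (nat_lit 5) (nat_lit 454) (nat_lit 422) (nat_lit 324)) (XT.lf (nat_lit 0) (nat_lit 3681332498) (nat_lit 532) (nat_lit 7458715232) (nat_lit 76) (nat_lit 2361889162) (nat_lit 237) (nat_lit 5) (nat_lit 244) (nat_lit 5) (nat_lit 238) (nat_lit 5) (nat_lit 455) (nat_lit 422) (nat_lit 323))) (XT.nd (nat_lit 78) (nat_lit 0) (nat_lit 0) (XT.lf (nat_lit 0) (nat_lit 468462229) (nat_lit 456) (nat_lit 5717301898) (nat_lit 532) (nat_lit 7537559351) (nat_lit 231) (nat_lit 5) (nat_lit 237)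 (nat_lit 5) (nat_lit 238) (nat_lit 5) (nat_lit 456) (nat_lit 422) (nat_lit 322)) (XT.lf (nat_lit 0) (nat_lit 8764440871) (nat_lit 456) (nat_lit 57845682) (nat_lit 532) (nat_lit 5127357751) (nat_lit 231) (nat_lit 5) (nat_lit 237) (nat_lit 5) (nat_lit 238) (nat_lit 5) (nat_lit 457) (nat_lit 422) (nat_lit 321))))))) (XT.nd (nat_lit 1170) (nat_lit 3040) (nat_lit 0) (XT.nd (nat_lit 546) (nat_lit 1900) (nat_lit 0) (XT.nd (nat_lit 234) (nat_lit 836) (nat_lit 0) (XT.nd (nat_lit 78) (nat_lit 532) (nat_lit 0) (XT.lf (nat_lit 0) (nat_lit 3109977503) (nat_lit 456) (nat_lit 8495441420) (nat_lit 532) (nat_lit 2575311743) (nat_lit 225) (nat_lit 5) (nat_lit 231) (nat_lit 5) (nat_lit 232) (nat_lit 5) (nat_lit 458) (nat_lit 422) (nat_lit 320)) (XT.nd (nat_lit 78) (nat_lit 456) (nat_lit 0) (XT.lf (nat_lit 0) (nat_lit 87986184) (nat_lit 532) (nat_lit 2680392577) (nat_lit 76) (nat_lit 11649284835) (nat_lit 224) (nat_lit 5) (nat_lit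 231) (nat_lit 5) (nat_lit 225) (nat_lit 5) (nat_lit 459) (nat_lit 422) (nat_lit 319)) (XT.lf (nat_lit 0) (nat_lit 2851085920) (nat_lit 532) (nat_lit 8657975541) (nat_lit 76) (nat_lit 3149729410) (nat_lit 218) (nat_lit 5) (nat_lit 225) (nat_lit 5) (nat_lit 219) (nat_lit 5) (nat_lit 460) (nat_lit 422) (nat_lit 318)))) (XT.nd (nat_lit 156) (nat_lit 456) (nat_lit 0) (XT.nd (nat_lit 78) (nat_lit 0) (nat_lit 0) (XT.lf (nat_lit 0) (nat_lit 42682947) (nat_lit 380) (nat_lit 5692604093) (nat_lit 456) (nat_lit 9170719862) (nat_lit 213) (nat_lit 5) (nat_lit 218) (nat_lit 5) (nat_lit 219) (nat_lit 5) (nat_lit 461) (nat_lit 422) (nat_lit 317)) (XT.lf (nat_lit 0) (nat_lit 8780473713) (nat_lit 456) (nat_lit 6001690944) (nat_lit 76) (nat_lit 376242126) (nat_lit 213) (nat_lit 5) (nat_lit 219) (nat_lit 5) (nat_lit 214) (nat_lit 5) (nat_lit 462) (nat_lit 422) (nat_lit 316))) (XT.nd (nat_lit 78) (nat_lit 0) (nat_lit 0) (XT.lf (nat_lit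 0) (nat_lit 3108947772) (nat_lit 456) (nat_lit 8878099639) (nat_lit 532) (nat_lit 3429231428) (nat_lit 207) (nat_lit 5) (nat_lit 213) (nat_lit 5) (nat_lit 214) (nat_lit 5) (nat_lit 463) (nat_lit 422) (nat_lit 315)) (XT.lf (nat_lit 0) (nat_lit 12594994124) (nat_lit 456) (nat_lit 2739484430) (nat_lit 532) (nat_lit 346069782) (nat_lit 207) (nat_lit 5) (nat_lit 213) (nat_lit 5) (nat_lit 214) (nat_lit 5) (nat_lit 464) (nat_lit 422) (nat_lit 314))))) (XT.nd (nat_lit 312) (nat_lit 760) (nat_lit 0) (XT.nd (nat_lit 156) (nat_lit 304) (nat_lit 0) (XT.nd (nat_lit 78) (nat_lit 380) (nat_lit 0) (XT.lf (nat_lit 0) (nat_lit 2856422388) (nat_lit 456) (nat_lit 9494101426) (nat_lit 76) (nat_lit 3598945608) (nat_lit 201) (nat_lit 5) (nat_lit 207) (nat_lit 5) (nat_lit 202) (nat_lit 5) (nat_lit 465) (nat_lit 422) (nat_lit 313)) (XT.lf (nat_lit 0) (nat_lit 69896906) (nat_lit 380) (nat_lit 6121974058) (nat_lit 456) (nat_lit 10033170259)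 (nat_lit 196) (nat_lit 5) (nat_lit 201) (nat_lit 5) (nat_lit 202) (nat_lit 5) (nat_lit 466) (nat_lit 422) (nat_lit 312))) (XT.nd (nat_lit 78) (nat_lit 304) (nat_lit 0) (XT.lf (nat_lit 0) (nat_lit 9711798077) (nat_lit 456) (nat_lit 6415391850) (nat_lit 76) (nat_lit 379158765) (nat_lit 196) (nat_lit 5) (nat_lit 202) (nat_lit 5) (nat_lit 197) (nat_lit 5) (nat_lit 467) (nat_lit 422) (nat_lit 311)) (XT.lf (nat_lit 0) (nat_lit 3605863245) (nat_lit 304) (nat_lit 9811952014) (nat_lit 380) (nat_lit 3375866298) (nat_lit 192) (nat_lit 5) (nat_lit 196) (nat_lit 5) (nat_lit 197) (nat_lit 5) (nat_lit 468) (nat_lit 422) (nat_lit 310)))) (XT.nd (nat_lit 156) (nat_lit 304) (nat_lit 0) (XT.nd (nat_lit 78) (nat_lit 380) (nat_lit 0) (XT.lf (nat_lit 0) (nat_lit 193273970) (nat_lit 380) (nat_lit 3050997181) (nat_lit 76) (nat_lit 13843800249) (nat_lit 191) (nat_lit 5) (nat_lit 196) (nat_lit 5) (nat_lit 192) (nat_lit 5) (nat_lit 469)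 (nat_lit 422) (nat_lit 309)) (XT.lf (nat_lit 0) (nat_lit 3894129140) (nat_lit 456) (nat_lit 9940808668) (nat_lit 76) (nat_lit 3552578489) (nat_lit 186) (nat_lit 5) (nat_lit 192) (nat_lit 5) (nat_lit 187) (nat_lit 5) (nat_lit 470) (nat_lit 422) (nat_lit 308))) (XT.nd (nat_lit 78) (nat_lit 0) (nat_lit 0) (XT.lf (nat_lit 0) (nat_lit 585763254) (nat_lit 304) (nat_lit 7175019877) (nat_lit 380) (nat_lit 9933519050) (nat_lit 182) (nat_lit 5) (nat_lit 186) (nat_lit 5) (nat_lit 187) (nat_lit 5) (nat_lit 471) (nat_lit 422) (nat_lit 307)) (XT.lf (nat_lit 0) (nat_lit 11611999961) (nat_lit 304) (nat_lit 217945383) (nat_lit 380) (nat_lit 6177751848) (nat_lit 182) (nat_lit 5) (nat_lit 186) (nat_lit 5) (nat_lit 187) (nat_lit 5) (nat_lit 472) (nat_lit 422) (nat_lit 306)))))) (XT.nd (nat_lit 624) (nat_lit 1368) (nat_lit 0) (XT.nd (nat_lit 312) (nat_lit 684) (nat_lit 0) (XT.nd (nat_lit 156) (nat_lit 608) (nat_lit 0) (XT.nd (nat_lit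 78) (nat_lit 76) (nat_lit 0) (XT.lf (nat_lit 0) (nat_lit 4642659942) (nat_lit 304) (nat_lit 11476411172) (nat_lit 380) (nat_lit 2208487065) (nat_lit 178) (nat_lit 5) (nat_lit 182) (nat_lit 5) (nat_lit 183) (nat_lit 5) (nat_lit 473) (nat_lit 422) (nat_lit 305)) (XT.lf (nat_lit 0) (nat_lit 1897101972) (nat_lit 380) (nat_lit 2552425200) (nat_lit 76) (nat_lit 14205328584) (nat_lit 177) (nat_lit 5) (nat_lit 182) (nat_lit 5) (nat_lit 178) (nat_lit 5) (nat_lit 474) (nat_lit 422) (nat_lit 304))) (XT.nd (nat_lit 78) (nat_lit 304) (nat_lit 0) (XT.lf (nat_lit 0) (nat_lit 6183220322) (nat_lit 380) (nat_lit 9967352233) (nat_lit 76) (nat_lit 2837691936) (nat_lit 173) (nat_lit 5) (nat_lit 178) (nat_lit 5) (nat_lit 174) (nat_lit 5) (nat_lit 475) (nat_lit 422) (nat_lit 303)) (XT.lf (nat_lit 0) (nat_lit 1631070190) (nat_lit 304) (nat_lit 9039693798) (nat_lit 380) (nat_lit 8658726947) (nat_lit 169) (nat_lit 5) (nat_lit 173) (nat_lit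 5) (nat_lit 174) (nat_lit 5) (nat_lit 476) (nat_lit 422) (nat_lit 302)))) (XT.nd (nat_lit 156) (nat_lit 304) (nat_lit 0) (XT.nd (nat_lit 78) (nat_lit 380) (nat_lit 0) (XT.lf (nat_lit 0) (nat_lit 13762637880) (nat_lit 304) (nat_lit 1618217792) (nat_lit 380) (nat_lit 4297461526) (nat_lit 169) (nat_lit 5) (nat_lit 173) (nat_lit 5) (nat_lit 174) (nat_lit 5) (nat_lit 477) (nat_lit 422) (nat_lit 301)) (XT.lf (nat_lit 0) (nat_lit 297629366) (nat_lit 380) (nat_lit 13771345468) (nat_lit 76) (nat_lit 5965374355) (nat_lit 164) (nat_lit 5) (nat_lit 169) (nat_lit 5) (nat_lit 165) (nat_lit 5) (nat_lit 478) (nat_lit 422) (nat_lit 300))) (XT.nd (nat_lit 78) (nat_lit 304) (nat_lit 0) (XT.lf (nat_lit 0) (nat_lit 5008190634) (nat_lit 380) (nat_lit 1549064034) (nat_lit 76) (nat_lit 13840611845) (nat_lit 164) (nat_lit 5) (nat_lit 169) (nat_lit 5) (nat_lit 165) (nat_lit 5) (nat_lit 479) (nat_lit 422) (nat_lit 299)) (XT.lf (nat_lit 0)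 (nat_lit 9968474224) (nat_lit 380) (nat_lit 9540915173) (nat_lit 76) (nat_lit 1259648400) (nat_lit 160) (nat_lit 5) (nat_lit 165) (nat_lit 5) (nat_lit 161) (nat_lit 5) (nat_lit 480) (nat_lit 422) (nat_lit 298))))) (XT.nd (nat_lit 312) (nat_lit 760) (nat_lit 0) (XT.nd (nat_lit 156) (nat_lit 380) (nat_lit 0) (XT.nd (nat_lit 78) (nat_lit 0) (nat_lit 0) (XT.lf (nat_lit 0) (nat_lit 3249325974) (nat_lit 228) (nat_lit 11928310662) (nat_lit 304) (nat_lit 5970706058) (nat_lit 157) (nat_lit 5) (nat_lit 160) (nat_lit 5) (nat_lit 161) (nat_lit 5) (nat_lit 481) (nat_lit 422) (nat_lit 297)) (XT.lf (nat_lit 0) (nat_lit 16600529073) (nat_lit 228) (nat_lit 4027174502) (nat_lit 304) (nat_lit 908784841) (nat_lit 157) (nat_lit 5) (nat_lit 160) (nat_lit 5) (nat_lit 161) (nat_lit 5) (nat_lit 482) (nat_lit 422) (nat_lit 296))) (XT.nd (nat_lit 78) (nat_lit 0) (nat_lit 0) (XT.lf (nat_lit 0) (nat_lit 4332104070) (nat_lit 380) (nat_lit 13450699970)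 (nat_lit 76) (nat_lit 4148900059) (nat_lit 152) (nat_lit 5) (nat_lit 157) (nat_lit 5) (nat_lit 153) (nat_lit 5) (nat_lit 483) (nat_lit 422) (nat_lit 295)) (XT.lf (nat_lit 0) (nat_lit 9790777554) (nat_lit 380) (nat_lit 3107497) (nat_lit 76) (nat_lit 12542257077) (nat_lit 152) (nat_lit 5) (nat_lit 157) (nat_lit 5) (nat_lit 153) (nat_lit 5) (nat_lit 484) (nat_lit 422) (nat_lit 294)))) (XT.nd (nat_lit 156) (nat_lit 304) (nat_lit 0) (XT.nd (nat_lit 78) (nat_lit 228) (nat_lit 0) (XT.lf (nat_lit 0) (nat_lit 14105570021) (nat_lit 228) (nat_lit 1432177786) (nat_lit 304) (nat_lit 7211229899) (nat_lit 149) (nat_lit 5) (nat_lit 152) (nat_lit 5) (nat_lit 153) (nat_lit 5) (nat_lit 485) (nat_lit 422) (nat_lit 293)) (XT.lf (nat_lit 0) (nat_lit 5483672287) (nat_lit 228) (nat_lit 16084258240) (nat_lit 304) (nat_lit 1602944213) (nat_lit 146) (nat_lit 5) (nat_lit 149) (nat_lit 5) (nat_lit 150) (nat_lit 5) (nat_lit 486) (nat_lit 422)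 (nat_lit 292))) (XT.nd (nat_lit 78) (nat_lit 228) (nat_lit 0) (XT.lf (nat_lit 0) (nat_lit 4183554391) (nat_lit 304) (nat_lit 3463957385) (nat_lit 76) (nat_lit 15953971615) (nat_lit 145) (nat_lit 5) (nat_lit 149) (nat_lit 5) (nat_lit 146) (nat_lit 5) (nat_lit 487) (nat_lit 422) (nat_lit 291)) (XT.lf (nat_lit 0) (nat_lit 10221366825) (nat_lit 304) (nat_lit 12677902798) (nat_lit 76) (nat_lit 1141966911) (nat_lit 142) (nat_lit 5) (nat_lit 146) (nat_lit 5) (nat_lit 143) (nat_lit 5) (nat_lit 488) (nat_lit 422) (nat_lit 290))))))))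
noncomputable def xc147 : XT := (XT.nd (nat_lit 2418) (nat_lit 2584) (nat_lit 0) (XT.nd (nat_lit 1170) (nat_lit 1824) (nat_lit 0) (XT.nd (nat_lit 546) (nat_lit 1140) (nat_lit 0) (XT.nd (nat_lit 234) (nat_lit 456) (nat_lit 0) (XT.nd (nat_lit 78) (nat_lit 304) (nat_lit 0) (XT.lf (nat_lit 0) (nat_lit 2162149921) (nat_lit 228) (nat_lit 14399471212) (nat_lit 304) (nat_lit 7928922347) (nat_lit 139) (nat_lit 5) (nat_lit 142) (nat_lit 5) (nat_lit 143) (nat_lit 5) (nat_lit 489) (nat_lit 422) (nat_lit 289)) (XT.nd (nat_lit 78) (nat_lit 304) (nat_lit 0) (XT.lf (nat_lit 0) (nat_lit 17690162795) (nat_lit 228) (nat_lit 5519564164) (nat_lit 304) (nat_lit 1740073783) (nat_lit 139) (nat_lit 5) (nat_lit 142) (nat_lit 5) (nat_lit 143) (nat_lit 5) (nat_lit 490) (nat_lit 422) (nat_lit 288)) (XT.lf (nat_lit 0) (nat_lit 4650255365) (nat_lit 304) (nat_lit 17092435455) (nat_lit 76) (nat_lit 3675621334) (nat_lit 135) (nat_lit 5) (nat_lit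 139) (nat_lit 5) (nat_lit 136) (nat_lit 5) (nat_lit 491) (nat_lit 422) (nat_lit 287)))) (XT.nd (nat_lit 156) (nat_lit 228) (nat_lit 0) (XT.nd (nat_lit 78) (nat_lit 228) (nat_lit 0) (XT.lf (nat_lit 0) (nat_lit 11315900254) (nat_lit 304) (nat_lit 1460413848) (nat_lit 76) (nat_lit 13120490952) (nat_lit 135) (nat_lit 5) (nat_lit 139) (nat_lit 5) (nat_lit 136) (nat_lit 5) (nat_lit 492) (nat_lit 422) (nat_lit 286)) (XT.lf (nat_lit 0) (nat_lit 14915207139) (nat_lit 228) (nat_lit 3399872266) (nat_lit 304) (nat_lit 8070566765) (nat_lit 132) (nat_lit 5) (nat_lit 135) (nat_lit 5) (nat_lit 136) (nat_lit 5) (nat_lit 493) (nat_lit 422) (nat_lit 285))) (XT.nd (nat_lit 78) (nat_lit 76) (nat_lit 0) (XT.lf (nat_lit 0) (nat_lit 4943001664) (nat_lit 152) (nat_lit 20694052320) (nat_lit 228) (nat_lit 1248714295) (nat_lit 130) (nat_lit 5) (nat_lit 132) (nat_lit 5) (nat_lit 133) (nat_lit 5) (nat_lit 494) (nat_lit 422) (nat_lit 284)) (XT.lf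 (nat_lit 0) (nat_lit 5805974592) (nat_lit 228) (nat_lit 5420298931) (nat_lit 76) (nat_lit 16168726893) (nat_lit 129) (nat_lit 5) (nat_lit 132) (nat_lit 5) (nat_lit 130) (nat_lit 5) (nat_lit 495) (nat_lit 422) (nat_lit 283))))) (XT.nd (nat_lit 312) (nat_lit 456) (nat_lit 0) (XT.nd (nat_lit 156) (nat_lit 304) (nat_lit 0) (XT.nd (nat_lit 78) (nat_lit 152) (nat_lit 0) (XT.lf (nat_lit 0) (nat_lit 11799705419) (nat_lit 228) (nat_lit 1351498195) (nat_lit 304) (nat_lit 14764815407) (nat_lit 126) (nat_lit 5) (nat_lit 129) (nat_lit 5) (nat_lit 130) (nat_lit 5) (nat_lit 496) (nat_lit 422) (nat_lit 282)) (XT.lf (nat_lit 0) (nat_lit 1116778498) (nat_lit 152) (nat_lit 19741431459) (nat_lit 228) (nat_lit 7590215938) (nat_lit 124) (nat_lit 5) (nat_lit 126) (nat_lit 5) (nat_lit 127) (nat_lit 5) (nat_lit 497) (nat_lit 422) (nat_lit 281))) (XT.nd (nat_lit 78) (nat_lit 304) (nat_lit 0) (XT.lf (nat_lit 0) (nat_lit 19167654353) (nat_lit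 152) (nat_lit 9795515409) (nat_lit 228) (nat_lit 28633231) (nat_lit 124) (nat_lit 5) (nat_lit 126) (nat_lit 5) (nat_lit 127) (nat_lit 5) (nat_lit 498) (nat_lit 422) (nat_lit 280)) (XT.lf (nat_lit 0) (nat_lit 7684674494) (nat_lit 304) (nat_lit 21272998561) (nat_lit 76) (nat_lit 589281912) (nat_lit 120) (nat_lit 5) (nat_lit 124) (nat_lit 5) (nat_lit 121) (nat_lit 5) (nat_lit 499) (nat_lit 422) (nat_lit 279)))) (XT.nd (nat_lit 156) (nat_lit 304) (nat_lit 0) (XT.nd (nat_lit 78) (nat_lit 152) (nat_lit 0) (XT.lf (nat_lit 0) (nat_lit 15816960810) (nat_lit 304) (nat_lit 3113345999) (nat_lit 76) (nat_lit 11182801830) (nat_lit 120) (nat_lit 5) (nat_lit 124) (nat_lit 5) (nat_lit 121) (nat_lit 5) (nat_lit 500) (nat_lit 422) (nat_lit 278)) (XT.lf (nat_lit 0) (nat_lit 15885843807) (nat_lit 152) (nat_lit 8451321691) (nat_lit 228) (nat_lit 6354763208) (nat_lit 118) (nat_lit 5) (nat_lit 120) (nat_lit 5) (nat_lit 121) (nat_lit 5)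 (nat_lit 501) (nat_lit 422) (nat_lit 277))) (XT.nd (nat_lit 78) (nat_lit 0) (nat_lit 0) (XT.lf (nat_lit 0) (nat_lit 1876780609) (nat_lit 304) (nat_lit 27026908867) (nat_lit 76) (nat_lit 2381272094) (nat_lit 114) (nat_lit 5) (nat_lit 118) (nat_lit 5) (nat_lit 115) (nat_lit 5) (nat_lit 502) (nat_lit 422) (nat_lit 276)) (XT.lf (nat_lit 0) (nat_lit 10453531411) (nat_lit 304) (nat_lit 7857064344) (nat_lit 76) (nat_lit 13576522812) (nat_lit 114) (nat_lit 5) (nat_lit 118) (nat_lit 5) (nat_lit 115) (nat_lit 5) (nat_lit 503) (nat_lit 422) (nat_lit 275)))))) (XT.nd (nat_lit 624) (nat_lit 912) (nat_lit 0) (XT.nd (nat_lit 312) (nat_lit 380) (nat_lit 0) (XT.nd (nat_lit 156) (nat_lit 380) (nat_lit 0) (XT.nd (nat_lit 78) (nat_lit 0) (nat_lit 0) (XT.lf (nat_lit 0) (nat_lit 12109303943) (nat_lit 152) (nat_lit 7286251683) (nat_lit 228) (nat_lit 13108545770) (nat_lit 112) (nat_lit 5) (nat_lit 114) (nat_lit 5) (nat_lit 115) (nat_lit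 5) (nat_lit 504) (nat_lit 422) (nat_lit 274)) (XT.lf (nat_lit 0) (nat_lit 28716690512) (nat_lit 228) (nat_lit 356296180) (nat_lit 76) (nat_lit 4063281760) (nat_lit 112) (nat_lit 5) (nat_lit 115) (nat_lit 5) (nat_lit 113) (nat_lit 5) (nat_lit 505) (nat_lit 422) (nat_lit 273))) (XT.nd (nat_lit 78) (nat_lit 152) (nat_lit 0) (XT.lf (nat_lit 0) (nat_lit 4706259174) (nat_lit 228) (nat_lit 13226982859) (nat_lit 76) (nat_lit 15844914403) (nat_lit 109) (nat_lit 5) (nat_lit 112) (nat_lit 5) (nat_lit 110) (nat_lit 5) (nat_lit 506) (nat_lit 422) (nat_lit 272)) (XT.lf (nat_lit 0) (nat_lit 7746857057) (nat_lit 152) (nat_lit 6340161556) (nat_lit 228) (nat_lit 20348870631) (nat_lit 107) (nat_lit 5) (nat_lit 109) (nat_lit 5) (nat_lit 110) (nat_lit 5) (nat_lit 507) (nat_lit 422) (nat_lit 271)))) (XT.nd (nat_lit 156) (nat_lit 228) (nat_lit 0) (XT.nd (nat_lit 78) (nat_lit 152) (nat_lit 0) (XT.lf (nat_lit 0) (nat_lit 23929840469) (nat_lit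 228) (nat_lit 5557988870) (nat_lit 76) (nat_lit 5620105721) (nat_lit 107) (nat_lit 5) (nat_lit 110) (nat_lit 5) (nat_lit 108) (nat_lit 5) (nat_lit 508) (nat_lit 422) (nat_lit 270)) (XT.lf (nat_lit 0) (nat_lit 16451121553) (nat_lit 152) (nat_lit 17829886226) (nat_lit 228) (nat_lit 1512742856) (nat_lit 105) (nat_lit 5) (nat_lit 107) (nat_lit 5) (nat_lit 108) (nat_lit 5) (nat_lit 509) (nat_lit 422) (nat_lit 269))) (XT.nd (nat_lit 78) (nat_lit 0) (nat_lit 0) (XT.lf (nat_lit 0) (nat_lit 2692686132) (nat_lit 152) (nat_lit 5659868629) (nat_lit 228) (nat_lit 28142909550) (nat_lit 102) (nat_lit 5) (nat_lit 104) (nat_lit 5) (nat_lit 105) (nat_lit 5) (nat_lit 510) (nat_lit 422) (nat_lit 268)) (XT.lf (nat_lit 0) (nat_lit 18738951951) (nat_lit 228) (nat_lit 11523967143) (nat_lit 76) (nat_lit 6947194806) (nat_lit 102) (nat_lit 5) (nat_lit 105) (nat_lit 5) (nat_lit 103) (nat_lit 5) (nat_lit 511) (nat_lit 422) (nat_lit 267)))))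 (XT.nd (nat_lit 312) (nat_lit 380) (nat_lit 0) (XT.nd (nat_lit 156) (nat_lit 304) (nat_lit 0) (XT.nd (nat_lit 78) (nat_lit 76) (nat_lit 0) (XT.lf (nat_lit 0) (nat_lit 11579375218) (nat_lit 152) (nat_lit 18017339029) (nat_lit 228) (nat_lit 8344695718) (nat_lit 100) (nat_lit 5) (nat_lit 102) (nat_lit 5) (nat_lit 103) (nat_lit 5) (nat_lit 512) (nat_lit 422) (nat_lit 266)) (XT.lf (nat_lit 0) (nat_lit 2154831551) (nat_lit 228) (nat_lit 3114071645) (nat_lit 76) (nat_lit 33421841542) (nat_lit 99) (nat_lit 5) (nat_lit 102) (nat_lit 5) (nat_lit 100) (nat_lit 5) (nat_lit 513) (nat_lit 422) (nat_lit 265))) (XT.nd (nat_lit 78) (nat_lit 152) (nat_lit 0) (XT.lf (nat_lit 0) (nat_lit 13075921674) (nat_lit 228) (nat_lit 18384530891) (nat_lit 76) (nat_lit 7991399620) (nat_lit 97) (nat_lit 5) (nat_lit 100) (nat_lit 5) (nat_lit 98) (nat_lit 5) (nat_lit 514) (nat_lit 422) (nat_lit 264)) (XT.lf (nat_lit 0) (nat_lit 5851452150) (nat_lit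 152) (nat_lit 18606056215) (nat_lit 228) (nat_lit 15774298739) (nat_lit 95) (nat_lit 5) (nat_lit 97) (nat_lit 5) (nat_lit 98) (nat_lit 5) (nat_lit 515) (nat_lit 422) (nat_lit 263)))) (XT.nd (nat_lit 156) (nat_lit 152) (nat_lit 0) (XT.nd (nat_lit 78) (nat_lit 228) (nat_lit 0) (XT.lf (nat_lit 0) (nat_lit 31178116841) (nat_lit 152) (nat_lit 5180850315) (nat_lit 228) (nat_lit 4670840937) (nat_lit 95) (nat_lit 5) (nat_lit 97) (nat_lit 5) (nat_lit 98) (nat_lit 5) (nat_lit 516) (nat_lit 422) (nat_lit 262)) (XT.lf (nat_lit 0) (nat_lit 6862152295) (nat_lit 228) (nat_lit 26290726384) (nat_lit 76) (nat_lit 8690065840) (nat_lit 92) (nat_lit 5) (nat_lit 95) (nat_lit 5) (nat_lit 93) (nat_lit 5) (nat_lit 517) (nat_lit 422) (nat_lit 261))) (XT.nd (nat_lit 78) (nat_lit 152) (nat_lit 0) (XT.lf (nat_lit 0) (nat_lit 18791962684) (nat_lit 228) (nat_lit 868865631) (nat_lit 76) (nat_lit 23013918290) (nat_lit 92) (nat_lit 5) (nat_lit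 95) (nat_lit 5) (nat_lit 93) (nat_lit 5) (nat_lit 518) (nat_lit 422) (nat_lit 260)) (XT.lf (nat_lit 0) (nat_lit 25806566493) (nat_lit 152) (nat_lit 5514318277) (nat_lit 228) (nat_lit 12203381604) (nat_lit 90) (nat_lit 5) (nat_lit 92) (nat_lit 5) (nat_lit 93) (nat_lit 5) (nat_lit 519) (nat_lit 422) (nat_lit 259))))))) (XT.nd (nat_lit 1248) (nat_lit 1064) (nat_lit 0) (XT.nd (nat_lit 624) (nat_lit 836) (nat_lit 0) (XT.nd (nat_lit 312) (nat_lit 304) (nat_lit 0) (XT.nd (nat_lit 156) (nat_lit 228) (nat_lit 0) (XT.nd (nat_lit 78) (nat_lit 0) (nat_lit 0) (XT.lf (nat_lit 0) (nat_lit 6903772) (nat_lit 152) (nat_lit 35417684055) (nat_lit 76) (nat_lit 8969420698) (nat_lit 88) (nat_lit 5) (nat_lit 90) (nat_lit 5) (nat_lit 89) (nat_lit 5) (nat_lit 520) (nat_lit 422) (nat_lit 258)) (XT.lf (nat_lit 0) (nat_lit 12566688082) (nat_lit 152) (nat_lit 8640003318) (nat_lit 76) (nat_lit 24072672917) (nat_lit 88) (nat_lit 5) (nat_lit 90)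 (nat_lit 5) (nat_lit 89) (nat_lit 5) (nat_lit 521) (nat_lit 422) (nat_lit 257))) (XT.nd (nat_lit 78) (nat_lit 76) (nat_lit 0) (XT.lf (nat_lit 0) (nat_lit 19305396903) (nat_lit 152) (nat_lit 6376826435) (nat_lit 228) (nat_lit 20503688848) (nat_lit 86) (nat_lit 5) (nat_lit 88) (nat_lit 5) (nat_lit 89) (nat_lit 5) (nat_lit 522) (nat_lit 422) (nat_lit 256)) (XT.lf (nat_lit 0) (nat_lit 1071392317) (nat_lit 76) (nat_lit 38297177602) (nat_lit 152) (nat_lit 7745766336) (nat_lit 85) (nat_lit 5) (nat_lit 86) (nat_lit 5) (nat_lit 87) (nat_lit 4) (nat_lit 523) (nat_lit 422) (nat_lit 255)))) (XT.nd (nat_lit 156) (nat_lit 76) (nat_lit 0) (XT.nd (nat_lit 78) (nat_lit 152) (nat_lit 0) (XT.lf (nat_lit 0) (nat_lit 5620297938) (nat_lit 152) (nat_lit 17779631887) (nat_lit 76) (nat_lit 24659207228) (nat_lit 84) (nat_lit 5) (nat_lit 86) (nat_lit 5) (nat_lit 85) (nat_lit 5) (nat_lit 524) (nat_lit 422) (nat_lit 254)) (XT.lf (nat_lit 0)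 (nat_lit 11466644335) (nat_lit 152) (nat_lit 7868846801) (nat_lit 228) (nat_lit 29691375252) (nat_lit 82) (nat_lit 5) (nat_lit 84) (nat_lit 5) (nat_lit 85) (nat_lit 5) (nat_lit 525) (nat_lit 422) (nat_lit 253))) (XT.nd (nat_lit 78) (nat_lit 76) (nat_lit 0) (XT.lf (nat_lit 0) (nat_lit 33715213537) (nat_lit 228) (nat_lit 8155396786) (nat_lit 76) (nat_lit 8145425185) (nat_lit 82) (nat_lit 5) (nat_lit 85) (nat_lit 5) (nat_lit 83) (nat_lit 4) (nat_lit 526) (nat_lit 422) (nat_lit 252)) (XT.lf (nat_lit 0) (nat_lit 22480674163) (nat_lit 76) (nat_lit 26333469976) (nat_lit 152) (nat_lit 2212101173) (nat_lit 81) (nat_lit 5) (nat_lit 82) (nat_lit 5) (nat_lit 83) (nat_lit 4) (nat_lit 527) (nat_lit 422) (nat_lit 251))))) (XT.nd (nat_lit 312) (nat_lit 456) (nat_lit 0) (XT.nd (nat_lit 156) (nat_lit 152) (nat_lit 0) (XT.nd (nat_lit 78) (nat_lit 0) (nat_lit 0) (XT.lf (nat_lit 0) (nat_lit 2047956110) (nat_lit 152) (nat_lit 10107994668)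 (nat_lit 228) (nat_lit 39904363701) (nat_lit 78) (nat_lit 5) (nat_lit 80) (nat_lit 5) (nat_lit 81) (nat_lit 5) (nat_lit 528) (nat_lit 422) (nat_lit 250)) (XT.lf (nat_lit 0) (nat_lit 27259009825) (nat_lit 228) (nat_lit 19072246713) (nat_lit 76) (nat_lit 6783039422) (nat_lit 78) (nat_lit 5) (nat_lit 81) (nat_lit 5) (nat_lit 79) (nat_lit 4) (nat_lit 529) (nat_lit 422) (nat_lit 249))) (XT.nd (nat_lit 78) (nat_lit 76) (nat_lit 0) (XT.lf (nat_lit 0) (nat_lit 12937084865) (nat_lit 76) (nat_lit 30096527927) (nat_lit 152) (nat_lit 11159730623) (nat_lit 77) (nat_lit 5) (nat_lit 78) (nat_lit 5) (nat_lit 79) (nat_lit 4) (nat_lit 530) (nat_lit 422) (nat_lit 248)) (XT.lf (nat_lit 0) (nat_lit 4087612538) (nat_lit 152) (nat_lit 9052820181) (nat_lit 76) (nat_lit 42157527254) (nat_lit 76) (nat_lit 5) (nat_lit 78) (nat_lit 5) (nat_lit 77) (nat_lit 5) (nat_lit 531) (nat_lit 422) (nat_lit 247)))) (XT.nd (nat_lit 156) (nat_lit 228)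 (nat_lit 0) (XT.nd (nat_lit 78) (nat_lit 76) (nat_lit 0) (XT.lf (nat_lit 0) (nat_lit 19842460228) (nat_lit 228) (nat_lit 31997708040) (nat_lit 76) (nat_lit 4584000561) (nat_lit 74) (nat_lit 5) (nat_lit 77) (nat_lit 5) (nat_lit 75) (nat_lit 4) (nat_lit 532) (nat_lit 422) (nat_lit 246)) (XT.lf (nat_lit 0) (nat_lit 1399529512) (nat_lit 76) (nat_lit 34900510908) (nat_lit 152) (nat_lit 21277221001) (nat_lit 73) (nat_lit 5) (nat_lit 74) (nat_lit 5) (nat_lit 75) (nat_lit 4) (nat_lit 533) (nat_lit 422) (nat_lit 245))) (XT.nd (nat_lit 78) (nat_lit 228) (nat_lit 0) (XT.lf (nat_lit 0) (nat_lit 36443669519) (nat_lit 76) (nat_lit 17125065935) (nat_lit 152) (nat_lit 5186689796) (nat_lit 73) (nat_lit 5) (nat_lit 74) (nat_lit 5) (nat_lit 75) (nat_lit 4) (nat_lit 534) (nat_lit 422) (nat_lit 244)) (XT.lf (nat_lit 0) (nat_lit 11294429513) (nat_lit 228) (nat_lit 47277982768) (nat_lit 76) (nat_lit 1389336203) (nat_lit 70) (nat_lit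 5) (nat_lit 73) (nat_lit 5) (nat_lit 71) (nat_lit 4) (nat_lit 535) (nat_lit 422) (nat_lit 243)))))) (XT.nd (nat_lit 624) (nat_lit 532) (nat_lit 0) (XT.nd (nat_lit 312) (nat_lit 228) (nat_lit 0) (XT.nd (nat_lit 156) (nat_lit 228) (nat_lit 0) (XT.nd (nat_lit 78) (nat_lit 76) (nat_lit 0) (XT.lf (nat_lit 0) (nat_lit 28557223574) (nat_lit 228) (nat_lit 12244861909) (nat_lit 76) (nat_lit 20388890750) (nat_lit 70) (nat_lit 5) (nat_lit 73) (nat_lit 5) (nat_lit 71) (nat_lit 4) (nat_lit 536) (nat_lit 422) (nat_lit 242)) (XT.lf (nat_lit 0) (nat_lit 24303063405) (nat_lit 76) (nat_lit 22263014806) (nat_lit 152) (nat_lit 15884157374) (nat_lit 69) (nat_lit 5) (nat_lit 70) (nat_lit 5) (nat_lit 71) (nat_lit 4) (nat_lit 537) (nat_lit 422) (nat_lit 241))) (XT.nd (nat_lit 78) (nat_lit 152) (nat_lit 0) (XT.lf (nat_lit 0) (nat_lit 1460672611) (nat_lit 152) (nat_lit 1569938111) (nat_lit 76) (nat_lit 60712684382) (nat_lit 68) (nat_lit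 5) (nat_lit 70) (nat_lit 5) (nat_lit 69) (nat_lit 5) (nat_lit 538) (nat_lit 422) (nat_lit 240)) (XT.lf (nat_lit 0) (nat_lit 19519928750) (nat_lit 228) (nat_lit 28573869846) (nat_lit 76) (nat_lit 16961229700) (nat_lit 66) (nat_lit 5) (nat_lit 69) (nat_lit 5) (nat_lit 67) (nat_lit 4) (nat_lit 539) (nat_lit 422) (nat_lit 239)))) (XT.nd (nat_lit 156) (nat_lit 152) (nat_lit 0) (XT.nd (nat_lit 78) (nat_lit 0) (nat_lit 0) (XT.lf (nat_lit 0) (nat_lit 9444319420) (nat_lit 76) (nat_lit 28808179873) (nat_lit 152) (nat_lit 28149668151) (nat_lit 65) (nat_lit 5) (nat_lit 66) (nat_lit 5) (nat_lit 67) (nat_lit 4) (nat_lit 540) (nat_lit 422) (nat_lit 238)) (XT.lf (nat_lit 0) (nat_lit 49178747647) (nat_lit 76) (nat_lit 8651631990) (nat_lit 152) (nat_lit 9950841212) (nat_lit 65) (nat_lit 5) (nat_lit 66) (nat_lit 5) (nat_lit 67) (nat_lit 4) (nat_lit 541) (nat_lit 422) (nat_lit 237))) (XT.nd (nat_lit 78) (nat_lit 0) (nat_lit 0) (XT.lf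 (nat_lit 0) (nat_lit 8940470865) (nat_lit 152) (nat_lit 48089037734) (nat_lit 76) (nat_lit 12160057672) (nat_lit 63) (nat_lit 5) (nat_lit 65) (nat_lit 5) (nat_lit 64) (nat_lit 4) (nat_lit 542) (nat_lit 422) (nat_lit 236)) (XT.lf (nat_lit 0) (nat_lit 28468792254) (nat_lit 152) (nat_lit 8454478560) (nat_lit 76) (nat_lit 33705827442) (nat_lit 63) (nat_lit 5) (nat_lit 65) (nat_lit 5) (nat_lit 64) (nat_lit 4) (nat_lit 543) (nat_lit 422) (nat_lit 235))))) (XT.nd (nat_lit 312) (nat_lit 228) (nat_lit 0) (XT.nd (nat_lit 156) (nat_lit 152) (nat_lit 0) (XT.nd (nat_lit 78) (nat_lit 76) (nat_lit 0) (XT.lf (nat_lit 0) (nat_lit 33003561016) (nat_lit 76) (nat_lit 15891705009) (nat_lit 152) (nat_lit 23207181147) (nat_lit 62) (nat_lit 5) (nat_lit 63) (nat_lit 5) (nat_lit 64) (nat_lit 4) (nat_lit 544) (nat_lit 422) (nat_lit 234)) (XT.lf (nat_lit 0) (nat_lit 2239004514) (nat_lit 76) (nat_lit 67853804860) (nat_lit 76) (nat_lit 3522438975)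 (nat_lit 61) (nat_lit 4) (nat_lit 62) (nat_lit 5) (nat_lit 62) (nat_lit 4) (nat_lit 545) (nat_lit 422) (nat_lit 233))) (XT.nd (nat_lit 78) (nat_lit 76) (nat_lit 0) (XT.lf (nat_lit 0) (nat_lit 16977077342) (nat_lit 152) (nat_lit 29874947464) (nat_lit 76) (nat_lit 28300043440) (nat_lit 60) (nat_lit 5) (nat_lit 62) (nat_lit 5) (nat_lit 61) (nat_lit 4) (nat_lit 546) (nat_lit 422) (nat_lit 232)) (XT.lf (nat_lit 0) (nat_lit 13082489962) (nat_lit 76) (nat_lit 25059257682) (nat_lit 152) (nat_lit 38588569896) (nat_lit 59) (nat_lit 5) (nat_lit 60) (nat_lit 5) (nat_lit 61) (nat_lit 4) (nat_lit 547) (nat_lit 422) (nat_lit 231)))) (XT.nd (nat_lit 156) (nat_lit 76) (nat_lit 0) (XT.nd (nat_lit 78) (nat_lit 152) (nat_lit 0) (XT.lf (nat_lit 0) (nat_lit 57931840206) (nat_lit 76) (nat_lit 2306456311) (nat_lit 152) (nat_lit 18108709688) (nat_lit 59) (nat_lit 5) (nat_lit 60) (nat_lit 5) (nat_lit 61) (nat_lit 4) (nat_lit 548) (nat_lit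 422) (nat_lit 230)) (XT.lf (nat_lit 0) (nat_lit 3364369696) (nat_lit 152) (nat_lit 55654166584) (nat_lit 76) (nat_lit 20979685866) (nat_lit 57) (nat_lit 5) (nat_lit 59) (nat_lit 5) (nat_lit 58) (nat_lit 4) (nat_lit 549) (nat_lit 422) (nat_lit 229))) (XT.nd (nat_lit 78) (nat_lit 76) (nat_lit 0) (XT.lf (nat_lit 0) (nat_lit 25344064757) (nat_lit 152) (nat_lit 11041465782) (nat_lit 76) (nat_lit 45301273530) (nat_lit 57) (nat_lit 5) (nat_lit 59) (nat_lit 5) (nat_lit 58) (nat_lit 4) (nat_lit 550) (nat_lit 422) (nat_lit 228)) (XT.lf (nat_lit 0) (nat_lit 35595425572) (nat_lit 76) (nat_lit 12725385212) (nat_lit 152) (nat_lit 35095102905) (nat_lit 56) (nat_lit 5) (nat_lit 57) (nat_lit 5) (nat_lit 58) (nat_lit 4) (nat_lit 551) (nat_lit 422) (nat_lit 227))))))))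
noncomputable def xc148 : XT := (XT.nd (nat_lit 2418) (nat_lit 7524) (nat_lit 0) (XT.nd (nat_lit 1170) (nat_lit 6080) (nat_lit 0) (XT.nd (nat_lit 546) (nat_lit 836) (nat_lit 0) (XT.nd (nat_lit 234) (nat_lit 0) (nat_lit 0) (XT.nd (nat_lit 78) (nat_lit 1064) (nat_lit 0) (XT.lf (nat_lit 0) (nat_lit 1742577410) (nat_lit 0) (nat_lit 1742577410) (nat_lit 988) (nat_lit 861462170) (nat_lit 356) (nat_lit 5) (nat_lit 356) (nat_lit 3) (nat_lit 369) (nat_lit 3) (nat_lit 423) (nat_lit 423) (nat_lit 354)) (XT.nd (nat_lit 78) (nat_lit 1064) (nat_lit 0) (XT.lf (nat_lit 0) (nat_lit 7910132909) (nat_lit 0) (nat_lit 138285768) (nat_lit 988) (nat_lit 745904801) (nat_lit 356) (nat_lit 5) (nat_lit 356) (nat_lit 3) (nat_lit 369) (nat_lit 3) (nat_lit 424) (nat_lit 423) (nat_lit 353)) (XT.lf (nat_lit 0) (nat_lit 284100241) (nat_lit 1064) (nat_lit 5313097139) (nat_lit 1140) (nat_lit 3300314356) (nat_lit 342) (nat_lit 5) (nat_lit 356) (nat_lit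 5) (nat_lit 357) (nat_lit 5) (nat_lit 425) (nat_lit 423) (nat_lit 352)))) (XT.nd (nat_lit 156) (nat_lit 0) (nat_lit 76) (XT.nd (nat_lit 78) (nat_lit 0) (nat_lit 76) (XT.lf (nat_lit 0) (nat_lit 1303125844) (nat_lit 1064) (nat_lit 828037939) (nat_lit 1140) (nat_lit 6873220698) (nat_lit 342) (nat_lit 5) (nat_lit 356) (nat_lit 5) (nat_lit 357) (nat_lit 5) (nat_lit 426) (nat_lit 423) (nat_lit 351)) (XT.lf (nat_lit 0) (nat_lit 2367857968) (nat_lit 1064) (nat_lit 5282426743) (nat_lit 1140) (nat_lit 1463728281) (nat_lit 343) (nat_lit 5) (nat_lit 357) (nat_lit 5) (nat_lit 358) (nat_lit 5) (nat_lit 427) (nat_lit 423) (nat_lit 350))) (XT.nd (nat_lit 78) (nat_lit 0) (nat_lit 0) (XT.lf (nat_lit 0) (nat_lit 3458896755) (nat_lit 1064) (nat_lit 621163706) (nat_lit 1140) (nat_lit 5147042508) (nat_lit 343) (nat_lit 5) (nat_lit 357) (nat_lit 5) (nat_lit 358) (nat_lit 5) (nat_lit 428) (nat_lit 423) (nat_lit 349)) (XT.lf (nat_lit 76)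 (nat_lit 4242060833) (nat_lit 0) (nat_lit 347227543) (nat_lit 1140) (nat_lit 4754102063) (nat_lit 344) (nat_lit 5) (nat_lit 343) (nat_lit 5) (nat_lit 358) (nat_lit 5) (nat_lit 429) (nat_lit 423) (nat_lit 348))))) (XT.nd (nat_lit 312) (nat_lit 988) (nat_lit 0) (XT.nd (nat_lit 156) (nat_lit 0) (nat_lit 76) (XT.nd (nat_lit 78) (nat_lit 0) (nat_lit 0) (XT.lf (nat_lit 0) (nat_lit 5760314039) (nat_lit 1064) (nat_lit 254325993) (nat_lit 1140) (nat_lit 3448328181) (nat_lit 344) (nat_lit 5) (nat_lit 358) (nat_lit 5) (nat_lit 359) (nat_lit 5) (nat_lit 430) (nat_lit 423) (nat_lit 347)) (XT.lf (nat_lit 76) (nat_lit 4807510308) (nat_lit 0) (nat_lit 2176345423) (nat_lit 1140) (nat_lit 2601759279) (nat_lit 345) (nat_lit 5) (nat_lit 344) (nat_lit 5) (nat_lit 359) (nat_lit 5) (nat_lit 431) (nat_lit 423) (nat_lit 346))) (XT.nd (nat_lit 78) (nat_lit 0) (nat_lit 0) (XT.lf (nat_lit 76) (nat_lit 281130370) (nat_lit 0) (nat_lit 7953930471)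 (nat_lit 1140) (nat_lit 1477154810) (nat_lit 346) (nat_lit 5) (nat_lit 345) (nat_lit 5) (nat_lit 360) (nat_lit 5) (nat_lit 432) (nat_lit 423) (nat_lit 345)) (XT.lf (nat_lit 76) (nat_lit 5546527368) (nat_lit 0) (nat_lit 4016147241) (nat_lit 1140) (nat_lit 278776590) (nat_lit 346) (nat_lit 5) (nat_lit 345) (nat_lit 5) (nat_lit 360) (nat_lit 5) (nat_lit 433) (nat_lit 423) (nat_lit 344)))) (XT.nd (nat_lit 156) (nat_lit 0) (nat_lit 0) (XT.nd (nat_lit 78) (nat_lit 0) (nat_lit 0) (XT.lf (nat_lit 0) (nat_lit 916895200) (nat_lit 1140) (nat_lit 8991784350) (nat_lit 1216) (nat_lit 66211932) (nat_lit 331) (nat_lit 5) (nat_lit 346) (nat_lit 5) (nat_lit 347) (nat_lit 5) (nat_lit 434) (nat_lit 423) (nat_lit 343)) (XT.lf (nat_lit 0) (nat_lit 2197030127) (nat_lit 1140) (nat_lit 3668777535) (nat_lit 1216) (nat_lit 4244821428) (nat_lit 331) (nat_lit 5) (nat_lit 346) (nat_lit 5) (nat_lit 347) (nat_lit 5) (nat_lit 435) (nat_lit 423)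 (nat_lit 342))) (XT.nd (nat_lit 78) (nat_lit 0) (nat_lit 76) (XT.lf (nat_lit 76) (nat_lit 1827927757) (nat_lit 0) (nat_lit 1676700428) (nat_lit 1216) (nat_lit 6746141588) (nat_lit 332) (nat_lit 5) (nat_lit 331) (nat_lit 5) (nat_lit 347) (nat_lit 5) (nat_lit 436) (nat_lit 423) (nat_lit 341)) (XT.lf (nat_lit 0) (nat_lit 4886401380) (nat_lit 1140) (nat_lit 2877338335) (nat_lit 1216) (nat_lit 2630329187) (nat_lit 332) (nat_lit 5) (nat_lit 347) (nat_lit 5) (nat_lit 348) (nat_lit 5) (nat_lit 437) (nat_lit 423) (nat_lit 340)))))) (XT.nd (nat_lit 624) (nat_lit 2356) (nat_lit 0) (XT.nd (nat_lit 312) (nat_lit 2660) (nat_lit 0) (XT.nd (nat_lit 156) (nat_lit 1140) (nat_lit 0) (XT.nd (nat_lit 78) (nat_lit 0) (nat_lit 76) (XT.lf (nat_lit 76) (nat_lit 2851880913) (nat_lit 0) (nat_lit 3474746429) (nat_lit 1216) (nat_lit 4214532241) (nat_lit 333) (nat_lit 5) (nat_lit 332) (nat_lit 5) (nat_lit 348) (nat_lit 5) (nat_lit 438) (nat_lit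 423) (nat_lit 339)) (XT.lf (nat_lit 0) (nat_lit 7822079572) (nat_lit 1140) (nat_lit 1911512932) (nat_lit 76) (nat_lit 958712385) (nat_lit 333) (nat_lit 5) (nat_lit 348) (nat_lit 5) (nat_lit 334) (nat_lit 5) (nat_lit 439) (nat_lit 423) (nat_lit 338))) (XT.nd (nat_lit 78) (nat_lit 76) (nat_lit 0) (XT.lf (nat_lit 0) (nat_lit 4062782847) (nat_lit 1140) (nat_lit 5347450917) (nat_lit 1216) (nat_lit 1436318057) (nat_lit 318) (nat_lit 5) (nat_lit 333) (nat_lit 5) (nat_lit 334) (nat_lit 5) (nat_lit 440) (nat_lit 423) (nat_lit 337)) (XT.lf (nat_lit 0) (nat_lit 33977929) (nat_lit 1216) (nat_lit 771909767) (nat_lit 76) (nat_lit 10199704116) (nat_lit 317) (nat_lit 5) (nat_lit 333) (nat_lit 5) (nat_lit 318) (nat_lit 5) (nat_lit 441) (nat_lit 423) (nat_lit 336)))) (XT.nd (nat_lit 156) (nat_lit 608) (nat_lit 0) (XT.nd (nat_lit 78) (nat_lit 836) (nat_lit 0) (XT.lf (nat_lit 0) (nat_lit 1585628009) (nat_lit 1292) (nat_lit 5714128240)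 (nat_lit 76) (nat_lit 3867238924) (nat_lit 301) (nat_lit 5) (nat_lit 318) (nat_lit 5) (nat_lit 302) (nat_lit 5) (nat_lit 442) (nat_lit 423) (nat_lit 335)) (XT.lf (nat_lit 0) (nat_lit 527565313) (nat_lit 836) (nat_lit 2653134217) (nat_lit 912) (nat_lit 8152637094) (nat_lit 290) (nat_lit 5) (nat_lit 301) (nat_lit 5) (nat_lit 302) (nat_lit 5) (nat_lit 443) (nat_lit 423) (nat_lit 334))) (XT.nd (nat_lit 78) (nat_lit 608) (nat_lit 0) (XT.lf (nat_lit 0) (nat_lit 4878858712) (nat_lit 912) (nat_lit 4472756724) (nat_lit 76) (nat_lit 2151397902) (nat_lit 290) (nat_lit 5) (nat_lit 302) (nat_lit 5) (nat_lit 291) (nat_lit 5) (nat_lit 444) (nat_lit 423) (nat_lit 333)) (XT.lf (nat_lit 0) (nat_lit 2042091072) (nat_lit 608) (nat_lit 4608915821) (nat_lit 684) (nat_lit 5026084159) (nat_lit 282) (nat_lit 5) (nat_lit 290) (nat_lit 5) (nat_lit 291) (nat_lit 5) (nat_lit 445) (nat_lit 423) (nat_lit 332))))) (XT.nd (nat_lit 312) (nat_lit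 1140) (nat_lit 0) (XT.nd (nat_lit 156) (nat_lit 608) (nat_lit 0) (XT.nd (nat_lit 78) (nat_lit 608) (nat_lit 0) (XT.lf (nat_lit 0) (nat_lit 8502199360) (nat_lit 684) (nat_lit 3036271800) (nat_lit 76) (nat_lit 317145508) (nat_lit 282) (nat_lit 5) (nat_lit 291) (nat_lit 5) (nat_lit 283) (nat_lit 5) (nat_lit 446) (nat_lit 423) (nat_lit 331)) (XT.lf (nat_lit 0) (nat_lit 3766728393) (nat_lit 608) (nat_lit 6702305059) (nat_lit 684) (nat_lit 1568663333) (nat_lit 274) (nat_lit 5) (nat_lit 282) (nat_lit 5) (nat_lit 283) (nat_lit 5) (nat_lit 447) (nat_lit 423) (nat_lit 330))) (XT.nd (nat_lit 78) (nat_lit 532) (nat_lit 0) (XT.lf (nat_lit 0) (nat_lit 273815702) (nat_lit 684) (nat_lit 1412933916) (nat_lit 76) (nat_lit 10538130412) (nat_lit 273) (nat_lit 5) (nat_lit 282) (nat_lit 5) (nat_lit 274) (nat_lit 5) (nat_lit 448) (nat_lit 423) (nat_lit 329)) (XT.lf (nat_lit 0) (nat_lit 2208329389) (nat_lit 608) (nat_lit 6724432022) (nat_lit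 76) (nat_lit 3482404502) (nat_lit 266) (nat_lit 5) (nat_lit 274) (nat_lit 5) (nat_lit 267) (nat_lit 5) (nat_lit 449) (nat_lit 423) (nat_lit 328)))) (XT.nd (nat_lit 156) (nat_lit 532) (nat_lit 0) (XT.nd (nat_lit 78) (nat_lit 0) (nat_lit 0) (XT.lf (nat_lit 0) (nat_lit 395061985) (nat_lit 608) (nat_lit 3820233443) (nat_lit 684) (nat_lit 8395434130) (nat_lit 258) (nat_lit 5) (nat_lit 266) (nat_lit 5) (nat_lit 267) (nat_lit 5) (nat_lit 450) (nat_lit 423) (nat_lit 327)) (XT.lf (nat_lit 0) (nat_lit 6344832544) (nat_lit 684) (nat_lit 4980636842) (nat_lit 76) (nat_lit 1484821511) (nat_lit 258) (nat_lit 5) (nat_lit 267) (nat_lit 5) (nat_lit 259) (nat_lit 5) (nat_lit 451) (nat_lit 423) (nat_lit 326))) (XT.nd (nat_lit 78) (nat_lit 0) (nat_lit 0) (XT.lf (nat_lit 0) (nat_lit 2460339609) (nat_lit 532) (nat_lit 6119865824) (nat_lit 608) (nat_lit 4434376751) (nat_lit 251) (nat_lit 5) (nat_lit 258) (nat_lit 5) (nat_lit 259) (nat_lit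 5) (nat_lit 452) (nat_lit 423) (nat_lit 325)) (XT.lf (nat_lit 0) (nat_lit 10205561069) (nat_lit 532) (nat_lit 708214408) (nat_lit 608) (nat_lit 2310294206) (nat_lit 251) (nat_lit 5) (nat_lit 258) (nat_lit 5) (nat_lit 259) (nat_lit 5) (nat_lit 453) (nat_lit 423) (nat_lit 324))))))) (XT.nd (nat_lit 1170) (nat_lit 3344) (nat_lit 0) (XT.nd (nat_lit 546) (nat_lit 2128) (nat_lit 0) (XT.nd (nat_lit 234) (nat_lit 988) (nat_lit 0) (XT.nd (nat_lit 78) (nat_lit 532) (nat_lit 0) (XT.lf (nat_lit 0) (nat_lit 4768566373) (nat_lit 532) (nat_lit 8622778911) (nat_lit 608) (nat_lit 46278250) (nat_lit 244) (nat_lit 5) (nat_lit 251) (nat_lit 5) (nat_lit 252) (nat_lit 5) (nat_lit 454) (nat_lit 423) (nat_lit 323)) (XT.nd (nat_lit 78) (nat_lit 456) (nat_lit 0) (XT.lf (nat_lit 0) (nat_lit 2260392884) (nat_lit 608) (nat_lit 855997236) (nat_lit 76) (nat_lit 10539956082) (nat_lit 243) (nat_lit 5) (nat_lit 251) (nat_lit 5) (nat_lit 244) (nat_lit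 5) (nat_lit 455) (nat_lit 423) (nat_lit 322)) (XT.lf (nat_lit 0) (nat_lit 4712948646) (nat_lit 532) (nat_lit 6592138140) (nat_lit 76) (nat_lit 2574202957) (nat_lit 237) (nat_lit 5) (nat_lit 244) (nat_lit 5) (nat_lit 238) (nat_lit 5) (nat_lit 456) (nat_lit 423) (nat_lit 321)))) (XT.nd (nat_lit 156) (nat_lit 532) (nat_lit 0) (XT.nd (nat_lit 78) (nat_lit 0) (nat_lit 0) (XT.lf (nat_lit 0) (nat_lit 1562165050) (nat_lit 456) (nat_lit 5713896045) (nat_lit 532) (nat_lit 6831752432) (nat_lit 231) (nat_lit 5) (nat_lit 237) (nat_lit 5) (nat_lit 238) (nat_lit 5) (nat_lit 457) (nat_lit 423) (nat_lit 320)) (XT.lf (nat_lit 0) (nat_lit 9966387790) (nat_lit 532) (nat_lit 4267199308) (nat_lit 76) (nat_lit 108097602) (nat_lit 231) (nat_lit 5) (nat_lit 238) (nat_lit 5) (nat_lit 232) (nat_lit 5) (nat_lit 458) (nat_lit 423) (nat_lit 319))) (XT.nd (nat_lit 78) (nat_lit 76) (nat_lit 0) (XT.lf (nat_lit 0) (nat_lit 4265744841) (nat_lit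 456) (nat_lit 8552423887) (nat_lit 532) (nat_lit 1761982208) (nat_lit 225) (nat_lit 5) (nat_lit 231) (nat_lit 5) (nat_lit 232) (nat_lit 5) (nat_lit 459) (nat_lit 423) (nat_lit 318)) (XT.lf (nat_lit 0) (nat_lit 938402751) (nat_lit 532) (nat_lit 1712349230) (nat_lit 76) (nat_lit 12173947856) (nat_lit 224) (nat_lit 5) (nat_lit 231) (nat_lit 5) (nat_lit 225) (nat_lit 5) (nat_lit 460) (nat_lit 423) (nat_lit 317))))) (XT.nd (nat_lit 312) (nat_lit 836) (nat_lit 0) (XT.nd (nat_lit 156) (nat_lit 456) (nat_lit 0) (XT.nd (nat_lit 78) (nat_lit 380) (nat_lit 0) (XT.lf (nat_lit 0) (nat_lit 3771654192) (nat_lit 532) (nat_lit 7856459798) (nat_lit 76) (nat_lit 3445330937) (nat_lit 218) (nat_lit 5) (nat_lit 225) (nat_lit 5) (nat_lit 219) (nat_lit 5) (nat_lit 461) (nat_lit 423) (nat_lit 316)) (XT.lf (nat_lit 0) (nat_lit 1094813984) (nat_lit 380) (nat_lit 5633347353) (nat_lit 456) (nat_lit 8600344410) (nat_lit 213) (nat_lit 5) (nat_lit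 218) (nat_lit 5) (nat_lit 219) (nat_lit 5) (nat_lit 462) (nat_lit 423) (nat_lit 315))) (XT.nd (nat_lit 78) (nat_lit 456) (nat_lit 0) (XT.lf (nat_lit 0) (nat_lit 9842943187) (nat_lit 456) (nat_lit 5139682765) (nat_lit 76) (nat_lit 606506141) (nat_lit 213) (nat_lit 5) (nat_lit 219) (nat_lit 5) (nat_lit 214) (nat_lit 5) (nat_lit 463) (nat_lit 423) (nat_lit 314)) (XT.lf (nat_lit 0) (nat_lit 4234058849) (nat_lit 456) (nat_lit 8898300496) (nat_lit 532) (nat_lit 2722783217) (nat_lit 207) (nat_lit 5) (nat_lit 213) (nat_lit 5) (nat_lit 214) (nat_lit 5) (nat_lit 464) (nat_lit 423) (nat_lit 313)))) (XT.nd (nat_lit 156) (nat_lit 380) (nat_lit 0) (XT.nd (nat_lit 78) (nat_lit 380) (nat_lit 0) (XT.lf (nat_lit 0) (nat_lit 420923497) (nat_lit 532) (nat_lit 2157522020) (nat_lit 76) (nat_lit 13549458924) (nat_lit 206) (nat_lit 5) (nat_lit 213) (nat_lit 5) (nat_lit 207) (nat_lit 5) (nat_lit 465) (nat_lit 423) (nat_lit 312)) (XT.lf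 (nat_lit 0) (nat_lit 3702175899) (nat_lit 456) (nat_lit 8751344133) (nat_lit 76) (nat_lit 3951582571) (nat_lit 201) (nat_lit 5) (nat_lit 207) (nat_lit 5) (nat_lit 202) (nat_lit 5) (nat_lit 466) (nat_lit 423) (nat_lit 311))) (XT.nd (nat_lit 78) (nat_lit 0) (nat_lit 0) (XT.lf (nat_lit 0) (nat_lit 1089499832) (nat_lit 380) (nat_lit 6035831297) (nat_lit 456) (nat_lit 9563982564) (nat_lit 196) (nat_lit 5) (nat_lit 201) (nat_lit 5) (nat_lit 202) (nat_lit 5) (nat_lit 467) (nat_lit 423) (nat_lit 310)) (XT.lf (nat_lit 0) (nat_lit 10731596231) (nat_lit 456) (nat_lit 5600677602) (nat_lit 76) (nat_lit 647365736) (nat_lit 196) (nat_lit 5) (nat_lit 202) (nat_lit 5) (nat_lit 197) (nat_lit 5) (nat_lit 468) (nat_lit 423) (nat_lit 309)))))) (XT.nd (nat_lit 624) (nat_lit 1596) (nat_lit 0) (XT.nd (nat_lit 312) (nat_lit 684) (nat_lit 0) (XT.nd (nat_lit 156) (nat_lit 684) (nat_lit 0) (XT.nd (nat_lit 78) (nat_lit 76) (nat_lit 0) (XT.lf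 (nat_lit 0) (nat_lit 4711340872) (nat_lit 304) (nat_lit 9825822909) (nat_lit 380) (nat_lit 2738778890) (nat_lit 192) (nat_lit 5) (nat_lit 196) (nat_lit 5) (nat_lit 197) (nat_lit 5) (nat_lit 469) (nat_lit 423) (nat_lit 308)) (XT.lf (nat_lit 0) (nat_lit 901941381) (nat_lit 380) (nat_lit 2160242182) (nat_lit 76) (nat_lit 14517401571) (nat_lit 191) (nat_lit 5) (nat_lit 196) (nat_lit 5) (nat_lit 192) (nat_lit 5) (nat_lit 470) (nat_lit 423) (nat_lit 307))) (XT.nd (nat_lit 78) (nat_lit 304) (nat_lit 0) (XT.lf (nat_lit 0) (nat_lit 4705400296) (nat_lit 456) (nat_lit 9248285003) (nat_lit 76) (nat_lit 3934581969) (nat_lit 186) (nat_lit 5) (nat_lit 192) (nat_lit 5) (nat_lit 187) (nat_lit 5) (nat_lit 471) (nat_lit 423) (nat_lit 306)) (XT.lf (nat_lit 0) (nat_lit 1584370862) (nat_lit 304) (nat_lit 7092886730) (nat_lit 380) (nat_lit 9527324222) (nat_lit 182) (nat_lit 5) (nat_lit 186) (nat_lit 5) (nat_lit 187) (nat_lit 5) (nat_lit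 472) (nat_lit 423) (nat_lit 305)))) (XT.nd (nat_lit 156) (nat_lit 380) (nat_lit 0) (XT.nd (nat_lit 78) (nat_lit 304) (nat_lit 0) (XT.lf (nat_lit 0) (nat_lit 12849200006) (nat_lit 380) (nat_lit 5615773858) (nat_lit 76) (nat_lit 62984814) (nat_lit 182) (nat_lit 5) (nat_lit 187) (nat_lit 5) (nat_lit 183) (nat_lit 5) (nat_lit 473) (nat_lit 423) (nat_lit 304)) (XT.lf (nat_lit 0) (nat_lit 5742069916) (nat_lit 304) (nat_lit 11516903832) (nat_lit 380) (nat_lit 1598683649) (nat_lit 178) (nat_lit 5) (nat_lit 182) (nat_lit 5) (nat_lit 183) (nat_lit 5) (nat_lit 474) (nat_lit 423) (nat_lit 303))) (XT.nd (nat_lit 78) (nat_lit 304) (nat_lit 0) (XT.lf (nat_lit 0) (nat_lit 2597573964) (nat_lit 380) (nat_lit 1683989198) (nat_lit 76) (nat_lit 14913596045) (nat_lit 177) (nat_lit 5) (nat_lit 182) (nat_lit 5) (nat_lit 178) (nat_lit 5) (nat_lit 475) (nat_lit 423) (nat_lit 302)) (XT.lf (nat_lit 0) (nat_lit 7005428753) (nat_lit 380) (nat_lit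 9314482510) (nat_lit 76) (nat_lit 3218865388) (nat_lit 173) (nat_lit 5) (nat_lit 178) (nat_lit 5) (nat_lit 174) (nat_lit 5) (nat_lit 476) (nat_lit 423) (nat_lit 301))))) (XT.nd (nat_lit 312) (nat_lit 912) (nat_lit 0) (XT.nd (nat_lit 156) (nat_lit 380) (nat_lit 0) (XT.nd (nat_lit 78) (nat_lit 0) (nat_lit 0) (XT.lf (nat_lit 0) (nat_lit 2622560329) (nat_lit 304) (nat_lit 8995553840) (nat_lit 380) (nat_lit 8272411258) (nat_lit 169) (nat_lit 5) (nat_lit 173) (nat_lit 5) (nat_lit 174) (nat_lit 5) (nat_lit 477) (nat_lit 423) (nat_lit 300)) (XT.lf (nat_lit 0) (nat_lit 15090621903) (nat_lit 304) (nat_lit 1360617945) (nat_lit 380) (nat_lit 3799125666) (nat_lit 169) (nat_lit 5) (nat_lit 173) (nat_lit 5) (nat_lit 174) (nat_lit 5) (nat_lit 478) (nat_lit 423) (nat_lit 299))) (XT.nd (nat_lit 78) (nat_lit 0) (nat_lit 0) (XT.lf (nat_lit 0) (nat_lit 915494286) (nat_lit 380) (nat_lit 13250995197) (nat_lit 76) (nat_lit 6450591518)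 (nat_lit 164) (nat_lit 5) (nat_lit 169) (nat_lit 5) (nat_lit 165) (nat_lit 5) (nat_lit 479) (nat_lit 423) (nat_lit 298)) (XT.lf (nat_lit 0) (nat_lit 5749636391) (nat_lit 380) (nat_lit 689234368) (nat_lit 76) (nat_lit 14553166057) (nat_lit 164) (nat_lit 5) (nat_lit 169) (nat_lit 5) (nat_lit 165) (nat_lit 5) (nat_lit 480) (nat_lit 423) (nat_lit 297)))) (XT.nd (nat_lit 156) (nat_lit 380) (nat_lit 0) (XT.nd (nat_lit 78) (nat_lit 228) (nat_lit 0) (XT.lf (nat_lit 0) (nat_lit 10853161722) (nat_lit 380) (nat_lit 8915245448) (nat_lit 76) (nat_lit 1606103936) (nat_lit 160) (nat_lit 5) (nat_lit 165) (nat_lit 5) (nat_lit 161) (nat_lit 5) (nat_lit 481) (nat_lit 423) (nat_lit 296)) (XT.lf (nat_lit 0) (nat_lit 4249762765) (nat_lit 228) (nat_lit 11960458737) (nat_lit 304) (nat_lit 5555225813) (nat_lit 157) (nat_lit 5) (nat_lit 160) (nat_lit 5) (nat_lit 161) (nat_lit 5) (nat_lit 482) (nat_lit 423) (nat_lit 295))) (XT.nd (nat_lit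 78) (nat_lit 380) (nat_lit 0) (XT.lf (nat_lit 0) (nat_lit 17975202238) (nat_lit 228) (nat_lit 3831774937) (nat_lit 304) (nat_lit 358765447) (nat_lit 157) (nat_lit 5) (nat_lit 160) (nat_lit 5) (nat_lit 161) (nat_lit 5) (nat_lit 483) (nat_lit 423) (nat_lit 294)) (XT.lf (nat_lit 0) (nat_lit 5023139262) (nat_lit 380) (nat_lit 12961300814) (nat_lit 76) (nat_lit 4588357371) (nat_lit 152) (nat_lit 5) (nat_lit 157) (nat_lit 5) (nat_lit 153) (nat_lit 5) (nat_lit 484) (nat_lit 423) (nat_lit 293))))))))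
noncomputable def xc149 : XT := (XT.nd (nat_lit 2418) (nat_lit 2812) (nat_lit 0) (XT.nd (nat_lit 1170) (nat_lit 1976) (nat_lit 0) (XT.nd (nat_lit 546) (nat_lit 1216) (nat_lit 0) (XT.nd (nat_lit 234) (nat_lit 532) (nat_lit 0) (XT.nd (nat_lit 78) (nat_lit 228) (nat_lit 0) (XT.lf (nat_lit 0) (nat_lit 880901612) (nat_lit 228) (nat_lit 9756797198) (nat_lit 304) (nat_lit 12351906778) (nat_lit 149) (nat_lit 5) (nat_lit 152) (nat_lit 5) (nat_lit 153) (nat_lit 5) (nat_lit 485) (nat_lit 423) (nat_lit 292)) (XT.nd (nat_lit 78) (nat_lit 228) (nat_lit 0) (XT.lf (nat_lit 0) (nat_lit 15387150749) (nat_lit 228) (nat_lit 1153845327) (nat_lit 304) (nat_lit 6874313344) (nat_lit 149) (nat_lit 5) (nat_lit 152) (nat_lit 5) (nat_lit 153) (nat_lit 5) (nat_lit 486) (nat_lit 423) (nat_lit 291)) (XT.lf (nat_lit 0) (nat_lit 6511101437) (nat_lit 228) (nat_lit 16236632150) (nat_lit 304) (nat_lit 1102261002) (nat_lit 146) (nat_lit 5) (nat_lit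 149) (nat_lit 5) (nat_lit 150) (nat_lit 5) (nat_lit 487) (nat_lit 423) (nat_lit 290)))) (XT.nd (nat_lit 156) (nat_lit 228) (nat_lit 0) (XT.nd (nat_lit 78) (nat_lit 228) (nat_lit 0) (XT.lf (nat_lit 0) (nat_lit 4831452311) (nat_lit 304) (nat_lit 2719671984) (nat_lit 76) (nat_lit 16742709765) (nat_lit 145) (nat_lit 5) (nat_lit 149) (nat_lit 5) (nat_lit 146) (nat_lit 5) (nat_lit 488) (nat_lit 423) (nat_lit 289)) (XT.lf (nat_lit 0) (nat_lit 11046377987) (nat_lit 304) (nat_lit 12205993177) (nat_lit 76) (nat_lit 1494529911) (nat_lit 142) (nat_lit 5) (nat_lit 146) (nat_lit 5) (nat_lit 143) (nat_lit 5) (nat_lit 489) (nat_lit 423) (nat_lit 288))) (XT.nd (nat_lit 78) (nat_lit 0) (nat_lit 0) (XT.lf (nat_lit 0) (nat_lit 3070905763) (nat_lit 228) (nat_lit 14498948001) (nat_lit 304) (nat_lit 7640043675) (nat_lit 139) (nat_lit 5) (nat_lit 142) (nat_lit 5) (nat_lit 143) (nat_lit 5) (nat_lit 490) (nat_lit 423) (nat_lit 287)) (XT.lf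 (nat_lit 0) (nat_lit 19040179664) (nat_lit 228) (nat_lit 5362328422) (nat_lit 304) (nat_lit 1280871781) (nat_lit 139) (nat_lit 5) (nat_lit 142) (nat_lit 5) (nat_lit 143) (nat_lit 5) (nat_lit 491) (nat_lit 423) (nat_lit 286))))) (XT.nd (nat_lit 312) (nat_lit 532) (nat_lit 0) (XT.nd (nat_lit 156) (nat_lit 380) (nat_lit 0) (XT.nd (nat_lit 78) (nat_lit 0) (nat_lit 0) (XT.lf (nat_lit 0) (nat_lit 5287615180) (nat_lit 304) (nat_lit 16772305785) (nat_lit 76) (nat_lit 4105985932) (nat_lit 135) (nat_lit 5) (nat_lit 139) (nat_lit 5) (nat_lit 136) (nat_lit 5) (nat_lit 492) (nat_lit 423) (nat_lit 285)) (XT.lf (nat_lit 0) (nat_lit 12138728868) (nat_lit 304) (nat_lit 695582832) (nat_lit 76) (nat_lit 13824878456) (nat_lit 135) (nat_lit 5) (nat_lit 139) (nat_lit 5) (nat_lit 136) (nat_lit 5) (nat_lit 493) (nat_lit 423) (nat_lit 284))) (XT.nd (nat_lit 78) (nat_lit 152) (nat_lit 0) (XT.lf (nat_lit 0) (nat_lit 16163378908) (nat_lit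 228) (nat_lit 3178123250) (nat_lit 304) (nat_lit 7821386322) (nat_lit 132) (nat_lit 5) (nat_lit 135) (nat_lit 5) (nat_lit 136) (nat_lit 5) (nat_lit 494) (nat_lit 423) (nat_lit 283)) (XT.lf (nat_lit 0) (nat_lit 5895262204) (nat_lit 152) (nat_lit 20984731082) (nat_lit 228) (nat_lit 798115772) (nat_lit 130) (nat_lit 5) (nat_lit 132) (nat_lit 5) (nat_lit 133) (nat_lit 5) (nat_lit 495) (nat_lit 423) (nat_lit 282)))) (XT.nd (nat_lit 156) (nat_lit 228) (nat_lit 0) (XT.nd (nat_lit 78) (nat_lit 228) (nat_lit 0) (XT.lf (nat_lit 0) (nat_lit 6444752028) (nat_lit 228) (nat_lit 4793091171) (nat_lit 76) (nat_lit 16965052843) (nat_lit 129) (nat_lit 5) (nat_lit 132) (nat_lit 5) (nat_lit 130) (nat_lit 5) (nat_lit 496) (nat_lit 423) (nat_lit 281)) (XT.lf (nat_lit 0) (nat_lit 12935770008) (nat_lit 228) (nat_lit 1068553696) (nat_lit 304) (nat_lit 14735402408) (nat_lit 126) (nat_lit 5) (nat_lit 129) (nat_lit 5) (nat_lit 130) (nat_lit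 5) (nat_lit 497) (nat_lit 423) (nat_lit 280))) (XT.nd (nat_lit 78) (nat_lit 76) (nat_lit 0) (XT.lf (nat_lit 0) (nat_lit 1935247247) (nat_lit 152) (nat_lit 20004500751) (nat_lit 228) (nat_lit 7348441427) (nat_lit 124) (nat_lit 5) (nat_lit 126) (nat_lit 5) (nat_lit 127) (nat_lit 5) (nat_lit 498) (nat_lit 423) (nat_lit 279)) (XT.lf (nat_lit 0) (nat_lit 417995625) (nat_lit 228) (nat_lit 9347578240) (nat_lit 76) (nat_lit 20082569746) (nat_lit 123) (nat_lit 5) (nat_lit 126) (nat_lit 5) (nat_lit 124) (nat_lit 5) (nat_lit 499) (nat_lit 423) (nat_lit 278)))))) (XT.nd (nat_lit 624) (nat_lit 912) (nat_lit 0) (XT.nd (nat_lit 312) (nat_lit 380) (nat_lit 0) (XT.nd (nat_lit 156) (nat_lit 456) (nat_lit 0) (XT.nd (nat_lit 78) (nat_lit 0) (nat_lit 0) (XT.lf (nat_lit 0) (nat_lit 8359546348) (nat_lit 304) (nat_lit 21137582240) (nat_lit 76) (nat_lit 922890899) (nat_lit 120) (nat_lit 5) (nat_lit 124) (nat_lit 5) (nat_lit 121) (nat_lit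 5) (nat_lit 500) (nat_lit 423) (nat_lit 277)) (XT.lf (nat_lit 0) (nat_lit 16722859556) (nat_lit 304) (nat_lit 2455672323) (nat_lit 76) (nat_lit 11825014554) (nat_lit 120) (nat_lit 5) (nat_lit 124) (nat_lit 5) (nat_lit 121) (nat_lit 5) (nat_lit 501) (nat_lit 423) (nat_lit 276))) (XT.nd (nat_lit 78) (nat_lit 304) (nat_lit 0) (XT.lf (nat_lit 0) (nat_lit 17106129706) (nat_lit 152) (nat_lit 8387124925) (nat_lit 228) (nat_lit 6106639345) (nat_lit 118) (nat_lit 5) (nat_lit 120) (nat_lit 5) (nat_lit 121) (nat_lit 5) (nat_lit 502) (nat_lit 423) (nat_lit 275)) (XT.lf (nat_lit 0) (nat_lit 2360995918) (nat_lit 304) (nat_lit 27083125101) (nat_lit 76) (nat_lit 2766539441) (nat_lit 114) (nat_lit 5) (nat_lit 118) (nat_lit 5) (nat_lit 115) (nat_lit 5) (nat_lit 503) (nat_lit 423) (nat_lit 274)))) (XT.nd (nat_lit 156) (nat_lit 228) (nat_lit 0) (XT.nd (nat_lit 78) (nat_lit 152) (nat_lit 0) (XT.lf (nat_lit 0) (nat_lit 11182585790)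 (nat_lit 304) (nat_lit 7360163622) (nat_lit 76) (nat_lit 14288507025) (nat_lit 114) (nat_lit 5) (nat_lit 118) (nat_lit 5) (nat_lit 115) (nat_lit 5) (nat_lit 504) (nat_lit 423) (nat_lit 273)) (XT.lf (nat_lit 0) (nat_lit 13198013236) (nat_lit 152) (nat_lit 7189730334) (nat_lit 228) (nat_lit 13079159352) (nat_lit 112) (nat_lit 5) (nat_lit 114) (nat_lit 5) (nat_lit 115) (nat_lit 5) (nat_lit 505) (nat_lit 423) (nat_lit 272))) (XT.nd (nat_lit 78) (nat_lit 76) (nat_lit 0) (XT.lf (nat_lit 0) (nat_lit 353230718) (nat_lit 152) (nat_lit 29629666945) (nat_lit 228) (nat_lit 4135306119) (nat_lit 110) (nat_lit 5) (nat_lit 112) (nat_lit 5) (nat_lit 113) (nat_lit 5) (nat_lit 506) (nat_lit 423) (nat_lit 271)) (XT.lf (nat_lit 0) (nat_lit 5247794766) (nat_lit 228) (nat_lit 12909484152) (nat_lit 76) (nat_lit 16622200908) (nat_lit 109) (nat_lit 5) (nat_lit 112) (nat_lit 5) (nat_lit 110) (nat_lit 5) (nat_lit 507) (nat_lit 423) (nat_lit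 270))))) (XT.nd (nat_lit 312) (nat_lit 380) (nat_lit 0) (XT.nd (nat_lit 156) (nat_lit 380) (nat_lit 0) (XT.nd (nat_lit 78) (nat_lit 0) (nat_lit 0) (XT.lf (nat_lit 0) (nat_lit 8686567940) (nat_lit 152) (nat_lit 6218547482) (nat_lit 228) (nat_lit 20551975359) (nat_lit 107) (nat_lit 5) (nat_lit 109) (nat_lit 5) (nat_lit 110) (nat_lit 5) (nat_lit 508) (nat_lit 423) (nat_lit 269)) (XT.lf (nat_lit 0) (nat_lit 25034613009) (nat_lit 228) (nat_lit 5029405316) (nat_lit 76) (nat_lit 6085538223) (nat_lit 107) (nat_lit 5) (nat_lit 110) (nat_lit 5) (nat_lit 108) (nat_lit 5) (nat_lit 509) (nat_lit 423) (nat_lit 268))) (XT.nd (nat_lit 78) (nat_lit 228) (nat_lit 0) (XT.lf (nat_lit 0) (nat_lit 17633161525) (nat_lit 152) (nat_lit 18058503885) (nat_lit 228) (nat_lit 1164420976) (nat_lit 105) (nat_lit 5) (nat_lit 107) (nat_lit 5) (nat_lit 108) (nat_lit 5) (nat_lit 510) (nat_lit 423) (nat_lit 267)) (XT.lf (nat_lit 0) (nat_lit 3462839809)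 (nat_lit 152) (nat_lit 5521696504) (nat_lit 228) (nat_lit 28594340406) (nat_lit 102) (nat_lit 5) (nat_lit 104) (nat_lit 5) (nat_lit 105) (nat_lit 5) (nat_lit 511) (nat_lit 423) (nat_lit 266)))) (XT.nd (nat_lit 156) (nat_lit 228) (nat_lit 0) (XT.nd (nat_lit 78) (nat_lit 152) (nat_lit 0) (XT.lf (nat_lit 0) (nat_lit 19674290691) (nat_lit 228) (nat_lit 11192148064) (nat_lit 76) (nat_lit 7448774355) (nat_lit 102) (nat_lit 5) (nat_lit 105) (nat_lit 5) (nat_lit 103) (nat_lit 5) (nat_lit 512) (nat_lit 423) (nat_lit 265)) (XT.lf (nat_lit 0) (nat_lit 12597652038) (nat_lit 152) (nat_lit 18255713842) (nat_lit 228) (nat_lit 8215215041) (nat_lit 100) (nat_lit 5) (nat_lit 102) (nat_lit 5) (nat_lit 103) (nat_lit 5) (nat_lit 513) (nat_lit 423) (nat_lit 264))) (XT.nd (nat_lit 78) (nat_lit 152) (nat_lit 0) (XT.lf (nat_lit 0) (nat_lit 2581039471) (nat_lit 228) (nat_lit 2548934737) (nat_lit 76) (nat_lit 34710637653) (nat_lit 99) (nat_lit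 5) (nat_lit 102) (nat_lit 5) (nat_lit 100) (nat_lit 5) (nat_lit 514) (nat_lit 423) (nat_lit 263)) (XT.lf (nat_lit 0) (nat_lit 13828333565) (nat_lit 228) (nat_lit 18276070940) (nat_lit 76) (nat_lit 8520191131) (nat_lit 97) (nat_lit 5) (nat_lit 100) (nat_lit 5) (nat_lit 98) (nat_lit 5) (nat_lit 515) (nat_lit 423) (nat_lit 262))))))) (XT.nd (nat_lit 1248) (nat_lit 1292) (nat_lit 0) (XT.nd (nat_lit 624) (nat_lit 684) (nat_lit 0) (XT.nd (nat_lit 312) (nat_lit 456) (nat_lit 0) (XT.nd (nat_lit 156) (nat_lit 228) (nat_lit 0) (XT.nd (nat_lit 78) (nat_lit 0) (nat_lit 0) (XT.lf (nat_lit 0) (nat_lit 6680521044) (nat_lit 152) (nat_lit 18866639551) (nat_lit 228) (nat_lit 15880915061) (nat_lit 95) (nat_lit 5) (nat_lit 97) (nat_lit 5) (nat_lit 98) (nat_lit 5) (nat_lit 516) (nat_lit 423) (nat_lit 261)) (XT.lf (nat_lit 0) (nat_lit 32747950958) (nat_lit 152) (nat_lit 5047345388) (nat_lit 228) (nat_lit 4455031563) (nat_lit 95) (nat_lit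 5) (nat_lit 97) (nat_lit 5) (nat_lit 98) (nat_lit 5) (nat_lit 517) (nat_lit 423) (nat_lit 260))) (XT.nd (nat_lit 78) (nat_lit 0) (nat_lit 0) (XT.lf (nat_lit 0) (nat_lit 7415736490) (nat_lit 228) (nat_lit 26436728002) (nat_lit 76) (nat_lit 9235329589) (nat_lit 92) (nat_lit 5) (nat_lit 95) (nat_lit 5) (nat_lit 93) (nat_lit 5) (nat_lit 518) (nat_lit 423) (nat_lit 259)) (XT.lf (nat_lit 0) (nat_lit 19693313435) (nat_lit 228) (nat_lit 270931431) (nat_lit 76) (nat_lit 23980609405) (nat_lit 92) (nat_lit 5) (nat_lit 95) (nat_lit 5) (nat_lit 93) (nat_lit 5) (nat_lit 519) (nat_lit 423) (nat_lit 258)))) (XT.nd (nat_lit 156) (nat_lit 152) (nat_lit 0) (XT.nd (nat_lit 78) (nat_lit 152) (nat_lit 0) (XT.lf (nat_lit 0) (nat_lit 27198646007) (nat_lit 152) (nat_lit 5395563867) (nat_lit 228) (nat_lit 12225766760) (nat_lit 90) (nat_lit 5) (nat_lit 92) (nat_lit 5) (nat_lit 93) (nat_lit 5) (nat_lit 520) (nat_lit 423) (nat_lit 257)) (XT.lf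 (nat_lit 0) (nat_lit 342992179) (nat_lit 152) (nat_lit 35854484100) (nat_lit 76) (nat_lit 9518269679) (nat_lit 88) (nat_lit 5) (nat_lit 90) (nat_lit 5) (nat_lit 89) (nat_lit 5) (nat_lit 521) (nat_lit 423) (nat_lit 256))) (XT.nd (nat_lit 78) (nat_lit 152) (nat_lit 0) (XT.lf (nat_lit 0) (nat_lit 13269787068) (nat_lit 152) (nat_lit 8291698099) (nat_lit 76) (nat_lit 25066470930) (nat_lit 88) (nat_lit 5) (nat_lit 90) (nat_lit 5) (nat_lit 89) (nat_lit 5) (nat_lit 522) (nat_lit 423) (nat_lit 255)) (XT.lf (nat_lit 0) (nat_lit 20486108193) (nat_lit 152) (nat_lit 6288964639) (nat_lit 228) (nat_lit 20786739218) (nat_lit 86) (nat_lit 5) (nat_lit 88) (nat_lit 5) (nat_lit 89) (nat_lit 5) (nat_lit 523) (nat_lit 423) (nat_lit 254))))) (XT.nd (nat_lit 312) (nat_lit 380) (nat_lit 0) (XT.nd (nat_lit 156) (nat_lit 152) (nat_lit 0) (XT.nd (nat_lit 78) (nat_lit 76) (nat_lit 0) (XT.lf (nat_lit 0) (nat_lit 1706111339) (nat_lit 76) (nat_lit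 39164906382) (nat_lit 152) (nat_lit 7647101058) (nat_lit 85) (nat_lit 5) (nat_lit 86) (nat_lit 5) (nat_lit 87) (nat_lit 4) (nat_lit 524) (nat_lit 423) (nat_lit 253)) (XT.lf (nat_lit 0) (nat_lit 6104031652) (nat_lit 152) (nat_lit 17721717276) (nat_lit 76) (nat_lit 25665702987) (nat_lit 84) (nat_lit 5) (nat_lit 86) (nat_lit 5) (nat_lit 85) (nat_lit 5) (nat_lit 525) (nat_lit 423) (nat_lit 252))) (XT.nd (nat_lit 78) (nat_lit 0) (nat_lit 0) (XT.lf (nat_lit 0) (nat_lit 12396150138) (nat_lit 152) (nat_lit 7830980362) (nat_lit 228) (nat_lit 30261189293) (nat_lit 82) (nat_lit 5) (nat_lit 84) (nat_lit 5) (nat_lit 85) (nat_lit 5) (nat_lit 526) (nat_lit 423) (nat_lit 251)) (XT.lf (nat_lit 0) (nat_lit 35031726090) (nat_lit 228) (nat_lit 7825082128) (nat_lit 76) (nat_lit 8650551481) (nat_lit 82) (nat_lit 5) (nat_lit 85) (nat_lit 5) (nat_lit 83) (nat_lit 4) (nat_lit 527) (nat_lit 423) (nat_lit 250)))) (XT.nd (nat_lit 156) (nat_lit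 76) (nat_lit 0) (XT.nd (nat_lit 78) (nat_lit 228) (nat_lit 0) (XT.lf (nat_lit 0) (nat_lit 23724433924) (nat_lit 76) (nat_lit 26855778395) (nat_lit 152) (nat_lit 1967765997) (nat_lit 81) (nat_lit 5) (nat_lit 82) (nat_lit 5) (nat_lit 83) (nat_lit 4) (nat_lit 528) (nat_lit 423) (nat_lit 249)) (XT.lf (nat_lit 0) (nat_lit 2679160817) (nat_lit 152) (nat_lit 10142707920) (nat_lit 228) (nat_lit 40791213244) (nat_lit 78) (nat_lit 5) (nat_lit 80) (nat_lit 5) (nat_lit 81) (nat_lit 5) (nat_lit 529) (nat_lit 423) (nat_lit 248))) (XT.nd (nat_lit 78) (nat_lit 76) (nat_lit 0) (XT.lf (nat_lit 0) (nat_lit 28371751650) (nat_lit 228) (nat_lit 19084970703) (nat_lit 76) (nat_lit 7242148728) (nat_lit 78) (nat_lit 5) (nat_lit 81) (nat_lit 5) (nat_lit 79) (nat_lit 4) (nat_lit 530) (nat_lit 423) (nat_lit 247)) (XT.lf (nat_lit 0) (nat_lit 13879156084) (nat_lit 76) (nat_lit 30737170209) (nat_lit 152) (nat_lit 11194061793) (nat_lit 77) (nat_lit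 5) (nat_lit 78) (nat_lit 5) (nat_lit 79) (nat_lit 4) (nat_lit 531) (nat_lit 423) (nat_lit 246)))))) (XT.nd (nat_lit 624) (nat_lit 608) (nat_lit 0) (XT.nd (nat_lit 312) (nat_lit 380) (nat_lit 0) (XT.nd (nat_lit 156) (nat_lit 76) (nat_lit 0) (XT.nd (nat_lit 78) (nat_lit 152) (nat_lit 0) (XT.lf (nat_lit 0) (nat_lit 4496258076) (nat_lit 152) (nat_lit 8780884309) (nat_lit 76) (nat_lit 43671171652) (nat_lit 76) (nat_lit 5) (nat_lit 78) (nat_lit 5) (nat_lit 77) (nat_lit 5) (nat_lit 532) (nat_lit 423) (nat_lit 245)) (XT.lf (nat_lit 0) (nat_lit 20723048435) (nat_lit 228) (nat_lit 32413411944) (nat_lit 76) (nat_lit 4971869985) (nat_lit 74) (nat_lit 5) (nat_lit 77) (nat_lit 5) (nat_lit 75) (nat_lit 4) (nat_lit 533) (nat_lit 423) (nat_lit 244))) (XT.nd (nat_lit 78) (nat_lit 0) (nat_lit 0) (XT.lf (nat_lit 0) (nat_lit 1980407172) (nat_lit 76) (nat_lit 35690818890) (nat_lit 152) (nat_lit 21624883691) (nat_lit 73) (nat_lit 5)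 (nat_lit 74) (nat_lit 5) (nat_lit 75) (nat_lit 4) (nat_lit 534) (nat_lit 423) (nat_lit 243)) (XT.lf (nat_lit 0) (nat_lit 38060175502) (nat_lit 76) (nat_lit 17389587481) (nat_lit 152) (nat_lit 5060102198) (nat_lit 73) (nat_lit 5) (nat_lit 74) (nat_lit 5) (nat_lit 75) (nat_lit 4) (nat_lit 535) (nat_lit 423) (nat_lit 242)))) (XT.nd (nat_lit 156) (nat_lit 152) (nat_lit 0) (XT.nd (nat_lit 78) (nat_lit 0) (nat_lit 0) (XT.lf (nat_lit 0) (nat_lit 11909319785) (nat_lit 228) (nat_lit 48166988058) (nat_lit 76) (nat_lit 1676007733) (nat_lit 70) (nat_lit 5) (nat_lit 73) (nat_lit 5) (nat_lit 71) (nat_lit 4) (nat_lit 536) (nat_lit 423) (nat_lit 241)) (XT.lf (nat_lit 0) (nat_lit 29681957162) (nat_lit 228) (nat_lit 12098291075) (nat_lit 76) (nat_lit 21238413243) (nat_lit 70) (nat_lit 5) (nat_lit 73) (nat_lit 5) (nat_lit 71) (nat_lit 4) (nat_lit 537) (nat_lit 423) (nat_lit 240))) (XT.nd (nat_lit 78) (nat_lit 76) (nat_lit 0) (XT.lf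 (nat_lit 0) (nat_lit 25541033601) (nat_lit 76) (nat_lit 22687129170) (nat_lit 152) (nat_lit 16087623384) (nat_lit 69) (nat_lit 5) (nat_lit 70) (nat_lit 5) (nat_lit 71) (nat_lit 4) (nat_lit 538) (nat_lit 423) (nat_lit 239)) (XT.lf (nat_lit 0) (nat_lit 1764425170) (nat_lit 152) (nat_lit 1117803260) (nat_lit 76) (nat_lit 62765564321) (nat_lit 68) (nat_lit 5) (nat_lit 70) (nat_lit 5) (nat_lit 69) (nat_lit 5) (nat_lit 539) (nat_lit 423) (nat_lit 238))))) (XT.nd (nat_lit 312) (nat_lit 228) (nat_lit 0) (XT.nd (nat_lit 156) (nat_lit 152) (nat_lit 0) (XT.nd (nat_lit 78) (nat_lit 76) (nat_lit 0) (XT.lf (nat_lit 0) (nat_lit 20364920385) (nat_lit 228) (nat_lit 28931311199) (nat_lit 76) (nat_lit 17702662607) (nat_lit 66) (nat_lit 5) (nat_lit 69) (nat_lit 5) (nat_lit 67) (nat_lit 4) (nat_lit 540) (nat_lit 423) (nat_lit 237)) (XT.lf (nat_lit 0) (nat_lit 10222523994) (nat_lit 76) (nat_lit 29434145934) (nat_lit 152) (nat_lit 28729861622)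 (nat_lit 65) (nat_lit 5) (nat_lit 66) (nat_lit 5) (nat_lit 67) (nat_lit 4) (nat_lit 541) (nat_lit 423) (nat_lit 236))) (XT.nd (nat_lit 78) (nat_lit 152) (nat_lit 0) (XT.lf (nat_lit 0) (nat_lit 51134571233) (nat_lit 76) (nat_lit 8679841789) (nat_lit 152) (nat_lit 9992767833) (nat_lit 65) (nat_lit 5) (nat_lit 66) (nat_lit 5) (nat_lit 67) (nat_lit 4) (nat_lit 542) (nat_lit 423) (nat_lit 235)) (XT.lf (nat_lit 0) (nat_lit 9459797896) (nat_lit 152) (nat_lit 49045756336) (nat_lit 76) (nat_lit 12752162849) (nat_lit 63) (nat_lit 5) (nat_lit 65) (nat_lit 5) (nat_lit 64) (nat_lit 4) (nat_lit 543) (nat_lit 423) (nat_lit 234)))) (XT.nd (nat_lit 156) (nat_lit 152) (nat_lit 0) (XT.nd (nat_lit 78) (nat_lit 76) (nat_lit 0) (XT.lf (nat_lit 0) (nat_lit 29566654959) (nat_lit 152) (nat_lit 8236314344) (nat_lit 76) (nat_lit 34937685223) (nat_lit 63) (nat_lit 5) (nat_lit 65) (nat_lit 5) (nat_lit 64) (nat_lit 4) (nat_lit 544) (nat_lit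 423) (nat_lit 233)) (XT.lf (nat_lit 0) (nat_lit 34460840943) (nat_lit 76) (nat_lit 16142471814) (nat_lit 152) (nat_lit 23654969538) (nat_lit 62) (nat_lit 5) (nat_lit 63) (nat_lit 5) (nat_lit 64) (nat_lit 4) (nat_lit 545) (nat_lit 423) (nat_lit 232))) (XT.nd (nat_lit 78) (nat_lit 76) (nat_lit 0) (XT.lf (nat_lit 0) (nat_lit 2773783944) (nat_lit 76) (nat_lit 69662577523) (nat_lit 76) (nat_lit 3380118745) (nat_lit 61) (nat_lit 4) (nat_lit 62) (nat_lit 5) (nat_lit 62) (nat_lit 4) (nat_lit 546) (nat_lit 423) (nat_lit 231)) (XT.lf (nat_lit 0) (nat_lit 17722461658) (nat_lit 152) (nat_lit 30312505579) (nat_lit 76) (nat_lit 29364578491) (nat_lit 60) (nat_lit 5) (nat_lit 62) (nat_lit 5) (nat_lit 61) (nat_lit 4) (nat_lit 547) (nat_lit 423) (nat_lit 230))))))))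
noncomputable def xc150 : XT := (XT.nd (nat_lit 54912) (nat_lit 0) (nat_lit 7828) (XT.nd (nat_lit 53664) (nat_lit 0) (nat_lit 15884) (XT.nd (nat_lit 53040) (nat_lit 0) (nat_lit 20748) (XT.nd (nat_lit 234) (nat_lit 0) (nat_lit 0) (XT.nd (nat_lit 78) (nat_lit 152) (nat_lit 0) (XT.lf (nat_lit 0) (nat_lit 13929158007) (nat_lit 76) (nat_lit 25590404164) (nat_lit 152) (nat_lit 39505655697) (nat_lit 59) (nat_lit 5) (nat_lit 60) (nat_lit 5) (nat_lit 61) (nat_lit 4) (nat_lit 548) (nat_lit 423) (nat_lit 229)) (XT.nd (nat_lit 78) (nat_lit 152) (nat_lit 0) (XT.lf (nat_lit 0) (nat_lit 60110759825) (nat_lit 76) (nat_lit 2161444905) (nat_lit 152) (nat_lit 18418406614) (nat_lit 59) (nat_lit 5) (nat_lit 60) (nat_lit 5) (nat_lit 61) (nat_lit 4) (nat_lit 549) (nat_lit 423) (nat_lit 228)) (XT.lf (nat_lit 0) (nat_lit 3693940704) (nat_lit 152) (nat_lit 56877898379) (nat_lit 76) (nat_lit 21819468391) (nat_lit 57) (nat_lit 5) (nat_lit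 59) (nat_lit 5) (nat_lit 58) (nat_lit 4) (nat_lit 550) (nat_lit 423) (nat_lit 227)))) (XT.nd (nat_lit 52650) (nat_lit 0) (nat_lit 21584) (XT.nd (nat_lit 52572) (nat_lit 0) (nat_lit 21584) (XT.lf (nat_lit 0) (nat_lit 26326367202) (nat_lit 152) (nat_lit 10939803734) (nat_lit 76) (nat_lit 46864575764) (nat_lit 57) (nat_lit 5) (nat_lit 59) (nat_lit 5) (nat_lit 58) (nat_lit 4) (nat_lit 551) (nat_lit 423) (nat_lit 226)) (XT.lf (nat_lit 0) (nat_lit 103850405) (nat_lit 1140) (nat_lit 2172053637) (nat_lit 1140) (nat_lit 2172053637) (nat_lit 341) (nat_lit 3) (nat_lit 356) (nat_lit 3) (nat_lit 356) (nat_lit 5) (nat_lit 424) (nat_lit 424) (nat_lit 352))) (XT.nd (nat_lit 78) (nat_lit 0) (nat_lit 76) (XT.lf (nat_lit 76) (nat_lit 72011595) (nat_lit 0) (nat_lit 1066345781) (nat_lit 1140) (nat_lit 7863076789) (nat_lit 342) (nat_lit 5) (nat_lit 341) (nat_lit 3) (nat_lit 356) (nat_lit 5) (nat_lit 425) (nat_lit 424) (nat_lit 351))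 (XT.lf (nat_lit 0) (nat_lit 2129305933) (nat_lit 1064) (nat_lit 4444094518) (nat_lit 1140) (nat_lit 2535750572) (nat_lit 342) (nat_lit 5) (nat_lit 356) (nat_lit 5) (nat_lit 357) (nat_lit 5) (nat_lit 426) (nat_lit 424) (nat_lit 350))))) (XT.nd (nat_lit 312) (nat_lit 912) (nat_lit 0) (XT.nd (nat_lit 156) (nat_lit 0) (nat_lit 76) (XT.nd (nat_lit 78) (nat_lit 0) (nat_lit 76) (XT.lf (nat_lit 76) (nat_lit 148460182) (nat_lit 0) (nat_lit 2978373599) (nat_lit 1140) (nat_lit 6093963629) (nat_lit 343) (nat_lit 5) (nat_lit 342) (nat_lit 5) (nat_lit 357) (nat_lit 5) (nat_lit 427) (nat_lit 424) (nat_lit 349)) (XT.lf (nat_lit 0) (nat_lit 4172417195) (nat_lit 1064) (nat_lit 4392618762) (nat_lit 1140) (nat_lit 770216789) (nat_lit 343) (nat_lit 5) (nat_lit 357) (nat_lit 5) (nat_lit 358) (nat_lit 5) (nat_lit 428) (nat_lit 424) (nat_lit 348))) (XT.nd (nat_lit 78) (nat_lit 0) (nat_lit 0) (XT.lf (nat_lit 76) (nat_lit 385471656) (nat_lit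 0) (nat_lit 4863929902) (nat_lit 1140) (nat_lit 4203742525) (nat_lit 344) (nat_lit 5) (nat_lit 343) (nat_lit 5) (nat_lit 358) (nat_lit 5) (nat_lit 429) (nat_lit 424) (nat_lit 347)) (XT.lf (nat_lit 76) (nat_lit 5377093067) (nat_lit 0) (nat_lit 993573414) (nat_lit 1140) (nat_lit 3203549798) (nat_lit 344) (nat_lit 5) (nat_lit 343) (nat_lit 5) (nat_lit 358) (nat_lit 5) (nat_lit 430) (nat_lit 424) (nat_lit 346)))) (XT.nd (nat_lit 156) (nat_lit 1064) (nat_lit 0) (XT.nd (nat_lit 78) (nat_lit 0) (nat_lit 0) (XT.lf (nat_lit 76) (nat_lit 785764923) (nat_lit 0) (nat_lit 6744801610) (nat_lit 1140) (nat_lit 2168207347) (nat_lit 345) (nat_lit 5) (nat_lit 344) (nat_lit 5) (nat_lit 359) (nat_lit 5) (nat_lit 431) (nat_lit 424) (nat_lit 345)) (XT.lf (nat_lit 76) (nat_lit 5974001764) (nat_lit 0) (nat_lit 2772778637) (nat_lit 1140) (nat_lit 1079645366) (nat_lit 345) (nat_lit 5) (nat_lit 344) (nat_lit 5) (nat_lit 359) (nat_lit 5) (nat_lit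 432) (nat_lit 424) (nat_lit 344))) (XT.nd (nat_lit 78) (nat_lit 0) (nat_lit 0) (XT.lf (nat_lit 0) (nat_lit 36783389) (nat_lit 1140) (nat_lit 8605225803) (nat_lit 1216) (nat_lit 1316008280) (nat_lit 330) (nat_lit 5) (nat_lit 345) (nat_lit 5) (nat_lit 346) (nat_lit 5) (nat_lit 433) (nat_lit 424) (nat_lit 343)) (XT.lf (nat_lit 0) (nat_lit 1202505473) (nat_lit 1140) (nat_lit 3358713574) (nat_lit 1216) (nat_lit 5530894990) (nat_lit 330) (nat_lit 5) (nat_lit 345) (nat_lit 5) (nat_lit 346) (nat_lit 5) (nat_lit 434) (nat_lit 424) (nat_lit 342)))))) (XT.nd (nat_lit 624) (nat_lit 2660) (nat_lit 0) (XT.nd (nat_lit 312) (nat_lit 2204) (nat_lit 0) (XT.nd (nat_lit 156) (nat_lit 0) (nat_lit 76) (XT.nd (nat_lit 78) (nat_lit 0) (nat_lit 76) (XT.lf (nat_lit 76) (nat_lit 2065172139) (nat_lit 0) (nat_lit 329490347) (nat_lit 1216) (nat_lit 7835829835) (nat_lit 331) (nat_lit 5) (nat_lit 330) (nat_lit 5) (nat_lit 346) (nat_lit 5) (nat_lit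 435) (nat_lit 424) (nat_lit 341)) (XT.lf (nat_lit 0) (nat_lit 3667885854) (nat_lit 1140) (nat_lit 2711476822) (nat_lit 1216) (nat_lit 3992302871) (nat_lit 331) (nat_lit 5) (nat_lit 346) (nat_lit 5) (nat_lit 347) (nat_lit 5) (nat_lit 436) (nat_lit 424) (nat_lit 340))) (XT.nd (nat_lit 78) (nat_lit 0) (nat_lit 76) (XT.lf (nat_lit 76) (nat_lit 2939665276) (nat_lit 0) (nat_lit 2044285421) (nat_lit 1216) (nat_lit 5532986493) (nat_lit 332) (nat_lit 5) (nat_lit 331) (nat_lit 5) (nat_lit 347) (nat_lit 5) (nat_lit 437) (nat_lit 424) (nat_lit 339)) (XT.lf (nat_lit 0) (nat_lit 6364191227) (nat_lit 1140) (nat_lit 1894430049) (nat_lit 1216) (nat_lit 2407207385) (nat_lit 332) (nat_lit 5) (nat_lit 347) (nat_lit 5) (nat_lit 348) (nat_lit 5) (nat_lit 438) (nat_lit 424) (nat_lit 338)))) (XT.nd (nat_lit 156) (nat_lit 2356) (nat_lit 0) (XT.nd (nat_lit 78) (nat_lit 0) (nat_lit 76) (XT.lf (nat_lit 76) (nat_lit 3996183145) (nat_lit 0)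 (nat_lit 3822845383) (nat_lit 1216) (nat_lit 2999165078) (nat_lit 333) (nat_lit 5) (nat_lit 332) (nat_lit 5) (nat_lit 348) (nat_lit 5) (nat_lit 439) (nat_lit 424) (nat_lit 337)) (XT.lf (nat_lit 0) (nat_lit 9319128626) (nat_lit 1140) (nat_lit 900614954) (nat_lit 76) (nat_lit 755339736) (nat_lit 333) (nat_lit 5) (nat_lit 348) (nat_lit 5) (nat_lit 334) (nat_lit 5) (nat_lit 440) (nat_lit 424) (nat_lit 336))) (XT.nd (nat_lit 78) (nat_lit 1292) (nat_lit 0) (XT.lf (nat_lit 0) (nat_lit 5242436725) (nat_lit 1140) (nat_lit 5685890112) (nat_lit 1216) (nat_lit 206432307) (nat_lit 318) (nat_lit 5) (nat_lit 333) (nat_lit 5) (nat_lit 334) (nat_lit 5) (nat_lit 441) (nat_lit 424) (nat_lit 335)) (XT.lf (nat_lit 0) (nat_lit 261217621) (nat_lit 1216) (nat_lit 988072142) (nat_lit 1292) (nat_lit 10049932017) (nat_lit 301) (nat_lit 5) (nat_lit 317) (nat_lit 5) (nat_lit 318) (nat_lit 5) (nat_lit 442) (nat_lit 424) (nat_lit 334))))) (XT.nd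 (nat_lit 312) (nat_lit 1216) (nat_lit 0) (XT.nd (nat_lit 156) (nat_lit 608) (nat_lit 0) (XT.nd (nat_lit 78) (nat_lit 836) (nat_lit 0) (XT.lf (nat_lit 0) (nat_lit 2818289645) (nat_lit 1292) (nat_lit 4807570149) (nat_lit 76) (nat_lit 3840486614) (nat_lit 301) (nat_lit 5) (nat_lit 318) (nat_lit 5) (nat_lit 302) (nat_lit 5) (nat_lit 443) (nat_lit 424) (nat_lit 333)) (XT.lf (nat_lit 0) (nat_lit 1610805760) (nat_lit 836) (nat_lit 2826150917) (nat_lit 912) (nat_lit 7201452207) (nat_lit 290) (nat_lit 5) (nat_lit 301) (nat_lit 5) (nat_lit 302) (nat_lit 5) (nat_lit 444) (nat_lit 424) (nat_lit 332))) (XT.nd (nat_lit 78) (nat_lit 608) (nat_lit 0) (XT.lf (nat_lit 0) (nat_lit 6151377994) (nat_lit 912) (nat_lit 3535833249) (nat_lit 76) (nat_lit 2127008130) (nat_lit 290) (nat_lit 5) (nat_lit 302) (nat_lit 5) (nat_lit 291) (nat_lit 5) (nat_lit 445) (nat_lit 424) (nat_lit 331)) (XT.lf (nat_lit 0) (nat_lit 3163958941) (nat_lit 608)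 (nat_lit 4790126277) (nat_lit 684) (nat_lit 4040115267) (nat_lit 282) (nat_lit 5) (nat_lit 290) (nat_lit 5) (nat_lit 291) (nat_lit 5) (nat_lit 446) (nat_lit 424) (nat_lit 330)))) (XT.nd (nat_lit 156) (nat_lit 608) (nat_lit 0) (XT.nd (nat_lit 78) (nat_lit 608) (nat_lit 0) (XT.lf (nat_lit 0) (nat_lit 9828270509) (nat_lit 684) (nat_lit 2065009246) (nat_lit 76) (nat_lit 285781224) (nat_lit 282) (nat_lit 5) (nat_lit 291) (nat_lit 5) (nat_lit 283) (nat_lit 5) (nat_lit 447) (nat_lit 424) (nat_lit 329)) (XT.lf (nat_lit 0) (nat_lit 4931665751) (nat_lit 608) (nat_lit 6901361396) (nat_lit 684) (nat_lit 534211566) (nat_lit 274) (nat_lit 5) (nat_lit 282) (nat_lit 5) (nat_lit 283) (nat_lit 5) (nat_lit 448) (nat_lit 424) (nat_lit 328))) (XT.nd (nat_lit 78) (nat_lit 532) (nat_lit 0) (XT.lf (nat_lit 0) (nat_lit 1311551997) (nat_lit 684) (nat_lit 413449769) (nat_lit 76) (nat_lit 10835652956) (nat_lit 273) (nat_lit 5) (nat_lit 282)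 (nat_lit 5) (nat_lit 274) (nat_lit 5) (nat_lit 449) (nat_lit 424) (nat_lit 327)) (XT.lf (nat_lit 0) (nat_lit 3284245396) (nat_lit 608) (nat_lit 5864353571) (nat_lit 76) (nat_lit 3608648391) (nat_lit 266) (nat_lit 5) (nat_lit 274) (nat_lit 5) (nat_lit 267) (nat_lit 5) (nat_lit 450) (nat_lit 424) (nat_lit 326))))))) (XT.nd (nat_lit 1170) (nat_lit 3572) (nat_lit 0) (XT.nd (nat_lit 546) (nat_lit 2280) (nat_lit 0) (XT.nd (nat_lit 234) (nat_lit 1064) (nat_lit 0) (XT.nd (nat_lit 78) (nat_lit 532) (nat_lit 0) (XT.lf (nat_lit 0) (nat_lit 1458315340) (nat_lit 608) (nat_lit 3873804039) (nat_lit 684) (nat_lit 7627139998) (nat_lit 258) (nat_lit 5) (nat_lit 266) (nat_lit 5) (nat_lit 267) (nat_lit 5) (nat_lit 451) (nat_lit 424) (nat_lit 325)) (XT.nd (nat_lit 78) (nat_lit 532) (nat_lit 0) (XT.lf (nat_lit 0) (nat_lit 7497266654) (nat_lit 684) (nat_lit 4080923089) (nat_lit 76) (nat_lit 1587468455) (nat_lit 258) (nat_lit 5) (nat_lit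 267) (nat_lit 5) (nat_lit 259) (nat_lit 5) (nat_lit 452) (nat_lit 424) (nat_lit 324)) (XT.lf (nat_lit 0) (nat_lit 3572997039) (nat_lit 532) (nat_lit 6208667712) (nat_lit 608) (nat_lit 3594956845) (nat_lit 251) (nat_lit 5) (nat_lit 258) (nat_lit 5) (nat_lit 259) (nat_lit 5) (nat_lit 453) (nat_lit 424) (nat_lit 323)))) (XT.nd (nat_lit 156) (nat_lit 456) (nat_lit 0) (XT.nd (nat_lit 78) (nat_lit 608) (nat_lit 0) (XT.lf (nat_lit 0) (nat_lit 11520317456) (nat_lit 532) (nat_lit 637427747) (nat_lit 608) (nat_lit 1435475646) (nat_lit 251) (nat_lit 5) (nat_lit 258) (nat_lit 5) (nat_lit 259) (nat_lit 5) (nat_lit 454) (nat_lit 424) (nat_lit 322)) (XT.lf (nat_lit 0) (nat_lit 862824475) (nat_lit 608) (nat_lit 7885372620) (nat_lit 76) (nat_lit 5065212093) (nat_lit 243) (nat_lit 5) (nat_lit 251) (nat_lit 5) (nat_lit 244) (nat_lit 5) (nat_lit 455) (nat_lit 424) (nat_lit 321))) (XT.nd (nat_lit 78) (nat_lit 0) (nat_lit 0) (XT.lf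 (nat_lit 0) (nat_lit 133845386) (nat_lit 456) (nat_lit 3078714749) (nat_lit 532) (nat_lit 10826877857) (nat_lit 237) (nat_lit 5) (nat_lit 243) (nat_lit 5) (nat_lit 244) (nat_lit 5) (nat_lit 456) (nat_lit 424) (nat_lit 320)) (XT.lf (nat_lit 0) (nat_lit 5722633997) (nat_lit 532) (nat_lit 5762153629) (nat_lit 76) (nat_lit 2784765948) (nat_lit 237) (nat_lit 5) (nat_lit 244) (nat_lit 5) (nat_lit 238) (nat_lit 5) (nat_lit 457) (nat_lit 424) (nat_lit 319))))) (XT.nd (nat_lit 312) (nat_lit 1292) (nat_lit 0) (XT.nd (nat_lit 156) (nat_lit 532) (nat_lit 0) (XT.nd (nat_lit 78) (nat_lit 0) (nat_lit 0) (XT.lf (nat_lit 0) (nat_lit 2626702690) (nat_lit 456) (nat_lit 5720429422) (nat_lit 532) (nat_lit 6158268113) (nat_lit 231) (nat_lit 5) (nat_lit 237) (nat_lit 5) (nat_lit 238) (nat_lit 5) (nat_lit 458) (nat_lit 424) (nat_lit 318)) (XT.lf (nat_lit 0) (nat_lit 11094868885) (nat_lit 532) (nat_lit 3383821661) (nat_lit 76) (nat_lit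 268297844) (nat_lit 231) (nat_lit 5) (nat_lit 238) (nat_lit 5) (nat_lit 232) (nat_lit 5) (nat_lit 459) (nat_lit 424) (nat_lit 317))) (XT.nd (nat_lit 78) (nat_lit 76) (nat_lit 0) (XT.lf (nat_lit 0) (nat_lit 5395195189) (nat_lit 456) (nat_lit 8622474994) (nat_lit 532) (nat_lit 975376232) (nat_lit 225) (nat_lit 5) (nat_lit 231) (nat_lit 5) (nat_lit 232) (nat_lit 5) (nat_lit 460) (nat_lit 424) (nat_lit 316)) (XT.lf (nat_lit 0) (nat_lit 1765665947) (nat_lit 532) (nat_lit 775450196) (nat_lit 76) (nat_lit 12704294463) (nat_lit 224) (nat_lit 5) (nat_lit 231) (nat_lit 5) (nat_lit 225) (nat_lit 5) (nat_lit 461) (nat_lit 424) (nat_lit 315)))) (XT.nd (nat_lit 156) (nat_lit 456) (nat_lit 0) (XT.nd (nat_lit 78) (nat_lit 380) (nat_lit 0) (XT.lf (nat_lit 0) (nat_lit 4671905048) (nat_lit 532) (nat_lit 7091818962) (nat_lit 76) (nat_lit 3738255993) (nat_lit 218) (nat_lit 5) (nat_lit 225) (nat_lit 5) (nat_lit 219) (nat_lit 5) (nat_lit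 462) (nat_lit 424) (nat_lit 314)) (XT.lf (nat_lit 0) (nat_lit 2118185831) (nat_lit 380) (nat_lit 5585517852) (nat_lit 456) (nat_lit 8061392683) (nat_lit 213) (nat_lit 5) (nat_lit 218) (nat_lit 5) (nat_lit 219) (nat_lit 5) (nat_lit 463) (nat_lit 424) (nat_lit 313))) (XT.nd (nat_lit 78) (nat_lit 456) (nat_lit 0) (XT.lf (nat_lit 0) (nat_lit 10891417705) (nat_lit 456) (nat_lit 4311632784) (nat_lit 76) (nat_lit 831107916) (nat_lit 213) (nat_lit 5) (nat_lit 219) (nat_lit 5) (nat_lit 214) (nat_lit 5) (nat_lit 464) (nat_lit 424) (nat_lit 312)) (XT.lf (nat_lit 0) (nat_lit 5333691270) (nat_lit 456) (nat_lit 8933236943) (nat_lit 532) (nat_lit 2041600135) (nat_lit 207) (nat_lit 5) (nat_lit 213) (nat_lit 5) (nat_lit 214) (nat_lit 5) (nat_lit 465) (nat_lit 424) (nat_lit 311)))))) (XT.nd (nat_lit 624) (nat_lit 1672) (nat_lit 0) (XT.nd (nat_lit 312) (nat_lit 1064) (nat_lit 0) (XT.nd (nat_lit 156) (nat_lit 380) (nat_lit 0) (XT.nd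 (nat_lit 78) (nat_lit 380) (nat_lit 0) (XT.lf (nat_lit 0) (nat_lit 1159745672) (nat_lit 532) (nat_lit 1263465151) (nat_lit 76) (nat_lit 14166697271) (nat_lit 206) (nat_lit 5) (nat_lit 213) (nat_lit 5) (nat_lit 207) (nat_lit 5) (nat_lit 466) (nat_lit 424) (nat_lit 310)) (XT.lf (nat_lit 0) (nat_lit 4529671414) (nat_lit 456) (nat_lit 8045291437) (nat_lit 76) (nat_lit 4300753665) (nat_lit 201) (nat_lit 5) (nat_lit 207) (nat_lit 5) (nat_lit 202) (nat_lit 5) (nat_lit 467) (nat_lit 424) (nat_lit 309))) (XT.nd (nat_lit 78) (nat_lit 0) (nat_lit 0) (XT.lf (nat_lit 0) (nat_lit 2081281837) (nat_lit 380) (nat_lit 5962591990) (nat_lit 456) (nat_lit 9124930881) (nat_lit 196) (nat_lit 5) (nat_lit 201) (nat_lit 5) (nat_lit 202) (nat_lit 5) (nat_lit 468) (nat_lit 424) (nat_lit 308)) (XT.lf (nat_lit 0) (nat_lit 11740172651) (nat_lit 456) (nat_lit 4819337948) (nat_lit 76) (nat_lit 908875697) (nat_lit 196) (nat_lit 5) (nat_lit 202)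 (nat_lit 5) (nat_lit 197) (nat_lit 5) (nat_lit 469) (nat_lit 424) (nat_lit 307)))) (XT.nd (nat_lit 156) (nat_lit 684) (nat_lit 0) (XT.nd (nat_lit 78) (nat_lit 76) (nat_lit 0) (XT.lf (nat_lit 0) (nat_lit 5792733629) (nat_lit 304) (nat_lit 9856211069) (nat_lit 380) (nat_lit 2124963939) (nat_lit 192) (nat_lit 5) (nat_lit 196) (nat_lit 5) (nat_lit 197) (nat_lit 5) (nat_lit 470) (nat_lit 424) (nat_lit 306)) (XT.lf (nat_lit 0) (nat_lit 1591521247) (nat_lit 380) (nat_lit 1299151705) (nat_lit 76) (nat_lit 15196384184) (nat_lit 191) (nat_lit 5) (nat_lit 196) (nat_lit 5) (nat_lit 192) (nat_lit 5) (nat_lit 471) (nat_lit 424) (nat_lit 305))) (XT.nd (nat_lit 78) (nat_lit 304) (nat_lit 0) (XT.lf (nat_lit 0) (nat_lit 5501145471) (nat_lit 456) (nat_lit 8591858612) (nat_lit 76) (nat_lit 4312234967) (nat_lit 186) (nat_lit 5) (nat_lit 192) (nat_lit 5) (nat_lit 187) (nat_lit 5) (nat_lit 472) (nat_lit 424) (nat_lit 304)) (XT.lf (nat_lit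 0) (nat_lit 2556621292) (nat_lit 304) (nat_lit 7025360633) (nat_lit 380) (nat_lit 9149367533) (nat_lit 182) (nat_lit 5) (nat_lit 186) (nat_lit 5) (nat_lit 187) (nat_lit 5) (nat_lit 473) (nat_lit 424) (nat_lit 303))))) (XT.nd (nat_lit 312) (nat_lit 988) (nat_lit 0) (XT.nd (nat_lit 156) (nat_lit 380) (nat_lit 0) (XT.nd (nat_lit 78) (nat_lit 304) (nat_lit 0) (XT.lf (nat_lit 0) (nat_lit 13862929542) (nat_lit 380) (nat_lit 4870271756) (nat_lit 76) (nat_lit 331712018) (nat_lit 182) (nat_lit 5) (nat_lit 187) (nat_lit 5) (nat_lit 183) (nat_lit 5) (nat_lit 474) (nat_lit 424) (nat_lit 302)) (XT.lf (nat_lit 0) (nat_lit 6819346790) (nat_lit 304) (nat_lit 11576050616) (nat_lit 380) (nat_lit 1009394627) (nat_lit 178) (nat_lit 5) (nat_lit 182) (nat_lit 5) (nat_lit 183) (nat_lit 5) (nat_lit 475) (nat_lit 424) (nat_lit 301))) (XT.nd (nat_lit 78) (nat_lit 304) (nat_lit 0) (XT.lf (nat_lit 0) (nat_lit 3282117201) (nat_lit 380) (nat_lit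 843747486) (nat_lit 76) (nat_lit 15626917399) (nat_lit 177) (nat_lit 5) (nat_lit 182) (nat_lit 5) (nat_lit 178) (nat_lit 5) (nat_lit 476) (nat_lit 424) (nat_lit 300)) (XT.lf (nat_lit 0) (nat_lit 7815753573) (nat_lit 380) (nat_lit 8696669092) (nat_lit 76) (nat_lit 3594479982) (nat_lit 173) (nat_lit 5) (nat_lit 178) (nat_lit 5) (nat_lit 174) (nat_lit 5) (nat_lit 477) (nat_lit 424) (nat_lit 299)))) (XT.nd (nat_lit 156) (nat_lit 684) (nat_lit 0) (XT.nd (nat_lit 78) (nat_lit 0) (nat_lit 0) (XT.lf (nat_lit 0) (nat_lit 3589688484) (nat_lit 304) (nat_lit 8968190960) (nat_lit 380) (nat_lit 7911593590) (nat_lit 169) (nat_lit 5) (nat_lit 173) (nat_lit 5) (nat_lit 174) (nat_lit 5) (nat_lit 478) (nat_lit 424) (nat_lit 298)) (XT.lf (nat_lit 0) (nat_lit 16405914682) (nat_lit 304) (nat_lit 1112864158) (nat_lit 380) (nat_lit 3321847004) (nat_lit 169) (nat_lit 5) (nat_lit 173) (nat_lit 5) (nat_lit 174) (nat_lit 5) (nat_lit 479)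 (nat_lit 424) (nat_lit 297))) (XT.nd (nat_lit 78) (nat_lit 304) (nat_lit 0) (XT.lf (nat_lit 0) (nat_lit 1516939733) (nat_lit 380) (nat_lit 12768620599) (nat_lit 76) (nat_lit 6932784852) (nat_lit 164) (nat_lit 5) (nat_lit 169) (nat_lit 5) (nat_lit 165) (nat_lit 5) (nat_lit 480) (nat_lit 424) (nat_lit 296)) (XT.lf (nat_lit 0) (nat_lit 147237911) (nat_lit 304) (nat_lit 6333565649) (nat_lit 380) (nat_lit 15124206031) (nat_lit 160) (nat_lit 5) (nat_lit 164) (nat_lit 5) (nat_lit 165) (nat_lit 5) (nat_lit 481) (nat_lit 424) (nat_lit 295))))))))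
noncomputable def xc151 : XT := (XT.nd (nat_lit 2418) (nat_lit 2964) (nat_lit 0) (XT.nd (nat_lit 1170) (nat_lit 2128) (nat_lit 0) (XT.nd (nat_lit 546) (nat_lit 1216) (nat_lit 0) (XT.nd (nat_lit 234) (nat_lit 760) (nat_lit 0) (XT.nd (nat_lit 78) (nat_lit 304) (nat_lit 0) (XT.lf (nat_lit 0) (nat_lit 11730772100) (nat_lit 380) (nat_lit 8323152259) (nat_lit 76) (nat_lit 1945234442) (nat_lit 160) (nat_lit 5) (nat_lit 165) (nat_lit 5) (nat_lit 161) (nat_lit 5) (nat_lit 482) (nat_lit 424) (nat_lit 294)) (XT.nd (nat_lit 78) (nat_lit 76) (nat_lit 0) (XT.lf (nat_lit 0) (nat_lit 5228379233) (nat_lit 228) (nat_lit 12012267838) (nat_lit 304) (nat_lit 5161413714) (nat_lit 157) (nat_lit 5) (nat_lit 160) (nat_lit 5) (nat_lit 161) (nat_lit 5) (nat_lit 483) (nat_lit 424) (nat_lit 293)) (XT.lf (nat_lit 0) (nat_lit 171208736) (nat_lit 304) (nat_lit 3475727798) (nat_lit 76) (nat_lit 19167854275) (nat_lit 156) (nat_lit 5) (nat_lit 160)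 (nat_lit 5) (nat_lit 157) (nat_lit 5) (nat_lit 484) (nat_lit 424) (nat_lit 292)))) (XT.nd (nat_lit 156) (nat_lit 228) (nat_lit 0) (XT.nd (nat_lit 78) (nat_lit 228) (nat_lit 0) (XT.lf (nat_lit 0) (nat_lit 5702697678) (nat_lit 380) (nat_lit 12508476953) (nat_lit 76) (nat_lit 5022916671) (nat_lit 152) (nat_lit 5) (nat_lit 157) (nat_lit 5) (nat_lit 153) (nat_lit 5) (nat_lit 485) (nat_lit 424) (nat_lit 291)) (XT.lf (nat_lit 0) (nat_lit 1740739949) (nat_lit 228) (nat_lit 9737561510) (nat_lit 304) (nat_lit 12185324707) (nat_lit 149) (nat_lit 5) (nat_lit 152) (nat_lit 5) (nat_lit 153) (nat_lit 5) (nat_lit 486) (nat_lit 424) (nat_lit 290))) (XT.nd (nat_lit 78) (nat_lit 228) (nat_lit 0) (XT.lf (nat_lit 0) (nat_lit 16657902445) (nat_lit 228) (nat_lit 885606702) (nat_lit 304) (nat_lit 6559048304) (nat_lit 149) (nat_lit 5) (nat_lit 152) (nat_lit 5) (nat_lit 153) (nat_lit 5) (nat_lit 487) (nat_lit 424) (nat_lit 289)) (XT.lf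 (nat_lit 0) (nat_lit 7519818382) (nat_lit 228) (nat_lit 16412529458) (nat_lit 304) (nat_lit 618059027) (nat_lit 146) (nat_lit 5) (nat_lit 149) (nat_lit 5) (nat_lit 150) (nat_lit 5) (nat_lit 488) (nat_lit 424) (nat_lit 288))))) (XT.nd (nat_lit 312) (nat_lit 684) (nat_lit 0) (XT.nd (nat_lit 156) (nat_lit 228) (nat_lit 0) (XT.nd (nat_lit 78) (nat_lit 228) (nat_lit 0) (XT.lf (nat_lit 0) (nat_lit 5468799773) (nat_lit 304) (nat_lit 2001748408) (nat_lit 76) (nat_lit 17537307960) (nat_lit 145) (nat_lit 5) (nat_lit 149) (nat_lit 5) (nat_lit 146) (nat_lit 5) (nat_lit 489) (nat_lit 424) (nat_lit 287)) (XT.lf (nat_lit 0) (nat_lit 11866382916) (nat_lit 304) (nat_lit 11768848716) (nat_lit 76) (nat_lit 1839397849) (nat_lit 142) (nat_lit 5) (nat_lit 146) (nat_lit 5) (nat_lit 143) (nat_lit 5) (nat_lit 490) (nat_lit 424) (nat_lit 286))) (XT.nd (nat_lit 78) (nat_lit 0) (nat_lit 0) (XT.lf (nat_lit 0) (nat_lit 3958481466) (nat_lit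 228) (nat_lit 14620496376) (nat_lit 304) (nat_lit 7372736038) (nat_lit 139) (nat_lit 5) (nat_lit 142) (nat_lit 5) (nat_lit 143) (nat_lit 5) (nat_lit 491) (nat_lit 424) (nat_lit 285)) (XT.lf (nat_lit 0) (nat_lit 20383665179) (nat_lit 228) (nat_lit 5218906948) (nat_lit 304) (nat_lit 837250413) (nat_lit 139) (nat_lit 5) (nat_lit 142) (nat_lit 5) (nat_lit 143) (nat_lit 5) (nat_lit 492) (nat_lit 424) (nat_lit 284)))) (XT.nd (nat_lit 156) (nat_lit 152) (nat_lit 0) (XT.nd (nat_lit 78) (nat_lit 228) (nat_lit 0) (XT.lf (nat_lit 0) (nat_lit 5915517039) (nat_lit 304) (nat_lit 16490384248) (nat_lit 76) (nat_lit 4530886651) (nat_lit 135) (nat_lit 5) (nat_lit 139) (nat_lit 5) (nat_lit 136) (nat_lit 5) (nat_lit 493) (nat_lit 424) (nat_lit 283)) (XT.lf (nat_lit 0) (nat_lit 46684659) (nat_lit 228) (nat_lit 12912260082) (nat_lit 304) (nat_lit 14486322058) (nat_lit 132) (nat_lit 5) (nat_lit 135) (nat_lit 5) (nat_lit 136) (nat_lit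 5) (nat_lit 494) (nat_lit 424) (nat_lit 282))) (XT.nd (nat_lit 78) (nat_lit 152) (nat_lit 0) (XT.lf (nat_lit 0) (nat_lit 17403031481) (nat_lit 228) (nat_lit 2968306062) (nat_lit 304) (nat_lit 7592932948) (nat_lit 132) (nat_lit 5) (nat_lit 135) (nat_lit 5) (nat_lit 136) (nat_lit 5) (nat_lit 495) (nat_lit 424) (nat_lit 281)) (XT.lf (nat_lit 0) (nat_lit 6829939364) (nat_lit 152) (nat_lit 21303081755) (nat_lit 228) (nat_lit 362015930) (nat_lit 130) (nat_lit 5) (nat_lit 132) (nat_lit 5) (nat_lit 133) (nat_lit 5) (nat_lit 496) (nat_lit 424) (nat_lit 280)))))) (XT.nd (nat_lit 624) (nat_lit 912) (nat_lit 0) (XT.nd (nat_lit 312) (nat_lit 684) (nat_lit 0) (XT.nd (nat_lit 156) (nat_lit 228) (nat_lit 0) (XT.nd (nat_lit 78) (nat_lit 228) (nat_lit 0) (XT.lf (nat_lit 0) (nat_lit 7076022951) (nat_lit 228) (nat_lit 4192405890) (nat_lit 76) (nat_lit 17767400736) (nat_lit 129) (nat_lit 5) (nat_lit 132) (nat_lit 5) (nat_lit 130) (nat_lit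 5) (nat_lit 497) (nat_lit 424) (nat_lit 279)) (XT.lf (nat_lit 0) (nat_lit 14061022321) (nat_lit 228) (nat_lit 795690478) (nat_lit 304) (nat_lit 14732222270) (nat_lit 126) (nat_lit 5) (nat_lit 129) (nat_lit 5) (nat_lit 130) (nat_lit 5) (nat_lit 498) (nat_lit 424) (nat_lit 278))) (XT.nd (nat_lit 78) (nat_lit 76) (nat_lit 0) (XT.lf (nat_lit 0) (nat_lit 2733209833) (nat_lit 152) (nat_lit 20294358036) (nat_lit 228) (nat_lit 7126363809) (nat_lit 124) (nat_lit 5) (nat_lit 126) (nat_lit 5) (nat_lit 127) (nat_lit 5) (nat_lit 499) (nat_lit 424) (nat_lit 277)) (XT.lf (nat_lit 0) (nat_lit 851793250) (nat_lit 228) (nat_lit 8901253431) (nat_lit 76) (nat_lit 20977889737) (nat_lit 123) (nat_lit 5) (nat_lit 126) (nat_lit 5) (nat_lit 124) (nat_lit 5) (nat_lit 500) (nat_lit 424) (nat_lit 276)))) (XT.nd (nat_lit 156) (nat_lit 456) (nat_lit 0) (XT.nd (nat_lit 78) (nat_lit 0) (nat_lit 0) (XT.lf (nat_lit 0) (nat_lit 9029157905) (nat_lit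 304) (nat_lit 21042511595) (nat_lit 76) (nat_lit 1248372451) (nat_lit 120) (nat_lit 5) (nat_lit 124) (nat_lit 5) (nat_lit 121) (nat_lit 5) (nat_lit 501) (nat_lit 424) (nat_lit 275)) (XT.lf (nat_lit 0) (nat_lit 17631171718) (nat_lit 304) (nat_lit 1821383159) (nat_lit 76) (nat_lit 12468886180) (nat_lit 120) (nat_lit 5) (nat_lit 124) (nat_lit 5) (nat_lit 121) (nat_lit 5) (nat_lit 502) (nat_lit 424) (nat_lit 274))) (XT.nd (nat_lit 78) (nat_lit 304) (nat_lit 0) (XT.lf (nat_lit 0) (nat_lit 18320332152) (nat_lit 152) (nat_lit 8339241625) (nat_lit 228) (nat_lit 5876258773) (nat_lit 118) (nat_lit 5) (nat_lit 120) (nat_lit 5) (nat_lit 121) (nat_lit 5) (nat_lit 503) (nat_lit 424) (nat_lit 273)) (XT.lf (nat_lit 0) (nat_lit 2835173792) (nat_lit 304) (nat_lit 27184344435) (nat_lit 76) (nat_lit 3145349730) (nat_lit 114) (nat_lit 5) (nat_lit 118) (nat_lit 5) (nat_lit 115) (nat_lit 5) (nat_lit 504) (nat_lit 424) (nat_lit 272)))))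 (XT.nd (nat_lit 312) (nat_lit 532) (nat_lit 0) (XT.nd (nat_lit 156) (nat_lit 228) (nat_lit 0) (XT.nd (nat_lit 78) (nat_lit 152) (nat_lit 0) (XT.lf (nat_lit 0) (nat_lit 11909663361) (nat_lit 304) (nat_lit 6890410842) (nat_lit 76) (nat_lit 15004360397) (nat_lit 114) (nat_lit 5) (nat_lit 118) (nat_lit 5) (nat_lit 115) (nat_lit 5) (nat_lit 505) (nat_lit 424) (nat_lit 271)) (XT.lf (nat_lit 0) (nat_lit 14277741149) (nat_lit 152) (nat_lit 7108401885) (nat_lit 228) (nat_lit 13073152767) (nat_lit 112) (nat_lit 5) (nat_lit 114) (nat_lit 5) (nat_lit 115) (nat_lit 5) (nat_lit 506) (nat_lit 424) (nat_lit 270))) (XT.nd (nat_lit 78) (nat_lit 76) (nat_lit 0) (XT.lf (nat_lit 0) (nat_lit 1049584550) (nat_lit 152) (nat_lit 30217666033) (nat_lit 228) (nat_lit 3862942465) (nat_lit 110) (nat_lit 5) (nat_lit 112) (nat_lit 5) (nat_lit 113) (nat_lit 5) (nat_lit 507) (nat_lit 424) (nat_lit 269)) (XT.lf (nat_lit 0) (nat_lit 5782594824) (nat_lit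 228) (nat_lit 12623464696) (nat_lit 76) (nat_lit 17405473470) (nat_lit 109) (nat_lit 5) (nat_lit 112) (nat_lit 5) (nat_lit 110) (nat_lit 5) (nat_lit 508) (nat_lit 424) (nat_lit 268)))) (XT.nd (nat_lit 156) (nat_lit 380) (nat_lit 0) (XT.nd (nat_lit 78) (nat_lit 0) (nat_lit 0) (XT.lf (nat_lit 0) (nat_lit 9613867940) (nat_lit 152) (nat_lit 6111184667) (nat_lit 228) (nat_lit 20784557440) (nat_lit 107) (nat_lit 5) (nat_lit 109) (nat_lit 5) (nat_lit 110) (nat_lit 5) (nat_lit 509) (nat_lit 424) (nat_lit 267)) (XT.lf (nat_lit 0) (nat_lit 26150320383) (nat_lit 228) (nat_lit 4524878653) (nat_lit 76) (nat_lit 6547894482) (nat_lit 107) (nat_lit 5) (nat_lit 110) (nat_lit 5) (nat_lit 108) (nat_lit 5) (nat_lit 510) (nat_lit 424) (nat_lit 266))) (XT.nd (nat_lit 78) (nat_lit 228) (nat_lit 0) (XT.lf (nat_lit 0) (nat_lit 18811139617) (nat_lit 152) (nat_lit 18311561737) (nat_lit 228) (nat_lit 828249669) (nat_lit 105) (nat_lit 5) (nat_lit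 107) (nat_lit 5) (nat_lit 108) (nat_lit 5) (nat_lit 511) (nat_lit 424) (nat_lit 265)) (XT.lf (nat_lit 0) (nat_lit 4216525260) (nat_lit 152) (nat_lit 5397057848) (nat_lit 228) (nat_lit 29081865753) (nat_lit 102) (nat_lit 5) (nat_lit 104) (nat_lit 5) (nat_lit 105) (nat_lit 5) (nat_lit 512) (nat_lit 424) (nat_lit 264))))))) (XT.nd (nat_lit 1248) (nat_lit 1444) (nat_lit 0) (XT.nd (nat_lit 624) (nat_lit 608) (nat_lit 0) (XT.nd (nat_lit 312) (nat_lit 532) (nat_lit 0) (XT.nd (nat_lit 156) (nat_lit 228) (nat_lit 0) (XT.nd (nat_lit 78) (nat_lit 152) (nat_lit 0) (XT.lf (nat_lit 0) (nat_lit 20616268098) (nat_lit 228) (nat_lit 10889267871) (nat_lit 76) (nat_lit 7948572494) (nat_lit 102) (nat_lit 5) (nat_lit 105) (nat_lit 5) (nat_lit 103) (nat_lit 5) (nat_lit 513) (nat_lit 424) (nat_lit 263)) (XT.lf (nat_lit 0) (nat_lit 13607965013) (nat_lit 152) (nat_lit 18518584280) (nat_lit 228) (nat_lit 8103653254) (nat_lit 100) (nat_lit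 5) (nat_lit 102) (nat_lit 5) (nat_lit 103) (nat_lit 5) (nat_lit 514) (nat_lit 424) (nat_lit 262))) (XT.nd (nat_lit 78) (nat_lit 152) (nat_lit 0) (XT.lf (nat_lit 0) (nat_lit 2999278434) (nat_lit 228) (nat_lit 2004647705) (nat_lit 76) (nat_lit 36021671992) (nat_lit 99) (nat_lit 5) (nat_lit 102) (nat_lit 5) (nat_lit 100) (nat_lit 5) (nat_lit 515) (nat_lit 424) (nat_lit 261)) (XT.lf (nat_lit 0) (nat_lit 14582644634) (nat_lit 228) (nat_lit 18202243654) (nat_lit 76) (nat_lit 9048253762) (nat_lit 97) (nat_lit 5) (nat_lit 100) (nat_lit 5) (nat_lit 98) (nat_lit 5) (nat_lit 516) (nat_lit 424) (nat_lit 260)))) (XT.nd (nat_lit 156) (nat_lit 380) (nat_lit 0) (XT.nd (nat_lit 78) (nat_lit 0) (nat_lit 0) (XT.lf (nat_lit 0) (nat_lit 7496946978) (nat_lit 152) (nat_lit 19152123750) (nat_lit 228) (nat_lit 16011774937) (nat_lit 95) (nat_lit 5) (nat_lit 97) (nat_lit 5) (nat_lit 98) (nat_lit 5) (nat_lit 517) (nat_lit 424) (nat_lit 259))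 (XT.lf (nat_lit 0) (nat_lit 34328457741) (nat_lit 152) (nat_lit 4926421101) (nat_lit 228) (nat_lit 4253180010) (nat_lit 95) (nat_lit 5) (nat_lit 97) (nat_lit 5) (nat_lit 98) (nat_lit 5) (nat_lit 518) (nat_lit 424) (nat_lit 258))) (XT.nd (nat_lit 78) (nat_lit 152) (nat_lit 0) (XT.lf (nat_lit 0) (nat_lit 7965967681) (nat_lit 228) (nat_lit 26624004435) (nat_lit 76) (nat_lit 9780616241) (nat_lit 92) (nat_lit 5) (nat_lit 95) (nat_lit 5) (nat_lit 93) (nat_lit 5) (nat_lit 519) (nat_lit 424) (nat_lit 257)) (XT.lf (nat_lit 0) (nat_lit 315272738) (nat_lit 152) (nat_lit 20290083409) (nat_lit 228) (nat_lit 24648199877) (nat_lit 90) (nat_lit 5) (nat_lit 92) (nat_lit 5) (nat_lit 93) (nat_lit 5) (nat_lit 520) (nat_lit 424) (nat_lit 256))))) (XT.nd (nat_lit 312) (nat_lit 304) (nat_lit 0) (XT.nd (nat_lit 156) (nat_lit 152) (nat_lit 0) (XT.nd (nat_lit 78) (nat_lit 152) (nat_lit 0) (XT.lf (nat_lit 0) (nat_lit 28597018923) (nat_lit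 152) (nat_lit 5289560146) (nat_lit 228) (nat_lit 12268554193) (nat_lit 90) (nat_lit 5) (nat_lit 92) (nat_lit 5) (nat_lit 93) (nat_lit 5) (nat_lit 521) (nat_lit 424) (nat_lit 255)) (XT.lf (nat_lit 0) (nat_lit 669882278) (nat_lit 152) (nat_lit 36340307635) (nat_lit 76) (nat_lit 10067524397) (nat_lit 88) (nat_lit 5) (nat_lit 90) (nat_lit 5) (nat_lit 89) (nat_lit 5) (nat_lit 522) (nat_lit 424) (nat_lit 254))) (XT.nd (nat_lit 78) (nat_lit 152) (nat_lit 0) (XT.lf (nat_lit 0) (nat_lit 13975259645) (nat_lit 152) (nat_lit 7967817015) (nat_lit 76) (nat_lit 26074490910) (nat_lit 88) (nat_lit 5) (nat_lit 90) (nat_lit 5) (nat_lit 89) (nat_lit 5) (nat_lit 523) (nat_lit 424) (nat_lit 253)) (XT.lf (nat_lit 0) (nat_lit 21667709427) (nat_lit 152) (nat_lit 6214492293) (nat_lit 228) (nat_lit 21097342718) (nat_lit 86) (nat_lit 5) (nat_lit 88) (nat_lit 5) (nat_lit 89) (nat_lit 5) (nat_lit 524) (nat_lit 424) (nat_lit 252)))) (XT.nd (nat_lit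 156) (nat_lit 152) (nat_lit 0) (XT.nd (nat_lit 78) (nat_lit 76) (nat_lit 0) (XT.lf (nat_lit 0) (nat_lit 2325281533) (nat_lit 76) (nat_lit 40074808283) (nat_lit 152) (nat_lit 7564478772) (nat_lit 85) (nat_lit 5) (nat_lit 86) (nat_lit 5) (nat_lit 87) (nat_lit 4) (nat_lit 525) (nat_lit 424) (nat_lit 251)) (XT.lf (nat_lit 0) (nat_lit 6584187926) (nat_lit 152) (nat_lit 17696008470) (nat_lit 76) (nat_lit 26687082825) (nat_lit 84) (nat_lit 5) (nat_lit 86) (nat_lit 5) (nat_lit 85) (nat_lit 5) (nat_lit 526) (nat_lit 424) (nat_lit 250))) (XT.nd (nat_lit 78) (nat_lit 0) (nat_lit 0) (XT.lf (nat_lit 0) (nat_lit 13319930649) (nat_lit 152) (nat_lit 7807702739) (nat_lit 228) (nat_lit 30866520291) (nat_lit 82) (nat_lit 5) (nat_lit 84) (nat_lit 5) (nat_lit 85) (nat_lit 5) (nat_lit 527) (nat_lit 424) (nat_lit 249)) (XT.lf (nat_lit 0) (nat_lit 36370222548) (nat_lit 228) (nat_lit 7517864037) (nat_lit 76) (nat_lit 9155862671) (nat_lit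 82) (nat_lit 5) (nat_lit 85) (nat_lit 5) (nat_lit 83) (nat_lit 4) (nat_lit 528) (nat_lit 424) (nat_lit 248)))))) (XT.nd (nat_lit 624) (nat_lit 760) (nat_lit 0) (XT.nd (nat_lit 312) (nat_lit 304) (nat_lit 0) (XT.nd (nat_lit 156) (nat_lit 76) (nat_lit 0) (XT.nd (nat_lit 78) (nat_lit 228) (nat_lit 0) (XT.lf (nat_lit 0) (nat_lit 24972824060) (nat_lit 76) (nat_lit 27409122894) (nat_lit 152) (nat_lit 1733936114) (nat_lit 81) (nat_lit 5) (nat_lit 82) (nat_lit 5) (nat_lit 83) (nat_lit 4) (nat_lit 529) (nat_lit 424) (nat_lit 247)) (XT.lf (nat_lit 0) (nat_lit 3296594763) (nat_lit 152) (nat_lit 10193877094) (nat_lit 228) (nat_lit 41722479693) (nat_lit 78) (nat_lit 5) (nat_lit 80) (nat_lit 5) (nat_lit 81) (nat_lit 5) (nat_lit 530) (nat_lit 424) (nat_lit 246))) (XT.nd (nat_lit 78) (nat_lit 76) (nat_lit 0) (XT.lf (nat_lit 0) (nat_lit 29500943158) (nat_lit 228) (nat_lit 19130190752) (nat_lit 76) (nat_lit 7700357788) (nat_lit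 78) (nat_lit 5) (nat_lit 81) (nat_lit 5) (nat_lit 79) (nat_lit 4) (nat_lit 531) (nat_lit 424) (nat_lit 245)) (XT.lf (nat_lit 0) (nat_lit 14817689945) (nat_lit 76) (nat_lit 31412086186) (nat_lit 152) (nat_lit 11246670575) (nat_lit 77) (nat_lit 5) (nat_lit 78) (nat_lit 5) (nat_lit 79) (nat_lit 4) (nat_lit 532) (nat_lit 424) (nat_lit 244)))) (XT.nd (nat_lit 156) (nat_lit 76) (nat_lit 0) (XT.nd (nat_lit 78) (nat_lit 152) (nat_lit 0) (XT.lf (nat_lit 0) (nat_lit 4900744424) (nat_lit 152) (nat_lit 8531990660) (nat_lit 76) (nat_lit 45215936437) (nat_lit 76) (nat_lit 5) (nat_lit 78) (nat_lit 5) (nat_lit 77) (nat_lit 5) (nat_lit 533) (nat_lit 424) (nat_lit 243)) (XT.lf (nat_lit 0) (nat_lit 21613676074) (nat_lit 228) (nat_lit 32872827841) (nat_lit 76) (nat_lit 5357004411) (nat_lit 74) (nat_lit 5) (nat_lit 77) (nat_lit 5) (nat_lit 75) (nat_lit 4) (nat_lit 534) (nat_lit 424) (nat_lit 242))) (XT.nd (nat_lit 78) (nat_lit 0) (nat_lit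 0) (XT.lf (nat_lit 0) (nat_lit 2547776569) (nat_lit 76) (nat_lit 36519572163) (nat_lit 152) (nat_lit 21999660986) (nat_lit 73) (nat_lit 5) (nat_lit 74) (nat_lit 5) (nat_lit 75) (nat_lit 4) (nat_lit 535) (nat_lit 424) (nat_lit 241)) (XT.lf (nat_lit 0) (nat_lit 39695143079) (nat_lit 76) (nat_lit 17676351519) (nat_lit 152) (nat_lit 4945915735) (nat_lit 73) (nat_lit 5) (nat_lit 74) (nat_lit 5) (nat_lit 75) (nat_lit 4) (nat_lit 536) (nat_lit 424) (nat_lit 240))))) (XT.nd (nat_lit 312) (nat_lit 380) (nat_lit 0) (XT.nd (nat_lit 156) (nat_lit 152) (nat_lit 0) (XT.nd (nat_lit 78) (nat_lit 0) (nat_lit 0) (XT.lf (nat_lit 0) (nat_lit 12526809943) (nat_lit 228) (nat_lit 49113049455) (nat_lit 76) (nat_lit 1957215898) (nat_lit 70) (nat_lit 5) (nat_lit 73) (nat_lit 5) (nat_lit 71) (nat_lit 4) (nat_lit 537) (nat_lit 424) (nat_lit 239)) (XT.lf (nat_lit 0) (nat_lit 30825047492) (nat_lit 228) (nat_lit 11976824035) (nat_lit 76) (nat_lit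 22099767517) (nat_lit 70) (nat_lit 5) (nat_lit 73) (nat_lit 5) (nat_lit 71) (nat_lit 4) (nat_lit 538) (nat_lit 424) (nat_lit 238))) (XT.nd (nat_lit 78) (nat_lit 76) (nat_lit 0) (XT.lf (nat_lit 0) (nat_lit 26786931206) (nat_lit 76) (nat_lit 23137960709) (nat_lit 152) (nat_lit 16312868061) (nat_lit 69) (nat_lit 5) (nat_lit 70) (nat_lit 5) (nat_lit 71) (nat_lit 4) (nat_lit 539) (nat_lit 424) (nat_lit 237)) (XT.lf (nat_lit 0) (nat_lit 2062369124) (nat_lit 152) (nat_lit 680762380) (nat_lit 76) (nat_lit 64866741645) (nat_lit 68) (nat_lit 5) (nat_lit 70) (nat_lit 5) (nat_lit 69) (nat_lit 5) (nat_lit 540) (nat_lit 424) (nat_lit 236)))) (XT.nd (nat_lit 156) (nat_lit 152) (nat_lit 0) (XT.nd (nat_lit 78) (nat_lit 76) (nat_lit 0) (XT.lf (nat_lit 0) (nat_lit 21220371505) (nat_lit 228) (nat_lit 29328164906) (nat_lit 76) (nat_lit 18452986540) (nat_lit 66) (nat_lit 5) (nat_lit 69) (nat_lit 5) (nat_lit 67) (nat_lit 4) (nat_lit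 541) (nat_lit 424) (nat_lit 235)) (XT.lf (nat_lit 0) (nat_lit 10995666855) (nat_lit 76) (nat_lit 30092569185) (nat_lit 152) (nat_lit 29342632601) (nat_lit 65) (nat_lit 5) (nat_lit 66) (nat_lit 5) (nat_lit 67) (nat_lit 4) (nat_lit 542) (nat_lit 424) (nat_lit 234))) (XT.nd (nat_lit 78) (nat_lit 152) (nat_lit 0) (XT.lf (nat_lit 0) (nat_lit 53121489090) (nat_lit 76) (nat_lit 8722177697) (nat_lit 152) (nat_lit 10050682063) (nat_lit 65) (nat_lit 5) (nat_lit 66) (nat_lit 5) (nat_lit 67) (nat_lit 4) (nat_lit 543) (nat_lit 424) (nat_lit 233)) (XT.lf (nat_lit 0) (nat_lit 9980289831) (nat_lit 152) (nat_lit 50059072159) (nat_lit 76) (nat_lit 13348983034) (nat_lit 63) (nat_lit 5) (nat_lit 65) (nat_lit 5) (nat_lit 64) (nat_lit 4) (nat_lit 544) (nat_lit 424) (nat_lit 232))))))))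
noncomputable def xc152 : XT := (XT.nd (nat_lit 54990) (nat_lit 0) (nat_lit 8512) (XT.nd (nat_lit 53742) (nat_lit 0) (nat_lit 17100) (XT.nd (nat_lit 53118) (nat_lit 0) (nat_lit 21584) (XT.nd (nat_lit 234) (nat_lit 304) (nat_lit 0) (XT.nd (nat_lit 78) (nat_lit 152) (nat_lit 0) (XT.lf (nat_lit 0) (nat_lit 30683458489) (nat_lit 152) (nat_lit 8038688369) (nat_lit 76) (nat_lit 36193830634) (nat_lit 63) (nat_lit 5) (nat_lit 65) (nat_lit 5) (nat_lit 64) (nat_lit 4) (nat_lit 545) (nat_lit 424) (nat_lit 231)) (XT.nd (nat_lit 78) (nat_lit 76) (nat_lit 0) (XT.lf (nat_lit 0) (nat_lit 35935021621) (nat_lit 76) (nat_lit 16413734049) (nat_lit 152) (nat_lit 24130452309) (nat_lit 62) (nat_lit 5) (nat_lit 63) (nat_lit 5) (nat_lit 64) (nat_lit 4) (nat_lit 546) (nat_lit 424) (nat_lit 230)) (XT.lf (nat_lit 0) (nat_lit 3297764071) (nat_lit 76) (nat_lit 71538634995) (nat_lit 76) (nat_lit 3247764743) (nat_lit 61) (nat_lit 4) (nat_lit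 62) (nat_lit 5) (nat_lit 62) (nat_lit 4) (nat_lit 547) (nat_lit 424) (nat_lit 229)))) (XT.nd (nat_lit 156) (nat_lit 152) (nat_lit 0) (XT.nd (nat_lit 78) (nat_lit 76) (nat_lit 0) (XT.lf (nat_lit 0) (nat_lit 18476656005) (nat_lit 152) (nat_lit 30789521138) (nat_lit 76) (nat_lit 30448677074) (nat_lit 60) (nat_lit 5) (nat_lit 62) (nat_lit 5) (nat_lit 61) (nat_lit 4) (nat_lit 548) (nat_lit 424) (nat_lit 228)) (XT.lf (nat_lit 0) (nat_lit 14775153536) (nat_lit 76) (nat_lit 26150150176) (nat_lit 152) (nat_lit 40464063848) (nat_lit 59) (nat_lit 5) (nat_lit 60) (nat_lit 5) (nat_lit 61) (nat_lit 4) (nat_lit 549) (nat_lit 424) (nat_lit 227))) (XT.nd (nat_lit 78) (nat_lit 152) (nat_lit 0) (XT.lf (nat_lit 0) (nat_lit 62329733872) (nat_lit 76) (nat_lit 2024379404) (nat_lit 152) (nat_lit 18750801998) (nat_lit 59) (nat_lit 5) (nat_lit 60) (nat_lit 5) (nat_lit 61) (nat_lit 4) (nat_lit 550) (nat_lit 424) (nat_lit 226)) (XT.lf (nat_lit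 0) (nat_lit 4020273975) (nat_lit 152) (nat_lit 58163938222) (nat_lit 76) (nat_lit 22672367033) (nat_lit 57) (nat_lit 5) (nat_lit 59) (nat_lit 5) (nat_lit 58) (nat_lit 4) (nat_lit 551) (nat_lit 424) (nat_lit 225))))) (XT.nd (nat_lit 312) (nat_lit 0) (nat_lit 152) (XT.nd (nat_lit 156) (nat_lit 0) (nat_lit 76) (XT.nd (nat_lit 78) (nat_lit 0) (nat_lit 0) (XT.lf (nat_lit 0) (nat_lit 1024905313) (nat_lit 1140) (nat_lit 1764430061) (nat_lit 1140) (nat_lit 1764430061) (nat_lit 341) (nat_lit 3) (nat_lit 356) (nat_lit 3) (nat_lit 356) (nat_lit 5) (nat_lit 425) (nat_lit 425) (nat_lit 350)) (XT.lf (nat_lit 76) (nat_lit 1010472015) (nat_lit 0) (nat_lit 1953442965) (nat_lit 1140) (nat_lit 6253639824) (nat_lit 342) (nat_lit 5) (nat_lit 341) (nat_lit 3) (nat_lit 356) (nat_lit 5) (nat_lit 426) (nat_lit 425) (nat_lit 349))) (XT.nd (nat_lit 78) (nat_lit 0) (nat_lit 0) (XT.lf (nat_lit 0) (nat_lit 3924434696) (nat_lit 1064) (nat_lit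 3608055928) (nat_lit 1140) (nat_lit 1797822510) (nat_lit 342) (nat_lit 5) (nat_lit 356) (nat_lit 5) (nat_lit 357) (nat_lit 5) (nat_lit 427) (nat_lit 425) (nat_lit 348)) (XT.lf (nat_lit 76) (nat_lit 1112771869) (nat_lit 0) (nat_lit 3797918507) (nat_lit 1140) (nat_lit 4535859573) (nat_lit 343) (nat_lit 5) (nat_lit 342) (nat_lit 5) (nat_lit 357) (nat_lit 5) (nat_lit 428) (nat_lit 425) (nat_lit 347)))) (XT.nd (nat_lit 156) (nat_lit 0) (nat_lit 0) (XT.nd (nat_lit 78) (nat_lit 0) (nat_lit 0) (XT.lf (nat_lit 0) (nat_lit 5931601859) (nat_lit 1064) (nat_lit 3536292146) (nat_lit 1140) (nat_lit 98231069) (nat_lit 343) (nat_lit 5) (nat_lit 357) (nat_lit 5) (nat_lit 358) (nat_lit 5) (nat_lit 429) (nat_lit 425) (nat_lit 346)) (XT.lf (nat_lit 76) (nat_lit 1375453679) (nat_lit 0) (nat_lit 5627254639) (nat_lit 1140) (nat_lit 2685995260) (nat_lit 344) (nat_lit 5) (nat_lit 343) (nat_lit 5) (nat_lit 358) (nat_lit 5) (nat_lit 430)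 (nat_lit 425) (nat_lit 345))) (XT.nd (nat_lit 78) (nat_lit 0) (nat_lit 76) (XT.lf (nat_lit 76) (nat_lit 6488326124) (nat_lit 0) (nat_lit 1622804733) (nat_lit 1140) (nat_lit 1703676155) (nat_lit 344) (nat_lit 5) (nat_lit 343) (nat_lit 5) (nat_lit 358) (nat_lit 5) (nat_lit 431) (nat_lit 425) (nat_lit 344)) (XT.lf (nat_lit 76) (nat_lit 1801829275) (nat_lit 0) (nat_lit 7462818329) (nat_lit 1140) (nat_lit 679693673) (nat_lit 345) (nat_lit 5) (nat_lit 344) (nat_lit 5) (nat_lit 359) (nat_lit 5) (nat_lit 432) (nat_lit 425) (nat_lit 343)))))) (XT.nd (nat_lit 624) (nat_lit 3572) (nat_lit 0) (XT.nd (nat_lit 312) (nat_lit 0) (nat_lit 152) (XT.nd (nat_lit 156) (nat_lit 0) (nat_lit 76) (XT.nd (nat_lit 78) (nat_lit 0) (nat_lit 76) (XT.lf (nat_lit 0) (nat_lit 388543080) (nat_lit 1140) (nat_lit 2964148471) (nat_lit 1216) (nat_lit 6724339100) (nat_lit 329) (nat_lit 5) (nat_lit 344) (nat_lit 5) (nat_lit 345) (nat_lit 5) (nat_lit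 433) (nat_lit 425) (nat_lit 342)) (XT.lf (nat_lit 0) (nat_lit 1478704589) (nat_lit 1140) (nat_lit 7832025482) (nat_lit 1216) (nat_lit 902665303) (nat_lit 330) (nat_lit 5) (nat_lit 345) (nat_lit 5) (nat_lit 346) (nat_lit 5) (nat_lit 434) (nat_lit 425) (nat_lit 341))) (XT.nd (nat_lit 78) (nat_lit 0) (nat_lit 0) (XT.lf (nat_lit 0) (nat_lit 2637432771) (nat_lit 1140) (nat_lit 2458157413) (nat_lit 1216) (nat_lit 5257187640) (nat_lit 330) (nat_lit 5) (nat_lit 345) (nat_lit 5) (nat_lit 346) (nat_lit 5) (nat_lit 435) (nat_lit 425) (nat_lit 340)) (XT.lf (nat_lit 76) (nat_lit 3118628033) (nat_lit 0) (nat_lit 715514108) (nat_lit 1216) (nat_lit 6662105592) (nat_lit 331) (nat_lit 5) (nat_lit 330) (nat_lit 5) (nat_lit 346) (nat_lit 5) (nat_lit 436) (nat_lit 425) (nat_lit 339)))) (XT.nd (nat_lit 156) (nat_lit 0) (nat_lit 76) (XT.nd (nat_lit 78) (nat_lit 0) (nat_lit 0) (XT.lf (nat_lit 0) (nat_lit 5102217673) (nat_lit 1140) (nat_lit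 1786728149) (nat_lit 1216) (nat_lit 3754014460) (nat_lit 331) (nat_lit 5) (nat_lit 346) (nat_lit 5) (nat_lit 347) (nat_lit 5) (nat_lit 437) (nat_lit 425) (nat_lit 338)) (XT.lf (nat_lit 76) (nat_lit 4024084555) (nat_lit 0) (nat_lit 2404684566) (nat_lit 1216) (nat_lit 4364694495) (nat_lit 332) (nat_lit 5) (nat_lit 331) (nat_lit 5) (nat_lit 347) (nat_lit 5) (nat_lit 438) (nat_lit 425) (nat_lit 337))) (XT.nd (nat_lit 78) (nat_lit 0) (nat_lit 0) (XT.lf (nat_lit 0) (nat_lit 7809898569) (nat_lit 1140) (nat_lit 943412600) (nat_lit 1216) (nat_lit 2194729784) (nat_lit 332) (nat_lit 5) (nat_lit 347) (nat_lit 5) (nat_lit 348) (nat_lit 5) (nat_lit 439) (nat_lit 425) (nat_lit 336)) (XT.lf (nat_lit 76) (nat_lit 5114038103) (nat_lit 0) (nat_lit 4167388942) (nat_lit 1216) (nat_lit 1824361889) (nat_lit 333) (nat_lit 5) (nat_lit 332) (nat_lit 5) (nat_lit 348) (nat_lit 5) (nat_lit 440) (nat_lit 425) (nat_lit 335))))) (XT.nd (nat_lit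 312) (nat_lit 1444) (nat_lit 0) (XT.nd (nat_lit 156) (nat_lit 1216) (nat_lit 0) (XT.nd (nat_lit 78) (nat_lit 76) (nat_lit 0) (XT.lf (nat_lit 0) (nat_lit 80866418) (nat_lit 1140) (nat_lit 10708533912) (nat_lit 1216) (nat_lit 479102268) (nat_lit 318) (nat_lit 5) (nat_lit 333) (nat_lit 5) (nat_lit 334) (nat_lit 5) (nat_lit 441) (nat_lit 425) (nat_lit 334)) (XT.lf (nat_lit 0) (nat_lit 968010714) (nat_lit 1216) (nat_lit 5046477931) (nat_lit 76) (nat_lit 5418974146) (nat_lit 317) (nat_lit 5) (nat_lit 333) (nat_lit 5) (nat_lit 318) (nat_lit 5) (nat_lit 442) (nat_lit 425) (nat_lit 333))) (XT.nd (nat_lit 78) (nat_lit 0) (nat_lit 0) (XT.lf (nat_lit 0) (nat_lit 1279618835) (nat_lit 1216) (nat_lit 1159084084) (nat_lit 1292) (nat_lit 9164834727) (nat_lit 301) (nat_lit 5) (nat_lit 317) (nat_lit 5) (nat_lit 318) (nat_lit 5) (nat_lit 443) (nat_lit 425) (nat_lit 332)) (XT.lf (nat_lit 0) (nat_lit 4019901956) (nat_lit 1292) (nat_lit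 3935695888) (nat_lit 76) (nat_lit 3821127287) (nat_lit 301) (nat_lit 5) (nat_lit 318) (nat_lit 5) (nat_lit 302) (nat_lit 5) (nat_lit 444) (nat_lit 425) (nat_lit 331)))) (XT.nd (nat_lit 156) (nat_lit 608) (nat_lit 0) (XT.nd (nat_lit 78) (nat_lit 0) (nat_lit 0) (XT.lf (nat_lit 0) (nat_lit 2665269521) (nat_lit 836) (nat_lit 2998995275) (nat_lit 912) (nat_lit 6290373518) (nat_lit 290) (nat_lit 5) (nat_lit 301) (nat_lit 5) (nat_lit 302) (nat_lit 5) (nat_lit 445) (nat_lit 425) (nat_lit 330)) (XT.lf (nat_lit 0) (nat_lit 7397427035) (nat_lit 912) (nat_lit 2632287945) (nat_lit 76) (nat_lit 2106991708) (nat_lit 290) (nat_lit 5) (nat_lit 302) (nat_lit 5) (nat_lit 291) (nat_lit 5) (nat_lit 446) (nat_lit 425) (nat_lit 329))) (XT.nd (nat_lit 78) (nat_lit 0) (nat_lit 0) (XT.lf (nat_lit 0) (nat_lit 4258599772) (nat_lit 608) (nat_lit 4974307944) (nat_lit 684) (nat_lit 3089821491) (nat_lit 282) (nat_lit 5) (nat_lit 290) (nat_lit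 5) (nat_lit 291) (nat_lit 5) (nat_lit 447) (nat_lit 425) (nat_lit 328)) (XT.lf (nat_lit 0) (nat_lit 11132643715) (nat_lit 684) (nat_lit 1125592092) (nat_lit 76) (nat_lit 255822613) (nat_lit 282) (nat_lit 5) (nat_lit 291) (nat_lit 5) (nat_lit 283) (nat_lit 5) (nat_lit 448) (nat_lit 425) (nat_lit 327))))))) (XT.nd (nat_lit 1170) (nat_lit 3724) (nat_lit 0) (XT.nd (nat_lit 546) (nat_lit 2508) (nat_lit 0) (XT.nd (nat_lit 234) (nat_lit 1140) (nat_lit 0) (XT.nd (nat_lit 78) (nat_lit 532) (nat_lit 0) (XT.lf (nat_lit 0) (nat_lit 460034961) (nat_lit 684) (nat_lit 6641824555) (nat_lit 76) (nat_lit 5606485414) (nat_lit 273) (nat_lit 5) (nat_lit 282) (nat_lit 5) (nat_lit 274) (nat_lit 5) (nat_lit 449) (nat_lit 425) (nat_lit 326)) (XT.nd (nat_lit 78) (nat_lit 0) (nat_lit 0) (XT.lf (nat_lit 0) (nat_lit 567280871) (nat_lit 532) (nat_lit 1759493796) (nat_lit 608) (nat_lit 10581342298) (nat_lit 266) (nat_lit 5) (nat_lit 273) (nat_lit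 5) (nat_lit 274) (nat_lit 5) (nat_lit 450) (nat_lit 425) (nat_lit 325)) (XT.lf (nat_lit 0) (nat_lit 4334479917) (nat_lit 608) (nat_lit 5039425085) (nat_lit 76) (nat_lit 3737429809) (nat_lit 266) (nat_lit 5) (nat_lit 274) (nat_lit 5) (nat_lit 267) (nat_lit 5) (nat_lit 451) (nat_lit 425) (nat_lit 324)))) (XT.nd (nat_lit 156) (nat_lit 532) (nat_lit 0) (XT.nd (nat_lit 78) (nat_lit 0) (nat_lit 0) (XT.lf (nat_lit 0) (nat_lit 2493111549) (nat_lit 608) (nat_lit 3932485492) (nat_lit 684) (nat_lit 6894358236) (nat_lit 258) (nat_lit 5) (nat_lit 266) (nat_lit 5) (nat_lit 267) (nat_lit 5) (nat_lit 452) (nat_lit 425) (nat_lit 323)) (XT.lf (nat_lit 0) (nat_lit 8629045936) (nat_lit 684) (nat_lit 3214442441) (nat_lit 76) (nat_lit 1689859497) (nat_lit 258) (nat_lit 5) (nat_lit 267) (nat_lit 5) (nat_lit 259) (nat_lit 5) (nat_lit 453) (nat_lit 425) (nat_lit 322))) (XT.nd (nat_lit 78) (nat_lit 0) (nat_lit 0) (XT.lf (nat_lit 0) (nat_lit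 4659400111) (nat_lit 532) (nat_lit 6305575226) (nat_lit 608) (nat_lit 2786177020) (nat_lit 251) (nat_lit 5) (nat_lit 258) (nat_lit 5) (nat_lit 259) (nat_lit 5) (nat_lit 454) (nat_lit 425) (nat_lit 321)) (XT.lf (nat_lit 0) (nat_lit 12816619369) (nat_lit 532) (nat_lit 569800562) (nat_lit 608) (nat_lit 588609303) (nat_lit 251) (nat_lit 5) (nat_lit 258) (nat_lit 5) (nat_lit 259) (nat_lit 5) (nat_lit 455) (nat_lit 425) (nat_lit 320))))) (XT.nd (nat_lit 312) (nat_lit 988) (nat_lit 0) (XT.nd (nat_lit 156) (nat_lit 456) (nat_lit 0) (XT.nd (nat_lit 78) (nat_lit 456) (nat_lit 0) (XT.lf (nat_lit 0) (nat_lit 1746057617) (nat_lit 608) (nat_lit 7138525320) (nat_lit 76) (nat_lit 5317442121) (nat_lit 243) (nat_lit 5) (nat_lit 251) (nat_lit 5) (nat_lit 244) (nat_lit 5) (nat_lit 456) (nat_lit 425) (nat_lit 319)) (XT.lf (nat_lit 0) (nat_lit 1111627967) (nat_lit 456) (nat_lit 3039046513) (nat_lit 532) (nat_lit 10284630492) (nat_lit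 237) (nat_lit 5) (nat_lit 243) (nat_lit 5) (nat_lit 244) (nat_lit 5) (nat_lit 457) (nat_lit 425) (nat_lit 318))) (XT.nd (nat_lit 78) (nat_lit 456) (nat_lit 0) (XT.lf (nat_lit 0) (nat_lit 6712766116) (nat_lit 532) (nat_lit 4966266560) (nat_lit 76) (nat_lit 2993991746) (nat_lit 237) (nat_lit 5) (nat_lit 244) (nat_lit 5) (nat_lit 238) (nat_lit 5) (nat_lit 458) (nat_lit 425) (nat_lit 317)) (XT.lf (nat_lit 0) (nat_lit 3664757884) (nat_lit 456) (nat_lit 5736623788) (nat_lit 532) (nat_lit 5515005136) (nat_lit 231) (nat_lit 5) (nat_lit 237) (nat_lit 5) (nat_lit 238) (nat_lit 5) (nat_lit 459) (nat_lit 425) (nat_lit 316)))) (XT.nd (nat_lit 156) (nat_lit 532) (nat_lit 0) (XT.nd (nat_lit 78) (nat_lit 456) (nat_lit 0) (XT.lf (nat_lit 0) (nat_lit 12209588324) (nat_lit 532) (nat_lit 2532000816) (nat_lit 76) (nat_lit 424294101) (nat_lit 231) (nat_lit 5) (nat_lit 238) (nat_lit 5) (nat_lit 232) (nat_lit 5) (nat_lit 460) (nat_lit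 425) (nat_lit 315)) (XT.lf (nat_lit 0) (nat_lit 6501040114) (nat_lit 456) (nat_lit 8705334738) (nat_lit 532) (nat_lit 213360827) (nat_lit 225) (nat_lit 5) (nat_lit 231) (nat_lit 5) (nat_lit 232) (nat_lit 5) (nat_lit 461) (nat_lit 425) (nat_lit 314))) (XT.nd (nat_lit 78) (nat_lit 0) (nat_lit 0) (XT.lf (nat_lit 0) (nat_lit 135468575) (nat_lit 456) (nat_lit 2437708424) (nat_lit 532) (nat_lit 13106906067) (nat_lit 218) (nat_lit 5) (nat_lit 224) (nat_lit 5) (nat_lit 225) (nat_lit 5) (nat_lit 462) (nat_lit 425) (nat_lit 313)) (XT.lf (nat_lit 0) (nat_lit 5553980599) (nat_lit 532) (nat_lit 6361662201) (nat_lit 76) (nat_lit 4029086986) (nat_lit 218) (nat_lit 5) (nat_lit 225) (nat_lit 5) (nat_lit 219) (nat_lit 5) (nat_lit 463) (nat_lit 425) (nat_lit 312)))))) (XT.nd (nat_lit 624) (nat_lit 1748) (nat_lit 0) (XT.nd (nat_lit 312) (nat_lit 1064) (nat_lit 0) (XT.nd (nat_lit 156) (nat_lit 532) (nat_lit 0) (XT.nd (nat_lit 78) (nat_lit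 0) (nat_lit 0) (XT.lf (nat_lit 0) (nat_lit 3115398507) (nat_lit 380) (nat_lit 5548700392) (nat_lit 456) (nat_lit 7552021287) (nat_lit 213) (nat_lit 5) (nat_lit 218) (nat_lit 5) (nat_lit 219) (nat_lit 5) (nat_lit 464) (nat_lit 425) (nat_lit 311)) (XT.lf (nat_lit 0) (nat_lit 11928110489) (nat_lit 456) (nat_lit 3515125925) (nat_lit 76) (nat_lit 1050599161) (nat_lit 213) (nat_lit 5) (nat_lit 219) (nat_lit 5) (nat_lit 214) (nat_lit 5) (nat_lit 465) (nat_lit 425) (nat_lit 310))) (XT.nd (nat_lit 78) (nat_lit 76) (nat_lit 0) (XT.lf (nat_lit 0) (nat_lit 6410480833) (nat_lit 456) (nat_lit 8982539955) (nat_lit 532) (nat_lit 1383773222) (nat_lit 207) (nat_lit 5) (nat_lit 213) (nat_lit 5) (nat_lit 214) (nat_lit 5) (nat_lit 466) (nat_lit 425) (nat_lit 309)) (XT.lf (nat_lit 0) (nat_lit 1879045978) (nat_lit 532) (nat_lit 397624615) (nat_lit 76) (nat_lit 14790354593) (nat_lit 206) (nat_lit 5) (nat_lit 213) (nat_lit 5) (nat_lit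 207) (nat_lit 5) (nat_lit 467) (nat_lit 425) (nat_lit 308)))) (XT.nd (nat_lit 156) (nat_lit 304) (nat_lit 0) (XT.nd (nat_lit 78) (nat_lit 380) (nat_lit 0) (XT.lf (nat_lit 0) (nat_lit 5340865768) (nat_lit 456) (nat_lit 7373658361) (nat_lit 76) (nat_lit 4647161153) (nat_lit 201) (nat_lit 5) (nat_lit 207) (nat_lit 5) (nat_lit 202) (nat_lit 5) (nat_lit 468) (nat_lit 425) (nat_lit 307)) (XT.lf (nat_lit 0) (nat_lit 3047761211) (nat_lit 380) (nat_lit 5901754182) (nat_lit 456) (nat_lit 8714381363) (nat_lit 196) (nat_lit 5) (nat_lit 201) (nat_lit 5) (nat_lit 202) (nat_lit 5) (nat_lit 469) (nat_lit 425) (nat_lit 306))) (XT.nd (nat_lit 78) (nat_lit 304) (nat_lit 0) (XT.lf (nat_lit 0) (nat_lit 12739591077) (nat_lit 456) (nat_lit 4069055252) (nat_lit 76) (nat_lit 1164334058) (nat_lit 196) (nat_lit 5) (nat_lit 202) (nat_lit 5) (nat_lit 197) (nat_lit 5) (nat_lit 470) (nat_lit 425) (nat_lit 305)) (XT.lf (nat_lit 0) (nat_lit 6852605307)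 (nat_lit 304) (nat_lit 9902687743) (nat_lit 380) (nat_lit 1532686543) (nat_lit 192) (nat_lit 5) (nat_lit 196) (nat_lit 5) (nat_lit 197) (nat_lit 5) (nat_lit 471) (nat_lit 425) (nat_lit 304))))) (XT.nd (nat_lit 312) (nat_lit 988) (nat_lit 0) (XT.nd (nat_lit 156) (nat_lit 304) (nat_lit 0) (XT.nd (nat_lit 78) (nat_lit 380) (nat_lit 0) (XT.lf (nat_lit 0) (nat_lit 2263757057) (nat_lit 380) (nat_lit 465378833) (nat_lit 76) (nat_lit 15881760643) (nat_lit 191) (nat_lit 5) (nat_lit 196) (nat_lit 5) (nat_lit 192) (nat_lit 5) (nat_lit 472) (nat_lit 425) (nat_lit 303)) (XT.lf (nat_lit 0) (nat_lit 6283187250) (nat_lit 456) (nat_lit 7969347671) (nat_lit 76) (nat_lit 4686314561) (nat_lit 186) (nat_lit 5) (nat_lit 192) (nat_lit 5) (nat_lit 187) (nat_lit 5) (nat_lit 473) (nat_lit 425) (nat_lit 302))) (XT.nd (nat_lit 78) (nat_lit 0) (nat_lit 0) (XT.lf (nat_lit 0) (nat_lit 3504956565) (nat_lit 304) (nat_lit 6971899848) (nat_lit 380)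 (nat_lit 8798175625) (nat_lit 182) (nat_lit 5) (nat_lit 186) (nat_lit 5) (nat_lit 187) (nat_lit 5) (nat_lit 474) (nat_lit 425) (nat_lit 301)) (XT.lf (nat_lit 0) (nat_lit 14871006642) (nat_lit 380) (nat_lit 4154870512) (nat_lit 76) (nat_lit 593183464) (nat_lit 182) (nat_lit 5) (nat_lit 187) (nat_lit 5) (nat_lit 183) (nat_lit 5) (nat_lit 475) (nat_lit 425) (nat_lit 300)))) (XT.nd (nat_lit 156) (nat_lit 608) (nat_lit 0) (XT.nd (nat_lit 78) (nat_lit 76) (nat_lit 0) (XT.lf (nat_lit 0) (nat_lit 7876990419) (nat_lit 304) (nat_lit 11653410058) (nat_lit 380) (nat_lit 439007664) (nat_lit 178) (nat_lit 5) (nat_lit 182) (nat_lit 5) (nat_lit 183) (nat_lit 5) (nat_lit 476) (nat_lit 425) (nat_lit 299)) (XT.lf (nat_lit 0) (nat_lit 3952374493) (nat_lit 380) (nat_lit 29431869) (nat_lit 76) (nat_lit 16346373872) (nat_lit 177) (nat_lit 5) (nat_lit 182) (nat_lit 5) (nat_lit 178) (nat_lit 5) (nat_lit 477) (nat_lit 425) (nat_lit 298)))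 (XT.nd (nat_lit 78) (nat_lit 304) (nat_lit 0) (XT.lf (nat_lit 0) (nat_lit 8615936386) (nat_lit 380) (nat_lit 8111826971) (nat_lit 76) (nat_lit 3965344481) (nat_lit 173) (nat_lit 5) (nat_lit 178) (nat_lit 5) (nat_lit 174) (nat_lit 5) (nat_lit 478) (nat_lit 425) (nat_lit 297)) (XT.lf (nat_lit 0) (nat_lit 4534829743) (nat_lit 304) (nat_lit 8957069382) (nat_lit 380) (nat_lit 7574909910) (nat_lit 169) (nat_lit 5) (nat_lit 173) (nat_lit 5) (nat_lit 174) (nat_lit 5) (nat_lit 479) (nat_lit 425) (nat_lit 296))))))))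
noncomputable def xc153 : XT := (XT.nd (nat_lit 2418) (nat_lit 3116) (nat_lit 0) (XT.nd (nat_lit 1170) (nat_lit 2128) (nat_lit 0) (XT.nd (nat_lit 546) (nat_lit 1292) (nat_lit 0) (XT.nd (nat_lit 234) (nat_lit 608) (nat_lit 0) (XT.nd (nat_lit 78) (nat_lit 684) (nat_lit 0) (XT.lf (nat_lit 0) (nat_lit 17711150961) (nat_lit 304) (nat_lit 874242989) (nat_lit 380) (nat_lit 2864190290) (nat_lit 169) (nat_lit 5) (nat_lit 173) (nat_lit 5) (nat_lit 174) (nat_lit 5) (nat_lit 480) (nat_lit 425) (nat_lit 295)) (XT.nd (nat_lit 78) (nat_lit 304) (nat_lit 0) (XT.lf (nat_lit 0) (nat_lit 2103479709) (nat_lit 380) (nat_lit 12322284879) (nat_lit 76) (nat_lit 7412872827) (nat_lit 164) (nat_lit 5) (nat_lit 169) (nat_lit 5) (nat_lit 165) (nat_lit 5) (nat_lit 481) (nat_lit 425) (nat_lit 294)) (XT.lf (nat_lit 0) (nat_lit 972918069) (nat_lit 304) (nat_lit 6235477657) (nat_lit 380) (nat_lit 15028742731) (nat_lit 160) (nat_lit 5) (nat_lit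 164) (nat_lit 5) (nat_lit 165) (nat_lit 5) (nat_lit 482) (nat_lit 425) (nat_lit 293)))) (XT.nd (nat_lit 156) (nat_lit 380) (nat_lit 0) (XT.nd (nat_lit 78) (nat_lit 228) (nat_lit 0) (XT.lf (nat_lit 0) (nat_lit 12603022840) (nat_lit 380) (nat_lit 7762637993) (nat_lit 76) (nat_lit 2277837292) (nat_lit 160) (nat_lit 5) (nat_lit 165) (nat_lit 5) (nat_lit 161) (nat_lit 5) (nat_lit 483) (nat_lit 425) (nat_lit 292)) (XT.lf (nat_lit 0) (nat_lit 6187496220) (nat_lit 228) (nat_lit 12083254535) (nat_lit 304) (nat_lit 4787960459) (nat_lit 157) (nat_lit 5) (nat_lit 160) (nat_lit 5) (nat_lit 161) (nat_lit 5) (nat_lit 484) (nat_lit 425) (nat_lit 291))) (XT.nd (nat_lit 78) (nat_lit 304) (nat_lit 0) (XT.lf (nat_lit 0) (nat_lit 679244722) (nat_lit 304) (nat_lit 2791068852) (nat_lit 76) (nat_lit 20013810528) (nat_lit 156) (nat_lit 5) (nat_lit 160) (nat_lit 5) (nat_lit 157) (nat_lit 5) (nat_lit 485) (nat_lit 425) (nat_lit 290)) (XT.lf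 (nat_lit 0) (nat_lit 6372283876) (nat_lit 380) (nat_lit 12090383268) (nat_lit 76) (nat_lit 5453468983) (nat_lit 152) (nat_lit 5) (nat_lit 157) (nat_lit 5) (nat_lit 153) (nat_lit 5) (nat_lit 486) (nat_lit 425) (nat_lit 289))))) (XT.nd (nat_lit 312) (nat_lit 760) (nat_lit 0) (XT.nd (nat_lit 156) (nat_lit 304) (nat_lit 0) (XT.nd (nat_lit 78) (nat_lit 0) (nat_lit 0) (XT.lf (nat_lit 0) (nat_lit 2578532219) (nat_lit 228) (nat_lit 9735655360) (nat_lit 304) (nat_lit 12044579167) (nat_lit 149) (nat_lit 5) (nat_lit 152) (nat_lit 5) (nat_lit 153) (nat_lit 5) (nat_lit 487) (nat_lit 425) (nat_lit 288)) (XT.lf (nat_lit 0) (nat_lit 17920328907) (nat_lit 228) (nat_lit 626705976) (nat_lit 304) (nat_lit 6264261227) (nat_lit 149) (nat_lit 5) (nat_lit 152) (nat_lit 5) (nat_lit 153) (nat_lit 5) (nat_lit 488) (nat_lit 425) (nat_lit 287))) (XT.nd (nat_lit 78) (nat_lit 76) (nat_lit 0) (XT.lf (nat_lit 0) (nat_lit 8512105271) (nat_lit 228)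 (nat_lit 16611567934) (nat_lit 304) (nat_lit 149024395) (nat_lit 146) (nat_lit 5) (nat_lit 149) (nat_lit 5) (nat_lit 150) (nat_lit 5) (nat_lit 489) (nat_lit 425) (nat_lit 286)) (XT.lf (nat_lit 0) (nat_lit 6097001660) (nat_lit 304) (nat_lit 1308182483) (nat_lit 76) (nat_lit 18338963916) (nat_lit 145) (nat_lit 5) (nat_lit 149) (nat_lit 5) (nat_lit 146) (nat_lit 5) (nat_lit 490) (nat_lit 425) (nat_lit 285)))) (XT.nd (nat_lit 156) (nat_lit 304) (nat_lit 0) (XT.nd (nat_lit 78) (nat_lit 228) (nat_lit 0) (XT.lf (nat_lit 0) (nat_lit 12682939574) (nat_lit 304) (nat_lit 11364704019) (nat_lit 76) (nat_lit 2177388760) (nat_lit 142) (nat_lit 5) (nat_lit 146) (nat_lit 5) (nat_lit 143) (nat_lit 5) (nat_lit 491) (nat_lit 425) (nat_lit 284)) (XT.lf (nat_lit 0) (nat_lit 4827022439) (nat_lit 228) (nat_lit 14763682795) (nat_lit 304) (nat_lit 7125910817) (nat_lit 139) (nat_lit 5) (nat_lit 142) (nat_lit 5) (nat_lit 143) (nat_lit 5)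 (nat_lit 492) (nat_lit 425) (nat_lit 283))) (XT.nd (nat_lit 78) (nat_lit 304) (nat_lit 0) (XT.lf (nat_lit 0) (nat_lit 21723123222) (nat_lit 228) (nat_lit 5088650398) (nat_lit 304) (nat_lit 407991903) (nat_lit 139) (nat_lit 5) (nat_lit 142) (nat_lit 5) (nat_lit 143) (nat_lit 5) (nat_lit 493) (nat_lit 425) (nat_lit 282)) (XT.lf (nat_lit 0) (nat_lit 6535317741) (nat_lit 304) (nat_lit 16245072484) (nat_lit 76) (nat_lit 4951214363) (nat_lit 135) (nat_lit 5) (nat_lit 139) (nat_lit 5) (nat_lit 136) (nat_lit 5) (nat_lit 494) (nat_lit 425) (nat_lit 281)))))) (XT.nd (nat_lit 624) (nat_lit 988) (nat_lit 0) (XT.nd (nat_lit 312) (nat_lit 684) (nat_lit 0) (XT.nd (nat_lit 156) (nat_lit 228) (nat_lit 0) (XT.nd (nat_lit 78) (nat_lit 0) (nat_lit 0) (XT.lf (nat_lit 0) (nat_lit 780853360) (nat_lit 228) (nat_lit 13003355180) (nat_lit 304) (nat_lit 14471304960) (nat_lit 132) (nat_lit 5) (nat_lit 135) (nat_lit 5) (nat_lit 136) (nat_lit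 5) (nat_lit 495) (nat_lit 425) (nat_lit 280)) (XT.lf (nat_lit 0) (nat_lit 18636547825) (nat_lit 228) (nat_lit 2769711842) (nat_lit 304) (nat_lit 7384209519) (nat_lit 132) (nat_lit 5) (nat_lit 135) (nat_lit 5) (nat_lit 136) (nat_lit 5) (nat_lit 496) (nat_lit 425) (nat_lit 279))) (XT.nd (nat_lit 78) (nat_lit 0) (nat_lit 0) (XT.lf (nat_lit 0) (nat_lit 59572920) (nat_lit 228) (nat_lit 21588672109) (nat_lit 76) (nat_lit 7688980421) (nat_lit 129) (nat_lit 5) (nat_lit 132) (nat_lit 5) (nat_lit 130) (nat_lit 5) (nat_lit 497) (nat_lit 425) (nat_lit 278)) (XT.lf (nat_lit 0) (nat_lit 7701093122) (nat_lit 228) (nat_lit 3616436133) (nat_lit 76) (nat_lit 18576976918) (nat_lit 129) (nat_lit 5) (nat_lit 132) (nat_lit 5) (nat_lit 130) (nat_lit 5) (nat_lit 498) (nat_lit 425) (nat_lit 277)))) (XT.nd (nat_lit 156) (nat_lit 304) (nat_lit 0) (XT.nd (nat_lit 78) (nat_lit 152) (nat_lit 0) (XT.lf (nat_lit 0) (nat_lit 15177715100) (nat_lit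 228) (nat_lit 532145010) (nat_lit 304) (nat_lit 14754505452) (nat_lit 126) (nat_lit 5) (nat_lit 129) (nat_lit 5) (nat_lit 130) (nat_lit 5) (nat_lit 499) (nat_lit 425) (nat_lit 276)) (XT.lf (nat_lit 0) (nat_lit 3512637713) (nat_lit 152) (nat_lit 20610722250) (nat_lit 228) (nat_lit 6923026945) (nat_lit 124) (nat_lit 5) (nat_lit 126) (nat_lit 5) (nat_lit 127) (nat_lit 5) (nat_lit 500) (nat_lit 425) (nat_lit 275))) (XT.nd (nat_lit 78) (nat_lit 228) (nat_lit 0) (XT.lf (nat_lit 0) (nat_lit 1274422886) (nat_lit 228) (nat_lit 8483257425) (nat_lit 76) (nat_lit 21883258948) (nat_lit 123) (nat_lit 5) (nat_lit 126) (nat_lit 5) (nat_lit 124) (nat_lit 5) (nat_lit 501) (nat_lit 425) (nat_lit 274)) (XT.lf (nat_lit 0) (nat_lit 9694815531) (nat_lit 304) (nat_lit 20986447784) (nat_lit 76) (nat_lit 1566523807) (nat_lit 120) (nat_lit 5) (nat_lit 124) (nat_lit 5) (nat_lit 121) (nat_lit 5) (nat_lit 502) (nat_lit 425) (nat_lit 273)))))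 (XT.nd (nat_lit 312) (nat_lit 532) (nat_lit 0) (XT.nd (nat_lit 156) (nat_lit 304) (nat_lit 0) (XT.nd (nat_lit 78) (nat_lit 152) (nat_lit 0) (XT.lf (nat_lit 0) (nat_lit 18543391227) (nat_lit 304) (nat_lit 1208705083) (nat_lit 76) (nat_lit 13115477215) (nat_lit 120) (nat_lit 5) (nat_lit 124) (nat_lit 5) (nat_lit 121) (nat_lit 5) (nat_lit 503) (nat_lit 425) (nat_lit 272)) (XT.lf (nat_lit 0) (nat_lit 19530719339) (nat_lit 152) (nat_lit 8307114182) (nat_lit 228) (nat_lit 5662707953) (nat_lit 118) (nat_lit 5) (nat_lit 120) (nat_lit 5) (nat_lit 121) (nat_lit 5) (nat_lit 504) (nat_lit 425) (nat_lit 271))) (XT.nd (nat_lit 78) (nat_lit 0) (nat_lit 0) (XT.lf (nat_lit 0) (nat_lit 3300423178) (nat_lit 304) (nat_lit 27329430410) (nat_lit 76) (nat_lit 3518543388) (nat_lit 114) (nat_lit 5) (nat_lit 118) (nat_lit 5) (nat_lit 115) (nat_lit 5) (nat_lit 505) (nat_lit 425) (nat_lit 270)) (XT.lf (nat_lit 0) (nat_lit 12636073818) (nat_lit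 304) (nat_lit 6446206315) (nat_lit 76) (nat_lit 15725203021) (nat_lit 114) (nat_lit 5) (nat_lit 118) (nat_lit 5) (nat_lit 115) (nat_lit 5) (nat_lit 506) (nat_lit 425) (nat_lit 269)))) (XT.nd (nat_lit 156) (nat_lit 228) (nat_lit 0) (XT.nd (nat_lit 78) (nat_lit 152) (nat_lit 0) (XT.lf (nat_lit 0) (nat_lit 15350608698) (nat_lit 152) (nat_lit 7041683766) (nat_lit 228) (nat_lit 13089834705) (nat_lit 112) (nat_lit 5) (nat_lit 114) (nat_lit 5) (nat_lit 115) (nat_lit 5) (nat_lit 507) (nat_lit 425) (nat_lit 268)) (XT.lf (nat_lit 0) (nat_lit 1727463745) (nat_lit 152) (nat_lit 30840577463) (nat_lit 228) (nat_lit 3605164193) (nat_lit 110) (nat_lit 5) (nat_lit 112) (nat_lit 5) (nat_lit 113) (nat_lit 5) (nat_lit 508) (nat_lit 425) (nat_lit 267))) (XT.nd (nat_lit 78) (nat_lit 152) (nat_lit 0) (XT.lf (nat_lit 0) (nat_lit 6311776518) (nat_lit 228) (nat_lit 12367515059) (nat_lit 76) (nat_lit 18195906630) (nat_lit 109) (nat_lit 5)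 (nat_lit 112) (nat_lit 5) (nat_lit 110) (nat_lit 5) (nat_lit 509) (nat_lit 425) (nat_lit 266)) (XT.lf (nat_lit 0) (nat_lit 10530715462) (nat_lit 152) (nat_lit 6017473135) (nat_lit 228) (nat_lit 21046158844) (nat_lit 107) (nat_lit 5) (nat_lit 109) (nat_lit 5) (nat_lit 110) (nat_lit 5) (nat_lit 510) (nat_lit 425) (nat_lit 265))))))) (XT.nd (nat_lit 1248) (nat_lit 1444) (nat_lit 0) (XT.nd (nat_lit 624) (nat_lit 760) (nat_lit 0) (XT.nd (nat_lit 312) (nat_lit 532) (nat_lit 0) (XT.nd (nat_lit 156) (nat_lit 228) (nat_lit 0) (XT.nd (nat_lit 78) (nat_lit 152) (nat_lit 0) (XT.lf (nat_lit 0) (nat_lit 27278565487) (nat_lit 228) (nat_lit 4042839337) (nat_lit 76) (nat_lit 7008060332) (nat_lit 107) (nat_lit 5) (nat_lit 110) (nat_lit 5) (nat_lit 108) (nat_lit 5) (nat_lit 511) (nat_lit 425) (nat_lit 264)) (XT.lf (nat_lit 0) (nat_lit 19987202758) (nat_lit 152) (nat_lit 18588783728) (nat_lit 228) (nat_lit 503296107) (nat_lit 105)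 (nat_lit 5) (nat_lit 107) (nat_lit 5) (nat_lit 108) (nat_lit 5) (nat_lit 512) (nat_lit 425) (nat_lit 263))) (XT.nd (nat_lit 78) (nat_lit 0) (nat_lit 0) (XT.lf (nat_lit 0) (nat_lit 4955520082) (nat_lit 152) (nat_lit 5285343841) (nat_lit 228) (nat_lit 29605273875) (nat_lit 102) (nat_lit 5) (nat_lit 104) (nat_lit 5) (nat_lit 105) (nat_lit 5) (nat_lit 513) (nat_lit 425) (nat_lit 262)) (XT.lf (nat_lit 0) (nat_lit 21566313014) (nat_lit 228) (nat_lit 10613962086) (nat_lit 76) (nat_lit 8447501823) (nat_lit 102) (nat_lit 5) (nat_lit 105) (nat_lit 5) (nat_lit 103) (nat_lit 5) (nat_lit 514) (nat_lit 425) (nat_lit 261)))) (XT.nd (nat_lit 156) (nat_lit 304) (nat_lit 0) (XT.nd (nat_lit 78) (nat_lit 76) (nat_lit 0) (XT.lf (nat_lit 0) (nat_lit 14612285982) (nat_lit 152) (nat_lit 18805689571) (nat_lit 228) (nat_lit 8009296324) (nat_lit 100) (nat_lit 5) (nat_lit 102) (nat_lit 5) (nat_lit 103) (nat_lit 5) (nat_lit 515) (nat_lit 425)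 (nat_lit 260)) (XT.lf (nat_lit 0) (nat_lit 3410500806) (nat_lit 228) (nat_lit 1479665943) (nat_lit 76) (nat_lit 37356554605) (nat_lit 99) (nat_lit 5) (nat_lit 102) (nat_lit 5) (nat_lit 100) (nat_lit 5) (nat_lit 516) (nat_lit 425) (nat_lit 259))) (XT.nd (nat_lit 78) (nat_lit 152) (nat_lit 0) (XT.lf (nat_lit 0) (nat_lit 15340098582) (nat_lit 228) (nat_lit 18161913175) (nat_lit 76) (nat_lit 9576518131) (nat_lit 97) (nat_lit 5) (nat_lit 100) (nat_lit 5) (nat_lit 98) (nat_lit 5) (nat_lit 517) (nat_lit 425) (nat_lit 258)) (XT.lf (nat_lit 0) (nat_lit 8302504178) (nat_lit 152) (nat_lit 19462275183) (nat_lit 228) (nat_lit 16166397603) (nat_lit 95) (nat_lit 5) (nat_lit 97) (nat_lit 5) (nat_lit 98) (nat_lit 5) (nat_lit 518) (nat_lit 425) (nat_lit 257))))) (XT.nd (nat_lit 312) (nat_lit 380) (nat_lit 0) (XT.nd (nat_lit 156) (nat_lit 152) (nat_lit 0) (XT.nd (nat_lit 78) (nat_lit 228) (nat_lit 0) (XT.lf (nat_lit 0) (nat_lit 35922048163)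 (nat_lit 152) (nat_lit 4817502783) (nat_lit 228) (nat_lit 4064532127) (nat_lit 95) (nat_lit 5) (nat_lit 97) (nat_lit 5) (nat_lit 98) (nat_lit 5) (nat_lit 519) (nat_lit 425) (nat_lit 256)) (XT.lf (nat_lit 0) (nat_lit 8513891096) (nat_lit 228) (nat_lit 26851676018) (nat_lit 76) (nat_lit 10326864178) (nat_lit 92) (nat_lit 5) (nat_lit 95) (nat_lit 5) (nat_lit 93) (nat_lit 5) (nat_lit 520) (nat_lit 425) (nat_lit 255))) (XT.nd (nat_lit 78) (nat_lit 0) (nat_lit 0) (XT.lf (nat_lit 0) (nat_lit 890180955) (nat_lit 152) (nat_lit 20638717332) (nat_lit 228) (nat_lit 25073096776) (nat_lit 90) (nat_lit 5) (nat_lit 92) (nat_lit 5) (nat_lit 93) (nat_lit 5) (nat_lit 521) (nat_lit 425) (nat_lit 254)) (XT.lf (nat_lit 0) (nat_lit 30003910107) (nat_lit 152) (nat_lit 5195753184) (nat_lit 228) (nat_lit 12331223346) (nat_lit 90) (nat_lit 5) (nat_lit 92) (nat_lit 5) (nat_lit 93) (nat_lit 5) (nat_lit 522) (nat_lit 425) (nat_lit 253)))) (XT.nd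 (nat_lit 156) (nat_lit 228) (nat_lit 0) (XT.nd (nat_lit 78) (nat_lit 0) (nat_lit 0) (XT.lf (nat_lit 0) (nat_lit 988404926) (nat_lit 152) (nat_lit 36874563439) (nat_lit 76) (nat_lit 10618118916) (nat_lit 88) (nat_lit 5) (nat_lit 90) (nat_lit 5) (nat_lit 89) (nat_lit 5) (nat_lit 523) (nat_lit 425) (nat_lit 252)) (XT.lf (nat_lit 0) (nat_lit 14684251589) (nat_lit 152) (nat_lit 7667090919) (nat_lit 76) (nat_lit 27098054557) (nat_lit 88) (nat_lit 5) (nat_lit 90) (nat_lit 5) (nat_lit 89) (nat_lit 5) (nat_lit 524) (nat_lit 425) (nat_lit 251))) (XT.nd (nat_lit 78) (nat_lit 76) (nat_lit 0) (XT.lf (nat_lit 0) (nat_lit 22852209545) (nat_lit 152) (nat_lit 6152891164) (nat_lit 228) (nat_lit 21435231728) (nat_lit 86) (nat_lit 5) (nat_lit 88) (nat_lit 5) (nat_lit 89) (nat_lit 5) (nat_lit 525) (nat_lit 425) (nat_lit 250)) (XT.lf (nat_lit 0) (nat_lit 2930422064) (nat_lit 76) (nat_lit 41027221925) (nat_lit 152) (nat_lit 7497289922)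 (nat_lit 85) (nat_lit 5) (nat_lit 86) (nat_lit 5) (nat_lit 87) (nat_lit 4) (nat_lit 526) (nat_lit 425) (nat_lit 249)))))) (XT.nd (nat_lit 624) (nat_lit 760) (nat_lit 0) (XT.nd (nat_lit 312) (nat_lit 380) (nat_lit 0) (XT.nd (nat_lit 156) (nat_lit 76) (nat_lit 0) (XT.nd (nat_lit 78) (nat_lit 152) (nat_lit 0) (XT.lf (nat_lit 0) (nat_lit 7061697846) (nat_lit 152) (nat_lit 17701523164) (nat_lit 76) (nat_lit 27724672167) (nat_lit 84) (nat_lit 5) (nat_lit 86) (nat_lit 5) (nat_lit 85) (nat_lit 5) (nat_lit 527) (nat_lit 425) (nat_lit 248)) (XT.lf (nat_lit 0) (nat_lit 14239743487) (nat_lit 152) (nat_lit 7798548926) (nat_lit 228) (nat_lit 31507376225) (nat_lit 82) (nat_lit 5) (nat_lit 84) (nat_lit 5) (nat_lit 85) (nat_lit 5) (nat_lit 528) (nat_lit 425) (nat_lit 247))) (XT.nd (nat_lit 78) (nat_lit 76) (nat_lit 0) (XT.lf (nat_lit 0) (nat_lit 37732367660) (nat_lit 228) (nat_lit 7232540730) (nat_lit 76) (nat_lit 9662223579) (nat_lit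 82) (nat_lit 5) (nat_lit 85) (nat_lit 5) (nat_lit 83) (nat_lit 4) (nat_lit 529) (nat_lit 425) (nat_lit 246)) (XT.lf (nat_lit 0) (nat_lit 26227859586) (nat_lit 76) (nat_lit 27993552436) (nat_lit 152) (nat_lit 1509902861) (nat_lit 81) (nat_lit 5) (nat_lit 82) (nat_lit 5) (nat_lit 83) (nat_lit 4) (nat_lit 530) (nat_lit 425) (nat_lit 245)))) (XT.nd (nat_lit 156) (nat_lit 152) (nat_lit 0) (XT.nd (nat_lit 78) (nat_lit 0) (nat_lit 0) (XT.lf (nat_lit 0) (nat_lit 3901722338) (nat_lit 152) (nat_lit 10261111012) (nat_lit 228) (nat_lit 42698473107) (nat_lit 78) (nat_lit 5) (nat_lit 80) (nat_lit 5) (nat_lit 81) (nat_lit 5) (nat_lit 531) (nat_lit 425) (nat_lit 244)) (XT.lf (nat_lit 0) (nat_lit 30648049838) (nat_lit 228) (nat_lit 19207038249) (nat_lit 76) (nat_lit 8158481913) (nat_lit 78) (nat_lit 5) (nat_lit 81) (nat_lit 5) (nat_lit 79) (nat_lit 4) (nat_lit 532) (nat_lit 425) (nat_lit 243))) (XT.nd (nat_lit 78) (nat_lit 76)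 (nat_lit 0) (XT.lf (nat_lit 0) (nat_lit 15754405749) (nat_lit 76) (nat_lit 32121439884) (nat_lit 152) (nat_lit 11317115210) (nat_lit 77) (nat_lit 5) (nat_lit 78) (nat_lit 5) (nat_lit 79) (nat_lit 4) (nat_lit 533) (nat_lit 425) (nat_lit 242)) (XT.lf (nat_lit 0) (nat_lit 5301889301) (nat_lit 152) (nat_lit 8305039476) (nat_lit 76) (nat_lit 46793575464) (nat_lit 76) (nat_lit 5) (nat_lit 78) (nat_lit 5) (nat_lit 77) (nat_lit 5) (nat_lit 534) (nat_lit 425) (nat_lit 241))))) (XT.nd (nat_lit 312) (nat_lit 304) (nat_lit 0) (XT.nd (nat_lit 156) (nat_lit 228) (nat_lit 0) (XT.nd (nat_lit 78) (nat_lit 76) (nat_lit 0) (XT.lf (nat_lit 0) (nat_lit 22515584505) (nat_lit 228) (nat_lit 33375473737) (nat_lit 76) (nat_lit 5740146749) (nat_lit 74) (nat_lit 5) (nat_lit 77) (nat_lit 5) (nat_lit 75) (nat_lit 4) (nat_lit 535) (nat_lit 425) (nat_lit 240)) (XT.lf (nat_lit 0) (nat_lit 3103008228) (nat_lit 76) (nat_lit 37387078177) (nat_lit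 152) (nat_lit 22401408554) (nat_lit 73) (nat_lit 5) (nat_lit 74) (nat_lit 5) (nat_lit 75) (nat_lit 4) (nat_lit 536) (nat_lit 425) (nat_lit 239))) (XT.nd (nat_lit 78) (nat_lit 228) (nat_lit 0) (XT.lf (nat_lit 0) (nat_lit 41350850150) (nat_lit 76) (nat_lit 17985204054) (nat_lit 152) (nat_lit 4843572564) (nat_lit 73) (nat_lit 5) (nat_lit 74) (nat_lit 5) (nat_lit 75) (nat_lit 4) (nat_lit 537) (nat_lit 425) (nat_lit 238)) (XT.lf (nat_lit 0) (nat_lit 13147887654) (nat_lit 228) (nat_lit 50116134364) (nat_lit 76) (nat_lit 2233604099) (nat_lit 70) (nat_lit 5) (nat_lit 73) (nat_lit 5) (nat_lit 71) (nat_lit 4) (nat_lit 538) (nat_lit 425) (nat_lit 237)))) (XT.nd (nat_lit 156) (nat_lit 228) (nat_lit 0) (XT.nd (nat_lit 78) (nat_lit 76) (nat_lit 0) (XT.lf (nat_lit 0) (nat_lit 31987928444) (nat_lit 228) (nat_lit 11879520432) (nat_lit 76) (nat_lit 22974092313) (nat_lit 70) (nat_lit 5) (nat_lit 73) (nat_lit 5) (nat_lit 71) (nat_lit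 4) (nat_lit 539) (nat_lit 425) (nat_lit 236)) (XT.lf (nat_lit 0) (nat_lit 28042670915) (nat_lit 76) (nat_lit 23615507641) (nat_lit 152) (nat_lit 16559644975) (nat_lit 69) (nat_lit 5) (nat_lit 70) (nat_lit 5) (nat_lit 71) (nat_lit 4) (nat_lit 540) (nat_lit 425) (nat_lit 235))) (XT.nd (nat_lit 78) (nat_lit 152) (nat_lit 0) (XT.lf (nat_lit 0) (nat_lit 2355186752) (nat_lit 152) (nat_lit 257623202) (nat_lit 76) (nat_lit 67018428119) (nat_lit 68) (nat_lit 5) (nat_lit 70) (nat_lit 5) (nat_lit 69) (nat_lit 5) (nat_lit 541) (nat_lit 425) (nat_lit 234)) (XT.lf (nat_lit 0) (nat_lit 22087450657) (nat_lit 228) (nat_lit 29763966468) (nat_lit 76) (nat_lit 19213234684) (nat_lit 66) (nat_lit 5) (nat_lit 69) (nat_lit 5) (nat_lit 67) (nat_lit 4) (nat_lit 542) (nat_lit 425) (nat_lit 233))))))))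
noncomputable def xc154 : XT := (XT.nd (nat_lit 55068) (nat_lit 0) (nat_lit 8664) (XT.nd (nat_lit 53820) (nat_lit 0) (nat_lit 17556) (XT.nd (nat_lit 546) (nat_lit 76) (nat_lit 0) (XT.nd (nat_lit 234) (nat_lit 228) (nat_lit 0) (XT.nd (nat_lit 78) (nat_lit 152) (nat_lit 0) (XT.lf (nat_lit 0) (nat_lit 11765226881) (nat_lit 76) (nat_lit 30783638157) (nat_lit 152) (nat_lit 29988087496) (nat_lit 65) (nat_lit 5) (nat_lit 66) (nat_lit 5) (nat_lit 67) (nat_lit 4) (nat_lit 543) (nat_lit 425) (nat_lit 232)) (XT.nd (nat_lit 78) (nat_lit 152) (nat_lit 0) (XT.lf (nat_lit 0) (nat_lit 55142017277) (nat_lit 76) (nat_lit 8778301180) (nat_lit 152) (nat_lit 10124217978) (nat_lit 65) (nat_lit 5) (nat_lit 66) (nat_lit 5) (nat_lit 67) (nat_lit 4) (nat_lit 544) (nat_lit 425) (nat_lit 231)) (XT.lf (nat_lit 0) (nat_lit 10502809090) (nat_lit 152) (nat_lit 51129081795) (nat_lit 76) (nat_lit 13951408693) (nat_lit 63) (nat_lit 5) (nat_lit 65)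 (nat_lit 5) (nat_lit 64) (nat_lit 4) (nat_lit 545) (nat_lit 425) (nat_lit 230)))) (XT.nd (nat_lit 156) (nat_lit 152) (nat_lit 0) (XT.nd (nat_lit 78) (nat_lit 76) (nat_lit 0) (XT.lf (nat_lit 0) (nat_lit 31820574442) (nat_lit 152) (nat_lit 7860662099) (nat_lit 76) (nat_lit 37475719503) (nat_lit 63) (nat_lit 5) (nat_lit 65) (nat_lit 5) (nat_lit 64) (nat_lit 4) (nat_lit 546) (nat_lit 425) (nat_lit 229)) (XT.lf (nat_lit 0) (nat_lit 37428149515) (nat_lit 76) (nat_lit 16705361907) (nat_lit 152) (nat_lit 24633641667) (nat_lit 62) (nat_lit 5) (nat_lit 63) (nat_lit 5) (nat_lit 64) (nat_lit 4) (nat_lit 547) (nat_lit 425) (nat_lit 228))) (XT.nd (nat_lit 78) (nat_lit 76) (nat_lit 0) (XT.lf (nat_lit 0) (nat_lit 3812161795) (nat_lit 76) (nat_lit 73483248325) (nat_lit 76) (nat_lit 3124858762) (nat_lit 61) (nat_lit 4) (nat_lit 62) (nat_lit 5) (nat_lit 62) (nat_lit 4) (nat_lit 548) (nat_lit 425) (nat_lit 227)) (XT.lf (nat_lit 0)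 (nat_lit 19240702595) (nat_lit 152) (nat_lit 31305666373) (nat_lit 76) (nat_lit 31553636328) (nat_lit 60) (nat_lit 5) (nat_lit 62) (nat_lit 5) (nat_lit 61) (nat_lit 4) (nat_lit 549) (nat_lit 425) (nat_lit 226))))) (XT.nd (nat_lit 52962) (nat_lit 0) (nat_lit 21508) (XT.nd (nat_lit 52806) (nat_lit 0) (nat_lit 21432) (XT.nd (nat_lit 78) (nat_lit 0) (nat_lit 0) (XT.lf (nat_lit 0) (nat_lit 15621953046) (nat_lit 76) (nat_lit 26738626674) (nat_lit 152) (nat_lit 41464241283) (nat_lit 59) (nat_lit 5) (nat_lit 60) (nat_lit 5) (nat_lit 61) (nat_lit 4) (nat_lit 550) (nat_lit 425) (nat_lit 225)) (XT.lf (nat_lit 0) (nat_lit 64591417057) (nat_lit 76) (nat_lit 1894792333) (nat_lit 152) (nat_lit 19105807144) (nat_lit 59) (nat_lit 5) (nat_lit 60) (nat_lit 5) (nat_lit 61) (nat_lit 4) (nat_lit 551) (nat_lit 425) (nat_lit 224))) (XT.nd (nat_lit 78) (nat_lit 0) (nat_lit 0) (XT.lf (nat_lit 0) (nat_lit 1920898392) (nat_lit 1140) (nat_lit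 1371717582) (nat_lit 1140) (nat_lit 1371717582) (nat_lit 341) (nat_lit 3) (nat_lit 356) (nat_lit 3) (nat_lit 356) (nat_lit 5) (nat_lit 426) (nat_lit 426) (nat_lit 348)) (XT.lf (nat_lit 76) (nat_lit 1923338793) (nat_lit 0) (nat_lit 2818066435) (nat_lit 1140) (nat_lit 4701849200) (nat_lit 342) (nat_lit 5) (nat_lit 341) (nat_lit 3) (nat_lit 356) (nat_lit 5) (nat_lit 427) (nat_lit 426) (nat_lit 347)))) (XT.nd (nat_lit 156) (nat_lit 0) (nat_lit 0) (XT.nd (nat_lit 78) (nat_lit 0) (nat_lit 0) (XT.lf (nat_lit 0) (nat_lit 5674036514) (nat_lit 1064) (nat_lit 2802581493) (nat_lit 1140) (nat_lit 1084483569) (nat_lit 342) (nat_lit 5) (nat_lit 356) (nat_lit 5) (nat_lit 357) (nat_lit 5) (nat_lit 428) (nat_lit 426) (nat_lit 346)) (XT.lf (nat_lit 76) (nat_lit 2050913138) (nat_lit 0) (nat_lit 4600133656) (nat_lit 1140) (nat_lit 3030948496) (nat_lit 343) (nat_lit 5) (nat_lit 342) (nat_lit 5) (nat_lit 357) (nat_lit 5) (nat_lit 429)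 (nat_lit 426) (nat_lit 345))) (XT.nd (nat_lit 78) (nat_lit 0) (nat_lit 76) (XT.lf (nat_lit 76) (nat_lit 7090155550) (nat_lit 0) (nat_lit 565039031) (nat_lit 1140) (nat_lit 2151389481) (nat_lit 343) (nat_lit 5) (nat_lit 342) (nat_lit 5) (nat_lit 357) (nat_lit 5) (nat_lit 430) (nat_lit 426) (nat_lit 344)) (XT.lf (nat_lit 76) (nat_lit 2338969974) (nat_lit 0) (nat_lit 6378037440) (nat_lit 1140) (nat_lit 1217079839) (nat_lit 344) (nat_lit 5) (nat_lit 343) (nat_lit 5) (nat_lit 358) (nat_lit 5) (nat_lit 431) (nat_lit 426) (nat_lit 343)))))) (XT.nd (nat_lit 624) (nat_lit 2964) (nat_lit 0) (XT.nd (nat_lit 312) (nat_lit 0) (nat_lit 76) (XT.nd (nat_lit 156) (nat_lit 0) (nat_lit 0) (XT.nd (nat_lit 78) (nat_lit 1064) (nat_lit 0) (XT.lf (nat_lit 76) (nat_lit 7578366863) (nat_lit 0) (nat_lit 2236503595) (nat_lit 1140) (nat_lit 250422092) (nat_lit 344) (nat_lit 5) (nat_lit 343) (nat_lit 5) (nat_lit 358) (nat_lit 5) (nat_lit 432)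 (nat_lit 426) (nat_lit 342)) (XT.lf (nat_lit 0) (nat_lit 749380574) (nat_lit 1140) (nat_lit 7415825979) (nat_lit 1216) (nat_lit 2034454642) (nat_lit 329) (nat_lit 5) (nat_lit 344) (nat_lit 5) (nat_lit 345) (nat_lit 5) (nat_lit 433) (nat_lit 426) (nat_lit 341))) (XT.nd (nat_lit 78) (nat_lit 0) (nat_lit 76) (XT.lf (nat_lit 0) (nat_lit 1794183730) (nat_lit 1140) (nat_lit 2116925602) (nat_lit 1216) (nat_lit 6426278637) (nat_lit 329) (nat_lit 5) (nat_lit 344) (nat_lit 5) (nat_lit 345) (nat_lit 5) (nat_lit 434) (nat_lit 426) (nat_lit 340)) (XT.lf (nat_lit 0) (nat_lit 2881174594) (nat_lit 1140) (nat_lit 7094833268) (nat_lit 1216) (nat_lit 502915942) (nat_lit 330) (nat_lit 5) (nat_lit 345) (nat_lit 5) (nat_lit 346) (nat_lit 5) (nat_lit 435) (nat_lit 426) (nat_lit 339)))) (XT.nd (nat_lit 156) (nat_lit 0) (nat_lit 76) (XT.nd (nat_lit 78) (nat_lit 0) (nat_lit 0) (XT.lf (nat_lit 0) (nat_lit 4035108052) (nat_lit 1140) (nat_lit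 1588064293) (nat_lit 1216) (nat_lit 5000505871) (nat_lit 330) (nat_lit 5) (nat_lit 345) (nat_lit 5) (nat_lit 346) (nat_lit 5) (nat_lit 436) (nat_lit 426) (nat_lit 338)) (XT.lf (nat_lit 76) (nat_lit 4146771405) (nat_lit 0) (nat_lit 1091526661) (nat_lit 1216) (nat_lit 5534040456) (nat_lit 331) (nat_lit 5) (nat_lit 330) (nat_lit 5) (nat_lit 346) (nat_lit 5) (nat_lit 437) (nat_lit 426) (nat_lit 337))) (XT.nd (nat_lit 78) (nat_lit 0) (nat_lit 0) (XT.lf (nat_lit 0) (nat_lit 6503559482) (nat_lit 1140) (nat_lit 891990869) (nat_lit 1216) (nat_lit 3529131362) (nat_lit 331) (nat_lit 5) (nat_lit 346) (nat_lit 5) (nat_lit 347) (nat_lit 5) (nat_lit 438) (nat_lit 426) (nat_lit 336)) (XT.lf (nat_lit 76) (nat_lit 5083848773) (nat_lit 0) (nat_lit 2758727810) (nat_lit 1216) (nat_lit 3237946958) (nat_lit 332) (nat_lit 5) (nat_lit 331) (nat_lit 5) (nat_lit 347) (nat_lit 5) (nat_lit 439) (nat_lit 426) (nat_lit 335))))) (XT.nd (nat_lit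 312) (nat_lit 2052) (nat_lit 0) (XT.nd (nat_lit 156) (nat_lit 1140) (nat_lit 0) (XT.nd (nat_lit 78) (nat_lit 0) (nat_lit 0) (XT.lf (nat_lit 0) (nat_lit 9226947534) (nat_lit 1140) (nat_lit 21719362) (nat_lit 1216) (nat_lit 1992220444) (nat_lit 332) (nat_lit 5) (nat_lit 347) (nat_lit 5) (nat_lit 348) (nat_lit 5) (nat_lit 440) (nat_lit 426) (nat_lit 334)) (XT.lf (nat_lit 76) (nat_lit 6208141181) (nat_lit 0) (nat_lit 4509074006) (nat_lit 1216) (nat_lit 686918044) (nat_lit 333) (nat_lit 5) (nat_lit 332) (nat_lit 5) (nat_lit 348) (nat_lit 5) (nat_lit 441) (nat_lit 426) (nat_lit 333))) (XT.nd (nat_lit 78) (nat_lit 0) (nat_lit 0) (XT.lf (nat_lit 0) (nat_lit 658374441) (nat_lit 1216) (nat_lit 10527676751) (nat_lit 76) (nat_lit 386279430) (nat_lit 317) (nat_lit 5) (nat_lit 333) (nat_lit 5) (nat_lit 318) (nat_lit 5) (nat_lit 442) (nat_lit 426) (nat_lit 332)) (XT.lf (nat_lit 0) (nat_lit 2106002780) (nat_lit 1216) (nat_lit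 4235886901) (nat_lit 76) (nat_lit 5401208680) (nat_lit 317) (nat_lit 5) (nat_lit 333) (nat_lit 5) (nat_lit 318) (nat_lit 5) (nat_lit 443) (nat_lit 426) (nat_lit 331)))) (XT.nd (nat_lit 156) (nat_lit 836) (nat_lit 0) (XT.nd (nat_lit 78) (nat_lit 0) (nat_lit 0) (XT.lf (nat_lit 0) (nat_lit 2270561539) (nat_lit 1216) (nat_lit 1327111180) (nat_lit 1292) (nat_lit 8321299940) (nat_lit 301) (nat_lit 5) (nat_lit 317) (nat_lit 5) (nat_lit 318) (nat_lit 5) (nat_lit 444) (nat_lit 426) (nat_lit 330)) (XT.lf (nat_lit 0) (nat_lit 5193438615) (nat_lit 1292) (nat_lit 3095993774) (nat_lit 76) (nat_lit 3808912273) (nat_lit 301) (nat_lit 5) (nat_lit 318) (nat_lit 5) (nat_lit 302) (nat_lit 5) (nat_lit 445) (nat_lit 426) (nat_lit 329))) (XT.nd (nat_lit 78) (nat_lit 0) (nat_lit 0) (XT.lf (nat_lit 0) (nat_lit 3693610665) (nat_lit 836) (nat_lit 3171969968) (nat_lit 912) (nat_lit 5416663897) (nat_lit 290) (nat_lit 5) (nat_lit 301) (nat_lit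 5) (nat_lit 302) (nat_lit 5) (nat_lit 446) (nat_lit 426) (nat_lit 328)) (XT.lf (nat_lit 0) (nat_lit 8619922663) (nat_lit 912) (nat_lit 1759592618) (nat_lit 76) (nat_lit 2091186788) (nat_lit 290) (nat_lit 5) (nat_lit 302) (nat_lit 5) (nat_lit 291) (nat_lit 5) (nat_lit 447) (nat_lit 426) (nat_lit 327))))))) (XT.nd (nat_lit 1170) (nat_lit 3876) (nat_lit 0) (XT.nd (nat_lit 546) (nat_lit 2584) (nat_lit 0) (XT.nd (nat_lit 234) (nat_lit 1140) (nat_lit 0) (XT.nd (nat_lit 78) (nat_lit 684) (nat_lit 0) (XT.lf (nat_lit 0) (nat_lit 5328691692) (nat_lit 608) (nat_lit 5161691465) (nat_lit 684) (nat_lit 2172527225) (nat_lit 282) (nat_lit 5) (nat_lit 290) (nat_lit 5) (nat_lit 291) (nat_lit 5) (nat_lit 448) (nat_lit 426) (nat_lit 326)) (XT.nd (nat_lit 78) (nat_lit 684) (nat_lit 0) (XT.lf (nat_lit 0) (nat_lit 12418197247) (nat_lit 684) (nat_lit 215475010) (nat_lit 76) (nat_lit 227177141) (nat_lit 282) (nat_lit 5) (nat_lit 291) (nat_lit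 5) (nat_lit 283) (nat_lit 5) (nat_lit 449) (nat_lit 426) (nat_lit 325)) (XT.lf (nat_lit 0) (nat_lit 1415994320) (nat_lit 684) (nat_lit 5887618670) (nat_lit 76) (nat_lit 5757638786) (nat_lit 273) (nat_lit 5) (nat_lit 282) (nat_lit 5) (nat_lit 274) (nat_lit 5) (nat_lit 450) (nat_lit 426) (nat_lit 324)))) (XT.nd (nat_lit 156) (nat_lit 608) (nat_lit 0) (XT.nd (nat_lit 78) (nat_lit 0) (nat_lit 0) (XT.lf (nat_lit 0) (nat_lit 1528412265) (nat_lit 532) (nat_lit 1791957839) (nat_lit 608) (nat_lit 9947200145) (nat_lit 266) (nat_lit 5) (nat_lit 273) (nat_lit 5) (nat_lit 274) (nat_lit 5) (nat_lit 451) (nat_lit 426) (nat_lit 323)) (XT.lf (nat_lit 0) (nat_lit 5361589589) (nat_lit 608) (nat_lit 4247202152) (nat_lit 76) (nat_lit 3868896625) (nat_lit 266) (nat_lit 5) (nat_lit 274) (nat_lit 5) (nat_lit 267) (nat_lit 5) (nat_lit 452) (nat_lit 426) (nat_lit 322))) (XT.nd (nat_lit 78) (nat_lit 0) (nat_lit 0) (XT.lf (nat_lit 0) (nat_lit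 3502061507) (nat_lit 608) (nat_lit 3996230000) (nat_lit 684) (nat_lit 6194792564) (nat_lit 258) (nat_lit 5) (nat_lit 266) (nat_lit 5) (nat_lit 267) (nat_lit 5) (nat_lit 453) (nat_lit 426) (nat_lit 321)) (XT.lf (nat_lit 0) (nat_lit 9742721048) (nat_lit 684) (nat_lit 2378734759) (nat_lit 76) (nat_lit 1792178421) (nat_lit 258) (nat_lit 5) (nat_lit 267) (nat_lit 5) (nat_lit 259) (nat_lit 5) (nat_lit 454) (nat_lit 426) (nat_lit 320))))) (XT.nd (nat_lit 312) (nat_lit 988) (nat_lit 0) (XT.nd (nat_lit 156) (nat_lit 988) (nat_lit 0) (XT.nd (nat_lit 78) (nat_lit 76) (nat_lit 0) (XT.lf (nat_lit 0) (nat_lit 5722184434) (nat_lit 532) (nat_lit 6410519164) (nat_lit 608) (nat_lit 2005752027) (nat_lit 251) (nat_lit 5) (nat_lit 258) (nat_lit 5) (nat_lit 259) (nat_lit 5) (nat_lit 455) (nat_lit 426) (nat_lit 319)) (XT.lf (nat_lit 0) (nat_lit 228038950) (nat_lit 608) (nat_lit 274782670) (nat_lit 76) (nat_lit 13866895009) (nat_lit 250)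 (nat_lit 5) (nat_lit 258) (nat_lit 5) (nat_lit 251) (nat_lit 5) (nat_lit 456) (nat_lit 426) (nat_lit 318))) (XT.nd (nat_lit 78) (nat_lit 456) (nat_lit 0) (XT.lf (nat_lit 0) (nat_lit 2606572448) (nat_lit 608) (nat_lit 6425724270) (nat_lit 76) (nat_lit 5571482931) (nat_lit 243) (nat_lit 5) (nat_lit 251) (nat_lit 5) (nat_lit 244) (nat_lit 5) (nat_lit 457) (nat_lit 426) (nat_lit 317)) (XT.lf (nat_lit 0) (nat_lit 2062845803) (nat_lit 456) (nat_lit 3005767274) (nat_lit 532) (nat_lit 9775888136) (nat_lit 237) (nat_lit 5) (nat_lit 243) (nat_lit 5) (nat_lit 244) (nat_lit 5) (nat_lit 458) (nat_lit 426) (nat_lit 316)))) (XT.nd (nat_lit 156) (nat_lit 532) (nat_lit 0) (XT.nd (nat_lit 78) (nat_lit 456) (nat_lit 0) (XT.lf (nat_lit 0) (nat_lit 7685619642) (nat_lit 532) (nat_lit 4202113188) (nat_lit 76) (nat_lit 3202279609) (nat_lit 237) (nat_lit 5) (nat_lit 244) (nat_lit 5) (nat_lit 238) (nat_lit 5) (nat_lit 459) (nat_lit 426)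 (nat_lit 315)) (XT.lf (nat_lit 0) (nat_lit 4678889623) (nat_lit 456) (nat_lit 5762225644) (nat_lit 532) (nat_lit 4899975489) (nat_lit 231) (nat_lit 5) (nat_lit 237) (nat_lit 5) (nat_lit 238) (nat_lit 5) (nat_lit 460) (nat_lit 426) (nat_lit 314))) (XT.nd (nat_lit 78) (nat_lit 532) (nat_lit 0) (XT.lf (nat_lit 0) (nat_lit 13312866617) (nat_lit 532) (nat_lit 1709350703) (nat_lit 76) (nat_lit 576477464) (nat_lit 231) (nat_lit 5) (nat_lit 238) (nat_lit 5) (nat_lit 232) (nat_lit 5) (nat_lit 461) (nat_lit 426) (nat_lit 313)) (XT.lf (nat_lit 0) (nat_lit 515826559) (nat_lit 532) (nat_lit 8279737350) (nat_lit 76) (nat_lit 7064836155) (nat_lit 224) (nat_lit 5) (nat_lit 231) (nat_lit 5) (nat_lit 225) (nat_lit 5) (nat_lit 462) (nat_lit 426) (nat_lit 312)))))) (XT.nd (nat_lit 624) (nat_lit 1748) (nat_lit 0) (XT.nd (nat_lit 312) (nat_lit 1292) (nat_lit 0) (XT.nd (nat_lit 156) (nat_lit 380) (nat_lit 0) (XT.nd (nat_lit 78) (nat_lit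 0) (nat_lit 0) (XT.lf (nat_lit 0) (nat_lit 1035072501) (nat_lit 456) (nat_lit 2333908160) (nat_lit 532) (nat_lit 12759896098) (nat_lit 218) (nat_lit 5) (nat_lit 224) (nat_lit 5) (nat_lit 225) (nat_lit 5) (nat_lit 463) (nat_lit 426) (nat_lit 311)) (XT.lf (nat_lit 0) (nat_lit 6419929266) (nat_lit 532) (nat_lit 5663727705) (nat_lit 76) (nat_lit 4318385757) (nat_lit 218) (nat_lit 5) (nat_lit 225) (nat_lit 5) (nat_lit 219) (nat_lit 5) (nat_lit 464) (nat_lit 426) (nat_lit 310))) (XT.nd (nat_lit 78) (nat_lit 0) (nat_lit 0) (XT.lf (nat_lit 0) (nat_lit 4088931253) (nat_lit 380) (nat_lit 5522510828) (nat_lit 456) (nat_lit 7070491459) (nat_lit 213) (nat_lit 5) (nat_lit 218) (nat_lit 5) (nat_lit 219) (nat_lit 5) (nat_lit 465) (nat_lit 426) (nat_lit 309)) (XT.lf (nat_lit 0) (nat_lit 12955150006) (nat_lit 456) (nat_lit 2747871772) (nat_lit 76) (nat_lit 1265506718) (nat_lit 213) (nat_lit 5) (nat_lit 219) (nat_lit 5) (nat_lit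 214) (nat_lit 5) (nat_lit 466) (nat_lit 426) (nat_lit 308)))) (XT.nd (nat_lit 156) (nat_lit 380) (nat_lit 0) (XT.nd (nat_lit 78) (nat_lit 456) (nat_lit 0) (XT.lf (nat_lit 0) (nat_lit 7466947228) (nat_lit 456) (nat_lit 9045875993) (nat_lit 532) (nat_lit 747489344) (nat_lit 207) (nat_lit 5) (nat_lit 213) (nat_lit 5) (nat_lit 214) (nat_lit 5) (nat_lit 467) (nat_lit 426) (nat_lit 307)) (XT.lf (nat_lit 0) (nat_lit 451115391) (nat_lit 380) (nat_lit 2133852744) (nat_lit 456) (nat_lit 14974538951) (nat_lit 201) (nat_lit 5) (nat_lit 206) (nat_lit 5) (nat_lit 207) (nat_lit 5) (nat_lit 468) (nat_lit 426) (nat_lit 306))) (XT.nd (nat_lit 78) (nat_lit 380) (nat_lit 0) (XT.lf (nat_lit 0) (nat_lit 6137630728) (nat_lit 456) (nat_lit 6734285759) (nat_lit 76) (nat_lit 4991482084) (nat_lit 201) (nat_lit 5) (nat_lit 207) (nat_lit 5) (nat_lit 202) (nat_lit 5) (nat_lit 469) (nat_lit 426) (nat_lit 305)) (XT.lf (nat_lit 0) (nat_lit 3991339319)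 (nat_lit 380) (nat_lit 5852851895) (nat_lit 456) (nat_lit 8330796832) (nat_lit 196) (nat_lit 5) (nat_lit 201) (nat_lit 5) (nat_lit 202) (nat_lit 5) (nat_lit 470) (nat_lit 426) (nat_lit 304))))) (XT.nd (nat_lit 312) (nat_lit 988) (nat_lit 0) (XT.nd (nat_lit 156) (nat_lit 456) (nat_lit 0) (XT.nd (nat_lit 78) (nat_lit 304) (nat_lit 0) (XT.lf (nat_lit 0) (nat_lit 13731839367) (nat_lit 456) (nat_lit 3347632863) (nat_lit 76) (nat_lit 1414357011) (nat_lit 196) (nat_lit 5) (nat_lit 202) (nat_lit 5) (nat_lit 197) (nat_lit 5) (nat_lit 471) (nat_lit 426) (nat_lit 303)) (XT.lf (nat_lit 0) (nat_lit 7893407964) (nat_lit 304) (nat_lit 9964864371) (nat_lit 380) (nat_lit 960299419) (nat_lit 192) (nat_lit 5) (nat_lit 196) (nat_lit 5) (nat_lit 197) (nat_lit 5) (nat_lit 472) (nat_lit 426) (nat_lit 302))) (XT.nd (nat_lit 78) (nat_lit 0) (nat_lit 0) (XT.lf (nat_lit 0) (nat_lit 350140454) (nat_lit 380) (nat_lit 2573536961) (nat_lit 456)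 (nat_lit 16227750330) (nat_lit 186) (nat_lit 5) (nat_lit 191) (nat_lit 5) (nat_lit 192) (nat_lit 5) (nat_lit 473) (nat_lit 426) (nat_lit 301)) (XT.lf (nat_lit 0) (nat_lit 7053271532) (nat_lit 456) (nat_lit 7378692312) (nat_lit 76) (nat_lit 5057569042) (nat_lit 186) (nat_lit 5) (nat_lit 192) (nat_lit 5) (nat_lit 187) (nat_lit 5) (nat_lit 474) (nat_lit 426) (nat_lit 300)))) (XT.nd (nat_lit 156) (nat_lit 684) (nat_lit 0) (XT.nd (nat_lit 78) (nat_lit 0) (nat_lit 0) (XT.lf (nat_lit 0) (nat_lit 4431706387) (nat_lit 304) (nat_lit 6932002640) (nat_lit 380) (nat_lit 8472364146) (nat_lit 182) (nat_lit 5) (nat_lit 186) (nat_lit 5) (nat_lit 187) (nat_lit 5) (nat_lit 475) (nat_lit 426) (nat_lit 299)) (XT.lf (nat_lit 0) (nat_lit 15875331970) (nat_lit 380) (nat_lit 3467461395) (nat_lit 76) (nat_lit 848060772) (nat_lit 182) (nat_lit 5) (nat_lit 187) (nat_lit 5) (nat_lit 183) (nat_lit 5) (nat_lit 476) (nat_lit 426) (nat_lit 298)))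 (XT.nd (nat_lit 78) (nat_lit 304) (nat_lit 0) (XT.lf (nat_lit 0) (nat_lit 111785313) (nat_lit 380) (nat_lit 11635670788) (nat_lit 76) (nat_lit 8804479912) (nat_lit 177) (nat_lit 5) (nat_lit 182) (nat_lit 5) (nat_lit 178) (nat_lit 5) (nat_lit 477) (nat_lit 426) (nat_lit 297)) (XT.lf (nat_lit 0) (nat_lit 776262814) (nat_lit 304) (nat_lit 3841115301) (nat_lit 380) (nat_lit 16304224863) (nat_lit 173) (nat_lit 5) (nat_lit 177) (nat_lit 5) (nat_lit 178) (nat_lit 5) (nat_lit 478) (nat_lit 426) (nat_lit 296))))))))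
noncomputable def xc155 : XT := (XT.nd (nat_lit 2418) (nat_lit 3116) (nat_lit 0) (XT.nd (nat_lit 1170) (nat_lit 2204) (nat_lit 0) (XT.nd (nat_lit 546) (nat_lit 1368) (nat_lit 0) (XT.nd (nat_lit 234) (nat_lit 912) (nat_lit 0) (XT.nd (nat_lit 78) (nat_lit 304) (nat_lit 0) (XT.lf (nat_lit 0) (nat_lit 9407650604) (nat_lit 380) (nat_lit 7557988648) (nat_lit 76) (nat_lit 4332235911) (nat_lit 173) (nat_lit 5) (nat_lit 178) (nat_lit 5) (nat_lit 174) (nat_lit 5) (nat_lit 479) (nat_lit 426) (nat_lit 295)) (XT.nd (nat_lit 78) (nat_lit 0) (nat_lit 0) (XT.lf (nat_lit 0) (nat_lit 5460252148) (nat_lit 304) (nat_lit 8961696906) (nat_lit 380) (nat_lit 7261077475) (nat_lit 169) (nat_lit 5) (nat_lit 173) (nat_lit 5) (nat_lit 174) (nat_lit 5) (nat_lit 480) (nat_lit 426) (nat_lit 294)) (XT.lf (nat_lit 0) (nat_lit 19008871425) (nat_lit 304) (nat_lit 644077505) (nat_lit 380) (nat_lit 2424795870) (nat_lit 169) (nat_lit 5) (nat_lit 173)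 (nat_lit 5) (nat_lit 174) (nat_lit 5) (nat_lit 481) (nat_lit 426) (nat_lit 293)))) (XT.nd (nat_lit 156) (nat_lit 228) (nat_lit 0) (XT.nd (nat_lit 78) (nat_lit 304) (nat_lit 0) (XT.lf (nat_lit 0) (nat_lit 2676558446) (nat_lit 380) (nat_lit 11910169715) (nat_lit 76) (nat_lit 7891743534) (nat_lit 164) (nat_lit 5) (nat_lit 169) (nat_lit 5) (nat_lit 165) (nat_lit 5) (nat_lit 482) (nat_lit 426) (nat_lit 292)) (XT.lf (nat_lit 0) (nat_lit 1776224776) (nat_lit 304) (nat_lit 6150984853) (nat_lit 380) (nat_lit 14961941254) (nat_lit 160) (nat_lit 5) (nat_lit 164) (nat_lit 5) (nat_lit 165) (nat_lit 5) (nat_lit 483) (nat_lit 426) (nat_lit 291))) (XT.nd (nat_lit 78) (nat_lit 228) (nat_lit 0) (XT.lf (nat_lit 0) (nat_lit 13471572170) (nat_lit 380) (nat_lit 7231817601) (nat_lit 76) (nat_lit 2604675397) (nat_lit 160) (nat_lit 5) (nat_lit 165) (nat_lit 5) (nat_lit 161) (nat_lit 5) (nat_lit 484) (nat_lit 426) (nat_lit 290)) (XT.lf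 (nat_lit 0) (nat_lit 7129333389) (nat_lit 228) (nat_lit 12172982506) (nat_lit 304) (nat_lit 4433629938) (nat_lit 157) (nat_lit 5) (nat_lit 160) (nat_lit 5) (nat_lit 161) (nat_lit 5) (nat_lit 485) (nat_lit 426) (nat_lit 289))))) (XT.nd (nat_lit 312) (nat_lit 760) (nat_lit 0) (XT.nd (nat_lit 156) (nat_lit 228) (nat_lit 0) (XT.nd (nat_lit 78) (nat_lit 304) (nat_lit 0) (XT.lf (nat_lit 0) (nat_lit 1173653286) (nat_lit 304) (nat_lit 2131157992) (nat_lit 76) (nat_lit 20869593518) (nat_lit 156) (nat_lit 5) (nat_lit 160) (nat_lit 5) (nat_lit 157) (nat_lit 5) (nat_lit 486) (nat_lit 426) (nat_lit 288)) (XT.lf (nat_lit 0) (nat_lit 7033341417) (nat_lit 380) (nat_lit 11705288194) (nat_lit 76) (nat_lit 5880872478) (nat_lit 152) (nat_lit 5) (nat_lit 157) (nat_lit 5) (nat_lit 153) (nat_lit 5) (nat_lit 487) (nat_lit 426) (nat_lit 287))) (XT.nd (nat_lit 78) (nat_lit 0) (nat_lit 0) (XT.lf (nat_lit 0) (nat_lit 3396363321) (nat_lit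 228) (nat_lit 9750570723) (nat_lit 304) (nat_lit 11928675254) (nat_lit 149) (nat_lit 5) (nat_lit 152) (nat_lit 5) (nat_lit 153) (nat_lit 5) (nat_lit 488) (nat_lit 426) (nat_lit 286)) (XT.lf (nat_lit 0) (nat_lit 19176846673) (nat_lit 228) (nat_lit 376425313) (nat_lit 304) (nat_lit 5988848008) (nat_lit 149) (nat_lit 5) (nat_lit 152) (nat_lit 5) (nat_lit 153) (nat_lit 5) (nat_lit 489) (nat_lit 426) (nat_lit 285)))) (XT.nd (nat_lit 156) (nat_lit 456) (nat_lit 0) (XT.nd (nat_lit 78) (nat_lit 0) (nat_lit 0) (XT.lf (nat_lit 0) (nat_lit 300119430) (nat_lit 304) (nat_lit 16530266282) (nat_lit 76) (nat_lit 9186999442) (nat_lit 145) (nat_lit 5) (nat_lit 149) (nat_lit 5) (nat_lit 146) (nat_lit 5) (nat_lit 490) (nat_lit 426) (nat_lit 284)) (XT.lf (nat_lit 0) (nat_lit 6717406190) (nat_lit 304) (nat_lit 637070358) (nat_lit 76) (nat_lit 19148852615) (nat_lit 145) (nat_lit 5) (nat_lit 149) (nat_lit 5) (nat_lit 146) (nat_lit 5)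 (nat_lit 491) (nat_lit 426) (nat_lit 283))) (XT.nd (nat_lit 78) (nat_lit 228) (nat_lit 0) (XT.lf (nat_lit 0) (nat_lit 13497554607) (nat_lit 304) (nat_lit 10991901941) (nat_lit 76) (nat_lit 2509285005) (nat_lit 142) (nat_lit 5) (nat_lit 146) (nat_lit 5) (nat_lit 143) (nat_lit 5) (nat_lit 492) (nat_lit 426) (nat_lit 282)) (XT.lf (nat_lit 0) (nat_lit 5678578828) (nat_lit 228) (nat_lit 14928123610) (nat_lit 304) (nat_lit 6898546373) (nat_lit 139) (nat_lit 5) (nat_lit 142) (nat_lit 5) (nat_lit 143) (nat_lit 5) (nat_lit 493) (nat_lit 426) (nat_lit 281)))))) (XT.nd (nat_lit 624) (nat_lit 1064) (nat_lit 0) (XT.nd (nat_lit 312) (nat_lit 608) (nat_lit 0) (XT.nd (nat_lit 156) (nat_lit 228) (nat_lit 0) (XT.nd (nat_lit 78) (nat_lit 228) (nat_lit 0) (XT.lf (nat_lit 0) (nat_lit 7904013) (nat_lit 304) (nat_lit 4962967180) (nat_lit 76) (nat_lit 23052993979) (nat_lit 138) (nat_lit 5) (nat_lit 142) (nat_lit 5) (nat_lit 139) (nat_lit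 5) (nat_lit 494) (nat_lit 426) (nat_lit 280)) (XT.lf (nat_lit 0) (nat_lit 7148320614) (nat_lit 304) (nat_lit 16034881731) (nat_lit 76) (nat_lit 5367826120) (nat_lit 135) (nat_lit 5) (nat_lit 139) (nat_lit 5) (nat_lit 136) (nat_lit 5) (nat_lit 495) (nat_lit 426) (nat_lit 279))) (XT.nd (nat_lit 78) (nat_lit 0) (nat_lit 0) (XT.lf (nat_lit 0) (nat_lit 1494983232) (nat_lit 228) (nat_lit 13114190397) (nat_lit 304) (nat_lit 14481646615) (nat_lit 132) (nat_lit 5) (nat_lit 135) (nat_lit 5) (nat_lit 136) (nat_lit 5) (nat_lit 496) (nat_lit 426) (nat_lit 278)) (XT.lf (nat_lit 0) (nat_lit 19866230931) (nat_lit 228) (nat_lit 2581671703) (nat_lit 304) (nat_lit 7194281928) (nat_lit 132) (nat_lit 5) (nat_lit 135) (nat_lit 5) (nat_lit 136) (nat_lit 5) (nat_lit 497) (nat_lit 426) (nat_lit 277)))) (XT.nd (nat_lit 156) (nat_lit 380) (nat_lit 0) (XT.nd (nat_lit 78) (nat_lit 0) (nat_lit 0) (XT.lf (nat_lit 0) (nat_lit 462126595) (nat_lit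 228) (nat_lit 21555029425) (nat_lit 76) (nat_lit 8188149018) (nat_lit 129) (nat_lit 5) (nat_lit 132) (nat_lit 5) (nat_lit 130) (nat_lit 5) (nat_lit 498) (nat_lit 426) (nat_lit 276)) (XT.lf (nat_lit 0) (nat_lit 8321219593) (nat_lit 228) (nat_lit 3063470142) (nat_lit 76) (nat_lit 19394965045) (nat_lit 129) (nat_lit 5) (nat_lit 132) (nat_lit 5) (nat_lit 130) (nat_lit 5) (nat_lit 499) (nat_lit 426) (nat_lit 275))) (XT.nd (nat_lit 78) (nat_lit 152) (nat_lit 0) (XT.lf (nat_lit 0) (nat_lit 16288020735) (nat_lit 228) (nat_lit 277192043) (nat_lit 304) (nat_lit 14801548678) (nat_lit 126) (nat_lit 5) (nat_lit 129) (nat_lit 5) (nat_lit 130) (nat_lit 5) (nat_lit 500) (nat_lit 426) (nat_lit 274)) (XT.lf (nat_lit 0) (nat_lit 4275413004) (nat_lit 152) (nat_lit 20953366167) (nat_lit 228) (nat_lit 6737534815) (nat_lit 124) (nat_lit 5) (nat_lit 126) (nat_lit 5) (nat_lit 127) (nat_lit 5) (nat_lit 501) (nat_lit 426) (nat_lit 273)))))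 (XT.nd (nat_lit 312) (nat_lit 608) (nat_lit 0) (XT.nd (nat_lit 156) (nat_lit 152) (nat_lit 0) (XT.nd (nat_lit 78) (nat_lit 228) (nat_lit 0) (XT.lf (nat_lit 0) (nat_lit 1686937633) (nat_lit 228) (nat_lit 8092045270) (nat_lit 76) (nat_lit 22799943839) (nat_lit 123) (nat_lit 5) (nat_lit 126) (nat_lit 5) (nat_lit 124) (nat_lit 5) (nat_lit 502) (nat_lit 426) (nat_lit 272)) (XT.lf (nat_lit 0) (nat_lit 10357780733) (nat_lit 304) (nat_lit 20968158139) (nat_lit 76) (nat_lit 1878106366) (nat_lit 120) (nat_lit 5) (nat_lit 124) (nat_lit 5) (nat_lit 121) (nat_lit 5) (nat_lit 503) (nat_lit 426) (nat_lit 271))) (XT.nd (nat_lit 78) (nat_lit 152) (nat_lit 0) (XT.lf (nat_lit 0) (nat_lit 19460975232) (nat_lit 304) (nat_lit 615953538) (nat_lit 76) (nat_lit 13765821963) (nat_lit 120) (nat_lit 5) (nat_lit 124) (nat_lit 5) (nat_lit 121) (nat_lit 5) (nat_lit 504) (nat_lit 426) (nat_lit 270)) (XT.lf (nat_lit 0) (nat_lit 20739486826) (nat_lit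 152) (nat_lit 8290228361) (nat_lit 228) (nat_lit 5465128938) (nat_lit 118) (nat_lit 5) (nat_lit 120) (nat_lit 5) (nat_lit 121) (nat_lit 5) (nat_lit 505) (nat_lit 426) (nat_lit 269)))) (XT.nd (nat_lit 156) (nat_lit 304) (nat_lit 0) (XT.nd (nat_lit 78) (nat_lit 0) (nat_lit 0) (XT.lf (nat_lit 0) (nat_lit 3757805345) (nat_lit 304) (nat_lit 27517355213) (nat_lit 76) (nat_lit 3886926692) (nat_lit 114) (nat_lit 5) (nat_lit 118) (nat_lit 5) (nat_lit 115) (nat_lit 5) (nat_lit 506) (nat_lit 426) (nat_lit 268)) (XT.lf (nat_lit 0) (nat_lit 13363087558) (nat_lit 304) (nat_lit 6026040942) (nat_lit 76) (nat_lit 16452130958) (nat_lit 114) (nat_lit 5) (nat_lit 118) (nat_lit 5) (nat_lit 115) (nat_lit 5) (nat_lit 507) (nat_lit 426) (nat_lit 267))) (XT.nd (nat_lit 78) (nat_lit 152) (nat_lit 0) (XT.lf (nat_lit 0) (nat_lit 16418663309) (nat_lit 152) (nat_lit 6989035537) (nat_lit 228) (nat_lit 13128573063) (nat_lit 112) (nat_lit 5) (nat_lit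 114) (nat_lit 5) (nat_lit 115) (nat_lit 5) (nat_lit 508) (nat_lit 426) (nat_lit 266)) (XT.lf (nat_lit 0) (nat_lit 2388573791) (nat_lit 152) (nat_lit 31498457101) (nat_lit 228) (nat_lit 3361102561) (nat_lit 110) (nat_lit 5) (nat_lit 112) (nat_lit 5) (nat_lit 113) (nat_lit 5) (nat_lit 509) (nat_lit 426) (nat_lit 265))))))) (XT.nd (nat_lit 1248) (nat_lit 1444) (nat_lit 0) (XT.nd (nat_lit 624) (nat_lit 836) (nat_lit 0) (XT.nd (nat_lit 312) (nat_lit 456) (nat_lit 0) (XT.nd (nat_lit 156) (nat_lit 152) (nat_lit 0) (XT.nd (nat_lit 78) (nat_lit 152) (nat_lit 0) (XT.lf (nat_lit 0) (nat_lit 6836414808) (nat_lit 228) (nat_lit 12140318644) (nat_lit 76) (nat_lit 18994653049) (nat_lit 109) (nat_lit 5) (nat_lit 112) (nat_lit 5) (nat_lit 110) (nat_lit 5) (nat_lit 510) (nat_lit 426) (nat_lit 264)) (XT.lf (nat_lit 0) (nat_lit 11438993872) (nat_lit 152) (nat_lit 5936853892) (nat_lit 228) (nat_lit 21336384858) (nat_lit 107) (nat_lit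 5) (nat_lit 109) (nat_lit 5) (nat_lit 110) (nat_lit 5) (nat_lit 511) (nat_lit 426) (nat_lit 263))) (XT.nd (nat_lit 78) (nat_lit 152) (nat_lit 0) (XT.lf (nat_lit 0) (nat_lit 28420926121) (nat_lit 228) (nat_lit 3581802267) (nat_lit 76) (nat_lit 7466892033) (nat_lit 107) (nat_lit 5) (nat_lit 110) (nat_lit 5) (nat_lit 108) (nat_lit 5) (nat_lit 512) (nat_lit 426) (nat_lit 262)) (XT.lf (nat_lit 0) (nat_lit 21163432050) (nat_lit 152) (nat_lit 18889943460) (nat_lit 228) (nat_lit 188673950) (nat_lit 105) (nat_lit 5) (nat_lit 107) (nat_lit 5) (nat_lit 108) (nat_lit 5) (nat_lit 513) (nat_lit 426) (nat_lit 261)))) (XT.nd (nat_lit 156) (nat_lit 228) (nat_lit 0) (XT.nd (nat_lit 78) (nat_lit 0) (nat_lit 0) (XT.lf (nat_lit 0) (nat_lit 5681524796) (nat_lit 152) (nat_lit 5185985650) (nat_lit 228) (nat_lit 30164421015) (nat_lit 102) (nat_lit 5) (nat_lit 104) (nat_lit 5) (nat_lit 105) (nat_lit 5) (nat_lit 514) (nat_lit 426) (nat_lit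 260)) (XT.lf (nat_lit 0) (nat_lit 22525826557) (nat_lit 228) (nat_lit 10364953462) (nat_lit 76) (nat_lit 8946446865) (nat_lit 102) (nat_lit 5) (nat_lit 105) (nat_lit 5) (nat_lit 103) (nat_lit 5) (nat_lit 515) (nat_lit 426) (nat_lit 259))) (XT.nd (nat_lit 78) (nat_lit 76) (nat_lit 0) (XT.lf (nat_lit 0) (nat_lit 15612519033) (nat_lit 152) (nat_lit 19116818278) (nat_lit 228) (nat_lit 7931480647) (nat_lit 100) (nat_lit 5) (nat_lit 102) (nat_lit 5) (nat_lit 103) (nat_lit 5) (nat_lit 516) (nat_lit 426) (nat_lit 258)) (XT.lf (nat_lit 0) (nat_lit 3815619128) (nat_lit 228) (nat_lit 972523079) (nat_lit 76) (nat_lit 38716889713) (nat_lit 99) (nat_lit 5) (nat_lit 102) (nat_lit 5) (nat_lit 100) (nat_lit 5) (nat_lit 517) (nat_lit 426) (nat_lit 257))))) (XT.nd (nat_lit 312) (nat_lit 304) (nat_lit 0) (XT.nd (nat_lit 156) (nat_lit 228) (nat_lit 0) (XT.nd (nat_lit 78) (nat_lit 152) (nat_lit 0) (XT.lf (nat_lit 0) (nat_lit 16101908296)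 (nat_lit 228) (nat_lit 18154034414) (nat_lit 76) (nat_lit 10105888099) (nat_lit 97) (nat_lit 5) (nat_lit 100) (nat_lit 5) (nat_lit 98) (nat_lit 5) (nat_lit 518) (nat_lit 426) (nat_lit 256)) (XT.lf (nat_lit 0) (nat_lit 9098896478) (nat_lit 152) (nat_lit 19796909505) (nat_lit 228) (nat_lit 16344357217) (nat_lit 95) (nat_lit 5) (nat_lit 97) (nat_lit 5) (nat_lit 98) (nat_lit 5) (nat_lit 519) (nat_lit 426) (nat_lit 255))) (XT.nd (nat_lit 78) (nat_lit 228) (nat_lit 0) (XT.lf (nat_lit 0) (nat_lit 37531085506) (nat_lit 152) (nat_lit 4720053174) (nat_lit 228) (nat_lit 3888378465) (nat_lit 95) (nat_lit 5) (nat_lit 97) (nat_lit 5) (nat_lit 98) (nat_lit 5) (nat_lit 520) (nat_lit 426) (nat_lit 254)) (XT.lf (nat_lit 0) (nat_lit 9060517541) (nat_lit 228) (nat_lit 27118958272) (nat_lit 76) (nat_lit 10874986110) (nat_lit 92) (nat_lit 5) (nat_lit 95) (nat_lit 5) (nat_lit 93) (nat_lit 5) (nat_lit 521) (nat_lit 426) (nat_lit 253))))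 (XT.nd (nat_lit 156) (nat_lit 152) (nat_lit 0) (XT.nd (nat_lit 78) (nat_lit 0) (nat_lit 0) (XT.lf (nat_lit 0) (nat_lit 1449877273) (nat_lit 152) (nat_lit 21012739273) (nat_lit 228) (nat_lit 25528796987) (nat_lit 90) (nat_lit 5) (nat_lit 92) (nat_lit 5) (nat_lit 93) (nat_lit 5) (nat_lit 522) (nat_lit 426) (nat_lit 252)) (XT.lf (nat_lit 0) (nat_lit 31421494294) (nat_lit 152) (nat_lit 5113626189) (nat_lit 228) (nat_lit 12413303064) (nat_lit 90) (nat_lit 5) (nat_lit 92) (nat_lit 5) (nat_lit 93) (nat_lit 5) (nat_lit 523) (nat_lit 426) (nat_lit 251))) (XT.nd (nat_lit 78) (nat_lit 0) (nat_lit 0) (XT.lf (nat_lit 0) (nat_lit 1299352369) (nat_lit 152) (nat_lit 37456760919) (nat_lit 76) (nat_lit 11170962406) (nat_lit 88) (nat_lit 5) (nat_lit 90) (nat_lit 5) (nat_lit 89) (nat_lit 5) (nat_lit 524) (nat_lit 426) (nat_lit 250)) (XT.lf (nat_lit 0) (nat_lit 15397881365) (nat_lit 152) (nat_lit 7388327508) (nat_lit 76) (nat_lit 28138471847)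 (nat_lit 88) (nat_lit 5) (nat_lit 90) (nat_lit 5) (nat_lit 89) (nat_lit 5) (nat_lit 525) (nat_lit 426) (nat_lit 249)))))) (XT.nd (nat_lit 624) (nat_lit 684) (nat_lit 0) (XT.nd (nat_lit 312) (nat_lit 304) (nat_lit 0) (XT.nd (nat_lit 156) (nat_lit 228) (nat_lit 0) (XT.nd (nat_lit 78) (nat_lit 76) (nat_lit 0) (XT.lf (nat_lit 0) (nat_lit 24041563969) (nat_lit 152) (nat_lit 6103680275) (nat_lit 228) (nat_lit 21800193410) (nat_lit 86) (nat_lit 5) (nat_lit 88) (nat_lit 5) (nat_lit 89) (nat_lit 5) (nat_lit 526) (nat_lit 426) (nat_lit 248)) (XT.lf (nat_lit 0) (nat_lit 3522983689) (nat_lit 76) (nat_lit 42022549275) (nat_lit 152) (nat_lit 7444969282) (nat_lit 85) (nat_lit 5) (nat_lit 86) (nat_lit 5) (nat_lit 87) (nat_lit 4) (nat_lit 527) (nat_lit 426) (nat_lit 247))) (XT.nd (nat_lit 78) (nat_lit 152) (nat_lit 0) (XT.lf (nat_lit 0) (nat_lit 7537460820) (nat_lit 152) (nat_lit 17737361430) (nat_lit 76) (nat_lit 28779785749)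 (nat_lit 84) (nat_lit 5) (nat_lit 86) (nat_lit 5) (nat_lit 85) (nat_lit 5) (nat_lit 528) (nat_lit 426) (nat_lit 246)) (XT.lf (nat_lit 0) (nat_lit 15157288245) (nat_lit 152) (nat_lit 7803091788) (nat_lit 228) (nat_lit 32183826021) (nat_lit 82) (nat_lit 5) (nat_lit 84) (nat_lit 5) (nat_lit 85) (nat_lit 5) (nat_lit 529) (nat_lit 426) (nat_lit 245)))) (XT.nd (nat_lit 156) (nat_lit 228) (nat_lit 0) (XT.nd (nat_lit 78) (nat_lit 76) (nat_lit 0) (XT.lf (nat_lit 0) (nat_lit 39119818410) (nat_lit 228) (nat_lit 6967983134) (nat_lit 76) (nat_lit 10170475646) (nat_lit 82) (nat_lit 5) (nat_lit 85) (nat_lit 5) (nat_lit 83) (nat_lit 4) (nat_lit 530) (nat_lit 426) (nat_lit 244)) (XT.lf (nat_lit 0) (nat_lit 27491508272) (nat_lit 76) (nat_lit 28609168091) (nat_lit 152) (nat_lit 1294995086) (nat_lit 81) (nat_lit 5) (nat_lit 82) (nat_lit 5) (nat_lit 83) (nat_lit 4) (nat_lit 531) (nat_lit 426) (nat_lit 243))) (XT.nd (nat_lit 78) (nat_lit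 0) (nat_lit 0) (XT.lf (nat_lit 0) (nat_lit 4495944082) (nat_lit 152) (nat_lit 10344057552) (nat_lit 228) (nat_lit 43719571539) (nat_lit 78) (nat_lit 5) (nat_lit 80) (nat_lit 5) (nat_lit 81) (nat_lit 5) (nat_lit 532) (nat_lit 426) (nat_lit 242)) (XT.lf (nat_lit 0) (nat_lit 31814525346) (nat_lit 228) (nat_lit 19314724346) (nat_lit 76) (nat_lit 8617312524) (nat_lit 78) (nat_lit 5) (nat_lit 81) (nat_lit 5) (nat_lit 79) (nat_lit 4) (nat_lit 533) (nat_lit 426) (nat_lit 241))))) (XT.nd (nat_lit 312) (nat_lit 304) (nat_lit 0) (XT.nd (nat_lit 156) (nat_lit 228) (nat_lit 0) (XT.nd (nat_lit 78) (nat_lit 76) (nat_lit 0) (XT.lf (nat_lit 0) (nat_lit 16690969589) (nat_lit 76) (nat_lit 32865449856) (nat_lit 152) (nat_lit 11404997520) (nat_lit 77) (nat_lit 5) (nat_lit 78) (nat_lit 5) (nat_lit 79) (nat_lit 4) (nat_lit 534) (nat_lit 426) (nat_lit 240)) (XT.lf (nat_lit 0) (nat_lit 5700480850) (nat_lit 152) (nat_lit 8099000817) (nat_lit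 76) (nat_lit 48405848120) (nat_lit 76) (nat_lit 5) (nat_lit 78) (nat_lit 5) (nat_lit 77) (nat_lit 5) (nat_lit 535) (nat_lit 426) (nat_lit 239))) (XT.nd (nat_lit 78) (nat_lit 76) (nat_lit 0) (XT.lf (nat_lit 0) (nat_lit 23429998358) (nat_lit 228) (nat_lit 33920956123) (nat_lit 76) (nat_lit 6122014839) (nat_lit 74) (nat_lit 5) (nat_lit 77) (nat_lit 5) (nat_lit 75) (nat_lit 4) (nat_lit 536) (nat_lit 426) (nat_lit 238)) (XT.lf (nat_lit 0) (nat_lit 3647411852) (nat_lit 76) (nat_lit 38293702162) (nat_lit 152) (nat_lit 22830032712) (nat_lit 73) (nat_lit 5) (nat_lit 74) (nat_lit 5) (nat_lit 75) (nat_lit 4) (nat_lit 537) (nat_lit 426) (nat_lit 237)))) (XT.nd (nat_lit 156) (nat_lit 76) (nat_lit 0) (XT.nd (nat_lit 78) (nat_lit 228) (nat_lit 0) (XT.lf (nat_lit 0) (nat_lit 43029543982) (nat_lit 76) (nat_lit 18316033612) (nat_lit 152) (nat_lit 4752551490) (nat_lit 73) (nat_lit 5) (nat_lit 74) (nat_lit 5) (nat_lit 75) (nat_lit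 4) (nat_lit 538) (nat_lit 426) (nat_lit 236)) (XT.lf (nat_lit 0) (nat_lit 13773517999) (nat_lit 228) (nat_lit 51176309342) (nat_lit 76) (nat_lit 2505788699) (nat_lit 70) (nat_lit 5) (nat_lit 73) (nat_lit 5) (nat_lit 71) (nat_lit 4) (nat_lit 539) (nat_lit 426) (nat_lit 235))) (XT.nd (nat_lit 78) (nat_lit 76) (nat_lit 0) (XT.lf (nat_lit 0) (nat_lit 33172026215) (nat_lit 228) (nat_lit 11805508906) (nat_lit 76) (nat_lit 23862515546) (nat_lit 70) (nat_lit 5) (nat_lit 73) (nat_lit 5) (nat_lit 71) (nat_lit 4) (nat_lit 540) (nat_lit 426) (nat_lit 234)) (XT.lf (nat_lit 0) (nat_lit 29310128601) (nat_lit 76) (nat_lit 24119814240) (nat_lit 152) (nat_lit 16827751953) (nat_lit 69) (nat_lit 5) (nat_lit 70) (nat_lit 5) (nat_lit 71) (nat_lit 4) (nat_lit 541) (nat_lit 426) (nat_lit 233))))))))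
noncomputable def xc156 : XT := (XT.nd (nat_lit 55146) (nat_lit 0) (nat_lit 8968) (XT.nd (nat_lit 53898) (nat_lit 0) (nat_lit 17556) (XT.nd (nat_lit 546) (nat_lit 228) (nat_lit 0) (XT.nd (nat_lit 234) (nat_lit 228) (nat_lit 0) (XT.nd (nat_lit 78) (nat_lit 76) (nat_lit 0) (XT.lf (nat_lit 0) (nat_lit 155787856) (nat_lit 152) (nat_lit 2489241303) (nat_lit 228) (nat_lit 69068567743) (nat_lit 66) (nat_lit 5) (nat_lit 68) (nat_lit 5) (nat_lit 69) (nat_lit 5) (nat_lit 542) (nat_lit 426) (nat_lit 232)) (XT.nd (nat_lit 78) (nat_lit 76) (nat_lit 0) (XT.lf (nat_lit 0) (nat_lit 22967312378) (nat_lit 228) (nat_lit 30238331982) (nat_lit 76) (nat_lit 19984427227) (nat_lit 66) (nat_lit 5) (nat_lit 69) (nat_lit 5) (nat_lit 67) (nat_lit 4) (nat_lit 543) (nat_lit 426) (nat_lit 231)) (XT.lf (nat_lit 0) (nat_lit 12532633701) (nat_lit 76) (nat_lit 31507592110) (nat_lit 152) (nat_lit 30666385901) (nat_lit 65) (nat_lit 5) (nat_lit 66)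 (nat_lit 5) (nat_lit 67) (nat_lit 4) (nat_lit 544) (nat_lit 426) (nat_lit 230)))) (XT.nd (nat_lit 156) (nat_lit 76) (nat_lit 0) (XT.nd (nat_lit 78) (nat_lit 152) (nat_lit 0) (XT.lf (nat_lit 0) (nat_lit 57198656449) (nat_lit 76) (nat_lit 8847907310) (nat_lit 152) (nat_lit 10213047217) (nat_lit 65) (nat_lit 5) (nat_lit 66) (nat_lit 5) (nat_lit 67) (nat_lit 4) (nat_lit 545) (nat_lit 426) (nat_lit 229)) (XT.lf (nat_lit 0) (nat_lit 11028196468) (nat_lit 152) (nat_lit 52255976655) (nat_lit 76) (nat_lit 14560314012) (nat_lit 63) (nat_lit 5) (nat_lit 65) (nat_lit 5) (nat_lit 64) (nat_lit 4) (nat_lit 546) (nat_lit 426) (nat_lit 228))) (XT.nd (nat_lit 78) (nat_lit 76) (nat_lit 0) (XT.lf (nat_lit 0) (nat_lit 32979369447) (nat_lit 152) (nat_lit 7701358085) (nat_lit 76) (nat_lit 38784809591) (nat_lit 63) (nat_lit 5) (nat_lit 65) (nat_lit 5) (nat_lit 64) (nat_lit 4) (nat_lit 547) (nat_lit 426) (nat_lit 227)) (XT.lf (nat_lit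 0) (nat_lit 38942244114) (nat_lit 76) (nat_lit 17017264432) (nat_lit 152) (nat_lit 25164597179) (nat_lit 62) (nat_lit 5) (nat_lit 63) (nat_lit 5) (nat_lit 64) (nat_lit 4) (nat_lit 548) (nat_lit 426) (nat_lit 226))))) (XT.nd (nat_lit 53040) (nat_lit 0) (nat_lit 21432) (XT.nd (nat_lit 156) (nat_lit 76) (nat_lit 0) (XT.nd (nat_lit 78) (nat_lit 76) (nat_lit 0) (XT.lf (nat_lit 0) (nat_lit 4318142071) (nat_lit 76) (nat_lit 75497769604) (nat_lit 76) (nat_lit 3010913957) (nat_lit 61) (nat_lit 4) (nat_lit 62) (nat_lit 5) (nat_lit 62) (nat_lit 4) (nat_lit 549) (nat_lit 426) (nat_lit 225)) (XT.lf (nat_lit 0) (nat_lit 20015630252) (nat_lit 152) (nat_lit 31860690452) (nat_lit 76) (nat_lit 32680751538) (nat_lit 60) (nat_lit 5) (nat_lit 62) (nat_lit 5) (nat_lit 61) (nat_lit 4) (nat_lit 550) (nat_lit 426) (nat_lit 224))) (XT.nd (nat_lit 52806) (nat_lit 0) (nat_lit 21432) (XT.lf (nat_lit 0) (nat_lit 16470991414) (nat_lit 76) (nat_lit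 27356010277) (nat_lit 152) (nat_lit 42506693849) (nat_lit 59) (nat_lit 5) (nat_lit 60) (nat_lit 5) (nat_lit 61) (nat_lit 4) (nat_lit 551) (nat_lit 426) (nat_lit 223)) (XT.lf (nat_lit 0) (nat_lit 2794102607) (nat_lit 1140) (nat_lit 992805596) (nat_lit 1140) (nat_lit 992805596) (nat_lit 341) (nat_lit 3) (nat_lit 356) (nat_lit 3) (nat_lit 356) (nat_lit 5) (nat_lit 427) (nat_lit 427) (nat_lit 346)))) (XT.nd (nat_lit 156) (nat_lit 0) (nat_lit 76) (XT.nd (nat_lit 78) (nat_lit 0) (nat_lit 76) (XT.lf (nat_lit 76) (nat_lit 2812929444) (nat_lit 0) (nat_lit 3662359754) (nat_lit 1140) (nat_lit 3203353522) (nat_lit 342) (nat_lit 5) (nat_lit 341) (nat_lit 3) (nat_lit 356) (nat_lit 5) (nat_lit 428) (nat_lit 427) (nat_lit 345)) (XT.lf (nat_lit 0) (nat_lit 7382450442) (nat_lit 1064) (nat_lit 2025393867) (nat_lit 1140) (nat_lit 393789105) (nat_lit 342) (nat_lit 5) (nat_lit 356) (nat_lit 5) (nat_lit 357) (nat_lit 5) (nat_lit 429)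 (nat_lit 427) (nat_lit 344))) (XT.nd (nat_lit 78) (nat_lit 0) (nat_lit 0) (XT.lf (nat_lit 76) (nat_lit 2965261828) (nat_lit 0) (nat_lit 5386905310) (nat_lit 1140) (nat_lit 1575089445) (nat_lit 343) (nat_lit 5) (nat_lit 342) (nat_lit 5) (nat_lit 357) (nat_lit 5) (nat_lit 430) (nat_lit 427) (nat_lit 343)) (XT.lf (nat_lit 76) (nat_lit 8130842057) (nat_lit 0) (nat_lit 1211861702) (nat_lit 1140) (nat_lit 714195723) (nat_lit 343) (nat_lit 5) (nat_lit 342) (nat_lit 5) (nat_lit 357) (nat_lit 5) (nat_lit 431) (nat_lit 427) (nat_lit 342)))))) (XT.nd (nat_lit 624) (nat_lit 2888) (nat_lit 0) (XT.nd (nat_lit 312) (nat_lit 0) (nat_lit 152) (XT.nd (nat_lit 156) (nat_lit 0) (nat_lit 76) (XT.nd (nat_lit 78) (nat_lit 0) (nat_lit 0) (XT.lf (nat_lit 0) (nat_lit 202917224) (nat_lit 1140) (nat_lit 6912970252) (nat_lit 1216) (nat_lit 3073484389) (nat_lit 328) (nat_lit 5) (nat_lit 343) (nat_lit 5) (nat_lit 344) (nat_lit 5) (nat_lit 432)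 (nat_lit 427) (nat_lit 341)) (XT.lf (nat_lit 0) (nat_lit 1137435723) (nat_lit 1140) (nat_lit 1687257672) (nat_lit 1216) (nat_lit 7500788127) (nat_lit 328) (nat_lit 5) (nat_lit 343) (nat_lit 5) (nat_lit 344) (nat_lit 5) (nat_lit 433) (nat_lit 427) (nat_lit 340))) (XT.nd (nat_lit 78) (nat_lit 0) (nat_lit 0) (XT.lf (nat_lit 0) (nat_lit 2125244863) (nat_lit 1140) (nat_lit 6729419863) (nat_lit 1216) (nat_lit 1610254654) (nat_lit 329) (nat_lit 5) (nat_lit 344) (nat_lit 5) (nat_lit 345) (nat_lit 5) (nat_lit 434) (nat_lit 427) (nat_lit 339)) (XT.lf (nat_lit 0) (nat_lit 3161973195) (nat_lit 1140) (nat_lit 1298024733) (nat_lit 1216) (nat_lit 6147966388) (nat_lit 329) (nat_lit 5) (nat_lit 344) (nat_lit 5) (nat_lit 345) (nat_lit 5) (nat_lit 435) (nat_lit 427) (nat_lit 338)))) (XT.nd (nat_lit 156) (nat_lit 0) (nat_lit 0) (XT.nd (nat_lit 78) (nat_lit 0) (nat_lit 0) (XT.lf (nat_lit 0) (nat_lit 4247757694) (nat_lit 1140) (nat_lit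 6391330845) (nat_lit 1216) (nat_lit 115675849) (nat_lit 330) (nat_lit 5) (nat_lit 345) (nat_lit 5) (nat_lit 346) (nat_lit 5) (nat_lit 436) (nat_lit 427) (nat_lit 337)) (XT.lf (nat_lit 0) (nat_lit 5399023297) (nat_lit 1140) (nat_lit 746048531) (nat_lit 1216) (nat_lit 4759911755) (nat_lit 330) (nat_lit 5) (nat_lit 345) (nat_lit 5) (nat_lit 346) (nat_lit 5) (nat_lit 437) (nat_lit 427) (nat_lit 336))) (XT.nd (nat_lit 78) (nat_lit 0) (nat_lit 76) (XT.lf (nat_lit 76) (nat_lit 5152110103) (nat_lit 0) (nat_lit 1458467135) (nat_lit 1216) (nat_lit 4448361883) (nat_lit 331) (nat_lit 5) (nat_lit 330) (nat_lit 5) (nat_lit 346) (nat_lit 5) (nat_lit 438) (nat_lit 427) (nat_lit 335)) (XT.lf (nat_lit 0) (nat_lit 7875285437) (nat_lit 1140) (nat_lit 24850016) (nat_lit 1216) (nat_lit 3316875854) (nat_lit 331) (nat_lit 5) (nat_lit 346) (nat_lit 5) (nat_lit 347) (nat_lit 5) (nat_lit 439) (nat_lit 427) (nat_lit 334))))) (XT.nd (nat_lit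 312) (nat_lit 1976) (nat_lit 0) (XT.nd (nat_lit 156) (nat_lit 1140) (nat_lit 0) (XT.nd (nat_lit 78) (nat_lit 0) (nat_lit 76) (XT.lf (nat_lit 76) (nat_lit 6121501085) (nat_lit 0) (nat_lit 3107209984) (nat_lit 1216) (nat_lit 2149593453) (nat_lit 332) (nat_lit 5) (nat_lit 331) (nat_lit 5) (nat_lit 347) (nat_lit 5) (nat_lit 440) (nat_lit 427) (nat_lit 333)) (XT.lf (nat_lit 76) (nat_lit 890467262) (nat_lit 0) (nat_lit 9736705617) (nat_lit 1216) (nat_lit 917132736) (nat_lit 333) (nat_lit 5) (nat_lit 332) (nat_lit 5) (nat_lit 348) (nat_lit 5) (nat_lit 441) (nat_lit 427) (nat_lit 332))) (XT.nd (nat_lit 78) (nat_lit 0) (nat_lit 76) (XT.lf (nat_lit 0) (nat_lit 408091588) (nat_lit 1216) (nat_lit 4436359744) (nat_lit 1292) (nat_lit 6868855846) (nat_lit 316) (nat_lit 5) (nat_lit 332) (nat_lit 5) (nat_lit 333) (nat_lit 5) (nat_lit 442) (nat_lit 427) (nat_lit 331)) (XT.lf (nat_lit 0) (nat_lit 1754777854) (nat_lit 1216) (nat_lit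 9909540677) (nat_lit 76) (nat_lit 222785590) (nat_lit 317) (nat_lit 5) (nat_lit 333) (nat_lit 5) (nat_lit 318) (nat_lit 5) (nat_lit 443) (nat_lit 427) (nat_lit 330)))) (XT.nd (nat_lit 156) (nat_lit 836) (nat_lit 0) (XT.nd (nat_lit 78) (nat_lit 1216) (nat_lit 0) (XT.lf (nat_lit 0) (nat_lit 3214476242) (nat_lit 1216) (nat_lit 3456200035) (nat_lit 76) (nat_lit 5393262200) (nat_lit 317) (nat_lit 5) (nat_lit 333) (nat_lit 5) (nat_lit 318) (nat_lit 5) (nat_lit 444) (nat_lit 427) (nat_lit 329)) (XT.lf (nat_lit 0) (nat_lit 3236552020) (nat_lit 1216) (nat_lit 1492529731) (nat_lit 1292) (nat_lit 7516664427) (nat_lit 301) (nat_lit 5) (nat_lit 317) (nat_lit 5) (nat_lit 318) (nat_lit 5) (nat_lit 445) (nat_lit 427) (nat_lit 328))) (XT.nd (nat_lit 78) (nat_lit 836) (nat_lit 0) (XT.lf (nat_lit 0) (nat_lit 6341738333) (nat_lit 1292) (nat_lit 2286080685) (nat_lit 76) (nat_lit 3803612451) (nat_lit 301) (nat_lit 5) (nat_lit 318) (nat_lit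 5) (nat_lit 302) (nat_lit 5) (nat_lit 446) (nat_lit 427) (nat_lit 327)) (XT.lf (nat_lit 0) (nat_lit 4698360977) (nat_lit 836) (nat_lit 3345369086) (nat_lit 912) (nat_lit 4577730289) (nat_lit 290) (nat_lit 5) (nat_lit 301) (nat_lit 5) (nat_lit 302) (nat_lit 5) (nat_lit 447) (nat_lit 427) (nat_lit 326))))))) (XT.nd (nat_lit 1170) (nat_lit 4104) (nat_lit 0) (XT.nd (nat_lit 546) (nat_lit 2052) (nat_lit 0) (XT.nd (nat_lit 234) (nat_lit 1140) (nat_lit 0) (XT.nd (nat_lit 78) (nat_lit 1292) (nat_lit 0) (XT.lf (nat_lit 0) (nat_lit 9821656187) (nat_lit 912) (nat_lit 915345835) (nat_lit 76) (nat_lit 2079443485) (nat_lit 290) (nat_lit 5) (nat_lit 302) (nat_lit 5) (nat_lit 291) (nat_lit 5) (nat_lit 448) (nat_lit 427) (nat_lit 325)) (XT.nd (nat_lit 78) (nat_lit 684) (nat_lit 0) (XT.lf (nat_lit 0) (nat_lit 6376792547) (nat_lit 608) (nat_lit 5352506279) (nat_lit 684) (nat_lit 1285691627) (nat_lit 282) (nat_lit 5) (nat_lit 290)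 (nat_lit 5) (nat_lit 291) (nat_lit 5) (nat_lit 449) (nat_lit 427) (nat_lit 324)) (XT.lf (nat_lit 0) (nat_lit 465484541) (nat_lit 684) (nat_lit 12543002282) (nat_lit 76) (nat_lit 210867497) (nat_lit 273) (nat_lit 5) (nat_lit 282) (nat_lit 5) (nat_lit 274) (nat_lit 5) (nat_lit 450) (nat_lit 427) (nat_lit 323)))) (XT.nd (nat_lit 156) (nat_lit 608) (nat_lit 0) (XT.nd (nat_lit 78) (nat_lit 532) (nat_lit 0) (XT.lf (nat_lit 0) (nat_lit 2346548719) (nat_lit 684) (nat_lit 5165519149) (nat_lit 76) (nat_lit 5914304994) (nat_lit 273) (nat_lit 5) (nat_lit 282) (nat_lit 5) (nat_lit 274) (nat_lit 5) (nat_lit 451) (nat_lit 427) (nat_lit 322)) (XT.lf (nat_lit 0) (nat_lit 2464181655) (nat_lit 532) (nat_lit 1826562299) (nat_lit 608) (nat_lit 9348658451) (nat_lit 266) (nat_lit 5) (nat_lit 273) (nat_lit 5) (nat_lit 274) (nat_lit 5) (nat_lit 452) (nat_lit 427) (nat_lit 321))) (XT.nd (nat_lit 78) (nat_lit 608) (nat_lit 0) (XT.lf (nat_lit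 0) (nat_lit 6368016761) (nat_lit 608) (nat_lit 3485367875) (nat_lit 76) (nat_lit 4003197025) (nat_lit 266) (nat_lit 5) (nat_lit 274) (nat_lit 5) (nat_lit 267) (nat_lit 5) (nat_lit 453) (nat_lit 427) (nat_lit 320)) (XT.lf (nat_lit 0) (nat_lit 4487655552) (nat_lit 608) (nat_lit 4064999870) (nat_lit 684) (nat_lit 5526270783) (nat_lit 258) (nat_lit 5) (nat_lit 266) (nat_lit 5) (nat_lit 267) (nat_lit 5) (nat_lit 454) (nat_lit 427) (nat_lit 319))))) (XT.nd (nat_lit 312) (nat_lit 912) (nat_lit 0) (XT.nd (nat_lit 156) (nat_lit 608) (nat_lit 0) (XT.nd (nat_lit 78) (nat_lit 532) (nat_lit 0) (XT.lf (nat_lit 0) (nat_lit 10840737183) (nat_lit 684) (nat_lit 1571464550) (nat_lit 76) (nat_lit 1894603534) (nat_lit 258) (nat_lit 5) (nat_lit 267) (nat_lit 5) (nat_lit 259) (nat_lit 5) (nat_lit 455) (nat_lit 427) (nat_lit 318)) (XT.lf (nat_lit 0) (nat_lit 6763868177) (nat_lit 532) (nat_lit 6523446184) (nat_lit 608) (nat_lit 1251512010)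 (nat_lit 251) (nat_lit 5) (nat_lit 258) (nat_lit 5) (nat_lit 259) (nat_lit 5) (nat_lit 456) (nat_lit 427) (nat_lit 317))) (XT.nd (nat_lit 78) (nat_lit 0) (nat_lit 0) (XT.lf (nat_lit 0) (nat_lit 588627569) (nat_lit 532) (nat_lit 427173374) (nat_lit 608) (nat_lit 13761519203) (nat_lit 243) (nat_lit 5) (nat_lit 250) (nat_lit 5) (nat_lit 251) (nat_lit 5) (nat_lit 457) (nat_lit 427) (nat_lit 316)) (XT.lf (nat_lit 0) (nat_lit 3446512577) (nat_lit 608) (nat_lit 5744750301) (nat_lit 76) (nat_lit 5827719271) (nat_lit 243) (nat_lit 5) (nat_lit 251) (nat_lit 5) (nat_lit 244) (nat_lit 5) (nat_lit 458) (nat_lit 427) (nat_lit 315)))) (XT.nd (nat_lit 156) (nat_lit 456) (nat_lit 0) (XT.nd (nat_lit 78) (nat_lit 0) (nat_lit 0) (XT.lf (nat_lit 0) (nat_lit 2989910740) (nat_lit 456) (nat_lit 2978633634) (nat_lit 532) (nat_lit 9298798797) (nat_lit 237) (nat_lit 5) (nat_lit 243) (nat_lit 5) (nat_lit 244) (nat_lit 5) (nat_lit 459) (nat_lit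 427) (nat_lit 314)) (XT.lf (nat_lit 0) (nat_lit 8643373209) (nat_lit 532) (nat_lit 3467453264) (nat_lit 76) (nat_lit 3410015554) (nat_lit 237) (nat_lit 5) (nat_lit 244) (nat_lit 5) (nat_lit 238) (nat_lit 5) (nat_lit 460) (nat_lit 427) (nat_lit 313))) (XT.nd (nat_lit 78) (nat_lit 0) (nat_lit 0) (XT.lf (nat_lit 0) (nat_lit 5671541166) (nat_lit 456) (nat_lit 5797005075) (nat_lit 532) (nat_lit 4311297686) (nat_lit 231) (nat_lit 5) (nat_lit 237) (nat_lit 5) (nat_lit 238) (nat_lit 5) (nat_lit 461) (nat_lit 427) (nat_lit 312)) (XT.lf (nat_lit 0) (nat_lit 14406936980) (nat_lit 532) (nat_lit 913604985) (nat_lit 76) (nat_lit 725221068) (nat_lit 231) (nat_lit 5) (nat_lit 238) (nat_lit 5) (nat_lit 232) (nat_lit 5) (nat_lit 462) (nat_lit 427) (nat_lit 311)))))) (XT.nd (nat_lit 624) (nat_lit 1824) (nat_lit 0) (XT.nd (nat_lit 312) (nat_lit 912) (nat_lit 0) (XT.nd (nat_lit 156) (nat_lit 380) (nat_lit 0) (XT.nd (nat_lit 78) (nat_lit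 456) (nat_lit 0) (XT.lf (nat_lit 0) (nat_lit 1220621623) (nat_lit 532) (nat_lit 7675639509) (nat_lit 76) (nat_lit 7419222250) (nat_lit 224) (nat_lit 5) (nat_lit 231) (nat_lit 5) (nat_lit 225) (nat_lit 5) (nat_lit 463) (nat_lit 427) (nat_lit 310)) (XT.lf (nat_lit 0) (nat_lit 1910256893) (nat_lit 456) (nat_lit 2237150481) (nat_lit 532) (nat_lit 12444967323) (nat_lit 218) (nat_lit 5) (nat_lit 224) (nat_lit 5) (nat_lit 225) (nat_lit 5) (nat_lit 464) (nat_lit 427) (nat_lit 309))) (XT.nd (nat_lit 78) (nat_lit 380) (nat_lit 0) (XT.lf (nat_lit 0) (nat_lit 7271712032) (nat_lit 532) (nat_lit 4995875032) (nat_lit 76) (nat_lit 4606695140) (nat_lit 218) (nat_lit 5) (nat_lit 225) (nat_lit 5) (nat_lit 219) (nat_lit 5) (nat_lit 465) (nat_lit 427) (nat_lit 308)) (XT.lf (nat_lit 0) (nat_lit 5041150317) (nat_lit 380) (nat_lit 5506594507) (nat_lit 456) (nat_lit 6615163026) (nat_lit 213) (nat_lit 5) (nat_lit 218) (nat_lit 5) (nat_lit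 219) (nat_lit 5) (nat_lit 466) (nat_lit 427) (nat_lit 307)))) (XT.nd (nat_lit 156) (nat_lit 456) (nat_lit 0) (XT.nd (nat_lit 78) (nat_lit 456) (nat_lit 0) (XT.lf (nat_lit 0) (nat_lit 13974586110) (nat_lit 456) (nat_lit 2007697001) (nat_lit 76) (nat_lit 1476334189) (nat_lit 213) (nat_lit 5) (nat_lit 219) (nat_lit 5) (nat_lit 214) (nat_lit 5) (nat_lit 467) (nat_lit 427) (nat_lit 306)) (XT.lf (nat_lit 0) (nat_lit 8505501756) (nat_lit 456) (nat_lit 9122945401) (nat_lit 532) (nat_lit 131025275) (nat_lit 207) (nat_lit 5) (nat_lit 213) (nat_lit 5) (nat_lit 214) (nat_lit 5) (nat_lit 468) (nat_lit 427) (nat_lit 305))) (XT.nd (nat_lit 78) (nat_lit 0) (nat_lit 0) (XT.lf (nat_lit 0) (nat_lit 1283594710) (nat_lit 380) (nat_lit 1994971114) (nat_lit 456) (nat_lit 14789205112) (nat_lit 201) (nat_lit 5) (nat_lit 206) (nat_lit 5) (nat_lit 207) (nat_lit 5) (nat_lit 469) (nat_lit 427) (nat_lit 304)) (XT.lf (nat_lit 0) (nat_lit 6921758695)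 (nat_lit 456) (nat_lit 6125132926) (nat_lit 76) (nat_lit 5334370194) (nat_lit 201) (nat_lit 5) (nat_lit 207) (nat_lit 5) (nat_lit 202) (nat_lit 5) (nat_lit 470) (nat_lit 427) (nat_lit 303))))) (XT.nd (nat_lit 312) (nat_lit 684) (nat_lit 0) (XT.nd (nat_lit 156) (nat_lit 760) (nat_lit 0) (XT.nd (nat_lit 78) (nat_lit 0) (nat_lit 0) (XT.lf (nat_lit 0) (nat_lit 4914308145) (nat_lit 380) (nat_lit 5815453275) (nat_lit 456) (nat_lit 7972731320) (nat_lit 196) (nat_lit 5) (nat_lit 201) (nat_lit 5) (nat_lit 202) (nat_lit 5) (nat_lit 471) (nat_lit 427) (nat_lit 302)) (XT.lf (nat_lit 0) (nat_lit 14718835135) (nat_lit 456) (nat_lit 2652987811) (nat_lit 76) (nat_lit 1659533438) (nat_lit 196) (nat_lit 5) (nat_lit 202) (nat_lit 5) (nat_lit 197) (nat_lit 5) (nat_lit 472) (nat_lit 427) (nat_lit 301))) (XT.nd (nat_lit 78) (nat_lit 456) (nat_lit 0) (XT.lf (nat_lit 0) (nat_lit 8917489398) (nat_lit 304) (nat_lit 10042390748) (nat_lit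 380) (nat_lit 406237518) (nat_lit 192) (nat_lit 5) (nat_lit 196) (nat_lit 5) (nat_lit 197) (nat_lit 5) (nat_lit 473) (nat_lit 427) (nat_lit 300)) (XT.lf (nat_lit 0) (nat_lit 1151501924) (nat_lit 380) (nat_lit 2422339448) (nat_lit 456) (nat_lit 16135222179) (nat_lit 186) (nat_lit 5) (nat_lit 191) (nat_lit 5) (nat_lit 192) (nat_lit 5) (nat_lit 474) (nat_lit 427) (nat_lit 299)))) (XT.nd (nat_lit 156) (nat_lit 380) (nat_lit 0) (XT.nd (nat_lit 78) (nat_lit 304) (nat_lit 0) (XT.lf (nat_lit 0) (nat_lit 7813072775) (nat_lit 456) (nat_lit 6817947520) (nat_lit 76) (nat_lit 5426720040) (nat_lit 186) (nat_lit 5) (nat_lit 192) (nat_lit 5) (nat_lit 187) (nat_lit 5) (nat_lit 475) (nat_lit 427) (nat_lit 298)) (XT.lf (nat_lit 0) (nat_lit 5339095438) (nat_lit 304) (nat_lit 6905205246) (nat_lit 380) (nat_lit 8170632773) (nat_lit 182) (nat_lit 5) (nat_lit 186) (nat_lit 5) (nat_lit 187) (nat_lit 5) (nat_lit 476) (nat_lit 427) (nat_lit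 297))) (XT.nd (nat_lit 78) (nat_lit 380) (nat_lit 0) (XT.lf (nat_lit 0) (nat_lit 16877744375) (nat_lit 380) (nat_lit 2806045297) (nat_lit 76) (nat_lit 1096974935) (nat_lit 182) (nat_lit 5) (nat_lit 187) (nat_lit 5) (nat_lit 183) (nat_lit 5) (nat_lit 477) (nat_lit 427) (nat_lit 296)) (XT.lf (nat_lit 0) (nat_lit 638411178) (nat_lit 380) (nat_lit 11216362313) (nat_lit 76) (nat_lit 9297993607) (nat_lit 177) (nat_lit 5) (nat_lit 182) (nat_lit 5) (nat_lit 178) (nat_lit 5) (nat_lit 478) (nat_lit 427) (nat_lit 295))))))))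
noncomputable def xc157 : XT := (XT.nd (nat_lit 2418) (nat_lit 3192) (nat_lit 0) (XT.nd (nat_lit 1170) (nat_lit 2280) (nat_lit 0) (XT.nd (nat_lit 546) (nat_lit 1368) (nat_lit 0) (XT.nd (nat_lit 234) (nat_lit 684) (nat_lit 0) (XT.nd (nat_lit 78) (nat_lit 304) (nat_lit 0) (XT.lf (nat_lit 0) (nat_lit 1560396174) (nat_lit 304) (nat_lit 3710848361) (nat_lit 380) (nat_lit 16262518193) (nat_lit 173) (nat_lit 5) (nat_lit 177) (nat_lit 5) (nat_lit 178) (nat_lit 5) (nat_lit 479) (nat_lit 427) (nat_lit 294)) (XT.nd (nat_lit 78) (nat_lit 304) (nat_lit 0) (XT.lf (nat_lit 0) (nat_lit 10192506313) (nat_lit 380) (nat_lit 7033297322) (nat_lit 76) (nat_lit 4695901824) (nat_lit 173) (nat_lit 5) (nat_lit 178) (nat_lit 5) (nat_lit 174) (nat_lit 5) (nat_lit 480) (nat_lit 427) (nat_lit 293)) (XT.lf (nat_lit 0) (nat_lit 6368123727) (nat_lit 304) (nat_lit 8981622790) (nat_lit 380) (nat_lit 6968890258) (nat_lit 169) (nat_lit 5) (nat_lit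 173) (nat_lit 5) (nat_lit 174) (nat_lit 5) (nat_lit 481) (nat_lit 427) (nat_lit 292)))) (XT.nd (nat_lit 156) (nat_lit 304) (nat_lit 0) (XT.nd (nat_lit 78) (nat_lit 380) (nat_lit 0) (XT.lf (nat_lit 0) (nat_lit 20301529815) (nat_lit 304) (nat_lit 421725050) (nat_lit 380) (nat_lit 2002375142) (nat_lit 169) (nat_lit 5) (nat_lit 173) (nat_lit 5) (nat_lit 174) (nat_lit 5) (nat_lit 482) (nat_lit 427) (nat_lit 291)) (XT.lf (nat_lit 0) (nat_lit 3237554932) (nat_lit 380) (nat_lit 11530568679) (nat_lit 76) (nat_lit 8370257101) (nat_lit 164) (nat_lit 5) (nat_lit 169) (nat_lit 5) (nat_lit 165) (nat_lit 5) (nat_lit 483) (nat_lit 427) (nat_lit 290))) (XT.nd (nat_lit 78) (nat_lit 0) (nat_lit 0) (XT.lf (nat_lit 0) (nat_lit 2559193076) (nat_lit 304) (nat_lit 6079545756) (nat_lit 380) (nat_lit 14922851751) (nat_lit 160) (nat_lit 5) (nat_lit 164) (nat_lit 5) (nat_lit 165) (nat_lit 5) (nat_lit 484) (nat_lit 427) (nat_lit 289)) (XT.lf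 (nat_lit 0) (nat_lit 14338023648) (nat_lit 380) (nat_lit 6728912074) (nat_lit 76) (nat_lit 2926479516) (nat_lit 160) (nat_lit 5) (nat_lit 165) (nat_lit 5) (nat_lit 161) (nat_lit 5) (nat_lit 485) (nat_lit 427) (nat_lit 288))))) (XT.nd (nat_lit 312) (nat_lit 532) (nat_lit 0) (XT.nd (nat_lit 156) (nat_lit 532) (nat_lit 0) (XT.nd (nat_lit 78) (nat_lit 76) (nat_lit 0) (XT.lf (nat_lit 0) (nat_lit 8056015994) (nat_lit 228) (nat_lit 12281060411) (nat_lit 304) (nat_lit 4097254979) (nat_lit 157) (nat_lit 5) (nat_lit 160) (nat_lit 5) (nat_lit 161) (nat_lit 5) (nat_lit 486) (nat_lit 427) (nat_lit 287)) (XT.lf (nat_lit 0) (nat_lit 1655682775) (nat_lit 304) (nat_lit 1494137953) (nat_lit 76) (nat_lit 21736390790) (nat_lit 156) (nat_lit 5) (nat_lit 160) (nat_lit 5) (nat_lit 157) (nat_lit 5) (nat_lit 487) (nat_lit 427) (nat_lit 286))) (XT.nd (nat_lit 78) (nat_lit 228) (nat_lit 0) (XT.lf (nat_lit 0) (nat_lit 7687257133) (nat_lit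 380) (nat_lit 11351567424) (nat_lit 76) (nat_lit 6305954913) (nat_lit 152) (nat_lit 5) (nat_lit 157) (nat_lit 5) (nat_lit 153) (nat_lit 5) (nat_lit 488) (nat_lit 427) (nat_lit 285)) (XT.lf (nat_lit 0) (nat_lit 4196223054) (nat_lit 228) (nat_lit 9781843337) (nat_lit 304) (nat_lit 11836689826) (nat_lit 149) (nat_lit 5) (nat_lit 152) (nat_lit 5) (nat_lit 153) (nat_lit 5) (nat_lit 489) (nat_lit 427) (nat_lit 284)))) (XT.nd (nat_lit 156) (nat_lit 228) (nat_lit 0) (XT.nd (nat_lit 78) (nat_lit 304) (nat_lit 0) (XT.lf (nat_lit 0) (nat_lit 20429791717) (nat_lit 228) (nat_lit 134082628) (nat_lit 304) (nat_lit 5731770065) (nat_lit 149) (nat_lit 5) (nat_lit 152) (nat_lit 5) (nat_lit 153) (nat_lit 5) (nat_lit 490) (nat_lit 427) (nat_lit 283)) (XT.lf (nat_lit 0) (nat_lit 733874936) (nat_lit 304) (nat_lit 16336506699) (nat_lit 76) (nat_lit 9714764554) (nat_lit 145) (nat_lit 5) (nat_lit 149) (nat_lit 5) (nat_lit 146) (nat_lit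 5) (nat_lit 491) (nat_lit 427) (nat_lit 282))) (XT.nd (nat_lit 78) (nat_lit 0) (nat_lit 0) (XT.lf (nat_lit 0) (nat_lit 13664338) (nat_lit 228) (nat_lit 7317775895) (nat_lit 304) (nat_lit 19954596009) (nat_lit 142) (nat_lit 5) (nat_lit 145) (nat_lit 5) (nat_lit 146) (nat_lit 5) (nat_lit 492) (nat_lit 427) (nat_lit 281)) (XT.lf (nat_lit 0) (nat_lit 14311687434) (nat_lit 304) (nat_lit 10648887581) (nat_lit 76) (nat_lit 2835835667) (nat_lit 142) (nat_lit 5) (nat_lit 146) (nat_lit 5) (nat_lit 143) (nat_lit 5) (nat_lit 493) (nat_lit 427) (nat_lit 280)))))) (XT.nd (nat_lit 624) (nat_lit 1064) (nat_lit 0) (XT.nd (nat_lit 312) (nat_lit 456) (nat_lit 0) (XT.nd (nat_lit 156) (nat_lit 456) (nat_lit 0) (XT.nd (nat_lit 78) (nat_lit 76) (nat_lit 0) (XT.lf (nat_lit 0) (nat_lit 6515111813) (nat_lit 228) (nat_lit 15113482948) (nat_lit 304) (nat_lit 6689684337) (nat_lit 139) (nat_lit 5) (nat_lit 142) (nat_lit 5) (nat_lit 143) (nat_lit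 5) (nat_lit 494) (nat_lit 427) (nat_lit 279)) (XT.lf (nat_lit 0) (nat_lit 403970562) (nat_lit 304) (nat_lit 4457190471) (nat_lit 76) (nat_lit 23991529715) (nat_lit 138) (nat_lit 5) (nat_lit 142) (nat_lit 5) (nat_lit 139) (nat_lit 5) (nat_lit 495) (nat_lit 427) (nat_lit 278))) (XT.nd (nat_lit 78) (nat_lit 228) (nat_lit 0) (XT.lf (nat_lit 0) (nat_lit 7755779320) (nat_lit 304) (nat_lit 15858427073) (nat_lit 76) (nat_lit 5781547608) (nat_lit 135) (nat_lit 5) (nat_lit 139) (nat_lit 5) (nat_lit 136) (nat_lit 5) (nat_lit 496) (nat_lit 427) (nat_lit 277)) (XT.lf (nat_lit 0) (nat_lit 2190887749) (nat_lit 228) (nat_lit 13244381648) (nat_lit 304) (nat_lit 14516626231) (nat_lit 132) (nat_lit 5) (nat_lit 135) (nat_lit 5) (nat_lit 136) (nat_lit 5) (nat_lit 497) (nat_lit 427) (nat_lit 276)))) (XT.nd (nat_lit 156) (nat_lit 228) (nat_lit 0) (XT.nd (nat_lit 78) (nat_lit 228) (nat_lit 0) (XT.lf (nat_lit 0) (nat_lit 21094310112) (nat_lit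 228) (nat_lit 2403554416) (nat_lit 304) (nat_lit 7022275645) (nat_lit 132) (nat_lit 5) (nat_lit 135) (nat_lit 5) (nat_lit 136) (nat_lit 5) (nat_lit 498) (nat_lit 427) (nat_lit 275)) (XT.lf (nat_lit 0) (nat_lit 853751245) (nat_lit 228) (nat_lit 21559487031) (nat_lit 76) (nat_lit 8686879721) (nat_lit 129) (nat_lit 5) (nat_lit 132) (nat_lit 5) (nat_lit 130) (nat_lit 5) (nat_lit 499) (nat_lit 427) (nat_lit 274))) (XT.nd (nat_lit 78) (nat_lit 228) (nat_lit 0) (XT.lf (nat_lit 0) (nat_lit 8937614289) (nat_lit 228) (nat_lit 2531885628) (nat_lit 76) (nat_lit 20222528785) (nat_lit 129) (nat_lit 5) (nat_lit 132) (nat_lit 5) (nat_lit 130) (nat_lit 5) (nat_lit 500) (nat_lit 427) (nat_lit 273)) (XT.lf (nat_lit 0) (nat_lit 17394037342) (nat_lit 228) (nat_lit 30142249) (nat_lit 304) (nat_lit 14872711797) (nat_lit 126) (nat_lit 5) (nat_lit 129) (nat_lit 5) (nat_lit 130) (nat_lit 5) (nat_lit 501) (nat_lit 427) (nat_lit 272)))))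 (XT.nd (nat_lit 312) (nat_lit 608) (nat_lit 0) (XT.nd (nat_lit 156) (nat_lit 228) (nat_lit 0) (XT.nd (nat_lit 78) (nat_lit 76) (nat_lit 0) (XT.lf (nat_lit 0) (nat_lit 5023334324) (nat_lit 152) (nat_lit 21322114431) (nat_lit 228) (nat_lit 6569048231) (nat_lit 124) (nat_lit 5) (nat_lit 126) (nat_lit 5) (nat_lit 127) (nat_lit 5) (nat_lit 502) (nat_lit 427) (nat_lit 271)) (XT.lf (nat_lit 0) (nat_lit 2090342501) (nat_lit 228) (nat_lit 7726163139) (nat_lit 76) (nat_lit 23729193471) (nat_lit 123) (nat_lit 5) (nat_lit 126) (nat_lit 5) (nat_lit 124) (nat_lit 5) (nat_lit 503) (nat_lit 427) (nat_lit 270))) (XT.nd (nat_lit 78) (nat_lit 0) (nat_lit 0) (XT.lf (nat_lit 0) (nat_lit 11019273638) (nat_lit 304) (nat_lit 20986510944) (nat_lit 76) (nat_lit 2183848034) (nat_lit 120) (nat_lit 5) (nat_lit 124) (nat_lit 5) (nat_lit 121) (nat_lit 5) (nat_lit 504) (nat_lit 427) (nat_lit 269)) (XT.lf (nat_lit 0) (nat_lit 20385347677) (nat_lit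 304) (nat_lit 41527348) (nat_lit 76) (nat_lit 14420931066) (nat_lit 120) (nat_lit 5) (nat_lit 124) (nat_lit 5) (nat_lit 121) (nat_lit 5) (nat_lit 505) (nat_lit 427) (nat_lit 268)))) (XT.nd (nat_lit 156) (nat_lit 152) (nat_lit 0) (XT.nd (nat_lit 78) (nat_lit 304) (nat_lit 0) (XT.lf (nat_lit 0) (nat_lit 21948763434) (nat_lit 152) (nat_lit 8288111149) (nat_lit 228) (nat_lit 5282716275) (nat_lit 118) (nat_lit 5) (nat_lit 120) (nat_lit 5) (nat_lit 121) (nat_lit 5) (nat_lit 506) (nat_lit 427) (nat_lit 267)) (XT.lf (nat_lit 0) (nat_lit 4208337103) (nat_lit 304) (nat_lit 27747194741) (nat_lit 76) (nat_lit 4251274149) (nat_lit 114) (nat_lit 5) (nat_lit 118) (nat_lit 5) (nat_lit 115) (nat_lit 5) (nat_lit 507) (nat_lit 427) (nat_lit 266))) (XT.nd (nat_lit 78) (nat_lit 152) (nat_lit 0) (XT.lf (nat_lit 0) (nat_lit 14091939018) (nat_lit 304) (nat_lit 5628490978) (nat_lit 76) (nat_lit 17186218825) (nat_lit 114) (nat_lit 5) (nat_lit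 118) (nat_lit 5) (nat_lit 115) (nat_lit 5) (nat_lit 508) (nat_lit 427) (nat_lit 265)) (XT.lf (nat_lit 0) (nat_lit 17483884488) (nat_lit 152) (nat_lit 6949956729) (nat_lit 228) (nat_lit 13188792134) (nat_lit 112) (nat_lit 5) (nat_lit 114) (nat_lit 5) (nat_lit 115) (nat_lit 5) (nat_lit 509) (nat_lit 427) (nat_lit 264))))))) (XT.nd (nat_lit 1248) (nat_lit 1368) (nat_lit 0) (XT.nd (nat_lit 624) (nat_lit 912) (nat_lit 0) (XT.nd (nat_lit 312) (nat_lit 532) (nat_lit 0) (XT.nd (nat_lit 156) (nat_lit 152) (nat_lit 0) (XT.nd (nat_lit 78) (nat_lit 76) (nat_lit 0) (XT.lf (nat_lit 0) (nat_lit 3034541621) (nat_lit 152) (nat_lit 32191419405) (nat_lit 228) (nat_lit 3129937752) (nat_lit 110) (nat_lit 5) (nat_lit 112) (nat_lit 5) (nat_lit 113) (nat_lit 5) (nat_lit 510) (nat_lit 427) (nat_lit 263)) (XT.lf (nat_lit 0) (nat_lit 7357545516) (nat_lit 228) (nat_lit 11940646720) (nat_lit 76) (nat_lit 19802846133) (nat_lit 109) (nat_lit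 5) (nat_lit 112) (nat_lit 5) (nat_lit 110) (nat_lit 5) (nat_lit 511) (nat_lit 427) (nat_lit 262))) (XT.nd (nat_lit 78) (nat_lit 0) (nat_lit 0) (XT.lf (nat_lit 0) (nat_lit 12340516922) (nat_lit 152) (nat_lit 5868806773) (nat_lit 228) (nat_lit 21654901561) (nat_lit 107) (nat_lit 5) (nat_lit 109) (nat_lit 5) (nat_lit 110) (nat_lit 5) (nat_lit 512) (nat_lit 427) (nat_lit 261)) (XT.lf (nat_lit 0) (nat_lit 29578958438) (nat_lit 228) (nat_lit 3140361764) (nat_lit 76) (nat_lit 7925218609) (nat_lit 107) (nat_lit 5) (nat_lit 110) (nat_lit 5) (nat_lit 108) (nat_lit 5) (nat_lit 513) (nat_lit 427) (nat_lit 260)))) (XT.nd (nat_lit 156) (nat_lit 152) (nat_lit 0) (XT.nd (nat_lit 78) (nat_lit 152) (nat_lit 0) (XT.lf (nat_lit 0) (nat_lit 114186990) (nat_lit 228) (nat_lit 19099522294) (nat_lit 76) (nat_lit 22226508208) (nat_lit 104) (nat_lit 5) (nat_lit 107) (nat_lit 5) (nat_lit 105) (nat_lit 5) (nat_lit 514) (nat_lit 427) (nat_lit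 259)) (XT.lf (nat_lit 0) (nat_lit 6396168025) (nat_lit 152) (nat_lit 5098452292) (nat_lit 228) (nat_lit 30759229152) (nat_lit 102) (nat_lit 5) (nat_lit 104) (nat_lit 5) (nat_lit 105) (nat_lit 5) (nat_lit 515) (nat_lit 427) (nat_lit 258))) (XT.nd (nat_lit 78) (nat_lit 152) (nat_lit 0) (XT.lf (nat_lit 0) (nat_lit 23496185341) (nat_lit 228) (nat_lit 10141047238) (nat_lit 76) (nat_lit 9446266406) (nat_lit 102) (nat_lit 5) (nat_lit 105) (nat_lit 5) (nat_lit 103) (nat_lit 5) (nat_lit 516) (nat_lit 427) (nat_lit 257)) (XT.lf (nat_lit 0) (nat_lit 16610505757) (nat_lit 152) (nat_lit 19451806491) (nat_lit 228) (nat_lit 7869590428) (nat_lit 100) (nat_lit 5) (nat_lit 102) (nat_lit 5) (nat_lit 103) (nat_lit 5) (nat_lit 517) (nat_lit 427) (nat_lit 256))))) (XT.nd (nat_lit 312) (nat_lit 532) (nat_lit 0) (XT.nd (nat_lit 156) (nat_lit 152) (nat_lit 0) (XT.nd (nat_lit 78) (nat_lit 152) (nat_lit 0) (XT.lf (nat_lit 0) (nat_lit 4215508852)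 (nat_lit 228) (nat_lit 481826170) (nat_lit 76) (nat_lit 40104278646) (nat_lit 99) (nat_lit 5) (nat_lit 102) (nat_lit 5) (nat_lit 100) (nat_lit 5) (nat_lit 518) (nat_lit 427) (nat_lit 255)) (XT.lf (nat_lit 0) (nat_lit 16869258841) (nat_lit 228) (nat_lit 18177648606) (nat_lit 76) (nat_lit 10637243104) (nat_lit 97) (nat_lit 5) (nat_lit 100) (nat_lit 5) (nat_lit 98) (nat_lit 5) (nat_lit 519) (nat_lit 427) (nat_lit 254))) (XT.nd (nat_lit 78) (nat_lit 0) (nat_lit 0) (XT.lf (nat_lit 0) (nat_lit 9887762302) (nat_lit 152) (nat_lit 20155889904) (nat_lit 228) (nat_lit 16545280530) (nat_lit 95) (nat_lit 5) (nat_lit 97) (nat_lit 5) (nat_lit 98) (nat_lit 5) (nat_lit 520) (nat_lit 427) (nat_lit 253)) (XT.lf (nat_lit 0) (nat_lit 39157890819) (nat_lit 152) (nat_lit 4633570415) (nat_lit 228) (nat_lit 3724051757) (nat_lit 95) (nat_lit 5) (nat_lit 97) (nat_lit 5) (nat_lit 98) (nat_lit 5) (nat_lit 521) (nat_lit 427) (nat_lit 252))))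 (XT.nd (nat_lit 156) (nat_lit 152) (nat_lit 0) (XT.nd (nat_lit 78) (nat_lit 152) (nat_lit 0) (XT.lf (nat_lit 0) (nat_lit 9606826151) (nat_lit 228) (nat_lit 27425157780) (nat_lit 76) (nat_lit 11425871385) (nat_lit 92) (nat_lit 5) (nat_lit 95) (nat_lit 5) (nat_lit 93) (nat_lit 5) (nat_lit 522) (nat_lit 427) (nat_lit 251)) (XT.lf (nat_lit 0) (nat_lit 1995768624) (nat_lit 152) (nat_lit 21412053887) (nat_lit 228) (nat_lit 26015188098) (nat_lit 90) (nat_lit 5) (nat_lit 92) (nat_lit 5) (nat_lit 93) (nat_lit 5) (nat_lit 523) (nat_lit 427) (nat_lit 250))) (XT.nd (nat_lit 78) (nat_lit 152) (nat_lit 0) (XT.lf (nat_lit 0) (nat_lit 32851901289) (nat_lit 152) (nat_lit 5042697533) (nat_lit 228) (nat_lit 12514369341) (nat_lit 90) (nat_lit 5) (nat_lit 92) (nat_lit 5) (nat_lit 93) (nat_lit 5) (nat_lit 524) (nat_lit 427) (nat_lit 249)) (XT.lf (nat_lit 0) (nat_lit 1603480735) (nat_lit 152) (nat_lit 38086506329) (nat_lit 76) (nat_lit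 11726941427) (nat_lit 88) (nat_lit 5) (nat_lit 90) (nat_lit 5) (nat_lit 89) (nat_lit 5) (nat_lit 525) (nat_lit 427) (nat_lit 248)))))) (XT.nd (nat_lit 624) (nat_lit 608) (nat_lit 0) (XT.nd (nat_lit 312) (nat_lit 456) (nat_lit 0) (XT.nd (nat_lit 156) (nat_lit 152) (nat_lit 0) (XT.nd (nat_lit 78) (nat_lit 152) (nat_lit 0) (XT.lf (nat_lit 0) (nat_lit 16117242850) (nat_lit 152) (nat_lit 7130407025) (nat_lit 76) (nat_lit 29197043622) (nat_lit 88) (nat_lit 5) (nat_lit 90) (nat_lit 5) (nat_lit 89) (nat_lit 5) (nat_lit 526) (nat_lit 427) (nat_lit 247)) (XT.lf (nat_lit 0) (nat_lit 25237679527) (nat_lit 152) (nat_lit 6066414000) (nat_lit 228) (nat_lit 22192067749) (nat_lit 86) (nat_lit 5) (nat_lit 88) (nat_lit 5) (nat_lit 89) (nat_lit 5) (nat_lit 527) (nat_lit 427) (nat_lit 246))) (XT.nd (nat_lit 78) (nat_lit 76) (nat_lit 0) (XT.lf (nat_lit 0) (nat_lit 4104353248) (nat_lit 76) (nat_lit 43061254495) (nat_lit 152) (nat_lit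 7406993695) (nat_lit 85) (nat_lit 5) (nat_lit 86) (nat_lit 5) (nat_lit 87) (nat_lit 4) (nat_lit 528) (nat_lit 427) (nat_lit 245)) (XT.lf (nat_lit 0) (nat_lit 8012347052) (nat_lit 152) (nat_lit 17802701777) (nat_lit 76) (nat_lit 29853730191) (nat_lit 84) (nat_lit 5) (nat_lit 86) (nat_lit 5) (nat_lit 85) (nat_lit 5) (nat_lit 529) (nat_lit 427) (nat_lit 244)))) (XT.nd (nat_lit 156) (nat_lit 304) (nat_lit 0) (XT.nd (nat_lit 78) (nat_lit 0) (nat_lit 0) (XT.lf (nat_lit 0) (nat_lit 16074211110) (nat_lit 152) (nat_lit 7820940216) (nat_lit 228) (nat_lit 32895997893) (nat_lit 82) (nat_lit 5) (nat_lit 84) (nat_lit 5) (nat_lit 85) (nat_lit 5) (nat_lit 530) (nat_lit 427) (nat_lit 243)) (XT.lf (nat_lit 0) (nat_lit 40534227102) (nat_lit 228) (nat_lit 6723130821) (nat_lit 76) (nat_lit 10681439061) (nat_lit 82) (nat_lit 5) (nat_lit 85) (nat_lit 5) (nat_lit 83) (nat_lit 4) (nat_lit 531) (nat_lit 427) (nat_lit 242))) (XT.nd (nat_lit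 78) (nat_lit 228) (nat_lit 0) (XT.lf (nat_lit 0) (nat_lit 28765695408) (nat_lit 76) (nat_lit 29256121691) (nat_lit 152) (nat_lit 1088576901) (nat_lit 81) (nat_lit 5) (nat_lit 82) (nat_lit 5) (nat_lit 83) (nat_lit 4) (nat_lit 532) (nat_lit 427) (nat_lit 241)) (XT.lf (nat_lit 0) (nat_lit 5080600965) (nat_lit 152) (nat_lit 10442401910) (nat_lit 228) (nat_lit 44786219707) (nat_lit 78) (nat_lit 5) (nat_lit 80) (nat_lit 5) (nat_lit 81) (nat_lit 5) (nat_lit 533) (nat_lit 427) (nat_lit 240))))) (XT.nd (nat_lit 312) (nat_lit 304) (nat_lit 0) (XT.nd (nat_lit 156) (nat_lit 228) (nat_lit 0) (XT.nd (nat_lit 78) (nat_lit 76) (nat_lit 0) (XT.lf (nat_lit 0) (nat_lit 33001814357) (nat_lit 228) (nat_lit 19452536281) (nat_lit 76) (nat_lit 9077619207) (nat_lit 78) (nat_lit 5) (nat_lit 81) (nat_lit 5) (nat_lit 79) (nat_lit 4) (nat_lit 534) (nat_lit 427) (nat_lit 239)) (XT.lf (nat_lit 0) (nat_lit 17628998768) (nat_lit 76) (nat_lit 33644387973)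 (nat_lit 152) (nat_lit 11509960957) (nat_lit 77) (nat_lit 5) (nat_lit 78) (nat_lit 5) (nat_lit 79) (nat_lit 4) (nat_lit 535) (nat_lit 427) (nat_lit 238))) (XT.nd (nat_lit 78) (nat_lit 152) (nat_lit 0) (XT.lf (nat_lit 0) (nat_lit 6097279864) (nat_lit 152) (nat_lit 7912910758) (nat_lit 76) (nat_lit 50054522189) (nat_lit 76) (nat_lit 5) (nat_lit 78) (nat_lit 5) (nat_lit 77) (nat_lit 5) (nat_lit 536) (nat_lit 427) (nat_lit 237)) (XT.lf (nat_lit 0) (nat_lit 24358128131) (nat_lit 228) (nat_lit 34508966721) (nat_lit 76) (nat_lit 6503303418) (nat_lit 74) (nat_lit 5) (nat_lit 77) (nat_lit 5) (nat_lit 75) (nat_lit 4) (nat_lit 537) (nat_lit 427) (nat_lit 236)))) (XT.nd (nat_lit 156) (nat_lit 228) (nat_lit 0) (XT.nd (nat_lit 78) (nat_lit 0) (nat_lit 0) (XT.lf (nat_lit 0) (nat_lit 4182240351) (nat_lit 76) (nat_lit 39239866078) (nat_lit 152) (nat_lit 23285488789) (nat_lit 73) (nat_lit 5) (nat_lit 74) (nat_lit 5) (nat_lit 75)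 (nat_lit 4) (nat_lit 538) (nat_lit 427) (nat_lit 235)) (XT.lf (nat_lit 0) (nat_lit 44733445974) (nat_lit 76) (nat_lit 18668769816) (nat_lit 152) (nat_lit 4672365991) (nat_lit 73) (nat_lit 5) (nat_lit 74) (nat_lit 5) (nat_lit 75) (nat_lit 4) (nat_lit 539) (nat_lit 427) (nat_lit 234))) (XT.nd (nat_lit 78) (nat_lit 0) (nat_lit 0) (XT.lf (nat_lit 0) (nat_lit 14404645789) (nat_lit 228) (nat_lit 52293737322) (nat_lit 76) (nat_lit 2774360868) (nat_lit 70) (nat_lit 5) (nat_lit 73) (nat_lit 5) (nat_lit 71) (nat_lit 4) (nat_lit 540) (nat_lit 427) (nat_lit 233)) (XT.lf (nat_lit 0) (nat_lit 34378762002) (nat_lit 228) (nat_lit 11753983590) (nat_lit 76) (nat_lit 24766156554) (nat_lit 70) (nat_lit 5) (nat_lit 73) (nat_lit 5) (nat_lit 71) (nat_lit 4) (nat_lit 541) (nat_lit 427) (nat_lit 232))))))))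
noncomputable def xc158 : XT := (XT.nd (nat_lit 55224) (nat_lit 0) (nat_lit 8892) (XT.nd (nat_lit 53976) (nat_lit 0) (nat_lit 17480) (XT.nd (nat_lit 546) (nat_lit 228) (nat_lit 0) (XT.nd (nat_lit 234) (nat_lit 228) (nat_lit 0) (XT.nd (nat_lit 78) (nat_lit 228) (nat_lit 0) (XT.lf (nat_lit 0) (nat_lit 30591145683) (nat_lit 76) (nat_lit 24650969579) (nat_lit 152) (nat_lit 17117029443) (nat_lit 69) (nat_lit 5) (nat_lit 70) (nat_lit 5) (nat_lit 71) (nat_lit 4) (nat_lit 542) (nat_lit 427) (nat_lit 231)) (XT.nd (nat_lit 78) (nat_lit 0) (nat_lit 0) (XT.lf (nat_lit 0) (nat_lit 562403973) (nat_lit 152) (nat_lit 2371032799) (nat_lit 228) (nat_lit 70925293781) (nat_lit 66) (nat_lit 5) (nat_lit 68) (nat_lit 5) (nat_lit 69) (nat_lit 5) (nat_lit 543) (nat_lit 427) (nat_lit 230)) (XT.lf (nat_lit 0) (nat_lit 23861099588) (nat_lit 228) (nat_lit 30750955145) (nat_lit 76) (nat_lit 20767573487) (nat_lit 66) (nat_lit 5) (nat_lit 69)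 (nat_lit 5) (nat_lit 67) (nat_lit 4) (nat_lit 544) (nat_lit 427) (nat_lit 229)))) (XT.nd (nat_lit 156) (nat_lit 152) (nat_lit 0) (XT.nd (nat_lit 78) (nat_lit 0) (nat_lit 0) (XT.lf (nat_lit 0) (nat_lit 13299271599) (nat_lit 76) (nat_lit 32264719966) (nat_lit 152) (nat_lit 31377739322) (nat_lit 65) (nat_lit 5) (nat_lit 66) (nat_lit 5) (nat_lit 67) (nat_lit 4) (nat_lit 545) (nat_lit 427) (nat_lit 228)) (XT.lf (nat_lit 0) (nat_lit 59293896616) (nat_lit 76) (nat_lit 8930723260) (nat_lit 152) (nat_lit 10316877317) (nat_lit 65) (nat_lit 5) (nat_lit 66) (nat_lit 5) (nat_lit 67) (nat_lit 4) (nat_lit 546) (nat_lit 427) (nat_lit 227))) (XT.nd (nat_lit 78) (nat_lit 0) (nat_lit 0) (XT.lf (nat_lit 0) (nat_lit 11557273209) (nat_lit 152) (nat_lit 53440040540) (nat_lit 76) (nat_lit 15176558873) (nat_lit 63) (nat_lit 5) (nat_lit 65) (nat_lit 5) (nat_lit 64) (nat_lit 4) (nat_lit 547) (nat_lit 427) (nat_lit 226)) (XT.lf (nat_lit 0)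 (nat_lit 34161207663) (nat_lit 152) (nat_lit 7559956677) (nat_lit 76) (nat_lit 40122563044) (nat_lit 63) (nat_lit 5) (nat_lit 65) (nat_lit 5) (nat_lit 64) (nat_lit 4) (nat_lit 548) (nat_lit 427) (nat_lit 225))))) (XT.nd (nat_lit 53118) (nat_lit 0) (nat_lit 20292) (XT.nd (nat_lit 156) (nat_lit 76) (nat_lit 0) (XT.nd (nat_lit 78) (nat_lit 76) (nat_lit 0) (XT.lf (nat_lit 0) (nat_lit 40479302194) (nat_lit 76) (nat_lit 17349388236) (nat_lit 152) (nat_lit 25723424492) (nat_lit 62) (nat_lit 5) (nat_lit 63) (nat_lit 5) (nat_lit 64) (nat_lit 4) (nat_lit 549) (nat_lit 427) (nat_lit 224)) (XT.lf (nat_lit 0) (nat_lit 4816821429) (nat_lit 76) (nat_lit 77583631931) (nat_lit 76) (nat_lit 2905473096) (nat_lit 61) (nat_lit 4) (nat_lit 62) (nat_lit 5) (nat_lit 62) (nat_lit 4) (nat_lit 550) (nat_lit 427) (nat_lit 223))) (XT.nd (nat_lit 52884) (nat_lit 0) (nat_lit 21356) (XT.lf (nat_lit 0) (nat_lit 20802456573) (nat_lit 152) (nat_lit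 32454416800) (nat_lit 76) (nat_lit 33831318414) (nat_lit 60) (nat_lit 5) (nat_lit 62) (nat_lit 5) (nat_lit 61) (nat_lit 4) (nat_lit 551) (nat_lit 427) (nat_lit 222)) (XT.lf (nat_lit 0) (nat_lit 3646685478) (nat_lit 1140) (nat_lit 626639615) (nat_lit 1140) (nat_lit 626639615) (nat_lit 341) (nat_lit 3) (nat_lit 356) (nat_lit 3) (nat_lit 356) (nat_lit 5) (nat_lit 428) (nat_lit 428) (nat_lit 344)))) (XT.nd (nat_lit 156) (nat_lit 1064) (nat_lit 0) (XT.nd (nat_lit 78) (nat_lit 0) (nat_lit 0) (XT.lf (nat_lit 76) (nat_lit 3681453897) (nat_lit 0) (nat_lit 4488369038) (nat_lit 1140) (nat_lit 1754019917) (nat_lit 342) (nat_lit 5) (nat_lit 341) (nat_lit 3) (nat_lit 356) (nat_lit 5) (nat_lit 429) (nat_lit 428) (nat_lit 343)) (XT.lf (nat_lit 76) (nat_lit 8774920167) (nat_lit 0) (nat_lit 281605019) (nat_lit 1140) (nat_lit 995432690) (nat_lit 342) (nat_lit 5) (nat_lit 341) (nat_lit 3) (nat_lit 356) (nat_lit 5) (nat_lit 430) (nat_lit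 428) (nat_lit 342))) (XT.nd (nat_lit 78) (nat_lit 1140) (nat_lit 0) (XT.lf (nat_lit 76) (nat_lit 3858085547) (nat_lit 0) (nat_lit 6160038197) (nat_lit 1140) (nat_lit 164346553) (nat_lit 343) (nat_lit 5) (nat_lit 342) (nat_lit 5) (nat_lit 357) (nat_lit 5) (nat_lit 431) (nat_lit 428) (nat_lit 341)) (XT.lf (nat_lit 0) (nat_lit 666640633) (nat_lit 1140) (nat_lit 1168559455) (nat_lit 1216) (nat_lit 8481847217) (nat_lit 327) (nat_lit 5) (nat_lit 342) (nat_lit 5) (nat_lit 343) (nat_lit 5) (nat_lit 432) (nat_lit 428) (nat_lit 340)))))) (XT.nd (nat_lit 624) (nat_lit 2888) (nat_lit 0) (XT.nd (nat_lit 312) (nat_lit 0) (nat_lit 76) (XT.nd (nat_lit 156) (nat_lit 0) (nat_lit 76) (XT.nd (nat_lit 78) (nat_lit 0) (nat_lit 0) (XT.lf (nat_lit 0) (nat_lit 1558846725) (nat_lit 1140) (nat_lit 6273955127) (nat_lit 1216) (nat_lit 2621625745) (nat_lit 328) (nat_lit 5) (nat_lit 343) (nat_lit 5) (nat_lit 344) (nat_lit 5) (nat_lit 433) (nat_lit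 428) (nat_lit 339)) (XT.lf (nat_lit 0) (nat_lit 2482084992) (nat_lit 1140) (nat_lit 916123720) (nat_lit 1216) (nat_lit 7197595095) (nat_lit 328) (nat_lit 5) (nat_lit 343) (nat_lit 5) (nat_lit 344) (nat_lit 5) (nat_lit 434) (nat_lit 428) (nat_lit 338))) (XT.nd (nat_lit 78) (nat_lit 0) (nat_lit 0) (XT.lf (nat_lit 0) (nat_lit 3464695367) (nat_lit 1140) (nat_lit 6074595044) (nat_lit 1216) (nat_lit 1201183062) (nat_lit 329) (nat_lit 5) (nat_lit 344) (nat_lit 5) (nat_lit 345) (nat_lit 5) (nat_lit 435) (nat_lit 428) (nat_lit 337)) (XT.lf (nat_lit 0) (nat_lit 4495369438) (nat_lit 1140) (nat_lit 505210704) (nat_lit 1216) (nat_lit 5888347873) (nat_lit 329) (nat_lit 5) (nat_lit 344) (nat_lit 5) (nat_lit 345) (nat_lit 5) (nat_lit 436) (nat_lit 428) (nat_lit 336)))) (XT.nd (nat_lit 156) (nat_lit 0) (nat_lit 76) (XT.nd (nat_lit 78) (nat_lit 0) (nat_lit 76) (XT.lf (nat_lit 76) (nat_lit 5319140005) (nat_lit 0) (nat_lit 265262423)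 (nat_lit 1216) (nat_lit 5456612882) (nat_lit 330) (nat_lit 5) (nat_lit 329) (nat_lit 5) (nat_lit 345) (nat_lit 5) (nat_lit 437) (nat_lit 428) (nat_lit 335)) (XT.lf (nat_lit 76) (nat_lit 71553987) (nat_lit 0) (nat_lit 6661644468) (nat_lit 1216) (nat_lit 4463656219) (nat_lit 331) (nat_lit 5) (nat_lit 330) (nat_lit 5) (nat_lit 346) (nat_lit 5) (nat_lit 438) (nat_lit 428) (nat_lit 334))) (XT.nd (nat_lit 78) (nat_lit 0) (nat_lit 76) (XT.lf (nat_lit 76) (nat_lit 6137039657) (nat_lit 0) (nat_lit 1817231682) (nat_lit 1216) (nat_lit 3401965640) (nat_lit 331) (nat_lit 5) (nat_lit 330) (nat_lit 5) (nat_lit 346) (nat_lit 5) (nat_lit 439) (nat_lit 428) (nat_lit 333)) (XT.lf (nat_lit 76) (nat_lit 833251245) (nat_lit 0) (nat_lit 8395378893) (nat_lit 1216) (nat_lit 2291273088) (nat_lit 332) (nat_lit 5) (nat_lit 331) (nat_lit 5) (nat_lit 347) (nat_lit 5) (nat_lit 440) (nat_lit 428) (nat_lit 332))))) (XT.nd (nat_lit 312) (nat_lit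 1976) (nat_lit 0) (XT.nd (nat_lit 156) (nat_lit 0) (nat_lit 0) (XT.nd (nat_lit 78) (nat_lit 1140) (nat_lit 0) (XT.lf (nat_lit 76) (nat_lit 7139472489) (nat_lit 0) (nat_lit 3450893187) (nat_lit 1216) (nat_lit 1096641429) (nat_lit 332) (nat_lit 5) (nat_lit 331) (nat_lit 5) (nat_lit 347) (nat_lit 5) (nat_lit 441) (nat_lit 428) (nat_lit 331)) (XT.lf (nat_lit 0) (nat_lit 143505966) (nat_lit 1216) (nat_lit 10082129391) (nat_lit 1292) (nat_lit 1633083412) (nat_lit 316) (nat_lit 5) (nat_lit 332) (nat_lit 5) (nat_lit 333) (nat_lit 5) (nat_lit 442) (nat_lit 428) (nat_lit 330))) (XT.nd (nat_lit 78) (nat_lit 0) (nat_lit 76) (XT.lf (nat_lit 0) (nat_lit 1458896690) (nat_lit 1216) (nat_lit 3712903360) (nat_lit 1292) (nat_lit 6861655438) (nat_lit 316) (nat_lit 5) (nat_lit 332) (nat_lit 5) (nat_lit 333) (nat_lit 5) (nat_lit 443) (nat_lit 428) (nat_lit 329)) (XT.lf (nat_lit 0) (nat_lit 2822269129) (nat_lit 1216) (nat_lit 9326474011)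 (nat_lit 76) (nat_lit 64437370) (nat_lit 317) (nat_lit 5) (nat_lit 333) (nat_lit 5) (nat_lit 318) (nat_lit 5) (nat_lit 444) (nat_lit 428) (nat_lit 328)))) (XT.nd (nat_lit 156) (nat_lit 836) (nat_lit 0) (XT.nd (nat_lit 78) (nat_lit 1216) (nat_lit 0) (XT.lf (nat_lit 0) (nat_lit 4296199791) (nat_lit 1216) (nat_lit 2705174496) (nat_lit 76) (nat_lit 5394835029) (nat_lit 317) (nat_lit 5) (nat_lit 333) (nat_lit 5) (nat_lit 318) (nat_lit 5) (nat_lit 445) (nat_lit 428) (nat_lit 327)) (XT.lf (nat_lit 0) (nat_lit 4179980596) (nat_lit 1216) (nat_lit 1655700586) (nat_lit 1292) (nat_lit 6748409518) (nat_lit 301) (nat_lit 5) (nat_lit 317) (nat_lit 5) (nat_lit 318) (nat_lit 5) (nat_lit 446) (nat_lit 428) (nat_lit 326))) (XT.nd (nat_lit 78) (nat_lit 836) (nat_lit 0) (XT.lf (nat_lit 0) (nat_lit 7467513680) (nat_lit 1292) (nat_lit 1503694208) (nat_lit 76) (nat_lit 3805017281) (nat_lit 301) (nat_lit 5) (nat_lit 318) (nat_lit 5) (nat_lit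 302) (nat_lit 5) (nat_lit 447) (nat_lit 428) (nat_lit 325)) (XT.lf (nat_lit 0) (nat_lit 5681937871) (nat_lit 836) (nat_lit 3519478879) (nat_lit 912) (nat_lit 3771115054) (nat_lit 290) (nat_lit 5) (nat_lit 301) (nat_lit 5) (nat_lit 302) (nat_lit 5) (nat_lit 448) (nat_lit 428) (nat_lit 324))))))) (XT.nd (nat_lit 1170) (nat_lit 4104) (nat_lit 0) (XT.nd (nat_lit 546) (nat_lit 2052) (nat_lit 0) (XT.nd (nat_lit 234) (nat_lit 1140) (nat_lit 0) (XT.nd (nat_lit 78) (nat_lit 1292) (nat_lit 0) (XT.lf (nat_lit 0) (nat_lit 11005301860) (nat_lit 912) (nat_lit 97265103) (nat_lit 76) (nat_lit 2071623277) (nat_lit 290) (nat_lit 5) (nat_lit 302) (nat_lit 5) (nat_lit 291) (nat_lit 5) (nat_lit 449) (nat_lit 428) (nat_lit 323)) (XT.nd (nat_lit 78) (nat_lit 684) (nat_lit 0) (XT.lf (nat_lit 0) (nat_lit 7405347812) (nat_lit 608) (nat_lit 5546981054) (nat_lit 684) (nat_lit 426900310) (nat_lit 282) (nat_lit 5) (nat_lit 290) (nat_lit 5)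 (nat_lit 291) (nat_lit 5) (nat_lit 450) (nat_lit 428) (nat_lit 322)) (XT.lf (nat_lit 0) (nat_lit 1341657397) (nat_lit 684) (nat_lit 12046740815) (nat_lit 76) (nat_lit 201598419) (nat_lit 273) (nat_lit 5) (nat_lit 282) (nat_lit 5) (nat_lit 274) (nat_lit 5) (nat_lit 451) (nat_lit 428) (nat_lit 321)))) (XT.nd (nat_lit 156) (nat_lit 608) (nat_lit 0) (XT.nd (nat_lit 78) (nat_lit 532) (nat_lit 0) (XT.lf (nat_lit 0) (nat_lit 3254040637) (nat_lit 684) (nat_lit 4473347310) (nat_lit 76) (nat_lit 6076593266) (nat_lit 273) (nat_lit 5) (nat_lit 282) (nat_lit 5) (nat_lit 274) (nat_lit 5) (nat_lit 452) (nat_lit 428) (nat_lit 320)) (XT.lf (nat_lit 0) (nat_lit 3376939249) (nat_lit 532) (nat_lit 1863304426) (nat_lit 608) (nat_lit 8783649548) (nat_lit 266) (nat_lit 5) (nat_lit 273) (nat_lit 5) (nat_lit 274) (nat_lit 5) (nat_lit 453) (nat_lit 428) (nat_lit 319))) (XT.nd (nat_lit 78) (nat_lit 608) (nat_lit 0) (XT.lf (nat_lit 0) (nat_lit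 7356097027) (nat_lit 608) (nat_lit 2751725178) (nat_lit 76) (nat_lit 4140479760) (nat_lit 266) (nat_lit 5) (nat_lit 274) (nat_lit 5) (nat_lit 267) (nat_lit 5) (nat_lit 454) (nat_lit 428) (nat_lit 318)) (XT.lf (nat_lit 0) (nat_lit 5452271269) (nat_lit 608) (nat_lit 4138767162) (nat_lit 684) (nat_lit 4886737427) (nat_lit 258) (nat_lit 5) (nat_lit 266) (nat_lit 5) (nat_lit 267) (nat_lit 5) (nat_lit 455) (nat_lit 428) (nat_lit 317))))) (XT.nd (nat_lit 312) (nat_lit 912) (nat_lit 0) (XT.nd (nat_lit 156) (nat_lit 608) (nat_lit 0) (XT.nd (nat_lit 78) (nat_lit 532) (nat_lit 0) (XT.lf (nat_lit 0) (nat_lit 11925441344) (nat_lit 684) (nat_lit 790413320) (nat_lit 76) (nat_lit 1997308131) (nat_lit 258) (nat_lit 5) (nat_lit 267) (nat_lit 5) (nat_lit 259) (nat_lit 5) (nat_lit 456) (nat_lit 428) (nat_lit 316)) (XT.lf (nat_lit 0) (nat_lit 7786859828) (nat_lit 532) (nat_lit 6644318242) (nat_lit 608) (nat_lit 521395407) (nat_lit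 251) (nat_lit 5) (nat_lit 258) (nat_lit 5) (nat_lit 259) (nat_lit 5) (nat_lit 457) (nat_lit 428) (nat_lit 315))) (XT.nd (nat_lit 78) (nat_lit 0) (nat_lit 0) (XT.lf (nat_lit 0) (nat_lit 1433213058) (nat_lit 532) (nat_lit 351770172) (nat_lit 608) (nat_lit 13413438380) (nat_lit 243) (nat_lit 5) (nat_lit 250) (nat_lit 5) (nat_lit 251) (nat_lit 5) (nat_lit 458) (nat_lit 428) (nat_lit 314)) (XT.lf (nat_lit 0) (nat_lit 4267923749) (nat_lit 608) (nat_lit 5093503691) (nat_lit 76) (nat_lit 6086528465) (nat_lit 243) (nat_lit 5) (nat_lit 251) (nat_lit 5) (nat_lit 244) (nat_lit 5) (nat_lit 459) (nat_lit 428) (nat_lit 313)))) (XT.nd (nat_lit 156) (nat_lit 456) (nat_lit 0) (XT.nd (nat_lit 78) (nat_lit 0) (nat_lit 0) (XT.lf (nat_lit 0) (nat_lit 3895122778) (nat_lit 456) (nat_lit 2957419866) (nat_lit 532) (nat_lit 8851618937) (nat_lit 237) (nat_lit 5) (nat_lit 243) (nat_lit 5) (nat_lit 244) (nat_lit 5) (nat_lit 460) (nat_lit 428)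 (nat_lit 312)) (XT.lf (nat_lit 0) (nat_lit 9588115990) (nat_lit 532) (nat_lit 2760162583) (nat_lit 76) (nat_lit 3617573403) (nat_lit 237) (nat_lit 5) (nat_lit 244) (nat_lit 5) (nat_lit 238) (nat_lit 5) (nat_lit 461) (nat_lit 428) (nat_lit 311))) (XT.nd (nat_lit 78) (nat_lit 0) (nat_lit 0) (XT.lf (nat_lit 0) (nat_lit 6645047619) (nat_lit 456) (nat_lit 5840754666) (nat_lit 532) (nat_lit 3747190422) (nat_lit 231) (nat_lit 5) (nat_lit 237) (nat_lit 5) (nat_lit 238) (nat_lit 5) (nat_lit 462) (nat_lit 428) (nat_lit 310)) (XT.lf (nat_lit 0) (nat_lit 15493951730) (nat_lit 532) (nat_lit 142609666) (nat_lit 76) (nat_lit 870881253) (nat_lit 231) (nat_lit 5) (nat_lit 238) (nat_lit 5) (nat_lit 232) (nat_lit 5) (nat_lit 463) (nat_lit 428) (nat_lit 309)))))) (XT.nd (nat_lit 624) (nat_lit 1824) (nat_lit 0) (XT.nd (nat_lit 312) (nat_lit 912) (nat_lit 0) (XT.nd (nat_lit 156) (nat_lit 380) (nat_lit 0) (XT.nd (nat_lit 78) (nat_lit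 456) (nat_lit 0) (XT.lf (nat_lit 0) (nat_lit 1906990735) (nat_lit 532) (nat_lit 7102355144) (nat_lit 76) (nat_lit 7776063232) (nat_lit 224) (nat_lit 5) (nat_lit 231) (nat_lit 5) (nat_lit 225) (nat_lit 5) (nat_lit 464) (nat_lit 428) (nat_lit 308)) (XT.lf (nat_lit 0) (nat_lit 2763240174) (nat_lit 456) (nat_lit 2147063635) (nat_lit 532) (nat_lit 12160642992) (nat_lit 218) (nat_lit 5) (nat_lit 224) (nat_lit 5) (nat_lit 225) (nat_lit 5) (nat_lit 465) (nat_lit 428) (nat_lit 307))) (XT.nd (nat_lit 78) (nat_lit 380) (nat_lit 0) (XT.lf (nat_lit 0) (nat_lit 8111208373) (nat_lit 532) (nat_lit 4356077888) (nat_lit 76) (nat_lit 4894540456) (nat_lit 218) (nat_lit 5) (nat_lit 225) (nat_lit 5) (nat_lit 219) (nat_lit 5) (nat_lit 466) (nat_lit 428) (nat_lit 306)) (XT.lf (nat_lit 0) (nat_lit 5974316325) (nat_lit 380) (nat_lit 5500624801) (nat_lit 456) (nat_lit 6184488708) (nat_lit 213) (nat_lit 5) (nat_lit 218) (nat_lit 5) (nat_lit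 219) (nat_lit 5) (nat_lit 467) (nat_lit 428) (nat_lit 305)))) (XT.nd (nat_lit 156) (nat_lit 380) (nat_lit 0) (XT.nd (nat_lit 78) (nat_lit 532) (nat_lit 0) (XT.lf (nat_lit 0) (nat_lit 14988395853) (nat_lit 456) (nat_lit 1292538219) (nat_lit 76) (nat_lit 1683563483) (nat_lit 213) (nat_lit 5) (nat_lit 219) (nat_lit 5) (nat_lit 214) (nat_lit 5) (nat_lit 468) (nat_lit 428) (nat_lit 304)) (XT.lf (nat_lit 0) (nat_lit 458140003) (nat_lit 532) (nat_lit 8750714580) (nat_lit 76) (nat_lit 9065688322) (nat_lit 206) (nat_lit 5) (nat_lit 213) (nat_lit 5) (nat_lit 207) (nat_lit 5) (nat_lit 469) (nat_lit 428) (nat_lit 303))) (XT.nd (nat_lit 78) (nat_lit 0) (nat_lit 0) (XT.lf (nat_lit 0) (nat_lit 2094037567) (nat_lit 380) (nat_lit 1863570164) (nat_lit 456) (nat_lit 14634738173) (nat_lit 201) (nat_lit 5) (nat_lit 206) (nat_lit 5) (nat_lit 207) (nat_lit 5) (nat_lit 470) (nat_lit 428) (nat_lit 302)) (XT.lf (nat_lit 0) (nat_lit 7694968102)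 (nat_lit 456) (nat_lit 5544270639) (nat_lit 76) (nat_lit 5676457713) (nat_lit 201) (nat_lit 5) (nat_lit 207) (nat_lit 5) (nat_lit 202) (nat_lit 5) (nat_lit 471) (nat_lit 428) (nat_lit 301))))) (XT.nd (nat_lit 312) (nat_lit 684) (nat_lit 0) (XT.nd (nat_lit 156) (nat_lit 760) (nat_lit 0) (XT.nd (nat_lit 78) (nat_lit 0) (nat_lit 0) (XT.lf (nat_lit 0) (nat_lit 5818857426) (nat_lit 380) (nat_lit 5789158859) (nat_lit 456) (nat_lit 7638824923) (nat_lit 196) (nat_lit 5) (nat_lit 201) (nat_lit 5) (nat_lit 202) (nat_lit 5) (nat_lit 472) (nat_lit 428) (nat_lit 300)) (XT.lf (nat_lit 0) (nat_lit 15702431094) (nat_lit 456) (nat_lit 1983143909) (nat_lit 76) (nat_lit 1900426725) (nat_lit 196) (nat_lit 5) (nat_lit 202) (nat_lit 5) (nat_lit 197) (nat_lit 5) (nat_lit 473) (nat_lit 428) (nat_lit 299))) (XT.nd (nat_lit 78) (nat_lit 380) (nat_lit 0) (XT.lf (nat_lit 0) (nat_lit 128431036) (nat_lit 380) (nat_lit 10005225367) (nat_lit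 76) (nat_lit 9797372289) (nat_lit 191) (nat_lit 5) (nat_lit 196) (nat_lit 5) (nat_lit 192) (nat_lit 5) (nat_lit 474) (nat_lit 428) (nat_lit 298)) (XT.lf (nat_lit 0) (nat_lit 1931505796) (nat_lit 380) (nat_lit 2279717312) (nat_lit 456) (nat_lit 16073175855) (nat_lit 186) (nat_lit 5) (nat_lit 191) (nat_lit 5) (nat_lit 192) (nat_lit 5) (nat_lit 475) (nat_lit 428) (nat_lit 297)))) (XT.nd (nat_lit 156) (nat_lit 380) (nat_lit 0) (XT.nd (nat_lit 78) (nat_lit 304) (nat_lit 0) (XT.lf (nat_lit 0) (nat_lit 8564198954) (nat_lit 456) (nat_lit 6285276444) (nat_lit 76) (nat_lit 5794464545) (nat_lit 186) (nat_lit 5) (nat_lit 192) (nat_lit 5) (nat_lit 187) (nat_lit 5) (nat_lit 476) (nat_lit 428) (nat_lit 296)) (XT.lf (nat_lit 0) (nat_lit 6229250259) (nat_lit 304) (nat_lit 6891079970) (nat_lit 380) (nat_lit 7891760524) (nat_lit 182) (nat_lit 5) (nat_lit 186) (nat_lit 5) (nat_lit 187) (nat_lit 5) (nat_lit 477) (nat_lit 428) (nat_lit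 295))) (XT.nd (nat_lit 78) (nat_lit 380) (nat_lit 0) (XT.lf (nat_lit 0) (nat_lit 17880025849) (nat_lit 380) (nat_lit 2168726099) (nat_lit 76) (nat_lit 1340528295) (nat_lit 182) (nat_lit 5) (nat_lit 187) (nat_lit 5) (nat_lit 183) (nat_lit 5) (nat_lit 478) (nat_lit 428) (nat_lit 294)) (XT.lf (nat_lit 0) (nat_lit 1150797848) (nat_lit 380) (nat_lit 10828582658) (nat_lit 76) (nat_lit 9793145403) (nat_lit 177) (nat_lit 5) (nat_lit 182) (nat_lit 5) (nat_lit 178) (nat_lit 5) (nat_lit 479) (nat_lit 428) (nat_lit 293))))))))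
noncomputable def xc159 : XT := (XT.nd (nat_lit 2418) (nat_lit 3192) (nat_lit 0) (XT.nd (nat_lit 1170) (nat_lit 2280) (nat_lit 0) (XT.nd (nat_lit 546) (nat_lit 1368) (nat_lit 0) (XT.nd (nat_lit 234) (nat_lit 684) (nat_lit 0) (XT.nd (nat_lit 78) (nat_lit 304) (nat_lit 0) (XT.lf (nat_lit 0) (nat_lit 2324377892) (nat_lit 304) (nat_lit 3590766141) (nat_lit 380) (nat_lit 16250032332) (nat_lit 173) (nat_lit 5) (nat_lit 177) (nat_lit 5) (nat_lit 178) (nat_lit 5) (nat_lit 480) (nat_lit 428) (nat_lit 292)) (XT.nd (nat_lit 78) (nat_lit 304) (nat_lit 0) (XT.lf (nat_lit 0) (nat_lit 10972054894) (nat_lit 380) (nat_lit 6536000469) (nat_lit 76) (nat_lit 5057062446) (nat_lit 173) (nat_lit 5) (nat_lit 178) (nat_lit 5) (nat_lit 174) (nat_lit 5) (nat_lit 481) (nat_lit 428) (nat_lit 291)) (XT.lf (nat_lit 0) (nat_lit 7260519136) (nat_lit 304) (nat_lit 9016435766) (nat_lit 380) (nat_lit 6697214632) (nat_lit 169) (nat_lit 5) (nat_lit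 173) (nat_lit 5) (nat_lit 174) (nat_lit 5) (nat_lit 482) (nat_lit 428) (nat_lit 290)))) (XT.nd (nat_lit 156) (nat_lit 304) (nat_lit 0) (XT.nd (nat_lit 78) (nat_lit 380) (nat_lit 0) (XT.lf (nat_lit 0) (nat_lit 21591499687) (nat_lit 304) (nat_lit 206575143) (nat_lit 380) (nat_lit 1595706266) (nat_lit 169) (nat_lit 5) (nat_lit 173) (nat_lit 5) (nat_lit 174) (nat_lit 5) (nat_lit 483) (nat_lit 428) (nat_lit 289)) (XT.lf (nat_lit 0) (nat_lit 3787787181) (nat_lit 380) (nat_lit 11181881038) (nat_lit 76) (nat_lit 8849247989) (nat_lit 164) (nat_lit 5) (nat_lit 169) (nat_lit 5) (nat_lit 165) (nat_lit 5) (nat_lit 484) (nat_lit 428) (nat_lit 288))) (XT.nd (nat_lit 78) (nat_lit 0) (nat_lit 0) (XT.lf (nat_lit 0) (nat_lit 3323763720) (nat_lit 304) (nat_lit 6020657133) (nat_lit 380) (nat_lit 14910599759) (nat_lit 160) (nat_lit 5) (nat_lit 164) (nat_lit 5) (nat_lit 165) (nat_lit 5) (nat_lit 485) (nat_lit 428) (nat_lit 287)) (XT.lf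 (nat_lit 0) (nat_lit 15203930511) (nat_lit 380) (nat_lit 6252242293) (nat_lit 76) (nat_lit 3243950456) (nat_lit 160) (nat_lit 5) (nat_lit 165) (nat_lit 5) (nat_lit 161) (nat_lit 5) (nat_lit 486) (nat_lit 428) (nat_lit 286))))) (XT.nd (nat_lit 312) (nat_lit 532) (nat_lit 0) (XT.nd (nat_lit 156) (nat_lit 532) (nat_lit 0) (XT.nd (nat_lit 78) (nat_lit 76) (nat_lit 0) (XT.lf (nat_lit 0) (nat_lit 8969581292) (nat_lit 228) (nat_lit 12407139909) (nat_lit 304) (nat_lit 3777733325) (nat_lit 157) (nat_lit 5) (nat_lit 160) (nat_lit 5) (nat_lit 161) (nat_lit 5) (nat_lit 487) (nat_lit 428) (nat_lit 285)) (XT.lf (nat_lit 0) (nat_lit 2126523860) (nat_lit 304) (nat_lit 878244983) (nat_lit 76) (nat_lit 22615374272) (nat_lit 156) (nat_lit 5) (nat_lit 160) (nat_lit 5) (nat_lit 157) (nat_lit 5) (nat_lit 488) (nat_lit 428) (nat_lit 284))) (XT.nd (nat_lit 78) (nat_lit 228) (nat_lit 0) (XT.lf (nat_lit 0) (nat_lit 8335365160) (nat_lit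 380) (nat_lit 11027697993) (nat_lit 76) (nat_lit 6729515934) (nat_lit 152) (nat_lit 5) (nat_lit 157) (nat_lit 5) (nat_lit 153) (nat_lit 5) (nat_lit 489) (nat_lit 428) (nat_lit 283)) (XT.lf (nat_lit 0) (nat_lit 4980012313) (nat_lit 228) (nat_lit 9829050633) (nat_lit 304) (nat_lit 11767767818) (nat_lit 149) (nat_lit 5) (nat_lit 152) (nat_lit 5) (nat_lit 153) (nat_lit 5) (nat_lit 490) (nat_lit 428) (nat_lit 282)))) (XT.nd (nat_lit 156) (nat_lit 228) (nat_lit 0) (XT.nd (nat_lit 78) (nat_lit 304) (nat_lit 0) (XT.lf (nat_lit 0) (nat_lit 21581425792) (nat_lit 304) (nat_lit 5392050606) (nat_lit 76) (nat_lit 99000324) (nat_lit 149) (nat_lit 5) (nat_lit 153) (nat_lit 5) (nat_lit 150) (nat_lit 5) (nat_lit 491) (nat_lit 428) (nat_lit 281)) (XT.lf (nat_lit 0) (nat_lit 1156260608) (nat_lit 304) (nat_lit 16176524068) (nat_lit 76) (nat_lit 10243887882) (nat_lit 145) (nat_lit 5) (nat_lit 149) (nat_lit 5) (nat_lit 146) (nat_lit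 5) (nat_lit 492) (nat_lit 428) (nat_lit 280))) (XT.nd (nat_lit 78) (nat_lit 0) (nat_lit 0) (XT.lf (nat_lit 0) (nat_lit 657778788) (nat_lit 228) (nat_lit 7288500513) (nat_lit 304) (nat_lit 20146474713) (nat_lit 142) (nat_lit 5) (nat_lit 145) (nat_lit 5) (nat_lit 146) (nat_lit 5) (nat_lit 493) (nat_lit 428) (nat_lit 279)) (XT.lf (nat_lit 0) (nat_lit 15126754137) (nat_lit 304) (nat_lit 10334202622) (nat_lit 76) (nat_lit 3157758801) (nat_lit 142) (nat_lit 5) (nat_lit 146) (nat_lit 5) (nat_lit 143) (nat_lit 5) (nat_lit 494) (nat_lit 428) (nat_lit 278)))))) (XT.nd (nat_lit 624) (nat_lit 1064) (nat_lit 0) (XT.nd (nat_lit 312) (nat_lit 456) (nat_lit 0) (XT.nd (nat_lit 156) (nat_lit 456) (nat_lit 0) (XT.nd (nat_lit 78) (nat_lit 76) (nat_lit 0) (XT.lf (nat_lit 0) (nat_lit 7338499582) (nat_lit 228) (nat_lit 15319470742) (nat_lit 304) (nat_lit 6498426120) (nat_lit 139) (nat_lit 5) (nat_lit 142) (nat_lit 5) (nat_lit 143) (nat_lit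 5) (nat_lit 495) (nat_lit 428) (nat_lit 277)) (XT.lf (nat_lit 0) (nat_lit 789196879) (nat_lit 304) (nat_lit 3973820951) (nat_lit 76) (nat_lit 24944045818) (nat_lit 138) (nat_lit 5) (nat_lit 142) (nat_lit 5) (nat_lit 139) (nat_lit 5) (nat_lit 496) (nat_lit 428) (nat_lit 276))) (XT.nd (nat_lit 78) (nat_lit 228) (nat_lit 0) (XT.lf (nat_lit 0) (nat_lit 8358901458) (nat_lit 304) (nat_lit 15714422029) (nat_lit 76) (nat_lit 6193175491) (nat_lit 135) (nat_lit 5) (nat_lit 139) (nat_lit 5) (nat_lit 136) (nat_lit 5) (nat_lit 497) (nat_lit 428) (nat_lit 275)) (XT.lf (nat_lit 0) (nat_lit 2870296181) (nat_lit 228) (nat_lit 13393589372) (nat_lit 304) (nat_lit 14575586434) (nat_lit 132) (nat_lit 5) (nat_lit 135) (nat_lit 5) (nat_lit 136) (nat_lit 5) (nat_lit 498) (nat_lit 428) (nat_lit 274)))) (XT.nd (nat_lit 156) (nat_lit 228) (nat_lit 0) (XT.nd (nat_lit 78) (nat_lit 228) (nat_lit 0) (XT.lf (nat_lit 0) (nat_lit 22322946987) (nat_lit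 228) (nat_lit 2234764228) (nat_lit 304) (nat_lit 6867372474) (nat_lit 132) (nat_lit 5) (nat_lit 135) (nat_lit 5) (nat_lit 136) (nat_lit 5) (nat_lit 499) (nat_lit 428) (nat_lit 273)) (XT.lf (nat_lit 0) (nat_lit 1235439616) (nat_lit 228) (nat_lit 21600942886) (nat_lit 76) (nat_lit 9186044161) (nat_lit 129) (nat_lit 5) (nat_lit 132) (nat_lit 5) (nat_lit 130) (nat_lit 5) (nat_lit 500) (nat_lit 428) (nat_lit 272))) (XT.nd (nat_lit 78) (nat_lit 228) (nat_lit 0) (XT.lf (nat_lit 0) (nat_lit 9551447411) (nat_lit 228) (nat_lit 2020144376) (nat_lit 76) (nat_lit 21060814404) (nat_lit 129) (nat_lit 5) (nat_lit 132) (nat_lit 5) (nat_lit 130) (nat_lit 5) (nat_lit 501) (nat_lit 428) (nat_lit 271)) (XT.lf (nat_lit 0) (nat_lit 18290149909) (nat_lit 304) (nat_lit 14759770207) (nat_lit 76) (nat_lit 205568789) (nat_lit 126) (nat_lit 5) (nat_lit 130) (nat_lit 5) (nat_lit 127) (nat_lit 5) (nat_lit 502) (nat_lit 428) (nat_lit 270)))))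 (XT.nd (nat_lit 312) (nat_lit 456) (nat_lit 0) (XT.nd (nat_lit 156) (nat_lit 380) (nat_lit 0) (XT.nd (nat_lit 78) (nat_lit 76) (nat_lit 0) (XT.lf (nat_lit 0) (nat_lit 5758122327) (nat_lit 152) (nat_lit 21716841753) (nat_lit 228) (nat_lit 6416781731) (nat_lit 124) (nat_lit 5) (nat_lit 126) (nat_lit 5) (nat_lit 127) (nat_lit 5) (nat_lit 503) (nat_lit 428) (nat_lit 269)) (XT.lf (nat_lit 0) (nat_lit 2485597539) (nat_lit 228) (nat_lit 7384243170) (nat_lit 76) (nat_lit 24672242164) (nat_lit 123) (nat_lit 5) (nat_lit 126) (nat_lit 5) (nat_lit 124) (nat_lit 5) (nat_lit 504) (nat_lit 428) (nat_lit 268))) (XT.nd (nat_lit 78) (nat_lit 152) (nat_lit 0) (XT.lf (nat_lit 0) (nat_lit 11680476301) (nat_lit 304) (nat_lit 21040470548) (nat_lit 76) (nat_lit 2484445460) (nat_lit 120) (nat_lit 5) (nat_lit 124) (nat_lit 5) (nat_lit 121) (nat_lit 5) (nat_lit 505) (nat_lit 428) (nat_lit 267)) (XT.lf (nat_lit 0) (nat_lit 526367797) (nat_lit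 152) (nat_lit 20796594695) (nat_lit 228) (nat_lit 14560485906) (nat_lit 118) (nat_lit 5) (nat_lit 120) (nat_lit 5) (nat_lit 121) (nat_lit 5) (nat_lit 506) (nat_lit 428) (nat_lit 266)))) (XT.nd (nat_lit 156) (nat_lit 152) (nat_lit 0) (XT.nd (nat_lit 78) (nat_lit 304) (nat_lit 0) (XT.lf (nat_lit 0) (nat_lit 23160616858) (nat_lit 152) (nat_lit 8300328749) (nat_lit 228) (nat_lit 5114714087) (nat_lit 118) (nat_lit 5) (nat_lit 120) (nat_lit 5) (nat_lit 121) (nat_lit 5) (nat_lit 507) (nat_lit 428) (nat_lit 265)) (XT.lf (nat_lit 0) (nat_lit 4652993850) (nat_lit 304) (nat_lit 28018123989) (nat_lit 76) (nat_lit 4612330760) (nat_lit 114) (nat_lit 5) (nat_lit 118) (nat_lit 5) (nat_lit 115) (nat_lit 5) (nat_lit 508) (nat_lit 428) (nat_lit 264))) (XT.nd (nat_lit 78) (nat_lit 152) (nat_lit 0) (XT.lf (nat_lit 0) (nat_lit 14823829842) (nat_lit 304) (nat_lit 5252213091) (nat_lit 76) (nat_lit 17928522270) (nat_lit 114) (nat_lit 5)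 (nat_lit 118) (nat_lit 5) (nat_lit 115) (nat_lit 5) (nat_lit 509) (nat_lit 428) (nat_lit 263)) (XT.lf (nat_lit 0) (nat_lit 18548189201) (nat_lit 152) (nat_lit 6923984816) (nat_lit 228) (nat_lit 13269969969) (nat_lit 112) (nat_lit 5) (nat_lit 114) (nat_lit 5) (nat_lit 115) (nat_lit 5) (nat_lit 510) (nat_lit 428) (nat_lit 262))))))) (XT.nd (nat_lit 1248) (nat_lit 1368) (nat_lit 0) (XT.nd (nat_lit 624) (nat_lit 912) (nat_lit 0) (XT.nd (nat_lit 312) (nat_lit 532) (nat_lit 0) (XT.nd (nat_lit 156) (nat_lit 152) (nat_lit 0) (XT.nd (nat_lit 78) (nat_lit 76) (nat_lit 0) (XT.lf (nat_lit 0) (nat_lit 3666920708) (nat_lit 152) (nat_lit 32919635916) (nat_lit 228) (nat_lit 2910896035) (nat_lit 110) (nat_lit 5) (nat_lit 112) (nat_lit 5) (nat_lit 113) (nat_lit 5) (nat_lit 511) (nat_lit 428) (nat_lit 261)) (XT.lf (nat_lit 0) (nat_lit 7876168256) (nat_lit 228) (nat_lit 11767353742) (nat_lit 76) (nat_lit 20621602544) (nat_lit 109)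 (nat_lit 5) (nat_lit 112) (nat_lit 5) (nat_lit 110) (nat_lit 5) (nat_lit 512) (nat_lit 428) (nat_lit 260))) (XT.nd (nat_lit 78) (nat_lit 0) (nat_lit 0) (XT.lf (nat_lit 0) (nat_lit 13237033903) (nat_lit 152) (nat_lit 5812848415) (nat_lit 228) (nat_lit 22001433476) (nat_lit 107) (nat_lit 5) (nat_lit 109) (nat_lit 5) (nat_lit 110) (nat_lit 5) (nat_lit 513) (nat_lit 428) (nat_lit 259)) (XT.lf (nat_lit 0) (nat_lit 30754200255) (nat_lit 228) (nat_lit 2717186840) (nat_lit 76) (nat_lit 8383844065) (nat_lit 107) (nat_lit 5) (nat_lit 110) (nat_lit 5) (nat_lit 108) (nat_lit 5) (nat_lit 514) (nat_lit 428) (nat_lit 258)))) (XT.nd (nat_lit 156) (nat_lit 152) (nat_lit 0) (XT.nd (nat_lit 78) (nat_lit 152) (nat_lit 0) (XT.lf (nat_lit 0) (nat_lit 404848908) (nat_lit 228) (nat_lit 19154470845) (nat_lit 76) (nat_lit 23115479989) (nat_lit 104) (nat_lit 5) (nat_lit 107) (nat_lit 5) (nat_lit 105) (nat_lit 5) (nat_lit 515) (nat_lit 428)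 (nat_lit 257)) (XT.lf (nat_lit 0) (nat_lit 7101011389) (nat_lit 152) (nat_lit 5022248609) (nat_lit 228) (nat_lit 31389683946) (nat_lit 102) (nat_lit 5) (nat_lit 104) (nat_lit 5) (nat_lit 105) (nat_lit 5) (nat_lit 516) (nat_lit 428) (nat_lit 256))) (XT.nd (nat_lit 78) (nat_lit 152) (nat_lit 0) (XT.lf (nat_lit 0) (nat_lit 24478744562) (nat_lit 228) (nat_lit 9941126683) (nat_lit 76) (nat_lit 9947795727) (nat_lit 102) (nat_lit 5) (nat_lit 105) (nat_lit 5) (nat_lit 103) (nat_lit 5) (nat_lit 517) (nat_lit 428) (nat_lit 255)) (XT.lf (nat_lit 0) (nat_lit 17608030236) (nat_lit 152) (nat_lit 19810536164) (nat_lit 228) (nat_lit 7823055237) (nat_lit 100) (nat_lit 5) (nat_lit 102) (nat_lit 5) (nat_lit 103) (nat_lit 5) (nat_lit 518) (nat_lit 428) (nat_lit 254))))) (XT.nd (nat_lit 312) (nat_lit 532) (nat_lit 0) (XT.nd (nat_lit 156) (nat_lit 152) (nat_lit 0) (XT.nd (nat_lit 78) (nat_lit 152) (nat_lit 0) (XT.lf (nat_lit 0) (nat_lit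 4611010926) (nat_lit 228) (nat_lit 6251167) (nat_lit 76) (nat_lit 41520322682) (nat_lit 99) (nat_lit 5) (nat_lit 102) (nat_lit 5) (nat_lit 100) (nat_lit 5) (nat_lit 519) (nat_lit 428) (nat_lit 253)) (XT.lf (nat_lit 0) (nat_lit 17643310303) (nat_lit 228) (nat_lit 18231879148) (nat_lit 76) (nat_lit 11171440388) (nat_lit 97) (nat_lit 5) (nat_lit 100) (nat_lit 5) (nat_lit 98) (nat_lit 5) (nat_lit 520) (nat_lit 428) (nat_lit 252))) (XT.nd (nat_lit 78) (nat_lit 0) (nat_lit 0) (XT.lf (nat_lit 0) (nat_lit 10670679392) (nat_lit 152) (nat_lit 20539125480) (nat_lit 228) (nat_lit 16768844711) (nat_lit 95) (nat_lit 5) (nat_lit 97) (nat_lit 5) (nat_lit 98) (nat_lit 5) (nat_lit 521) (nat_lit 428) (nat_lit 251)) (XT.lf (nat_lit 0) (nat_lit 40804748146) (nat_lit 152) (nat_lit 4557586147) (nat_lit 228) (nat_lit 3570924538) (nat_lit 95) (nat_lit 5) (nat_lit 97) (nat_lit 5) (nat_lit 98) (nat_lit 5) (nat_lit 522) (nat_lit 428) (nat_lit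 250)))) (XT.nd (nat_lit 156) (nat_lit 152) (nat_lit 0) (XT.nd (nat_lit 78) (nat_lit 152) (nat_lit 0) (XT.lf (nat_lit 0) (nat_lit 10153766993) (nat_lit 228) (nat_lit 27769668343) (nat_lit 76) (nat_lit 11980388211) (nat_lit 92) (nat_lit 5) (nat_lit 95) (nat_lit 5) (nat_lit 93) (nat_lit 5) (nat_lit 523) (nat_lit 428) (nat_lit 249)) (XT.lf (nat_lit 0) (nat_lit 2529197184) (nat_lit 152) (nat_lit 21836612162) (nat_lit 228) (nat_lit 26532213824) (nat_lit 90) (nat_lit 5) (nat_lit 92) (nat_lit 5) (nat_lit 93) (nat_lit 5) (nat_lit 524) (nat_lit 428) (nat_lit 248))) (XT.nd (nat_lit 78) (nat_lit 152) (nat_lit 0) (XT.lf (nat_lit 0) (nat_lit 34297220951) (nat_lit 152) (nat_lit 4982518905) (nat_lit 228) (nat_lit 12634043221) (nat_lit 90) (nat_lit 5) (nat_lit 92) (nat_lit 5) (nat_lit 93) (nat_lit 5) (nat_lit 525) (nat_lit 428) (nat_lit 247)) (XT.lf (nat_lit 0) (nat_lit 1901512384) (nat_lit 152) (nat_lit 38763499279) (nat_lit 76)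 (nat_lit 12286922116) (nat_lit 88) (nat_lit 5) (nat_lit 90) (nat_lit 5) (nat_lit 89) (nat_lit 5) (nat_lit 526) (nat_lit 428) (nat_lit 246)))))) (XT.nd (nat_lit 624) (nat_lit 608) (nat_lit 0) (XT.nd (nat_lit 312) (nat_lit 456) (nat_lit 0) (XT.nd (nat_lit 156) (nat_lit 152) (nat_lit 0) (XT.nd (nat_lit 78) (nat_lit 152) (nat_lit 0) (XT.lf (nat_lit 0) (nat_lit 16843407929) (nat_lit 152) (nat_lit 6892278226) (nat_lit 76) (nat_lit 30275064102) (nat_lit 88) (nat_lit 5) (nat_lit 90) (nat_lit 5) (nat_lit 89) (nat_lit 5) (nat_lit 527) (nat_lit 428) (nat_lit 245)) (XT.lf (nat_lit 0) (nat_lit 26442419148) (nat_lit 152) (nat_lit 6040680260) (nat_lit 228) (nat_lit 22610745736) (nat_lit 86) (nat_lit 5) (nat_lit 88) (nat_lit 5) (nat_lit 89) (nat_lit 5) (nat_lit 528) (nat_lit 428) (nat_lit 244))) (XT.nd (nat_lit 78) (nat_lit 76) (nat_lit 0) (XT.lf (nat_lit 0) (nat_lit 4675857913) (nat_lit 76) (nat_lit 44143862930) (nat_lit 152)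 (nat_lit 7382879945) (nat_lit 85) (nat_lit 5) (nat_lit 86) (nat_lit 5) (nat_lit 87) (nat_lit 4) (nat_lit 529) (nat_lit 428) (nat_lit 243)) (XT.lf (nat_lit 0) (nat_lit 8487199892) (nat_lit 152) (nat_lit 17896797444) (nat_lit 76) (nat_lit 30947806484) (nat_lit 84) (nat_lit 5) (nat_lit 86) (nat_lit 5) (nat_lit 85) (nat_lit 5) (nat_lit 530) (nat_lit 428) (nat_lit 242)))) (XT.nd (nat_lit 156) (nat_lit 304) (nat_lit 0) (XT.nd (nat_lit 78) (nat_lit 0) (nat_lit 0) (XT.lf (nat_lit 0) (nat_lit 16992109247) (nat_lit 152) (nat_lit 7851737405) (nat_lit 228) (nat_lit 33644077841) (nat_lit 82) (nat_lit 5) (nat_lit 84) (nat_lit 5) (nat_lit 85) (nat_lit 5) (nat_lit 531) (nat_lit 428) (nat_lit 241)) (XT.lf (nat_lit 0) (nat_lit 41977244337) (nat_lit 228) (nat_lit 6496988184) (nat_lit 76) (nat_lit 11195914796) (nat_lit 82) (nat_lit 5) (nat_lit 85) (nat_lit 5) (nat_lit 83) (nat_lit 4) (nat_lit 532) (nat_lit 428) (nat_lit 240))) (XT.nd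 (nat_lit 78) (nat_lit 228) (nat_lit 0) (XT.lf (nat_lit 0) (nat_lit 30052308355) (nat_lit 76) (nat_lit 29934614615) (nat_lit 152) (nat_lit 890045560) (nat_lit 81) (nat_lit 5) (nat_lit 82) (nat_lit 5) (nat_lit 83) (nat_lit 4) (nat_lit 533) (nat_lit 428) (nat_lit 239)) (XT.lf (nat_lit 0) (nat_lit 5656978424) (nat_lit 152) (nat_lit 10555864968) (nat_lit 228) (nat_lit 45898927821) (nat_lit 78) (nat_lit 5) (nat_lit 80) (nat_lit 5) (nat_lit 81) (nat_lit 5) (nat_lit 534) (nat_lit 428) (nat_lit 238))))) (XT.nd (nat_lit 312) (nat_lit 304) (nat_lit 0) (XT.nd (nat_lit 156) (nat_lit 228) (nat_lit 0) (XT.nd (nat_lit 78) (nat_lit 76) (nat_lit 0) (XT.lf (nat_lit 0) (nat_lit 34211355309) (nat_lit 228) (nat_lit 19619833931) (nat_lit 76) (nat_lit 9540151673) (nat_lit 78) (nat_lit 5) (nat_lit 81) (nat_lit 5) (nat_lit 79) (nat_lit 4) (nat_lit 535) (nat_lit 428) (nat_lit 237)) (XT.lf (nat_lit 0) (nat_lit 18570066009) (nat_lit 76) (nat_lit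 34458578337) (nat_lit 152) (nat_lit 11631688771) (nat_lit 77) (nat_lit 5) (nat_lit 78) (nat_lit 5) (nat_lit 79) (nat_lit 4) (nat_lit 536) (nat_lit 428) (nat_lit 236))) (XT.nd (nat_lit 78) (nat_lit 152) (nat_lit 0) (XT.lf (nat_lit 0) (nat_lit 6493021889) (nat_lit 152) (nat_lit 7745867801) (nat_lit 76) (nat_lit 51741376656) (nat_lit 76) (nat_lit 5) (nat_lit 78) (nat_lit 5) (nat_lit 77) (nat_lit 5) (nat_lit 537) (nat_lit 428) (nat_lit 235)) (XT.lf (nat_lit 0) (nat_lit 25301172684) (nat_lit 228) (nat_lit 35139279474) (nat_lit 76) (nat_lit 6884685990) (nat_lit 74) (nat_lit 5) (nat_lit 77) (nat_lit 5) (nat_lit 75) (nat_lit 4) (nat_lit 538) (nat_lit 428) (nat_lit 234)))) (XT.nd (nat_lit 156) (nat_lit 228) (nat_lit 0) (XT.nd (nat_lit 78) (nat_lit 0) (nat_lit 0) (XT.lf (nat_lit 0) (nat_lit 4708693651) (nat_lit 76) (nat_lit 40226047687) (nat_lit 152) (nat_lit 23767779624) (nat_lit 73) (nat_lit 5) (nat_lit 74) (nat_lit 5)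 (nat_lit 75) (nat_lit 4) (nat_lit 539) (nat_lit 428) (nat_lit 233)) (XT.lf (nat_lit 0) (nat_lit 46464756237) (nat_lit 76) (nat_lit 19043382062) (nat_lit 152) (nat_lit 4602562380) (nat_lit 73) (nat_lit 5) (nat_lit 74) (nat_lit 5) (nat_lit 75) (nat_lit 4) (nat_lit 540) (nat_lit 428) (nat_lit 232))) (XT.nd (nat_lit 78) (nat_lit 0) (nat_lit 0) (XT.lf (nat_lit 0) (nat_lit 15042197785) (nat_lit 228) (nat_lit 53468675090) (nat_lit 76) (nat_lit 3039888336) (nat_lit 70) (nat_lit 5) (nat_lit 73) (nat_lit 5) (nat_lit 71) (nat_lit 4) (nat_lit 541) (nat_lit 428) (nat_lit 231)) (XT.lf (nat_lit 0) (nat_lit 35609554592) (nat_lit 228) (nat_lit 11724200815) (nat_lit 76) (nat_lit 25686128282) (nat_lit 70) (nat_lit 5) (nat_lit 73) (nat_lit 5) (nat_lit 71) (nat_lit 4) (nat_lit 542) (nat_lit 428) (nat_lit 230))))))))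
noncomputable def xc160 : XT := (XT.nd (nat_lit 55380) (nat_lit 0) (nat_lit 8436) (XT.nd (nat_lit 54132) (nat_lit 0) (nat_lit 16644) (XT.nd (nat_lit 546) (nat_lit 76) (nat_lit 0) (XT.nd (nat_lit 234) (nat_lit 228) (nat_lit 0) (XT.nd (nat_lit 78) (nat_lit 228) (nat_lit 0) (XT.lf (nat_lit 0) (nat_lit 31887533295) (nat_lit 76) (nat_lit 25209106369) (nat_lit 152) (nat_lit 17427359001) (nat_lit 69) (nat_lit 5) (nat_lit 70) (nat_lit 5) (nat_lit 71) (nat_lit 4) (nat_lit 543) (nat_lit 428) (nat_lit 229)) (XT.nd (nat_lit 78) (nat_lit 0) (nat_lit 0) (XT.lf (nat_lit 0) (nat_lit 958145431) (nat_lit 152) (nat_lit 2260350472) (nat_lit 228) (nat_lit 72850082480) (nat_lit 66) (nat_lit 5) (nat_lit 68) (nat_lit 5) (nat_lit 69) (nat_lit 5) (nat_lit 544) (nat_lit 428) (nat_lit 228)) (XT.lf (nat_lit 0) (nat_lit 24769945904) (nat_lit 228) (nat_lit 31301604454) (nat_lit 76) (nat_lit 21563673973) (nat_lit 66) (nat_lit 5) (nat_lit 69)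 (nat_lit 5) (nat_lit 67) (nat_lit 4) (nat_lit 545) (nat_lit 428) (nat_lit 227)))) (XT.nd (nat_lit 156) (nat_lit 152) (nat_lit 0) (XT.nd (nat_lit 78) (nat_lit 0) (nat_lit 0) (XT.lf (nat_lit 0) (nat_lit 14066483216) (nat_lit 76) (nat_lit 33055359361) (nat_lit 152) (nat_lit 32122410030) (nat_lit 65) (nat_lit 5) (nat_lit 66) (nat_lit 5) (nat_lit 67) (nat_lit 4) (nat_lit 546) (nat_lit 428) (nat_lit 226)) (XT.lf (nat_lit 0) (nat_lit 61430221737) (nat_lit 76) (nat_lit 9026506896) (nat_lit 152) (nat_lit 10435450168) (nat_lit 65) (nat_lit 5) (nat_lit 66) (nat_lit 5) (nat_lit 67) (nat_lit 4) (nat_lit 547) (nat_lit 428) (nat_lit 225))) (XT.nd (nat_lit 78) (nat_lit 0) (nat_lit 0) (XT.lf (nat_lit 0) (nat_lit 12090842990) (nat_lit 152) (nat_lit 54681647436) (nat_lit 76) (nat_lit 15800990750) (nat_lit 63) (nat_lit 5) (nat_lit 65) (nat_lit 5) (nat_lit 64) (nat_lit 4) (nat_lit 548) (nat_lit 428) (nat_lit 224)) (XT.lf (nat_lit 0)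 (nat_lit 35367453199) (nat_lit 152) (nat_lit 7435692930) (nat_lit 76) (nat_lit 41490448781) (nat_lit 63) (nat_lit 5) (nat_lit 65) (nat_lit 5) (nat_lit 64) (nat_lit 4) (nat_lit 549) (nat_lit 428) (nat_lit 223))))) (XT.nd (nat_lit 53274) (nat_lit 0) (nat_lit 20140) (XT.nd (nat_lit 53118) (nat_lit 0) (nat_lit 20064) (XT.nd (nat_lit 53040) (nat_lit 0) (nat_lit 21204) (XT.lf (nat_lit 0) (nat_lit 42041301919) (nat_lit 76) (nat_lit 17701716307) (nat_lit 152) (nat_lit 26310274175) (nat_lit 62) (nat_lit 5) (nat_lit 63) (nat_lit 5) (nat_lit 64) (nat_lit 4) (nat_lit 550) (nat_lit 428) (nat_lit 222)) (XT.lf (nat_lit 0) (nat_lit 4480715878) (nat_lit 1140) (nat_lit 272217812) (nat_lit 1140) (nat_lit 272217812) (nat_lit 341) (nat_lit 3) (nat_lit 356) (nat_lit 3) (nat_lit 356) (nat_lit 5) (nat_lit 429) (nat_lit 429) (nat_lit 342))) (XT.nd (nat_lit 78) (nat_lit 1140) (nat_lit 0) (XT.lf (nat_lit 76) (nat_lit 4531021437) (nat_lit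 0) (nat_lit 5298049321) (nat_lit 1140) (nat_lit 349920550) (nat_lit 342) (nat_lit 5) (nat_lit 341) (nat_lit 3) (nat_lit 356) (nat_lit 5) (nat_lit 430) (nat_lit 429) (nat_lit 341)) (XT.lf (nat_lit 0) (nat_lit 381404852) (nat_lit 1140) (nat_lit 560165044) (nat_lit 1216) (nat_lit 9370507521) (nat_lit 326) (nat_lit 5) (nat_lit 341) (nat_lit 3) (nat_lit 342) (nat_lit 5) (nat_lit 431) (nat_lit 429) (nat_lit 340)))) (XT.nd (nat_lit 156) (nat_lit 0) (nat_lit 76) (XT.nd (nat_lit 78) (nat_lit 0) (nat_lit 0) (XT.lf (nat_lit 0) (nat_lit 1181509361) (nat_lit 1140) (nat_lit 5727820703) (nat_lit 1216) (nat_lit 3538108500) (nat_lit 327) (nat_lit 5) (nat_lit 342) (nat_lit 5) (nat_lit 343) (nat_lit 5) (nat_lit 432) (nat_lit 429) (nat_lit 339)) (XT.lf (nat_lit 0) (nat_lit 1994875880) (nat_lit 1140) (nat_lit 441802261) (nat_lit 1216) (nat_lit 8150507128) (nat_lit 327) (nat_lit 5) (nat_lit 342) (nat_lit 5) (nat_lit 343) (nat_lit 5)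 (nat_lit 433) (nat_lit 429) (nat_lit 338))) (XT.nd (nat_lit 78) (nat_lit 0) (nat_lit 0) (XT.lf (nat_lit 0) (nat_lit 2877967658) (nat_lit 1140) (nat_lit 5664356614) (nat_lit 1216) (nat_lit 2187442794) (nat_lit 328) (nat_lit 5) (nat_lit 343) (nat_lit 5) (nat_lit 344) (nat_lit 5) (nat_lit 434) (nat_lit 429) (nat_lit 337)) (XT.lf (nat_lit 0) (nat_lit 3791844175) (nat_lit 1140) (nat_lit 169027658) (nat_lit 1216) (nat_lit 6915628071) (nat_lit 328) (nat_lit 5) (nat_lit 343) (nat_lit 5) (nat_lit 344) (nat_lit 5) (nat_lit 435) (nat_lit 429) (nat_lit 336)))))) (XT.nd (nat_lit 624) (nat_lit 2660) (nat_lit 0) (XT.nd (nat_lit 312) (nat_lit 988) (nat_lit 0) (XT.nd (nat_lit 156) (nat_lit 0) (nat_lit 0) (XT.nd (nat_lit 78) (nat_lit 0) (nat_lit 0) (XT.lf (nat_lit 0) (nat_lit 4771099381) (nat_lit 1140) (nat_lit 5449303991) (nat_lit 1216) (nat_lit 806094761) (nat_lit 329) (nat_lit 5) (nat_lit 344) (nat_lit 5) (nat_lit 345) (nat_lit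 5) (nat_lit 436) (nat_lit 429) (nat_lit 335)) (XT.lf (nat_lit 76) (nat_lit 268888604) (nat_lit 0) (nat_lit 5531366592) (nat_lit 1216) (nat_lit 5380127637) (nat_lit 330) (nat_lit 5) (nat_lit 329) (nat_lit 5) (nat_lit 345) (nat_lit 5) (nat_lit 437) (nat_lit 429) (nat_lit 334))) (XT.nd (nat_lit 78) (nat_lit 0) (nat_lit 76) (XT.lf (nat_lit 76) (nat_lit 6255036491) (nat_lit 0) (nat_lit 637797343) (nat_lit 1216) (nat_lit 4445075944) (nat_lit 330) (nat_lit 5) (nat_lit 329) (nat_lit 5) (nat_lit 345) (nat_lit 5) (nat_lit 438) (nat_lit 429) (nat_lit 333)) (XT.lf (nat_lit 76) (nat_lit 879881433) (nat_lit 0) (nat_lit 7167329271) (nat_lit 1216) (nat_lit 3452083286) (nat_lit 331) (nat_lit 5) (nat_lit 330) (nat_lit 5) (nat_lit 346) (nat_lit 5) (nat_lit 439) (nat_lit 429) (nat_lit 332)))) (XT.nd (nat_lit 156) (nat_lit 1064) (nat_lit 0) (XT.nd (nat_lit 78) (nat_lit 0) (nat_lit 76) (XT.lf (nat_lit 76) (nat_lit 7103850678) (nat_lit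 0) (nat_lit 2168676271) (nat_lit 1216) (nat_lit 2391905561) (nat_lit 331) (nat_lit 5) (nat_lit 330) (nat_lit 5) (nat_lit 346) (nat_lit 5) (nat_lit 440) (nat_lit 429) (nat_lit 331)) (XT.lf (nat_lit 76) (nat_lit 1668274386) (nat_lit 0) (nat_lit 8890412012) (nat_lit 1216) (nat_lit 1275118243) (nat_lit 332) (nat_lit 5) (nat_lit 331) (nat_lit 5) (nat_lit 347) (nat_lit 5) (nat_lit 441) (nat_lit 429) (nat_lit 330))) (XT.nd (nat_lit 78) (nat_lit 1140) (nat_lit 0) (XT.lf (nat_lit 76) (nat_lit 8140089289) (nat_lit 0) (nat_lit 3790509062) (nat_lit 1216) (nat_lit 76246461) (nat_lit 332) (nat_lit 5) (nat_lit 331) (nat_lit 5) (nat_lit 347) (nat_lit 5) (nat_lit 442) (nat_lit 429) (nat_lit 329)) (XT.lf (nat_lit 0) (nat_lit 1156124110) (nat_lit 1216) (nat_lit 9552994072) (nat_lit 1292) (nat_lit 1475021465) (nat_lit 316) (nat_lit 5) (nat_lit 332) (nat_lit 5) (nat_lit 333) (nat_lit 5) (nat_lit 443) (nat_lit 429) (nat_lit 328)))))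 (XT.nd (nat_lit 312) (nat_lit 1520) (nat_lit 0) (XT.nd (nat_lit 156) (nat_lit 1140) (nat_lit 0) (XT.nd (nat_lit 78) (nat_lit 0) (nat_lit 0) (XT.lf (nat_lit 0) (nat_lit 2481608217) (nat_lit 1216) (nat_lit 3016912597) (nat_lit 1292) (nat_lit 6866481364) (nat_lit 316) (nat_lit 5) (nat_lit 332) (nat_lit 5) (nat_lit 333) (nat_lit 5) (nat_lit 444) (nat_lit 429) (nat_lit 327)) (XT.lf (nat_lit 76) (nat_lit 3773440302) (nat_lit 0) (nat_lit 90962808) (nat_lit 1292) (nat_lit 8686362784) (nat_lit 317) (nat_lit 5) (nat_lit 316) (nat_lit 5) (nat_lit 333) (nat_lit 5) (nat_lit 445) (nat_lit 429) (nat_lit 326))) (XT.nd (nat_lit 78) (nat_lit 1216) (nat_lit 0) (XT.lf (nat_lit 0) (nat_lit 5353815413) (nat_lit 1216) (nat_lit 1980682130) (nat_lit 76) (nat_lit 5405652616) (nat_lit 317) (nat_lit 5) (nat_lit 333) (nat_lit 5) (nat_lit 318) (nat_lit 5) (nat_lit 446) (nat_lit 429) (nat_lit 325)) (XT.lf (nat_lit 0) (nat_lit 5103129109) (nat_lit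 1216) (nat_lit 1816970211) (nat_lit 1292) (nat_lit 6014152555) (nat_lit 301) (nat_lit 5) (nat_lit 317) (nat_lit 5) (nat_lit 318) (nat_lit 5) (nat_lit 447) (nat_lit 429) (nat_lit 324)))) (XT.nd (nat_lit 156) (nat_lit 684) (nat_lit 0) (XT.nd (nat_lit 78) (nat_lit 836) (nat_lit 0) (XT.lf (nat_lit 0) (nat_lit 8573359429) (nat_lit 1292) (nat_lit 746685234) (nat_lit 76) (nat_lit 3812933899) (nat_lit 301) (nat_lit 5) (nat_lit 318) (nat_lit 5) (nat_lit 302) (nat_lit 5) (nat_lit 448) (nat_lit 429) (nat_lit 323)) (XT.lf (nat_lit 0) (nat_lit 6646651888) (nat_lit 836) (nat_lit 3694578489) (nat_lit 912) (nat_lit 2994487789) (nat_lit 290) (nat_lit 5) (nat_lit 301) (nat_lit 5) (nat_lit 302) (nat_lit 5) (nat_lit 449) (nat_lit 429) (nat_lit 322))) (XT.nd (nat_lit 78) (nat_lit 76) (nat_lit 0) (XT.lf (nat_lit 0) (nat_lit 710688626) (nat_lit 608) (nat_lit 11469567845) (nat_lit 684) (nat_lit 1363741378) (nat_lit 282) (nat_lit 5) (nat_lit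 290) (nat_lit 5) (nat_lit 291) (nat_lit 5) (nat_lit 450) (nat_lit 429) (nat_lit 321)) (XT.lf (nat_lit 0) (nat_lit 398217188) (nat_lit 684) (nat_lit 5343105695) (nat_lit 76) (nat_lit 8014459673) (nat_lit 281) (nat_lit 5) (nat_lit 290) (nat_lit 5) (nat_lit 282) (nat_lit 5) (nat_lit 451) (nat_lit 429) (nat_lit 320))))))) (XT.nd (nat_lit 1170) (nat_lit 3420) (nat_lit 0) (XT.nd (nat_lit 546) (nat_lit 2432) (nat_lit 0) (XT.nd (nat_lit 234) (nat_lit 1216) (nat_lit 0) (XT.nd (nat_lit 78) (nat_lit 532) (nat_lit 0) (XT.lf (nat_lit 0) (nat_lit 2194621154) (nat_lit 684) (nat_lit 11585679532) (nat_lit 76) (nat_lit 192946491) (nat_lit 273) (nat_lit 5) (nat_lit 282) (nat_lit 5) (nat_lit 274) (nat_lit 5) (nat_lit 452) (nat_lit 429) (nat_lit 319)) (XT.nd (nat_lit 78) (nat_lit 532) (nat_lit 0) (XT.lf (nat_lit 0) (nat_lit 4140704608) (nat_lit 684) (nat_lit 3809039470) (nat_lit 76) (nat_lit 6244619336) (nat_lit 273) (nat_lit 5) (nat_lit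 282) (nat_lit 5) (nat_lit 274) (nat_lit 5) (nat_lit 453) (nat_lit 429) (nat_lit 318)) (XT.lf (nat_lit 0) (nat_lit 4268927174) (nat_lit 532) (nat_lit 1902185234) (nat_lit 608) (nat_lit 8250223737) (nat_lit 266) (nat_lit 5) (nat_lit 273) (nat_lit 5) (nat_lit 274) (nat_lit 5) (nat_lit 454) (nat_lit 429) (nat_lit 317)))) (XT.nd (nat_lit 156) (nat_lit 608) (nat_lit 0) (XT.nd (nat_lit 78) (nat_lit 608) (nat_lit 0) (XT.lf (nat_lit 0) (nat_lit 8328066358) (nat_lit 608) (nat_lit 2044189524) (nat_lit 76) (nat_lit 4280894383) (nat_lit 266) (nat_lit 5) (nat_lit 274) (nat_lit 5) (nat_lit 267) (nat_lit 5) (nat_lit 455) (nat_lit 429) (nat_lit 316)) (XT.lf (nat_lit 0) (nat_lit 6398180862) (nat_lit 608) (nat_lit 4217513358) (nat_lit 684) (nat_lit 4274246818) (nat_lit 258) (nat_lit 5) (nat_lit 266) (nat_lit 5) (nat_lit 267) (nat_lit 5) (nat_lit 456) (nat_lit 429) (nat_lit 315))) (XT.nd (nat_lit 78) (nat_lit 608) (nat_lit 0) (XT.lf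 (nat_lit 0) (nat_lit 12999089255) (nat_lit 684) (nat_lit 33472344) (nat_lit 76) (nat_lit 2100460941) (nat_lit 258) (nat_lit 5) (nat_lit 267) (nat_lit 5) (nat_lit 259) (nat_lit 5) (nat_lit 457) (nat_lit 429) (nat_lit 314)) (XT.lf (nat_lit 0) (nat_lit 182917343) (nat_lit 608) (nat_lit 6588347637) (nat_lit 76) (nat_lit 8608701084) (nat_lit 250) (nat_lit 5) (nat_lit 258) (nat_lit 5) (nat_lit 251) (nat_lit 5) (nat_lit 458) (nat_lit 429) (nat_lit 313))))) (XT.nd (nat_lit 312) (nat_lit 1444) (nat_lit 0) (XT.nd (nat_lit 156) (nat_lit 456) (nat_lit 0) (XT.nd (nat_lit 78) (nat_lit 0) (nat_lit 0) (XT.lf (nat_lit 0) (nat_lit 2255667139) (nat_lit 532) (nat_lit 279168972) (nat_lit 608) (nat_lit 13098595421) (nat_lit 243) (nat_lit 5) (nat_lit 250) (nat_lit 5) (nat_lit 251) (nat_lit 5) (nat_lit 459) (nat_lit 429) (nat_lit 312)) (XT.lf (nat_lit 0) (nat_lit 5072760212) (nat_lit 608) (nat_lit 4469997067) (nat_lit 76) (nat_lit 6348281277)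 (nat_lit 243) (nat_lit 5) (nat_lit 251) (nat_lit 5) (nat_lit 244) (nat_lit 5) (nat_lit 460) (nat_lit 429) (nat_lit 311))) (XT.nd (nat_lit 78) (nat_lit 0) (nat_lit 0) (XT.lf (nat_lit 0) (nat_lit 4780677297) (nat_lit 456) (nat_lit 2941917015) (nat_lit 532) (nat_lit 8432707308) (nat_lit 237) (nat_lit 5) (nat_lit 243) (nat_lit 5) (nat_lit 244) (nat_lit 5) (nat_lit 461) (nat_lit 429) (nat_lit 310)) (XT.lf (nat_lit 0) (nat_lit 10521853903) (nat_lit 532) (nat_lit 2078225940) (nat_lit 76) (nat_lit 3825315783) (nat_lit 237) (nat_lit 5) (nat_lit 244) (nat_lit 5) (nat_lit 238) (nat_lit 5) (nat_lit 462) (nat_lit 429) (nat_lit 309)))) (XT.nd (nat_lit 156) (nat_lit 532) (nat_lit 0) (XT.nd (nat_lit 78) (nat_lit 456) (nat_lit 0) (XT.lf (nat_lit 0) (nat_lit 7601643102) (nat_lit 456) (nat_lit 5893288494) (nat_lit 532) (nat_lit 3205966588) (nat_lit 231) (nat_lit 5) (nat_lit 237) (nat_lit 5) (nat_lit 238) (nat_lit 5) (nat_lit 463)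 (nat_lit 429) (nat_lit 308)) (XT.lf (nat_lit 0) (nat_lit 617738183) (nat_lit 456) (nat_lit 15964188236) (nat_lit 532) (nat_lit 401998566) (nat_lit 225) (nat_lit 5) (nat_lit 231) (nat_lit 5) (nat_lit 232) (nat_lit 5) (nat_lit 464) (nat_lit 429) (nat_lit 307))) (XT.nd (nat_lit 78) (nat_lit 456) (nat_lit 0) (XT.lf (nat_lit 0) (nat_lit 2576652586) (nat_lit 532) (nat_lit 6557999509) (nat_lit 76) (nat_lit 8135902122) (nat_lit 224) (nat_lit 5) (nat_lit 231) (nat_lit 5) (nat_lit 225) (nat_lit 5) (nat_lit 465) (nat_lit 429) (nat_lit 306)) (XT.lf (nat_lit 0) (nat_lit 3596137920) (nat_lit 456) (nat_lit 2063298184) (nat_lit 532) (nat_lit 11905542072) (nat_lit 218) (nat_lit 5) (nat_lit 224) (nat_lit 5) (nat_lit 225) (nat_lit 5) (nat_lit 466) (nat_lit 429) (nat_lit 305)))))) (XT.nd (nat_lit 624) (nat_lit 1748) (nat_lit 0) (XT.nd (nat_lit 312) (nat_lit 760) (nat_lit 0) (XT.nd (nat_lit 156) (nat_lit 532) (nat_lit 0) (XT.nd (nat_lit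 78) (nat_lit 380) (nat_lit 0) (XT.lf (nat_lit 0) (nat_lit 8940221860) (nat_lit 532) (nat_lit 3742417314) (nat_lit 76) (nat_lit 5182430928) (nat_lit 218) (nat_lit 5) (nat_lit 225) (nat_lit 5) (nat_lit 219) (nat_lit 5) (nat_lit 467) (nat_lit 429) (nat_lit 304)) (XT.lf (nat_lit 0) (nat_lit 6890591246) (nat_lit 380) (nat_lit 5504301721) (nat_lit 456) (nat_lit 5777008751) (nat_lit 213) (nat_lit 5) (nat_lit 218) (nat_lit 5) (nat_lit 219) (nat_lit 5) (nat_lit 468) (nat_lit 429) (nat_lit 303))) (XT.nd (nat_lit 78) (nat_lit 532) (nat_lit 0) (XT.lf (nat_lit 0) (nat_lit 15998489013) (nat_lit 456) (nat_lit 600435213) (nat_lit 76) (nat_lit 1887656275) (nat_lit 213) (nat_lit 5) (nat_lit 219) (nat_lit 5) (nat_lit 214) (nat_lit 5) (nat_lit 469) (nat_lit 429) (nat_lit 302)) (XT.lf (nat_lit 0) (nat_lit 1028451796) (nat_lit 532) (nat_lit 8278409044) (nat_lit 76) (nat_lit 9499184808) (nat_lit 206) (nat_lit 5) (nat_lit 213) (nat_lit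 5) (nat_lit 207) (nat_lit 5) (nat_lit 470) (nat_lit 429) (nat_lit 301)))) (XT.nd (nat_lit 156) (nat_lit 380) (nat_lit 0) (XT.nd (nat_lit 78) (nat_lit 0) (nat_lit 0) (XT.lf (nat_lit 0) (nat_lit 2884481481) (nat_lit 380) (nat_lit 1739205723) (nat_lit 456) (nat_lit 14509973086) (nat_lit 201) (nat_lit 5) (nat_lit 206) (nat_lit 5) (nat_lit 207) (nat_lit 5) (nat_lit 471) (nat_lit 429) (nat_lit 300)) (XT.lf (nat_lit 0) (nat_lit 8458908525) (nat_lit 456) (nat_lit 4989874586) (nat_lit 76) (nat_lit 6018357074) (nat_lit 201) (nat_lit 5) (nat_lit 207) (nat_lit 5) (nat_lit 202) (nat_lit 5) (nat_lit 472) (nat_lit 429) (nat_lit 299))) (XT.nd (nat_lit 78) (nat_lit 0) (nat_lit 0) (XT.lf (nat_lit 0) (nat_lit 6707081398) (nat_lit 380) (nat_lit 5773599942) (nat_lit 456) (nat_lit 7327798948) (nat_lit 196) (nat_lit 5) (nat_lit 201) (nat_lit 5) (nat_lit 202) (nat_lit 5) (nat_lit 473) (nat_lit 429) (nat_lit 298)) (XT.lf (nat_lit 0) (nat_lit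 16684420140) (nat_lit 456) (nat_lit 1336225241) (nat_lit 76) (nat_lit 2137576470) (nat_lit 196) (nat_lit 5) (nat_lit 202) (nat_lit 5) (nat_lit 197) (nat_lit 5) (nat_lit 474) (nat_lit 429) (nat_lit 297))))) (XT.nd (nat_lit 312) (nat_lit 684) (nat_lit 0) (XT.nd (nat_lit 156) (nat_lit 304) (nat_lit 0) (XT.nd (nat_lit 78) (nat_lit 380) (nat_lit 0) (XT.lf (nat_lit 0) (nat_lit 640051626) (nat_lit 380) (nat_lit 9595758606) (nat_lit 76) (nat_lit 10277885709) (nat_lit 191) (nat_lit 5) (nat_lit 196) (nat_lit 5) (nat_lit 192) (nat_lit 5) (nat_lit 475) (nat_lit 429) (nat_lit 296)) (XT.lf (nat_lit 0) (nat_lit 2692117398) (nat_lit 380) (nat_lit 2145175171) (nat_lit 456) (nat_lit 16040616687) (nat_lit 186) (nat_lit 5) (nat_lit 191) (nat_lit 5) (nat_lit 192) (nat_lit 5) (nat_lit 476) (nat_lit 429) (nat_lit 295))) (XT.nd (nat_lit 78) (nat_lit 304) (nat_lit 0) (XT.lf (nat_lit 0) (nat_lit 9308196274) (nat_lit 456) (nat_lit 5778944076)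 (nat_lit 76) (nat_lit 6161476824) (nat_lit 186) (nat_lit 5) (nat_lit 192) (nat_lit 5) (nat_lit 187) (nat_lit 5) (nat_lit 477) (nat_lit 429) (nat_lit 294)) (XT.lf (nat_lit 0) (nat_lit 7104205774) (nat_lit 304) (nat_lit 6889233395) (nat_lit 380) (nat_lit 7634601348) (nat_lit 182) (nat_lit 5) (nat_lit 186) (nat_lit 5) (nat_lit 187) (nat_lit 5) (nat_lit 478) (nat_lit 429) (nat_lit 293)))) (XT.nd (nat_lit 156) (nat_lit 304) (nat_lit 0) (XT.nd (nat_lit 78) (nat_lit 380) (nat_lit 0) (XT.lf (nat_lit 0) (nat_lit 18883906258) (nat_lit 380) (nat_lit 1553704409) (nat_lit 76) (nat_lit 1579296422) (nat_lit 182) (nat_lit 5) (nat_lit 187) (nat_lit 5) (nat_lit 183) (nat_lit 5) (nat_lit 479) (nat_lit 429) (nat_lit 292)) (XT.lf (nat_lit 0) (nat_lit 1650242449) (nat_lit 380) (nat_lit 10470745705) (nat_lit 76) (nat_lit 10290740299) (nat_lit 177) (nat_lit 5) (nat_lit 182) (nat_lit 5) (nat_lit 178) (nat_lit 5) (nat_lit 480) (nat_lit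 429) (nat_lit 291))) (XT.nd (nat_lit 78) (nat_lit 0) (nat_lit 0) (XT.lf (nat_lit 0) (nat_lit 3070110579) (nat_lit 304) (nat_lit 3480365201) (nat_lit 380) (nat_lit 16265894687) (nat_lit 173) (nat_lit 5) (nat_lit 177) (nat_lit 5) (nat_lit 178) (nat_lit 5) (nat_lit 481) (nat_lit 429) (nat_lit 290)) (XT.lf (nat_lit 0) (nat_lit 11747793401) (nat_lit 380) (nat_lit 6064443785) (nat_lit 76) (nat_lit 5416412709) (nat_lit 173) (nat_lit 5) (nat_lit 178) (nat_lit 5) (nat_lit 174) (nat_lit 5) (nat_lit 482) (nat_lit 429) (nat_lit 289))))))))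
noncomputable def xc161 : XT := (XT.nd (nat_lit 2418) (nat_lit 3040) (nat_lit 0) (XT.nd (nat_lit 1170) (nat_lit 2204) (nat_lit 0) (XT.nd (nat_lit 546) (nat_lit 1368) (nat_lit 0) (XT.nd (nat_lit 234) (nat_lit 608) (nat_lit 0) (XT.nd (nat_lit 78) (nat_lit 380) (nat_lit 0) (XT.lf (nat_lit 0) (nat_lit 8139425950) (nat_lit 304) (nat_lit 9065762180) (nat_lit 380) (nat_lit 6444985313) (nat_lit 169) (nat_lit 5) (nat_lit 173) (nat_lit 5) (nat_lit 174) (nat_lit 5) (nat_lit 483) (nat_lit 429) (nat_lit 288)) (XT.nd (nat_lit 78) (nat_lit 380) (nat_lit 0) (XT.lf (nat_lit 0) (nat_lit 22879147088) (nat_lit 380) (nat_lit 1201696372) (nat_lit 76) (nat_lit 1914413) (nat_lit 169) (nat_lit 5) (nat_lit 174) (nat_lit 5) (nat_lit 170) (nat_lit 5) (nat_lit 484) (nat_lit 429) (nat_lit 287)) (XT.lf (nat_lit 0) (nat_lit 4328516283) (nat_lit 380) (nat_lit 10862605920) (nat_lit 76) (nat_lit 9329527178) (nat_lit 164) (nat_lit 5) (nat_lit 169)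 (nat_lit 5) (nat_lit 165) (nat_lit 5) (nat_lit 485) (nat_lit 429) (nat_lit 286)))) (XT.nd (nat_lit 156) (nat_lit 304) (nat_lit 0) (XT.nd (nat_lit 78) (nat_lit 0) (nat_lit 0) (XT.lf (nat_lit 0) (nat_lit 4071789244) (nat_lit 304) (nat_lit 5973852024) (nat_lit 380) (nat_lit 14924382503) (nat_lit 160) (nat_lit 5) (nat_lit 164) (nat_lit 5) (nat_lit 165) (nat_lit 5) (nat_lit 486) (nat_lit 429) (nat_lit 285)) (XT.lf (nat_lit 0) (nat_lit 16070799820) (nat_lit 380) (nat_lit 5800223227) (nat_lit 76) (nat_lit 3557761150) (nat_lit 160) (nat_lit 5) (nat_lit 165) (nat_lit 5) (nat_lit 161) (nat_lit 5) (nat_lit 487) (nat_lit 429) (nat_lit 284))) (XT.nd (nat_lit 78) (nat_lit 76) (nat_lit 0) (XT.lf (nat_lit 0) (nat_lit 9871984611) (nat_lit 228) (nat_lit 12550913807) (nat_lit 304) (nat_lit 3474023847) (nat_lit 157) (nat_lit 5) (nat_lit 160) (nat_lit 5) (nat_lit 161) (nat_lit 5) (nat_lit 488) (nat_lit 429) (nat_lit 283)) (XT.lf (nat_lit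 0) (nat_lit 2587313262) (nat_lit 304) (nat_lit 281803090) (nat_lit 76) (nat_lit 23507702744) (nat_lit 156) (nat_lit 5) (nat_lit 160) (nat_lit 5) (nat_lit 157) (nat_lit 5) (nat_lit 489) (nat_lit 429) (nat_lit 282))))) (XT.nd (nat_lit 312) (nat_lit 532) (nat_lit 0) (XT.nd (nat_lit 156) (nat_lit 304) (nat_lit 0) (XT.nd (nat_lit 78) (nat_lit 228) (nat_lit 0) (XT.lf (nat_lit 0) (nat_lit 8978950776) (nat_lit 380) (nat_lit 10732252701) (nat_lit 76) (nat_lit 7152329278) (nat_lit 152) (nat_lit 5) (nat_lit 157) (nat_lit 5) (nat_lit 153) (nat_lit 5) (nat_lit 490) (nat_lit 429) (nat_lit 281)) (XT.lf (nat_lit 0) (nat_lit 5749548951) (nat_lit 228) (nat_lit 9891809790) (nat_lit 304) (nat_lit 11721118788) (nat_lit 149) (nat_lit 5) (nat_lit 152) (nat_lit 5) (nat_lit 153) (nat_lit 5) (nat_lit 491) (nat_lit 429) (nat_lit 280))) (XT.nd (nat_lit 78) (nat_lit 304) (nat_lit 0) (XT.lf (nat_lit 0) (nat_lit 22607757025) (nat_lit 304) (nat_lit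 4942585697) (nat_lit 76) (nat_lit 322924715) (nat_lit 149) (nat_lit 5) (nat_lit 153) (nat_lit 5) (nat_lit 150) (nat_lit 5) (nat_lit 492) (nat_lit 429) (nat_lit 279)) (XT.lf (nat_lit 0) (nat_lit 1568335008) (nat_lit 304) (nat_lit 16049059084) (nat_lit 76) (nat_lit 10775241084) (nat_lit 145) (nat_lit 5) (nat_lit 149) (nat_lit 5) (nat_lit 146) (nat_lit 5) (nat_lit 493) (nat_lit 429) (nat_lit 278)))) (XT.nd (nat_lit 156) (nat_lit 304) (nat_lit 0) (XT.nd (nat_lit 78) (nat_lit 0) (nat_lit 0) (XT.lf (nat_lit 0) (nat_lit 1284265399) (nat_lit 228) (nat_lit 7272629504) (nat_lit 304) (nat_lit 20367459418) (nat_lit 142) (nat_lit 5) (nat_lit 145) (nat_lit 5) (nat_lit 146) (nat_lit 5) (nat_lit 494) (nat_lit 429) (nat_lit 277)) (XT.lf (nat_lit 0) (nat_lit 15944131159) (nat_lit 304) (nat_lit 10046480009) (nat_lit 76) (nat_lit 3475743581) (nat_lit 142) (nat_lit 5) (nat_lit 146) (nat_lit 5) (nat_lit 143) (nat_lit 5) (nat_lit 495)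 (nat_lit 429) (nat_lit 276))) (XT.nd (nat_lit 78) (nat_lit 76) (nat_lit 0) (XT.lf (nat_lit 0) (nat_lit 8150542979) (nat_lit 228) (nat_lit 15545840901) (nat_lit 304) (nat_lit 6323929617) (nat_lit 139) (nat_lit 5) (nat_lit 142) (nat_lit 5) (nat_lit 143) (nat_lit 5) (nat_lit 496) (nat_lit 429) (nat_lit 275)) (XT.lf (nat_lit 0) (nat_lit 1164562105) (nat_lit 304) (nat_lit 3511373563) (nat_lit 76) (nat_lit 25911775442) (nat_lit 138) (nat_lit 5) (nat_lit 142) (nat_lit 5) (nat_lit 139) (nat_lit 5) (nat_lit 497) (nat_lit 429) (nat_lit 274)))))) (XT.nd (nat_lit 624) (nat_lit 1064) (nat_lit 0) (XT.nd (nat_lit 312) (nat_lit 456) (nat_lit 0) (XT.nd (nat_lit 156) (nat_lit 228) (nat_lit 0) (XT.nd (nat_lit 78) (nat_lit 228) (nat_lit 0) (XT.lf (nat_lit 0) (nat_lit 8958851985) (nat_lit 304) (nat_lit 15601673469) (nat_lit 76) (nat_lit 6603479621) (nat_lit 135) (nat_lit 5) (nat_lit 139) (nat_lit 5) (nat_lit 136) (nat_lit 5) (nat_lit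 498) (nat_lit 429) (nat_lit 273)) (XT.lf (nat_lit 0) (nat_lit 3534859020) (nat_lit 228) (nat_lit 13561516644) (nat_lit 304) (nat_lit 14657930299) (nat_lit 132) (nat_lit 5) (nat_lit 135) (nat_lit 5) (nat_lit 136) (nat_lit 5) (nat_lit 499) (nat_lit 429) (nat_lit 272))) (XT.nd (nat_lit 78) (nat_lit 228) (nat_lit 0) (XT.lf (nat_lit 0) (nat_lit 23554241176) (nat_lit 228) (nat_lit 2074738797) (nat_lit 304) (nat_lit 6728807504) (nat_lit 132) (nat_lit 5) (nat_lit 135) (nat_lit 5) (nat_lit 136) (nat_lit 5) (nat_lit 500) (nat_lit 429) (nat_lit 271)) (XT.lf (nat_lit 0) (nat_lit 1608138428) (nat_lit 228) (nat_lit 21678390764) (nat_lit 76) (nat_lit 9686489325) (nat_lit 129) (nat_lit 5) (nat_lit 132) (nat_lit 5) (nat_lit 130) (nat_lit 5) (nat_lit 501) (nat_lit 429) (nat_lit 270)))) (XT.nd (nat_lit 156) (nat_lit 228) (nat_lit 0) (XT.nd (nat_lit 78) (nat_lit 228) (nat_lit 0) (XT.lf (nat_lit 0) (nat_lit 10163850662) (nat_lit 228)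 (nat_lit 1526787146) (nat_lit 76) (nat_lit 21910953243) (nat_lit 129) (nat_lit 5) (nat_lit 132) (nat_lit 5) (nat_lit 130) (nat_lit 5) (nat_lit 502) (nat_lit 429) (nat_lit 269)) (XT.lf (nat_lit 0) (nat_lit 19162676980) (nat_lit 304) (nat_lit 14646553301) (nat_lit 76) (nat_lit 434197420) (nat_lit 126) (nat_lit 5) (nat_lit 130) (nat_lit 5) (nat_lit 127) (nat_lit 5) (nat_lit 503) (nat_lit 429) (nat_lit 268))) (XT.nd (nat_lit 78) (nat_lit 76) (nat_lit 0) (XT.lf (nat_lit 0) (nat_lit 6481424930) (nat_lit 152) (nat_lit 22137471229) (nat_lit 228) (nat_lit 6280000662) (nat_lit 124) (nat_lit 5) (nat_lit 126) (nat_lit 5) (nat_lit 127) (nat_lit 5) (nat_lit 504) (nat_lit 429) (nat_lit 267)) (XT.lf (nat_lit 0) (nat_lit 2873620799) (nat_lit 228) (nat_lit 7064998608) (nat_lit 76) (nat_lit 25630312048) (nat_lit 123) (nat_lit 5) (nat_lit 126) (nat_lit 5) (nat_lit 124) (nat_lit 5) (nat_lit 505) (nat_lit 429) (nat_lit 266))))) (XT.nd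 (nat_lit 312) (nat_lit 380) (nat_lit 0) (XT.nd (nat_lit 156) (nat_lit 304) (nat_lit 0) (XT.nd (nat_lit 78) (nat_lit 152) (nat_lit 0) (XT.lf (nat_lit 0) (nat_lit 12342535848) (nat_lit 304) (nat_lit 21129092786) (nat_lit 76) (nat_lit 2780566140) (nat_lit 120) (nat_lit 5) (nat_lit 124) (nat_lit 5) (nat_lit 121) (nat_lit 5) (nat_lit 506) (nat_lit 429) (nat_lit 265)) (XT.lf (nat_lit 0) (nat_lit 1079431181) (nat_lit 152) (nat_lit 21190952987) (nat_lit 228) (nat_lit 14680326041) (nat_lit 118) (nat_lit 5) (nat_lit 120) (nat_lit 5) (nat_lit 121) (nat_lit 5) (nat_lit 507) (nat_lit 429) (nat_lit 264))) (XT.nd (nat_lit 78) (nat_lit 304) (nat_lit 0) (XT.lf (nat_lit 0) (nat_lit 24377059005) (nat_lit 152) (nat_lit 8326484681) (nat_lit 228) (nat_lit 4960413332) (nat_lit 118) (nat_lit 5) (nat_lit 120) (nat_lit 5) (nat_lit 121) (nat_lit 5) (nat_lit 508) (nat_lit 429) (nat_lit 263)) (XT.lf (nat_lit 0) (nat_lit 5092712456) (nat_lit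 304) (nat_lit 28329412741) (nat_lit 76) (nat_lit 4970814159) (nat_lit 114) (nat_lit 5) (nat_lit 118) (nat_lit 5) (nat_lit 115) (nat_lit 5) (nat_lit 509) (nat_lit 429) (nat_lit 262)))) (XT.nd (nat_lit 156) (nat_lit 228) (nat_lit 0) (XT.nd (nat_lit 78) (nat_lit 152) (nat_lit 0) (XT.lf (nat_lit 0) (nat_lit 15559931913) (nat_lit 304) (nat_lit 4895939710) (nat_lit 76) (nat_lit 18680080342) (nat_lit 114) (nat_lit 5) (nat_lit 118) (nat_lit 5) (nat_lit 115) (nat_lit 5) (nat_lit 510) (nat_lit 429) (nat_lit 261)) (XT.lf (nat_lit 0) (nat_lit 19613437006) (nat_lit 152) (nat_lit 6910693319) (nat_lit 228) (nat_lit 13371635918) (nat_lit 112) (nat_lit 5) (nat_lit 114) (nat_lit 5) (nat_lit 115) (nat_lit 5) (nat_lit 511) (nat_lit 429) (nat_lit 260))) (XT.nd (nat_lit 78) (nat_lit 76) (nat_lit 0) (XT.lf (nat_lit 0) (nat_lit 4287195873) (nat_lit 152) (nat_lit 33683333891) (nat_lit 228) (nat_lit 2703247095) (nat_lit 110) (nat_lit 5)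 (nat_lit 112) (nat_lit 5) (nat_lit 113) (nat_lit 5) (nat_lit 512) (nat_lit 429) (nat_lit 259)) (XT.lf (nat_lit 0) (nat_lit 8393249207) (nat_lit 228) (nat_lit 11619372959) (nat_lit 76) (nat_lit 21452024612) (nat_lit 109) (nat_lit 5) (nat_lit 112) (nat_lit 5) (nat_lit 110) (nat_lit 5) (nat_lit 513) (nat_lit 429) (nat_lit 258))))))) (XT.nd (nat_lit 1170) (nat_lit 1444) (nat_lit 0) (XT.nd (nat_lit 546) (nat_lit 684) (nat_lit 0) (XT.nd (nat_lit 234) (nat_lit 532) (nat_lit 0) (XT.nd (nat_lit 78) (nat_lit 228) (nat_lit 0) (XT.lf (nat_lit 0) (nat_lit 14130234537) (nat_lit 152) (nat_lit 5768530350) (nat_lit 228) (nat_lit 22375761397) (nat_lit 107) (nat_lit 5) (nat_lit 109) (nat_lit 5) (nat_lit 110) (nat_lit 5) (nat_lit 514) (nat_lit 429) (nat_lit 257)) (XT.nd (nat_lit 78) (nat_lit 228) (nat_lit 0) (XT.lf (nat_lit 0) (nat_lit 31948174235) (nat_lit 228) (nat_lit 2311016728) (nat_lit 76) (nat_lit 8843549508) (nat_lit 107)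 (nat_lit 5) (nat_lit 110) (nat_lit 5) (nat_lit 108) (nat_lit 5) (nat_lit 515) (nat_lit 429) (nat_lit 256)) (XT.lf (nat_lit 0) (nat_lit 687742144) (nat_lit 228) (nat_lit 19240805301) (nat_lit 76) (nat_lit 24018367083) (nat_lit 104) (nat_lit 5) (nat_lit 107) (nat_lit 5) (nat_lit 105) (nat_lit 5) (nat_lit 516) (nat_lit 429) (nat_lit 255)))) (XT.nd (nat_lit 156) (nat_lit 380) (nat_lit 0) (XT.nd (nat_lit 78) (nat_lit 0) (nat_lit 0) (XT.lf (nat_lit 0) (nat_lit 7797554148) (nat_lit 152) (nat_lit 4956913379) (nat_lit 228) (nat_lit 32055832868) (nat_lit 102) (nat_lit 5) (nat_lit 104) (nat_lit 5) (nat_lit 105) (nat_lit 5) (nat_lit 517) (nat_lit 429) (nat_lit 254)) (XT.lf (nat_lit 0) (nat_lit 25474840957) (nat_lit 228) (nat_lit 9764148896) (nat_lit 76) (nat_lit 10451848722) (nat_lit 102) (nat_lit 5) (nat_lit 105) (nat_lit 5) (nat_lit 103) (nat_lit 5) (nat_lit 518) (nat_lit 429) (nat_lit 253))) (XT.nd (nat_lit 78) (nat_lit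 228) (nat_lit 0) (XT.lf (nat_lit 0) (nat_lit 18606823793) (nat_lit 152) (nat_lit 20192933574) (nat_lit 228) (nat_lit 7791347702) (nat_lit 100) (nat_lit 5) (nat_lit 102) (nat_lit 5) (nat_lit 103) (nat_lit 5) (nat_lit 519) (nat_lit 429) (nat_lit 252)) (XT.lf (nat_lit 0) (nat_lit 464525944) (nat_lit 152) (nat_lit 4542873612) (nat_lit 228) (nat_lit 42506565172) (nat_lit 97) (nat_lit 5) (nat_lit 99) (nat_lit 5) (nat_lit 100) (nat_lit 5) (nat_lit 520) (nat_lit 429) (nat_lit 251))))) (XT.nd (nat_lit 312) (nat_lit 304) (nat_lit 0) (XT.nd (nat_lit 156) (nat_lit 228) (nat_lit 0) (XT.nd (nat_lit 78) (nat_lit 152) (nat_lit 0) (XT.lf (nat_lit 0) (nat_lit 18425200523) (nat_lit 228) (nat_lit 18315927693) (nat_lit 76) (nat_lit 11709317119) (nat_lit 97) (nat_lit 5) (nat_lit 100) (nat_lit 5) (nat_lit 98) (nat_lit 5) (nat_lit 521) (nat_lit 429) (nat_lit 250)) (XT.lf (nat_lit 0) (nat_lit 11449169291) (nat_lit 152) (nat_lit 20946569749)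 (nat_lit 228) (nat_lit 17014775322) (nat_lit 95) (nat_lit 5) (nat_lit 97) (nat_lit 5) (nat_lit 98) (nat_lit 5) (nat_lit 522) (nat_lit 429) (nat_lit 249))) (XT.nd (nat_lit 78) (nat_lit 228) (nat_lit 0) (XT.lf (nat_lit 0) (nat_lit 42473909540) (nat_lit 152) (nat_lit 4491663736) (nat_lit 228) (nat_lit 3428406905) (nat_lit 95) (nat_lit 5) (nat_lit 97) (nat_lit 5) (nat_lit 98) (nat_lit 5) (nat_lit 523) (nat_lit 429) (nat_lit 248)) (XT.lf (nat_lit 0) (nat_lit 10702263552) (nat_lit 228) (nat_lit 28151967394) (nat_lit 76) (nat_lit 12539385760) (nat_lit 92) (nat_lit 5) (nat_lit 95) (nat_lit 5) (nat_lit 93) (nat_lit 5) (nat_lit 524) (nat_lit 429) (nat_lit 247)))) (XT.nd (nat_lit 156) (nat_lit 152) (nat_lit 0) (XT.nd (nat_lit 78) (nat_lit 0) (nat_lit 0) (XT.lf (nat_lit 0) (nat_lit 3051444579) (nat_lit 152) (nat_lit 22286409989) (nat_lit 228) (nat_lit 27079872277) (nat_lit 90) (nat_lit 5) (nat_lit 92) (nat_lit 5) (nat_lit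 93) (nat_lit 5) (nat_lit 525) (nat_lit 429) (nat_lit 246)) (XT.lf (nat_lit 0) (nat_lit 35759507948) (nat_lit 152) (nat_lit 4932673561) (nat_lit 228) (nat_lit 12771988826) (nat_lit 90) (nat_lit 5) (nat_lit 92) (nat_lit 5) (nat_lit 93) (nat_lit 5) (nat_lit 526) (nat_lit 429) (nat_lit 245))) (XT.nd (nat_lit 78) (nat_lit 0) (nat_lit 0) (XT.lf (nat_lit 0) (nat_lit 2194138137) (nat_lit 152) (nat_lit 39487529490) (nat_lit 76) (nat_lit 12851752276) (nat_lit 88) (nat_lit 5) (nat_lit 90) (nat_lit 5) (nat_lit 89) (nat_lit 5) (nat_lit 527) (nat_lit 429) (nat_lit 244)) (XT.lf (nat_lit 0) (nat_lit 17577428984) (nat_lit 152) (nat_lit 6672954566) (nat_lit 76) (nat_lit 31373823303) (nat_lit 88) (nat_lit 5) (nat_lit 90) (nat_lit 5) (nat_lit 89) (nat_lit 5) (nat_lit 528) (nat_lit 429) (nat_lit 243)))))) (XT.nd (nat_lit 624) (nat_lit 684) (nat_lit 0) (XT.nd (nat_lit 312) (nat_lit 304) (nat_lit 0) (XT.nd (nat_lit 156) (nat_lit 228)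 (nat_lit 0) (XT.nd (nat_lit 78) (nat_lit 76) (nat_lit 0) (XT.lf (nat_lit 0) (nat_lit 27657606357) (nat_lit 152) (nat_lit 6026098839) (nat_lit 228) (nat_lit 23056167697) (nat_lit 86) (nat_lit 5) (nat_lit 88) (nat_lit 5) (nat_lit 89) (nat_lit 5) (nat_lit 529) (nat_lit 429) (nat_lit 242)) (XT.lf (nat_lit 0) (nat_lit 5238769212) (nat_lit 76) (nat_lit 45270960230) (nat_lit 152) (nat_lit 7372182762) (nat_lit 85) (nat_lit 5) (nat_lit 86) (nat_lit 5) (nat_lit 87) (nat_lit 4) (nat_lit 530) (nat_lit 429) (nat_lit 241))) (XT.nd (nat_lit 78) (nat_lit 152) (nat_lit 0) (XT.lf (nat_lit 0) (nat_lit 8962838066) (nat_lit 152) (nat_lit 18018972942) (nat_lit 76) (nat_lit 32063312398) (nat_lit 84) (nat_lit 5) (nat_lit 86) (nat_lit 5) (nat_lit 85) (nat_lit 5) (nat_lit 531) (nat_lit 429) (nat_lit 240)) (XT.lf (nat_lit 0) (nat_lit 17912534985) (nat_lit 152) (nat_lit 7895159244) (nat_lit 228) (nat_lit 34428308284) (nat_lit 82) (nat_lit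 5) (nat_lit 84) (nat_lit 5) (nat_lit 85) (nat_lit 5) (nat_lit 532) (nat_lit 429) (nat_lit 239)))) (XT.nd (nat_lit 156) (nat_lit 228) (nat_lit 0) (XT.nd (nat_lit 78) (nat_lit 76) (nat_lit 0) (XT.lf (nat_lit 0) (nat_lit 43450521911) (nat_lit 228) (nat_lit 6288620838) (nat_lit 76) (nat_lit 11714686540) (nat_lit 82) (nat_lit 5) (nat_lit 85) (nat_lit 5) (nat_lit 83) (nat_lit 4) (nat_lit 533) (nat_lit 429) (nat_lit 238)) (XT.lf (nat_lit 0) (nat_lit 31353200902) (nat_lit 76) (nat_lit 30644896689) (nat_lit 152) (nat_lit 698829452) (nat_lit 81) (nat_lit 5) (nat_lit 82) (nat_lit 5) (nat_lit 83) (nat_lit 4) (nat_lit 534) (nat_lit 429) (nat_lit 237))) (XT.nd (nat_lit 78) (nat_lit 0) (nat_lit 0) (XT.lf (nat_lit 0) (nat_lit 6226310202) (nat_lit 152) (nat_lit 10684201771) (nat_lit 228) (nat_lit 47058270546) (nat_lit 78) (nat_lit 5) (nat_lit 80) (nat_lit 5) (nat_lit 81) (nat_lit 5) (nat_lit 535) (nat_lit 429) (nat_lit 236)) (XT.lf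 (nat_lit 0) (nat_lit 35444583065) (nat_lit 228) (nat_lit 19816046596) (nat_lit 76) (nat_lit 10005641632) (nat_lit 78) (nat_lit 5) (nat_lit 81) (nat_lit 5) (nat_lit 79) (nat_lit 4) (nat_lit 536) (nat_lit 429) (nat_lit 235))))) (XT.nd (nat_lit 312) (nat_lit 304) (nat_lit 0) (XT.nd (nat_lit 156) (nat_lit 228) (nat_lit 0) (XT.nd (nat_lit 78) (nat_lit 76) (nat_lit 0) (XT.lf (nat_lit 0) (nat_lit 19515703457) (nat_lit 76) (nat_lit 35308396319) (nat_lit 152) (nat_lit 11769902311) (nat_lit 77) (nat_lit 5) (nat_lit 78) (nat_lit 5) (nat_lit 79) (nat_lit 4) (nat_lit 537) (nat_lit 429) (nat_lit 234)) (XT.lf (nat_lit 0) (nat_lit 6888419228) (nat_lit 152) (nat_lit 7597029508) (nat_lit 76) (nat_lit 53468204439) (nat_lit 76) (nat_lit 5) (nat_lit 78) (nat_lit 5) (nat_lit 77) (nat_lit 5) (nat_lit 538) (nat_lit 429) (nat_lit 233))) (XT.nd (nat_lit 78) (nat_lit 76) (nat_lit 0) (XT.lf (nat_lit 0) (nat_lit 26260321644) (nat_lit 228)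 (nat_lit 35811747754) (nat_lit 76) (nat_lit 7266816607) (nat_lit 74) (nat_lit 5) (nat_lit 77) (nat_lit 5) (nat_lit 75) (nat_lit 4) (nat_lit 539) (nat_lit 429) (nat_lit 232)) (XT.lf (nat_lit 0) (nat_lit 5227922309) (nat_lit 76) (nat_lit 41252779750) (nat_lit 152) (nat_lit 24276954187) (nat_lit 73) (nat_lit 5) (nat_lit 74) (nat_lit 5) (nat_lit 75) (nat_lit 4) (nat_lit 540) (nat_lit 429) (nat_lit 231)))) (XT.nd (nat_lit 156) (nat_lit 76) (nat_lit 0) (XT.nd (nat_lit 78) (nat_lit 228) (nat_lit 0) (XT.lf (nat_lit 0) (nat_lit 48225658000) (nat_lit 76) (nat_lit 19439878313) (nat_lit 152) (nat_lit 4542718062) (nat_lit 73) (nat_lit 5) (nat_lit 74) (nat_lit 5) (nat_lit 75) (nat_lit 4) (nat_lit 541) (nat_lit 429) (nat_lit 230)) (XT.lf (nat_lit 0) (nat_lit 15687084815) (nat_lit 228) (nat_lit 54701470990) (nat_lit 76) (nat_lit 3302917056) (nat_lit 70) (nat_lit 5) (nat_lit 73) (nat_lit 5) (nat_lit 71) (nat_lit 4) (nat_lit 542)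 (nat_lit 429) (nat_lit 229))) (XT.nd (nat_lit 78) (nat_lit 76) (nat_lit 0) (XT.lf (nat_lit 0) (nat_lit 36865822877) (nat_lit 228) (nat_lit 11715476011) (nat_lit 76) (nat_lit 26623539382) (nat_lit 70) (nat_lit 5) (nat_lit 73) (nat_lit 5) (nat_lit 71) (nat_lit 4) (nat_lit 543) (nat_lit 429) (nat_lit 228)) (XT.lf (nat_lit 0) (nat_lit 33201076290) (nat_lit 76) (nat_lit 25794399922) (nat_lit 152) (nat_lit 17758661885) (nat_lit 69) (nat_lit 5) (nat_lit 70) (nat_lit 5) (nat_lit 71) (nat_lit 4) (nat_lit 544) (nat_lit 429) (nat_lit 227))))))))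
noncomputable def xc162 : XT := (XT.nd (nat_lit 55458) (nat_lit 0) (nat_lit 8056) (XT.nd (nat_lit 54210) (nat_lit 0) (nat_lit 15960) (XT.nd (nat_lit 53586) (nat_lit 0) (nat_lit 19988) (XT.nd (nat_lit 234) (nat_lit 152) (nat_lit 0) (XT.nd (nat_lit 78) (nat_lit 76) (nat_lit 0) (XT.lf (nat_lit 0) (nat_lit 1344010482) (nat_lit 152) (nat_lit 2156784502) (nat_lit 228) (nat_lit 74844266154) (nat_lit 66) (nat_lit 5) (nat_lit 68) (nat_lit 5) (nat_lit 69) (nat_lit 5) (nat_lit 545) (nat_lit 429) (nat_lit 226)) (XT.nd (nat_lit 78) (nat_lit 76) (nat_lit 0) (XT.lf (nat_lit 0) (nat_lit 25694977854) (nat_lit 228) (nat_lit 31890120638) (nat_lit 76) (nat_lit 22373722358) (nat_lit 66) (nat_lit 5) (nat_lit 69) (nat_lit 5) (nat_lit 67) (nat_lit 4) (nat_lit 546) (nat_lit 429) (nat_lit 225)) (XT.lf (nat_lit 0) (nat_lit 14835573074) (nat_lit 76) (nat_lit 33879895810) (nat_lit 152) (nat_lit 32900710031) (nat_lit 65) (nat_lit 5) (nat_lit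 66) (nat_lit 5) (nat_lit 67) (nat_lit 4) (nat_lit 547) (nat_lit 429) (nat_lit 224)))) (XT.nd (nat_lit 156) (nat_lit 0) (nat_lit 0) (XT.nd (nat_lit 78) (nat_lit 152) (nat_lit 0) (XT.lf (nat_lit 0) (nat_lit 63610114177) (nat_lit 76) (nat_lit 9135045470) (nat_lit 152) (nat_lit 10568540567) (nat_lit 65) (nat_lit 5) (nat_lit 66) (nat_lit 5) (nat_lit 67) (nat_lit 4) (nat_lit 548) (nat_lit 429) (nat_lit 223)) (XT.lf (nat_lit 0) (nat_lit 12629693820) (nat_lit 152) (nat_lit 55981259532) (nat_lit 76) (nat_lit 16434446537) (nat_lit 63) (nat_lit 5) (nat_lit 65) (nat_lit 5) (nat_lit 64) (nat_lit 4) (nat_lit 549) (nat_lit 429) (nat_lit 222))) (XT.nd (nat_lit 53118) (nat_lit 0) (nat_lit 19988) (XT.lf (nat_lit 0) (nat_lit 36599472465) (nat_lit 152) (nat_lit 7327853692) (nat_lit 76) (nat_lit 42889944831) (nat_lit 63) (nat_lit 5) (nat_lit 65) (nat_lit 5) (nat_lit 64) (nat_lit 4) (nat_lit 550) (nat_lit 429) (nat_lit 221)) (XT.lf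 (nat_lit 0) (nat_lit 70712112) (nat_lit 0) (nat_lit 70712112) (nat_lit 1140) (nat_lit 5013838993) (nat_lit 326) (nat_lit 5) (nat_lit 326) (nat_lit 3) (nat_lit 341) (nat_lit 3) (nat_lit 430) (nat_lit 430) (nat_lit 340))))) (XT.nd (nat_lit 312) (nat_lit 0) (nat_lit 152) (XT.nd (nat_lit 156) (nat_lit 0) (nat_lit 76) (XT.nd (nat_lit 78) (nat_lit 0) (nat_lit 0) (XT.lf (nat_lit 0) (nat_lit 992919076) (nat_lit 1140) (nat_lit 5090324963) (nat_lit 1216) (nat_lit 4360701654) (nat_lit 326) (nat_lit 5) (nat_lit 341) (nat_lit 3) (nat_lit 342) (nat_lit 5) (nat_lit 431) (nat_lit 430) (nat_lit 339)) (XT.lf (nat_lit 76) (nat_lit 128072306) (nat_lit 0) (nat_lit 1573097243) (nat_lit 1216) (nat_lit 8880894139) (nat_lit 327) (nat_lit 5) (nat_lit 326) (nat_lit 5) (nat_lit 342) (nat_lit 5) (nat_lit 432) (nat_lit 430) (nat_lit 338))) (XT.nd (nat_lit 78) (nat_lit 0) (nat_lit 0) (XT.lf (nat_lit 0) (nat_lit 2487086708) (nat_lit 1140) (nat_lit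 5160030104) (nat_lit 1216) (nat_lit 3075518254) (nat_lit 327) (nat_lit 5) (nat_lit 342) (nat_lit 5) (nat_lit 343) (nat_lit 5) (nat_lit 433) (nat_lit 430) (nat_lit 337)) (XT.lf (nat_lit 76) (nat_lit 268261150) (nat_lit 0) (nat_lit 3022177625) (nat_lit 1216) (nat_lit 7577171435) (nat_lit 328) (nat_lit 5) (nat_lit 327) (nat_lit 5) (nat_lit 343) (nat_lit 5) (nat_lit 434) (nat_lit 430) (nat_lit 336)))) (XT.nd (nat_lit 156) (nat_lit 0) (nat_lit 76) (XT.nd (nat_lit 78) (nat_lit 0) (nat_lit 0) (XT.lf (nat_lit 0) (nat_lit 4163623807) (nat_lit 1140) (nat_lit 5082268115) (nat_lit 1216) (nat_lit 1769672993) (nat_lit 328) (nat_lit 5) (nat_lit 343) (nat_lit 5) (nat_lit 344) (nat_lit 5) (nat_lit 435) (nat_lit 430) (nat_lit 335)) (XT.lf (nat_lit 76) (nat_lit 567083071) (nat_lit 0) (nat_lit 4508353130) (nat_lit 1216) (nat_lit 6092151316) (nat_lit 329) (nat_lit 5) (nat_lit 328) (nat_lit 5) (nat_lit 344) (nat_lit 5) (nat_lit 436)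 (nat_lit 430) (nat_lit 334))) (XT.nd (nat_lit 78) (nat_lit 0) (nat_lit 0) (XT.lf (nat_lit 0) (nat_lit 6047669211) (nat_lit 1140) (nat_lit 4851609669) (nat_lit 1216) (nat_lit 423902080) (nat_lit 329) (nat_lit 5) (nat_lit 344) (nat_lit 5) (nat_lit 345) (nat_lit 5) (nat_lit 437) (nat_lit 430) (nat_lit 333)) (XT.lf (nat_lit 76) (nat_lit 1030666219) (nat_lit 0) (nat_lit 6051265888) (nat_lit 1216) (nat_lit 4400526296) (nat_lit 330) (nat_lit 5) (nat_lit 329) (nat_lit 5) (nat_lit 345) (nat_lit 5) (nat_lit 438) (nat_lit 430) (nat_lit 332)))))) (XT.nd (nat_lit 624) (nat_lit 3192) (nat_lit 0) (XT.nd (nat_lit 312) (nat_lit 1064) (nat_lit 0) (XT.nd (nat_lit 156) (nat_lit 0) (nat_lit 76) (XT.nd (nat_lit 78) (nat_lit 0) (nat_lit 76) (XT.lf (nat_lit 76) (nat_lit 7174445796) (nat_lit 0) (nat_lit 1000580097) (nat_lit 1216) (nat_lit 3470656213) (nat_lit 330) (nat_lit 5) (nat_lit 329) (nat_lit 5) (nat_lit 345) (nat_lit 5) (nat_lit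 439) (nat_lit 430) (nat_lit 331)) (XT.lf (nat_lit 76) (nat_lit 1666180625) (nat_lit 0) (nat_lit 7670628411) (nat_lit 1216) (nat_lit 2475918553) (nat_lit 331) (nat_lit 5) (nat_lit 330) (nat_lit 5) (nat_lit 346) (nat_lit 5) (nat_lit 440) (nat_lit 430) (nat_lit 330))) (XT.nd (nat_lit 78) (nat_lit 0) (nat_lit 76) (XT.lf (nat_lit 76) (nat_lit 8054735858) (nat_lit 0) (nat_lit 2513619338) (nat_lit 1216) (nat_lit 1415383862) (nat_lit 331) (nat_lit 5) (nat_lit 330) (nat_lit 5) (nat_lit 346) (nat_lit 5) (nat_lit 441) (nat_lit 430) (nat_lit 329)) (XT.lf (nat_lit 76) (nat_lit 2481849438) (nat_lit 0) (nat_lit 9386337070) (nat_lit 1216) (nat_lit 290756052) (nat_lit 332) (nat_lit 5) (nat_lit 331) (nat_lit 5) (nat_lit 347) (nat_lit 5) (nat_lit 442) (nat_lit 430) (nat_lit 328)))) (XT.nd (nat_lit 156) (nat_lit 0) (nat_lit 76) (XT.nd (nat_lit 78) (nat_lit 0) (nat_lit 76) (XT.lf (nat_lit 0) (nat_lit 896455732) (nat_lit 1216) (nat_lit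 3221252757) (nat_lit 1292) (nat_lit 8220071966) (nat_lit 315) (nat_lit 5) (nat_lit 331) (nat_lit 5) (nat_lit 332) (nat_lit 5) (nat_lit 443) (nat_lit 430) (nat_lit 327)) (XT.lf (nat_lit 0) (nat_lit 2141239509) (nat_lit 1216) (nat_lit 9055721890) (nat_lit 1292) (nat_lit 1324103432) (nat_lit 316) (nat_lit 5) (nat_lit 332) (nat_lit 5) (nat_lit 333) (nat_lit 5) (nat_lit 444) (nat_lit 430) (nat_lit 326))) (XT.nd (nat_lit 78) (nat_lit 0) (nat_lit 0) (XT.lf (nat_lit 0) (nat_lit 3478805664) (nat_lit 1216) (nat_lit 2346388902) (nat_lit 1292) (nat_lit 6882991653) (nat_lit 316) (nat_lit 5) (nat_lit 332) (nat_lit 5) (nat_lit 333) (nat_lit 5) (nat_lit 445) (nat_lit 430) (nat_lit 325)) (XT.lf (nat_lit 76) (nat_lit 4640213494) (nat_lit 0) (nat_lit 243238494) (nat_lit 1292) (nat_lit 8016662264) (nat_lit 317) (nat_lit 5) (nat_lit 316) (nat_lit 5) (nat_lit 333) (nat_lit 5) (nat_lit 446) (nat_lit 430) (nat_lit 324))))) (XT.nd (nat_lit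 312) (nat_lit 1292) (nat_lit 0) (XT.nd (nat_lit 156) (nat_lit 836) (nat_lit 0) (XT.nd (nat_lit 78) (nat_lit 1216) (nat_lit 0) (XT.lf (nat_lit 0) (nat_lit 6389846623) (nat_lit 1216) (nat_lit 1280702461) (nat_lit 76) (nat_lit 5425464325) (nat_lit 317) (nat_lit 5) (nat_lit 333) (nat_lit 5) (nat_lit 318) (nat_lit 5) (nat_lit 447) (nat_lit 430) (nat_lit 323)) (XT.lf (nat_lit 0) (nat_lit 6008178015) (nat_lit 1216) (nat_lit 1976671708) (nat_lit 1292) (nat_lit 5311638826) (nat_lit 301) (nat_lit 5) (nat_lit 317) (nat_lit 5) (nat_lit 318) (nat_lit 5) (nat_lit 448) (nat_lit 430) (nat_lit 322))) (XT.nd (nat_lit 78) (nat_lit 836) (nat_lit 0) (XT.lf (nat_lit 0) (nat_lit 9661760455) (nat_lit 1292) (nat_lit 13010948) (nat_lit 76) (nat_lit 3827186277) (nat_lit 301) (nat_lit 5) (nat_lit 318) (nat_lit 5) (nat_lit 302) (nat_lit 5) (nat_lit 449) (nat_lit 430) (nat_lit 321)) (XT.lf (nat_lit 0) (nat_lit 7594713789) (nat_lit 836) (nat_lit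 3870940627) (nat_lit 912) (nat_lit 2245637611) (nat_lit 290) (nat_lit 5) (nat_lit 301) (nat_lit 5) (nat_lit 302) (nat_lit 5) (nat_lit 450) (nat_lit 430) (nat_lit 320)))) (XT.nd (nat_lit 156) (nat_lit 608) (nat_lit 0) (XT.nd (nat_lit 78) (nat_lit 76) (nat_lit 0) (XT.lf (nat_lit 0) (nat_lit 1498213002) (nat_lit 608) (nat_lit 11844677803) (nat_lit 684) (nat_lit 583440210) (nat_lit 282) (nat_lit 5) (nat_lit 290) (nat_lit 5) (nat_lit 291) (nat_lit 5) (nat_lit 451) (nat_lit 430) (nat_lit 319)) (XT.lf (nat_lit 0) (nat_lit 1191900187) (nat_lit 684) (nat_lit 4743887720) (nat_lit 76) (nat_lit 8209150078) (nat_lit 281) (nat_lit 5) (nat_lit 290) (nat_lit 5) (nat_lit 282) (nat_lit 5) (nat_lit 452) (nat_lit 430) (nat_lit 318))) (XT.nd (nat_lit 78) (nat_lit 0) (nat_lit 0) (XT.lf (nat_lit 0) (nat_lit 3026520713) (nat_lit 684) (nat_lit 11157999180) (nat_lit 76) (nat_lit 184878838) (nat_lit 273) (nat_lit 5) (nat_lit 282) (nat_lit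 5) (nat_lit 274) (nat_lit 5) (nat_lit 453) (nat_lit 430) (nat_lit 317)) (XT.lf (nat_lit 0) (nat_lit 5008674217) (nat_lit 684) (nat_lit 3170640035) (nat_lit 76) (nat_lit 6418505443) (nat_lit 273) (nat_lit 5) (nat_lit 282) (nat_lit 5) (nat_lit 274) (nat_lit 5) (nat_lit 454) (nat_lit 430) (nat_lit 316))))))) (XT.nd (nat_lit 1170) (nat_lit 3344) (nat_lit 0) (XT.nd (nat_lit 546) (nat_lit 2280) (nat_lit 0) (XT.nd (nat_lit 234) (nat_lit 1140) (nat_lit 0) (XT.nd (nat_lit 78) (nat_lit 608) (nat_lit 0) (XT.lf (nat_lit 0) (nat_lit 5142286484) (nat_lit 532) (nat_lit 1943209386) (nat_lit 608) (nat_lit 7746542498) (nat_lit 266) (nat_lit 5) (nat_lit 273) (nat_lit 5) (nat_lit 274) (nat_lit 5) (nat_lit 455) (nat_lit 430) (nat_lit 315)) (XT.nd (nat_lit 78) (nat_lit 608) (nat_lit 0) (XT.lf (nat_lit 0) (nat_lit 9286067855) (nat_lit 608) (nat_lit 1360782049) (nat_lit 76) (nat_lit 4424591485) (nat_lit 266) (nat_lit 5) (nat_lit 274)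 (nat_lit 5) (nat_lit 267) (nat_lit 5) (nat_lit 456) (nat_lit 430) (nat_lit 314)) (XT.lf (nat_lit 0) (nat_lit 7327558143) (nat_lit 608) (nat_lit 4301229051) (nat_lit 684) (nat_lit 3686956519) (nat_lit 258) (nat_lit 5) (nat_lit 266) (nat_lit 5) (nat_lit 267) (nat_lit 5) (nat_lit 457) (nat_lit 430) (nat_lit 313)))) (XT.nd (nat_lit 156) (nat_lit 532) (nat_lit 0) (XT.nd (nat_lit 78) (nat_lit 76) (nat_lit 0) (XT.lf (nat_lit 0) (nat_lit 715322685) (nat_lit 532) (nat_lit 13355405327) (nat_lit 608) (nat_lit 1495779986) (nat_lit 251) (nat_lit 5) (nat_lit 258) (nat_lit 5) (nat_lit 259) (nat_lit 5) (nat_lit 458) (nat_lit 430) (nat_lit 312)) (XT.lf (nat_lit 0) (nat_lit 857153173) (nat_lit 608) (nat_lit 6044010045) (nat_lit 76) (nat_lit 8920087315) (nat_lit 250) (nat_lit 5) (nat_lit 258) (nat_lit 5) (nat_lit 251) (nat_lit 5) (nat_lit 459) (nat_lit 430) (nat_lit 311))) (XT.nd (nat_lit 78) (nat_lit 0) (nat_lit 0) (XT.lf (nat_lit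 0) (nat_lit 3058050782) (nat_lit 532) (nat_lit 209163132) (nat_lit 608) (nat_lit 12815480034) (nat_lit 243) (nat_lit 5) (nat_lit 250) (nat_lit 5) (nat_lit 251) (nat_lit 5) (nat_lit 460) (nat_lit 430) (nat_lit 310)) (XT.lf (nat_lit 0) (nat_lit 5862890752) (nat_lit 608) (nat_lit 3872348714) (nat_lit 76) (nat_lit 6613342739) (nat_lit 243) (nat_lit 5) (nat_lit 251) (nat_lit 5) (nat_lit 244) (nat_lit 5) (nat_lit 461) (nat_lit 430) (nat_lit 309))))) (XT.nd (nat_lit 312) (nat_lit 836) (nat_lit 0) (XT.nd (nat_lit 156) (nat_lit 988) (nat_lit 0) (XT.nd (nat_lit 78) (nat_lit 0) (nat_lit 0) (XT.lf (nat_lit 0) (nat_lit 5648671878) (nat_lit 456) (nat_lit 2931932045) (nat_lit 532) (nat_lit 8040519144) (nat_lit 237) (nat_lit 5) (nat_lit 243) (nat_lit 5) (nat_lit 244) (nat_lit 5) (nat_lit 462) (nat_lit 430) (nat_lit 308)) (XT.lf (nat_lit 0) (nat_lit 11446515491) (nat_lit 532) (nat_lit 1419730490) (nat_lit 76) (nat_lit 4033595077)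 (nat_lit 237) (nat_lit 5) (nat_lit 244) (nat_lit 5) (nat_lit 238) (nat_lit 5) (nat_lit 463) (nat_lit 430) (nat_lit 307))) (XT.nd (nat_lit 78) (nat_lit 532) (nat_lit 0) (XT.lf (nat_lit 0) (nat_lit 8543467543) (nat_lit 456) (nat_lit 5954441176) (nat_lit 532) (nat_lit 2686027624) (nat_lit 231) (nat_lit 5) (nat_lit 237) (nat_lit 5) (nat_lit 238) (nat_lit 5) (nat_lit 464) (nat_lit 430) (nat_lit 306)) (XT.lf (nat_lit 0) (nat_lit 188634967) (nat_lit 532) (nat_lit 16117826894) (nat_lit 76) (nat_lit 1169219535) (nat_lit 224) (nat_lit 5) (nat_lit 231) (nat_lit 5) (nat_lit 225) (nat_lit 5) (nat_lit 465) (nat_lit 430) (nat_lit 305)))) (XT.nd (nat_lit 156) (nat_lit 380) (nat_lit 0) (XT.nd (nat_lit 78) (nat_lit 456) (nat_lit 0) (XT.lf (nat_lit 0) (nat_lit 3231247035) (nat_lit 532) (nat_lit 6040792572) (nat_lit 76) (nat_lit 8499271290) (nat_lit 224) (nat_lit 5) (nat_lit 231) (nat_lit 5) (nat_lit 225) (nat_lit 5) (nat_lit 466)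 (nat_lit 430) (nat_lit 304)) (XT.lf (nat_lit 0) (nat_lit 4410969500) (nat_lit 456) (nat_lit 1985525756) (nat_lit 532) (nat_lit 11678374080) (nat_lit 218) (nat_lit 5) (nat_lit 224) (nat_lit 5) (nat_lit 225) (nat_lit 5) (nat_lit 467) (nat_lit 430) (nat_lit 303))) (XT.nd (nat_lit 78) (nat_lit 380) (nat_lit 0) (XT.lf (nat_lit 0) (nat_lit 9760485482) (nat_lit 532) (nat_lit 3153075250) (nat_lit 76) (nat_lit 5470861023) (nat_lit 218) (nat_lit 5) (nat_lit 225) (nat_lit 5) (nat_lit 219) (nat_lit 5) (nat_lit 468) (nat_lit 430) (nat_lit 302)) (XT.lf (nat_lit 0) (nat_lit 7792044992) (nat_lit 380) (nat_lit 5517350628) (nat_lit 456) (nat_lit 5391345860) (nat_lit 213) (nat_lit 5) (nat_lit 218) (nat_lit 5) (nat_lit 219) (nat_lit 5) (nat_lit 469) (nat_lit 430) (nat_lit 301)))))) (XT.nd (nat_lit 624) (nat_lit 1292) (nat_lit 0) (XT.nd (nat_lit 312) (nat_lit 1140) (nat_lit 0) (XT.nd (nat_lit 156) (nat_lit 380) (nat_lit 0) (XT.nd (nat_lit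 78) (nat_lit 76) (nat_lit 0) (XT.lf (nat_lit 0) (nat_lit 71878027) (nat_lit 456) (nat_lit 16935526254) (nat_lit 532) (nat_lit 2017868301) (nat_lit 207) (nat_lit 5) (nat_lit 213) (nat_lit 5) (nat_lit 214) (nat_lit 5) (nat_lit 470) (nat_lit 430) (nat_lit 300)) (XT.lf (nat_lit 0) (nat_lit 1583923686) (nat_lit 532) (nat_lit 7834116416) (nat_lit 76) (nat_lit 9936413944) (nat_lit 206) (nat_lit 5) (nat_lit 213) (nat_lit 5) (nat_lit 207) (nat_lit 5) (nat_lit 471) (nat_lit 430) (nat_lit 299))) (XT.nd (nat_lit 78) (nat_lit 0) (nat_lit 0) (XT.lf (nat_lit 0) (nat_lit 3656870189) (nat_lit 380) (nat_lit 1621458673) (nat_lit 456) (nat_lit 14413829888) (nat_lit 201) (nat_lit 5) (nat_lit 206) (nat_lit 5) (nat_lit 207) (nat_lit 5) (nat_lit 472) (nat_lit 430) (nat_lit 298)) (XT.lf (nat_lit 0) (nat_lit 9215165535) (nat_lit 456) (nat_lit 4460219166) (nat_lit 76) (nat_lit 6360662551) (nat_lit 201) (nat_lit 5) (nat_lit 207) (nat_lit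 5) (nat_lit 202) (nat_lit 5) (nat_lit 473) (nat_lit 430) (nat_lit 297)))) (XT.nd (nat_lit 156) (nat_lit 760) (nat_lit 0) (XT.nd (nat_lit 78) (nat_lit 0) (nat_lit 0) (XT.lf (nat_lit 0) (nat_lit 7580985187) (nat_lit 380) (nat_lit 5768437046) (nat_lit 456) (nat_lit 7038451352) (nat_lit 196) (nat_lit 5) (nat_lit 201) (nat_lit 5) (nat_lit 202) (nat_lit 5) (nat_lit 474) (nat_lit 430) (nat_lit 296)) (XT.lf (nat_lit 0) (nat_lit 17666540183) (nat_lit 456) (nat_lit 710450009) (nat_lit 76) (nat_lit 2371500110) (nat_lit 196) (nat_lit 5) (nat_lit 202) (nat_lit 5) (nat_lit 197) (nat_lit 5) (nat_lit 475) (nat_lit 430) (nat_lit 295))) (XT.nd (nat_lit 78) (nat_lit 380) (nat_lit 0) (XT.lf (nat_lit 0) (nat_lit 1137872893) (nat_lit 380) (nat_lit 9214743135) (nat_lit 76) (nat_lit 10762103373) (nat_lit 191) (nat_lit 5) (nat_lit 196) (nat_lit 5) (nat_lit 192) (nat_lit 5) (nat_lit 476) (nat_lit 430) (nat_lit 294)) (XT.lf (nat_lit 0) (nat_lit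 3435211421) (nat_lit 380) (nat_lit 2018245989) (nat_lit 456) (nat_lit 16036629755) (nat_lit 186) (nat_lit 5) (nat_lit 191) (nat_lit 5) (nat_lit 192) (nat_lit 5) (nat_lit 477) (nat_lit 430) (nat_lit 293))))) (XT.nd (nat_lit 312) (nat_lit 608) (nat_lit 0) (XT.nd (nat_lit 156) (nat_lit 380) (nat_lit 0) (XT.nd (nat_lit 78) (nat_lit 304) (nat_lit 0) (XT.lf (nat_lit 0) (nat_lit 10046553625) (nat_lit 456) (nat_lit 5297311304) (nat_lit 76) (nat_lit 6528410245) (nat_lit 186) (nat_lit 5) (nat_lit 192) (nat_lit 5) (nat_lit 187) (nat_lit 5) (nat_lit 478) (nat_lit 430) (nat_lit 292)) (XT.lf (nat_lit 0) (nat_lit 7965911462) (nat_lit 304) (nat_lit 6899304710) (nat_lit 380) (nat_lit 7398079966) (nat_lit 182) (nat_lit 5) (nat_lit 186) (nat_lit 5) (nat_lit 187) (nat_lit 5) (nat_lit 479) (nat_lit 430) (nat_lit 291))) (XT.nd (nat_lit 78) (nat_lit 380) (nat_lit 0) (XT.lf (nat_lit 0) (nat_lit 19891067835) (nat_lit 380) (nat_lit 959271642)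 (nat_lit 76) (nat_lit 1813829881) (nat_lit 182) (nat_lit 5) (nat_lit 187) (nat_lit 5) (nat_lit 183) (nat_lit 5) (nat_lit 480) (nat_lit 430) (nat_lit 290)) (XT.lf (nat_lit 0) (nat_lit 2137982041) (nat_lit 380) (nat_lit 10141363097) (nat_lit 76) (nat_lit 10791564059) (nat_lit 177) (nat_lit 5) (nat_lit 182) (nat_lit 5) (nat_lit 178) (nat_lit 5) (nat_lit 481) (nat_lit 430) (nat_lit 289)))) (XT.nd (nat_lit 156) (nat_lit 304) (nat_lit 0) (XT.nd (nat_lit 78) (nat_lit 0) (nat_lit 0) (XT.lf (nat_lit 0) (nat_lit 3799410003) (nat_lit 304) (nat_lit 3379173438) (nat_lit 380) (nat_lit 16309306899) (nat_lit 173) (nat_lit 5) (nat_lit 177) (nat_lit 5) (nat_lit 178) (nat_lit 5) (nat_lit 482) (nat_lit 430) (nat_lit 288)) (XT.lf (nat_lit 0) (nat_lit 12521168725) (nat_lit 380) (nat_lit 5617065479) (nat_lit 76) (nat_lit 5774624187) (nat_lit 173) (nat_lit 5) (nat_lit 178) (nat_lit 5) (nat_lit 174) (nat_lit 5) (nat_lit 483) (nat_lit 430)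 (nat_lit 287))) (XT.nd (nat_lit 78) (nat_lit 0) (nat_lit 0) (XT.lf (nat_lit 0) (nat_lit 9006750627) (nat_lit 304) (nat_lit 9129264257) (nat_lit 380) (nat_lit 6211201536) (nat_lit 169) (nat_lit 5) (nat_lit 173) (nat_lit 5) (nat_lit 174) (nat_lit 5) (nat_lit 484) (nat_lit 430) (nat_lit 286)) (XT.lf (nat_lit 0) (nat_lit 23970060393) (nat_lit 380) (nat_lit 622601461) (nat_lit 76) (nat_lit 200421138) (nat_lit 169) (nat_lit 5) (nat_lit 174) (nat_lit 5) (nat_lit 170) (nat_lit 5) (nat_lit 485) (nat_lit 430) (nat_lit 285))))))))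
noncomputable def xc163 : XT := (XT.nd (nat_lit 2418) (nat_lit 3192) (nat_lit 0) (XT.nd (nat_lit 1170) (nat_lit 1900) (nat_lit 0) (XT.nd (nat_lit 546) (nat_lit 1292) (nat_lit 0) (XT.nd (nat_lit 234) (nat_lit 836) (nat_lit 0) (XT.nd (nat_lit 78) (nat_lit 304) (nat_lit 0) (XT.lf (nat_lit 0) (nat_lit 4860950229) (nat_lit 380) (nat_lit 10571336817) (nat_lit 76) (nat_lit 9811884243) (nat_lit 164) (nat_lit 5) (nat_lit 169) (nat_lit 5) (nat_lit 165) (nat_lit 5) (nat_lit 486) (nat_lit 430) (nat_lit 284)) (XT.nd (nat_lit 78) (nat_lit 0) (nat_lit 0) (XT.lf (nat_lit 0) (nat_lit 4805039738) (nat_lit 304) (nat_lit 5938697876) (nat_lit 380) (nat_lit 14963465427) (nat_lit 160) (nat_lit 5) (nat_lit 164) (nat_lit 5) (nat_lit 165) (nat_lit 5) (nat_lit 487) (nat_lit 430) (nat_lit 283)) (XT.lf (nat_lit 0) (nat_lit 16940096398) (nat_lit 380) (nat_lit 5371358461) (nat_lit 76) (nat_lit 3868558629) (nat_lit 160) (nat_lit 5) (nat_lit 165)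 (nat_lit 5) (nat_lit 161) (nat_lit 5) (nat_lit 488) (nat_lit 430) (nat_lit 282)))) (XT.nd (nat_lit 156) (nat_lit 228) (nat_lit 0) (XT.nd (nat_lit 78) (nat_lit 380) (nat_lit 0) (XT.lf (nat_lit 0) (nat_lit 10765105108) (nat_lit 228) (nat_lit 12712114328) (nat_lit 304) (nat_lit 3185142971) (nat_lit 157) (nat_lit 5) (nat_lit 160) (nat_lit 5) (nat_lit 161) (nat_lit 5) (nat_lit 489) (nat_lit 430) (nat_lit 281)) (XT.lf (nat_lit 0) (nat_lit 302687941) (nat_lit 304) (nat_lit 2739358964) (nat_lit 380) (nat_lit 24114745896) (nat_lit 152) (nat_lit 5) (nat_lit 156) (nat_lit 5) (nat_lit 157) (nat_lit 5) (nat_lit 490) (nat_lit 430) (nat_lit 280))) (XT.nd (nat_lit 78) (nat_lit 228) (nat_lit 0) (XT.lf (nat_lit 0) (nat_lit 9619254035) (nat_lit 380) (nat_lit 10463894868) (nat_lit 76) (nat_lit 7575144860) (nat_lit 152) (nat_lit 5) (nat_lit 157) (nat_lit 5) (nat_lit 153) (nat_lit 5) (nat_lit 491) (nat_lit 430) (nat_lit 279)) (XT.lf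 (nat_lit 0) (nat_lit 6506573329) (nat_lit 228) (nat_lit 9969775922) (nat_lit 304) (nat_lit 11696013672) (nat_lit 149) (nat_lit 5) (nat_lit 152) (nat_lit 5) (nat_lit 153) (nat_lit 5) (nat_lit 492) (nat_lit 430) (nat_lit 278))))) (XT.nd (nat_lit 312) (nat_lit 760) (nat_lit 0) (XT.nd (nat_lit 156) (nat_lit 228) (nat_lit 0) (XT.nd (nat_lit 78) (nat_lit 304) (nat_lit 0) (XT.lf (nat_lit 0) (nat_lit 23643128448) (nat_lit 304) (nat_lit 4514723738) (nat_lit 76) (nat_lit 540883153) (nat_lit 149) (nat_lit 5) (nat_lit 153) (nat_lit 5) (nat_lit 150) (nat_lit 5) (nat_lit 493) (nat_lit 430) (nat_lit 277)) (XT.lf (nat_lit 0) (nat_lit 1971108107) (nat_lit 304) (nat_lit 15952945123) (nat_lit 76) (nat_lit 11309674266) (nat_lit 145) (nat_lit 5) (nat_lit 149) (nat_lit 5) (nat_lit 146) (nat_lit 5) (nat_lit 494) (nat_lit 430) (nat_lit 276))) (XT.nd (nat_lit 78) (nat_lit 0) (nat_lit 0) (XT.lf (nat_lit 0) (nat_lit 1894716490) (nat_lit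 228) (nat_lit 7269745118) (nat_lit 304) (nat_lit 20617082941) (nat_lit 142) (nat_lit 5) (nat_lit 145) (nat_lit 5) (nat_lit 146) (nat_lit 5) (nat_lit 495) (nat_lit 430) (nat_lit 275)) (XT.lf (nat_lit 0) (nat_lit 16765158835) (nat_lit 304) (nat_lit 9784438938) (nat_lit 76) (nat_lit 3790452326) (nat_lit 142) (nat_lit 5) (nat_lit 146) (nat_lit 5) (nat_lit 143) (nat_lit 5) (nat_lit 496) (nat_lit 430) (nat_lit 274)))) (XT.nd (nat_lit 156) (nat_lit 456) (nat_lit 0) (XT.nd (nat_lit 78) (nat_lit 76) (nat_lit 0) (XT.lf (nat_lit 0) (nat_lit 8952970863) (nat_lit 228) (nat_lit 15792389600) (nat_lit 304) (nat_lit 6165406120) (nat_lit 139) (nat_lit 5) (nat_lit 142) (nat_lit 5) (nat_lit 143) (nat_lit 5) (nat_lit 497) (nat_lit 430) (nat_lit 273)) (XT.lf (nat_lit 0) (nat_lit 1530999883) (nat_lit 304) (nat_lit 3068442532) (nat_lit 76) (nat_lit 26895942023) (nat_lit 138) (nat_lit 5) (nat_lit 142) (nat_lit 5) (nat_lit 139) (nat_lit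 5) (nat_lit 498) (nat_lit 430) (nat_lit 272))) (XT.nd (nat_lit 78) (nat_lit 228) (nat_lit 0) (XT.lf (nat_lit 0) (nat_lit 9556756469) (nat_lit 304) (nat_lit 15519076845) (nat_lit 76) (nat_lit 7013205147) (nat_lit 135) (nat_lit 5) (nat_lit 139) (nat_lit 5) (nat_lit 136) (nat_lit 5) (nat_lit 499) (nat_lit 430) (nat_lit 271)) (XT.lf (nat_lit 0) (nat_lit 4186153120) (nat_lit 228) (nat_lit 13747907427) (nat_lit 304) (nat_lit 14763118553) (nat_lit 132) (nat_lit 5) (nat_lit 135) (nat_lit 5) (nat_lit 136) (nat_lit 5) (nat_lit 500) (nat_lit 430) (nat_lit 270)))))) (XT.nd (nat_lit 624) (nat_lit 836) (nat_lit 0) (XT.nd (nat_lit 312) (nat_lit 608) (nat_lit 0) (XT.nd (nat_lit 156) (nat_lit 228) (nat_lit 0) (XT.nd (nat_lit 78) (nat_lit 228) (nat_lit 0) (XT.lf (nat_lit 0) (nat_lit 24790235722) (nat_lit 228) (nat_lit 1922947255) (nat_lit 304) (nat_lit 6605866239) (nat_lit 132) (nat_lit 5) (nat_lit 135) (nat_lit 5) (nat_lit 136)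 (nat_lit 5) (nat_lit 501) (nat_lit 430) (nat_lit 269)) (XT.lf (nat_lit 0) (nat_lit 1972751347) (nat_lit 228) (nat_lit 21790915728) (nat_lit 76) (nat_lit 10189039740) (nat_lit 129) (nat_lit 5) (nat_lit 132) (nat_lit 5) (nat_lit 130) (nat_lit 5) (nat_lit 502) (nat_lit 430) (nat_lit 268))) (XT.nd (nat_lit 78) (nat_lit 228) (nat_lit 0) (XT.lf (nat_lit 0) (nat_lit 10775920324) (nat_lit 228) (nat_lit 1050428858) (nat_lit 76) (nat_lit 22774064108) (nat_lit 129) (nat_lit 5) (nat_lit 132) (nat_lit 5) (nat_lit 130) (nat_lit 5) (nat_lit 503) (nat_lit 430) (nat_lit 267)) (XT.lf (nat_lit 0) (nat_lit 20042791122) (nat_lit 304) (nat_lit 14561857137) (nat_lit 76) (nat_lit 656914706) (nat_lit 126) (nat_lit 5) (nat_lit 130) (nat_lit 5) (nat_lit 127) (nat_lit 5) (nat_lit 504) (nat_lit 430) (nat_lit 266)))) (XT.nd (nat_lit 156) (nat_lit 380) (nat_lit 0) (XT.nd (nat_lit 78) (nat_lit 76) (nat_lit 0) (XT.lf (nat_lit 0) (nat_lit 7194822277)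 (nat_lit 152) (nat_lit 22583972803) (nat_lit 228) (nat_lit 6158018440) (nat_lit 124) (nat_lit 5) (nat_lit 126) (nat_lit 5) (nat_lit 127) (nat_lit 5) (nat_lit 505) (nat_lit 430) (nat_lit 265)) (XT.lf (nat_lit 0) (nat_lit 3255291137) (nat_lit 228) (nat_lit 6767219226) (nat_lit 76) (nat_lit 26604615527) (nat_lit 123) (nat_lit 5) (nat_lit 126) (nat_lit 5) (nat_lit 124) (nat_lit 5) (nat_lit 506) (nat_lit 430) (nat_lit 264))) (XT.nd (nat_lit 78) (nat_lit 152) (nat_lit 0) (XT.lf (nat_lit 0) (nat_lit 13006567469) (nat_lit 304) (nat_lit 21251520685) (nat_lit 76) (nat_lit 3072850423) (nat_lit 120) (nat_lit 5) (nat_lit 124) (nat_lit 5) (nat_lit 121) (nat_lit 5) (nat_lit 507) (nat_lit 430) (nat_lit 263)) (XT.lf (nat_lit 0) (nat_lit 1618244836) (nat_lit 152) (nat_lit 21610318537) (nat_lit 228) (nat_lit 14821957009) (nat_lit 118) (nat_lit 5) (nat_lit 120) (nat_lit 5) (nat_lit 121) (nat_lit 5) (nat_lit 508) (nat_lit 430) (nat_lit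 262))))) (XT.nd (nat_lit 312) (nat_lit 380) (nat_lit 0) (XT.nd (nat_lit 156) (nat_lit 152) (nat_lit 0) (XT.nd (nat_lit 78) (nat_lit 304) (nat_lit 0) (XT.lf (nat_lit 0) (nat_lit 25600051086) (nat_lit 152) (nat_lit 8366218019) (nat_lit 228) (nat_lit 4819149215) (nat_lit 118) (nat_lit 5) (nat_lit 120) (nat_lit 5) (nat_lit 121) (nat_lit 5) (nat_lit 509) (nat_lit 430) (nat_lit 261)) (XT.lf (nat_lit 0) (nat_lit 5528394000) (nat_lit 304) (nat_lit 28680421556) (nat_lit 76) (nat_lit 5327416646) (nat_lit 114) (nat_lit 5) (nat_lit 118) (nat_lit 5) (nat_lit 115) (nat_lit 5) (nat_lit 510) (nat_lit 430) (nat_lit 260))) (XT.nd (nat_lit 78) (nat_lit 152) (nat_lit 0) (XT.lf (nat_lit 0) (nat_lit 16301390229) (nat_lit 304) (nat_lit 4558474632) (nat_lit 76) (nat_lit 19441917764) (nat_lit 114) (nat_lit 5) (nat_lit 118) (nat_lit 5) (nat_lit 115) (nat_lit 5) (nat_lit 511) (nat_lit 430) (nat_lit 259)) (XT.lf (nat_lit 0) (nat_lit 20681434922)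 (nat_lit 152) (nat_lit 6909690015) (nat_lit 228) (nat_lit 13493368322) (nat_lit 112) (nat_lit 5) (nat_lit 114) (nat_lit 5) (nat_lit 115) (nat_lit 5) (nat_lit 512) (nat_lit 430) (nat_lit 258)))) (XT.nd (nat_lit 156) (nat_lit 152) (nat_lit 0) (XT.nd (nat_lit 78) (nat_lit 76) (nat_lit 0) (XT.lf (nat_lit 0) (nat_lit 4896787849) (nat_lit 152) (nat_lit 34482795070) (nat_lit 228) (nat_lit 2506301505) (nat_lit 110) (nat_lit 5) (nat_lit 112) (nat_lit 5) (nat_lit 113) (nat_lit 5) (nat_lit 513) (nat_lit 430) (nat_lit 257)) (XT.lf (nat_lit 0) (nat_lit 8909723754) (nat_lit 228) (nat_lit 11495712283) (nat_lit 76) (nat_lit 22295202648) (nat_lit 109) (nat_lit 5) (nat_lit 112) (nat_lit 5) (nat_lit 110) (nat_lit 5) (nat_lit 514) (nat_lit 430) (nat_lit 256))) (XT.nd (nat_lit 78) (nat_lit 0) (nat_lit 0) (XT.lf (nat_lit 0) (nat_lit 15021753616) (nat_lit 152) (nat_lit 5735437220) (nat_lit 228) (nat_lit 22777720370) (nat_lit 107) (nat_lit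 5) (nat_lit 109) (nat_lit 5) (nat_lit 110) (nat_lit 5) (nat_lit 515) (nat_lit 430) (nat_lit 255)) (XT.lf (nat_lit 0) (nat_lit 33162390950) (nat_lit 228) (nat_lit 1920656669) (nat_lit 76) (nat_lit 9305095149) (nat_lit 107) (nat_lit 5) (nat_lit 110) (nat_lit 5) (nat_lit 108) (nat_lit 5) (nat_lit 516) (nat_lit 430) (nat_lit 254))))))) (XT.nd (nat_lit 1248) (nat_lit 1444) (nat_lit 0) (XT.nd (nat_lit 624) (nat_lit 836) (nat_lit 0) (XT.nd (nat_lit 312) (nat_lit 380) (nat_lit 0) (XT.nd (nat_lit 156) (nat_lit 152) (nat_lit 0) (XT.nd (nat_lit 78) (nat_lit 152) (nat_lit 0) (XT.lf (nat_lit 0) (nat_lit 963580148) (nat_lit 228) (nat_lit 19357760190) (nat_lit 76) (nat_lit 24936319069) (nat_lit 104) (nat_lit 5) (nat_lit 107) (nat_lit 5) (nat_lit 105) (nat_lit 5) (nat_lit 517) (nat_lit 430) (nat_lit 253)) (XT.lf (nat_lit 0) (nat_lit 8487237599) (nat_lit 152) (nat_lit 4902017530) (nat_lit 228) (nat_lit 32757783473) (nat_lit 102)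 (nat_lit 5) (nat_lit 104) (nat_lit 5) (nat_lit 105) (nat_lit 5) (nat_lit 518) (nat_lit 430) (nat_lit 252))) (XT.nd (nat_lit 78) (nat_lit 152) (nat_lit 0) (XT.lf (nat_lit 0) (nat_lit 26485795637) (nat_lit 228) (nat_lit 9609140865) (nat_lit 76) (nat_lit 10959219929) (nat_lit 102) (nat_lit 5) (nat_lit 105) (nat_lit 5) (nat_lit 103) (nat_lit 5) (nat_lit 519) (nat_lit 430) (nat_lit 251)) (XT.lf (nat_lit 0) (nat_lit 19608569510) (nat_lit 152) (nat_lit 20598967906) (nat_lit 228) (nat_lit 7773981344) (nat_lit 100) (nat_lit 5) (nat_lit 102) (nat_lit 5) (nat_lit 103) (nat_lit 5) (nat_lit 520) (nat_lit 430) (nat_lit 250)))) (XT.nd (nat_lit 156) (nat_lit 152) (nat_lit 0) (XT.nd (nat_lit 78) (nat_lit 0) (nat_lit 0) (XT.lf (nat_lit 0) (nat_lit 922511859) (nat_lit 152) (nat_lit 4478413884) (nat_lit 228) (nat_lit 43531153293) (nat_lit 97) (nat_lit 5) (nat_lit 99) (nat_lit 5) (nat_lit 100) (nat_lit 5) (nat_lit 521) (nat_lit 430)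 (nat_lit 249)) (XT.lf (nat_lit 0) (nat_lit 19216047698) (nat_lit 228) (nat_lit 18429070498) (nat_lit 76) (nat_lit 12251692418) (nat_lit 97) (nat_lit 5) (nat_lit 100) (nat_lit 5) (nat_lit 98) (nat_lit 5) (nat_lit 522) (nat_lit 430) (nat_lit 248))) (XT.nd (nat_lit 78) (nat_lit 0) (nat_lit 0) (XT.lf (nat_lit 0) (nat_lit 12224701602) (nat_lit 152) (nat_lit 21378219273) (nat_lit 228) (nat_lit 17282844438) (nat_lit 95) (nat_lit 5) (nat_lit 97) (nat_lit 5) (nat_lit 98) (nat_lit 5) (nat_lit 523) (nat_lit 430) (nat_lit 247)) (XT.lf (nat_lit 0) (nat_lit 44167599867) (nat_lit 152) (nat_lit 4435396591) (nat_lit 228) (nat_lit 3295944409) (nat_lit 95) (nat_lit 5) (nat_lit 97) (nat_lit 5) (nat_lit 98) (nat_lit 5) (nat_lit 524) (nat_lit 430) (nat_lit 246))))) (XT.nd (nat_lit 312) (nat_lit 304) (nat_lit 0) (XT.nd (nat_lit 156) (nat_lit 152) (nat_lit 0) (XT.nd (nat_lit 78) (nat_lit 152) (nat_lit 0) (XT.lf (nat_lit 0) (nat_lit 11253215095)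 (nat_lit 228) (nat_lit 28571612665) (nat_lit 76) (nat_lit 13103696188) (nat_lit 92) (nat_lit 5) (nat_lit 95) (nat_lit 5) (nat_lit 93) (nat_lit 5) (nat_lit 525) (nat_lit 430) (nat_lit 245)) (XT.lf (nat_lit 0) (nat_lit 3563735846) (nat_lit 152) (nat_lit 22761486842) (nat_lit 228) (nat_lit 27658214376) (nat_lit 90) (nat_lit 5) (nat_lit 92) (nat_lit 5) (nat_lit 93) (nat_lit 5) (nat_lit 526) (nat_lit 430) (nat_lit 244))) (XT.nd (nat_lit 78) (nat_lit 152) (nat_lit 0) (XT.lf (nat_lit 0) (nat_lit 37240786322) (nat_lit 152) (nat_lit 4892774693) (nat_lit 228) (nat_lit 12927911530) (nat_lit 90) (nat_lit 5) (nat_lit 92) (nat_lit 5) (nat_lit 93) (nat_lit 5) (nat_lit 527) (nat_lit 430) (nat_lit 243)) (XT.lf (nat_lit 0) (nat_lit 2482019385) (nat_lit 152) (nat_lit 40258473815) (nat_lit 76) (nat_lit 13422263367) (nat_lit 88) (nat_lit 5) (nat_lit 90) (nat_lit 5) (nat_lit 89) (nat_lit 5) (nat_lit 528) (nat_lit 430) (nat_lit 242))))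 (XT.nd (nat_lit 156) (nat_lit 152) (nat_lit 0) (XT.nd (nat_lit 78) (nat_lit 152) (nat_lit 0) (XT.lf (nat_lit 0) (nat_lit 18320341275) (nat_lit 152) (nat_lit 6471510620) (nat_lit 76) (nat_lit 32494609383) (nat_lit 88) (nat_lit 5) (nat_lit 90) (nat_lit 5) (nat_lit 89) (nat_lit 5) (nat_lit 529) (nat_lit 430) (nat_lit 241)) (XT.lf (nat_lit 0) (nat_lit 28885029556) (nat_lit 152) (nat_lit 6022319802) (nat_lit 228) (nat_lit 23528321754) (nat_lit 86) (nat_lit 5) (nat_lit 88) (nat_lit 5) (nat_lit 89) (nat_lit 5) (nat_lit 530) (nat_lit 430) (nat_lit 240))) (XT.nd (nat_lit 78) (nat_lit 76) (nat_lit 0) (XT.lf (nat_lit 0) (nat_lit 5794306840) (nat_lit 76) (nat_lit 46443191603) (nat_lit 152) (nat_lit 7374492952) (nat_lit 85) (nat_lit 5) (nat_lit 86) (nat_lit 5) (nat_lit 87) (nat_lit 4) (nat_lit 531) (nat_lit 430) (nat_lit 239)) (XT.lf (nat_lit 0) (nat_lit 9440057808) (nat_lit 152) (nat_lit 18168620813) (nat_lit 76) (nat_lit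 33201544808) (nat_lit 84) (nat_lit 5) (nat_lit 86) (nat_lit 5) (nat_lit 85) (nat_lit 5) (nat_lit 532) (nat_lit 430) (nat_lit 238)))))) (XT.nd (nat_lit 624) (nat_lit 684) (nat_lit 0) (XT.nd (nat_lit 312) (nat_lit 304) (nat_lit 0) (XT.nd (nat_lit 156) (nat_lit 304) (nat_lit 0) (XT.nd (nat_lit 78) (nat_lit 0) (nat_lit 0) (XT.lf (nat_lit 0) (nat_lit 18836999789) (nat_lit 152) (nat_lit 7950912802) (nat_lit 228) (nat_lit 35248986836) (nat_lit 82) (nat_lit 5) (nat_lit 84) (nat_lit 5) (nat_lit 85) (nat_lit 5) (nat_lit 533) (nat_lit 430) (nat_lit 237)) (XT.lf (nat_lit 0) (nat_lit 44955715619) (nat_lit 228) (nat_lit 6097152220) (nat_lit 76) (nat_lit 12238522556) (nat_lit 82) (nat_lit 5) (nat_lit 85) (nat_lit 5) (nat_lit 83) (nat_lit 4) (nat_lit 534) (nat_lit 430) (nat_lit 236))) (XT.nd (nat_lit 78) (nat_lit 228) (nat_lit 0) (XT.lf (nat_lit 0) (nat_lit 32670197434) (nat_lit 76) (nat_lit 31387265209) (nat_lit 152) (nat_lit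 514386216) (nat_lit 81) (nat_lit 5) (nat_lit 82) (nat_lit 5) (nat_lit 83) (nat_lit 4) (nat_lit 535) (nat_lit 430) (nat_lit 235)) (XT.lf (nat_lit 0) (nat_lit 6789781971) (nat_lit 152) (nat_lit 10827200115) (nat_lit 228) (nat_lit 48264886125) (nat_lit 78) (nat_lit 5) (nat_lit 80) (nat_lit 5) (nat_lit 81) (nat_lit 5) (nat_lit 536) (nat_lit 430) (nat_lit 234)))) (XT.nd (nat_lit 156) (nat_lit 228) (nat_lit 0) (XT.nd (nat_lit 78) (nat_lit 76) (nat_lit 0) (XT.lf (nat_lit 0) (nat_lit 36702931488) (nat_lit 228) (nat_lit 20040669992) (nat_lit 76) (nat_lit 10474804574) (nat_lit 78) (nat_lit 5) (nat_lit 81) (nat_lit 5) (nat_lit 79) (nat_lit 4) (nat_lit 537) (nat_lit 430) (nat_lit 233)) (XT.lf (nat_lit 0) (nat_lit 20467406503) (nat_lit 76) (nat_lit 36194267714) (nat_lit 152) (nat_lit 11924359430) (nat_lit 77) (nat_lit 5) (nat_lit 78) (nat_lit 5) (nat_lit 79) (nat_lit 4) (nat_lit 538) (nat_lit 430) (nat_lit 232))) (XT.nd (nat_lit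 78) (nat_lit 152) (nat_lit 0) (XT.lf (nat_lit 0) (nat_lit 7284162844) (nat_lit 152) (nat_lit 7465609328) (nat_lit 76) (nat_lit 55236815078) (nat_lit 76) (nat_lit 5) (nat_lit 78) (nat_lit 5) (nat_lit 77) (nat_lit 5) (nat_lit 539) (nat_lit 430) (nat_lit 231)) (XT.lf (nat_lit 0) (nat_lit 27236757723) (nat_lit 228) (nat_lit 36526301804) (nat_lit 76) (nat_lit 7650331556) (nat_lit 74) (nat_lit 5) (nat_lit 77) (nat_lit 5) (nat_lit 75) (nat_lit 4) (nat_lit 540) (nat_lit 430) (nat_lit 230))))) (XT.nd (nat_lit 312) (nat_lit 380) (nat_lit 0) (XT.nd (nat_lit 156) (nat_lit 228) (nat_lit 0) (XT.nd (nat_lit 78) (nat_lit 0) (nat_lit 0) (XT.lf (nat_lit 0) (nat_lit 5741030926) (nat_lit 76) (nat_lit 42320649346) (nat_lit 152) (nat_lit 24813106317) (nat_lit 73) (nat_lit 5) (nat_lit 74) (nat_lit 5) (nat_lit 75) (nat_lit 4) (nat_lit 541) (nat_lit 430) (nat_lit 229)) (XT.lf (nat_lit 0) (nat_lit 50018321864) (nat_lit 76) (nat_lit 19858303986)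 (nat_lit 152) (nat_lit 4492439899) (nat_lit 73) (nat_lit 5) (nat_lit 74) (nat_lit 5) (nat_lit 75) (nat_lit 4) (nat_lit 542) (nat_lit 430) (nat_lit 228))) (XT.nd (nat_lit 78) (nat_lit 0) (nat_lit 0) (XT.lf (nat_lit 0) (nat_lit 16340203814) (nat_lit 228) (nat_lit 55992562859) (nat_lit 76) (nat_lit 3563972773) (nat_lit 70) (nat_lit 5) (nat_lit 73) (nat_lit 5) (nat_lit 71) (nat_lit 4) (nat_lit 543) (nat_lit 430) (nat_lit 227)) (XT.lf (nat_lit 0) (nat_lit 38148988295) (nat_lit 228) (nat_lit 11727180816) (nat_lit 76) (nat_lit 27579496249) (nat_lit 70) (nat_lit 5) (nat_lit 73) (nat_lit 5) (nat_lit 71) (nat_lit 4) (nat_lit 544) (nat_lit 430) (nat_lit 226)))) (XT.nd (nat_lit 156) (nat_lit 76) (nat_lit 0) (XT.nd (nat_lit 78) (nat_lit 228) (nat_lit 0) (XT.lf (nat_lit 0) (nat_lit 34533537080) (nat_lit 76) (nat_lit 26407067212) (nat_lit 152) (nat_lit 18110897765) (nat_lit 69) (nat_lit 5) (nat_lit 70) (nat_lit 5) (nat_lit 71)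 (nat_lit 4) (nat_lit 545) (nat_lit 430) (nat_lit 225)) (XT.lf (nat_lit 0) (nat_lit 1720951297) (nat_lit 152) (nat_lit 2059949264) (nat_lit 228) (nat_lit 76909257821) (nat_lit 66) (nat_lit 5) (nat_lit 68) (nat_lit 5) (nat_lit 69) (nat_lit 5) (nat_lit 546) (nat_lit 430) (nat_lit 224))) (XT.nd (nat_lit 78) (nat_lit 76) (nat_lit 0) (XT.lf (nat_lit 0) (nat_lit 26637317031) (nat_lit 228) (nat_lit 32516414276) (nat_lit 76) (nat_lit 23198707398) (nat_lit 66) (nat_lit 5) (nat_lit 69) (nat_lit 5) (nat_lit 67) (nat_lit 4) (nat_lit 547) (nat_lit 430) (nat_lit 223)) (XT.lf (nat_lit 0) (nat_lit 15607810935) (nat_lit 76) (nat_lit 34738761973) (nat_lit 152) (nat_lit 33713000161) (nat_lit 65) (nat_lit 5) (nat_lit 66) (nat_lit 5) (nat_lit 67) (nat_lit 4) (nat_lit 548) (nat_lit 430) (nat_lit 222))))))))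
noncomputable def xc164 : XT := (XT.nd (nat_lit 55536) (nat_lit 0) (nat_lit 7144) (XT.nd (nat_lit 54288) (nat_lit 0) (nat_lit 14288) (XT.nd (nat_lit 53664) (nat_lit 0) (nat_lit 19152) (XT.nd (nat_lit 53352) (nat_lit 0) (nat_lit 19988) (XT.nd (nat_lit 78) (nat_lit 152) (nat_lit 0) (XT.lf (nat_lit 0) (nat_lit 65836059028) (nat_lit 76) (nat_lit 9256154396) (nat_lit 152) (nat_lit 10715954870) (nat_lit 65) (nat_lit 5) (nat_lit 66) (nat_lit 5) (nat_lit 67) (nat_lit 4) (nat_lit 549) (nat_lit 430) (nat_lit 221)) (XT.nd (nat_lit 53196) (nat_lit 0) (nat_lit 19988) (XT.lf (nat_lit 0) (nat_lit 13174599847) (nat_lit 152) (nat_lit 57339425447) (nat_lit 76) (nat_lit 17077754290) (nat_lit 63) (nat_lit 5) (nat_lit 65) (nat_lit 5) (nat_lit 64) (nat_lit 4) (nat_lit 550) (nat_lit 430) (nat_lit 220)) (XT.lf (nat_lit 0) (nat_lit 401184491) (nat_lit 0) (nat_lit 401184491) (nat_lit 1140) (nat_lit 4487787882) (nat_lit 326) (nat_lit 5)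 (nat_lit 326) (nat_lit 3) (nat_lit 341) (nat_lit 3) (nat_lit 431) (nat_lit 431) (nat_lit 338)))) (XT.nd (nat_lit 156) (nat_lit 0) (nat_lit 76) (XT.nd (nat_lit 78) (nat_lit 0) (nat_lit 0) (XT.lf (nat_lit 0) (nat_lit 2291727467) (nat_lit 1140) (nat_lit 4560953984) (nat_lit 1216) (nat_lit 3866389296) (nat_lit 326) (nat_lit 5) (nat_lit 341) (nat_lit 3) (nat_lit 342) (nat_lit 5) (nat_lit 432) (nat_lit 431) (nat_lit 337)) (XT.lf (nat_lit 76) (nat_lit 807308137) (nat_lit 0) (nat_lit 2183447843) (nat_lit 1216) (nat_lit 7871493959) (nat_lit 327) (nat_lit 5) (nat_lit 326) (nat_lit 5) (nat_lit 342) (nat_lit 5) (nat_lit 433) (nat_lit 431) (nat_lit 336))) (XT.nd (nat_lit 78) (nat_lit 0) (nat_lit 0) (XT.lf (nat_lit 0) (nat_lit 3758920598) (nat_lit 1140) (nat_lit 4617663300) (nat_lit 1216) (nat_lit 2631697931) (nat_lit 327) (nat_lit 5) (nat_lit 342) (nat_lit 5) (nat_lit 343) (nat_lit 5) (nat_lit 434) (nat_lit 431) (nat_lit 335))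 (XT.lf (nat_lit 76) (nat_lit 966641714) (nat_lit 0) (nat_lit 3591496890) (nat_lit 1216) (nat_lit 6600318029) (nat_lit 328) (nat_lit 5) (nat_lit 327) (nat_lit 5) (nat_lit 343) (nat_lit 5) (nat_lit 435) (nat_lit 431) (nat_lit 334))))) (XT.nd (nat_lit 312) (nat_lit 988) (nat_lit 0) (XT.nd (nat_lit 156) (nat_lit 0) (nat_lit 76) (XT.nd (nat_lit 78) (nat_lit 0) (nat_lit 0) (XT.lf (nat_lit 0) (nat_lit 5419003931) (nat_lit 1140) (nat_lit 4525885939) (nat_lit 1216) (nat_lit 1367118838) (nat_lit 328) (nat_lit 5) (nat_lit 343) (nat_lit 5) (nat_lit 344) (nat_lit 5) (nat_lit 436) (nat_lit 431) (nat_lit 333)) (XT.lf (nat_lit 76) (nat_lit 1285996270) (nat_lit 0) (nat_lit 5045995174) (nat_lit 1216) (nat_lit 5137389098) (nat_lit 329) (nat_lit 5) (nat_lit 328) (nat_lit 5) (nat_lit 344) (nat_lit 5) (nat_lit 437) (nat_lit 431) (nat_lit 332))) (XT.nd (nat_lit 78) (nat_lit 0) (nat_lit 0) (XT.lf (nat_lit 0) (nat_lit 7297472223) (nat_lit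 1140) (nat_lit 4279678987) (nat_lit 1216) (nat_lit 53571236) (nat_lit 329) (nat_lit 5) (nat_lit 344) (nat_lit 5) (nat_lit 345) (nat_lit 5) (nat_lit 438) (nat_lit 431) (nat_lit 331)) (XT.lf (nat_lit 76) (nat_lit 1772031071) (nat_lit 0) (nat_lit 6566443509) (nat_lit 1216) (nat_lit 3457035280) (nat_lit 330) (nat_lit 5) (nat_lit 329) (nat_lit 5) (nat_lit 345) (nat_lit 5) (nat_lit 439) (nat_lit 431) (nat_lit 330)))) (XT.nd (nat_lit 156) (nat_lit 1064) (nat_lit 0) (XT.nd (nat_lit 78) (nat_lit 0) (nat_lit 76) (XT.lf (nat_lit 76) (nat_lit 8079431466) (nat_lit 0) (nat_lit 1354519484) (nat_lit 1216) (nat_lit 2530594535) (nat_lit 330) (nat_lit 5) (nat_lit 329) (nat_lit 5) (nat_lit 345) (nat_lit 5) (nat_lit 440) (nat_lit 431) (nat_lit 329)) (XT.lf (nat_lit 76) (nat_lit 2432447266) (nat_lit 0) (nat_lit 8172478116) (nat_lit 1216) (nat_lit 1532449638) (nat_lit 331) (nat_lit 5) (nat_lit 330) (nat_lit 5) (nat_lit 346) (nat_lit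 5) (nat_lit 441) (nat_lit 431) (nat_lit 328))) (XT.nd (nat_lit 78) (nat_lit 1140) (nat_lit 0) (XT.lf (nat_lit 76) (nat_lit 8991796596) (nat_lit 0) (nat_lit 2852844280) (nat_lit 1216) (nat_lit 469742007) (nat_lit 331) (nat_lit 5) (nat_lit 330) (nat_lit 5) (nat_lit 346) (nat_lit 5) (nat_lit 442) (nat_lit 431) (nat_lit 327)) (XT.lf (nat_lit 0) (nat_lit 651469164) (nat_lit 1216) (nat_lit 9225934409) (nat_lit 1292) (nat_lit 2617954453) (nat_lit 315) (nat_lit 5) (nat_lit 331) (nat_lit 5) (nat_lit 332) (nat_lit 5) (nat_lit 443) (nat_lit 431) (nat_lit 326)))))) (XT.nd (nat_lit 624) (nat_lit 2964) (nat_lit 0) (XT.nd (nat_lit 312) (nat_lit 1900) (nat_lit 0) (XT.nd (nat_lit 156) (nat_lit 0) (nat_lit 76) (XT.nd (nat_lit 78) (nat_lit 0) (nat_lit 76) (XT.lf (nat_lit 0) (nat_lit 1840926092) (nat_lit 1216) (nat_lit 2600810015) (nat_lit 1292) (nat_lit 8238566912) (nat_lit 315) (nat_lit 5) (nat_lit 331) (nat_lit 5) (nat_lit 332)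 (nat_lit 5) (nat_lit 444) (nat_lit 431) (nat_lit 325)) (XT.lf (nat_lit 0) (nat_lit 3101349704) (nat_lit 1216) (nat_lit 8588528428) (nat_lit 1292) (nat_lit 1179861338) (nat_lit 316) (nat_lit 5) (nat_lit 332) (nat_lit 5) (nat_lit 333) (nat_lit 5) (nat_lit 445) (nat_lit 431) (nat_lit 324))) (XT.nd (nat_lit 78) (nat_lit 0) (nat_lit 0) (XT.lf (nat_lit 0) (nat_lit 4452949455) (nat_lit 1216) (nat_lit 1699435794) (nat_lit 1292) (nat_lit 6910874416) (nat_lit 316) (nat_lit 5) (nat_lit 332) (nat_lit 5) (nat_lit 333) (nat_lit 5) (nat_lit 446) (nat_lit 431) (nat_lit 323)) (XT.lf (nat_lit 76) (nat_lit 5489731882) (nat_lit 0) (nat_lit 391497853) (nat_lit 1292) (nat_lit 7380273260) (nat_lit 317) (nat_lit 5) (nat_lit 316) (nat_lit 5) (nat_lit 333) (nat_lit 5) (nat_lit 447) (nat_lit 431) (nat_lit 322)))) (XT.nd (nat_lit 156) (nat_lit 836) (nat_lit 0) (XT.nd (nat_lit 78) (nat_lit 1216) (nat_lit 0) (XT.lf (nat_lit 0) (nat_lit 7406706267)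 (nat_lit 1216) (nat_lit 603316077) (nat_lit 76) (nat_lit 5454042310) (nat_lit 317) (nat_lit 5) (nat_lit 333) (nat_lit 5) (nat_lit 318) (nat_lit 5) (nat_lit 448) (nat_lit 431) (nat_lit 321)) (XT.lf (nat_lit 0) (nat_lit 6897213094) (nat_lit 1216) (nat_lit 2135125777) (nat_lit 1292) (nat_lit 4638733956) (nat_lit 301) (nat_lit 5) (nat_lit 317) (nat_lit 5) (nat_lit 318) (nat_lit 5) (nat_lit 449) (nat_lit 431) (nat_lit 320))) (XT.nd (nat_lit 78) (nat_lit 0) (nat_lit 0) (XT.lf (nat_lit 0) (nat_lit 713188656) (nat_lit 836) (nat_lit 10028766167) (nat_lit 912) (nat_lit 3141281370) (nat_lit 290) (nat_lit 5) (nat_lit 301) (nat_lit 5) (nat_lit 302) (nat_lit 5) (nat_lit 450) (nat_lit 431) (nat_lit 319)) (XT.lf (nat_lit 0) (nat_lit 8528241266) (nat_lit 836) (nat_lit 4048832239) (nat_lit 912) (nat_lit 1522465867) (nat_lit 290) (nat_lit 5) (nat_lit 301) (nat_lit 5) (nat_lit 302) (nat_lit 5) (nat_lit 451) (nat_lit 431) (nat_lit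 318))))) (XT.nd (nat_lit 312) (nat_lit 1672) (nat_lit 0) (XT.nd (nat_lit 156) (nat_lit 608) (nat_lit 0) (XT.nd (nat_lit 78) (nat_lit 0) (nat_lit 0) (XT.lf (nat_lit 0) (nat_lit 169750613) (nat_lit 684) (nat_lit 12057795457) (nat_lit 76) (nat_lit 2093915119) (nat_lit 281) (nat_lit 5) (nat_lit 290) (nat_lit 5) (nat_lit 282) (nat_lit 5) (nat_lit 452) (nat_lit 431) (nat_lit 317)) (XT.lf (nat_lit 0) (nat_lit 1964518804) (nat_lit 684) (nat_lit 4170292252) (nat_lit 76) (nat_lit 8412307052) (nat_lit 281) (nat_lit 5) (nat_lit 290) (nat_lit 5) (nat_lit 282) (nat_lit 5) (nat_lit 453) (nat_lit 431) (nat_lit 316))) (XT.nd (nat_lit 78) (nat_lit 0) (nat_lit 0) (XT.lf (nat_lit 0) (nat_lit 3839402228) (nat_lit 684) (nat_lit 10761990982) (nat_lit 76) (nat_lit 177364550) (nat_lit 273) (nat_lit 5) (nat_lit 282) (nat_lit 5) (nat_lit 274) (nat_lit 5) (nat_lit 454) (nat_lit 431) (nat_lit 315)) (XT.lf (nat_lit 0) (nat_lit 5859988709) (nat_lit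 684) (nat_lit 2556294989) (nat_lit 76) (nat_lit 6598380360) (nat_lit 273) (nat_lit 5) (nat_lit 282) (nat_lit 5) (nat_lit 274) (nat_lit 5) (nat_lit 455) (nat_lit 431) (nat_lit 314)))) (XT.nd (nat_lit 156) (nat_lit 1140) (nat_lit 0) (XT.nd (nat_lit 78) (nat_lit 0) (nat_lit 0) (XT.lf (nat_lit 0) (nat_lit 5999063794) (nat_lit 532) (nat_lit 1986385106) (nat_lit 608) (nat_lit 7270872083) (nat_lit 266) (nat_lit 5) (nat_lit 273) (nat_lit 5) (nat_lit 274) (nat_lit 5) (nat_lit 456) (nat_lit 431) (nat_lit 313)) (XT.lf (nat_lit 0) (nat_lit 10232158144) (nat_lit 608) (nat_lit 699623080) (nat_lit 76) (nat_lit 4571722924) (nat_lit 266) (nat_lit 5) (nat_lit 274) (nat_lit 5) (nat_lit 267) (nat_lit 5) (nat_lit 457) (nat_lit 431) (nat_lit 312))) (XT.nd (nat_lit 78) (nat_lit 532) (nat_lit 0) (XT.lf (nat_lit 0) (nat_lit 8242485137) (nat_lit 608) (nat_lit 4389913666) (nat_lit 684) (nat_lit 3123121154) (nat_lit 258) (nat_lit 5) (nat_lit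 266) (nat_lit 5) (nat_lit 267) (nat_lit 5) (nat_lit 458) (nat_lit 431) (nat_lit 311)) (XT.lf (nat_lit 0) (nat_lit 1444186787) (nat_lit 532) (nat_lit 13691517327) (nat_lit 608) (nat_lit 878461432) (nat_lit 251) (nat_lit 5) (nat_lit 258) (nat_lit 5) (nat_lit 259) (nat_lit 5) (nat_lit 459) (nat_lit 431) (nat_lit 310))))))) (XT.nd (nat_lit 1170) (nat_lit 3344) (nat_lit 0) (XT.nd (nat_lit 546) (nat_lit 1748) (nat_lit 0) (XT.nd (nat_lit 234) (nat_lit 1444) (nat_lit 0) (XT.nd (nat_lit 78) (nat_lit 532) (nat_lit 0) (XT.lf (nat_lit 0) (nat_lit 1513227188) (nat_lit 608) (nat_lit 5525935473) (nat_lit 76) (nat_lit 9237765528) (nat_lit 250) (nat_lit 5) (nat_lit 258) (nat_lit 5) (nat_lit 251) (nat_lit 5) (nat_lit 460) (nat_lit 431) (nat_lit 309)) (XT.nd (nat_lit 78) (nat_lit 0) (nat_lit 0) (XT.lf (nat_lit 0) (nat_lit 3842330366) (nat_lit 532) (nat_lit 141556502) (nat_lit 608) (nat_lit 12562680555) (nat_lit 243) (nat_lit 5) (nat_lit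 250) (nat_lit 5) (nat_lit 251) (nat_lit 5) (nat_lit 461) (nat_lit 431) (nat_lit 308)) (XT.lf (nat_lit 0) (nat_lit 6640104398) (nat_lit 608) (nat_lit 3298776254) (nat_lit 76) (nat_lit 6882072952) (nat_lit 243) (nat_lit 5) (nat_lit 251) (nat_lit 5) (nat_lit 244) (nat_lit 5) (nat_lit 462) (nat_lit 431) (nat_lit 307)))) (XT.nd (nat_lit 156) (nat_lit 988) (nat_lit 0) (XT.nd (nat_lit 78) (nat_lit 0) (nat_lit 0) (XT.lf (nat_lit 0) (nat_lit 6501112770) (nat_lit 456) (nat_lit 2927287047) (nat_lit 532) (nat_lit 7673600698) (nat_lit 237) (nat_lit 5) (nat_lit 243) (nat_lit 5) (nat_lit 244) (nat_lit 5) (nat_lit 463) (nat_lit 431) (nat_lit 306)) (XT.lf (nat_lit 0) (nat_lit 12363957492) (nat_lit 532) (nat_lit 782859468) (nat_lit 76) (nat_lit 4242754330) (nat_lit 237) (nat_lit 5) (nat_lit 244) (nat_lit 5) (nat_lit 238) (nat_lit 5) (nat_lit 464) (nat_lit 431) (nat_lit 305))) (XT.nd (nat_lit 78) (nat_lit 532) (nat_lit 0) (XT.lf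 (nat_lit 0) (nat_lit 9472573104) (nat_lit 456) (nat_lit 6024066991) (nat_lit 532) (nat_lit 2185858182) (nat_lit 231) (nat_lit 5) (nat_lit 237) (nat_lit 5) (nat_lit 238) (nat_lit 5) (nat_lit 465) (nat_lit 431) (nat_lit 304)) (XT.lf (nat_lit 0) (nat_lit 754774473) (nat_lit 532) (nat_lit 15908209349) (nat_lit 76) (nat_lit 1320113698) (nat_lit 224) (nat_lit 5) (nat_lit 231) (nat_lit 5) (nat_lit 225) (nat_lit 5) (nat_lit 466) (nat_lit 431) (nat_lit 303))))) (XT.nd (nat_lit 312) (nat_lit 912) (nat_lit 0) (XT.nd (nat_lit 156) (nat_lit 380) (nat_lit 0) (XT.nd (nat_lit 78) (nat_lit 456) (nat_lit 0) (XT.lf (nat_lit 0) (nat_lit 3872340230) (nat_lit 532) (nat_lit 5549052902) (nat_lit 76) (nat_lit 8866693678) (nat_lit 224) (nat_lit 5) (nat_lit 231) (nat_lit 5) (nat_lit 225) (nat_lit 5) (nat_lit 467) (nat_lit 431) (nat_lit 302)) (XT.lf (nat_lit 0) (nat_lit 5209664351) (nat_lit 456) (nat_lit 1913437864) (nat_lit 532) (nat_lit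 11477934225) (nat_lit 218) (nat_lit 5) (nat_lit 224) (nat_lit 5) (nat_lit 225) (nat_lit 5) (nat_lit 468) (nat_lit 431) (nat_lit 301))) (XT.nd (nat_lit 78) (nat_lit 380) (nat_lit 0) (XT.lf (nat_lit 0) (nat_lit 10573666685) (nat_lit 532) (nat_lit 2586328472) (nat_lit 76) (nat_lit 5760311735) (nat_lit 218) (nat_lit 5) (nat_lit 225) (nat_lit 5) (nat_lit 219) (nat_lit 5) (nat_lit 469) (nat_lit 431) (nat_lit 300)) (XT.lf (nat_lit 0) (nat_lit 8680661662) (nat_lit 380) (nat_lit 5539521026) (nat_lit 456) (nat_lit 5026200428) (nat_lit 213) (nat_lit 5) (nat_lit 218) (nat_lit 5) (nat_lit 219) (nat_lit 5) (nat_lit 470) (nat_lit 431) (nat_lit 299)))) (XT.nd (nat_lit 156) (nat_lit 380) (nat_lit 0) (XT.nd (nat_lit 78) (nat_lit 76) (nat_lit 0) (XT.lf (nat_lit 0) (nat_lit 736334897) (nat_lit 456) (nat_lit 17285602773) (nat_lit 532) (nat_lit 1558929330) (nat_lit 207) (nat_lit 5) (nat_lit 213) (nat_lit 5) (nat_lit 214) (nat_lit 5)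 (nat_lit 471) (nat_lit 431) (nat_lit 298)) (XT.lf (nat_lit 0) (nat_lit 2125944494) (nat_lit 532) (nat_lit 7416255660) (nat_lit 76) (nat_lit 10378019976) (nat_lit 206) (nat_lit 5) (nat_lit 213) (nat_lit 5) (nat_lit 207) (nat_lit 5) (nat_lit 472) (nat_lit 431) (nat_lit 297))) (XT.nd (nat_lit 78) (nat_lit 0) (nat_lit 0) (XT.lf (nat_lit 0) (nat_lit 4413059717) (nat_lit 380) (nat_lit 1509933499) (nat_lit 456) (nat_lit 14345309361) (nat_lit 201) (nat_lit 5) (nat_lit 206) (nat_lit 5) (nat_lit 207) (nat_lit 5) (nat_lit 473) (nat_lit 431) (nat_lit 296)) (XT.lf (nat_lit 0) (nat_lit 9965265289) (nat_lit 456) (nat_lit 3953671649) (nat_lit 76) (nat_lit 6703951807) (nat_lit 201) (nat_lit 5) (nat_lit 207) (nat_lit 5) (nat_lit 202) (nat_lit 5) (nat_lit 474) (nat_lit 431) (nat_lit 295)))))) (XT.nd (nat_lit 624) (nat_lit 1520) (nat_lit 0) (XT.nd (nat_lit 312) (nat_lit 684) (nat_lit 0) (XT.nd (nat_lit 156) (nat_lit 760) (nat_lit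 0) (XT.nd (nat_lit 78) (nat_lit 0) (nat_lit 0) (XT.lf (nat_lit 0) (nat_lit 8442490853) (nat_lit 380) (nat_lit 5773358481) (nat_lit 456) (nat_lit 6769652433) (nat_lit 196) (nat_lit 5) (nat_lit 201) (nat_lit 5) (nat_lit 202) (nat_lit 5) (nat_lit 475) (nat_lit 431) (nat_lit 294)) (XT.lf (nat_lit 0) (nat_lit 18650478737) (nat_lit 456) (nat_lit 104124721) (nat_lit 76) (nat_lit 2602694455) (nat_lit 196) (nat_lit 5) (nat_lit 202) (nat_lit 5) (nat_lit 197) (nat_lit 5) (nat_lit 476) (nat_lit 431) (nat_lit 293))) (XT.nd (nat_lit 78) (nat_lit 380) (nat_lit 0) (XT.lf (nat_lit 0) (nat_lit 1623154068) (nat_lit 380) (nat_lit 8860694121) (nat_lit 76) (nat_lit 11250751273) (nat_lit 191) (nat_lit 5) (nat_lit 196) (nat_lit 5) (nat_lit 192) (nat_lit 5) (nat_lit 477) (nat_lit 431) (nat_lit 292)) (XT.lf (nat_lit 0) (nat_lit 4162577785) (nat_lit 380) (nat_lit 1898489441) (nat_lit 456) (nat_lit 16060375992) (nat_lit 186) (nat_lit 5) (nat_lit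 191) (nat_lit 5) (nat_lit 192) (nat_lit 5) (nat_lit 478) (nat_lit 431) (nat_lit 291)))) (XT.nd (nat_lit 156) (nat_lit 380) (nat_lit 0) (XT.nd (nat_lit 78) (nat_lit 304) (nat_lit 0) (XT.lf (nat_lit 0) (nat_lit 10780706820) (nat_lit 456) (nat_lit 4838829291) (nat_lit 76) (nat_lit 6895899007) (nat_lit 186) (nat_lit 5) (nat_lit 192) (nat_lit 5) (nat_lit 187) (nat_lit 5) (nat_lit 479) (nat_lit 431) (nat_lit 290)) (XT.lf (nat_lit 0) (nat_lit 8816237204) (nat_lit 304) (nat_lit 6920964134) (nat_lit 380) (nat_lit 7181187957) (nat_lit 182) (nat_lit 5) (nat_lit 186) (nat_lit 5) (nat_lit 187) (nat_lit 5) (nat_lit 480) (nat_lit 431) (nat_lit 289))) (XT.nd (nat_lit 78) (nat_lit 380) (nat_lit 0) (XT.lf (nat_lit 0) (nat_lit 20903149470) (nat_lit 380) (nat_lit 383804435) (nat_lit 76) (nat_lit 2044655905) (nat_lit 182) (nat_lit 5) (nat_lit 187) (nat_lit 5) (nat_lit 183) (nat_lit 5) (nat_lit 481) (nat_lit 431) (nat_lit 288)) (XT.lf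 (nat_lit 0) (nat_lit 2615197492) (nat_lit 380) (nat_lit 9839038828) (nat_lit 76) (nat_lit 11296385116) (nat_lit 177) (nat_lit 5) (nat_lit 182) (nat_lit 5) (nat_lit 178) (nat_lit 5) (nat_lit 482) (nat_lit 431) (nat_lit 287))))) (XT.nd (nat_lit 312) (nat_lit 912) (nat_lit 0) (XT.nd (nat_lit 156) (nat_lit 304) (nat_lit 0) (XT.nd (nat_lit 78) (nat_lit 0) (nat_lit 0) (XT.lf (nat_lit 0) (nat_lit 4514010747) (nat_lit 304) (nat_lit 3286748359) (nat_lit 380) (nat_lit 16379541305) (nat_lit 173) (nat_lit 5) (nat_lit 177) (nat_lit 5) (nat_lit 178) (nat_lit 5) (nat_lit 483) (nat_lit 431) (nat_lit 286)) (XT.lf (nat_lit 0) (nat_lit 13293581544) (nat_lit 380) (nat_lit 5192390884) (nat_lit 76) (nat_lit 6132346932) (nat_lit 173) (nat_lit 5) (nat_lit 178) (nat_lit 5) (nat_lit 174) (nat_lit 5) (nat_lit 484) (nat_lit 431) (nat_lit 285))) (XT.nd (nat_lit 78) (nat_lit 0) (nat_lit 0) (XT.lf (nat_lit 0) (nat_lit 9864324150) (nat_lit 304)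 (nat_lit 9206638473) (nat_lit 380) (nat_lit 5994923445) (nat_lit 169) (nat_lit 5) (nat_lit 173) (nat_lit 5) (nat_lit 174) (nat_lit 5) (nat_lit 485) (nat_lit 431) (nat_lit 284)) (XT.lf (nat_lit 0) (nat_lit 25070478909) (nat_lit 380) (nat_lit 61445588) (nat_lit 76) (nat_lit 393491264) (nat_lit 169) (nat_lit 5) (nat_lit 174) (nat_lit 5) (nat_lit 170) (nat_lit 5) (nat_lit 486) (nat_lit 431) (nat_lit 283)))) (XT.nd (nat_lit 156) (nat_lit 228) (nat_lit 0) (XT.nd (nat_lit 78) (nat_lit 304) (nat_lit 0) (XT.lf (nat_lit 0) (nat_lit 5386247544) (nat_lit 380) (nat_lit 10306756420) (nat_lit 76) (nat_lit 10297089343) (nat_lit 164) (nat_lit 5) (nat_lit 169) (nat_lit 5) (nat_lit 165) (nat_lit 5) (nat_lit 487) (nat_lit 431) (nat_lit 282)) (XT.lf (nat_lit 0) (nat_lit 5525208290) (nat_lit 304) (nat_lit 5914794802) (nat_lit 380) (nat_lit 15027178937) (nat_lit 160) (nat_lit 5) (nat_lit 164) (nat_lit 5) (nat_lit 165) (nat_lit 5) (nat_lit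 488) (nat_lit 431) (nat_lit 281))) (XT.nd (nat_lit 78) (nat_lit 228) (nat_lit 0) (XT.lf (nat_lit 0) (nat_lit 17813246584) (nat_lit 380) (nat_lit 4964235040) (nat_lit 76) (nat_lit 4176965886) (nat_lit 160) (nat_lit 5) (nat_lit 165) (nat_lit 5) (nat_lit 161) (nat_lit 5) (nat_lit 489) (nat_lit 431) (nat_lit 280)) (XT.lf (nat_lit 0) (nat_lit 11650751219) (nat_lit 228) (nat_lit 12890511510) (nat_lit 304) (nat_lit 2910161309) (nat_lit 157) (nat_lit 5) (nat_lit 160) (nat_lit 5) (nat_lit 161) (nat_lit 5) (nat_lit 490) (nat_lit 431) (nat_lit 279))))))))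
noncomputable def xc165 : XT := (XT.nd (nat_lit 2418) (nat_lit 2660) (nat_lit 0) (XT.nd (nat_lit 1170) (nat_lit 1976) (nat_lit 0) (XT.nd (nat_lit 546) (nat_lit 1216) (nat_lit 0) (XT.nd (nat_lit 234) (nat_lit 532) (nat_lit 0) (XT.nd (nat_lit 78) (nat_lit 228) (nat_lit 0) (XT.lf (nat_lit 0) (nat_lit 876121309) (nat_lit 304) (nat_lit 2615335655) (nat_lit 380) (nat_lit 24469278722) (nat_lit 152) (nat_lit 5) (nat_lit 156) (nat_lit 5) (nat_lit 157) (nat_lit 5) (nat_lit 491) (nat_lit 431) (nat_lit 278)) (XT.nd (nat_lit 78) (nat_lit 228) (nat_lit 0) (XT.lf (nat_lit 0) (nat_lit 10257473221) (nat_lit 380) (nat_lit 10221373394) (nat_lit 76) (nat_lit 7998690753) (nat_lit 152) (nat_lit 5) (nat_lit 157) (nat_lit 5) (nat_lit 153) (nat_lit 5) (nat_lit 492) (nat_lit 431) (nat_lit 277)) (XT.lf (nat_lit 0) (nat_lit 7252753571) (nat_lit 228) (nat_lit 10062640373) (nat_lit 304) (nat_lit 11691781745) (nat_lit 149) (nat_lit 5) (nat_lit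 152) (nat_lit 5) (nat_lit 153) (nat_lit 5) (nat_lit 493) (nat_lit 431) (nat_lit 276)))) (XT.nd (nat_lit 156) (nat_lit 228) (nat_lit 0) (XT.nd (nat_lit 78) (nat_lit 304) (nat_lit 0) (XT.lf (nat_lit 0) (nat_lit 24689059790) (nat_lit 304) (nat_lit 4107098686) (nat_lit 76) (nat_lit 753424754) (nat_lit 149) (nat_lit 5) (nat_lit 153) (nat_lit 5) (nat_lit 150) (nat_lit 5) (nat_lit 494) (nat_lit 431) (nat_lit 275)) (XT.lf (nat_lit 0) (nat_lit 2365544440) (nat_lit 304) (nat_lit 15887103527) (nat_lit 76) (nat_lit 11848018081) (nat_lit 145) (nat_lit 5) (nat_lit 149) (nat_lit 5) (nat_lit 146) (nat_lit 5) (nat_lit 495) (nat_lit 431) (nat_lit 274))) (XT.nd (nat_lit 78) (nat_lit 0) (nat_lit 0) (XT.lf (nat_lit 0) (nat_lit 2490650386) (nat_lit 228) (nat_lit 7279464136) (nat_lit 304) (nat_lit 20894941023) (nat_lit 142) (nat_lit 5) (nat_lit 145) (nat_lit 5) (nat_lit 146) (nat_lit 5) (nat_lit 496) (nat_lit 431) (nat_lit 273)) (XT.lf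 (nat_lit 0) (nat_lit 17591144744) (nat_lit 304) (nat_lit 9546880136) (nat_lit 76) (nat_lit 4102522421) (nat_lit 142) (nat_lit 5) (nat_lit 146) (nat_lit 5) (nat_lit 143) (nat_lit 5) (nat_lit 497) (nat_lit 431) (nat_lit 272))))) (XT.nd (nat_lit 312) (nat_lit 456) (nat_lit 0) (XT.nd (nat_lit 156) (nat_lit 456) (nat_lit 0) (XT.nd (nat_lit 78) (nat_lit 76) (nat_lit 0) (XT.lf (nat_lit 0) (nat_lit 9747445175) (nat_lit 228) (nat_lit 16058953702) (nat_lit 304) (nat_lit 6022117398) (nat_lit 139) (nat_lit 5) (nat_lit 142) (nat_lit 5) (nat_lit 143) (nat_lit 5) (nat_lit 498) (nat_lit 431) (nat_lit 271)) (XT.lf (nat_lit 0) (nat_lit 1889401286) (nat_lit 304) (nat_lit 2643696640) (nat_lit 76) (nat_lit 27897761671) (nat_lit 138) (nat_lit 5) (nat_lit 142) (nat_lit 5) (nat_lit 139) (nat_lit 5) (nat_lit 499) (nat_lit 431) (nat_lit 270))) (XT.nd (nat_lit 78) (nat_lit 228) (nat_lit 0) (XT.lf (nat_lit 0) (nat_lit 10153704165) (nat_lit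 304) (nat_lit 15465611703) (nat_lit 76) (nat_lit 7423074520) (nat_lit 135) (nat_lit 5) (nat_lit 139) (nat_lit 5) (nat_lit 136) (nat_lit 5) (nat_lit 500) (nat_lit 431) (nat_lit 269)) (XT.lf (nat_lit 0) (nat_lit 4825686559) (nat_lit 228) (nat_lit 13952544936) (nat_lit 304) (nat_lit 14890666974) (nat_lit 132) (nat_lit 5) (nat_lit 135) (nat_lit 5) (nat_lit 136) (nat_lit 5) (nat_lit 501) (nat_lit 431) (nat_lit 268)))) (XT.nd (nat_lit 156) (nat_lit 228) (nat_lit 0) (XT.nd (nat_lit 78) (nat_lit 228) (nat_lit 0) (XT.lf (nat_lit 0) (nat_lit 26032922256) (nat_lit 228) (nat_lit 1778888378) (nat_lit 304) (nat_lit 6497881900) (nat_lit 132) (nat_lit 5) (nat_lit 135) (nat_lit 5) (nat_lit 136) (nat_lit 5) (nat_lit 502) (nat_lit 431) (nat_lit 267)) (XT.lf (nat_lit 0) (nat_lit 2330141793) (nat_lit 228) (nat_lit 21937689897) (nat_lit 76) (nat_lit 10694499541) (nat_lit 129) (nat_lit 5) (nat_lit 132) (nat_lit 5) (nat_lit 130) (nat_lit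 5) (nat_lit 503) (nat_lit 431) (nat_lit 266))) (XT.nd (nat_lit 78) (nat_lit 228) (nat_lit 0) (XT.lf (nat_lit 0) (nat_lit 11388720172) (nat_lit 228) (nat_lit 589754051) (nat_lit 76) (nat_lit 23651255554) (nat_lit 129) (nat_lit 5) (nat_lit 132) (nat_lit 5) (nat_lit 130) (nat_lit 5) (nat_lit 504) (nat_lit 431) (nat_lit 265)) (XT.lf (nat_lit 0) (nat_lit 20931787018) (nat_lit 304) (nat_lit 14504705157) (nat_lit 76) (nat_lit 874276368) (nat_lit 126) (nat_lit 5) (nat_lit 130) (nat_lit 5) (nat_lit 127) (nat_lit 5) (nat_lit 505) (nat_lit 431) (nat_lit 264)))))) (XT.nd (nat_lit 624) (nat_lit 912) (nat_lit 0) (XT.nd (nat_lit 312) (nat_lit 456) (nat_lit 0) (XT.nd (nat_lit 156) (nat_lit 380) (nat_lit 0) (XT.nd (nat_lit 78) (nat_lit 76) (nat_lit 0) (XT.lf (nat_lit 0) (nat_lit 7899831427) (nat_lit 152) (nat_lit 23056361850) (nat_lit 228) (nat_lit 6050193962) (nat_lit 124) (nat_lit 5) (nat_lit 126) (nat_lit 5) (nat_lit 127) (nat_lit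 5) (nat_lit 506) (nat_lit 431) (nat_lit 263)) (XT.lf (nat_lit 0) (nat_lit 3631450875) (nat_lit 228) (nat_lit 6489767012) (nat_lit 76) (nat_lit 27596357647) (nat_lit 123) (nat_lit 5) (nat_lit 126) (nat_lit 5) (nat_lit 124) (nat_lit 5) (nat_lit 507) (nat_lit 431) (nat_lit 262))) (XT.nd (nat_lit 78) (nat_lit 152) (nat_lit 0) (XT.lf (nat_lit 0) (nat_lit 13673657268) (nat_lit 304) (nat_lit 21406980449) (nat_lit 76) (nat_lit 3361913396) (nat_lit 120) (nat_lit 5) (nat_lit 124) (nat_lit 5) (nat_lit 121) (nat_lit 5) (nat_lit 508) (nat_lit 431) (nat_lit 261)) (XT.lf (nat_lit 0) (nat_lit 2144151706) (nat_lit 152) (nat_lit 22054685178) (nat_lit 228) (nat_lit 14984988033) (nat_lit 118) (nat_lit 5) (nat_lit 120) (nat_lit 5) (nat_lit 121) (nat_lit 5) (nat_lit 509) (nat_lit 431) (nat_lit 260)))) (XT.nd (nat_lit 156) (nat_lit 152) (nat_lit 0) (XT.nd (nat_lit 78) (nat_lit 304) (nat_lit 0) (XT.lf (nat_lit 0) (nat_lit 26831508467)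 (nat_lit 152) (nat_lit 8419201728) (nat_lit 228) (nat_lit 4690298753) (nat_lit 118) (nat_lit 5) (nat_lit 120) (nat_lit 5) (nat_lit 121) (nat_lit 5) (nat_lit 510) (nat_lit 431) (nat_lit 259)) (XT.lf (nat_lit 0) (nat_lit 5960906363) (nat_lit 304) (nat_lit 29070598020) (nat_lit 76) (nat_lit 5682807118) (nat_lit 114) (nat_lit 5) (nat_lit 118) (nat_lit 5) (nat_lit 115) (nat_lit 5) (nat_lit 511) (nat_lit 431) (nat_lit 258))) (XT.nd (nat_lit 78) (nat_lit 152) (nat_lit 0) (XT.lf (nat_lit 0) (nat_lit 17049325667) (nat_lit 304) (nat_lit 4238688887) (nat_lit 76) (nat_lit 20215047115) (nat_lit 114) (nat_lit 5) (nat_lit 118) (nat_lit 5) (nat_lit 115) (nat_lit 5) (nat_lit 512) (nat_lit 431) (nat_lit 257)) (XT.lf (nat_lit 0) (nat_lit 21753942072) (nat_lit 152) (nat_lit 6920615267) (nat_lit 228) (nat_lit 13634792357) (nat_lit 112) (nat_lit 5) (nat_lit 114) (nat_lit 5) (nat_lit 115) (nat_lit 5) (nat_lit 513) (nat_lit 431) (nat_lit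 256))))) (XT.nd (nat_lit 312) (nat_lit 532) (nat_lit 0) (XT.nd (nat_lit 156) (nat_lit 152) (nat_lit 0) (XT.nd (nat_lit 78) (nat_lit 76) (nat_lit 0) (XT.lf (nat_lit 0) (nat_lit 5497057589) (nat_lit 152) (nat_lit 35318354577) (nat_lit 228) (nat_lit 2319408353) (nat_lit 110) (nat_lit 5) (nat_lit 112) (nat_lit 5) (nat_lit 113) (nat_lit 5) (nat_lit 514) (nat_lit 431) (nat_lit 255)) (XT.lf (nat_lit 0) (nat_lit 9426498990) (nat_lit 228) (nat_lit 11395450401) (nat_lit 76) (nat_lit 23152217175) (nat_lit 109) (nat_lit 5) (nat_lit 112) (nat_lit 5) (nat_lit 110) (nat_lit 5) (nat_lit 515) (nat_lit 431) (nat_lit 254))) (XT.nd (nat_lit 78) (nat_lit 0) (nat_lit 0) (XT.lf (nat_lit 0) (nat_lit 15913175424) (nat_lit 152) (nat_lit 5713185095) (nat_lit 228) (nat_lit 23207197830) (nat_lit 107) (nat_lit 5) (nat_lit 109) (nat_lit 5) (nat_lit 110) (nat_lit 5) (nat_lit 516) (nat_lit 431) (nat_lit 253)) (XT.lf (nat_lit 0) (nat_lit 34398351838)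 (nat_lit 228) (nat_lit 1544973926) (nat_lit 76) (nat_lit 9769222228) (nat_lit 107) (nat_lit 5) (nat_lit 110) (nat_lit 5) (nat_lit 108) (nat_lit 5) (nat_lit 517) (nat_lit 431) (nat_lit 252)))) (XT.nd (nat_lit 156) (nat_lit 152) (nat_lit 0) (XT.nd (nat_lit 78) (nat_lit 152) (nat_lit 0) (XT.lf (nat_lit 0) (nat_lit 1233043439) (nat_lit 228) (nat_lit 19504645065) (nat_lit 76) (nat_lit 25870477992) (nat_lit 104) (nat_lit 5) (nat_lit 107) (nat_lit 5) (nat_lit 105) (nat_lit 5) (nat_lit 518) (nat_lit 431) (nat_lit 251)) (XT.lf (nat_lit 0) (nat_lit 9171449247) (nat_lit 152) (nat_lit 4857162465) (nat_lit 228) (nat_lit 33495701837) (nat_lit 102) (nat_lit 5) (nat_lit 104) (nat_lit 5) (nat_lit 105) (nat_lit 5) (nat_lit 519) (nat_lit 431) (nat_lit 250))) (XT.nd (nat_lit 78) (nat_lit 152) (nat_lit 0) (XT.lf (nat_lit 0) (nat_lit 27512916826) (nat_lit 228) (nat_lit 9475195751) (nat_lit 76) (nat_lit 11470686455) (nat_lit 102) (nat_lit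 5) (nat_lit 105) (nat_lit 5) (nat_lit 103) (nat_lit 5) (nat_lit 520) (nat_lit 431) (nat_lit 249)) (XT.lf (nat_lit 0) (nat_lit 20614906530) (nat_lit 152) (nat_lit 21028649945) (nat_lit 228) (nat_lit 7770508552) (nat_lit 100) (nat_lit 5) (nat_lit 102) (nat_lit 5) (nat_lit 103) (nat_lit 5) (nat_lit 521) (nat_lit 431) (nat_lit 248))))))) (XT.nd (nat_lit 1248) (nat_lit 988) (nat_lit 0) (XT.nd (nat_lit 624) (nat_lit 760) (nat_lit 0) (XT.nd (nat_lit 312) (nat_lit 532) (nat_lit 0) (XT.nd (nat_lit 156) (nat_lit 152) (nat_lit 0) (XT.nd (nat_lit 78) (nat_lit 0) (nat_lit 0) (XT.lf (nat_lit 0) (nat_lit 1368747057) (nat_lit 152) (nat_lit 4423544003) (nat_lit 228) (nat_lit 44600865029) (nat_lit 97) (nat_lit 5) (nat_lit 99) (nat_lit 5) (nat_lit 100) (nat_lit 5) (nat_lit 522) (nat_lit 431) (nat_lit 247)) (XT.lf (nat_lit 0) (nat_lit 20016952881) (nat_lit 228) (nat_lit 18570655002) (nat_lit 76) (nat_lit 12799369297) (nat_lit 97)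 (nat_lit 5) (nat_lit 100) (nat_lit 5) (nat_lit 98) (nat_lit 5) (nat_lit 523) (nat_lit 431) (nat_lit 246))) (XT.nd (nat_lit 78) (nat_lit 0) (nat_lit 0) (XT.lf (nat_lit 0) (nat_lit 12998698030) (nat_lit 152) (nat_lit 21834112399) (nat_lit 228) (nat_lit 17572868894) (nat_lit 95) (nat_lit 5) (nat_lit 97) (nat_lit 5) (nat_lit 98) (nat_lit 5) (nat_lit 524) (nat_lit 431) (nat_lit 245)) (XT.lf (nat_lit 0) (nat_lit 45888021435) (nat_lit 152) (nat_lit 4388406593) (nat_lit 228) (nat_lit 3173016065) (nat_lit 95) (nat_lit 5) (nat_lit 97) (nat_lit 5) (nat_lit 98) (nat_lit 5) (nat_lit 525) (nat_lit 431) (nat_lit 244)))) (XT.nd (nat_lit 156) (nat_lit 152) (nat_lit 0) (XT.nd (nat_lit 78) (nat_lit 152) (nat_lit 0) (XT.lf (nat_lit 0) (nat_lit 11807498923) (nat_lit 228) (nat_lit 29028239082) (nat_lit 76) (nat_lit 13674136564) (nat_lit 92) (nat_lit 5) (nat_lit 95) (nat_lit 5) (nat_lit 93) (nat_lit 5) (nat_lit 526) (nat_lit 431) (nat_lit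 243)) (XT.lf (nat_lit 0) (nat_lit 4067243199) (nat_lit 152) (nat_lit 23261924578) (nat_lit 228) (nat_lit 28267342399) (nat_lit 90) (nat_lit 5) (nat_lit 92) (nat_lit 5) (nat_lit 93) (nat_lit 5) (nat_lit 527) (nat_lit 431) (nat_lit 242))) (XT.nd (nat_lit 78) (nat_lit 152) (nat_lit 0) (XT.lf (nat_lit 0) (nat_lit 38743053871) (nat_lit 152) (nat_lit 4862463886) (nat_lit 228) (nat_lit 13101556247) (nat_lit 90) (nat_lit 5) (nat_lit 92) (nat_lit 5) (nat_lit 93) (nat_lit 5) (nat_lit 528) (nat_lit 431) (nat_lit 241)) (XT.lf (nat_lit 0) (nat_lit 2765790085) (nat_lit 152) (nat_lit 41076293483) (nat_lit 76) (nat_lit 13999272414) (nat_lit 88) (nat_lit 5) (nat_lit 90) (nat_lit 5) (nat_lit 89) (nat_lit 5) (nat_lit 529) (nat_lit 431) (nat_lit 240))))) (XT.nd (nat_lit 312) (nat_lit 456) (nat_lit 0) (XT.nd (nat_lit 156) (nat_lit 152) (nat_lit 0) (XT.nd (nat_lit 78) (nat_lit 152) (nat_lit 0) (XT.lf (nat_lit 0) (nat_lit 19073165219)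 (nat_lit 152) (nat_lit 6287078709) (nat_lit 76) (nat_lit 33638710913) (nat_lit 88) (nat_lit 5) (nat_lit 90) (nat_lit 5) (nat_lit 89) (nat_lit 5) (nat_lit 530) (nat_lit 431) (nat_lit 239)) (XT.lf (nat_lit 0) (nat_lit 30126446130) (nat_lit 152) (nat_lit 6029022007) (nat_lit 228) (nat_lit 24027242409) (nat_lit 86) (nat_lit 5) (nat_lit 88) (nat_lit 5) (nat_lit 89) (nat_lit 5) (nat_lit 531) (nat_lit 431) (nat_lit 238))) (XT.nd (nat_lit 78) (nat_lit 76) (nat_lit 0) (XT.lf (nat_lit 0) (nat_lit 6343642267) (nat_lit 76) (nat_lit 47661261190) (nat_lit 152) (nat_lit 7389435636) (nat_lit 85) (nat_lit 5) (nat_lit 86) (nat_lit 5) (nat_lit 87) (nat_lit 4) (nat_lit 532) (nat_lit 431) (nat_lit 237)) (XT.lf (nat_lit 0) (nat_lit 9919634885) (nat_lit 152) (nat_lit 18345198603) (nat_lit 76) (nat_lit 34363801953) (nat_lit 84) (nat_lit 5) (nat_lit 86) (nat_lit 5) (nat_lit 85) (nat_lit 5) (nat_lit 533) (nat_lit 431) (nat_lit 236)))) (XT.nd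 (nat_lit 156) (nat_lit 304) (nat_lit 0) (XT.nd (nat_lit 78) (nat_lit 0) (nat_lit 0) (XT.lf (nat_lit 0) (nat_lit 19766978060) (nat_lit 152) (nat_lit 8018734918) (nat_lit 228) (nat_lit 36106465210) (nat_lit 82) (nat_lit 5) (nat_lit 84) (nat_lit 5) (nat_lit 85) (nat_lit 5) (nat_lit 534) (nat_lit 431) (nat_lit 235)) (XT.lf (nat_lit 0) (nat_lit 46494487992) (nat_lit 228) (nat_lit 5921760403) (nat_lit 76) (nat_lit 12768177449) (nat_lit 82) (nat_lit 5) (nat_lit 85) (nat_lit 5) (nat_lit 83) (nat_lit 4) (nat_lit 535) (nat_lit 431) (nat_lit 234))) (XT.nd (nat_lit 78) (nat_lit 228) (nat_lit 0) (XT.lf (nat_lit 0) (nat_lit 34005096933) (nat_lit 76) (nat_lit 32162064068) (nat_lit 152) (nat_lit 336200949) (nat_lit 81) (nat_lit 5) (nat_lit 82) (nat_lit 5) (nat_lit 83) (nat_lit 4) (nat_lit 536) (nat_lit 431) (nat_lit 233)) (XT.lf (nat_lit 0) (nat_lit 7348534779) (nat_lit 152) (nat_lit 10984679227) (nat_lit 228) (nat_lit 49519475618)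 (nat_lit 78) (nat_lit 5) (nat_lit 80) (nat_lit 5) (nat_lit 81) (nat_lit 5) (nat_lit 537) (nat_lit 431) (nat_lit 232)))))) (XT.nd (nat_lit 624) (nat_lit 380) (nat_lit 0) (XT.nd (nat_lit 312) (nat_lit 304) (nat_lit 0) (XT.nd (nat_lit 156) (nat_lit 228) (nat_lit 0) (XT.nd (nat_lit 78) (nat_lit 76) (nat_lit 0) (XT.lf (nat_lit 0) (nat_lit 37987835939) (nat_lit 228) (nat_lit 20293263453) (nat_lit 76) (nat_lit 10948341475) (nat_lit 78) (nat_lit 5) (nat_lit 81) (nat_lit 5) (nat_lit 79) (nat_lit 4) (nat_lit 538) (nat_lit 431) (nat_lit 231)) (XT.lf (nat_lit 0) (nat_lit 21426637428) (nat_lit 76) (nat_lit 37116667999) (nat_lit 152) (nat_lit 12094853008) (nat_lit 77) (nat_lit 5) (nat_lit 78) (nat_lit 5) (nat_lit 79) (nat_lit 4) (nat_lit 539) (nat_lit 431) (nat_lit 230))) (XT.nd (nat_lit 78) (nat_lit 152) (nat_lit 0) (XT.lf (nat_lit 0) (nat_lit 7680924168) (nat_lit 152) (nat_lit 7350873616) (nat_lit 76) (nat_lit 57049037360)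 (nat_lit 76) (nat_lit 5) (nat_lit 78) (nat_lit 5) (nat_lit 77) (nat_lit 5) (nat_lit 540) (nat_lit 431) (nat_lit 229)) (XT.lf (nat_lit 0) (nat_lit 28231658956) (nat_lit 228) (nat_lit 37282946374) (nat_lit 76) (nat_lit 8035850976) (nat_lit 74) (nat_lit 5) (nat_lit 77) (nat_lit 5) (nat_lit 75) (nat_lit 4) (nat_lit 541) (nat_lit 431) (nat_lit 228)))) (XT.nd (nat_lit 156) (nat_lit 228) (nat_lit 0) (XT.nd (nat_lit 78) (nat_lit 0) (nat_lit 0) (XT.lf (nat_lit 0) (nat_lit 6249081391) (nat_lit 76) (nat_lit 43430297296) (nat_lit 152) (nat_lit 25376373580) (nat_lit 73) (nat_lit 5) (nat_lit 74) (nat_lit 5) (nat_lit 75) (nat_lit 4) (nat_lit 542) (nat_lit 431) (nat_lit 227)) (XT.lf (nat_lit 0) (nat_lit 51844909906) (nat_lit 76) (nat_lit 20298740940) (nat_lit 152) (nat_lit 4451362682) (nat_lit 73) (nat_lit 5) (nat_lit 74) (nat_lit 5) (nat_lit 75) (nat_lit 4) (nat_lit 543) (nat_lit 431) (nat_lit 226))) (XT.nd (nat_lit 78) (nat_lit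 0) (nat_lit 0) (XT.lf (nat_lit 0) (nat_lit 17002439765) (nat_lit 228) (nat_lit 57342476176) (nat_lit 76) (nat_lit 3823562524) (nat_lit 70) (nat_lit 5) (nat_lit 73) (nat_lit 5) (nat_lit 71) (nat_lit 4) (nat_lit 544) (nat_lit 431) (nat_lit 225)) (XT.lf (nat_lit 0) (nat_lit 39460477203) (nat_lit 228) (nat_lit 11758740348) (nat_lit 76) (nat_lit 28555104989) (nat_lit 70) (nat_lit 5) (nat_lit 73) (nat_lit 5) (nat_lit 71) (nat_lit 4) (nat_lit 545) (nat_lit 431) (nat_lit 224))))) (XT.nd (nat_lit 312) (nat_lit 0) (nat_lit 0) (XT.nd (nat_lit 156) (nat_lit 76) (nat_lit 0) (XT.nd (nat_lit 78) (nat_lit 228) (nat_lit 0) (XT.lf (nat_lit 0) (nat_lit 35886659320) (nat_lit 76) (nat_lit 27047366035) (nat_lit 152) (nat_lit 18484063537) (nat_lit 69) (nat_lit 5) (nat_lit 70) (nat_lit 5) (nat_lit 71) (nat_lit 4) (nat_lit 546) (nat_lit 431) (nat_lit 223)) (XT.lf (nat_lit 0) (nat_lit 2089876942) (nat_lit 152) (nat_lit 1969481956) (nat_lit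 228) (nat_lit 79046551280) (nat_lit 66) (nat_lit 5) (nat_lit 68) (nat_lit 5) (nat_lit 69) (nat_lit 5) (nat_lit 547) (nat_lit 431) (nat_lit 222))) (XT.nd (nat_lit 78) (nat_lit 76) (nat_lit 0) (XT.lf (nat_lit 0) (nat_lit 27598082165) (nat_lit 228) (nat_lit 33180463607) (nat_lit 76) (nat_lit 24039614767) (nat_lit 66) (nat_lit 5) (nat_lit 69) (nat_lit 5) (nat_lit 67) (nat_lit 4) (nat_lit 548) (nat_lit 431) (nat_lit 221)) (XT.lf (nat_lit 0) (nat_lit 16384434996) (nat_lit 76) (nat_lit 35632437028) (nat_lit 152) (nat_lit 34559689279) (nat_lit 65) (nat_lit 5) (nat_lit 66) (nat_lit 5) (nat_lit 67) (nat_lit 4) (nat_lit 549) (nat_lit 431) (nat_lit 220)))) (XT.nd (nat_lit 53352) (nat_lit 0) (nat_lit 19836) (XT.nd (nat_lit 53274) (nat_lit 0) (nat_lit 19836) (XT.lf (nat_lit 0) (nat_lit 68110548306) (nat_lit 76) (nat_lit 9389676111) (nat_lit 152) (nat_lit 10877529742) (nat_lit 65) (nat_lit 5) (nat_lit 66) (nat_lit 5) (nat_lit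 67) (nat_lit 4) (nat_lit 550) (nat_lit 431) (nat_lit 219)) (XT.lf (nat_lit 0) (nat_lit 722722351) (nat_lit 0) (nat_lit 722722351) (nat_lit 1140) (nat_lit 3984787170) (nat_lit 326) (nat_lit 5) (nat_lit 326) (nat_lit 3) (nat_lit 341) (nat_lit 3) (nat_lit 432) (nat_lit 432) (nat_lit 336))) (XT.nd (nat_lit 78) (nat_lit 0) (nat_lit 0) (XT.lf (nat_lit 0) (nat_lit 3556653123) (nat_lit 1140) (nat_lit 4054856099) (nat_lit 1216) (nat_lit 3393132781) (nat_lit 326) (nat_lit 5) (nat_lit 341) (nat_lit 3) (nat_lit 342) (nat_lit 5) (nat_lit 433) (nat_lit 432) (nat_lit 335)) (XT.lf (nat_lit 76) (nat_lit 1468150685) (nat_lit 0) (nat_lit 2779781405) (nat_lit 1216) (nat_lit 6905049463) (nat_lit 327) (nat_lit 5) (nat_lit 326) (nat_lit 5) (nat_lit 342) (nat_lit 5) (nat_lit 434) (nat_lit 432) (nat_lit 334))))))))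
noncomputable def xc166 : XT := (XT.nd (nat_lit 2418) (nat_lit 6992) (nat_lit 0) (XT.nd (nat_lit 1170) (nat_lit 4864) (nat_lit 0) (XT.nd (nat_lit 546) (nat_lit 1976) (nat_lit 0) (XT.nd (nat_lit 234) (nat_lit 0) (nat_lit 76) (XT.nd (nat_lit 78) (nat_lit 0) (nat_lit 0) (XT.lf (nat_lit 0) (nat_lit 5000184106) (nat_lit 1140) (nat_lit 4099045770) (nat_lit 1216) (nat_lit 2205336520) (nat_lit 327) (nat_lit 5) (nat_lit 342) (nat_lit 5) (nat_lit 343) (nat_lit 5) (nat_lit 435) (nat_lit 432) (nat_lit 333)) (XT.nd (nat_lit 78) (nat_lit 0) (nat_lit 76) (XT.lf (nat_lit 76) (nat_lit 1646345773) (nat_lit 0) (nat_lit 4150419040) (nat_lit 1216) (nat_lit 5663283222) (nat_lit 328) (nat_lit 5) (nat_lit 327) (nat_lit 5) (nat_lit 343) (nat_lit 5) (nat_lit 436) (nat_lit 432) (nat_lit 332)) (XT.lf (nat_lit 0) (nat_lit 6647151775) (nat_lit 1140) (nat_lit 3993503200) (nat_lit 1216) (nat_lit 978643908) (nat_lit 328) (nat_lit 5) (nat_lit 343)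 (nat_lit 5) (nat_lit 344) (nat_lit 5) (nat_lit 437) (nat_lit 432) (nat_lit 331)))) (XT.nd (nat_lit 156) (nat_lit 0) (nat_lit 76) (XT.nd (nat_lit 78) (nat_lit 0) (nat_lit 0) (XT.lf (nat_lit 76) (nat_lit 1986184894) (nat_lit 0) (nat_lit 5576667564) (nat_lit 1216) (nat_lit 4219282701) (nat_lit 329) (nat_lit 5) (nat_lit 328) (nat_lit 5) (nat_lit 344) (nat_lit 5) (nat_lit 438) (nat_lit 432) (nat_lit 330)) (XT.lf (nat_lit 76) (nat_lit 8214470536) (nat_lit 0) (nat_lit 311968647) (nat_lit 1216) (nat_lit 3422806799) (nat_lit 329) (nat_lit 5) (nat_lit 328) (nat_lit 5) (nat_lit 344) (nat_lit 5) (nat_lit 439) (nat_lit 432) (nat_lit 329))) (XT.nd (nat_lit 78) (nat_lit 0) (nat_lit 0) (XT.lf (nat_lit 76) (nat_lit 2494854426) (nat_lit 0) (nat_lit 7077924178) (nat_lit 1216) (nat_lit 2546978024) (nat_lit 330) (nat_lit 5) (nat_lit 329) (nat_lit 5) (nat_lit 345) (nat_lit 5) (nat_lit 440) (nat_lit 432) (nat_lit 328)) (XT.lf (nat_lit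 76) (nat_lit 8971972102) (nat_lit 0) (nat_lit 1700482606) (nat_lit 1216) (nat_lit 1622271289) (nat_lit 330) (nat_lit 5) (nat_lit 329) (nat_lit 5) (nat_lit 345) (nat_lit 5) (nat_lit 441) (nat_lit 432) (nat_lit 327))))) (XT.nd (nat_lit 312) (nat_lit 988) (nat_lit 0) (XT.nd (nat_lit 156) (nat_lit 0) (nat_lit 76) (XT.nd (nat_lit 78) (nat_lit 1216) (nat_lit 0) (XT.lf (nat_lit 76) (nat_lit 3180584434) (nat_lit 0) (nat_lit 8673784849) (nat_lit 1216) (nat_lit 619099466) (nat_lit 331) (nat_lit 5) (nat_lit 330) (nat_lit 5) (nat_lit 346) (nat_lit 5) (nat_lit 442) (nat_lit 432) (nat_lit 326)) (XT.lf (nat_lit 0) (nat_lit 438814654) (nat_lit 1216) (nat_lit 2743856009) (nat_lit 1292) (nat_lit 9473803458) (nat_lit 314) (nat_lit 5) (nat_lit 330) (nat_lit 5) (nat_lit 331) (nat_lit 5) (nat_lit 443) (nat_lit 432) (nat_lit 325))) (XT.nd (nat_lit 78) (nat_lit 0) (nat_lit 0) (XT.lf (nat_lit 0) (nat_lit 1561864393) (nat_lit 1216) (nat_lit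 8806517951) (nat_lit 1292) (nat_lit 2475029774) (nat_lit 315) (nat_lit 5) (nat_lit 331) (nat_lit 5) (nat_lit 332) (nat_lit 5) (nat_lit 444) (nat_lit 432) (nat_lit 324)) (XT.lf (nat_lit 0) (nat_lit 2761057908) (nat_lit 1216) (nat_lit 2002917334) (nat_lit 1292) (nat_lit 8270710994) (nat_lit 315) (nat_lit 5) (nat_lit 331) (nat_lit 5) (nat_lit 332) (nat_lit 5) (nat_lit 445) (nat_lit 432) (nat_lit 323)))) (XT.nd (nat_lit 156) (nat_lit 1140) (nat_lit 0) (XT.nd (nat_lit 78) (nat_lit 0) (nat_lit 0) (XT.lf (nat_lit 0) (nat_lit 4038836430) (nat_lit 1216) (nat_lit 8149733043) (nat_lit 1292) (nat_lit 1041852337) (nat_lit 316) (nat_lit 5) (nat_lit 332) (nat_lit 5) (nat_lit 333) (nat_lit 5) (nat_lit 446) (nat_lit 432) (nat_lit 322)) (XT.lf (nat_lit 0) (nat_lit 5406388651) (nat_lit 1216) (nat_lit 1074252618) (nat_lit 1292) (nat_lit 6949846433) (nat_lit 316) (nat_lit 5) (nat_lit 332) (nat_lit 5) (nat_lit 333) (nat_lit 5) (nat_lit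 447) (nat_lit 432) (nat_lit 321))) (XT.nd (nat_lit 78) (nat_lit 1140) (nat_lit 0) (XT.lf (nat_lit 76) (nat_lit 6323961008) (nat_lit 0) (nat_lit 536113186) (nat_lit 1292) (nat_lit 6775129595) (nat_lit 317) (nat_lit 5) (nat_lit 316) (nat_lit 5) (nat_lit 333) (nat_lit 5) (nat_lit 448) (nat_lit 432) (nat_lit 320)) (XT.lf (nat_lit 0) (nat_lit 54362429) (nat_lit 1216) (nat_lit 8352864032) (nat_lit 1292) (nat_lit 5437340591) (nat_lit 301) (nat_lit 5) (nat_lit 317) (nat_lit 5) (nat_lit 318) (nat_lit 5) (nat_lit 449) (nat_lit 432) (nat_lit 319)))))) (XT.nd (nat_lit 624) (nat_lit 2204) (nat_lit 0) (XT.nd (nat_lit 312) (nat_lit 1140) (nat_lit 0) (XT.nd (nat_lit 156) (nat_lit 684) (nat_lit 0) (XT.nd (nat_lit 78) (nat_lit 836) (nat_lit 0) (XT.lf (nat_lit 0) (nat_lit 7772231795) (nat_lit 1216) (nat_lit 2292641627) (nat_lit 1292) (nat_lit 3993416726) (nat_lit 301) (nat_lit 5) (nat_lit 317) (nat_lit 5) (nat_lit 318) (nat_lit 5)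 (nat_lit 450) (nat_lit 432) (nat_lit 318)) (XT.lf (nat_lit 0) (nat_lit 1419716416) (nat_lit 836) (nat_lit 10389593611) (nat_lit 912) (nat_lit 2468004402) (nat_lit 290) (nat_lit 5) (nat_lit 301) (nat_lit 5) (nat_lit 302) (nat_lit 5) (nat_lit 451) (nat_lit 432) (nat_lit 317))) (XT.nd (nat_lit 78) (nat_lit 684) (nat_lit 0) (XT.lf (nat_lit 0) (nat_lit 9449265301) (nat_lit 836) (nat_lit 4228515127) (nat_lit 912) (nat_lit 822979251) (nat_lit 290) (nat_lit 5) (nat_lit 301) (nat_lit 5) (nat_lit 302) (nat_lit 5) (nat_lit 452) (nat_lit 432) (nat_lit 316)) (XT.lf (nat_lit 0) (nat_lit 890242754) (nat_lit 684) (nat_lit 11724469030) (nat_lit 76) (nat_lit 2114870895) (nat_lit 281) (nat_lit 5) (nat_lit 290) (nat_lit 5) (nat_lit 282) (nat_lit 5) (nat_lit 453) (nat_lit 432) (nat_lit 315)))) (XT.nd (nat_lit 156) (nat_lit 532) (nat_lit 0) (XT.nd (nat_lit 78) (nat_lit 608) (nat_lit 0) (XT.lf (nat_lit 0) (nat_lit 2718017109) (nat_lit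 684) (nat_lit 3620585203) (nat_lit 76) (nat_lit 8624033858) (nat_lit 281) (nat_lit 5) (nat_lit 290) (nat_lit 5) (nat_lit 282) (nat_lit 5) (nat_lit 454) (nat_lit 432) (nat_lit 314)) (XT.lf (nat_lit 0) (nat_lit 4635219504) (nat_lit 684) (nat_lit 10396050472) (nat_lit 76) (nat_lit 170374568) (nat_lit 273) (nat_lit 5) (nat_lit 282) (nat_lit 5) (nat_lit 274) (nat_lit 5) (nat_lit 455) (nat_lit 432) (nat_lit 313))) (XT.nd (nat_lit 78) (nat_lit 532) (nat_lit 0) (XT.lf (nat_lit 0) (nat_lit 6696599253) (nat_lit 684) (nat_lit 1964245742) (nat_lit 76) (nat_lit 6784379423) (nat_lit 273) (nat_lit 5) (nat_lit 282) (nat_lit 5) (nat_lit 274) (nat_lit 5) (nat_lit 456) (nat_lit 432) (nat_lit 312)) (XT.lf (nat_lit 0) (nat_lit 6841217548) (nat_lit 532) (nat_lit 2031724080) (nat_lit 608) (nat_lit 6821577480) (nat_lit 266) (nat_lit 5) (nat_lit 273) (nat_lit 5) (nat_lit 274) (nat_lit 5) (nat_lit 457) (nat_lit 432) (nat_lit 311))))) (XT.nd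 (nat_lit 312) (nat_lit 988) (nat_lit 0) (XT.nd (nat_lit 156) (nat_lit 608) (nat_lit 0) (XT.nd (nat_lit 78) (nat_lit 608) (nat_lit 0) (XT.lf (nat_lit 0) (nat_lit 11168313437) (nat_lit 608) (nat_lit 58926005) (nat_lit 76) (nat_lit 4722442049) (nat_lit 266) (nat_lit 5) (nat_lit 274) (nat_lit 5) (nat_lit 267) (nat_lit 5) (nat_lit 458) (nat_lit 432) (nat_lit 310)) (XT.lf (nat_lit 0) (nat_lit 9144958343) (nat_lit 608) (nat_lit 4483575205) (nat_lit 684) (nat_lit 2581086577) (nat_lit 258) (nat_lit 5) (nat_lit 266) (nat_lit 5) (nat_lit 267) (nat_lit 5) (nat_lit 459) (nat_lit 432) (nat_lit 309))) (XT.nd (nat_lit 78) (nat_lit 76) (nat_lit 0) (XT.lf (nat_lit 0) (nat_lit 2154308905) (nat_lit 532) (nat_lit 14041418130) (nat_lit 608) (nat_lit 280635848) (nat_lit 251) (nat_lit 5) (nat_lit 258) (nat_lit 5) (nat_lit 259) (nat_lit 5) (nat_lit 460) (nat_lit 432) (nat_lit 308)) (XT.lf (nat_lit 0) (nat_lit 2152798215) (nat_lit 608)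 (nat_lit 5032466790) (nat_lit 76) (nat_lit 9562099544) (nat_lit 250) (nat_lit 5) (nat_lit 258) (nat_lit 5) (nat_lit 251) (nat_lit 5) (nat_lit 461) (nat_lit 432) (nat_lit 307)))) (XT.nd (nat_lit 156) (nat_lit 456) (nat_lit 0) (XT.nd (nat_lit 78) (nat_lit 0) (nat_lit 0) (XT.lf (nat_lit 0) (nat_lit 4610383820) (nat_lit 532) (nat_lit 76162775) (nat_lit 608) (nat_lit 12338878646) (nat_lit 243) (nat_lit 5) (nat_lit 250) (nat_lit 5) (nat_lit 251) (nat_lit 5) (nat_lit 462) (nat_lit 432) (nat_lit 306)) (XT.lf (nat_lit 0) (nat_lit 7406115828) (nat_lit 608) (nat_lit 2747590686) (nat_lit 76) (nat_lit 7154827846) (nat_lit 243) (nat_lit 5) (nat_lit 251) (nat_lit 5) (nat_lit 244) (nat_lit 5) (nat_lit 463) (nat_lit 432) (nat_lit 305))) (XT.nd (nat_lit 78) (nat_lit 0) (nat_lit 0) (XT.lf (nat_lit 0) (nat_lit 7339921001) (nat_lit 456) (nat_lit 2927818487) (nat_lit 532) (nat_lit 7330584079) (nat_lit 237) (nat_lit 5) (nat_lit 243)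 (nat_lit 5) (nat_lit 244) (nat_lit 5) (nat_lit 464) (nat_lit 432) (nat_lit 304)) (XT.lf (nat_lit 0) (nat_lit 13275970133) (nat_lit 532) (nat_lit 165886269) (nat_lit 76) (nat_lit 4453128110) (nat_lit 237) (nat_lit 5) (nat_lit 244) (nat_lit 5) (nat_lit 238) (nat_lit 5) (nat_lit 465) (nat_lit 432) (nat_lit 303))))))) (XT.nd (nat_lit 1170) (nat_lit 3116) (nat_lit 0) (XT.nd (nat_lit 546) (nat_lit 1596) (nat_lit 0) (XT.nd (nat_lit 234) (nat_lit 1292) (nat_lit 0) (XT.nd (nat_lit 78) (nat_lit 532) (nat_lit 0) (XT.lf (nat_lit 0) (nat_lit 10390930271) (nat_lit 456) (nat_lit 6102039052) (nat_lit 532) (nat_lit 1704021098) (nat_lit 231) (nat_lit 5) (nat_lit 237) (nat_lit 5) (nat_lit 238) (nat_lit 5) (nat_lit 466) (nat_lit 432) (nat_lit 302)) (XT.nd (nat_lit 78) (nat_lit 0) (nat_lit 0) (XT.lf (nat_lit 0) (nat_lit 1305724294) (nat_lit 532) (nat_lit 15732093059) (nat_lit 76) (nat_lit 1468886283) (nat_lit 224) (nat_lit 5) (nat_lit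 231) (nat_lit 5) (nat_lit 225) (nat_lit 5) (nat_lit 467) (nat_lit 432) (nat_lit 301)) (XT.lf (nat_lit 0) (nat_lit 4501429453) (nat_lit 532) (nat_lit 5081191896) (nat_lit 76) (nat_lit 9238683978) (nat_lit 224) (nat_lit 5) (nat_lit 231) (nat_lit 5) (nat_lit 225) (nat_lit 5) (nat_lit 468) (nat_lit 432) (nat_lit 300)))) (XT.nd (nat_lit 156) (nat_lit 836) (nat_lit 0) (XT.nd (nat_lit 78) (nat_lit 0) (nat_lit 0) (XT.lf (nat_lit 0) (nat_lit 5994067928) (nat_lit 456) (nat_lit 1846744794) (nat_lit 532) (nat_lit 11303098836) (nat_lit 218) (nat_lit 5) (nat_lit 224) (nat_lit 5) (nat_lit 225) (nat_lit 5) (nat_lit 469) (nat_lit 432) (nat_lit 299)) (XT.lf (nat_lit 0) (nat_lit 11381372150) (nat_lit 532) (nat_lit 2040542857) (nat_lit 76) (nat_lit 6051251807) (nat_lit 218) (nat_lit 5) (nat_lit 225) (nat_lit 5) (nat_lit 219) (nat_lit 5) (nat_lit 470) (nat_lit 432) (nat_lit 298))) (XT.nd (nat_lit 78) (nat_lit 456) (nat_lit 0) (XT.lf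 (nat_lit 0) (nat_lit 9558345457) (nat_lit 380) (nat_lit 5570585419) (nat_lit 456) (nat_lit 4680346034) (nat_lit 213) (nat_lit 5) (nat_lit 218) (nat_lit 5) (nat_lit 219) (nat_lit 5) (nat_lit 471) (nat_lit 432) (nat_lit 297)) (XT.lf (nat_lit 0) (nat_lit 1382706713) (nat_lit 456) (nat_lit 17655250818) (nat_lit 532) (nat_lit 1116042182) (nat_lit 207) (nat_lit 5) (nat_lit 213) (nat_lit 5) (nat_lit 214) (nat_lit 5) (nat_lit 472) (nat_lit 432) (nat_lit 296))))) (XT.nd (nat_lit 312) (nat_lit 760) (nat_lit 0) (XT.nd (nat_lit 156) (nat_lit 380) (nat_lit 0) (XT.nd (nat_lit 78) (nat_lit 380) (nat_lit 0) (XT.lf (nat_lit 0) (nat_lit 2655839426) (nat_lit 532) (nat_lit 7023337309) (nat_lit 76) (nat_lit 10824635919) (nat_lit 206) (nat_lit 5) (nat_lit 213) (nat_lit 5) (nat_lit 207) (nat_lit 5) (nat_lit 473) (nat_lit 432) (nat_lit 295)) (XT.lf (nat_lit 0) (nat_lit 5154824138) (nat_lit 380) (nat_lit 1404256923) (nat_lit 456) (nat_lit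 14303488962) (nat_lit 201) (nat_lit 5) (nat_lit 206) (nat_lit 5) (nat_lit 207) (nat_lit 5) (nat_lit 474) (nat_lit 432) (nat_lit 294))) (XT.nd (nat_lit 78) (nat_lit 380) (nat_lit 0) (XT.lf (nat_lit 0) (nat_lit 10710678886) (nat_lit 456) (nat_lit 3468686651) (nat_lit 76) (nat_lit 7048787375) (nat_lit 201) (nat_lit 5) (nat_lit 207) (nat_lit 5) (nat_lit 202) (nat_lit 5) (nat_lit 475) (nat_lit 432) (nat_lit 293)) (XT.lf (nat_lit 0) (nat_lit 9293443128) (nat_lit 380) (nat_lit 5788079006) (nat_lit 456) (nat_lit 6520340780) (nat_lit 196) (nat_lit 5) (nat_lit 201) (nat_lit 5) (nat_lit 202) (nat_lit 5) (nat_lit 476) (nat_lit 432) (nat_lit 292)))) (XT.nd (nat_lit 156) (nat_lit 380) (nat_lit 0) (XT.nd (nat_lit 78) (nat_lit 76) (nat_lit 0) (XT.lf (nat_lit 0) (nat_lit 494001029) (nat_lit 304) (nat_lit 19148624911) (nat_lit 380) (nat_lit 2342384753) (nat_lit 192) (nat_lit 5) (nat_lit 196) (nat_lit 5) (nat_lit 197) (nat_lit 5)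 (nat_lit 477) (nat_lit 432) (nat_lit 291)) (XT.lf (nat_lit 0) (nat_lit 2097096110) (nat_lit 380) (nat_lit 8532216417) (nat_lit 76) (nat_lit 11744541884) (nat_lit 191) (nat_lit 5) (nat_lit 196) (nat_lit 5) (nat_lit 192) (nat_lit 5) (nat_lit 478) (nat_lit 432) (nat_lit 290))) (XT.nd (nat_lit 78) (nat_lit 0) (nat_lit 0) (XT.lf (nat_lit 0) (nat_lit 4875927190) (nat_lit 380) (nat_lit 1785490379) (nat_lit 456) (nat_lit 16111088529) (nat_lit 186) (nat_lit 5) (nat_lit 191) (nat_lit 5) (nat_lit 192) (nat_lit 5) (nat_lit 479) (nat_lit 432) (nat_lit 289)) (XT.lf (nat_lit 0) (nat_lit 11512042613) (nat_lit 456) (nat_lit 4402034181) (nat_lit 76) (nat_lit 7264559798) (nat_lit 186) (nat_lit 5) (nat_lit 192) (nat_lit 5) (nat_lit 187) (nat_lit 5) (nat_lit 480) (nat_lit 432) (nat_lit 288)))))) (XT.nd (nat_lit 624) (nat_lit 1444) (nat_lit 0) (XT.nd (nat_lit 312) (nat_lit 684) (nat_lit 0) (XT.nd (nat_lit 156) (nat_lit 380) (nat_lit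 0) (XT.nd (nat_lit 78) (nat_lit 304) (nat_lit 0) (XT.lf (nat_lit 0) (nat_lit 9656978819) (nat_lit 304) (nat_lit 6953911451) (nat_lit 380) (nat_lit 6982980079) (nat_lit 182) (nat_lit 5) (nat_lit 186) (nat_lit 5) (nat_lit 187) (nat_lit 5) (nat_lit 481) (nat_lit 432) (nat_lit 287)) (XT.lf (nat_lit 0) (nat_lit 177708363) (nat_lit 304) (nat_lit 21745750664) (nat_lit 380) (nat_lit 2096279867) (nat_lit 178) (nat_lit 5) (nat_lit 182) (nat_lit 5) (nat_lit 183) (nat_lit 5) (nat_lit 482) (nat_lit 432) (nat_lit 286))) (XT.nd (nat_lit 78) (nat_lit 304) (nat_lit 0) (XT.lf (nat_lit 0) (nat_lit 3083017155) (nat_lit 380) (nat_lit 9562464154) (nat_lit 76) (nat_lit 11805956409) (nat_lit 177) (nat_lit 5) (nat_lit 182) (nat_lit 5) (nat_lit 178) (nat_lit 5) (nat_lit 483) (nat_lit 432) (nat_lit 285)) (XT.lf (nat_lit 0) (nat_lit 5215571558) (nat_lit 304) (nat_lit 3202675457) (nat_lit 380) (nat_lit 16475937629) (nat_lit 173) (nat_lit 5)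 (nat_lit 177) (nat_lit 5) (nat_lit 178) (nat_lit 5) (nat_lit 484) (nat_lit 432) (nat_lit 284)))) (XT.nd (nat_lit 156) (nat_lit 380) (nat_lit 0) (XT.nd (nat_lit 78) (nat_lit 304) (nat_lit 0) (XT.lf (nat_lit 0) (nat_lit 14066390080) (nat_lit 380) (nat_lit 4789027387) (nat_lit 76) (nat_lit 6490211222) (nat_lit 173) (nat_lit 5) (nat_lit 178) (nat_lit 5) (nat_lit 174) (nat_lit 5) (nat_lit 485) (nat_lit 432) (nat_lit 283)) (XT.lf (nat_lit 0) (nat_lit 10713907380) (nat_lit 304) (nat_lit 9297614032) (nat_lit 380) (nat_lit 5795268711) (nat_lit 169) (nat_lit 5) (nat_lit 173) (nat_lit 5) (nat_lit 174) (nat_lit 5) (nat_lit 486) (nat_lit 432) (nat_lit 282))) (XT.nd (nat_lit 78) (nat_lit 76) (nat_lit 0) (XT.lf (nat_lit 0) (nat_lit 492877945) (nat_lit 304) (nat_lit 25693880742) (nat_lit 380) (nat_lit 93475528) (nat_lit 165) (nat_lit 5) (nat_lit 169) (nat_lit 5) (nat_lit 170) (nat_lit 5) (nat_lit 487) (nat_lit 432) (nat_lit 281))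 (XT.lf (nat_lit 0) (nat_lit 5905520716) (nat_lit 380) (nat_lit 10067631747) (nat_lit 76) (nat_lit 10785895106) (nat_lit 164) (nat_lit 5) (nat_lit 169) (nat_lit 5) (nat_lit 165) (nat_lit 5) (nat_lit 488) (nat_lit 432) (nat_lit 280))))) (XT.nd (nat_lit 312) (nat_lit 532) (nat_lit 0) (XT.nd (nat_lit 156) (nat_lit 608) (nat_lit 0) (XT.nd (nat_lit 78) (nat_lit 0) (nat_lit 0) (XT.lf (nat_lit 0) (nat_lit 6233916145) (nat_lit 304) (nat_lit 5901773937) (nat_lit 380) (nat_lit 15114915361) (nat_lit 160) (nat_lit 5) (nat_lit 164) (nat_lit 5) (nat_lit 165) (nat_lit 5) (nat_lit 489) (nat_lit 432) (nat_lit 279)) (XT.lf (nat_lit 0) (nat_lit 18691641807) (nat_lit 380) (nat_lit 4577518605) (nat_lit 76) (nat_lit 4483583656) (nat_lit 160) (nat_lit 5) (nat_lit 165) (nat_lit 5) (nat_lit 161) (nat_lit 5) (nat_lit 490) (nat_lit 432) (nat_lit 278))) (XT.nd (nat_lit 78) (nat_lit 380) (nat_lit 0) (XT.lf (nat_lit 0) (nat_lit 12530665835)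 (nat_lit 228) (nat_lit 13085911701) (nat_lit 304) (nat_lit 2648200476) (nat_lit 157) (nat_lit 5) (nat_lit 160) (nat_lit 5) (nat_lit 161) (nat_lit 5) (nat_lit 491) (nat_lit 432) (nat_lit 277)) (XT.lf (nat_lit 0) (nat_lit 1434361523) (nat_lit 304) (nat_lit 2499428604) (nat_lit 380) (nat_lit 24855624450) (nat_lit 152) (nat_lit 5) (nat_lit 156) (nat_lit 5) (nat_lit 157) (nat_lit 5) (nat_lit 492) (nat_lit 432) (nat_lit 276)))) (XT.nd (nat_lit 156) (nat_lit 304) (nat_lit 0) (XT.nd (nat_lit 78) (nat_lit 228) (nat_lit 0) (XT.lf (nat_lit 0) (nat_lit 10894768126) (nat_lit 380) (nat_lit 10003518112) (nat_lit 76) (nat_lit 8423675086) (nat_lit 152) (nat_lit 5) (nat_lit 157) (nat_lit 5) (nat_lit 153) (nat_lit 5) (nat_lit 493) (nat_lit 432) (nat_lit 275)) (XT.lf (nat_lit 0) (nat_lit 7989690540) (nat_lit 228) (nat_lit 10170129136) (nat_lit 304) (nat_lit 11707807760) (nat_lit 149) (nat_lit 5) (nat_lit 152) (nat_lit 5) (nat_lit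 153) (nat_lit 5) (nat_lit 494) (nat_lit 432) (nat_lit 274))) (XT.nd (nat_lit 78) (nat_lit 304) (nat_lit 0) (XT.lf (nat_lit 0) (nat_lit 25747044703) (nat_lit 304) (nat_lit 3718419136) (nat_lit 76) (nat_lit 961073313) (nat_lit 149) (nat_lit 5) (nat_lit 153) (nat_lit 5) (nat_lit 150) (nat_lit 5) (nat_lit 495) (nat_lit 432) (nat_lit 273)) (XT.lf (nat_lit 0) (nat_lit 2752566094) (nat_lit 304) (nat_lit 15850539189) (nat_lit 76) (nat_lit 12391085719) (nat_lit 145) (nat_lit 5) (nat_lit 149) (nat_lit 5) (nat_lit 146) (nat_lit 5) (nat_lit 496) (nat_lit 432) (nat_lit 272))))))))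
noncomputable def xc167 : XT := (XT.nd (nat_lit 2418) (nat_lit 2052) (nat_lit 0) (XT.nd (nat_lit 1170) (nat_lit 1976) (nat_lit 0) (XT.nd (nat_lit 546) (nat_lit 1064) (nat_lit 0) (XT.nd (nat_lit 234) (nat_lit 532) (nat_lit 0) (XT.nd (nat_lit 78) (nat_lit 228) (nat_lit 0) (XT.lf (nat_lit 0) (nat_lit 3073516190) (nat_lit 228) (nat_lit 7301436207) (nat_lit 304) (nat_lit 21200689804) (nat_lit 142) (nat_lit 5) (nat_lit 145) (nat_lit 5) (nat_lit 146) (nat_lit 5) (nat_lit 497) (nat_lit 432) (nat_lit 271)) (XT.nd (nat_lit 78) (nat_lit 228) (nat_lit 0) (XT.lf (nat_lit 0) (nat_lit 18423366922) (nat_lit 304) (nat_lit 9332681421) (nat_lit 76) (nat_lit 4412568142) (nat_lit 142) (nat_lit 5) (nat_lit 146) (nat_lit 5) (nat_lit 143) (nat_lit 5) (nat_lit 498) (nat_lit 432) (nat_lit 270)) (XT.lf (nat_lit 0) (nat_lit 10535565755) (nat_lit 228) (nat_lit 16345409290) (nat_lit 304) (nat_lit 5893372959) (nat_lit 139) (nat_lit 5) (nat_lit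 142) (nat_lit 5) (nat_lit 143) (nat_lit 5) (nat_lit 499) (nat_lit 432) (nat_lit 269)))) (XT.nd (nat_lit 156) (nat_lit 228) (nat_lit 0) (XT.nd (nat_lit 78) (nat_lit 228) (nat_lit 0) (XT.lf (nat_lit 0) (nat_lit 2240617594) (nat_lit 304) (nat_lit 2235874757) (nat_lit 76) (nat_lit 28918445475) (nat_lit 138) (nat_lit 5) (nat_lit 142) (nat_lit 5) (nat_lit 139) (nat_lit 5) (nat_lit 500) (nat_lit 432) (nat_lit 268)) (XT.lf (nat_lit 0) (nat_lit 10750750961) (nat_lit 304) (nat_lit 15440337479) (nat_lit 76) (nat_lit 7833789395) (nat_lit 135) (nat_lit 5) (nat_lit 139) (nat_lit 5) (nat_lit 136) (nat_lit 5) (nat_lit 501) (nat_lit 432) (nat_lit 267))) (XT.nd (nat_lit 78) (nat_lit 0) (nat_lit 0) (XT.lf (nat_lit 0) (nat_lit 5454903235) (nat_lit 228) (nat_lit 14175250124) (nat_lit 304) (nat_lit 15040143949) (nat_lit 132) (nat_lit 5) (nat_lit 135) (nat_lit 5) (nat_lit 136) (nat_lit 5) (nat_lit 502) (nat_lit 432) (nat_lit 266)) (XT.lf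 (nat_lit 0) (nat_lit 27284245922) (nat_lit 228) (nat_lit 1642088854) (nat_lit 304) (nat_lit 6404232887) (nat_lit 132) (nat_lit 5) (nat_lit 135) (nat_lit 5) (nat_lit 136) (nat_lit 5) (nat_lit 503) (nat_lit 432) (nat_lit 265))))) (XT.nd (nat_lit 312) (nat_lit 456) (nat_lit 0) (XT.nd (nat_lit 156) (nat_lit 380) (nat_lit 0) (XT.nd (nat_lit 78) (nat_lit 0) (nat_lit 0) (XT.lf (nat_lit 0) (nat_lit 2681135597) (nat_lit 228) (nat_lit 22117968484) (nat_lit 76) (nat_lit 11203654453) (nat_lit 129) (nat_lit 5) (nat_lit 132) (nat_lit 5) (nat_lit 130) (nat_lit 5) (nat_lit 504) (nat_lit 432) (nat_lit 264)) (XT.lf (nat_lit 0) (nat_lit 12003284254) (nat_lit 228) (nat_lit 143512586) (nat_lit 76) (nat_lit 24543628100) (nat_lit 129) (nat_lit 5) (nat_lit 132) (nat_lit 5) (nat_lit 130) (nat_lit 5) (nat_lit 505) (nat_lit 432) (nat_lit 263))) (XT.nd (nat_lit 78) (nat_lit 152) (nat_lit 0) (XT.lf (nat_lit 0) (nat_lit 21830936936) (nat_lit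 304) (nat_lit 14474196680) (nat_lit 76) (nat_lit 1086812719) (nat_lit 126) (nat_lit 5) (nat_lit 130) (nat_lit 5) (nat_lit 127) (nat_lit 5) (nat_lit 506) (nat_lit 432) (nat_lit 262)) (XT.lf (nat_lit 0) (nat_lit 8597910809) (nat_lit 152) (nat_lit 23554697878) (nat_lit 228) (nat_lit 5955929179) (nat_lit 124) (nat_lit 5) (nat_lit 126) (nat_lit 5) (nat_lit 127) (nat_lit 5) (nat_lit 507) (nat_lit 432) (nat_lit 261)))) (XT.nd (nat_lit 156) (nat_lit 152) (nat_lit 0) (XT.nd (nat_lit 78) (nat_lit 228) (nat_lit 0) (XT.lf (nat_lit 0) (nat_lit 4002908309) (nat_lit 228) (nat_lit 6231572106) (nat_lit 76) (nat_lit 28606738390) (nat_lit 123) (nat_lit 5) (nat_lit 126) (nat_lit 5) (nat_lit 124) (nat_lit 5) (nat_lit 508) (nat_lit 432) (nat_lit 260)) (XT.lf (nat_lit 0) (nat_lit 14344864983) (nat_lit 304) (nat_lit 21594777706) (nat_lit 76) (nat_lit 3648346688) (nat_lit 120) (nat_lit 5) (nat_lit 124) (nat_lit 5) (nat_lit 121) (nat_lit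 5) (nat_lit 509) (nat_lit 432) (nat_lit 259))) (XT.nd (nat_lit 78) (nat_lit 0) (nat_lit 0) (XT.lf (nat_lit 0) (nat_lit 2658433392) (nat_lit 152) (nat_lit 22524089975) (nat_lit 228) (nat_lit 15169076568) (nat_lit 118) (nat_lit 5) (nat_lit 120) (nat_lit 5) (nat_lit 121) (nat_lit 5) (nat_lit 510) (nat_lit 432) (nat_lit 258)) (XT.lf (nat_lit 0) (nat_lit 28073305309) (nat_lit 152) (nat_lit 8485141122) (nat_lit 228) (nat_lit 4573278487) (nat_lit 118) (nat_lit 5) (nat_lit 120) (nat_lit 5) (nat_lit 121) (nat_lit 5) (nat_lit 511) (nat_lit 432) (nat_lit 257)))))) (XT.nd (nat_lit 624) (nat_lit 912) (nat_lit 0) (XT.nd (nat_lit 312) (nat_lit 456) (nat_lit 0) (XT.nd (nat_lit 156) (nat_lit 304) (nat_lit 0) (XT.nd (nat_lit 78) (nat_lit 0) (nat_lit 0) (XT.lf (nat_lit 0) (nat_lit 6391086690) (nat_lit 304) (nat_lit 29499473257) (nat_lit 76) (nat_lit 6037632903) (nat_lit 114) (nat_lit 5) (nat_lit 118) (nat_lit 5) (nat_lit 115) (nat_lit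 5) (nat_lit 512) (nat_lit 432) (nat_lit 256)) (XT.lf (nat_lit 0) (nat_lit 17804837609) (nat_lit 304) (nat_lit 3935516833) (nat_lit 76) (nat_lit 21000470928) (nat_lit 114) (nat_lit 5) (nat_lit 118) (nat_lit 5) (nat_lit 115) (nat_lit 5) (nat_lit 513) (nat_lit 432) (nat_lit 255))) (XT.nd (nat_lit 78) (nat_lit 152) (nat_lit 0) (XT.lf (nat_lit 0) (nat_lit 22832674107) (nat_lit 152) (nat_lit 6943140457) (nat_lit 228) (nat_lit 13795578032) (nat_lit 112) (nat_lit 5) (nat_lit 114) (nat_lit 5) (nat_lit 115) (nat_lit 5) (nat_lit 514) (nat_lit 432) (nat_lit 254)) (XT.lf (nat_lit 0) (nat_lit 6089310352) (nat_lit 152) (nat_lit 36190399940) (nat_lit 228) (nat_lit 2141952997) (nat_lit 110) (nat_lit 5) (nat_lit 112) (nat_lit 5) (nat_lit 113) (nat_lit 5) (nat_lit 515) (nat_lit 432) (nat_lit 253)))) (XT.nd (nat_lit 156) (nat_lit 228) (nat_lit 0) (XT.nd (nat_lit 78) (nat_lit 152) (nat_lit 0) (XT.lf (nat_lit 0) (nat_lit 9944456109)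 (nat_lit 228) (nat_lit 11317733132) (nat_lit 76) (nat_lit 24024141074) (nat_lit 109) (nat_lit 5) (nat_lit 112) (nat_lit 5) (nat_lit 110) (nat_lit 5) (nat_lit 516) (nat_lit 432) (nat_lit 252)) (XT.lf (nat_lit 0) (nat_lit 16806037930) (nat_lit 152) (nat_lit 5701419895) (nat_lit 228) (nat_lit 23664131881) (nat_lit 107) (nat_lit 5) (nat_lit 109) (nat_lit 5) (nat_lit 110) (nat_lit 5) (nat_lit 517) (nat_lit 432) (nat_lit 251))) (XT.nd (nat_lit 78) (nat_lit 228) (nat_lit 0) (XT.lf (nat_lit 0) (nat_lit 35657552047) (nat_lit 228) (nat_lit 1182894034) (nat_lit 76) (nat_lit 10236654843) (nat_lit 107) (nat_lit 5) (nat_lit 110) (nat_lit 5) (nat_lit 108) (nat_lit 5) (nat_lit 518) (nat_lit 432) (nat_lit 250)) (XT.lf (nat_lit 0) (nat_lit 1496781736) (nat_lit 228) (nat_lit 19680841132) (nat_lit 76) (nat_lit 26821980541) (nat_lit 104) (nat_lit 5) (nat_lit 107) (nat_lit 5) (nat_lit 105) (nat_lit 5) (nat_lit 519) (nat_lit 432) (nat_lit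 249))))) (XT.nd (nat_lit 312) (nat_lit 380) (nat_lit 0) (XT.nd (nat_lit 156) (nat_lit 380) (nat_lit 0) (XT.nd (nat_lit 78) (nat_lit 0) (nat_lit 0) (XT.lf (nat_lit 0) (nat_lit 9851526762) (nat_lit 152) (nat_lit 4821978489) (nat_lit 228) (nat_lit 34269811143) (nat_lit 102) (nat_lit 5) (nat_lit 104) (nat_lit 5) (nat_lit 105) (nat_lit 5) (nat_lit 520) (nat_lit 432) (nat_lit 248)) (XT.lf (nat_lit 0) (nat_lit 28557502483) (nat_lit 228) (nat_lit 9361469401) (nat_lit 76) (nat_lit 11987009828) (nat_lit 102) (nat_lit 5) (nat_lit 105) (nat_lit 5) (nat_lit 103) (nat_lit 5) (nat_lit 521) (nat_lit 432) (nat_lit 247))) (XT.nd (nat_lit 78) (nat_lit 228) (nat_lit 0) (XT.lf (nat_lit 0) (nat_lit 21627434162) (nat_lit 152) (nat_lit 21482030890) (nat_lit 228) (nat_lit 7780518679) (nat_lit 100) (nat_lit 5) (nat_lit 102) (nat_lit 5) (nat_lit 103) (nat_lit 5) (nat_lit 522) (nat_lit 432) (nat_lit 246)) (XT.lf (nat_lit 0) (nat_lit 1804342264)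 (nat_lit 152) (nat_lit 4377890159) (nat_lit 228) (nat_lit 45716228277) (nat_lit 97) (nat_lit 5) (nat_lit 99) (nat_lit 5) (nat_lit 100) (nat_lit 5) (nat_lit 523) (nat_lit 432) (nat_lit 245)))) (XT.nd (nat_lit 156) (nat_lit 228) (nat_lit 0) (XT.nd (nat_lit 78) (nat_lit 152) (nat_lit 0) (XT.lf (nat_lit 0) (nat_lit 20829002379) (nat_lit 228) (nat_lit 18740096632) (nat_lit 76) (nat_lit 13353136506) (nat_lit 97) (nat_lit 5) (nat_lit 100) (nat_lit 5) (nat_lit 98) (nat_lit 5) (nat_lit 524) (nat_lit 432) (nat_lit 244)) (XT.lf (nat_lit 0) (nat_lit 13772536225) (nat_lit 152) (nat_lit 22314328104) (nat_lit 228) (nat_lit 17884708673) (nat_lit 95) (nat_lit 5) (nat_lit 97) (nat_lit 5) (nat_lit 98) (nat_lit 5) (nat_lit 525) (nat_lit 432) (nat_lit 243))) (XT.nd (nat_lit 78) (nat_lit 228) (nat_lit 0) (XT.lf (nat_lit 0) (nat_lit 47637358441) (nat_lit 152) (nat_lit 4350342610) (nat_lit 228) (nat_lit 3059132481) (nat_lit 95) (nat_lit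 5) (nat_lit 97) (nat_lit 5) (nat_lit 98) (nat_lit 5) (nat_lit 526) (nat_lit 432) (nat_lit 242)) (XT.lf (nat_lit 0) (nat_lit 12365972523) (nat_lit 228) (nat_lit 29521555890) (nat_lit 76) (nat_lit 14251510712) (nat_lit 92) (nat_lit 5) (nat_lit 95) (nat_lit 5) (nat_lit 93) (nat_lit 5) (nat_lit 527) (nat_lit 432) (nat_lit 241))))))) (XT.nd (nat_lit 1248) (nat_lit 608) (nat_lit 0) (XT.nd (nat_lit 624) (nat_lit 684) (nat_lit 0) (XT.nd (nat_lit 312) (nat_lit 456) (nat_lit 0) (XT.nd (nat_lit 156) (nat_lit 152) (nat_lit 0) (XT.nd (nat_lit 78) (nat_lit 0) (nat_lit 0) (XT.lf (nat_lit 0) (nat_lit 4563089581) (nat_lit 152) (nat_lit 23787846347) (nat_lit 228) (nat_lit 28907408662) (nat_lit 90) (nat_lit 5) (nat_lit 92) (nat_lit 5) (nat_lit 93) (nat_lit 5) (nat_lit 528) (nat_lit 432) (nat_lit 240)) (XT.lf (nat_lit 0) (nat_lit 40268286347) (nat_lit 152) (nat_lit 4841409678) (nat_lit 228) (nat_lit 13292705839) (nat_lit 90) (nat_lit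 5) (nat_lit 92) (nat_lit 5) (nat_lit 93) (nat_lit 5) (nat_lit 529) (nat_lit 432) (nat_lit 239))) (XT.nd (nat_lit 78) (nat_lit 0) (nat_lit 0) (XT.lf (nat_lit 0) (nat_lit 3046058648) (nat_lit 152) (nat_lit 41941031579) (nat_lit 76) (nat_lit 14583583838) (nat_lit 88) (nat_lit 5) (nat_lit 90) (nat_lit 5) (nat_lit 89) (nat_lit 5) (nat_lit 530) (nat_lit 432) (nat_lit 238)) (XT.lf (nat_lit 0) (nat_lit 19836908585) (nat_lit 152) (nat_lit 6118845723) (nat_lit 76) (nat_lit 34807419087) (nat_lit 88) (nat_lit 5) (nat_lit 90) (nat_lit 5) (nat_lit 89) (nat_lit 5) (nat_lit 531) (nat_lit 432) (nat_lit 237)))) (XT.nd (nat_lit 156) (nat_lit 228) (nat_lit 0) (XT.nd (nat_lit 78) (nat_lit 76) (nat_lit 0) (XT.lf (nat_lit 0) (nat_lit 31383586378) (nat_lit 152) (nat_lit 6045911718) (nat_lit 228) (nat_lit 24553009254) (nat_lit 86) (nat_lit 5) (nat_lit 88) (nat_lit 5) (nat_lit 89) (nat_lit 5) (nat_lit 532) (nat_lit 432) (nat_lit 236)) (XT.lf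 (nat_lit 0) (nat_lit 6887902165) (nat_lit 76) (nat_lit 48925931563) (nat_lit 152) (nat_lit 7416668612) (nat_lit 85) (nat_lit 5) (nat_lit 86) (nat_lit 5) (nat_lit 87) (nat_lit 4) (nat_lit 533) (nat_lit 432) (nat_lit 235))) (XT.nd (nat_lit 78) (nat_lit 152) (nat_lit 0) (XT.lf (nat_lit 0) (nat_lit 10402326525) (nat_lit 152) (nat_lit 18548226035) (nat_lit 76) (nat_lit 35551385632) (nat_lit 84) (nat_lit 5) (nat_lit 86) (nat_lit 5) (nat_lit 85) (nat_lit 5) (nat_lit 534) (nat_lit 432) (nat_lit 234)) (XT.lf (nat_lit 0) (nat_lit 20703910747) (nat_lit 152) (nat_lit 8098390879) (nat_lit 228) (nat_lit 37001148250) (nat_lit 82) (nat_lit 5) (nat_lit 84) (nat_lit 5) (nat_lit 85) (nat_lit 5) (nat_lit 535) (nat_lit 432) (nat_lit 233))))) (XT.nd (nat_lit 312) (nat_lit 380) (nat_lit 0) (XT.nd (nat_lit 156) (nat_lit 228) (nat_lit 0) (XT.nd (nat_lit 78) (nat_lit 76) (nat_lit 0) (XT.lf (nat_lit 0) (nat_lit 48068510968) (nat_lit 228)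 (nat_lit 5761675083) (nat_lit 76) (nat_lit 13304393870) (nat_lit 82) (nat_lit 5) (nat_lit 85) (nat_lit 5) (nat_lit 83) (nat_lit 4) (nat_lit 536) (nat_lit 432) (nat_lit 232)) (XT.lf (nat_lit 0) (nat_lit 35359676815) (nat_lit 76) (nat_lit 32969682990) (nat_lit 152) (nat_lit 163784524) (nat_lit 81) (nat_lit 5) (nat_lit 82) (nat_lit 5) (nat_lit 83) (nat_lit 4) (nat_lit 537) (nat_lit 432) (nat_lit 231))) (XT.nd (nat_lit 78) (nat_lit 0) (nat_lit 0) (XT.lf (nat_lit 0) (nat_lit 7903668311) (nat_lit 152) (nat_lit 11156488534) (nat_lit 228) (nat_lit 50822802284) (nat_lit 78) (nat_lit 5) (nat_lit 80) (nat_lit 5) (nat_lit 81) (nat_lit 5) (nat_lit 538) (nat_lit 432) (nat_lit 230)) (XT.lf (nat_lit 0) (nat_lit 39300735704) (nat_lit 228) (nat_lit 20573447313) (nat_lit 76) (nat_lit 11426940426) (nat_lit 78) (nat_lit 5) (nat_lit 81) (nat_lit 5) (nat_lit 79) (nat_lit 4) (nat_lit 539) (nat_lit 432) (nat_lit 229)))) (XT.nd (nat_lit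 156) (nat_lit 228) (nat_lit 0) (XT.nd (nat_lit 78) (nat_lit 76) (nat_lit 0) (XT.lf (nat_lit 0) (nat_lit 22394828889) (nat_lit 76) (nat_lit 38076121714) (nat_lit 152) (nat_lit 12281209576) (nat_lit 77) (nat_lit 5) (nat_lit 78) (nat_lit 5) (nat_lit 79) (nat_lit 4) (nat_lit 540) (nat_lit 432) (nat_lit 228)) (XT.lf (nat_lit 0) (nat_lit 8079356832) (nat_lit 152) (nat_lit 7252138827) (nat_lit 76) (nat_lit 58906721912) (nat_lit 76) (nat_lit 5) (nat_lit 78) (nat_lit 5) (nat_lit 77) (nat_lit 5) (nat_lit 541) (nat_lit 432) (nat_lit 227))) (XT.nd (nat_lit 78) (nat_lit 76) (nat_lit 0) (XT.lf (nat_lit 0) (nat_lit 29246200865) (nat_lit 228) (nat_lit 38081758563) (nat_lit 76) (nat_lit 8423980397) (nat_lit 74) (nat_lit 5) (nat_lit 77) (nat_lit 5) (nat_lit 75) (nat_lit 4) (nat_lit 542) (nat_lit 432) (nat_lit 226)) (XT.lf (nat_lit 0) (nat_lit 6753095956) (nat_lit 76) (nat_lit 44582417704) (nat_lit 152) (nat_lit 25966936230) (nat_lit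 73) (nat_lit 5) (nat_lit 74) (nat_lit 5) (nat_lit 75) (nat_lit 4) (nat_lit 543) (nat_lit 432) (nat_lit 225)))))) (XT.nd (nat_lit 53898) (nat_lit 0) (nat_lit 19836) (XT.nd (nat_lit 312) (nat_lit 304) (nat_lit 0) (XT.nd (nat_lit 156) (nat_lit 76) (nat_lit 0) (XT.nd (nat_lit 78) (nat_lit 228) (nat_lit 0) (XT.lf (nat_lit 0) (nat_lit 53707579652) (nat_lit 76) (nat_lit 20761306556) (nat_lit 152) (nat_lit 4419147682) (nat_lit 73) (nat_lit 5) (nat_lit 74) (nat_lit 5) (nat_lit 75) (nat_lit 4) (nat_lit 544) (nat_lit 432) (nat_lit 224)) (XT.lf (nat_lit 0) (nat_lit 17674667578) (nat_lit 228) (nat_lit 58751822411) (nat_lit 76) (nat_lit 4082176053) (nat_lit 70) (nat_lit 5) (nat_lit 73) (nat_lit 5) (nat_lit 71) (nat_lit 4) (nat_lit 545) (nat_lit 432) (nat_lit 223))) (XT.nd (nat_lit 78) (nat_lit 76) (nat_lit 0) (XT.lf (nat_lit 0) (nat_lit 40801723190) (nat_lit 228) (nat_lit 11809630665) (nat_lit 76) (nat_lit 29551473336) (nat_lit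 70) (nat_lit 5) (nat_lit 73) (nat_lit 5) (nat_lit 71) (nat_lit 4) (nat_lit 546) (nat_lit 432) (nat_lit 222)) (XT.lf (nat_lit 0) (nat_lit 37262171465) (nat_lit 76) (nat_lit 27715594261) (nat_lit 152) (nat_lit 18878192228) (nat_lit 69) (nat_lit 5) (nat_lit 70) (nat_lit 5) (nat_lit 71) (nat_lit 4) (nat_lit 547) (nat_lit 432) (nat_lit 221)))) (XT.nd (nat_lit 156) (nat_lit 76) (nat_lit 0) (XT.nd (nat_lit 78) (nat_lit 0) (nat_lit 0) (XT.lf (nat_lit 0) (nat_lit 2451656205) (nat_lit 152) (nat_lit 1885041307) (nat_lit 228) (nat_lit 81257721336) (nat_lit 66) (nat_lit 5) (nat_lit 68) (nat_lit 5) (nat_lit 69) (nat_lit 5) (nat_lit 548) (nat_lit 432) (nat_lit 220)) (XT.lf (nat_lit 0) (nat_lit 28578391134) (nat_lit 228) (nat_lit 33882312526) (nat_lit 76) (nat_lit 24897428856) (nat_lit 66) (nat_lit 5) (nat_lit 69) (nat_lit 5) (nat_lit 67) (nat_lit 4) (nat_lit 549) (nat_lit 432) (nat_lit 219))) (XT.nd (nat_lit 53352) (nat_lit 0)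 (nat_lit 19836) (XT.lf (nat_lit 0) (nat_lit 17166654947) (nat_lit 76) (nat_lit 36561446142) (nat_lit 152) (nat_lit 35441233575) (nat_lit 65) (nat_lit 5) (nat_lit 66) (nat_lit 5) (nat_lit 67) (nat_lit 4) (nat_lit 550) (nat_lit 432) (nat_lit 218)) (XT.lf (nat_lit 0) (nat_lit 1036139646) (nat_lit 0) (nat_lit 1036139646) (nat_lit 1140) (nat_lit 3503299257) (nat_lit 326) (nat_lit 5) (nat_lit 326) (nat_lit 3) (nat_lit 341) (nat_lit 3) (nat_lit 433) (nat_lit 433) (nat_lit 334))))) (XT.nd (nat_lit 312) (nat_lit 0) (nat_lit 152) (XT.nd (nat_lit 156) (nat_lit 0) (nat_lit 76) (XT.nd (nat_lit 78) (nat_lit 0) (nat_lit 0) (XT.lf (nat_lit 0) (nat_lit 4790861277) (nat_lit 1140) (nat_lit 3570481889) (nat_lit 1216) (nat_lit 2939503829) (nat_lit 326) (nat_lit 5) (nat_lit 341) (nat_lit 3) (nat_lit 342) (nat_lit 5) (nat_lit 434) (nat_lit 433) (nat_lit 333)) (XT.lf (nat_lit 76) (nat_lit 2112273727) (nat_lit 0) (nat_lit 3363533153) (nat_lit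 1216) (nat_lit 5978645178) (nat_lit 327) (nat_lit 5) (nat_lit 326) (nat_lit 5) (nat_lit 342) (nat_lit 5) (nat_lit 435) (nat_lit 433) (nat_lit 332))) (XT.nd (nat_lit 78) (nat_lit 0) (nat_lit 0) (XT.lf (nat_lit 0) (nat_lit 6213905238) (nat_lit 1140) (nat_lit 3602592665) (nat_lit 1216) (nat_lit 1795191263) (nat_lit 327) (nat_lit 5) (nat_lit 342) (nat_lit 5) (nat_lit 343) (nat_lit 5) (nat_lit 436) (nat_lit 433) (nat_lit 331)) (XT.lf (nat_lit 76) (nat_lit 2309087835) (nat_lit 0) (nat_lit 4700209435) (nat_lit 1216) (nat_lit 4763293560) (nat_lit 328) (nat_lit 5) (nat_lit 327) (nat_lit 5) (nat_lit 343) (nat_lit 5) (nat_lit 437) (nat_lit 433) (nat_lit 330)))) (XT.nd (nat_lit 156) (nat_lit 0) (nat_lit 0) (XT.nd (nat_lit 78) (nat_lit 0) (nat_lit 0) (XT.lf (nat_lit 0) (nat_lit 7850975535) (nat_lit 1140) (nat_lit 3483504057) (nat_lit 1216) (nat_lit 603169127) (nat_lit 328) (nat_lit 5) (nat_lit 343) (nat_lit 5) (nat_lit 344)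 (nat_lit 5) (nat_lit 438) (nat_lit 433) (nat_lit 329)) (XT.lf (nat_lit 76) (nat_lit 2669400128) (nat_lit 0) (nat_lit 6101487182) (nat_lit 1216) (nat_lit 3335183391) (nat_lit 329) (nat_lit 5) (nat_lit 328) (nat_lit 5) (nat_lit 344) (nat_lit 5) (nat_lit 439) (nat_lit 433) (nat_lit 328))) (XT.nd (nat_lit 78) (nat_lit 0) (nat_lit 76) (XT.lf (nat_lit 76) (nat_lit 9066370368) (nat_lit 0) (nat_lit 668434106) (nat_lit 1216) (nat_lit 2544250429) (nat_lit 329) (nat_lit 5) (nat_lit 328) (nat_lit 5) (nat_lit 344) (nat_lit 5) (nat_lit 440) (nat_lit 433) (nat_lit 327)) (XT.lf (nat_lit 76) (nat_lit 3200921119) (nat_lit 0) (nat_lit 7586696406) (nat_lit 1216) (nat_lit 1667813499) (nat_lit 330) (nat_lit 5) (nat_lit 329) (nat_lit 5) (nat_lit 345) (nat_lit 5) (nat_lit 441) (nat_lit 433) (nat_lit 326))))))))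
noncomputable def xc168 : XT := (XT.nd (nat_lit 2418) (nat_lit 6156) (nat_lit 0) (XT.nd (nat_lit 1170) (nat_lit 4560) (nat_lit 0) (XT.nd (nat_lit 546) (nat_lit 3116) (nat_lit 0) (XT.nd (nat_lit 234) (nat_lit 0) (nat_lit 76) (XT.nd (nat_lit 78) (nat_lit 1140) (nat_lit 0) (XT.lf (nat_lit 76) (nat_lit 9853967246) (nat_lit 0) (nat_lit 2039297573) (nat_lit 1216) (nat_lit 743197810) (nat_lit 330) (nat_lit 5) (nat_lit 329) (nat_lit 5) (nat_lit 345) (nat_lit 5) (nat_lit 442) (nat_lit 433) (nat_lit 325)) (XT.nd (nat_lit 78) (nat_lit 0) (nat_lit 0) (XT.lf (nat_lit 0) (nat_lit 261380130) (nat_lit 1216) (nat_lit 8911408181) (nat_lit 1292) (nat_lit 3648388999) (nat_lit 314) (nat_lit 5) (nat_lit 330) (nat_lit 5) (nat_lit 331) (nat_lit 5) (nat_lit 443) (nat_lit 433) (nat_lit 324)) (XT.lf (nat_lit 0) (nat_lit 1312764817) (nat_lit 1216) (nat_lit 2191091139) (nat_lit 1292) (nat_lit 9506410065) (nat_lit 314) (nat_lit 5) (nat_lit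 330) (nat_lit 5) (nat_lit 331) (nat_lit 5) (nat_lit 444) (nat_lit 433) (nat_lit 323)))) (XT.nd (nat_lit 156) (nat_lit 0) (nat_lit 76) (XT.nd (nat_lit 78) (nat_lit 0) (nat_lit 0) (XT.lf (nat_lit 0) (nat_lit 2448432978) (nat_lit 1216) (nat_lit 8414483411) (nat_lit 1292) (nat_lit 2340530254) (nat_lit 315) (nat_lit 5) (nat_lit 331) (nat_lit 5) (nat_lit 332) (nat_lit 5) (nat_lit 445) (nat_lit 433) (nat_lit 322)) (XT.lf (nat_lit 0) (nat_lit 3659144649) (nat_lit 1216) (nat_lit 1425888273) (nat_lit 1292) (nat_lit 8316162020) (nat_lit 315) (nat_lit 5) (nat_lit 331) (nat_lit 5) (nat_lit 332) (nat_lit 5) (nat_lit 446) (nat_lit 433) (nat_lit 321))) (XT.nd (nat_lit 78) (nat_lit 0) (nat_lit 0) (XT.lf (nat_lit 0) (nat_lit 4955973088) (nat_lit 1216) (nat_lit 7737752946) (nat_lit 1292) (nat_lit 909657213) (nat_lit 316) (nat_lit 5) (nat_lit 332) (nat_lit 5) (nat_lit 333) (nat_lit 5) (nat_lit 447) (nat_lit 433) (nat_lit 320)) (XT.lf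 (nat_lit 0) (nat_lit 6341368239) (nat_lit 1216) (nat_lit 469128654) (nat_lit 1292) (nat_lit 6999651832) (nat_lit 316) (nat_lit 5) (nat_lit 332) (nat_lit 5) (nat_lit 333) (nat_lit 5) (nat_lit 448) (nat_lit 433) (nat_lit 319))))) (XT.nd (nat_lit 312) (nat_lit 1292) (nat_lit 0) (XT.nd (nat_lit 156) (nat_lit 836) (nat_lit 0) (XT.nd (nat_lit 78) (nat_lit 1140) (nat_lit 0) (XT.lf (nat_lit 76) (nat_lit 7144782835) (nat_lit 0) (nat_lit 677439674) (nat_lit 1292) (nat_lit 6199279078) (nat_lit 317) (nat_lit 5) (nat_lit 316) (nat_lit 5) (nat_lit 333) (nat_lit 5) (nat_lit 449) (nat_lit 433) (nat_lit 318)) (XT.lf (nat_lit 0) (nat_lit 704636319) (nat_lit 1216) (nat_lit 8694189834) (nat_lit 1292) (nat_lit 4838830470) (nat_lit 301) (nat_lit 5) (nat_lit 317) (nat_lit 5) (nat_lit 318) (nat_lit 5) (nat_lit 450) (nat_lit 433) (nat_lit 317))) (XT.nd (nat_lit 78) (nat_lit 836) (nat_lit 0) (XT.lf (nat_lit 0) (nat_lit 8635149251) (nat_lit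 1216) (nat_lit 2449517847) (nat_lit 1292) (nat_lit 3373772298) (nat_lit 301) (nat_lit 5) (nat_lit 317) (nat_lit 5) (nat_lit 318) (nat_lit 5) (nat_lit 451) (nat_lit 433) (nat_lit 316)) (XT.lf (nat_lit 0) (nat_lit 2108110624) (nat_lit 836) (nat_lit 10757803673) (nat_lit 912) (nat_lit 1818587648) (nat_lit 290) (nat_lit 5) (nat_lit 301) (nat_lit 5) (nat_lit 302) (nat_lit 5) (nat_lit 452) (nat_lit 433) (nat_lit 315)))) (XT.nd (nat_lit 156) (nat_lit 608) (nat_lit 0) (XT.nd (nat_lit 78) (nat_lit 684) (nat_lit 0) (XT.lf (nat_lit 0) (nat_lit 10359736187) (nat_lit 836) (nat_lit 4410246556) (nat_lit 912) (nat_lit 145283303) (nat_lit 290) (nat_lit 5) (nat_lit 301) (nat_lit 5) (nat_lit 302) (nat_lit 5) (nat_lit 453) (nat_lit 433) (nat_lit 314)) (XT.lf (nat_lit 0) (nat_lit 1591282794) (nat_lit 684) (nat_lit 11421042114) (nat_lit 76) (nat_lit 2138858376) (nat_lit 281) (nat_lit 5) (nat_lit 290) (nat_lit 5) (nat_lit 282) (nat_lit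 5) (nat_lit 454) (nat_lit 433) (nat_lit 313))) (XT.nd (nat_lit 78) (nat_lit 608) (nat_lit 0) (XT.lf (nat_lit 0) (nat_lit 3454249620) (nat_lit 684) (nat_lit 3093124132) (nat_lit 76) (nat_lit 8844445508) (nat_lit 281) (nat_lit 5) (nat_lit 290) (nat_lit 5) (nat_lit 282) (nat_lit 5) (nat_lit 455) (nat_lit 433) (nat_lit 312)) (XT.lf (nat_lit 0) (nat_lit 5415840053) (nat_lit 684) (nat_lit 10058671698) (nat_lit 76) (nat_lit 163881584) (nat_lit 273) (nat_lit 5) (nat_lit 282) (nat_lit 5) (nat_lit 274) (nat_lit 5) (nat_lit 456) (nat_lit 433) (nat_lit 311)))))) (XT.nd (nat_lit 624) (nat_lit 2280) (nat_lit 0) (XT.nd (nat_lit 312) (nat_lit 1140) (nat_lit 0) (XT.nd (nat_lit 156) (nat_lit 608) (nat_lit 0) (XT.nd (nat_lit 78) (nat_lit 532) (nat_lit 0) (XT.lf (nat_lit 0) (nat_lit 7520374866) (nat_lit 684) (nat_lit 1392823321) (nat_lit 76) (nat_lit 6976644571) (nat_lit 273) (nat_lit 5) (nat_lit 282) (nat_lit 5) (nat_lit 274) (nat_lit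 5) (nat_lit 457) (nat_lit 433) (nat_lit 310)) (XT.lf (nat_lit 0) (nat_lit 7670623969) (nat_lit 532) (nat_lit 2079241379) (nat_lit 608) (nat_lit 6397116722) (nat_lit 266) (nat_lit 5) (nat_lit 273) (nat_lit 5) (nat_lit 274) (nat_lit 5) (nat_lit 458) (nat_lit 433) (nat_lit 309))) (XT.nd (nat_lit 78) (nat_lit 0) (nat_lit 0) (XT.lf (nat_lit 0) (nat_lit 574213485) (nat_lit 608) (nat_lit 11527741483) (nat_lit 684) (nat_lit 4308210127) (nat_lit 258) (nat_lit 5) (nat_lit 266) (nat_lit 5) (nat_lit 267) (nat_lit 5) (nat_lit 459) (nat_lit 433) (nat_lit 308)) (XT.lf (nat_lit 0) (nat_lit 10036894663) (nat_lit 608) (nat_lit 4582230005) (nat_lit 684) (nat_lit 2059284362) (nat_lit 258) (nat_lit 5) (nat_lit 266) (nat_lit 5) (nat_lit 267) (nat_lit 5) (nat_lit 460) (nat_lit 433) (nat_lit 307)))) (XT.nd (nat_lit 156) (nat_lit 532) (nat_lit 0) (XT.nd (nat_lit 78) (nat_lit 0) (nat_lit 0) (XT.lf (nat_lit 0) (nat_lit 293453744) (nat_lit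 608) (nat_lit 14108891640) (nat_lit 76) (nat_lit 2551040786) (nat_lit 250) (nat_lit 5) (nat_lit 258) (nat_lit 5) (nat_lit 251) (nat_lit 5) (nat_lit 461) (nat_lit 433) (nat_lit 306)) (XT.lf (nat_lit 0) (nat_lit 2777448343) (nat_lit 608) (nat_lit 4562037508) (nat_lit 76) (nat_lit 9893454048) (nat_lit 250) (nat_lit 5) (nat_lit 258) (nat_lit 5) (nat_lit 251) (nat_lit 5) (nat_lit 462) (nat_lit 433) (nat_lit 305))) (XT.nd (nat_lit 78) (nat_lit 0) (nat_lit 0) (XT.lf (nat_lit 0) (nat_lit 5364006432) (nat_lit 532) (nat_lit 12804882) (nat_lit 608) (nat_lit 12142844302) (nat_lit 243) (nat_lit 5) (nat_lit 250) (nat_lit 5) (nat_lit 251) (nat_lit 5) (nat_lit 463) (nat_lit 433) (nat_lit 304)) (XT.lf (nat_lit 0) (nat_lit 8162570487) (nat_lit 608) (nat_lit 2217190755) (nat_lit 76) (nat_lit 7431959915) (nat_lit 243) (nat_lit 5) (nat_lit 251) (nat_lit 5) (nat_lit 244) (nat_lit 5) (nat_lit 464) (nat_lit 433) (nat_lit 303))))) (XT.nd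 (nat_lit 312) (nat_lit 836) (nat_lit 0) (XT.nd (nat_lit 156) (nat_lit 532) (nat_lit 0) (XT.nd (nat_lit 78) (nat_lit 456) (nat_lit 0) (XT.lf (nat_lit 0) (nat_lit 8166938169) (nat_lit 456) (nat_lit 2933376511) (nat_lit 532) (nat_lit 7010182401) (nat_lit 237) (nat_lit 5) (nat_lit 243) (nat_lit 5) (nat_lit 244) (nat_lit 5) (nat_lit 465) (nat_lit 433) (nat_lit 302)) (XT.lf (nat_lit 0) (nat_lit 441445349) (nat_lit 456) (nat_lit 13747080242) (nat_lit 532) (nat_lit 4227841423) (nat_lit 231) (nat_lit 5) (nat_lit 237) (nat_lit 5) (nat_lit 238) (nat_lit 5) (nat_lit 466) (nat_lit 433) (nat_lit 301))) (XT.nd (nat_lit 78) (nat_lit 532) (nat_lit 0) (XT.lf (nat_lit 0) (nat_lit 11300433629) (nat_lit 456) (nat_lit 6188248542) (nat_lit 532) (nat_lit 1239152637) (nat_lit 231) (nat_lit 5) (nat_lit 237) (nat_lit 5) (nat_lit 238) (nat_lit 5) (nat_lit 467) (nat_lit 433) (nat_lit 300)) (XT.lf (nat_lit 0) (nat_lit 1842875650) (nat_lit 532)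 (nat_lit 15588198965) (nat_lit 76) (nat_lit 1615855289) (nat_lit 224) (nat_lit 5) (nat_lit 231) (nat_lit 5) (nat_lit 225) (nat_lit 5) (nat_lit 468) (nat_lit 433) (nat_lit 299)))) (XT.nd (nat_lit 156) (nat_lit 380) (nat_lit 0) (XT.nd (nat_lit 78) (nat_lit 456) (nat_lit 0) (XT.lf (nat_lit 0) (nat_lit 5119947702) (nat_lit 532) (nat_lit 4635708346) (nat_lit 76) (nat_lit 9615749756) (nat_lit 224) (nat_lit 5) (nat_lit 231) (nat_lit 5) (nat_lit 225) (nat_lit 5) (nat_lit 469) (nat_lit 433) (nat_lit 298)) (XT.lf (nat_lit 0) (nat_lit 6765947319) (nat_lit 456) (nat_lit 1785174561) (nat_lit 532) (nat_lit 11152821063) (nat_lit 218) (nat_lit 5) (nat_lit 224) (nat_lit 5) (nat_lit 225) (nat_lit 5) (nat_lit 470) (nat_lit 433) (nat_lit 297))) (XT.nd (nat_lit 78) (nat_lit 380) (nat_lit 0) (XT.lf (nat_lit 0) (nat_lit 12185152332) (nat_lit 532) (nat_lit 1514167975) (nat_lit 76) (nat_lit 6344138895) (nat_lit 218) (nat_lit 5) (nat_lit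 225) (nat_lit 5) (nat_lit 219) (nat_lit 5) (nat_lit 471) (nat_lit 433) (nat_lit 296)) (XT.lf (nat_lit 0) (nat_lit 10426926291) (nat_lit 380) (nat_lit 5610338255) (nat_lit 456) (nat_lit 4352625199) (nat_lit 213) (nat_lit 5) (nat_lit 218) (nat_lit 5) (nat_lit 219) (nat_lit 5) (nat_lit 472) (nat_lit 433) (nat_lit 295))))))) (XT.nd (nat_lit 1170) (nat_lit 2812) (nat_lit 0) (XT.nd (nat_lit 546) (nat_lit 1672) (nat_lit 0) (XT.nd (nat_lit 234) (nat_lit 760) (nat_lit 0) (XT.nd (nat_lit 78) (nat_lit 456) (nat_lit 0) (XT.lf (nat_lit 0) (nat_lit 2012633357) (nat_lit 456) (nat_lit 18044536924) (nat_lit 532) (nat_lit 687976622) (nat_lit 207) (nat_lit 5) (nat_lit 213) (nat_lit 5) (nat_lit 214) (nat_lit 5) (nat_lit 473) (nat_lit 433) (nat_lit 294)) (XT.nd (nat_lit 78) (nat_lit 380) (nat_lit 0) (XT.lf (nat_lit 0) (nat_lit 3174874206) (nat_lit 532) (nat_lit 6653958229) (nat_lit 76) (nat_lit 11276884984) (nat_lit 206) (nat_lit 5)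 (nat_lit 213) (nat_lit 5) (nat_lit 207) (nat_lit 5) (nat_lit 474) (nat_lit 433) (nat_lit 293)) (XT.lf (nat_lit 0) (nat_lit 5883861010) (nat_lit 380) (nat_lit 1304076607) (nat_lit 456) (nat_lit 14287518995) (nat_lit 201) (nat_lit 5) (nat_lit 206) (nat_lit 5) (nat_lit 207) (nat_lit 5) (nat_lit 475) (nat_lit 433) (nat_lit 292)))) (XT.nd (nat_lit 156) (nat_lit 380) (nat_lit 0) (XT.nd (nat_lit 78) (nat_lit 380) (nat_lit 0) (XT.lf (nat_lit 0) (nat_lit 11452826511) (nat_lit 456) (nat_lit 3003800933) (nat_lit 76) (nat_lit 7395718065) (nat_lit 201) (nat_lit 5) (nat_lit 207) (nat_lit 5) (nat_lit 202) (nat_lit 5) (nat_lit 476) (nat_lit 433) (nat_lit 291)) (XT.lf (nat_lit 0) (nat_lit 10135614833) (nat_lit 380) (nat_lit 5812338559) (nat_lit 456) (nat_lit 6289519460) (nat_lit 196) (nat_lit 5) (nat_lit 201) (nat_lit 5) (nat_lit 202) (nat_lit 5) (nat_lit 477) (nat_lit 433) (nat_lit 290))) (XT.nd (nat_lit 78) (nat_lit 76) (nat_lit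 0) (XT.lf (nat_lit 0) (nat_lit 1077568301) (nat_lit 304) (nat_lit 19563125462) (nat_lit 380) (nat_lit 1991577968) (nat_lit 192) (nat_lit 5) (nat_lit 196) (nat_lit 5) (nat_lit 197) (nat_lit 5) (nat_lit 478) (nat_lit 433) (nat_lit 289)) (XT.lf (nat_lit 0) (nat_lit 2560845472) (nat_lit 380) (nat_lit 8227999548) (nat_lit 76) (nat_lit 12244175786) (nat_lit 191) (nat_lit 5) (nat_lit 196) (nat_lit 5) (nat_lit 192) (nat_lit 5) (nat_lit 479) (nat_lit 433) (nat_lit 288))))) (XT.nd (nat_lit 312) (nat_lit 684) (nat_lit 0) (XT.nd (nat_lit 156) (nat_lit 608) (nat_lit 0) (XT.nd (nat_lit 78) (nat_lit 0) (nat_lit 0) (XT.lf (nat_lit 0) (nat_lit 5576896373) (nat_lit 380) (nat_lit 1678857385) (nat_lit 456) (nat_lit 16188069273) (nat_lit 186) (nat_lit 5) (nat_lit 191) (nat_lit 5) (nat_lit 192) (nat_lit 5) (nat_lit 480) (nat_lit 433) (nat_lit 287)) (XT.lf (nat_lit 0) (nat_lit 12241902514) (nat_lit 456) (nat_lit 3985542102) (nat_lit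 76) (nat_lit 7634993360) (nat_lit 186) (nat_lit 5) (nat_lit 192) (nat_lit 5) (nat_lit 187) (nat_lit 5) (nat_lit 481) (nat_lit 433) (nat_lit 286))) (XT.nd (nat_lit 78) (nat_lit 304) (nat_lit 0) (XT.lf (nat_lit 0) (nat_lit 10489863316) (nat_lit 304) (nat_lit 6997874626) (nat_lit 380) (nat_lit 6802570794) (nat_lit 182) (nat_lit 5) (nat_lit 186) (nat_lit 5) (nat_lit 187) (nat_lit 5) (nat_lit 482) (nat_lit 433) (nat_lit 285)) (XT.lf (nat_lit 0) (nat_lit 730588438) (nat_lit 304) (nat_lit 22224870475) (nat_lit 380) (nat_lit 1773621817) (nat_lit 178) (nat_lit 5) (nat_lit 182) (nat_lit 5) (nat_lit 183) (nat_lit 5) (nat_lit 483) (nat_lit 433) (nat_lit 284)))) (XT.nd (nat_lit 156) (nat_lit 304) (nat_lit 0) (XT.nd (nat_lit 78) (nat_lit 304) (nat_lit 0) (XT.lf (nat_lit 0) (nat_lit 3542520337) (nat_lit 380) (nat_lit 9310412789) (nat_lit 76) (nat_lit 12321017125) (nat_lit 177) (nat_lit 5) (nat_lit 182) (nat_lit 5) (nat_lit 178)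 (nat_lit 5) (nat_lit 484) (nat_lit 433) (nat_lit 283)) (XT.lf (nat_lit 0) (nat_lit 5905680413) (nat_lit 304) (nat_lit 3126566681) (nat_lit 380) (nat_lit 16597899880) (nat_lit 173) (nat_lit 5) (nat_lit 177) (nat_lit 5) (nat_lit 178) (nat_lit 5) (nat_lit 485) (nat_lit 433) (nat_lit 282))) (XT.nd (nat_lit 78) (nat_lit 304) (nat_lit 0) (XT.lf (nat_lit 0) (nat_lit 14840913680) (nat_lit 380) (nat_lit 4405659635) (nat_lit 76) (nat_lit 6848829221) (nat_lit 173) (nat_lit 5) (nat_lit 178) (nat_lit 5) (nat_lit 174) (nat_lit 5) (nat_lit 486) (nat_lit 433) (nat_lit 281)) (XT.lf (nat_lit 0) (nat_lit 11557196131) (nat_lit 304) (nat_lit 9401951450) (nat_lit 380) (nat_lit 5611409327) (nat_lit 169) (nat_lit 5) (nat_lit 173) (nat_lit 5) (nat_lit 174) (nat_lit 5) (nat_lit 487) (nat_lit 433) (nat_lit 280)))))) (XT.nd (nat_lit 624) (nat_lit 1292) (nat_lit 0) (XT.nd (nat_lit 312) (nat_lit 836) (nat_lit 0) (XT.nd (nat_lit 156) (nat_lit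 304) (nat_lit 0) (XT.nd (nat_lit 78) (nat_lit 0) (nat_lit 0) (XT.lf (nat_lit 0) (nat_lit 252866685) (nat_lit 380) (nat_lit 26027694793) (nat_lit 76) (nat_lit 777672056) (nat_lit 164) (nat_lit 5) (nat_lit 169) (nat_lit 5) (nat_lit 165) (nat_lit 5) (nat_lit 488) (nat_lit 433) (nat_lit 279)) (XT.lf (nat_lit 0) (nat_lit 6419839458) (nat_lit 380) (nat_lit 9852809568) (nat_lit 76) (nat_lit 11279038444) (nat_lit 164) (nat_lit 5) (nat_lit 169) (nat_lit 5) (nat_lit 165) (nat_lit 5) (nat_lit 489) (nat_lit 433) (nat_lit 278))) (XT.nd (nat_lit 78) (nat_lit 0) (nat_lit 0) (XT.lf (nat_lit 0) (nat_lit 6932717593) (nat_lit 304) (nat_lit 5899295899) (nat_lit 380) (nat_lit 15226126093) (nat_lit 160) (nat_lit 5) (nat_lit 164) (nat_lit 5) (nat_lit 165) (nat_lit 5) (nat_lit 490) (nat_lit 433) (nat_lit 277)) (XT.lf (nat_lit 0) (nat_lit 19576642004) (nat_lit 380) (nat_lit 4209948804) (nat_lit 76) (nat_lit 4788992092) (nat_lit 160) (nat_lit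 5) (nat_lit 165) (nat_lit 5) (nat_lit 161) (nat_lit 5) (nat_lit 491) (nat_lit 433) (nat_lit 276)))) (XT.nd (nat_lit 156) (nat_lit 228) (nat_lit 0) (XT.nd (nat_lit 78) (nat_lit 380) (nat_lit 0) (XT.lf (nat_lit 0) (nat_lit 13406531215) (nat_lit 228) (nat_lit 13298156170) (nat_lit 304) (nat_lit 2398430097) (nat_lit 157) (nat_lit 5) (nat_lit 160) (nat_lit 5) (nat_lit 161) (nat_lit 5) (nat_lit 492) (nat_lit 433) (nat_lit 275)) (XT.lf (nat_lit 0) (nat_lit 1978812460) (nat_lit 304) (nat_lit 2391201809) (nat_lit 380) (nat_lit 25273521826) (nat_lit 152) (nat_lit 5) (nat_lit 156) (nat_lit 5) (nat_lit 157) (nat_lit 5) (nat_lit 493) (nat_lit 433) (nat_lit 274))) (XT.nd (nat_lit 78) (nat_lit 228) (nat_lit 0) (XT.lf (nat_lit 0) (nat_lit 11532263171) (nat_lit 380) (nat_lit 9809235415) (nat_lit 76) (nat_lit 8850787837) (nat_lit 152) (nat_lit 5) (nat_lit 157) (nat_lit 5) (nat_lit 153) (nat_lit 5) (nat_lit 494) (nat_lit 433) (nat_lit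 273)) (XT.lf (nat_lit 0) (nat_lit 8718922553) (nat_lit 228) (nat_lit 10292001368) (nat_lit 304) (nat_lit 11743529280) (nat_lit 149) (nat_lit 5) (nat_lit 152) (nat_lit 5) (nat_lit 153) (nat_lit 5) (nat_lit 495) (nat_lit 433) (nat_lit 272))))) (XT.nd (nat_lit 312) (nat_lit 760) (nat_lit 0) (XT.nd (nat_lit 156) (nat_lit 228) (nat_lit 0) (XT.nd (nat_lit 78) (nat_lit 304) (nat_lit 0) (XT.lf (nat_lit 0) (nat_lit 26818554093) (nat_lit 304) (nat_lit 3347463924) (nat_lit 76) (nat_lit 1164328941) (nat_lit 149) (nat_lit 5) (nat_lit 153) (nat_lit 5) (nat_lit 150) (nat_lit 5) (nat_lit 496) (nat_lit 433) (nat_lit 271)) (XT.lf (nat_lit 0) (nat_lit 3133055530) (nat_lit 304) (nat_lit 15842336405) (nat_lit 76) (nat_lit 12939674824) (nat_lit 145) (nat_lit 5) (nat_lit 149) (nat_lit 5) (nat_lit 146) (nat_lit 5) (nat_lit 497) (nat_lit 433) (nat_lit 270))) (XT.nd (nat_lit 78) (nat_lit 0) (nat_lit 0) (XT.lf (nat_lit 0) (nat_lit 3644698292)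 (nat_lit 228) (nat_lit 7335342284) (nat_lit 304) (nat_lit 21534043470) (nat_lit 142) (nat_lit 5) (nat_lit 145) (nat_lit 5) (nat_lit 146) (nat_lit 5) (nat_lit 498) (nat_lit 433) (nat_lit 269)) (XT.lf (nat_lit 0) (nat_lit 19263076917) (nat_lit 304) (nat_lit 9140793527) (nat_lit 76) (nat_lit 4721182390) (nat_lit 142) (nat_lit 5) (nat_lit 146) (nat_lit 5) (nat_lit 143) (nat_lit 5) (nat_lit 499) (nat_lit 433) (nat_lit 268)))) (XT.nd (nat_lit 156) (nat_lit 456) (nat_lit 0) (XT.nd (nat_lit 78) (nat_lit 76) (nat_lit 0) (XT.lf (nat_lit 0) (nat_lit 11318874905) (nat_lit 228) (nat_lit 16651670312) (nat_lit 304) (nat_lit 5778527469) (nat_lit 139) (nat_lit 5) (nat_lit 142) (nat_lit 5) (nat_lit 143) (nat_lit 5) (nat_lit 500) (nat_lit 433) (nat_lit 267)) (XT.lf (nat_lit 0) (nat_lit 2585462919) (nat_lit 304) (nat_lit 1843781633) (nat_lit 76) (nat_lit 29959201737) (nat_lit 138) (nat_lit 5) (nat_lit 142) (nat_lit 5) (nat_lit 139)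 (nat_lit 5) (nat_lit 501) (nat_lit 433) (nat_lit 266))) (XT.nd (nat_lit 78) (nat_lit 228) (nat_lit 0) (XT.lf (nat_lit 0) (nat_lit 11348922157) (nat_lit 304) (nat_lit 15442389554) (nat_lit 76) (nat_lit 8246032448) (nat_lit 135) (nat_lit 5) (nat_lit 139) (nat_lit 5) (nat_lit 136) (nat_lit 5) (nat_lit 502) (nat_lit 433) (nat_lit 265)) (XT.lf (nat_lit 0) (nat_lit 6075187224) (nat_lit 228) (nat_lit 14415880273) (nat_lit 304) (nat_lit 15211168198) (nat_lit 132) (nat_lit 5) (nat_lit 135) (nat_lit 5) (nat_lit 136) (nat_lit 5) (nat_lit 503) (nat_lit 433) (nat_lit 264))))))))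
noncomputable def xc169 : XT := (XT.nd (nat_lit 2418) (nat_lit 1444) (nat_lit 0) (XT.nd (nat_lit 1170) (nat_lit 1672) (nat_lit 0) (XT.nd (nat_lit 546) (nat_lit 988) (nat_lit 0) (XT.nd (nat_lit 234) (nat_lit 456) (nat_lit 0) (XT.nd (nat_lit 78) (nat_lit 456) (nat_lit 0) (XT.lf (nat_lit 0) (nat_lit 28546110089) (nat_lit 228) (nat_lit 1512101661) (nat_lit 304) (nat_lit 6324340389) (nat_lit 132) (nat_lit 5) (nat_lit 135) (nat_lit 5) (nat_lit 136) (nat_lit 5) (nat_lit 504) (nat_lit 433) (nat_lit 263)) (XT.nd (nat_lit 78) (nat_lit 228) (nat_lit 0) (XT.lf (nat_lit 0) (nat_lit 3026523526) (nat_lit 228) (nat_lit 22331086095) (nat_lit 76) (nat_lit 11717273678) (nat_lit 129) (nat_lit 5) (nat_lit 132) (nat_lit 5) (nat_lit 130) (nat_lit 5) (nat_lit 505) (nat_lit 433) (nat_lit 262)) (XT.lf (nat_lit 0) (nat_lit 295245715) (nat_lit 228) (nat_lit 12328211906) (nat_lit 304) (nat_lit 25159868719) (nat_lit 126) (nat_lit 5) (nat_lit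 129) (nat_lit 5) (nat_lit 130) (nat_lit 5) (nat_lit 506) (nat_lit 433) (nat_lit 261)))) (XT.nd (nat_lit 156) (nat_lit 304) (nat_lit 0) (XT.nd (nat_lit 78) (nat_lit 152) (nat_lit 0) (XT.lf (nat_lit 0) (nat_lit 22741493573) (nat_lit 304) (nat_lit 14469503142) (nat_lit 76) (nat_lit 1295030316) (nat_lit 126) (nat_lit 5) (nat_lit 130) (nat_lit 5) (nat_lit 127) (nat_lit 5) (nat_lit 507) (nat_lit 433) (nat_lit 260)) (XT.lf (nat_lit 0) (nat_lit 9290464440) (nat_lit 152) (nat_lit 24079083344) (nat_lit 228) (nat_lit 5874666813) (nat_lit 124) (nat_lit 5) (nat_lit 126) (nat_lit 5) (nat_lit 127) (nat_lit 5) (nat_lit 508) (nat_lit 433) (nat_lit 259))) (XT.nd (nat_lit 78) (nat_lit 228) (nat_lit 0) (XT.lf (nat_lit 0) (nat_lit 4370440092) (nat_lit 228) (nat_lit 5991628972) (nat_lit 76) (nat_lit 29636954881) (nat_lit 123) (nat_lit 5) (nat_lit 126) (nat_lit 5) (nat_lit 124) (nat_lit 5) (nat_lit 509) (nat_lit 433) (nat_lit 258)) (XT.lf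 (nat_lit 0) (nat_lit 15021226577) (nat_lit 304) (nat_lit 21814293998) (nat_lit 76) (nat_lit 3932720162) (nat_lit 120) (nat_lit 5) (nat_lit 124) (nat_lit 5) (nat_lit 121) (nat_lit 5) (nat_lit 510) (nat_lit 433) (nat_lit 257))))) (XT.nd (nat_lit 312) (nat_lit 532) (nat_lit 0) (XT.nd (nat_lit 156) (nat_lit 304) (nat_lit 0) (XT.nd (nat_lit 78) (nat_lit 0) (nat_lit 0) (XT.lf (nat_lit 0) (nat_lit 3162314148) (nat_lit 152) (nat_lit 23018612035) (nat_lit 228) (nat_lit 15373926313) (nat_lit 118) (nat_lit 5) (nat_lit 120) (nat_lit 5) (nat_lit 121) (nat_lit 5) (nat_lit 511) (nat_lit 433) (nat_lit 256)) (XT.lf (nat_lit 0) (nat_lit 29327278987) (nat_lit 152) (nat_lit 8563772405) (nat_lit 228) (nat_lit 4467542325) (nat_lit 118) (nat_lit 5) (nat_lit 120) (nat_lit 5) (nat_lit 121) (nat_lit 5) (nat_lit 512) (nat_lit 433) (nat_lit 255))) (XT.nd (nat_lit 78) (nat_lit 0) (nat_lit 0) (XT.lf (nat_lit 0) (nat_lit 6819743730) (nat_lit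 304) (nat_lit 29966658697) (nat_lit 76) (nat_lit 6392521501) (nat_lit 114) (nat_lit 5) (nat_lit 118) (nat_lit 5) (nat_lit 115) (nat_lit 5) (nat_lit 513) (nat_lit 433) (nat_lit 254)) (XT.lf (nat_lit 0) (nat_lit 18569006464) (nat_lit 304) (nat_lit 3647952475) (nat_lit 76) (nat_lit 21799183707) (nat_lit 114) (nat_lit 5) (nat_lit 118) (nat_lit 5) (nat_lit 115) (nat_lit 5) (nat_lit 514) (nat_lit 433) (nat_lit 253)))) (XT.nd (nat_lit 156) (nat_lit 228) (nat_lit 0) (XT.nd (nat_lit 78) (nat_lit 152) (nat_lit 0) (XT.lf (nat_lit 0) (nat_lit 23919307429) (nat_lit 152) (nat_lit 6976966513) (nat_lit 228) (nat_lit 13975438307) (nat_lit 112) (nat_lit 5) (nat_lit 114) (nat_lit 5) (nat_lit 115) (nat_lit 5) (nat_lit 515) (nat_lit 433) (nat_lit 252)) (XT.lf (nat_lit 0) (nat_lit 6674799574) (nat_lit 152) (nat_lit 37099370234) (nat_lit 228) (nat_lit 1973354949) (nat_lit 110) (nat_lit 5) (nat_lit 112) (nat_lit 5) (nat_lit 113) (nat_lit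 5) (nat_lit 516) (nat_lit 433) (nat_lit 251))) (XT.nd (nat_lit 78) (nat_lit 152) (nat_lit 0) (XT.lf (nat_lit 0) (nat_lit 10464452672) (nat_lit 228) (nat_lit 11261769999) (nat_lit 76) (nat_lit 24912041650) (nat_lit 109) (nat_lit 5) (nat_lit 112) (nat_lit 5) (nat_lit 110) (nat_lit 5) (nat_lit 517) (nat_lit 433) (nat_lit 250)) (XT.lf (nat_lit 0) (nat_lit 17701836792) (nat_lit 152) (nat_lit 5699815916) (nat_lit 228) (nat_lit 24148509713) (nat_lit 107) (nat_lit 5) (nat_lit 109) (nat_lit 5) (nat_lit 110) (nat_lit 5) (nat_lit 518) (nat_lit 433) (nat_lit 249)))))) (XT.nd (nat_lit 624) (nat_lit 760) (nat_lit 0) (XT.nd (nat_lit 312) (nat_lit 532) (nat_lit 0) (XT.nd (nat_lit 156) (nat_lit 152) (nat_lit 0) (XT.nd (nat_lit 78) (nat_lit 228) (nat_lit 0) (XT.lf (nat_lit 0) (nat_lit 36941483204) (nat_lit 228) (nat_lit 833397246) (nat_lit 76) (nat_lit 10708101692) (nat_lit 107) (nat_lit 5) (nat_lit 110) (nat_lit 5) (nat_lit 108)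 (nat_lit 5) (nat_lit 519) (nat_lit 433) (nat_lit 248)) (XT.lf (nat_lit 0) (nat_lit 1755415978) (nat_lit 228) (nat_lit 19885798098) (nat_lit 76) (nat_lit 27791960165) (nat_lit 104) (nat_lit 5) (nat_lit 107) (nat_lit 5) (nat_lit 105) (nat_lit 5) (nat_lit 520) (nat_lit 433) (nat_lit 247))) (XT.nd (nat_lit 78) (nat_lit 0) (nat_lit 0) (XT.lf (nat_lit 0) (nat_lit 10528761731) (nat_lit 152) (nat_lit 4796123327) (nat_lit 228) (nat_lit 35080390397) (nat_lit 102) (nat_lit 5) (nat_lit 104) (nat_lit 5) (nat_lit 105) (nat_lit 5) (nat_lit 521) (nat_lit 433) (nat_lit 246)) (XT.lf (nat_lit 0) (nat_lit 29620842839) (nat_lit 228) (nat_lit 9267177068) (nat_lit 76) (nat_lit 12508937758) (nat_lit 102) (nat_lit 5) (nat_lit 105) (nat_lit 5) (nat_lit 103) (nat_lit 5) (nat_lit 522) (nat_lit 433) (nat_lit 245)))) (XT.nd (nat_lit 156) (nat_lit 152) (nat_lit 0) (XT.nd (nat_lit 78) (nat_lit 228) (nat_lit 0) (XT.lf (nat_lit 0) (nat_lit 22647715794)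 (nat_lit 152) (nat_lit 21959201258) (nat_lit 228) (nat_lit 7803636257) (nat_lit 100) (nat_lit 5) (nat_lit 102) (nat_lit 5) (nat_lit 103) (nat_lit 5) (nat_lit 523) (nat_lit 433) (nat_lit 244)) (XT.lf (nat_lit 0) (nat_lit 2230357531) (nat_lit 152) (nat_lit 4341105303) (nat_lit 228) (nat_lit 46877834172) (nat_lit 97) (nat_lit 5) (nat_lit 99) (nat_lit 5) (nat_lit 100) (nat_lit 5) (nat_lit 524) (nat_lit 433) (nat_lit 243))) (XT.nd (nat_lit 78) (nat_lit 152) (nat_lit 0) (XT.lf (nat_lit 0) (nat_lit 21653270047) (nat_lit 228) (nat_lit 18936875816) (nat_lit 76) (nat_lit 13913770313) (nat_lit 97) (nat_lit 5) (nat_lit 100) (nat_lit 5) (nat_lit 98) (nat_lit 5) (nat_lit 525) (nat_lit 433) (nat_lit 242)) (XT.lf (nat_lit 0) (nat_lit 14547553441) (nat_lit 152) (nat_lit 22818984956) (nat_lit 228) (nat_lit 18218265403) (nat_lit 95) (nat_lit 5) (nat_lit 97) (nat_lit 5) (nat_lit 98) (nat_lit 5) (nat_lit 526) (nat_lit 433) (nat_lit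 241))))) (XT.nd (nat_lit 312) (nat_lit 380) (nat_lit 0) (XT.nd (nat_lit 156) (nat_lit 152) (nat_lit 0) (XT.nd (nat_lit 78) (nat_lit 228) (nat_lit 0) (XT.lf (nat_lit 0) (nat_lit 49417781262) (nat_lit 152) (nat_lit 4320879111) (nat_lit 228) (nat_lit 2953834096) (nat_lit 95) (nat_lit 5) (nat_lit 97) (nat_lit 5) (nat_lit 98) (nat_lit 5) (nat_lit 527) (nat_lit 433) (nat_lit 240)) (XT.lf (nat_lit 0) (nat_lit 12929475625) (nat_lit 228) (nat_lit 30051343989) (nat_lit 76) (nat_lit 14836610988) (nat_lit 92) (nat_lit 5) (nat_lit 95) (nat_lit 5) (nat_lit 93) (nat_lit 5) (nat_lit 528) (nat_lit 433) (nat_lit 239))) (XT.nd (nat_lit 78) (nat_lit 0) (nat_lit 0) (XT.lf (nat_lit 0) (nat_lit 5052352036) (nat_lit 152) (nat_lit 24339415596) (nat_lit 228) (nat_lit 29578614324) (nat_lit 90) (nat_lit 5) (nat_lit 92) (nat_lit 5) (nat_lit 93) (nat_lit 5) (nat_lit 529) (nat_lit 433) (nat_lit 238)) (XT.lf (nat_lit 0) (nat_lit 41818441508)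 (nat_lit 152) (nat_lit 4829306201) (nat_lit 228) (nat_lit 13501179637) (nat_lit 90) (nat_lit 5) (nat_lit 92) (nat_lit 5) (nat_lit 93) (nat_lit 5) (nat_lit 530) (nat_lit 433) (nat_lit 237)))) (XT.nd (nat_lit 156) (nat_lit 228) (nat_lit 0) (XT.nd (nat_lit 78) (nat_lit 0) (nat_lit 0) (XT.lf (nat_lit 0) (nat_lit 3323409736) (nat_lit 152) (nat_lit 42852810733) (nat_lit 76) (nat_lit 15175991204) (nat_lit 88) (nat_lit 5) (nat_lit 90) (nat_lit 5) (nat_lit 89) (nat_lit 5) (nat_lit 531) (nat_lit 433) (nat_lit 236)) (XT.lf (nat_lit 0) (nat_lit 20612568588) (nat_lit 152) (nat_lit 5966050129) (nat_lit 76) (nat_lit 36002029864) (nat_lit 88) (nat_lit 5) (nat_lit 90) (nat_lit 5) (nat_lit 89) (nat_lit 5) (nat_lit 532) (nat_lit 433) (nat_lit 235))) (XT.nd (nat_lit 78) (nat_lit 76) (nat_lit 0) (XT.lf (nat_lit 0) (nat_lit 32658157278) (nat_lit 152) (nat_lit 6072721298) (nat_lit 228) (nat_lit 25105745797) (nat_lit 86) (nat_lit 5) (nat_lit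 88) (nat_lit 5) (nat_lit 89) (nat_lit 5) (nat_lit 533) (nat_lit 433) (nat_lit 234)) (XT.lf (nat_lit 0) (nat_lit 7428171645) (nat_lit 76) (nat_lit 50238023336) (nat_lit 152) (nat_lit 7455880807) (nat_lit 85) (nat_lit 5) (nat_lit 86) (nat_lit 5) (nat_lit 87) (nat_lit 4) (nat_lit 534) (nat_lit 433) (nat_lit 233))))))) (XT.nd (nat_lit 1170) (nat_lit 0) (nat_lit 0) (XT.nd (nat_lit 546) (nat_lit 836) (nat_lit 0) (XT.nd (nat_lit 234) (nat_lit 380) (nat_lit 0) (XT.nd (nat_lit 78) (nat_lit 152) (nat_lit 0) (XT.lf (nat_lit 0) (nat_lit 10888873269) (nat_lit 152) (nat_lit 18777282367) (nat_lit 76) (nat_lit 36765603344) (nat_lit 84) (nat_lit 5) (nat_lit 86) (nat_lit 5) (nat_lit 85) (nat_lit 5) (nat_lit 535) (nat_lit 433) (nat_lit 232)) (XT.nd (nat_lit 78) (nat_lit 0) (nat_lit 0) (XT.lf (nat_lit 0) (nat_lit 21649208808) (nat_lit 152) (nat_lit 8189673185) (nat_lit 228) (nat_lit 37933493079) (nat_lit 82) (nat_lit 5) (nat_lit 84)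 (nat_lit 5) (nat_lit 85) (nat_lit 5) (nat_lit 536) (nat_lit 433) (nat_lit 231)) (XT.lf (nat_lit 0) (nat_lit 49679468489) (nat_lit 228) (nat_lit 5616174754) (nat_lit 76) (nat_lit 13847904136) (nat_lit 82) (nat_lit 5) (nat_lit 85) (nat_lit 5) (nat_lit 83) (nat_lit 4) (nat_lit 537) (nat_lit 433) (nat_lit 230)))) (XT.nd (nat_lit 156) (nat_lit 76) (nat_lit 0) (XT.nd (nat_lit 78) (nat_lit 152) (nat_lit 0) (XT.lf (nat_lit 0) (nat_lit 3263065) (nat_lit 152) (nat_lit 33807260857) (nat_lit 76) (nat_lit 36732400601) (nat_lit 80) (nat_lit 5) (nat_lit 82) (nat_lit 5) (nat_lit 81) (nat_lit 5) (nat_lit 538) (nat_lit 433) (nat_lit 229)) (XT.lf (nat_lit 0) (nat_lit 8456243993) (nat_lit 152) (nat_lit 11342506529) (nat_lit 228) (nat_lit 52175691082) (nat_lit 78) (nat_lit 5) (nat_lit 80) (nat_lit 5) (nat_lit 81) (nat_lit 5) (nat_lit 539) (nat_lit 433) (nat_lit 228))) (XT.nd (nat_lit 78) (nat_lit 76) (nat_lit 0) (XT.lf (nat_lit 0)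 (nat_lit 40643076360) (nat_lit 228) (nat_lit 20880900480) (nat_lit 76) (nat_lit 11911278196) (nat_lit 78) (nat_lit 5) (nat_lit 81) (nat_lit 5) (nat_lit 79) (nat_lit 4) (nat_lit 540) (nat_lit 433) (nat_lit 227)) (XT.lf (nat_lit 0) (nat_lit 23373387241) (nat_lit 76) (nat_lit 39073201930) (nat_lit 152) (nat_lit 12483288032) (nat_lit 77) (nat_lit 5) (nat_lit 78) (nat_lit 5) (nat_lit 79) (nat_lit 4) (nat_lit 541) (nat_lit 433) (nat_lit 226))))) (XT.nd (nat_lit 312) (nat_lit 532) (nat_lit 0) (XT.nd (nat_lit 156) (nat_lit 76) (nat_lit 0) (XT.nd (nat_lit 78) (nat_lit 152) (nat_lit 0) (XT.lf (nat_lit 0) (nat_lit 8480098304) (nat_lit 152) (nat_lit 7168768882) (nat_lit 76) (nat_lit 60811743752) (nat_lit 76) (nat_lit 5) (nat_lit 78) (nat_lit 5) (nat_lit 77) (nat_lit 5) (nat_lit 542) (nat_lit 433) (nat_lit 225)) (XT.lf (nat_lit 0) (nat_lit 30281558557) (nat_lit 228) (nat_lit 38922885839) (nat_lit 76) (nat_lit 8815312206) (nat_lit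 74) (nat_lit 5) (nat_lit 77) (nat_lit 5) (nat_lit 75) (nat_lit 4) (nat_lit 543) (nat_lit 433) (nat_lit 224))) (XT.nd (nat_lit 78) (nat_lit 0) (nat_lit 0) (XT.lf (nat_lit 0) (nat_lit 7254060144) (nat_lit 76) (nat_lit 45777757602) (nat_lit 152) (nat_lit 26585016278) (nat_lit 73) (nat_lit 5) (nat_lit 74) (nat_lit 5) (nat_lit 75) (nat_lit 4) (nat_lit 544) (nat_lit 433) (nat_lit 223)) (XT.lf (nat_lit 0) (nat_lit 55608487925) (nat_lit 76) (nat_lit 21246152905) (nat_lit 152) (nat_lit 4395481297) (nat_lit 73) (nat_lit 5) (nat_lit 74) (nat_lit 5) (nat_lit 75) (nat_lit 4) (nat_lit 545) (nat_lit 433) (nat_lit 222)))) (XT.nd (nat_lit 156) (nat_lit 304) (nat_lit 0) (XT.nd (nat_lit 78) (nat_lit 0) (nat_lit 0) (XT.lf (nat_lit 0) (nat_lit 18357753888) (nat_lit 228) (nat_lit 60221297575) (nat_lit 76) (nat_lit 4340287157) (nat_lit 70) (nat_lit 5) (nat_lit 73) (nat_lit 5) (nat_lit 71) (nat_lit 4) (nat_lit 546) (nat_lit 433) (nat_lit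 221)) (XT.lf (nat_lit 0) (nat_lit 42174169334) (nat_lit 228) (nat_lit 11879376373) (nat_lit 76) (nat_lit 30569712509) (nat_lit 70) (nat_lit 5) (nat_lit 73) (nat_lit 5) (nat_lit 71) (nat_lit 4) (nat_lit 547) (nat_lit 433) (nat_lit 220))) (XT.nd (nat_lit 78) (nat_lit 228) (nat_lit 0) (XT.lf (nat_lit 0) (nat_lit 38661790182) (nat_lit 76) (nat_lit 28412089184) (nat_lit 152) (nat_lit 19293352007) (nat_lit 69) (nat_lit 5) (nat_lit 70) (nat_lit 5) (nat_lit 71) (nat_lit 4) (nat_lit 548) (nat_lit 433) (nat_lit 219)) (XT.lf (nat_lit 0) (nat_lit 2807120260) (nat_lit 152) (nat_lit 1806306368) (nat_lit 228) (nat_lit 83544424149) (nat_lit 66) (nat_lit 5) (nat_lit 68) (nat_lit 5) (nat_lit 69) (nat_lit 5) (nat_lit 549) (nat_lit 433) (nat_lit 218)))))) (XT.nd (nat_lit 53976) (nat_lit 0) (nat_lit 18772) (XT.nd (nat_lit 53664) (nat_lit 0) (nat_lit 19836) (XT.nd (nat_lit 53508) (nat_lit 0) (nat_lit 19760) (XT.nd (nat_lit 53430) (nat_lit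 0) (nat_lit 19760) (XT.lf (nat_lit 0) (nat_lit 29579362910) (nat_lit 228) (nat_lit 34622068744) (nat_lit 76) (nat_lit 25773134497) (nat_lit 66) (nat_lit 5) (nat_lit 69) (nat_lit 5) (nat_lit 67) (nat_lit 4) (nat_lit 550) (nat_lit 433) (nat_lit 217)) (XT.lf (nat_lit 0) (nat_lit 1342212642) (nat_lit 0) (nat_lit 1342212642) (nat_lit 1140) (nat_lit 3041868374) (nat_lit 326) (nat_lit 5) (nat_lit 326) (nat_lit 3) (nat_lit 341) (nat_lit 3) (nat_lit 434) (nat_lit 434) (nat_lit 332))) (XT.nd (nat_lit 78) (nat_lit 0) (nat_lit 0) (XT.lf (nat_lit 0) (nat_lit 5997372073) (nat_lit 1140) (nat_lit 3106364474) (nat_lit 1216) (nat_lit 2504149556) (nat_lit 326) (nat_lit 5) (nat_lit 341) (nat_lit 3) (nat_lit 342) (nat_lit 5) (nat_lit 435) (nat_lit 434) (nat_lit 331)) (XT.lf (nat_lit 76) (nat_lit 2741273498) (nat_lit 0) (nat_lit 3936074841) (nat_lit 1216) (nat_lit 5089519503) (nat_lit 327) (nat_lit 5) (nat_lit 326) (nat_lit 5) (nat_lit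 342) (nat_lit 5) (nat_lit 436) (nat_lit 434) (nat_lit 330)))) (XT.nd (nat_lit 156) (nat_lit 0) (nat_lit 76) (XT.nd (nat_lit 78) (nat_lit 0) (nat_lit 0) (XT.lf (nat_lit 0) (nat_lit 7402976377) (nat_lit 1140) (nat_lit 3126803465) (nat_lit 1216) (nat_lit 1400083523) (nat_lit 327) (nat_lit 5) (nat_lit 342) (nat_lit 5) (nat_lit 343) (nat_lit 5) (nat_lit 437) (nat_lit 434) (nat_lit 329)) (XT.lf (nat_lit 76) (nat_lit 2956503264) (nat_lit 0) (nat_lit 5242080854) (nat_lit 1216) (nat_lit 3897720165) (nat_lit 328) (nat_lit 5) (nat_lit 327) (nat_lit 5) (nat_lit 343) (nat_lit 5) (nat_lit 438) (nat_lit 434) (nat_lit 328))) (XT.nd (nat_lit 78) (nat_lit 0) (nat_lit 0) (XT.lf (nat_lit 0) (nat_lit 9033256809) (nat_lit 1140) (nat_lit 2994358279) (nat_lit 1216) (nat_lit 239669236) (nat_lit 328) (nat_lit 5) (nat_lit 343) (nat_lit 5) (nat_lit 344) (nat_lit 5) (nat_lit 439) (nat_lit 434) (nat_lit 327)) (XT.lf (nat_lit 76) (nat_lit 3337312925)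 (nat_lit 0) (nat_lit 6621528302) (nat_lit 1216) (nat_lit 2482578141) (nat_lit 329) (nat_lit 5) (nat_lit 328) (nat_lit 5) (nat_lit 344) (nat_lit 5) (nat_lit 440) (nat_lit 434) (nat_lit 326))))) (XT.nd (nat_lit 312) (nat_lit 0) (nat_lit 76) (XT.nd (nat_lit 156) (nat_lit 1140) (nat_lit 0) (XT.nd (nat_lit 78) (nat_lit 0) (nat_lit 76) (XT.lf (nat_lit 76) (nat_lit 9909070986) (nat_lit 0) (nat_lit 1015668201) (nat_lit 1216) (nat_lit 1695664590) (nat_lit 329) (nat_lit 5) (nat_lit 328) (nat_lit 5) (nat_lit 344) (nat_lit 5) (nat_lit 441) (nat_lit 434) (nat_lit 325)) (XT.lf (nat_lit 76) (nat_lit 3891935142) (nat_lit 0) (nat_lit 8093715248) (nat_lit 1216) (nat_lit 817127886) (nat_lit 330) (nat_lit 5) (nat_lit 329) (nat_lit 5) (nat_lit 345) (nat_lit 5) (nat_lit 442) (nat_lit 434) (nat_lit 324))) (XT.nd (nat_lit 78) (nat_lit 0) (nat_lit 76) (XT.lf (nat_lit 0) (nat_lit 106864887) (nat_lit 1216) (nat_lit 2263812049) (nat_lit 1292)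 (nat_lit 10619298939) (nat_lit 313) (nat_lit 5) (nat_lit 329) (nat_lit 5) (nat_lit 330) (nat_lit 5) (nat_lit 443) (nat_lit 434) (nat_lit 323)) (XT.lf (nat_lit 0) (nat_lit 1104935828) (nat_lit 1216) (nat_lit 8562167367) (nat_lit 1292) (nat_lit 3513561546) (nat_lit 314) (nat_lit 5) (nat_lit 330) (nat_lit 5) (nat_lit 331) (nat_lit 5) (nat_lit 444) (nat_lit 434) (nat_lit 322)))) (XT.nd (nat_lit 156) (nat_lit 0) (nat_lit 76) (XT.nd (nat_lit 78) (nat_lit 0) (nat_lit 76) (XT.lf (nat_lit 0) (nat_lit 2163520863) (nat_lit 1216) (nat_lit 1658199544) (nat_lit 1292) (nat_lit 9554438170) (nat_lit 314) (nat_lit 5) (nat_lit 330) (nat_lit 5) (nat_lit 331) (nat_lit 5) (nat_lit 445) (nat_lit 434) (nat_lit 321)) (XT.lf (nat_lit 0) (nat_lit 3313395679) (nat_lit 1216) (nat_lit 8048358126) (nat_lit 1292) (nat_lit 2213978876) (nat_lit 315) (nat_lit 5) (nat_lit 331) (nat_lit 5) (nat_lit 332) (nat_lit 5) (nat_lit 446) (nat_lit 434) (nat_lit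 320))) (XT.nd (nat_lit 78) (nat_lit 0) (nat_lit 76) (XT.lf (nat_lit 0) (nat_lit 4537375019) (nat_lit 1216) (nat_lit 868121439) (nat_lit 1292) (nat_lit 8374610681) (nat_lit 315) (nat_lit 5) (nat_lit 331) (nat_lit 5) (nat_lit 332) (nat_lit 5) (nat_lit 447) (nat_lit 434) (nat_lit 319)) (XT.lf (nat_lit 0) (nat_lit 5854931823) (nat_lit 1216) (nat_lit 7351097630) (nat_lit 1292) (nat_lit 782878973) (nat_lit 316) (nat_lit 5) (nat_lit 332) (nat_lit 5) (nat_lit 333) (nat_lit 5) (nat_lit 448) (nat_lit 434) (nat_lit 318))))))))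
noncomputable def xc170 : XT := (XT.nd (nat_lit 2418) (nat_lit 5244) (nat_lit 0) (XT.nd (nat_lit 1170) (nat_lit 4408) (nat_lit 0) (XT.nd (nat_lit 546) (nat_lit 2356) (nat_lit 0) (XT.nd (nat_lit 234) (nat_lit 1520) (nat_lit 0) (XT.nd (nat_lit 78) (nat_lit 1140) (nat_lit 0) (XT.lf (nat_lit 76) (nat_lit 119902164) (nat_lit 0) (nat_lit 7141286434) (nat_lit 1292) (nat_lit 6941311256) (nat_lit 317) (nat_lit 5) (nat_lit 316) (nat_lit 5) (nat_lit 333) (nat_lit 5) (nat_lit 449) (nat_lit 434) (nat_lit 317)) (XT.nd (nat_lit 78) (nat_lit 1140) (nat_lit 0) (XT.lf (nat_lit 76) (nat_lit 7954001424) (nat_lit 0) (nat_lit 815816491) (nat_lit 1292) (nat_lit 5650876825) (nat_lit 317) (nat_lit 5) (nat_lit 316) (nat_lit 5) (nat_lit 333) (nat_lit 5) (nat_lit 450) (nat_lit 434) (nat_lit 316)) (XT.lf (nat_lit 0) (nat_lit 1337183663) (nat_lit 1216) (nat_lit 9040546569) (nat_lit 1292) (nat_lit 4266085743) (nat_lit 301) (nat_lit 5) (nat_lit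 317) (nat_lit 5) (nat_lit 318) (nat_lit 5) (nat_lit 451) (nat_lit 434) (nat_lit 315)))) (XT.nd (nat_lit 156) (nat_lit 684) (nat_lit 0) (XT.nd (nat_lit 78) (nat_lit 836) (nat_lit 0) (XT.lf (nat_lit 0) (nat_lit 9487803976) (nat_lit 1216) (nat_lit 2606043227) (nat_lit 1292) (nat_lit 2777985815) (nat_lit 301) (nat_lit 5) (nat_lit 317) (nat_lit 5) (nat_lit 318) (nat_lit 5) (nat_lit 452) (nat_lit 434) (nat_lit 314)) (XT.lf (nat_lit 0) (nat_lit 2780084939) (nat_lit 836) (nat_lit 11133815429) (nat_lit 912) (nat_lit 1191217777) (nat_lit 290) (nat_lit 5) (nat_lit 301) (nat_lit 5) (nat_lit 302) (nat_lit 5) (nat_lit 453) (nat_lit 434) (nat_lit 313))) (XT.nd (nat_lit 78) (nat_lit 608) (nat_lit 0) (XT.lf (nat_lit 0) (nat_lit 502424499) (nat_lit 912) (nat_lit 4086781820) (nat_lit 76) (nat_lit 10754031239) (nat_lit 289) (nat_lit 5) (nat_lit 301) (nat_lit 5) (nat_lit 290) (nat_lit 5) (nat_lit 454) (nat_lit 434) (nat_lit 312)) (XT.lf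 (nat_lit 0) (nat_lit 2274644577) (nat_lit 684) (nat_lit 11146121312) (nat_lit 76) (nat_lit 2165830568) (nat_lit 281) (nat_lit 5) (nat_lit 290) (nat_lit 5) (nat_lit 282) (nat_lit 5) (nat_lit 455) (nat_lit 434) (nat_lit 311))))) (XT.nd (nat_lit 312) (nat_lit 1216) (nat_lit 0) (XT.nd (nat_lit 156) (nat_lit 532) (nat_lit 0) (XT.nd (nat_lit 78) (nat_lit 608) (nat_lit 0) (XT.lf (nat_lit 0) (nat_lit 4174987108) (nat_lit 684) (nat_lit 2586352744) (nat_lit 76) (nat_lit 9073668623) (nat_lit 281) (nat_lit 5) (nat_lit 290) (nat_lit 5) (nat_lit 282) (nat_lit 5) (nat_lit 456) (nat_lit 434) (nat_lit 310)) (XT.lf (nat_lit 0) (nat_lit 6183050823) (nat_lit 684) (nat_lit 9748441758) (nat_lit 76) (nat_lit 157859940) (nat_lit 273) (nat_lit 5) (nat_lit 282) (nat_lit 5) (nat_lit 274) (nat_lit 5) (nat_lit 457) (nat_lit 434) (nat_lit 309))) (XT.nd (nat_lit 78) (nat_lit 532) (nat_lit 0) (XT.lf (nat_lit 0) (nat_lit 8333108022) (nat_lit 684)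 (nat_lit 840442883) (nat_lit 76) (nat_lit 7175324402) (nat_lit 273) (nat_lit 5) (nat_lit 282) (nat_lit 5) (nat_lit 274) (nat_lit 5) (nat_lit 458) (nat_lit 434) (nat_lit 308)) (XT.lf (nat_lit 0) (nat_lit 8489082677) (nat_lit 532) (nat_lit 2128955388) (nat_lit 608) (nat_lit 5996035518) (nat_lit 266) (nat_lit 5) (nat_lit 273) (nat_lit 5) (nat_lit 274) (nat_lit 5) (nat_lit 459) (nat_lit 434) (nat_lit 307)))) (XT.nd (nat_lit 156) (nat_lit 608) (nat_lit 0) (XT.nd (nat_lit 78) (nat_lit 0) (nat_lit 0) (XT.lf (nat_lit 0) (nat_lit 1191039471) (nat_lit 608) (nat_lit 11838765518) (nat_lit 684) (nat_lit 3855675060) (nat_lit 258) (nat_lit 5) (nat_lit 266) (nat_lit 5) (nat_lit 267) (nat_lit 5) (nat_lit 460) (nat_lit 434) (nat_lit 306)) (XT.lf (nat_lit 0) (nat_lit 10920137019) (nat_lit 608) (nat_lit 4685902526) (nat_lit 684) (nat_lit 1556226610) (nat_lit 258) (nat_lit 5) (nat_lit 266) (nat_lit 5) (nat_lit 267) (nat_lit 5) (nat_lit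 461) (nat_lit 434) (nat_lit 305))) (XT.nd (nat_lit 78) (nat_lit 0) (nat_lit 0) (XT.lf (nat_lit 0) (nat_lit 846010930) (nat_lit 608) (nat_lit 13928854228) (nat_lit 76) (nat_lit 2670767657) (nat_lit 250) (nat_lit 5) (nat_lit 258) (nat_lit 5) (nat_lit 251) (nat_lit 5) (nat_lit 462) (nat_lit 434) (nat_lit 304)) (XT.lf (nat_lit 0) (nat_lit 3388687884) (nat_lit 608) (nat_lit 4113166437) (nat_lit 76) (nat_lit 10232195191) (nat_lit 250) (nat_lit 5) (nat_lit 258) (nat_lit 5) (nat_lit 251) (nat_lit 5) (nat_lit 463) (nat_lit 434) (nat_lit 303)))))) (XT.nd (nat_lit 624) (nat_lit 1976) (nat_lit 0) (XT.nd (nat_lit 312) (nat_lit 988) (nat_lit 0) (XT.nd (nat_lit 156) (nat_lit 912) (nat_lit 0) (XT.nd (nat_lit 78) (nat_lit 0) (nat_lit 0) (XT.lf (nat_lit 0) (nat_lit 6056698760) (nat_lit 608) (nat_lit 11925213576) (nat_lit 76) (nat_lit 47735553) (nat_lit 243) (nat_lit 5) (nat_lit 251) (nat_lit 5) (nat_lit 244) (nat_lit 5) (nat_lit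 464) (nat_lit 434) (nat_lit 302)) (XT.lf (nat_lit 0) (nat_lit 8911049433) (nat_lit 608) (nat_lit 1706057640) (nat_lit 76) (nat_lit 7713818922) (nat_lit 243) (nat_lit 5) (nat_lit 251) (nat_lit 5) (nat_lit 244) (nat_lit 5) (nat_lit 465) (nat_lit 434) (nat_lit 301))) (XT.nd (nat_lit 78) (nat_lit 456) (nat_lit 0) (XT.lf (nat_lit 0) (nat_lit 8983931928) (nat_lit 456) (nat_lit 2943824286) (nat_lit 532) (nat_lit 6711185205) (nat_lit 237) (nat_lit 5) (nat_lit 243) (nat_lit 5) (nat_lit 244) (nat_lit 5) (nat_lit 466) (nat_lit 434) (nat_lit 300)) (XT.lf (nat_lit 0) (nat_lit 1035053224) (nat_lit 456) (nat_lit 14065461891) (nat_lit 532) (nat_lit 3853716381) (nat_lit 231) (nat_lit 5) (nat_lit 237) (nat_lit 5) (nat_lit 238) (nat_lit 5) (nat_lit 467) (nat_lit 434) (nat_lit 299)))) (XT.nd (nat_lit 156) (nat_lit 456) (nat_lit 0) (XT.nd (nat_lit 78) (nat_lit 532) (nat_lit 0) (XT.lf (nat_lit 0) (nat_lit 12202907331) (nat_lit 456)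 (nat_lit 6282604000) (nat_lit 532) (nat_lit 789958007) (nat_lit 231) (nat_lit 5) (nat_lit 237) (nat_lit 5) (nat_lit 238) (nat_lit 5) (nat_lit 468) (nat_lit 434) (nat_lit 298)) (XT.lf (nat_lit 0) (nat_lit 2367555479) (nat_lit 532) (nat_lit 15475340752) (nat_lit 76) (nat_lit 1761326345) (nat_lit 224) (nat_lit 5) (nat_lit 231) (nat_lit 5) (nat_lit 225) (nat_lit 5) (nat_lit 469) (nat_lit 434) (nat_lit 297))) (XT.nd (nat_lit 78) (nat_lit 456) (nat_lit 0) (XT.lf (nat_lit 0) (nat_lit 5729268036) (nat_lit 532) (nat_lit 4211183304) (nat_lit 76) (nat_lit 9998392537) (nat_lit 224) (nat_lit 5) (nat_lit 231) (nat_lit 5) (nat_lit 225) (nat_lit 5) (nat_lit 470) (nat_lit 434) (nat_lit 296)) (XT.lf (nat_lit 0) (nat_lit 7526996577) (nat_lit 456) (nat_lit 1728471926) (nat_lit 532) (nat_lit 11026126838) (nat_lit 218) (nat_lit 5) (nat_lit 224) (nat_lit 5) (nat_lit 225) (nat_lit 5) (nat_lit 471) (nat_lit 434) (nat_lit 295))))) (XT.nd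 (nat_lit 312) (nat_lit 1064) (nat_lit 0) (XT.nd (nat_lit 156) (nat_lit 532) (nat_lit 0) (XT.nd (nat_lit 78) (nat_lit 380) (nat_lit 0) (XT.lf (nat_lit 0) (nat_lit 12986505770) (nat_lit 532) (nat_lit 1005731983) (nat_lit 76) (nat_lit 6639420677) (nat_lit 218) (nat_lit 5) (nat_lit 225) (nat_lit 5) (nat_lit 219) (nat_lit 5) (nat_lit 472) (nat_lit 434) (nat_lit 294)) (XT.lf (nat_lit 0) (nat_lit 11288165100) (nat_lit 380) (nat_lit 5658594933) (nat_lit 456) (nat_lit 4041945386) (nat_lit 213) (nat_lit 5) (nat_lit 218) (nat_lit 5) (nat_lit 219) (nat_lit 5) (nat_lit 473) (nat_lit 434) (nat_lit 293))) (XT.nd (nat_lit 78) (nat_lit 76) (nat_lit 0) (XT.lf (nat_lit 0) (nat_lit 2627678624) (nat_lit 456) (nat_lit 18453559506) (nat_lit 532) (nat_lit 273563770) (nat_lit 207) (nat_lit 5) (nat_lit 213) (nat_lit 5) (nat_lit 214) (nat_lit 5) (nat_lit 474) (nat_lit 434) (nat_lit 292)) (XT.lf (nat_lit 0) (nat_lit 3684258991) (nat_lit 532)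 (nat_lit 6306796697) (nat_lit 76) (nat_lit 11735381925) (nat_lit 206) (nat_lit 5) (nat_lit 213) (nat_lit 5) (nat_lit 207) (nat_lit 5) (nat_lit 475) (nat_lit 434) (nat_lit 291)))) (XT.nd (nat_lit 156) (nat_lit 684) (nat_lit 0) (XT.nd (nat_lit 78) (nat_lit 0) (nat_lit 0) (XT.lf (nat_lit 0) (nat_lit 6601796528) (nat_lit 380) (nat_lit 1209059945) (nat_lit 456) (nat_lit 14296619034) (nat_lit 201) (nat_lit 5) (nat_lit 206) (nat_lit 5) (nat_lit 207) (nat_lit 5) (nat_lit 476) (nat_lit 434) (nat_lit 290)) (XT.lf (nat_lit 0) (nat_lit 12193081359) (nat_lit 456) (nat_lit 2557628490) (nat_lit 76) (nat_lit 7745280312) (nat_lit 201) (nat_lit 5) (nat_lit 207) (nat_lit 5) (nat_lit 202) (nat_lit 5) (nat_lit 477) (nat_lit 434) (nat_lit 289))) (XT.nd (nat_lit 78) (nat_lit 304) (nat_lit 0) (XT.lf (nat_lit 0) (nat_lit 10970712039) (nat_lit 380) (nat_lit 5845901085) (nat_lit 456) (nat_lit 6076252414) (nat_lit 196) (nat_lit 5) (nat_lit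 201) (nat_lit 5) (nat_lit 202) (nat_lit 5) (nat_lit 478) (nat_lit 434) (nat_lit 288)) (XT.lf (nat_lit 0) (nat_lit 1645994172) (nat_lit 304) (nat_lit 19999243284) (nat_lit 380) (nat_lit 1654418598) (nat_lit 192) (nat_lit 5) (nat_lit 196) (nat_lit 5) (nat_lit 197) (nat_lit 5) (nat_lit 479) (nat_lit 434) (nat_lit 287))))))) (XT.nd (nat_lit 1170) (nat_lit 2204) (nat_lit 0) (XT.nd (nat_lit 546) (nat_lit 1596) (nat_lit 0) (XT.nd (nat_lit 234) (nat_lit 988) (nat_lit 0) (XT.nd (nat_lit 78) (nat_lit 380) (nat_lit 0) (XT.lf (nat_lit 0) (nat_lit 3015497661) (nat_lit 380) (nat_lit 7946812990) (nat_lit 76) (nat_lit 12750343219) (nat_lit 191) (nat_lit 5) (nat_lit 196) (nat_lit 5) (nat_lit 192) (nat_lit 5) (nat_lit 480) (nat_lit 434) (nat_lit 286)) (XT.nd (nat_lit 78) (nat_lit 0) (nat_lit 0) (XT.lf (nat_lit 0) (nat_lit 6267053078) (nat_lit 380) (nat_lit 1578221405) (nat_lit 456) (nat_lit 16290685703) (nat_lit 186) (nat_lit 5)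 (nat_lit 191) (nat_lit 5) (nat_lit 192) (nat_lit 5) (nat_lit 481) (nat_lit 434) (nat_lit 285)) (XT.lf (nat_lit 0) (nat_lit 12971586418) (nat_lit 456) (nat_lit 3588044452) (nat_lit 76) (nat_lit 8007785990) (nat_lit 186) (nat_lit 5) (nat_lit 192) (nat_lit 5) (nat_lit 187) (nat_lit 5) (nat_lit 482) (nat_lit 434) (nat_lit 284)))) (XT.nd (nat_lit 156) (nat_lit 380) (nat_lit 0) (XT.nd (nat_lit 78) (nat_lit 304) (nat_lit 0) (XT.lf (nat_lit 0) (nat_lit 11316553874) (nat_lit 304) (nat_lit 7052608520) (nat_lit 380) (nat_lit 6639131011) (nat_lit 182) (nat_lit 5) (nat_lit 186) (nat_lit 5) (nat_lit 187) (nat_lit 5) (nat_lit 483) (nat_lit 434) (nat_lit 283)) (XT.lf (nat_lit 0) (nat_lit 1268623372) (nat_lit 304) (nat_lit 22728309293) (nat_lit 380) (nat_lit 1463415968) (nat_lit 178) (nat_lit 5) (nat_lit 182) (nat_lit 5) (nat_lit 183) (nat_lit 5) (nat_lit 484) (nat_lit 434) (nat_lit 282))) (XT.nd (nat_lit 78) (nat_lit 304) (nat_lit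 0) (XT.lf (nat_lit 0) (nat_lit 3994740585) (nat_lit 380) (nat_lit 9081736399) (nat_lit 76) (nat_lit 12842294377) (nat_lit 177) (nat_lit 5) (nat_lit 182) (nat_lit 5) (nat_lit 178) (nat_lit 5) (nat_lit 485) (nat_lit 434) (nat_lit 281)) (XT.lf (nat_lit 0) (nat_lit 6585859317) (nat_lit 304) (nat_lit 3058058997) (nat_lit 380) (nat_lit 16744893454) (nat_lit 173) (nat_lit 5) (nat_lit 177) (nat_lit 5) (nat_lit 178) (nat_lit 5) (nat_lit 486) (nat_lit 434) (nat_lit 280))))) (XT.nd (nat_lit 312) (nat_lit 912) (nat_lit 0) (XT.nd (nat_lit 156) (nat_lit 380) (nat_lit 0) (XT.nd (nat_lit 78) (nat_lit 304) (nat_lit 0) (XT.lf (nat_lit 0) (nat_lit 15618436215) (nat_lit 380) (nat_lit 4041045019) (nat_lit 76) (nat_lit 7208796559) (nat_lit 173) (nat_lit 5) (nat_lit 178) (nat_lit 5) (nat_lit 174) (nat_lit 5) (nat_lit 487) (nat_lit 434) (nat_lit 279)) (XT.lf (nat_lit 0) (nat_lit 12395825983) (nat_lit 304) (nat_lit 9519441229) (nat_lit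 380) (nat_lit 5442568606) (nat_lit 169) (nat_lit 5) (nat_lit 173) (nat_lit 5) (nat_lit 174) (nat_lit 5) (nat_lit 488) (nat_lit 434) (nat_lit 278))) (XT.nd (nat_lit 78) (nat_lit 0) (nat_lit 0) (XT.lf (nat_lit 0) (nat_lit 587785812) (nat_lit 380) (nat_lit 26306728422) (nat_lit 76) (nat_lit 965629872) (nat_lit 164) (nat_lit 5) (nat_lit 169) (nat_lit 5) (nat_lit 165) (nat_lit 5) (nat_lit 489) (nat_lit 434) (nat_lit 277)) (XT.lf (nat_lit 0) (nat_lit 6930233794) (nat_lit 380) (nat_lit 9661212093) (nat_lit 76) (nat_lit 11777242271) (nat_lit 164) (nat_lit 5) (nat_lit 169) (nat_lit 5) (nat_lit 165) (nat_lit 5) (nat_lit 490) (nat_lit 434) (nat_lit 276)))) (XT.nd (nat_lit 156) (nat_lit 608) (nat_lit 0) (XT.nd (nat_lit 78) (nat_lit 0) (nat_lit 0) (XT.lf (nat_lit 0) (nat_lit 7623104591) (nat_lit 304) (nat_lit 5907049348) (nat_lit 380) (nat_lit 15360318936) (nat_lit 160) (nat_lit 5) (nat_lit 164) (nat_lit 5) (nat_lit 165) (nat_lit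 5) (nat_lit 491) (nat_lit 434) (nat_lit 275)) (XT.lf (nat_lit 0) (nat_lit 20469578877) (nat_lit 380) (nat_lit 3860334968) (nat_lit 76) (nat_lit 5093752370) (nat_lit 160) (nat_lit 5) (nat_lit 165) (nat_lit 5) (nat_lit 161) (nat_lit 5) (nat_lit 492) (nat_lit 434) (nat_lit 274))) (XT.nd (nat_lit 78) (nat_lit 380) (nat_lit 0) (XT.lf (nat_lit 0) (nat_lit 14279973644) (nat_lit 228) (nat_lit 13527119817) (nat_lit 304) (nat_lit 2160064974) (nat_lit 157) (nat_lit 5) (nat_lit 160) (nat_lit 5) (nat_lit 161) (nat_lit 5) (nat_lit 493) (nat_lit 434) (nat_lit 273)) (XT.lf (nat_lit 0) (nat_lit 2510813361) (nat_lit 304) (nat_lit 2290245193) (nat_lit 380) (nat_lit 25722771540) (nat_lit 152) (nat_lit 5) (nat_lit 156) (nat_lit 5) (nat_lit 157) (nat_lit 5) (nat_lit 494) (nat_lit 434) (nat_lit 272)))))) (XT.nd (nat_lit 624) (nat_lit 1140) (nat_lit 0) (XT.nd (nat_lit 312) (nat_lit 532) (nat_lit 0) (XT.nd (nat_lit 156) (nat_lit 304) (nat_lit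 0) (XT.nd (nat_lit 78) (nat_lit 228) (nat_lit 0) (XT.lf (nat_lit 0) (nat_lit 12171050372) (nat_lit 380) (nat_lit 9637504145) (nat_lit 76) (nat_lit 9280702553) (nat_lit 152) (nat_lit 5) (nat_lit 157) (nat_lit 5) (nat_lit 153) (nat_lit 5) (nat_lit 495) (nat_lit 434) (nat_lit 271)) (XT.lf (nat_lit 0) (nat_lit 9441929853) (nat_lit 228) (nat_lit 10428048014) (nat_lit 304) (nat_lit 11798434166) (nat_lit 149) (nat_lit 5) (nat_lit 152) (nat_lit 5) (nat_lit 153) (nat_lit 5) (nat_lit 496) (nat_lit 434) (nat_lit 270))) (XT.nd (nat_lit 78) (nat_lit 304) (nat_lit 0) (XT.lf (nat_lit 0) (nat_lit 27905039312) (nat_lit 304) (nat_lit 2993077976) (nat_lit 76) (nat_lit 1363669620) (nat_lit 149) (nat_lit 5) (nat_lit 153) (nat_lit 5) (nat_lit 150) (nat_lit 5) (nat_lit 497) (nat_lit 434) (nat_lit 269)) (XT.lf (nat_lit 0) (nat_lit 3507858255) (nat_lit 304) (nat_lit 15861654986) (nat_lit 76) (nat_lit 13494569314) (nat_lit 145) (nat_lit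 5) (nat_lit 149) (nat_lit 5) (nat_lit 146) (nat_lit 5) (nat_lit 498) (nat_lit 434) (nat_lit 268)))) (XT.nd (nat_lit 156) (nat_lit 304) (nat_lit 0) (XT.nd (nat_lit 78) (nat_lit 0) (nat_lit 0) (XT.lf (nat_lit 0) (nat_lit 4205520640) (nat_lit 228) (nat_lit 7380893165) (nat_lit 304) (nat_lit 21894772072) (nat_lit 142) (nat_lit 5) (nat_lit 145) (nat_lit 5) (nat_lit 146) (nat_lit 5) (nat_lit 499) (nat_lit 434) (nat_lit 267)) (XT.lf (nat_lit 0) (nat_lit 20111502722) (nat_lit 304) (nat_lit 8970236169) (nat_lit 76) (nat_lit 5028938328) (nat_lit 142) (nat_lit 5) (nat_lit 146) (nat_lit 5) (nat_lit 143) (nat_lit 5) (nat_lit 500) (nat_lit 434) (nat_lit 266))) (XT.nd (nat_lit 78) (nat_lit 76) (nat_lit 0) (XT.lf (nat_lit 0) (nat_lit 12098861716) (nat_lit 228) (nat_lit 16977687331) (nat_lit 304) (nat_lit 5676978327) (nat_lit 139) (nat_lit 5) (nat_lit 142) (nat_lit 5) (nat_lit 143) (nat_lit 5) (nat_lit 501) (nat_lit 434) (nat_lit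 265)) (XT.lf (nat_lit 0) (nat_lit 2924716689) (nat_lit 304) (nat_lit 1466283915) (nat_lit 76) (nat_lit 31021238132) (nat_lit 138) (nat_lit 5) (nat_lit 142) (nat_lit 5) (nat_lit 139) (nat_lit 5) (nat_lit 502) (nat_lit 434) (nat_lit 264))))) (XT.nd (nat_lit 312) (nat_lit 456) (nat_lit 0) (XT.nd (nat_lit 156) (nat_lit 228) (nat_lit 0) (XT.nd (nat_lit 78) (nat_lit 228) (nat_lit 0) (XT.lf (nat_lit 0) (nat_lit 11949215127) (nat_lit 304) (nat_lit 15470975549) (nat_lit 76) (nat_lit 8660469101) (nat_lit 135) (nat_lit 5) (nat_lit 139) (nat_lit 5) (nat_lit 136) (nat_lit 5) (nat_lit 503) (nat_lit 434) (nat_lit 263)) (XT.lf (nat_lit 0) (nat_lit 6687866908) (nat_lit 228) (nat_lit 14674327693) (nat_lit 304) (nat_lit 15403406658) (nat_lit 132) (nat_lit 5) (nat_lit 135) (nat_lit 5) (nat_lit 136) (nat_lit 5) (nat_lit 504) (nat_lit 434) (nat_lit 262))) (XT.nd (nat_lit 78) (nat_lit 228) (nat_lit 0) (XT.lf (nat_lit 0) (nat_lit 29820380835)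 (nat_lit 228) (nat_lit 1388504528) (nat_lit 304) (nat_lit 6257666148) (nat_lit 132) (nat_lit 5) (nat_lit 135) (nat_lit 5) (nat_lit 136) (nat_lit 5) (nat_lit 505) (nat_lit 434) (nat_lit 261)) (XT.lf (nat_lit 0) (nat_lit 3367063658) (nat_lit 228) (nat_lit 22576453268) (nat_lit 76) (nat_lit 12236111703) (nat_lit 129) (nat_lit 5) (nat_lit 132) (nat_lit 5) (nat_lit 130) (nat_lit 5) (nat_lit 506) (nat_lit 434) (nat_lit 260)))) (XT.nd (nat_lit 156) (nat_lit 228) (nat_lit 0) (XT.nd (nat_lit 78) (nat_lit 0) (nat_lit 0) (XT.lf (nat_lit 0) (nat_lit 724506091) (nat_lit 228) (nat_lit 12524166746) (nat_lit 304) (nat_lit 25660749370) (nat_lit 126) (nat_lit 5) (nat_lit 129) (nat_lit 5) (nat_lit 130) (nat_lit 5) (nat_lit 507) (nat_lit 434) (nat_lit 259)) (XT.lf (nat_lit 0) (nat_lit 23664692787) (nat_lit 304) (nat_lit 14489864570) (nat_lit 76) (nat_lit 1499413524) (nat_lit 126) (nat_lit 5) (nat_lit 130) (nat_lit 5) (nat_lit 127)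 (nat_lit 5) (nat_lit 508) (nat_lit 434) (nat_lit 258))) (XT.nd (nat_lit 78) (nat_lit 76) (nat_lit 0) (XT.lf (nat_lit 0) (nat_lit 9978845925) (nat_lit 152) (nat_lit 24629662584) (nat_lit 228) (nat_lit 5805888210) (nat_lit 124) (nat_lit 5) (nat_lit 126) (nat_lit 5) (nat_lit 127) (nat_lit 5) (nat_lit 509) (nat_lit 434) (nat_lit 257)) (XT.lf (nat_lit 0) (nat_lit 4734793501) (nat_lit 228) (nat_lit 5768992793) (nat_lit 76) (nat_lit 30688203540) (nat_lit 123) (nat_lit 5) (nat_lit 126) (nat_lit 5) (nat_lit 124) (nat_lit 5) (nat_lit 510) (nat_lit 434) (nat_lit 256))))))))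
noncomputable def xc171 : XT := (XT.nd (nat_lit 2418) (nat_lit 912) (nat_lit 0) (XT.nd (nat_lit 1170) (nat_lit 1444) (nat_lit 0) (XT.nd (nat_lit 546) (nat_lit 988) (nat_lit 0) (XT.nd (nat_lit 234) (nat_lit 608) (nat_lit 0) (XT.nd (nat_lit 78) (nat_lit 152) (nat_lit 0) (XT.lf (nat_lit 0) (nat_lit 15703756714) (nat_lit 304) (nat_lit 22064983503) (nat_lit 76) (nat_lit 4215583541) (nat_lit 120) (nat_lit 5) (nat_lit 124) (nat_lit 5) (nat_lit 121) (nat_lit 5) (nat_lit 511) (nat_lit 434) (nat_lit 255)) (XT.nd (nat_lit 78) (nat_lit 0) (nat_lit 0) (XT.lf (nat_lit 0) (nat_lit 3656964659) (nat_lit 152) (nat_lit 23538371415) (nat_lit 228) (nat_lit 15599285349) (nat_lit 118) (nat_lit 5) (nat_lit 120) (nat_lit 5) (nat_lit 121) (nat_lit 5) (nat_lit 512) (nat_lit 434) (nat_lit 254)) (XT.lf (nat_lit 0) (nat_lit 30595234334) (nat_lit 152) (nat_lit 8654861324) (nat_lit 228) (nat_lit 4372579513) (nat_lit 118) (nat_lit 5) (nat_lit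 120) (nat_lit 5) (nat_lit 121) (nat_lit 5) (nat_lit 513) (nat_lit 434) (nat_lit 253)))) (XT.nd (nat_lit 156) (nat_lit 304) (nat_lit 0) (XT.nd (nat_lit 78) (nat_lit 0) (nat_lit 0) (XT.lf (nat_lit 0) (nat_lit 7247660048) (nat_lit 304) (nat_lit 30471843057) (nat_lit 76) (nat_lit 6748082244) (nat_lit 114) (nat_lit 5) (nat_lit 118) (nat_lit 5) (nat_lit 115) (nat_lit 5) (nat_lit 514) (nat_lit 434) (nat_lit 252)) (XT.lf (nat_lit 0) (nat_lit 19342896082) (nat_lit 304) (nat_lit 3375046000) (nat_lit 76) (nat_lit 22612173876) (nat_lit 114) (nat_lit 5) (nat_lit 118) (nat_lit 5) (nat_lit 115) (nat_lit 5) (nat_lit 515) (nat_lit 434) (nat_lit 251))) (XT.nd (nat_lit 78) (nat_lit 152) (nat_lit 0) (XT.lf (nat_lit 0) (nat_lit 25015483220) (nat_lit 152) (nat_lit 7021822537) (nat_lit 228) (nat_lit 14174127353) (nat_lit 112) (nat_lit 5) (nat_lit 114) (nat_lit 5) (nat_lit 115) (nat_lit 5) (nat_lit 516) (nat_lit 434) (nat_lit 250)) (XT.lf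 (nat_lit 0) (nat_lit 7254730536) (nat_lit 152) (nat_lit 38045755334) (nat_lit 228) (nat_lit 1813065883) (nat_lit 110) (nat_lit 5) (nat_lit 112) (nat_lit 5) (nat_lit 113) (nat_lit 5) (nat_lit 517) (nat_lit 434) (nat_lit 249))))) (XT.nd (nat_lit 312) (nat_lit 532) (nat_lit 0) (XT.nd (nat_lit 156) (nat_lit 228) (nat_lit 0) (XT.nd (nat_lit 78) (nat_lit 152) (nat_lit 0) (XT.lf (nat_lit 0) (nat_lit 10987324775) (nat_lit 228) (nat_lit 11226831009) (nat_lit 76) (nat_lit 25816982637) (nat_lit 109) (nat_lit 5) (nat_lit 112) (nat_lit 5) (nat_lit 110) (nat_lit 5) (nat_lit 518) (nat_lit 434) (nat_lit 248)) (XT.lf (nat_lit 0) (nat_lit 18602029161) (nat_lit 152) (nat_lit 5708074437) (nat_lit 228) (nat_lit 24660366149) (nat_lit 107) (nat_lit 5) (nat_lit 109) (nat_lit 5) (nat_lit 110) (nat_lit 5) (nat_lit 519) (nat_lit 434) (nat_lit 247))) (XT.nd (nat_lit 78) (nat_lit 228) (nat_lit 0) (XT.lf (nat_lit 0) (nat_lit 38251636075) (nat_lit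 228) (nat_lit 495515189) (nat_lit 76) (nat_lit 11184257744) (nat_lit 107) (nat_lit 5) (nat_lit 110) (nat_lit 5) (nat_lit 108) (nat_lit 5) (nat_lit 520) (nat_lit 434) (nat_lit 246)) (XT.lf (nat_lit 0) (nat_lit 2009540225) (nat_lit 228) (nat_lit 20119031229) (nat_lit 76) (nat_lit 28781549122) (nat_lit 104) (nat_lit 5) (nat_lit 107) (nat_lit 5) (nat_lit 105) (nat_lit 5) (nat_lit 521) (nat_lit 434) (nat_lit 245)))) (XT.nd (nat_lit 156) (nat_lit 380) (nat_lit 0) (XT.nd (nat_lit 78) (nat_lit 0) (nat_lit 0) (XT.lf (nat_lit 0) (nat_lit 11204403231) (nat_lit 152) (nat_lit 4779280741) (nat_lit 228) (nat_lit 35927773284) (nat_lit 102) (nat_lit 5) (nat_lit 104) (nat_lit 5) (nat_lit 105) (nat_lit 5) (nat_lit 522) (nat_lit 434) (nat_lit 244)) (XT.lf (nat_lit 0) (nat_lit 30704222844) (nat_lit 228) (nat_lit 9191590330) (nat_lit 76) (nat_lit 13037205830) (nat_lit 102) (nat_lit 5) (nat_lit 105) (nat_lit 5) (nat_lit 103) (nat_lit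 5) (nat_lit 523) (nat_lit 434) (nat_lit 243))) (XT.nd (nat_lit 78) (nat_lit 228) (nat_lit 0) (XT.lf (nat_lit 0) (nat_lit 23677282631) (nat_lit 152) (nat_lit 22460289899) (nat_lit 228) (nat_lit 7839519326) (nat_lit 100) (nat_lit 5) (nat_lit 102) (nat_lit 5) (nat_lit 103) (nat_lit 5) (nat_lit 524) (nat_lit 434) (nat_lit 242)) (XT.lf (nat_lit 0) (nat_lit 2647805535) (nat_lit 152) (nat_lit 4312867767) (nat_lit 228) (nat_lit 48086336270) (nat_lit 97) (nat_lit 5) (nat_lit 99) (nat_lit 5) (nat_lit 100) (nat_lit 5) (nat_lit 525) (nat_lit 434) (nat_lit 241)))))) (XT.nd (nat_lit 624) (nat_lit 760) (nat_lit 0) (XT.nd (nat_lit 312) (nat_lit 304) (nat_lit 0) (XT.nd (nat_lit 156) (nat_lit 228) (nat_lit 0) (XT.nd (nat_lit 78) (nat_lit 152) (nat_lit 0) (XT.lf (nat_lit 0) (nat_lit 22490819508) (nat_lit 228) (nat_lit 19160535192) (nat_lit 76) (nat_lit 14482036201) (nat_lit 97) (nat_lit 5) (nat_lit 100) (nat_lit 5) (nat_lit 98) (nat_lit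 5) (nat_lit 526) (nat_lit 434) (nat_lit 240)) (XT.lf (nat_lit 0) (nat_lit 15325050013) (nat_lit 152) (nat_lit 23348240158) (nat_lit 228) (nat_lit 18573480977) (nat_lit 95) (nat_lit 5) (nat_lit 97) (nat_lit 5) (nat_lit 98) (nat_lit 5) (nat_lit 527) (nat_lit 434) (nat_lit 239))) (XT.nd (nat_lit 78) (nat_lit 228) (nat_lit 0) (XT.lf (nat_lit 0) (nat_lit 51231450592) (nat_lit 152) (nat_lit 4299714856) (nat_lit 228) (nat_lit 2856689519) (nat_lit 95) (nat_lit 5) (nat_lit 97) (nat_lit 5) (nat_lit 98) (nat_lit 5) (nat_lit 528) (nat_lit 434) (nat_lit 238)) (XT.lf (nat_lit 0) (nat_lit 13498832159) (nat_lit 228) (nat_lit 30617453470) (nat_lit 76) (nat_lit 15430219974) (nat_lit 92) (nat_lit 5) (nat_lit 95) (nat_lit 5) (nat_lit 93) (nat_lit 5) (nat_lit 529) (nat_lit 434) (nat_lit 237)))) (XT.nd (nat_lit 156) (nat_lit 152) (nat_lit 0) (XT.nd (nat_lit 78) (nat_lit 0) (nat_lit 0) (XT.lf (nat_lit 0) (nat_lit 5536064899) (nat_lit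 152) (nat_lit 24916835183) (nat_lit 228) (nat_lit 30281208310) (nat_lit 90) (nat_lit 5) (nat_lit 92) (nat_lit 5) (nat_lit 93) (nat_lit 5) (nat_lit 530) (nat_lit 434) (nat_lit 236)) (XT.lf (nat_lit 0) (nat_lit 43395463007) (nat_lit 152) (nat_lit 4825871910) (nat_lit 228) (nat_lit 13726832071) (nat_lit 90) (nat_lit 5) (nat_lit 92) (nat_lit 5) (nat_lit 93) (nat_lit 5) (nat_lit 531) (nat_lit 434) (nat_lit 235))) (XT.nd (nat_lit 78) (nat_lit 0) (nat_lit 0) (XT.lf (nat_lit 0) (nat_lit 3598405957) (nat_lit 152) (nat_lit 43811831011) (nat_lit 76) (nat_lit 15777278906) (nat_lit 88) (nat_lit 5) (nat_lit 90) (nat_lit 5) (nat_lit 89) (nat_lit 5) (nat_lit 532) (nat_lit 434) (nat_lit 234)) (XT.lf (nat_lit 0) (nat_lit 21401133926) (nat_lit 152) (nat_lit 5827979164) (nat_lit 76) (nat_lit 37223846066) (nat_lit 88) (nat_lit 5) (nat_lit 90) (nat_lit 5) (nat_lit 89) (nat_lit 5) (nat_lit 533) (nat_lit 434) (nat_lit 233))))) (XT.nd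 (nat_lit 312) (nat_lit 304) (nat_lit 0) (XT.nd (nat_lit 156) (nat_lit 228) (nat_lit 0) (XT.nd (nat_lit 78) (nat_lit 76) (nat_lit 0) (XT.lf (nat_lit 0) (nat_lit 33951846108) (nat_lit 152) (nat_lit 6109207988) (nat_lit 228) (nat_lit 25685618393) (nat_lit 86) (nat_lit 5) (nat_lit 88) (nat_lit 5) (nat_lit 89) (nat_lit 5) (nat_lit 534) (nat_lit 434) (nat_lit 232)) (XT.lf (nat_lit 0) (nat_lit 7965497344) (nat_lit 76) (nat_lit 51598414885) (nat_lit 152) (nat_lit 7506790842) (nat_lit 85) (nat_lit 5) (nat_lit 86) (nat_lit 5) (nat_lit 87) (nat_lit 4) (nat_lit 535) (nat_lit 434) (nat_lit 231))) (XT.nd (nat_lit 78) (nat_lit 152) (nat_lit 0) (XT.lf (nat_lit 0) (nat_lit 11380000724) (nat_lit 152) (nat_lit 19032003941) (nat_lit 76) (nat_lit 38007770373) (nat_lit 84) (nat_lit 5) (nat_lit 86) (nat_lit 5) (nat_lit 85) (nat_lit 5) (nat_lit 536) (nat_lit 434) (nat_lit 230)) (XT.lf (nat_lit 0) (nat_lit 22604256510) (nat_lit 152) (nat_lit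 8292400406) (nat_lit 228) (nat_lit 38904008364) (nat_lit 82) (nat_lit 5) (nat_lit 84) (nat_lit 5) (nat_lit 85) (nat_lit 5) (nat_lit 537) (nat_lit 434) (nat_lit 229)))) (XT.nd (nat_lit 156) (nat_lit 152) (nat_lit 0) (XT.nd (nat_lit 78) (nat_lit 152) (nat_lit 0) (XT.lf (nat_lit 0) (nat_lit 51329059059) (nat_lit 228) (nat_lit 5484584041) (nat_lit 76) (nat_lit 14399431796) (nat_lit 82) (nat_lit 5) (nat_lit 85) (nat_lit 5) (nat_lit 83) (nat_lit 4) (nat_lit 538) (nat_lit 434) (nat_lit 228)) (XT.lf (nat_lit 0) (nat_lit 162347872) (nat_lit 152) (nat_lit 34521177943) (nat_lit 76) (nat_lit 37970914282) (nat_lit 80) (nat_lit 5) (nat_lit 82) (nat_lit 5) (nat_lit 81) (nat_lit 5) (nat_lit 539) (nat_lit 434) (nat_lit 227))) (XT.nd (nat_lit 78) (nat_lit 0) (nat_lit 0) (XT.lf (nat_lit 0) (nat_lit 9007287928) (nat_lit 152) (nat_lit 11542639712) (nat_lit 228) (nat_lit 53579028295) (nat_lit 78) (nat_lit 5) (nat_lit 80) (nat_lit 5)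 (nat_lit 81) (nat_lit 5) (nat_lit 540) (nat_lit 434) (nat_lit 226)) (XT.lf (nat_lit 0) (nat_lit 42016312080) (nat_lit 228) (nat_lit 21215358173) (nat_lit 76) (nat_lit 12402021724) (nat_lit 78) (nat_lit 5) (nat_lit 81) (nat_lit 5) (nat_lit 79) (nat_lit 4) (nat_lit 541) (nat_lit 434) (nat_lit 225))))))) (XT.nd (nat_lit 54678) (nat_lit 0) (nat_lit 16340) (XT.nd (nat_lit 624) (nat_lit 228) (nat_lit 0) (XT.nd (nat_lit 312) (nat_lit 304) (nat_lit 0) (XT.nd (nat_lit 156) (nat_lit 228) (nat_lit 0) (XT.nd (nat_lit 78) (nat_lit 76) (nat_lit 0) (XT.lf (nat_lit 0) (nat_lit 24363695735) (nat_lit 76) (nat_lit 40108529824) (nat_lit 152) (nat_lit 12700978461) (nat_lit 77) (nat_lit 5) (nat_lit 78) (nat_lit 5) (nat_lit 79) (nat_lit 4) (nat_lit 542) (nat_lit 434) (nat_lit 224)) (XT.lf (nat_lit 0) (nat_lit 8883771465) (nat_lit 152) (nat_lit 7100172687) (nat_lit 76) (nat_lit 62766004805) (nat_lit 76) (nat_lit 5) (nat_lit 78) (nat_lit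 5) (nat_lit 77) (nat_lit 5) (nat_lit 543) (nat_lit 434) (nat_lit 223))) (XT.nd (nat_lit 78) (nat_lit 76) (nat_lit 0) (XT.lf (nat_lit 0) (nat_lit 31338908759) (nat_lit 228) (nat_lit 39806544248) (nat_lit 76) (nat_lit 9210427050) (nat_lit 74) (nat_lit 5) (nat_lit 77) (nat_lit 5) (nat_lit 75) (nat_lit 4) (nat_lit 544) (nat_lit 434) (nat_lit 222)) (XT.lf (nat_lit 0) (nat_lit 7752925524) (nat_lit 76) (nat_lit 47017116692) (nat_lit 152) (nat_lit 27230876654) (nat_lit 73) (nat_lit 5) (nat_lit 74) (nat_lit 5) (nat_lit 75) (nat_lit 4) (nat_lit 545) (nat_lit 434) (nat_lit 221)))) (XT.nd (nat_lit 156) (nat_lit 76) (nat_lit 0) (XT.nd (nat_lit 78) (nat_lit 228) (nat_lit 0) (XT.lf (nat_lit 0) (nat_lit 57549794578) (nat_lit 76) (nat_lit 21753465999) (nat_lit 152) (nat_lit 4380073783) (nat_lit 73) (nat_lit 5) (nat_lit 74) (nat_lit 5) (nat_lit 75) (nat_lit 4) (nat_lit 546) (nat_lit 434) (nat_lit 220)) (XT.lf (nat_lit 0) (nat_lit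 19052558784) (nat_lit 228) (nat_lit 61751680957) (nat_lit 76) (nat_lit 4598354969) (nat_lit 70) (nat_lit 5) (nat_lit 73) (nat_lit 5) (nat_lit 71) (nat_lit 4) (nat_lit 547) (nat_lit 434) (nat_lit 219))) (XT.nd (nat_lit 78) (nat_lit 76) (nat_lit 0) (XT.lf (nat_lit 0) (nat_lit 43579270414) (nat_lit 228) (nat_lit 11967548396) (nat_lit 76) (nat_lit 31610939027) (nat_lit 70) (nat_lit 5) (nat_lit 73) (nat_lit 5) (nat_lit 71) (nat_lit 4) (nat_lit 548) (nat_lit 434) (nat_lit 218)) (XT.lf (nat_lit 0) (nat_lit 40087223653) (nat_lit 76) (nat_lit 29137226951) (nat_lit 152) (nat_lit 19729645274) (nat_lit 69) (nat_lit 5) (nat_lit 70) (nat_lit 5) (nat_lit 71) (nat_lit 4) (nat_lit 549) (nat_lit 434) (nat_lit 217))))) (XT.nd (nat_lit 53742) (nat_lit 0) (nat_lit 19836) (XT.nd (nat_lit 53586) (nat_lit 0) (nat_lit 19760) (XT.nd (nat_lit 53508) (nat_lit 0) (nat_lit 19760) (XT.lf (nat_lit 0) (nat_lit 3157065199) (nat_lit 152) (nat_lit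 1732975360) (nat_lit 228) (nat_lit 85908397719) (nat_lit 66) (nat_lit 5) (nat_lit 68) (nat_lit 5) (nat_lit 69) (nat_lit 5) (nat_lit 550) (nat_lit 434) (nat_lit 216)) (XT.lf (nat_lit 0) (nat_lit 1641682346) (nat_lit 0) (nat_lit 1641682346) (nat_lit 1140) (nat_lit 2599115697) (nat_lit 326) (nat_lit 5) (nat_lit 326) (nat_lit 3) (nat_lit 341) (nat_lit 3) (nat_lit 435) (nat_lit 435) (nat_lit 330))) (XT.nd (nat_lit 78) (nat_lit 0) (nat_lit 0) (XT.lf (nat_lit 0) (nat_lit 7179069988) (nat_lit 1140) (nat_lit 2661114583) (nat_lit 1216) (nat_lit 2085787957) (nat_lit 326) (nat_lit 5) (nat_lit 341) (nat_lit 3) (nat_lit 342) (nat_lit 5) (nat_lit 436) (nat_lit 435) (nat_lit 329)) (XT.lf (nat_lit 76) (nat_lit 3356673696) (nat_lit 0) (nat_lit 4498718960) (nat_lit 1216) (nat_lit 4235055469) (nat_lit 327) (nat_lit 5) (nat_lit 326) (nat_lit 5) (nat_lit 342) (nat_lit 5) (nat_lit 437) (nat_lit 435) (nat_lit 328)))) (XT.nd (nat_lit 156)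 (nat_lit 0) (nat_lit 0) (XT.nd (nat_lit 78) (nat_lit 0) (nat_lit 0) (XT.lf (nat_lit 0) (nat_lit 8570163210) (nat_lit 1140) (nat_lit 2670256943) (nat_lit 1216) (nat_lit 1018894892) (nat_lit 327) (nat_lit 5) (nat_lit 342) (nat_lit 5) (nat_lit 343) (nat_lit 5) (nat_lit 438) (nat_lit 435) (nat_lit 327)) (XT.lf (nat_lit 76) (nat_lit 3590153393) (nat_lit 0) (nat_lit 5777197118) (nat_lit 1216) (nat_lit 3064069998) (nat_lit 328) (nat_lit 5) (nat_lit 327) (nat_lit 5) (nat_lit 343) (nat_lit 5) (nat_lit 439) (nat_lit 435) (nat_lit 326))) (XT.nd (nat_lit 78) (nat_lit 0) (nat_lit 76) (XT.lf (nat_lit 76) (nat_lit 10082689177) (nat_lit 0) (nat_lit 115076088) (nat_lit 1216) (nat_lit 2410646212) (nat_lit 328) (nat_lit 5) (nat_lit 327) (nat_lit 5) (nat_lit 343) (nat_lit 5) (nat_lit 440) (nat_lit 435) (nat_lit 325)) (XT.lf (nat_lit 76) (nat_lit 3991519213) (nat_lit 0) (nat_lit 7137825677) (nat_lit 1216) (nat_lit 1659081358) (nat_lit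 329) (nat_lit 5) (nat_lit 328) (nat_lit 5) (nat_lit 344) (nat_lit 5) (nat_lit 441) (nat_lit 435) (nat_lit 324)))))) (XT.nd (nat_lit 624) (nat_lit 2432) (nat_lit 0) (XT.nd (nat_lit 312) (nat_lit 0) (nat_lit 76) (XT.nd (nat_lit 156) (nat_lit 0) (nat_lit 0) (XT.nd (nat_lit 78) (nat_lit 1140) (nat_lit 0) (XT.lf (nat_lit 76) (nat_lit 10744291562) (nat_lit 0) (nat_lit 1354537787) (nat_lit 1216) (nat_lit 874714987) (nat_lit 329) (nat_lit 5) (nat_lit 328) (nat_lit 5) (nat_lit 344) (nat_lit 5) (nat_lit 442) (nat_lit 435) (nat_lit 323)) (XT.lf (nat_lit 0) (nat_lit 7229400) (nat_lit 1216) (nat_lit 8592602518) (nat_lit 1292) (nat_lit 4562222530) (nat_lit 313) (nat_lit 5) (nat_lit 329) (nat_lit 5) (nat_lit 330) (nat_lit 5) (nat_lit 443) (nat_lit 435) (nat_lit 322))) (XT.nd (nat_lit 78) (nat_lit 0) (nat_lit 76) (XT.lf (nat_lit 0) (nat_lit 918272448) (nat_lit 1216) (nat_lit 1771070550) (nat_lit 1292) (nat_lit 10666011873) (nat_lit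 313) (nat_lit 5) (nat_lit 329) (nat_lit 5) (nat_lit 330) (nat_lit 5) (nat_lit 444) (nat_lit 435) (nat_lit 321)) (XT.lf (nat_lit 0) (nat_lit 1925824778) (nat_lit 1216) (nat_lit 8237843720) (nat_lit 1292) (nat_lit 3388711890) (nat_lit 314) (nat_lit 5) (nat_lit 330) (nat_lit 5) (nat_lit 331) (nat_lit 5) (nat_lit 445) (nat_lit 435) (nat_lit 320)))) (XT.nd (nat_lit 156) (nat_lit 0) (nat_lit 76) (XT.nd (nat_lit 78) (nat_lit 0) (nat_lit 76) (XT.lf (nat_lit 0) (nat_lit 2993223455) (nat_lit 1216) (nat_lit 1143684687) (nat_lit 1292) (nat_lit 9617521314) (nat_lit 314) (nat_lit 5) (nat_lit 330) (nat_lit 5) (nat_lit 331) (nat_lit 5) (nat_lit 446) (nat_lit 435) (nat_lit 319)) (XT.lf (nat_lit 0) (nat_lit 4158871366) (nat_lit 1216) (nat_lit 7706756945) (nat_lit 1292) (nat_lit 2094926204) (nat_lit 315) (nat_lit 5) (nat_lit 331) (nat_lit 5) (nat_lit 332) (nat_lit 5) (nat_lit 447) (nat_lit 435) (nat_lit 318))) (XT.nd (nat_lit 78)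 (nat_lit 0) (nat_lit 76) (XT.lf (nat_lit 0) (nat_lit 5397839781) (nat_lit 1216) (nat_lit 328095252) (nat_lit 1292) (nat_lit 8445779062) (nat_lit 315) (nat_lit 5) (nat_lit 331) (nat_lit 5) (nat_lit 332) (nat_lit 5) (nat_lit 448) (nat_lit 435) (nat_lit 317)) (XT.lf (nat_lit 0) (nat_lit 6737790204) (nat_lit 1216) (nat_lit 6988363612) (nat_lit 1292) (nat_lit 661141518) (nat_lit 316) (nat_lit 5) (nat_lit 332) (nat_lit 5) (nat_lit 333) (nat_lit 5) (nat_lit 449) (nat_lit 435) (nat_lit 316))))) (XT.nd (nat_lit 312) (nat_lit 1520) (nat_lit 0) (XT.nd (nat_lit 156) (nat_lit 1140) (nat_lit 0) (XT.nd (nat_lit 78) (nat_lit 0) (nat_lit 0) (XT.lf (nat_lit 76) (nat_lit 701047873) (nat_lit 0) (nat_lit 7470140199) (nat_lit 1292) (nat_lit 6436559696) (nat_lit 317) (nat_lit 5) (nat_lit 316) (nat_lit 5) (nat_lit 333) (nat_lit 5) (nat_lit 450) (nat_lit 435) (nat_lit 315)) (XT.lf (nat_lit 76) (nat_lit 8753348306) (nat_lit 0) (nat_lit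 951567852) (nat_lit 1292) (nat_lit 5128178958) (nat_lit 317) (nat_lit 5) (nat_lit 316) (nat_lit 5) (nat_lit 333) (nat_lit 5) (nat_lit 451) (nat_lit 435) (nat_lit 314))) (XT.nd (nat_lit 78) (nat_lit 0) (nat_lit 0) (XT.lf (nat_lit 0) (nat_lit 1953610093) (nat_lit 1216) (nat_lit 9392384174) (nat_lit 1292) (nat_lit 3717369625) (nat_lit 301) (nat_lit 5) (nat_lit 317) (nat_lit 5) (nat_lit 318) (nat_lit 5) (nat_lit 452) (nat_lit 435) (nat_lit 313)) (XT.lf (nat_lit 0) (nat_lit 10331963260) (nat_lit 1216) (nat_lit 2762497542) (nat_lit 1292) (nat_lit 2204336369) (nat_lit 301) (nat_lit 5) (nat_lit 317) (nat_lit 5) (nat_lit 318) (nat_lit 5) (nat_lit 453) (nat_lit 435) (nat_lit 312)))) (XT.nd (nat_lit 156) (nat_lit 608) (nat_lit 0) (XT.nd (nat_lit 78) (nat_lit 76) (nat_lit 0) (XT.lf (nat_lit 0) (nat_lit 3437274835) (nat_lit 836) (nat_lit 11518049182) (nat_lit 912) (nat_lit 584172238) (nat_lit 290) (nat_lit 5) (nat_lit 301)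 (nat_lit 5) (nat_lit 302) (nat_lit 5) (nat_lit 454) (nat_lit 435) (nat_lit 311)) (XT.lf (nat_lit 0) (nat_lit 1129379835) (nat_lit 912) (nat_lit 3640080452) (nat_lit 76) (nat_lit 11015665855) (nat_lit 289) (nat_lit 5) (nat_lit 301) (nat_lit 5) (nat_lit 290) (nat_lit 5) (nat_lit 455) (nat_lit 435) (nat_lit 310))) (XT.nd (nat_lit 78) (nat_lit 0) (nat_lit 0) (XT.lf (nat_lit 0) (nat_lit 2942019835) (nat_lit 684) (nat_lit 10898402901) (nat_lit 76) (nat_lit 2195746989) (nat_lit 281) (nat_lit 5) (nat_lit 290) (nat_lit 5) (nat_lit 282) (nat_lit 5) (nat_lit 456) (nat_lit 435) (nat_lit 309)) (XT.lf (nat_lit 0) (nat_lit 4881922081) (nat_lit 684) (nat_lit 2098795704) (nat_lit 76) (nat_lit 9311841307) (nat_lit 281) (nat_lit 5) (nat_lit 290) (nat_lit 5) (nat_lit 282) (nat_lit 5) (nat_lit 457) (nat_lit 435) (nat_lit 308))))))))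
noncomputable def xc172 : XT := (XT.nd (nat_lit 2418) (nat_lit 4864) (nat_lit 0) (XT.nd (nat_lit 1170) (nat_lit 3420) (nat_lit 0) (XT.nd (nat_lit 546) (nat_lit 2432) (nat_lit 0) (XT.nd (nat_lit 234) (nat_lit 1216) (nat_lit 0) (XT.nd (nat_lit 78) (nat_lit 532) (nat_lit 0) (XT.lf (nat_lit 0) (nat_lit 6938563620) (nat_lit 684) (nat_lit 9464035654) (nat_lit 76) (nat_lit 152285537) (nat_lit 273) (nat_lit 5) (nat_lit 282) (nat_lit 5) (nat_lit 274) (nat_lit 5) (nat_lit 458) (nat_lit 435) (nat_lit 307)) (XT.nd (nat_lit 78) (nat_lit 532) (nat_lit 0) (XT.lf (nat_lit 0) (nat_lit 9136519974) (nat_lit 684) (nat_lit 305598542) (nat_lit 76) (nat_lit 7380574231) (nat_lit 273) (nat_lit 5) (nat_lit 282) (nat_lit 5) (nat_lit 274) (nat_lit 5) (nat_lit 459) (nat_lit 435) (nat_lit 306)) (XT.lf (nat_lit 0) (nat_lit 9298322024) (nat_lit 532) (nat_lit 2180887738) (nat_lit 608) (nat_lit 5616962201) (nat_lit 266) (nat_lit 5) (nat_lit 273)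 (nat_lit 5) (nat_lit 274) (nat_lit 5) (nat_lit 460) (nat_lit 435) (nat_lit 305)))) (XT.nd (nat_lit 156) (nat_lit 608) (nat_lit 0) (XT.nd (nat_lit 78) (nat_lit 0) (nat_lit 0) (XT.lf (nat_lit 0) (nat_lit 1791950768) (nat_lit 608) (nat_lit 12161118407) (nat_lit 684) (nat_lit 3422960571) (nat_lit 258) (nat_lit 5) (nat_lit 266) (nat_lit 5) (nat_lit 267) (nat_lit 5) (nat_lit 461) (nat_lit 435) (nat_lit 304)) (XT.lf (nat_lit 0) (nat_lit 11796459685) (nat_lit 608) (nat_lit 4794625159) (nat_lit 684) (nat_lit 1070501039) (nat_lit 258) (nat_lit 5) (nat_lit 266) (nat_lit 5) (nat_lit 267) (nat_lit 5) (nat_lit 462) (nat_lit 435) (nat_lit 303))) (XT.nd (nat_lit 78) (nat_lit 0) (nat_lit 0) (XT.lf (nat_lit 0) (nat_lit 1383931152) (nat_lit 608) (nat_lit 13778047820) (nat_lit 76) (nat_lit 2791606727) (nat_lit 250) (nat_lit 5) (nat_lit 258) (nat_lit 5) (nat_lit 251) (nat_lit 5) (nat_lit 463) (nat_lit 435) (nat_lit 302)) (XT.lf (nat_lit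 0) (nat_lit 3987960068) (nat_lit 608) (nat_lit 3684452659) (nat_lit 76) (nat_lit 10578691183) (nat_lit 250) (nat_lit 5) (nat_lit 258) (nat_lit 5) (nat_lit 251) (nat_lit 5) (nat_lit 464) (nat_lit 435) (nat_lit 301))))) (XT.nd (nat_lit 312) (nat_lit 988) (nat_lit 0) (XT.nd (nat_lit 156) (nat_lit 912) (nat_lit 0) (XT.nd (nat_lit 78) (nat_lit 0) (nat_lit 0) (XT.lf (nat_lit 0) (nat_lit 6727333540) (nat_lit 608) (nat_lit 11722145869) (nat_lit 76) (nat_lit 106352289) (nat_lit 243) (nat_lit 5) (nat_lit 251) (nat_lit 5) (nat_lit 244) (nat_lit 5) (nat_lit 465) (nat_lit 435) (nat_lit 300)) (XT.lf (nat_lit 0) (nat_lit 9653073943) (nat_lit 608) (nat_lit 1212749937) (nat_lit 76) (nat_lit 8000752587) (nat_lit 243) (nat_lit 5) (nat_lit 251) (nat_lit 5) (nat_lit 244) (nat_lit 5) (nat_lit 466) (nat_lit 435) (nat_lit 299))) (XT.nd (nat_lit 78) (nat_lit 456) (nat_lit 0) (XT.lf (nat_lit 0) (nat_lit 9792601185) (nat_lit 456) (nat_lit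 2959037383) (nat_lit 532) (nat_lit 6432454149) (nat_lit 237) (nat_lit 5) (nat_lit 243) (nat_lit 5) (nat_lit 244) (nat_lit 5) (nat_lit 467) (nat_lit 435) (nat_lit 298)) (XT.lf (nat_lit 0) (nat_lit 1613154037) (nat_lit 456) (nat_lit 14398792740) (nat_lit 532) (nat_lit 3497124757) (nat_lit 231) (nat_lit 5) (nat_lit 237) (nat_lit 5) (nat_lit 238) (nat_lit 5) (nat_lit 468) (nat_lit 435) (nat_lit 297)))) (XT.nd (nat_lit 156) (nat_lit 456) (nat_lit 0) (XT.nd (nat_lit 78) (nat_lit 532) (nat_lit 0) (XT.lf (nat_lit 0) (nat_lit 13100110295) (nat_lit 456) (nat_lit 6385030656) (nat_lit 532) (nat_lit 355207121) (nat_lit 231) (nat_lit 5) (nat_lit 237) (nat_lit 5) (nat_lit 238) (nat_lit 5) (nat_lit 469) (nat_lit 435) (nat_lit 296)) (XT.lf (nat_lit 0) (nat_lit 2881030592) (nat_lit 532) (nat_lit 15392420108) (nat_lit 76) (nat_lit 1905593600) (nat_lit 224) (nat_lit 5) (nat_lit 231) (nat_lit 5) (nat_lit 225) (nat_lit 5) (nat_lit 470)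 (nat_lit 435) (nat_lit 295))) (XT.nd (nat_lit 78) (nat_lit 456) (nat_lit 0) (XT.lf (nat_lit 0) (nat_lit 6330707678) (nat_lit 532) (nat_lit 3806275243) (nat_lit 76) (nat_lit 10387108842) (nat_lit 224) (nat_lit 5) (nat_lit 231) (nat_lit 5) (nat_lit 225) (nat_lit 5) (nat_lit 471) (nat_lit 435) (nat_lit 294)) (XT.lf (nat_lit 0) (nat_lit 8278841764) (nat_lit 456) (nat_lit 1676397465) (nat_lit 532) (nat_lit 10922111081) (nat_lit 218) (nat_lit 5) (nat_lit 224) (nat_lit 5) (nat_lit 225) (nat_lit 5) (nat_lit 472) (nat_lit 435) (nat_lit 293)))))) (XT.nd (nat_lit 624) (nat_lit 1444) (nat_lit 0) (XT.nd (nat_lit 312) (nat_lit 1064) (nat_lit 0) (XT.nd (nat_lit 156) (nat_lit 532) (nat_lit 0) (XT.nd (nat_lit 78) (nat_lit 380) (nat_lit 0) (XT.lf (nat_lit 0) (nat_lit 13786883172) (nat_lit 532) (nat_lit 513836801) (nat_lit 76) (nat_lit 6937535916) (nat_lit 218) (nat_lit 5) (nat_lit 225) (nat_lit 5) (nat_lit 219) (nat_lit 5) (nat_lit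 473) (nat_lit 435) (nat_lit 292)) (XT.lf (nat_lit 0) (nat_lit 12143758890) (nat_lit 380) (nat_lit 5715190871) (nat_lit 456) (nat_lit 3747275226) (nat_lit 213) (nat_lit 5) (nat_lit 218) (nat_lit 5) (nat_lit 219) (nat_lit 5) (nat_lit 474) (nat_lit 435) (nat_lit 291))) (XT.nd (nat_lit 78) (nat_lit 0) (nat_lit 0) (XT.lf (nat_lit 0) (nat_lit 125803948) (nat_lit 532) (nat_lit 18755373783) (nat_lit 76) (nat_lit 3102260815) (nat_lit 206) (nat_lit 5) (nat_lit 213) (nat_lit 5) (nat_lit 207) (nat_lit 5) (nat_lit 475) (nat_lit 435) (nat_lit 290)) (XT.lf (nat_lit 0) (nat_lit 4185152073) (nat_lit 532) (nat_lit 5980607743) (nat_lit 76) (nat_lit 12200734354) (nat_lit 206) (nat_lit 5) (nat_lit 213) (nat_lit 5) (nat_lit 207) (nat_lit 5) (nat_lit 476) (nat_lit 435) (nat_lit 289)))) (XT.nd (nat_lit 156) (nat_lit 684) (nat_lit 0) (XT.nd (nat_lit 78) (nat_lit 0) (nat_lit 0) (XT.lf (nat_lit 0) (nat_lit 7310190408) (nat_lit 380) (nat_lit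 1118892908) (nat_lit 456) (nat_lit 14330074556) (nat_lit 201) (nat_lit 5) (nat_lit 206) (nat_lit 5) (nat_lit 207) (nat_lit 5) (nat_lit 477) (nat_lit 435) (nat_lit 288)) (XT.lf (nat_lit 0) (nat_lit 12932773368) (nat_lit 456) (nat_lit 2128855911) (nat_lit 76) (nat_lit 8097999457) (nat_lit 201) (nat_lit 5) (nat_lit 207) (nat_lit 5) (nat_lit 202) (nat_lit 5) (nat_lit 478) (nat_lit 435) (nat_lit 287))) (XT.nd (nat_lit 78) (nat_lit 304) (nat_lit 0) (XT.lf (nat_lit 0) (nat_lit 11800378938) (nat_lit 380) (nat_lit 5888553420) (nat_lit 456) (nat_lit 5879661083) (nat_lit 196) (nat_lit 5) (nat_lit 201) (nat_lit 5) (nat_lit 202) (nat_lit 5) (nat_lit 479) (nat_lit 435) (nat_lit 286)) (XT.lf (nat_lit 0) (nat_lit 2200698555) (nat_lit 304) (nat_lit 20457099797) (nat_lit 380) (nat_lit 1329928515) (nat_lit 192) (nat_lit 5) (nat_lit 196) (nat_lit 5) (nat_lit 197) (nat_lit 5) (nat_lit 480) (nat_lit 435) (nat_lit 285))))) (XT.nd (nat_lit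 312) (nat_lit 684) (nat_lit 0) (XT.nd (nat_lit 156) (nat_lit 304) (nat_lit 0) (XT.nd (nat_lit 78) (nat_lit 380) (nat_lit 0) (XT.lf (nat_lit 0) (nat_lit 3462100610) (nat_lit 380) (nat_lit 7687501719) (nat_lit 76) (nat_lit 13263725566) (nat_lit 191) (nat_lit 5) (nat_lit 196) (nat_lit 5) (nat_lit 192) (nat_lit 5) (nat_lit 481) (nat_lit 435) (nat_lit 284)) (XT.lf (nat_lit 0) (nat_lit 6947900766) (nat_lit 380) (nat_lit 1483234462) (nat_lit 456) (nat_lit 16418367864) (nat_lit 186) (nat_lit 5) (nat_lit 191) (nat_lit 5) (nat_lit 192) (nat_lit 5) (nat_lit 482) (nat_lit 435) (nat_lit 283))) (XT.nd (nat_lit 78) (nat_lit 304) (nat_lit 0) (XT.lf (nat_lit 0) (nat_lit 13702356056) (nat_lit 456) (nat_lit 3208303457) (nat_lit 76) (nat_lit 8383510973) (nat_lit 186) (nat_lit 5) (nat_lit 192) (nat_lit 5) (nat_lit 187) (nat_lit 5) (nat_lit 483) (nat_lit 435) (nat_lit 282)) (XT.lf (nat_lit 0) (nat_lit 12138654561) (nat_lit 304) (nat_lit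 7117893679) (nat_lit 380) (nat_lit 6491885007) (nat_lit 182) (nat_lit 5) (nat_lit 186) (nat_lit 5) (nat_lit 187) (nat_lit 5) (nat_lit 484) (nat_lit 435) (nat_lit 281)))) (XT.nd (nat_lit 156) (nat_lit 304) (nat_lit 0) (XT.nd (nat_lit 78) (nat_lit 76) (nat_lit 0) (XT.lf (nat_lit 0) (nat_lit 1793172110) (nat_lit 304) (nat_lit 23256225784) (nat_lit 380) (nat_lit 1164765422) (nat_lit 178) (nat_lit 5) (nat_lit 182) (nat_lit 5) (nat_lit 183) (nat_lit 5) (nat_lit 485) (nat_lit 435) (nat_lit 280)) (XT.lf (nat_lit 0) (nat_lit 4440668804) (nat_lit 380) (nat_lit 8875360351) (nat_lit 76) (nat_lit 13370504803) (nat_lit 177) (nat_lit 5) (nat_lit 182) (nat_lit 5) (nat_lit 178) (nat_lit 5) (nat_lit 486) (nat_lit 435) (nat_lit 279))) (XT.nd (nat_lit 78) (nat_lit 0) (nat_lit 0) (XT.lf (nat_lit 0) (nat_lit 7257568842) (nat_lit 304) (nat_lit 2996813035) (nat_lit 380) (nat_lit 16916442422) (nat_lit 173) (nat_lit 5) (nat_lit 177) (nat_lit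 5) (nat_lit 178) (nat_lit 5) (nat_lit 487) (nat_lit 435) (nat_lit 278)) (XT.lf (nat_lit 0) (nat_lit 16400209327) (nat_lit 380) (nat_lit 3694009423) (nat_lit 76) (nat_lit 7570693845) (nat_lit 173) (nat_lit 5) (nat_lit 178) (nat_lit 5) (nat_lit 174) (nat_lit 5) (nat_lit 488) (nat_lit 435) (nat_lit 277))))))) (XT.nd (nat_lit 1170) (nat_lit 2204) (nat_lit 0) (XT.nd (nat_lit 546) (nat_lit 1064) (nat_lit 0) (XT.nd (nat_lit 234) (nat_lit 912) (nat_lit 0) (XT.nd (nat_lit 78) (nat_lit 380) (nat_lit 0) (XT.lf (nat_lit 0) (nat_lit 13231376858) (nat_lit 304) (nat_lit 9649902621) (nat_lit 380) (nat_lit 5288018348) (nat_lit 169) (nat_lit 5) (nat_lit 173) (nat_lit 5) (nat_lit 174) (nat_lit 5) (nat_lit 489) (nat_lit 435) (nat_lit 276)) (XT.nd (nat_lit 78) (nat_lit 0) (nat_lit 0) (XT.lf (nat_lit 0) (nat_lit 913962253) (nat_lit 380) (nat_lit 26622938273) (nat_lit 76) (nat_lit 1149776122) (nat_lit 164) (nat_lit 5) (nat_lit 169) (nat_lit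 5) (nat_lit 165) (nat_lit 5) (nat_lit 490) (nat_lit 435) (nat_lit 275)) (XT.lf (nat_lit 0) (nat_lit 7437696989) (nat_lit 380) (nat_lit 9491832920) (nat_lit 76) (nat_lit 12281217165) (nat_lit 164) (nat_lit 5) (nat_lit 169) (nat_lit 5) (nat_lit 165) (nat_lit 5) (nat_lit 491) (nat_lit 435) (nat_lit 274)))) (XT.nd (nat_lit 156) (nat_lit 608) (nat_lit 0) (XT.nd (nat_lit 78) (nat_lit 0) (nat_lit 0) (XT.lf (nat_lit 0) (nat_lit 8306511152) (nat_lit 304) (nat_lit 5924749633) (nat_lit 380) (nat_lit 15517055604) (nat_lit 160) (nat_lit 5) (nat_lit 164) (nat_lit 5) (nat_lit 165) (nat_lit 5) (nat_lit 492) (nat_lit 435) (nat_lit 273)) (XT.lf (nat_lit 0) (nat_lit 21371759007) (nat_lit 380) (nat_lit 3527552030) (nat_lit 76) (nat_lit 5398408200) (nat_lit 160) (nat_lit 5) (nat_lit 165) (nat_lit 5) (nat_lit 161) (nat_lit 5) (nat_lit 493) (nat_lit 435) (nat_lit 272))) (XT.nd (nat_lit 78) (nat_lit 380) (nat_lit 0) (XT.lf (nat_lit 0)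 (nat_lit 15152567870) (nat_lit 228) (nat_lit 13772709982) (nat_lit 304) (nat_lit 1932362421) (nat_lit 157) (nat_lit 5) (nat_lit 160) (nat_lit 5) (nat_lit 161) (nat_lit 5) (nat_lit 494) (nat_lit 435) (nat_lit 271)) (XT.lf (nat_lit 0) (nat_lit 3031643019) (nat_lit 304) (nat_lit 2196173145) (nat_lit 380) (nat_lit 26203234080) (nat_lit 152) (nat_lit 5) (nat_lit 156) (nat_lit 5) (nat_lit 157) (nat_lit 5) (nat_lit 495) (nat_lit 435) (nat_lit 270))))) (XT.nd (nat_lit 312) (nat_lit 532) (nat_lit 0) (XT.nd (nat_lit 156) (nat_lit 304) (nat_lit 0) (XT.nd (nat_lit 78) (nat_lit 228) (nat_lit 0) (XT.lf (nat_lit 0) (nat_lit 12812192163) (nat_lit 380) (nat_lit 9487371721) (nat_lit 76) (nat_lit 9714077990) (nat_lit 152) (nat_lit 5) (nat_lit 157) (nat_lit 5) (nat_lit 153) (nat_lit 5) (nat_lit 496) (nat_lit 435) (nat_lit 269)) (XT.lf (nat_lit 0) (nat_lit 10160138851) (nat_lit 228) (nat_lit 10578090514) (nat_lit 304) (nat_lit 11872058232)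 (nat_lit 149) (nat_lit 5) (nat_lit 152) (nat_lit 5) (nat_lit 153) (nat_lit 5) (nat_lit 497) (nat_lit 435) (nat_lit 268))) (XT.nd (nat_lit 78) (nat_lit 304) (nat_lit 0) (XT.lf (nat_lit 0) (nat_lit 29007935234) (nat_lit 304) (nat_lit 2654168397) (nat_lit 76) (nat_lit 1559552667) (nat_lit 149) (nat_lit 5) (nat_lit 153) (nat_lit 5) (nat_lit 150) (nat_lit 5) (nat_lit 498) (nat_lit 435) (nat_lit 267)) (XT.lf (nat_lit 0) (nat_lit 3877785358) (nat_lit 304) (nat_lit 15907726605) (nat_lit 76) (nat_lit 14056541133) (nat_lit 145) (nat_lit 5) (nat_lit 149) (nat_lit 5) (nat_lit 146) (nat_lit 5) (nat_lit 499) (nat_lit 435) (nat_lit 266)))) (XT.nd (nat_lit 156) (nat_lit 304) (nat_lit 0) (XT.nd (nat_lit 78) (nat_lit 0) (nat_lit 0) (XT.lf (nat_lit 0) (nat_lit 4757250779) (nat_lit 228) (nat_lit 7437828126) (nat_lit 304) (nat_lit 22282699500) (nat_lit 142) (nat_lit 5) (nat_lit 145) (nat_lit 5) (nat_lit 146) (nat_lit 5) (nat_lit 500)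 (nat_lit 435) (nat_lit 265)) (XT.lf (nat_lit 0) (nat_lit 20969851572) (nat_lit 304) (nat_lit 8820094349) (nat_lit 76) (nat_lit 5336390951) (nat_lit 142) (nat_lit 5) (nat_lit 146) (nat_lit 5) (nat_lit 143) (nat_lit 5) (nat_lit 501) (nat_lit 435) (nat_lit 264))) (XT.nd (nat_lit 78) (nat_lit 76) (nat_lit 0) (XT.lf (nat_lit 0) (nat_lit 12876966190) (nat_lit 228) (nat_lit 17323446369) (nat_lit 304) (nat_lit 5588163381) (nat_lit 139) (nat_lit 5) (nat_lit 142) (nat_lit 5) (nat_lit 143) (nat_lit 5) (nat_lit 502) (nat_lit 435) (nat_lit 263)) (XT.lf (nat_lit 0) (nat_lit 3259126003) (nat_lit 304) (nat_lit 1102306396) (nat_lit 76) (nat_lit 32105763808) (nat_lit 138) (nat_lit 5) (nat_lit 142) (nat_lit 5) (nat_lit 139) (nat_lit 5) (nat_lit 503) (nat_lit 435) (nat_lit 262)))))) (XT.nd (nat_lit 624) (nat_lit 1064) (nat_lit 0) (XT.nd (nat_lit 312) (nat_lit 456) (nat_lit 0) (XT.nd (nat_lit 156) (nat_lit 228) (nat_lit 0) (XT.nd (nat_lit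 78) (nat_lit 228) (nat_lit 0) (XT.lf (nat_lit 0) (nat_lit 12552601851) (nat_lit 304) (nat_lit 15525371862) (nat_lit 76) (nat_lit 9077749175) (nat_lit 135) (nat_lit 5) (nat_lit 139) (nat_lit 5) (nat_lit 136) (nat_lit 5) (nat_lit 504) (nat_lit 435) (nat_lit 261)) (XT.lf (nat_lit 0) (nat_lit 7294218879) (nat_lit 228) (nat_lit 14950518510) (nat_lit 304) (nat_lit 15616572495) (nat_lit 132) (nat_lit 5) (nat_lit 135) (nat_lit 5) (nat_lit 136) (nat_lit 5) (nat_lit 505) (nat_lit 435) (nat_lit 260))) (XT.nd (nat_lit 78) (nat_lit 228) (nat_lit 0) (XT.lf (nat_lit 0) (nat_lit 31108891254) (nat_lit 228) (nat_lit 1270898486) (nat_lit 304) (nat_lit 6203710344) (nat_lit 132) (nat_lit 5) (nat_lit 135) (nat_lit 5) (nat_lit 136) (nat_lit 5) (nat_lit 506) (nat_lit 435) (nat_lit 259)) (XT.lf (nat_lit 0) (nat_lit 3703483641) (nat_lit 228) (nat_lit 22853553248) (nat_lit 76) (nat_lit 12760910027) (nat_lit 129) (nat_lit 5) (nat_lit 132)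 (nat_lit 5) (nat_lit 130) (nat_lit 5) (nat_lit 507) (nat_lit 435) (nat_lit 258)))) (XT.nd (nat_lit 156) (nat_lit 228) (nat_lit 0) (XT.nd (nat_lit 78) (nat_lit 0) (nat_lit 0) (XT.lf (nat_lit 0) (nat_lit 1142511425) (nat_lit 228) (nat_lit 12735982316) (nat_lit 304) (nat_lit 26191232223) (nat_lit 126) (nat_lit 5) (nat_lit 129) (nat_lit 5) (nat_lit 130) (nat_lit 5) (nat_lit 508) (nat_lit 435) (nat_lit 257)) (XT.lf (nat_lit 0) (nat_lit 24601756208) (nat_lit 304) (nat_lit 14534586271) (nat_lit 76) (nat_lit 1700425997) (nat_lit 126) (nat_lit 5) (nat_lit 130) (nat_lit 5) (nat_lit 127) (nat_lit 5) (nat_lit 509) (nat_lit 435) (nat_lit 256))) (XT.nd (nat_lit 78) (nat_lit 76) (nat_lit 0) (XT.lf (nat_lit 0) (nat_lit 10664362262) (nat_lit 152) (nat_lit 25206620837) (nat_lit 228) (nat_lit 5749111319) (nat_lit 124) (nat_lit 5) (nat_lit 126) (nat_lit 5) (nat_lit 127) (nat_lit 5) (nat_lit 510) (nat_lit 435) (nat_lit 255)) (XT.lf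 (nat_lit 0) (nat_lit 5096688571) (nat_lit 228) (nat_lit 5562776077) (nat_lit 76) (nat_lit 31761682159) (nat_lit 123) (nat_lit 5) (nat_lit 126) (nat_lit 5) (nat_lit 124) (nat_lit 5) (nat_lit 511) (nat_lit 435) (nat_lit 254))))) (XT.nd (nat_lit 312) (nat_lit 380) (nat_lit 0) (XT.nd (nat_lit 156) (nat_lit 304) (nat_lit 0) (XT.nd (nat_lit 78) (nat_lit 152) (nat_lit 0) (XT.lf (nat_lit 0) (nat_lit 16393451129) (nat_lit 304) (nat_lit 22346369981) (nat_lit 76) (nat_lit 4497467933) (nat_lit 120) (nat_lit 5) (nat_lit 124) (nat_lit 5) (nat_lit 121) (nat_lit 5) (nat_lit 512) (nat_lit 435) (nat_lit 253)) (XT.lf (nat_lit 0) (nat_lit 4143505616) (nat_lit 152) (nat_lit 24083528137) (nat_lit 228) (nat_lit 15844944413) (nat_lit 118) (nat_lit 5) (nat_lit 120) (nat_lit 5) (nat_lit 121) (nat_lit 5) (nat_lit 513) (nat_lit 435) (nat_lit 252))) (XT.nd (nat_lit 78) (nat_lit 304) (nat_lit 0) (XT.lf (nat_lit 0) (nat_lit 31878947691) (nat_lit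 152) (nat_lit 8758201900) (nat_lit 228) (nat_lit 4287912727) (nat_lit 118) (nat_lit 5) (nat_lit 120) (nat_lit 5) (nat_lit 121) (nat_lit 5) (nat_lit 514) (nat_lit 435) (nat_lit 251)) (XT.lf (nat_lit 0) (nat_lit 7675594145) (nat_lit 304) (nat_lit 31014789563) (nat_lit 76) (nat_lit 7104907875) (nat_lit 114) (nat_lit 5) (nat_lit 118) (nat_lit 5) (nat_lit 115) (nat_lit 5) (nat_lit 515) (nat_lit 435) (nat_lit 250)))) (XT.nd (nat_lit 156) (nat_lit 228) (nat_lit 0) (XT.nd (nat_lit 78) (nat_lit 152) (nat_lit 0) (XT.lf (nat_lit 0) (nat_lit 20127556066) (nat_lit 304) (nat_lit 3115900501) (nat_lit 76) (nat_lit 23440425659) (nat_lit 114) (nat_lit 5) (nat_lit 118) (nat_lit 5) (nat_lit 115) (nat_lit 5) (nat_lit 516) (nat_lit 435) (nat_lit 249)) (XT.lf (nat_lit 0) (nat_lit 26122811293) (nat_lit 152) (nat_lit 7077464515) (nat_lit 228) (nat_lit 14391438927) (nat_lit 112) (nat_lit 5) (nat_lit 114) (nat_lit 5) (nat_lit 115) (nat_lit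 5) (nat_lit 517) (nat_lit 435) (nat_lit 248))) (XT.nd (nat_lit 78) (nat_lit 76) (nat_lit 0) (XT.lf (nat_lit 0) (nat_lit 7830263841) (nat_lit 152) (nat_lit 39030095279) (nat_lit 228) (nat_lit 1660567753) (nat_lit 110) (nat_lit 5) (nat_lit 112) (nat_lit 5) (nat_lit 113) (nat_lit 5) (nat_lit 518) (nat_lit 435) (nat_lit 247)) (XT.lf (nat_lit 0) (nat_lit 11513889116) (nat_lit 228) (nat_lit 11212243641) (nat_lit 76) (nat_lit 26740026133) (nat_lit 109) (nat_lit 5) (nat_lit 112) (nat_lit 5) (nat_lit 110) (nat_lit 5) (nat_lit 519) (nat_lit 435) (nat_lit 246))))))))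
noncomputable def xc173 : XT := (XT.nd (nat_lit 55926) (nat_lit 0) (nat_lit 13224) (XT.nd (nat_lit 1170) (nat_lit 1444) (nat_lit 0) (XT.nd (nat_lit 546) (nat_lit 684) (nat_lit 0) (XT.nd (nat_lit 234) (nat_lit 532) (nat_lit 0) (XT.nd (nat_lit 78) (nat_lit 228) (nat_lit 0) (XT.lf (nat_lit 0) (nat_lit 19508037311) (nat_lit 152) (nat_lit 5725922423) (nat_lit 228) (nat_lit 25199782323) (nat_lit 107) (nat_lit 5) (nat_lit 109) (nat_lit 5) (nat_lit 110) (nat_lit 5) (nat_lit 520) (nat_lit 435) (nat_lit 245)) (XT.nd (nat_lit 78) (nat_lit 228) (nat_lit 0) (XT.lf (nat_lit 0) (nat_lit 39589503165) (nat_lit 228) (nat_lit 168327695) (nat_lit 76) (nat_lit 11665805838) (nat_lit 107) (nat_lit 5) (nat_lit 110) (nat_lit 5) (nat_lit 108) (nat_lit 5) (nat_lit 521) (nat_lit 435) (nat_lit 244)) (XT.lf (nat_lit 0) (nat_lit 2259723469) (nat_lit 228) (nat_lit 20380118603) (nat_lit 76) (nat_lit 29791880460) (nat_lit 104) (nat_lit 5) (nat_lit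 107) (nat_lit 5) (nat_lit 105) (nat_lit 5) (nat_lit 522) (nat_lit 435) (nat_lit 243)))) (XT.nd (nat_lit 156) (nat_lit 380) (nat_lit 0) (XT.nd (nat_lit 78) (nat_lit 0) (nat_lit 0) (XT.lf (nat_lit 0) (nat_lit 11879661209) (nat_lit 152) (nat_lit 4771159224) (nat_lit 228) (nat_lit 36812347150) (nat_lit 102) (nat_lit 5) (nat_lit 104) (nat_lit 5) (nat_lit 105) (nat_lit 5) (nat_lit 523) (nat_lit 435) (nat_lit 242)) (XT.lf (nat_lit 0) (nat_lit 31808924531) (nat_lit 228) (nat_lit 9134034194) (nat_lit 76) (nat_lit 13572539121) (nat_lit 102) (nat_lit 5) (nat_lit 105) (nat_lit 5) (nat_lit 103) (nat_lit 5) (nat_lit 524) (nat_lit 435) (nat_lit 241))) (XT.nd (nat_lit 78) (nat_lit 228) (nat_lit 0) (XT.lf (nat_lit 0) (nat_lit 24717637271) (nat_lit 152) (nat_lit 22985463102) (nat_lit 228) (nat_lit 7887857872) (nat_lit 100) (nat_lit 5) (nat_lit 102) (nat_lit 5) (nat_lit 103) (nat_lit 5) (nat_lit 525) (nat_lit 435) (nat_lit 240))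 (XT.lf (nat_lit 0) (nat_lit 3057654706) (nat_lit 152) (nat_lit 4292879971) (nat_lit 228) (nat_lit 49342449849) (nat_lit 97) (nat_lit 5) (nat_lit 99) (nat_lit 5) (nat_lit 100) (nat_lit 5) (nat_lit 526) (nat_lit 435) (nat_lit 239))))) (XT.nd (nat_lit 312) (nat_lit 304) (nat_lit 0) (XT.nd (nat_lit 156) (nat_lit 228) (nat_lit 0) (XT.nd (nat_lit 78) (nat_lit 152) (nat_lit 0) (XT.lf (nat_lit 0) (nat_lit 23342706276) (nat_lit 228) (nat_lit 19410677010) (nat_lit 76) (nat_lit 15058690498) (nat_lit 97) (nat_lit 5) (nat_lit 100) (nat_lit 5) (nat_lit 98) (nat_lit 5) (nat_lit 527) (nat_lit 435) (nat_lit 238)) (XT.lf (nat_lit 0) (nat_lit 16106292671) (nat_lit 152) (nat_lit 23902288694) (nat_lit 228) (nat_lit 18950336281) (nat_lit 95) (nat_lit 5) (nat_lit 97) (nat_lit 5) (nat_lit 98) (nat_lit 5) (nat_lit 528) (nat_lit 435) (nat_lit 237))) (XT.nd (nat_lit 78) (nat_lit 228) (nat_lit 0) (XT.lf (nat_lit 0) (nat_lit 53080521447) (nat_lit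 152) (nat_lit 4286571672) (nat_lit 228) (nat_lit 2767293966) (nat_lit 95) (nat_lit 5) (nat_lit 97) (nat_lit 5) (nat_lit 98) (nat_lit 5) (nat_lit 529) (nat_lit 435) (nat_lit 236)) (XT.lf (nat_lit 0) (nat_lit 14074852139) (nat_lit 228) (nat_lit 31219801338) (nat_lit 76) (nat_lit 16033112110) (nat_lit 92) (nat_lit 5) (nat_lit 95) (nat_lit 5) (nat_lit 93) (nat_lit 5) (nat_lit 530) (nat_lit 435) (nat_lit 235)))) (XT.nd (nat_lit 156) (nat_lit 152) (nat_lit 0) (XT.nd (nat_lit 78) (nat_lit 0) (nat_lit 0) (XT.lf (nat_lit 0) (nat_lit 6015222820) (nat_lit 152) (nat_lit 25520346572) (nat_lit 228) (nat_lit 31015486351) (nat_lit 90) (nat_lit 5) (nat_lit 92) (nat_lit 5) (nat_lit 93) (nat_lit 5) (nat_lit 531) (nat_lit 435) (nat_lit 234)) (XT.lf (nat_lit 0) (nat_lit 45001284154) (nat_lit 152) (nat_lit 4830848391) (nat_lit 228) (nat_lit 13969551394) (nat_lit 90) (nat_lit 5) (nat_lit 92) (nat_lit 5) (nat_lit 93) (nat_lit 5) (nat_lit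 532) (nat_lit 435) (nat_lit 233))) (XT.nd (nat_lit 78) (nat_lit 0) (nat_lit 0) (XT.lf (nat_lit 0) (nat_lit 3871589475) (nat_lit 152) (nat_lit 44818368010) (nat_lit 76) (nat_lit 16388223784) (nat_lit 88) (nat_lit 5) (nat_lit 90) (nat_lit 5) (nat_lit 89) (nat_lit 5) (nat_lit 533) (nat_lit 435) (nat_lit 232)) (XT.lf (nat_lit 0) (nat_lit 22203586721) (nat_lit 152) (nat_lit 5703966178) (nat_lit 76) (nat_lit 38474179420) (nat_lit 88) (nat_lit 5) (nat_lit 90) (nat_lit 5) (nat_lit 89) (nat_lit 5) (nat_lit 534) (nat_lit 435) (nat_lit 231)))))) (XT.nd (nat_lit 624) (nat_lit 684) (nat_lit 0) (XT.nd (nat_lit 312) (nat_lit 304) (nat_lit 0) (XT.nd (nat_lit 156) (nat_lit 228) (nat_lit 0) (XT.nd (nat_lit 78) (nat_lit 76) (nat_lit 0) (XT.lf (nat_lit 0) (nat_lit 35266323927) (nat_lit 152) (nat_lit 6155152764) (nat_lit 228) (nat_lit 26292835283) (nat_lit 86) (nat_lit 5) (nat_lit 88) (nat_lit 5) (nat_lit 89) (nat_lit 5) (nat_lit 535)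 (nat_lit 435) (nat_lit 230)) (XT.lf (nat_lit 0) (nat_lit 8500890344) (nat_lit 76) (nat_lit 53008042182) (nat_lit 152) (nat_lit 7569145675) (nat_lit 85) (nat_lit 5) (nat_lit 86) (nat_lit 5) (nat_lit 87) (nat_lit 4) (nat_lit 536) (nat_lit 435) (nat_lit 229))) (XT.nd (nat_lit 78) (nat_lit 152) (nat_lit 0) (XT.lf (nat_lit 0) (nat_lit 11876421254) (nat_lit 152) (nat_lit 19312081886) (nat_lit 76) (nat_lit 39279211824) (nat_lit 84) (nat_lit 5) (nat_lit 86) (nat_lit 5) (nat_lit 85) (nat_lit 5) (nat_lit 537) (nat_lit 435) (nat_lit 228)) (XT.lf (nat_lit 0) (nat_lit 23570414592) (nat_lit 152) (nat_lit 8406416103) (nat_lit 228) (nat_lit 39913253691) (nat_lit 82) (nat_lit 5) (nat_lit 84) (nat_lit 5) (nat_lit 85) (nat_lit 5) (nat_lit 538) (nat_lit 435) (nat_lit 227)))) (XT.nd (nat_lit 156) (nat_lit 152) (nat_lit 0) (XT.nd (nat_lit 78) (nat_lit 152) (nat_lit 0) (XT.lf (nat_lit 0) (nat_lit 53018998241) (nat_lit 228) (nat_lit 5366271194)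 (nat_lit 76) (nat_lit 14959693132) (nat_lit 82) (nat_lit 5) (nat_lit 85) (nat_lit 5) (nat_lit 83) (nat_lit 4) (nat_lit 539) (nat_lit 435) (nat_lit 226)) (XT.lf (nat_lit 0) (nat_lit 317078724) (nat_lit 152) (nat_lit 35273751033) (nat_lit 76) (nat_lit 39238745324) (nat_lit 80) (nat_lit 5) (nat_lit 82) (nat_lit 5) (nat_lit 81) (nat_lit 5) (nat_lit 540) (nat_lit 435) (nat_lit 225))) (XT.nd (nat_lit 78) (nat_lit 0) (nat_lit 0) (XT.lf (nat_lit 0) (nat_lit 9557793694) (nat_lit 152) (nat_lit 11756821616) (nat_lit 228) (nat_lit 55033761271) (nat_lit 78) (nat_lit 5) (nat_lit 80) (nat_lit 5) (nat_lit 81) (nat_lit 5) (nat_lit 541) (nat_lit 435) (nat_lit 224)) (XT.lf (nat_lit 0) (nat_lit 43421907890) (nat_lit 228) (nat_lit 21576609830) (nat_lit 76) (nat_lit 12899829554) (nat_lit 78) (nat_lit 5) (nat_lit 81) (nat_lit 5) (nat_lit 79) (nat_lit 4) (nat_lit 542) (nat_lit 435) (nat_lit 223))))) (XT.nd (nat_lit 312) (nat_lit 304)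 (nat_lit 0) (XT.nd (nat_lit 156) (nat_lit 228) (nat_lit 0) (XT.nd (nat_lit 78) (nat_lit 76) (nat_lit 0) (XT.lf (nat_lit 0) (nat_lit 25367117567) (nat_lit 76) (nat_lit 41182774347) (nat_lit 152) (nat_lit 12934201037) (nat_lit 77) (nat_lit 5) (nat_lit 78) (nat_lit 5) (nat_lit 79) (nat_lit 4) (nat_lit 543) (nat_lit 435) (nat_lit 222)) (XT.lf (nat_lit 0) (nat_lit 9290986100) (nat_lit 152) (nat_lit 7045801809) (nat_lit 76) (nat_lit 64771436396) (nat_lit 76) (nat_lit 5) (nat_lit 78) (nat_lit 5) (nat_lit 77) (nat_lit 5) (nat_lit 544) (nat_lit 435) (nat_lit 221))) (XT.nd (nat_lit 78) (nat_lit 76) (nat_lit 0) (XT.lf (nat_lit 0) (nat_lit 32419431801) (nat_lit 228) (nat_lit 40733016789) (nat_lit 76) (nat_lit 9609895181) (nat_lit 74) (nat_lit 5) (nat_lit 77) (nat_lit 5) (nat_lit 75) (nat_lit 4) (nat_lit 545) (nat_lit 435) (nat_lit 220)) (XT.lf (nat_lit 0) (nat_lit 8250612334) (nat_lit 76) (nat_lit 48301347189) (nat_lit 152)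 (nat_lit 27904820475) (nat_lit 73) (nat_lit 5) (nat_lit 74) (nat_lit 5) (nat_lit 75) (nat_lit 4) (nat_lit 546) (nat_lit 435) (nat_lit 219)))) (XT.nd (nat_lit 156) (nat_lit 76) (nat_lit 0) (XT.nd (nat_lit 78) (nat_lit 228) (nat_lit 0) (XT.lf (nat_lit 0) (nat_lit 59533666128) (nat_lit 76) (nat_lit 22283465121) (nat_lit 152) (nat_lit 4372658056) (nat_lit 73) (nat_lit 5) (nat_lit 74) (nat_lit 5) (nat_lit 75) (nat_lit 4) (nat_lit 547) (nat_lit 435) (nat_lit 218)) (XT.lf (nat_lit 0) (nat_lit 19759937490) (nat_lit 228) (nat_lit 63343834038) (nat_lit 76) (nat_lit 4856825174) (nat_lit 70) (nat_lit 5) (nat_lit 73) (nat_lit 5) (nat_lit 71) (nat_lit 4) (nat_lit 548) (nat_lit 435) (nat_lit 217))) (XT.nd (nat_lit 78) (nat_lit 76) (nat_lit 0) (XT.lf (nat_lit 0) (nat_lit 45018495072) (nat_lit 228) (nat_lit 12073761890) (nat_lit 76) (nat_lit 32676276476) (nat_lit 70) (nat_lit 5) (nat_lit 73) (nat_lit 5) (nat_lit 71) (nat_lit 4)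 (nat_lit 549) (nat_lit 435) (nat_lit 216)) (XT.lf (nat_lit 0) (nat_lit 41540174762) (nat_lit 76) (nat_lit 29891422082) (nat_lit 152) (nat_lit 20187207840) (nat_lit 69) (nat_lit 5) (nat_lit 70) (nat_lit 5) (nat_lit 71) (nat_lit 4) (nat_lit 550) (nat_lit 435) (nat_lit 215))))))) (XT.nd (nat_lit 1248) (nat_lit 5320) (nat_lit 0) (XT.nd (nat_lit 624) (nat_lit 988) (nat_lit 0) (XT.nd (nat_lit 312) (nat_lit 0) (nat_lit 76) (XT.nd (nat_lit 156) (nat_lit 0) (nat_lit 0) (XT.nd (nat_lit 78) (nat_lit 0) (nat_lit 0) (XT.lf (nat_lit 0) (nat_lit 1935256809) (nat_lit 0) (nat_lit 1935256809) (nat_lit 1140) (nat_lit 2173734725) (nat_lit 326) (nat_lit 5) (nat_lit 326) (nat_lit 3) (nat_lit 341) (nat_lit 3) (nat_lit 436) (nat_lit 436) (nat_lit 328)) (XT.lf (nat_lit 0) (nat_lit 8338712756) (nat_lit 1140) (nat_lit 2233415901) (nat_lit 1216) (nat_lit 1683203631) (nat_lit 326) (nat_lit 5) (nat_lit 341) (nat_lit 3) (nat_lit 342) (nat_lit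 5) (nat_lit 437) (nat_lit 436) (nat_lit 327))) (XT.nd (nat_lit 78) (nat_lit 0) (nat_lit 76) (XT.lf (nat_lit 76) (nat_lit 3959930222) (nat_lit 0) (nat_lit 5052722733) (nat_lit 1216) (nat_lit 3412772023) (nat_lit 327) (nat_lit 5) (nat_lit 326) (nat_lit 5) (nat_lit 342) (nat_lit 5) (nat_lit 438) (nat_lit 436) (nat_lit 326)) (XT.lf (nat_lit 0) (nat_lit 9718113182) (nat_lit 1140) (nat_lit 2231606403) (nat_lit 1216) (nat_lit 650563504) (nat_lit 327) (nat_lit 5) (nat_lit 342) (nat_lit 5) (nat_lit 343) (nat_lit 5) (nat_lit 439) (nat_lit 436) (nat_lit 325)))) (XT.nd (nat_lit 156) (nat_lit 0) (nat_lit 76) (XT.nd (nat_lit 78) (nat_lit 0) (nat_lit 0) (XT.lf (nat_lit 76) (nat_lit 4211530378) (nat_lit 0) (nat_lit 6306676514) (nat_lit 1216) (nat_lit 2259977608) (nat_lit 328) (nat_lit 5) (nat_lit 327) (nat_lit 5) (nat_lit 343) (nat_lit 5) (nat_lit 440) (nat_lit 436) (nat_lit 324)) (XT.lf (nat_lit 76) (nat_lit 10883880904) (nat_lit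 0) (nat_lit 464318159) (nat_lit 1216) (nat_lit 1613048618) (nat_lit 328) (nat_lit 5) (nat_lit 327) (nat_lit 5) (nat_lit 343) (nat_lit 5) (nat_lit 441) (nat_lit 436) (nat_lit 323))) (XT.nd (nat_lit 78) (nat_lit 0) (nat_lit 0) (XT.lf (nat_lit 76) (nat_lit 4633544834) (nat_lit 0) (nat_lit 7651377477) (nat_lit 1216) (nat_lit 862427060) (nat_lit 329) (nat_lit 5) (nat_lit 328) (nat_lit 5) (nat_lit 344) (nat_lit 5) (nat_lit 442) (nat_lit 436) (nat_lit 322)) (XT.lf (nat_lit 76) (nat_lit 11573688314) (nat_lit 0) (nat_lit 1685870066) (nat_lit 1216) (nat_lit 79182903) (nat_lit 329) (nat_lit 5) (nat_lit 328) (nat_lit 5) (nat_lit 344) (nat_lit 5) (nat_lit 443) (nat_lit 436) (nat_lit 321))))) (XT.nd (nat_lit 312) (nat_lit 0) (nat_lit 152) (XT.nd (nat_lit 156) (nat_lit 0) (nat_lit 76) (XT.nd (nat_lit 78) (nat_lit 0) (nat_lit 0) (XT.lf (nat_lit 0) (nat_lit 792108044) (nat_lit 1216) (nat_lit 8306054515) (nat_lit 1292) (nat_lit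 4435141599) (nat_lit 313) (nat_lit 5) (nat_lit 329) (nat_lit 5) (nat_lit 330) (nat_lit 5) (nat_lit 444) (nat_lit 436) (nat_lit 320)) (XT.lf (nat_lit 0) (nat_lit 1707628157) (nat_lit 1216) (nat_lit 1295730747) (nat_lit 1292) (nat_lit 10729732417) (nat_lit 313) (nat_lit 5) (nat_lit 329) (nat_lit 5) (nat_lit 330) (nat_lit 5) (nat_lit 445) (nat_lit 436) (nat_lit 319))) (XT.nd (nat_lit 78) (nat_lit 0) (nat_lit 0) (XT.lf (nat_lit 0) (nat_lit 2726120847) (nat_lit 1216) (nat_lit 7937152970) (nat_lit 1292) (nat_lit 3273334410) (nat_lit 314) (nat_lit 5) (nat_lit 330) (nat_lit 5) (nat_lit 331) (nat_lit 5) (nat_lit 446) (nat_lit 436) (nat_lit 318)) (XT.lf (nat_lit 0) (nat_lit 3803914650) (nat_lit 1216) (nat_lit 646125265) (nat_lit 1292) (nat_lit 9695329636) (nat_lit 314) (nat_lit 5) (nat_lit 330) (nat_lit 5) (nat_lit 331) (nat_lit 5) (nat_lit 447) (nat_lit 436) (nat_lit 317)))) (XT.nd (nat_lit 156) (nat_lit 0) (nat_lit 76)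 (XT.nd (nat_lit 78) (nat_lit 0) (nat_lit 0) (XT.lf (nat_lit 0) (nat_lit 4986883635) (nat_lit 1216) (nat_lit 7388377294) (nat_lit 1292) (nat_lit 1982948806) (nat_lit 315) (nat_lit 5) (nat_lit 331) (nat_lit 5) (nat_lit 332) (nat_lit 5) (nat_lit 448) (nat_lit 436) (nat_lit 316)) (XT.lf (nat_lit 76) (nat_lit 199530556) (nat_lit 0) (nat_lit 6044925658) (nat_lit 1292) (nat_lit 8331806698) (nat_lit 316) (nat_lit 5) (nat_lit 315) (nat_lit 5) (nat_lit 332) (nat_lit 5) (nat_lit 449) (nat_lit 436) (nat_lit 315))) (XT.nd (nat_lit 78) (nat_lit 0) (nat_lit 0) (XT.lf (nat_lit 0) (nat_lit 7606537566) (nat_lit 1216) (nat_lit 6648229482) (nat_lit 1292) (nat_lit 544088380) (nat_lit 316) (nat_lit 5) (nat_lit 332) (nat_lit 5) (nat_lit 333) (nat_lit 5) (nat_lit 450) (nat_lit 436) (nat_lit 314)) (XT.lf (nat_lit 76) (nat_lit 1266474298) (nat_lit 0) (nat_lit 7802280197) (nat_lit 1292) (nat_lit 5957594183) (nat_lit 317) (nat_lit 5) (nat_lit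 316) (nat_lit 5) (nat_lit 333) (nat_lit 5) (nat_lit 451) (nat_lit 436) (nat_lit 313)))))) (XT.nd (nat_lit 624) (nat_lit 2280) (nat_lit 0) (XT.nd (nat_lit 312) (nat_lit 1216) (nat_lit 0) (XT.nd (nat_lit 156) (nat_lit 912) (nat_lit 0) (XT.nd (nat_lit 78) (nat_lit 1140) (nat_lit 0) (XT.lf (nat_lit 76) (nat_lit 9544487579) (nat_lit 0) (nat_lit 1085004006) (nat_lit 1292) (nat_lit 4629536653) (nat_lit 317) (nat_lit 5) (nat_lit 316) (nat_lit 5) (nat_lit 333) (nat_lit 5) (nat_lit 452) (nat_lit 436) (nat_lit 312)) (XT.lf (nat_lit 0) (nat_lit 2555446711) (nat_lit 1216) (nat_lit 9750148921) (nat_lit 1292) (nat_lit 3191037295) (nat_lit 301) (nat_lit 5) (nat_lit 317) (nat_lit 5) (nat_lit 318) (nat_lit 5) (nat_lit 453) (nat_lit 436) (nat_lit 311))) (XT.nd (nat_lit 78) (nat_lit 912) (nat_lit 0) (XT.lf (nat_lit 0) (nat_lit 11169328289) (nat_lit 1216) (nat_lit 2919152295) (nat_lit 1292) (nat_lit 1651191297) (nat_lit 301) (nat_lit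 5) (nat_lit 317) (nat_lit 5) (nat_lit 318) (nat_lit 5) (nat_lit 454) (nat_lit 436) (nat_lit 310)) (XT.lf (nat_lit 0) (nat_lit 4104656) (nat_lit 912) (nat_lit 11906781050) (nat_lit 76) (nat_lit 4077096582) (nat_lit 289) (nat_lit 5) (nat_lit 301) (nat_lit 5) (nat_lit 290) (nat_lit 5) (nat_lit 455) (nat_lit 436) (nat_lit 309)))) (XT.nd (nat_lit 156) (nat_lit 608) (nat_lit 0) (XT.nd (nat_lit 78) (nat_lit 608) (nat_lit 0) (XT.lf (nat_lit 0) (nat_lit 1740019267) (nat_lit 912) (nat_lit 3212658468) (nat_lit 76) (nat_lit 11288650374) (nat_lit 289) (nat_lit 5) (nat_lit 301) (nat_lit 5) (nat_lit 290) (nat_lit 5) (nat_lit 456) (nat_lit 436) (nat_lit 308)) (XT.lf (nat_lit 0) (nat_lit 3595023499) (nat_lit 684) (nat_lit 10676667976) (nat_lit 76) (nat_lit 2228573404) (nat_lit 281) (nat_lit 5) (nat_lit 290) (nat_lit 5) (nat_lit 282) (nat_lit 5) (nat_lit 457) (nat_lit 436) (nat_lit 307))) (XT.nd (nat_lit 78) (nat_lit 608) (nat_lit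 0) (XT.lf (nat_lit 0) (nat_lit 5576673985) (nat_lit 684) (nat_lit 1629053738) (nat_lit 76) (nat_lit 9559113055) (nat_lit 281) (nat_lit 5) (nat_lit 290) (nat_lit 5) (nat_lit 282) (nat_lit 5) (nat_lit 458) (nat_lit 436) (nat_lit 306)) (XT.lf (nat_lit 0) (nat_lit 7684020248) (nat_lit 684) (nat_lit 9204211454) (nat_lit 76) (nat_lit 147135751) (nat_lit 273) (nat_lit 5) (nat_lit 282) (nat_lit 5) (nat_lit 274) (nat_lit 5) (nat_lit 459) (nat_lit 436) (nat_lit 305))))) (XT.nd (nat_lit 312) (nat_lit 1140) (nat_lit 0) (XT.nd (nat_lit 156) (nat_lit 608) (nat_lit 0) (XT.nd (nat_lit 78) (nat_lit 0) (nat_lit 0) (XT.lf (nat_lit 0) (nat_lit 217383464) (nat_lit 532) (nat_lit 9716971944) (nat_lit 608) (nat_lit 7377262322) (nat_lit 266) (nat_lit 5) (nat_lit 273) (nat_lit 5) (nat_lit 274) (nat_lit 5) (nat_lit 460) (nat_lit 436) (nat_lit 304)) (XT.lf (nat_lit 0) (nat_lit 10100004144) (nat_lit 532) (nat_lit 2235063252) (nat_lit 608)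 (nat_lit 5258602951) (nat_lit 266) (nat_lit 5) (nat_lit 273) (nat_lit 5) (nat_lit 274) (nat_lit 5) (nat_lit 461) (nat_lit 436) (nat_lit 303))) (XT.nd (nat_lit 78) (nat_lit 0) (nat_lit 0) (XT.lf (nat_lit 0) (nat_lit 2378445753) (nat_lit 608) (nat_lit 12495025315) (nat_lit 684) (nat_lit 3008744175) (nat_lit 258) (nat_lit 5) (nat_lit 266) (nat_lit 5) (nat_lit 267) (nat_lit 5) (nat_lit 462) (nat_lit 436) (nat_lit 302)) (XT.lf (nat_lit 0) (nat_lit 12667573342) (nat_lit 608) (nat_lit 4908438046) (nat_lit 684) (nat_lit 600766349) (nat_lit 258) (nat_lit 5) (nat_lit 266) (nat_lit 5) (nat_lit 267) (nat_lit 5) (nat_lit 463) (nat_lit 436) (nat_lit 301)))) (XT.nd (nat_lit 156) (nat_lit 532) (nat_lit 0) (XT.nd (nat_lit 78) (nat_lit 0) (nat_lit 0) (XT.lf (nat_lit 0) (nat_lit 1908567094) (nat_lit 608) (nat_lit 13655361322) (nat_lit 76) (nat_lit 2913733702) (nat_lit 250) (nat_lit 5) (nat_lit 258) (nat_lit 5) (nat_lit 251) (nat_lit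 5) (nat_lit 464) (nat_lit 436) (nat_lit 300)) (XT.lf (nat_lit 0) (nat_lit 4576645479) (nat_lit 608) (nat_lit 3274570770) (nat_lit 76) (nat_lit 10933312864) (nat_lit 250) (nat_lit 5) (nat_lit 258) (nat_lit 5) (nat_lit 251) (nat_lit 5) (nat_lit 465) (nat_lit 436) (nat_lit 299))) (XT.nd (nat_lit 78) (nat_lit 0) (nat_lit 0) (XT.lf (nat_lit 0) (nat_lit 7390020562) (nat_lit 608) (nat_lit 11545179729) (nat_lit 76) (nat_lit 163444894) (nat_lit 243) (nat_lit 5) (nat_lit 251) (nat_lit 5) (nat_lit 244) (nat_lit 5) (nat_lit 466) (nat_lit 436) (nat_lit 298)) (XT.lf (nat_lit 0) (nat_lit 10390109866) (nat_lit 608) (nat_lit 735898925) (nat_lit 76) (nat_lit 8293107239) (nat_lit 243) (nat_lit 5) (nat_lit 251) (nat_lit 5) (nat_lit 244) (nat_lit 5) (nat_lit 467) (nat_lit 436) (nat_lit 297))))))))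
noncomputable def xc174 : XT := (XT.nd (nat_lit 2418) (nat_lit 4104) (nat_lit 0) (XT.nd (nat_lit 1170) (nat_lit 3192) (nat_lit 0) (XT.nd (nat_lit 546) (nat_lit 2052) (nat_lit 0) (XT.nd (nat_lit 234) (nat_lit 912) (nat_lit 0) (XT.nd (nat_lit 78) (nat_lit 532) (nat_lit 0) (XT.lf (nat_lit 0) (nat_lit 10594581030) (nat_lit 456) (nat_lit 2978903205) (nat_lit 532) (nat_lit 6172918950) (nat_lit 237) (nat_lit 5) (nat_lit 243) (nat_lit 5) (nat_lit 244) (nat_lit 5) (nat_lit 468) (nat_lit 436) (nat_lit 296)) (XT.nd (nat_lit 78) (nat_lit 76) (nat_lit 0) (XT.lf (nat_lit 0) (nat_lit 2177195012) (nat_lit 456) (nat_lit 14747211411) (nat_lit 532) (nat_lit 3156941775) (nat_lit 231) (nat_lit 5) (nat_lit 237) (nat_lit 5) (nat_lit 238) (nat_lit 5) (nat_lit 469) (nat_lit 436) (nat_lit 295)) (XT.lf (nat_lit 0) (nat_lit 64976252) (nat_lit 532) (nat_lit 6429837432) (nat_lit 76) (nat_lit 13928108747) (nat_lit 230) (nat_lit 5) (nat_lit 237)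 (nat_lit 5) (nat_lit 231) (nat_lit 5) (nat_lit 470) (nat_lit 436) (nat_lit 294)))) (XT.nd (nat_lit 156) (nat_lit 456) (nat_lit 0) (XT.nd (nat_lit 78) (nat_lit 0) (nat_lit 0) (XT.lf (nat_lit 0) (nat_lit 3384511608) (nat_lit 532) (nat_lit 15338422265) (nat_lit 76) (nat_lit 2048940562) (nat_lit 224) (nat_lit 5) (nat_lit 231) (nat_lit 5) (nat_lit 225) (nat_lit 5) (nat_lit 471) (nat_lit 436) (nat_lit 293)) (XT.lf (nat_lit 0) (nat_lit 6925531916) (nat_lit 532) (nat_lit 3419715494) (nat_lit 76) (nat_lit 10782391189) (nat_lit 224) (nat_lit 5) (nat_lit 231) (nat_lit 5) (nat_lit 225) (nat_lit 5) (nat_lit 472) (nat_lit 436) (nat_lit 292))) (XT.nd (nat_lit 78) (nat_lit 0) (nat_lit 0) (XT.lf (nat_lit 0) (nat_lit 9023045729) (nat_lit 456) (nat_lit 1628726698) (nat_lit 532) (nat_lit 10839934124) (nat_lit 218) (nat_lit 5) (nat_lit 224) (nat_lit 5) (nat_lit 225) (nat_lit 5) (nat_lit 473) (nat_lit 436) (nat_lit 291)) (XT.lf (nat_lit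 0) (nat_lit 14587691316) (nat_lit 532) (nat_lit 37153553) (nat_lit 76) (nat_lit 7238915475) (nat_lit 218) (nat_lit 5) (nat_lit 225) (nat_lit 5) (nat_lit 219) (nat_lit 5) (nat_lit 474) (nat_lit 436) (nat_lit 290))))) (XT.nd (nat_lit 312) (nat_lit 760) (nat_lit 0) (XT.nd (nat_lit 156) (nat_lit 380) (nat_lit 0) (XT.nd (nat_lit 78) (nat_lit 532) (nat_lit 0) (XT.lf (nat_lit 0) (nat_lit 12995345515) (nat_lit 380) (nat_lit 5779980645) (nat_lit 456) (nat_lit 3467640959) (nat_lit 213) (nat_lit 5) (nat_lit 218) (nat_lit 5) (nat_lit 219) (nat_lit 5) (nat_lit 475) (nat_lit 436) (nat_lit 289)) (XT.lf (nat_lit 0) (nat_lit 508573514) (nat_lit 532) (nat_lit 18817653584) (nat_lit 76) (nat_lit 3305319873) (nat_lit 206) (nat_lit 5) (nat_lit 213) (nat_lit 5) (nat_lit 207) (nat_lit 5) (nat_lit 476) (nat_lit 436) (nat_lit 288))) (XT.nd (nat_lit 78) (nat_lit 380) (nat_lit 0) (XT.lf (nat_lit 0) (nat_lit 4678663381) (nat_lit 532) (nat_lit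 5674218779) (nat_lit 76) (nat_lit 12673543991) (nat_lit 206) (nat_lit 5) (nat_lit 213) (nat_lit 5) (nat_lit 207) (nat_lit 5) (nat_lit 477) (nat_lit 436) (nat_lit 287)) (XT.lf (nat_lit 0) (nat_lit 8010540501) (nat_lit 380) (nat_lit 1033278967) (nat_lit 456) (nat_lit 14387233793) (nat_lit 201) (nat_lit 5) (nat_lit 206) (nat_lit 5) (nat_lit 207) (nat_lit 5) (nat_lit 478) (nat_lit 436) (nat_lit 286)))) (XT.nd (nat_lit 156) (nat_lit 380) (nat_lit 0) (XT.nd (nat_lit 78) (nat_lit 380) (nat_lit 0) (XT.lf (nat_lit 0) (nat_lit 13673192773) (nat_lit 456) (nat_lit 1716238004) (nat_lit 76) (nat_lit 8454390979) (nat_lit 201) (nat_lit 5) (nat_lit 207) (nat_lit 5) (nat_lit 202) (nat_lit 5) (nat_lit 479) (nat_lit 436) (nat_lit 285)) (XT.lf (nat_lit 0) (nat_lit 12626202482) (nat_lit 380) (nat_lit 5940104265) (nat_lit 456) (nat_lit 5698921210) (nat_lit 196) (nat_lit 5) (nat_lit 201) (nat_lit 5) (nat_lit 202) (nat_lit 5) (nat_lit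 480) (nat_lit 436) (nat_lit 284))) (XT.nd (nat_lit 78) (nat_lit 76) (nat_lit 0) (XT.lf (nat_lit 0) (nat_lit 2743036371) (nat_lit 304) (nat_lit 20936850319) (nat_lit 380) (nat_lit 1017179900) (nat_lit 192) (nat_lit 5) (nat_lit 196) (nat_lit 5) (nat_lit 197) (nat_lit 5) (nat_lit 481) (nat_lit 436) (nat_lit 283)) (XT.lf (nat_lit 0) (nat_lit 3901657869) (nat_lit 380) (nat_lit 7448982025) (nat_lit 76) (nat_lit 13784996793) (nat_lit 191) (nat_lit 5) (nat_lit 196) (nat_lit 5) (nat_lit 192) (nat_lit 5) (nat_lit 482) (nat_lit 436) (nat_lit 282)))))) (XT.nd (nat_lit 624) (nat_lit 1520) (nat_lit 0) (XT.nd (nat_lit 312) (nat_lit 684) (nat_lit 0) (XT.nd (nat_lit 156) (nat_lit 608) (nat_lit 0) (XT.nd (nat_lit 78) (nat_lit 0) (nat_lit 0) (XT.lf (nat_lit 0) (nat_lit 7620883076) (nat_lit 380) (nat_lit 1393568440) (nat_lit 456) (nat_lit 16570605571) (nat_lit 186) (nat_lit 5) (nat_lit 191) (nat_lit 5) (nat_lit 192) (nat_lit 5) (nat_lit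 483) (nat_lit 436) (nat_lit 281)) (XT.lf (nat_lit 0) (nat_lit 14435438280) (nat_lit 456) (nat_lit 2845147972) (nat_lit 76) (nat_lit 8762729944) (nat_lit 186) (nat_lit 5) (nat_lit 192) (nat_lit 5) (nat_lit 187) (nat_lit 5) (nat_lit 484) (nat_lit 436) (nat_lit 280))) (XT.nd (nat_lit 78) (nat_lit 304) (nat_lit 0) (XT.lf (nat_lit 0) (nat_lit 12957714820) (nat_lit 304) (nat_lit 7193535216) (nat_lit 380) (nat_lit 6360107545) (nat_lit 182) (nat_lit 5) (nat_lit 186) (nat_lit 5) (nat_lit 187) (nat_lit 5) (nat_lit 485) (nat_lit 436) (nat_lit 279)) (XT.lf (nat_lit 0) (nat_lit 2305530793) (nat_lit 304) (nat_lit 23808816140) (nat_lit 380) (nat_lit 876819306) (nat_lit 178) (nat_lit 5) (nat_lit 182) (nat_lit 5) (nat_lit 183) (nat_lit 5) (nat_lit 486) (nat_lit 436) (nat_lit 278)))) (XT.nd (nat_lit 156) (nat_lit 304) (nat_lit 0) (XT.nd (nat_lit 78) (nat_lit 304) (nat_lit 0) (XT.lf (nat_lit 0) (nat_lit 4881256198) (nat_lit 380)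 (nat_lit 8690279717) (nat_lit 76) (nat_lit 13906356109) (nat_lit 177) (nat_lit 5) (nat_lit 182) (nat_lit 5) (nat_lit 178) (nat_lit 5) (nat_lit 487) (nat_lit 436) (nat_lit 277)) (XT.lf (nat_lit 0) (nat_lit 7922212437) (nat_lit 304) (nat_lit 2942511815) (nat_lit 380) (nat_lit 17112127008) (nat_lit 173) (nat_lit 5) (nat_lit 177) (nat_lit 5) (nat_lit 178) (nat_lit 5) (nat_lit 488) (nat_lit 436) (nat_lit 276))) (XT.nd (nat_lit 78) (nat_lit 304) (nat_lit 0) (XT.lf (nat_lit 0) (nat_lit 17187455521) (nat_lit 380) (nat_lit 3363443197) (nat_lit 76) (nat_lit 7935088096) (nat_lit 173) (nat_lit 5) (nat_lit 178) (nat_lit 5) (nat_lit 174) (nat_lit 5) (nat_lit 489) (nat_lit 436) (nat_lit 275)) (XT.lf (nat_lit 0) (nat_lit 14065377353) (nat_lit 304) (nat_lit 9793182483) (nat_lit 380) (nat_lit 5147076169) (nat_lit 169) (nat_lit 5) (nat_lit 173) (nat_lit 5) (nat_lit 174) (nat_lit 5) (nat_lit 490) (nat_lit 436) (nat_lit 274))))) (XT.nd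 (nat_lit 312) (nat_lit 836) (nat_lit 0) (XT.nd (nat_lit 156) (nat_lit 304) (nat_lit 0) (XT.nd (nat_lit 78) (nat_lit 0) (nat_lit 0) (XT.lf (nat_lit 0) (nat_lit 1232212364) (nat_lit 380) (nat_lit 26975786095) (nat_lit 76) (nat_lit 1330538945) (nat_lit 164) (nat_lit 5) (nat_lit 169) (nat_lit 5) (nat_lit 165) (nat_lit 5) (nat_lit 491) (nat_lit 436) (nat_lit 273)) (XT.lf (nat_lit 0) (nat_lit 7943188329) (nat_lit 380) (nat_lit 9343733223) (nat_lit 76) (nat_lit 12791662941) (nat_lit 164) (nat_lit 5) (nat_lit 169) (nat_lit 5) (nat_lit 165) (nat_lit 5) (nat_lit 492) (nat_lit 436) (nat_lit 272))) (XT.nd (nat_lit 78) (nat_lit 0) (nat_lit 0) (XT.lf (nat_lit 0) (nat_lit 8984317498) (nat_lit 304) (nat_lit 5952137522) (nat_lit 380) (nat_lit 15695949400) (nat_lit 160) (nat_lit 5) (nat_lit 164) (nat_lit 5) (nat_lit 165) (nat_lit 5) (nat_lit 493) (nat_lit 436) (nat_lit 271)) (XT.lf (nat_lit 0) (nat_lit 22284466838) (nat_lit 380)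 (nat_lit 3210536677) (nat_lit 76) (nat_lit 5703487282) (nat_lit 160) (nat_lit 5) (nat_lit 165) (nat_lit 5) (nat_lit 161) (nat_lit 5) (nat_lit 494) (nat_lit 436) (nat_lit 270)))) (XT.nd (nat_lit 156) (nat_lit 228) (nat_lit 0) (XT.nd (nat_lit 78) (nat_lit 380) (nat_lit 0) (XT.lf (nat_lit 0) (nat_lit 16025841312) (nat_lit 228) (nat_lit 14034865331) (nat_lit 304) (nat_lit 1714619747) (nat_lit 157) (nat_lit 5) (nat_lit 160) (nat_lit 5) (nat_lit 161) (nat_lit 5) (nat_lit 495) (nat_lit 436) (nat_lit 269)) (XT.lf (nat_lit 0) (nat_lit 3542523742) (nat_lit 304) (nat_lit 2108623140) (nat_lit 380) (nat_lit 26714827750) (nat_lit 152) (nat_lit 5) (nat_lit 156) (nat_lit 5) (nat_lit 157) (nat_lit 5) (nat_lit 496) (nat_lit 436) (nat_lit 268))) (XT.nd (nat_lit 78) (nat_lit 228) (nat_lit 0) (XT.lf (nat_lit 0) (nat_lit 13456724089) (nat_lit 380) (nat_lit 9357950505) (nat_lit 76) (nat_lit 10151559676) (nat_lit 152) (nat_lit 5) (nat_lit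 157) (nat_lit 5) (nat_lit 153) (nat_lit 5) (nat_lit 497) (nat_lit 436) (nat_lit 267)) (XT.lf (nat_lit 0) (nat_lit 10874926145) (nat_lit 228) (nat_lit 10741979614) (nat_lit 304) (nat_lit 11963983049) (nat_lit 149) (nat_lit 5) (nat_lit 152) (nat_lit 5) (nat_lit 153) (nat_lit 5) (nat_lit 498) (nat_lit 436) (nat_lit 266))))))) (XT.nd (nat_lit 1170) (nat_lit 1900) (nat_lit 0) (XT.nd (nat_lit 546) (nat_lit 1140) (nat_lit 0) (XT.nd (nat_lit 234) (nat_lit 532) (nat_lit 0) (XT.nd (nat_lit 78) (nat_lit 532) (nat_lit 0) (XT.lf (nat_lit 0) (nat_lit 30128663198) (nat_lit 304) (nat_lit 2329700775) (nat_lit 76) (nat_lit 1752416123) (nat_lit 149) (nat_lit 5) (nat_lit 153) (nat_lit 5) (nat_lit 150) (nat_lit 5) (nat_lit 499) (nat_lit 436) (nat_lit 265)) (XT.nd (nat_lit 78) (nat_lit 228) (nat_lit 0) (XT.lf (nat_lit 0) (nat_lit 4243615908) (nat_lit 304) (nat_lit 15979851390) (nat_lit 76) (nat_lit 14626351929) (nat_lit 145) (nat_lit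 5) (nat_lit 149) (nat_lit 5) (nat_lit 146) (nat_lit 5) (nat_lit 500) (nat_lit 436) (nat_lit 264)) (XT.lf (nat_lit 0) (nat_lit 5301103678) (nat_lit 228) (nat_lit 7505913639) (nat_lit 304) (nat_lit 22697701614) (nat_lit 142) (nat_lit 5) (nat_lit 145) (nat_lit 5) (nat_lit 146) (nat_lit 5) (nat_lit 501) (nat_lit 436) (nat_lit 263)))) (XT.nd (nat_lit 156) (nat_lit 304) (nat_lit 0) (XT.nd (nat_lit 78) (nat_lit 228) (nat_lit 0) (XT.lf (nat_lit 0) (nat_lit 21839312628) (nat_lit 304) (nat_lit 8689514876) (nat_lit 76) (nat_lit 5644078562) (nat_lit 142) (nat_lit 5) (nat_lit 146) (nat_lit 5) (nat_lit 143) (nat_lit 5) (nat_lit 502) (nat_lit 436) (nat_lit 262)) (XT.lf (nat_lit 0) (nat_lit 13654583143) (nat_lit 228) (nat_lit 17688967856) (nat_lit 304) (nat_lit 5511558781) (nat_lit 139) (nat_lit 5) (nat_lit 142) (nat_lit 5) (nat_lit 143) (nat_lit 5) (nat_lit 503) (nat_lit 436) (nat_lit 261))) (XT.nd (nat_lit 78) (nat_lit 228)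 (nat_lit 0) (XT.lf (nat_lit 0) (nat_lit 3589407855) (nat_lit 304) (nat_lit 750828472) (nat_lit 76) (nat_lit 33213991422) (nat_lit 138) (nat_lit 5) (nat_lit 142) (nat_lit 5) (nat_lit 139) (nat_lit 5) (nat_lit 504) (nat_lit 436) (nat_lit 260)) (XT.lf (nat_lit 0) (nat_lit 13160031325) (nat_lit 304) (nat_lit 15604920411) (nat_lit 76) (nat_lit 9498508458) (nat_lit 135) (nat_lit 5) (nat_lit 139) (nat_lit 5) (nat_lit 136) (nat_lit 5) (nat_lit 505) (nat_lit 436) (nat_lit 259))))) (XT.nd (nat_lit 312) (nat_lit 456) (nat_lit 0) (XT.nd (nat_lit 156) (nat_lit 456) (nat_lit 0) (XT.nd (nat_lit 78) (nat_lit 0) (nat_lit 0) (XT.lf (nat_lit 0) (nat_lit 7895471654) (nat_lit 228) (nat_lit 15244411563) (nat_lit 304) (nat_lit 15850423274) (nat_lit 132) (nat_lit 5) (nat_lit 135) (nat_lit 5) (nat_lit 136) (nat_lit 5) (nat_lit 506) (nat_lit 436) (nat_lit 258)) (XT.lf (nat_lit 0) (nat_lit 32413445573) (nat_lit 228) (nat_lit 1158906506)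 (nat_lit 304) (nat_lit 6162009619) (nat_lit 132) (nat_lit 5) (nat_lit 135) (nat_lit 5) (nat_lit 136) (nat_lit 5) (nat_lit 507) (nat_lit 436) (nat_lit 257))) (XT.nd (nat_lit 78) (nat_lit 228) (nat_lit 0) (XT.lf (nat_lit 0) (nat_lit 4036482838) (nat_lit 228) (nat_lit 23161938977) (nat_lit 76) (nat_lit 13292398817) (nat_lit 129) (nat_lit 5) (nat_lit 132) (nat_lit 5) (nat_lit 130) (nat_lit 5) (nat_lit 508) (nat_lit 436) (nat_lit 256)) (XT.lf (nat_lit 0) (nat_lit 1550309392) (nat_lit 228) (nat_lit 12963561425) (nat_lit 304) (nat_lit 26751368636) (nat_lit 126) (nat_lit 5) (nat_lit 129) (nat_lit 5) (nat_lit 130) (nat_lit 5) (nat_lit 509) (nat_lit 436) (nat_lit 255)))) (XT.nd (nat_lit 156) (nat_lit 304) (nat_lit 0) (XT.nd (nat_lit 78) (nat_lit 152) (nat_lit 0) (XT.lf (nat_lit 0) (nat_lit 25553893763) (nat_lit 304) (nat_lit 14603035740) (nat_lit 76) (nat_lit 1898512080) (nat_lit 126) (nat_lit 5) (nat_lit 130) (nat_lit 5)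 (nat_lit 127) (nat_lit 5) (nat_lit 510) (nat_lit 436) (nat_lit 254)) (XT.lf (nat_lit 0) (nat_lit 11348277444) (nat_lit 152) (nat_lit 25810183375) (nat_lit 228) (nat_lit 5703888799) (nat_lit 124) (nat_lit 5) (nat_lit 126) (nat_lit 5) (nat_lit 127) (nat_lit 5) (nat_lit 511) (nat_lit 436) (nat_lit 253))) (XT.nd (nat_lit 78) (nat_lit 228) (nat_lit 0) (XT.lf (nat_lit 0) (nat_lit 5456820130) (nat_lit 228) (nat_lit 5372145455) (nat_lit 76) (nat_lit 32858591925) (nat_lit 123) (nat_lit 5) (nat_lit 126) (nat_lit 5) (nat_lit 124) (nat_lit 5) (nat_lit 512) (nat_lit 436) (nat_lit 252)) (XT.lf (nat_lit 0) (nat_lit 17091288892) (nat_lit 304) (nat_lit 22658043928) (nat_lit 76) (nat_lit 4778887292) (nat_lit 120) (nat_lit 5) (nat_lit 124) (nat_lit 5) (nat_lit 121) (nat_lit 5) (nat_lit 513) (nat_lit 436) (nat_lit 251)))))) (XT.nd (nat_lit 624) (nat_lit 912) (nat_lit 0) (XT.nd (nat_lit 312) (nat_lit 532) (nat_lit 0) (XT.nd (nat_lit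 156) (nat_lit 304) (nat_lit 0) (XT.nd (nat_lit 78) (nat_lit 0) (nat_lit 0) (XT.lf (nat_lit 0) (nat_lit 4623011102) (nat_lit 152) (nat_lit 24654281299) (nat_lit 228) (nat_lit 16110735297) (nat_lit 118) (nat_lit 5) (nat_lit 120) (nat_lit 5) (nat_lit 121) (nat_lit 5) (nat_lit 514) (nat_lit 436) (nat_lit 250)) (XT.lf (nat_lit 0) (nat_lit 33180170799) (nat_lit 152) (nat_lit 8873615256) (nat_lit 228) (nat_lit 4213096276) (nat_lit 118) (nat_lit 5) (nat_lit 120) (nat_lit 5) (nat_lit 121) (nat_lit 5) (nat_lit 515) (nat_lit 436) (nat_lit 249))) (XT.nd (nat_lit 78) (nat_lit 0) (nat_lit 0) (XT.lf (nat_lit 0) (nat_lit 8104282456) (nat_lit 304) (nat_lit 31595333367) (nat_lit 76) (nat_lit 7463576049) (nat_lit 114) (nat_lit 5) (nat_lit 118) (nat_lit 5) (nat_lit 115) (nat_lit 5) (nat_lit 516) (nat_lit 436) (nat_lit 248)) (XT.lf (nat_lit 0) (nat_lit 20924023998) (nat_lit 304) (nat_lit 2869668892) (nat_lit 76) (nat_lit 24284920893)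 (nat_lit 114) (nat_lit 5) (nat_lit 118) (nat_lit 5) (nat_lit 115) (nat_lit 5) (nat_lit 517) (nat_lit 436) (nat_lit 247)))) (XT.nd (nat_lit 156) (nat_lit 228) (nat_lit 0) (XT.nd (nat_lit 78) (nat_lit 152) (nat_lit 0) (XT.lf (nat_lit 0) (nat_lit 27242873779) (nat_lit 152) (nat_lit 7143674116) (nat_lit 228) (nat_lit 14627204861) (nat_lit 112) (nat_lit 5) (nat_lit 114) (nat_lit 5) (nat_lit 115) (nat_lit 5) (nat_lit 518) (nat_lit 436) (nat_lit 246)) (XT.lf (nat_lit 0) (nat_lit 8402518715) (nat_lit 152) (nat_lit 40052979742) (nat_lit 228) (nat_lit 1515371018) (nat_lit 110) (nat_lit 5) (nat_lit 112) (nat_lit 5) (nat_lit 113) (nat_lit 5) (nat_lit 519) (nat_lit 436) (nat_lit 245))) (XT.nd (nat_lit 78) (nat_lit 152) (nat_lit 0) (XT.lf (nat_lit 0) (nat_lit 12044944961) (nat_lit 228) (nat_lit 11217390008) (nat_lit 76) (nat_lit 27682234473) (nat_lit 109) (nat_lit 5) (nat_lit 112) (nat_lit 5) (nat_lit 110) (nat_lit 5) (nat_lit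 520) (nat_lit 436) (nat_lit 244)) (XT.lf (nat_lit 0) (nat_lit 20421252110) (nat_lit 152) (nat_lit 5753111307) (nat_lit 228) (nat_lit 25766884464) (nat_lit 107) (nat_lit 5) (nat_lit 109) (nat_lit 5) (nat_lit 110) (nat_lit 5) (nat_lit 521) (nat_lit 436) (nat_lit 243))))) (XT.nd (nat_lit 312) (nat_lit 532) (nat_lit 0) (XT.nd (nat_lit 156) (nat_lit 152) (nat_lit 0) (XT.nd (nat_lit 78) (nat_lit 76) (nat_lit 0) (XT.lf (nat_lit 0) (nat_lit 152006376) (nat_lit 152) (nat_lit 40806036038) (nat_lit 228) (nat_lit 12002873011) (nat_lit 105) (nat_lit 5) (nat_lit 107) (nat_lit 5) (nat_lit 108) (nat_lit 5) (nat_lit 522) (nat_lit 436) (nat_lit 242)) (XT.lf (nat_lit 0) (nat_lit 2506511345) (nat_lit 228) (nat_lit 20668698555) (nat_lit 76) (nat_lit 30824089945) (nat_lit 104) (nat_lit 5) (nat_lit 107) (nat_lit 5) (nat_lit 105) (nat_lit 5) (nat_lit 523) (nat_lit 436) (nat_lit 241))) (XT.nd (nat_lit 78) (nat_lit 0) (nat_lit 0) (XT.lf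 (nat_lit 0) (nat_lit 12555709713) (nat_lit 152) (nat_lit 4771490777) (nat_lit 228) (nat_lit 37734552109) (nat_lit 102) (nat_lit 5) (nat_lit 104) (nat_lit 5) (nat_lit 105) (nat_lit 5) (nat_lit 524) (nat_lit 436) (nat_lit 240)) (XT.lf (nat_lit 0) (nat_lit 32936229312) (nat_lit 228) (nat_lit 9093884379) (nat_lit 76) (nat_lit 14115653759) (nat_lit 102) (nat_lit 5) (nat_lit 105) (nat_lit 5) (nat_lit 103) (nat_lit 5) (nat_lit 525) (nat_lit 436) (nat_lit 239)))) (XT.nd (nat_lit 156) (nat_lit 152) (nat_lit 0) (XT.nd (nat_lit 78) (nat_lit 228) (nat_lit 0) (XT.lf (nat_lit 0) (nat_lit 25770257125) (nat_lit 152) (nat_lit 23534923786) (nat_lit 228) (nat_lit 7948372359) (nat_lit 100) (nat_lit 5) (nat_lit 102) (nat_lit 5) (nat_lit 103) (nat_lit 5) (nat_lit 526) (nat_lit 436) (nat_lit 238)) (XT.lf (nat_lit 0) (nat_lit 3460832179) (nat_lit 152) (nat_lit 4280867210) (nat_lit 228) (nat_lit 50646951351) (nat_lit 97) (nat_lit 5) (nat_lit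 99) (nat_lit 5) (nat_lit 100) (nat_lit 5) (nat_lit 527) (nat_lit 436) (nat_lit 237))) (XT.nd (nat_lit 78) (nat_lit 152) (nat_lit 0) (XT.lf (nat_lit 0) (nat_lit 24209979813) (nat_lit 228) (nat_lit 19686960711) (nat_lit 76) (nat_lit 15644481953) (nat_lit 97) (nat_lit 5) (nat_lit 100) (nat_lit 5) (nat_lit 98) (nat_lit 5) (nat_lit 528) (nat_lit 436) (nat_lit 236)) (XT.lf (nat_lit 0) (nat_lit 16892517701) (nat_lit 152) (nat_lit 24481362569) (nat_lit 228) (nat_lit 19348850021) (nat_lit 95) (nat_lit 5) (nat_lit 97) (nat_lit 5) (nat_lit 98) (nat_lit 5) (nat_lit 529) (nat_lit 436) (nat_lit 235))))))))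
noncomputable def xc175 : XT := (XT.nd (nat_lit 56082) (nat_lit 0) (nat_lit 9956) (XT.nd (nat_lit 1170) (nat_lit 532) (nat_lit 0) (XT.nd (nat_lit 546) (nat_lit 684) (nat_lit 0) (XT.nd (nat_lit 234) (nat_lit 304) (nat_lit 0) (XT.nd (nat_lit 78) (nat_lit 380) (nat_lit 0) (XT.lf (nat_lit 0) (nat_lit 54967147041) (nat_lit 152) (nat_lit 4281193302) (nat_lit 228) (nat_lit 2685267787) (nat_lit 95) (nat_lit 5) (nat_lit 97) (nat_lit 5) (nat_lit 98) (nat_lit 5) (nat_lit 530) (nat_lit 436) (nat_lit 234)) (XT.nd (nat_lit 78) (nat_lit 152) (nat_lit 0) (XT.lf (nat_lit 0) (nat_lit 14658333460) (nat_lit 228) (nat_lit 31858369422) (nat_lit 76) (nat_lit 16646055267) (nat_lit 92) (nat_lit 5) (nat_lit 95) (nat_lit 5) (nat_lit 93) (nat_lit 5) (nat_lit 531) (nat_lit 436) (nat_lit 233)) (XT.lf (nat_lit 0) (nat_lit 6490783637) (nat_lit 152) (nat_lit 26150229128) (nat_lit 228) (nat_lit 31781790127) (nat_lit 90) (nat_lit 5) (nat_lit 92)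 (nat_lit 5) (nat_lit 93) (nat_lit 5) (nat_lit 532) (nat_lit 436) (nat_lit 232)))) (XT.nd (nat_lit 156) (nat_lit 152) (nat_lit 0) (XT.nd (nat_lit 78) (nat_lit 152) (nat_lit 0) (XT.lf (nat_lit 0) (nat_lit 46637831545) (nat_lit 152) (nat_lit 4843999240) (nat_lit 228) (nat_lit 14229258504) (nat_lit 90) (nat_lit 5) (nat_lit 92) (nat_lit 5) (nat_lit 93) (nat_lit 5) (nat_lit 533) (nat_lit 436) (nat_lit 231)) (XT.lf (nat_lit 0) (nat_lit 4143483545) (nat_lit 152) (nat_lit 45872771127) (nat_lit 76) (nat_lit 17009596684) (nat_lit 88) (nat_lit 5) (nat_lit 90) (nat_lit 5) (nat_lit 89) (nat_lit 5) (nat_lit 534) (nat_lit 436) (nat_lit 230))) (XT.nd (nat_lit 78) (nat_lit 152) (nat_lit 0) (XT.lf (nat_lit 0) (nat_lit 23020904405) (nat_lit 152) (nat_lit 5593388151) (nat_lit 76) (nat_lit 39754352557) (nat_lit 88) (nat_lit 5) (nat_lit 90) (nat_lit 5) (nat_lit 89) (nat_lit 5) (nat_lit 535) (nat_lit 436) (nat_lit 229)) (XT.lf (nat_lit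 0) (nat_lit 36603248922) (nat_lit 152) (nat_lit 6210359272) (nat_lit 228) (nat_lit 26927645733) (nat_lit 86) (nat_lit 5) (nat_lit 88) (nat_lit 5) (nat_lit 89) (nat_lit 5) (nat_lit 536) (nat_lit 436) (nat_lit 228))))) (XT.nd (nat_lit 312) (nat_lit 380) (nat_lit 0) (XT.nd (nat_lit 156) (nat_lit 152) (nat_lit 0) (XT.nd (nat_lit 78) (nat_lit 76) (nat_lit 0) (XT.lf (nat_lit 0) (nat_lit 9035328949) (nat_lit 76) (nat_lit 54467898727) (nat_lit 152) (nat_lit 7642719346) (nat_lit 85) (nat_lit 5) (nat_lit 86) (nat_lit 5) (nat_lit 87) (nat_lit 4) (nat_lit 537) (nat_lit 436) (nat_lit 227)) (XT.lf (nat_lit 0) (nat_lit 12378835589) (nat_lit 152) (nat_lit 19617259996) (nat_lit 76) (nat_lit 40581264624) (nat_lit 84) (nat_lit 5) (nat_lit 86) (nat_lit 5) (nat_lit 85) (nat_lit 5) (nat_lit 538) (nat_lit 436) (nat_lit 226))) (XT.nd (nat_lit 78) (nat_lit 0) (nat_lit 0) (XT.lf (nat_lit 0) (nat_lit 24549023295) (nat_lit 152) (nat_lit 8531587835)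 (nat_lit 228) (nat_lit 40961839043) (nat_lit 82) (nat_lit 5) (nat_lit 84) (nat_lit 5) (nat_lit 85) (nat_lit 5) (nat_lit 539) (nat_lit 436) (nat_lit 225)) (XT.lf (nat_lit 0) (nat_lit 54751021115) (nat_lit 228) (nat_lit 5260645730) (nat_lit 76) (nat_lit 15529398604) (nat_lit 82) (nat_lit 5) (nat_lit 85) (nat_lit 5) (nat_lit 83) (nat_lit 4) (nat_lit 540) (nat_lit 436) (nat_lit 224)))) (XT.nd (nat_lit 156) (nat_lit 76) (nat_lit 0) (XT.nd (nat_lit 78) (nat_lit 152) (nat_lit 0) (XT.lf (nat_lit 0) (nat_lit 467848901) (nat_lit 152) (nat_lit 36065150246) (nat_lit 76) (nat_lit 40537223183) (nat_lit 80) (nat_lit 5) (nat_lit 82) (nat_lit 5) (nat_lit 81) (nat_lit 5) (nat_lit 541) (nat_lit 436) (nat_lit 223)) (XT.lf (nat_lit 0) (nat_lit 10108725005) (nat_lit 152) (nat_lit 11985011901) (nat_lit 228) (nat_lit 56540898275) (nat_lit 78) (nat_lit 5) (nat_lit 80) (nat_lit 5) (nat_lit 81) (nat_lit 5) (nat_lit 542) (nat_lit 436) (nat_lit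 222))) (XT.nd (nat_lit 78) (nat_lit 76) (nat_lit 0) (XT.lf (nat_lit 0) (nat_lit 44861341871) (nat_lit 228) (nat_lit 21964497164) (nat_lit 76) (nat_lit 13405353217) (nat_lit 78) (nat_lit 5) (nat_lit 81) (nat_lit 5) (nat_lit 79) (nat_lit 4) (nat_lit 543) (nat_lit 436) (nat_lit 221)) (XT.lf (nat_lit 0) (nat_lit 26384998810) (nat_lit 76) (nat_lit 42296651986) (nat_lit 152) (nat_lit 13182905004) (nat_lit 77) (nat_lit 5) (nat_lit 78) (nat_lit 5) (nat_lit 79) (nat_lit 4) (nat_lit 544) (nat_lit 436) (nat_lit 220)))))) (XT.nd (nat_lit 54288) (nat_lit 0) (nat_lit 18392) (XT.nd (nat_lit 312) (nat_lit 228) (nat_lit 0) (XT.nd (nat_lit 156) (nat_lit 76) (nat_lit 0) (XT.nd (nat_lit 78) (nat_lit 152) (nat_lit 0) (XT.lf (nat_lit 0) (nat_lit 9702340333) (nat_lit 152) (nat_lit 7005148284) (nat_lit 76) (nat_lit 66830001721) (nat_lit 76) (nat_lit 5) (nat_lit 78) (nat_lit 5) (nat_lit 77) (nat_lit 5) (nat_lit 545) (nat_lit 436) (nat_lit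 219)) (XT.lf (nat_lit 0) (nat_lit 33524313538) (nat_lit 228) (nat_lit 41702651946) (nat_lit 76) (nat_lit 10014277737) (nat_lit 74) (nat_lit 5) (nat_lit 77) (nat_lit 5) (nat_lit 75) (nat_lit 4) (nat_lit 546) (nat_lit 436) (nat_lit 218))) (XT.nd (nat_lit 78) (nat_lit 0) (nat_lit 0) (XT.lf (nat_lit 0) (nat_lit 8748011978) (nat_lit 76) (nat_lit 49631353762) (nat_lit 152) (nat_lit 28607190390) (nat_lit 73) (nat_lit 5) (nat_lit 74) (nat_lit 5) (nat_lit 75) (nat_lit 4) (nat_lit 547) (nat_lit 436) (nat_lit 217)) (XT.lf (nat_lit 0) (nat_lit 61562279291) (nat_lit 76) (nat_lit 22836402237) (nat_lit 152) (nat_lit 4372988575) (nat_lit 73) (nat_lit 5) (nat_lit 74) (nat_lit 5) (nat_lit 75) (nat_lit 4) (nat_lit 548) (nat_lit 436) (nat_lit 216)))) (XT.nd (nat_lit 53820) (nat_lit 0) (nat_lit 19456) (XT.nd (nat_lit 53742) (nat_lit 0) (nat_lit 19456) (XT.lf (nat_lit 0) (nat_lit 20480741969) (nat_lit 228) (nat_lit 64998699585) (nat_lit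 76) (nat_lit 5116131170) (nat_lit 70) (nat_lit 5) (nat_lit 73) (nat_lit 5) (nat_lit 71) (nat_lit 4) (nat_lit 549) (nat_lit 436) (nat_lit 215)) (XT.lf (nat_lit 0) (nat_lit 2223613310) (nat_lit 0) (nat_lit 2223613310) (nat_lit 1140) (nat_lit 1764486928) (nat_lit 326) (nat_lit 5) (nat_lit 326) (nat_lit 3) (nat_lit 341) (nat_lit 3) (nat_lit 437) (nat_lit 437) (nat_lit 326))) (XT.nd (nat_lit 78) (nat_lit 0) (nat_lit 0) (XT.lf (nat_lit 0) (nat_lit 9478939809) (nat_lit 1140) (nat_lit 1822020679) (nat_lit 1216) (nat_lit 1295243745) (nat_lit 326) (nat_lit 5) (nat_lit 341) (nat_lit 3) (nat_lit 342) (nat_lit 5) (nat_lit 438) (nat_lit 437) (nat_lit 325)) (XT.lf (nat_lit 76) (nat_lit 4552435654) (nat_lit 0) (nat_lit 5599291883) (nat_lit 1216) (nat_lit 2620315793) (nat_lit 327) (nat_lit 5) (nat_lit 326) (nat_lit 5) (nat_lit 342) (nat_lit 5) (nat_lit 439) (nat_lit 437) (nat_lit 324))))) (XT.nd (nat_lit 312) (nat_lit 1140) (nat_lit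 0) (XT.nd (nat_lit 156) (nat_lit 0) (nat_lit 0) (XT.nd (nat_lit 78) (nat_lit 0) (nat_lit 0) (XT.lf (nat_lit 0) (nat_lit 10849363502) (nat_lit 1140) (nat_lit 1809575192) (nat_lit 1216) (nat_lit 294080566) (nat_lit 327) (nat_lit 5) (nat_lit 342) (nat_lit 5) (nat_lit 343) (nat_lit 5) (nat_lit 440) (nat_lit 437) (nat_lit 323)) (XT.lf (nat_lit 76) (nat_lit 4822061777) (nat_lit 0) (nat_lit 6831595050) (nat_lit 1216) (nat_lit 1483197344) (nat_lit 328) (nat_lit 5) (nat_lit 327) (nat_lit 5) (nat_lit 343) (nat_lit 5) (nat_lit 441) (nat_lit 437) (nat_lit 322))) (XT.nd (nat_lit 78) (nat_lit 0) (nat_lit 76) (XT.lf (nat_lit 76) (nat_lit 11680480329) (nat_lit 0) (nat_lit 804187744) (nat_lit 1216) (nat_lit 841459890) (nat_lit 328) (nat_lit 5) (nat_lit 327) (nat_lit 5) (nat_lit 343) (nat_lit 5) (nat_lit 442) (nat_lit 437) (nat_lit 321)) (XT.lf (nat_lit 76) (nat_lit 5264850213) (nat_lit 0) (nat_lit 8163148068) (nat_lit 1216) (nat_lit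 90461490) (nat_lit 329) (nat_lit 5) (nat_lit 328) (nat_lit 5) (nat_lit 344) (nat_lit 5) (nat_lit 443) (nat_lit 437) (nat_lit 320)))) (XT.nd (nat_lit 156) (nat_lit 0) (nat_lit 76) (XT.nd (nat_lit 78) (nat_lit 0) (nat_lit 76) (XT.lf (nat_lit 0) (nat_lit 679518234) (nat_lit 1216) (nat_lit 1324075129) (nat_lit 1292) (nat_lit 11712479155) (nat_lit 312) (nat_lit 5) (nat_lit 328) (nat_lit 5) (nat_lit 329) (nat_lit 5) (nat_lit 444) (nat_lit 437) (nat_lit 319)) (XT.lf (nat_lit 0) (nat_lit 1555490251) (nat_lit 1216) (nat_lit 8042156617) (nat_lit 1292) (nat_lit 4319399914) (nat_lit 313) (nat_lit 5) (nat_lit 329) (nat_lit 5) (nat_lit 330) (nat_lit 5) (nat_lit 445) (nat_lit 437) (nat_lit 318))) (XT.nd (nat_lit 78) (nat_lit 0) (nat_lit 76) (XT.lf (nat_lit 0) (nat_lit 2476933668) (nat_lit 1216) (nat_lit 836467199) (nat_lit 1292) (nat_lit 10810074940) (nat_lit 313) (nat_lit 5) (nat_lit 329) (nat_lit 5) (nat_lit 330) (nat_lit 5)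 (nat_lit 446) (nat_lit 437) (nat_lit 317)) (XT.lf (nat_lit 0) (nat_lit 3507802037) (nat_lit 1216) (nat_lit 7658888954) (nat_lit 1292) (nat_lit 3166954523) (nat_lit 314) (nat_lit 5) (nat_lit 330) (nat_lit 5) (nat_lit 331) (nat_lit 5) (nat_lit 447) (nat_lit 437) (nat_lit 316))))))) (XT.nd (nat_lit 1248) (nat_lit 4332) (nat_lit 0) (XT.nd (nat_lit 624) (nat_lit 3268) (nat_lit 0) (XT.nd (nat_lit 312) (nat_lit 988) (nat_lit 0) (XT.nd (nat_lit 156) (nat_lit 0) (nat_lit 76) (XT.nd (nat_lit 78) (nat_lit 0) (nat_lit 76) (XT.lf (nat_lit 0) (nat_lit 4597544288) (nat_lit 1216) (nat_lit 164170572) (nat_lit 1292) (nat_lit 9787568244) (nat_lit 314) (nat_lit 5) (nat_lit 330) (nat_lit 5) (nat_lit 331) (nat_lit 5) (nat_lit 448) (nat_lit 437) (nat_lit 315)) (XT.lf (nat_lit 0) (nat_lit 5799367066) (nat_lit 1216) (nat_lit 7091994529) (nat_lit 1292) (nat_lit 1877647766) (nat_lit 315) (nat_lit 5) (nat_lit 331) (nat_lit 5) (nat_lit 332)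 (nat_lit 5) (nat_lit 449) (nat_lit 437) (nat_lit 314))) (XT.nd (nat_lit 78) (nat_lit 0) (nat_lit 76) (XT.lf (nat_lit 76) (nat_lit 718471791) (nat_lit 0) (nat_lit 6361818778) (nat_lit 1292) (nat_lit 7913746612) (nat_lit 316) (nat_lit 5) (nat_lit 315) (nat_lit 5) (nat_lit 332) (nat_lit 5) (nat_lit 450) (nat_lit 437) (nat_lit 313)) (XT.lf (nat_lit 0) (nat_lit 8463080997) (nat_lit 1216) (nat_lit 6329451238) (nat_lit 1292) (nat_lit 431381544) (nat_lit 316) (nat_lit 5) (nat_lit 332) (nat_lit 5) (nat_lit 333) (nat_lit 5) (nat_lit 451) (nat_lit 437) (nat_lit 312)))) (XT.nd (nat_lit 156) (nat_lit 1140) (nat_lit 0) (XT.nd (nat_lit 78) (nat_lit 0) (nat_lit 0) (XT.lf (nat_lit 76) (nat_lit 1817613017) (nat_lit 0) (nat_lit 8138182698) (nat_lit 1292) (nat_lit 5502838830) (nat_lit 317) (nat_lit 5) (nat_lit 316) (nat_lit 5) (nat_lit 333) (nat_lit 5) (nat_lit 452) (nat_lit 437) (nat_lit 311)) (XT.lf (nat_lit 76) (nat_lit 10329020740)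 (nat_lit 0) (nat_lit 1216422180) (nat_lit 1292) (nat_lit 4153390541) (nat_lit 317) (nat_lit 5) (nat_lit 316) (nat_lit 5) (nat_lit 333) (nat_lit 5) (nat_lit 453) (nat_lit 437) (nat_lit 310))) (XT.nd (nat_lit 78) (nat_lit 0) (nat_lit 0) (XT.lf (nat_lit 0) (nat_lit 3144154900) (nat_lit 1216) (nat_lit 10114284288) (nat_lit 1292) (nat_lit 2685530392) (nat_lit 301) (nat_lit 5) (nat_lit 317) (nat_lit 5) (nat_lit 318) (nat_lit 5) (nat_lit 454) (nat_lit 437) (nat_lit 309)) (XT.lf (nat_lit 0) (nat_lit 12001538999) (nat_lit 1216) (nat_lit 3076271426) (nat_lit 1292) (nat_lit 1117000801) (nat_lit 301) (nat_lit 5) (nat_lit 317) (nat_lit 5) (nat_lit 318) (nat_lit 5) (nat_lit 455) (nat_lit 437) (nat_lit 308))))) (XT.nd (nat_lit 312) (nat_lit 1748) (nat_lit 0) (XT.nd (nat_lit 156) (nat_lit 608) (nat_lit 0) (XT.nd (nat_lit 78) (nat_lit 0) (nat_lit 0) (XT.lf (nat_lit 0) (nat_lit 564187054) (nat_lit 912) (nat_lit 11742989922) (nat_lit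 76) (nat_lit 4143598357) (nat_lit 289) (nat_lit 5) (nat_lit 301) (nat_lit 5) (nat_lit 290) (nat_lit 5) (nat_lit 456) (nat_lit 437) (nat_lit 307)) (XT.lf (nat_lit 0) (nat_lit 2335869611) (nat_lit 912) (nat_lit 2803218261) (nat_lit 76) (nat_lit 11573124330) (nat_lit 289) (nat_lit 5) (nat_lit 301) (nat_lit 5) (nat_lit 290) (nat_lit 5) (nat_lit 457) (nat_lit 437) (nat_lit 306))) (XT.nd (nat_lit 78) (nat_lit 0) (nat_lit 0) (XT.lf (nat_lit 0) (nat_lit 4235198710) (nat_lit 684) (nat_lit 10479777882) (nat_lit 76) (nat_lit 2264281586) (nat_lit 281) (nat_lit 5) (nat_lit 290) (nat_lit 5) (nat_lit 282) (nat_lit 5) (nat_lit 458) (nat_lit 437) (nat_lit 305)) (XT.lf (nat_lit 0) (nat_lit 6260794113) (nat_lit 684) (nat_lit 1175799008) (nat_lit 76) (nat_lit 9815644680) (nat_lit 281) (nat_lit 5) (nat_lit 290) (nat_lit 5) (nat_lit 282) (nat_lit 5) (nat_lit 459) (nat_lit 437) (nat_lit 304)))) (XT.nd (nat_lit 156) (nat_lit 608) (nat_lit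 0) (XT.nd (nat_lit 78) (nat_lit 532) (nat_lit 0) (XT.lf (nat_lit 0) (nat_lit 8420997373) (nat_lit 684) (nat_lit 8967805731) (nat_lit 76) (nat_lit 142389344) (nat_lit 273) (nat_lit 5) (nat_lit 282) (nat_lit 5) (nat_lit 274) (nat_lit 5) (nat_lit 460) (nat_lit 437) (nat_lit 303)) (XT.lf (nat_lit 0) (nat_lit 731412210) (nat_lit 532) (nat_lit 9997557687) (nat_lit 608) (nat_lit 7087057750) (nat_lit 266) (nat_lit 5) (nat_lit 273) (nat_lit 5) (nat_lit 274) (nat_lit 5) (nat_lit 461) (nat_lit 437) (nat_lit 302))) (XT.nd (nat_lit 78) (nat_lit 608) (nat_lit 0) (XT.lf (nat_lit 0) (nat_lit 10895729747) (nat_lit 532) (nat_lit 2291509892) (nat_lit 608) (nat_lit 4919737310) (nat_lit 266) (nat_lit 5) (nat_lit 273) (nat_lit 5) (nat_lit 274) (nat_lit 5) (nat_lit 462) (nat_lit 437) (nat_lit 301)) (XT.lf (nat_lit 0) (nat_lit 2951954336) (nat_lit 608) (nat_lit 12840724746) (nat_lit 684) (nat_lit 2611773761) (nat_lit 258) (nat_lit 5)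 (nat_lit 266) (nat_lit 5) (nat_lit 267) (nat_lit 5) (nat_lit 463) (nat_lit 437) (nat_lit 300)))))) (XT.nd (nat_lit 624) (nat_lit 2204) (nat_lit 0) (XT.nd (nat_lit 312) (nat_lit 988) (nat_lit 0) (XT.nd (nat_lit 156) (nat_lit 532) (nat_lit 0) (XT.nd (nat_lit 78) (nat_lit 608) (nat_lit 0) (XT.lf (nat_lit 0) (nat_lit 13535129872) (nat_lit 608) (nat_lit 5027388927) (nat_lit 684) (nat_lit 145747845) (nat_lit 258) (nat_lit 5) (nat_lit 266) (nat_lit 5) (nat_lit 267) (nat_lit 5) (nat_lit 464) (nat_lit 437) (nat_lit 299)) (XT.lf (nat_lit 0) (nat_lit 2421209164) (nat_lit 608) (nat_lit 13559764424) (nat_lit 76) (nat_lit 3037321388) (nat_lit 250) (nat_lit 5) (nat_lit 258) (nat_lit 5) (nat_lit 251) (nat_lit 5) (nat_lit 465) (nat_lit 437) (nat_lit 298))) (XT.nd (nat_lit 78) (nat_lit 532) (nat_lit 0) (XT.lf (nat_lit 0) (nat_lit 5156066259) (nat_lit 608) (nat_lit 2882266400) (nat_lit 76) (nat_lit 11296434264) (nat_lit 250) (nat_lit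 5) (nat_lit 258) (nat_lit 5) (nat_lit 251) (nat_lit 5) (nat_lit 466) (nat_lit 437) (nat_lit 297)) (XT.lf (nat_lit 0) (nat_lit 8046132543) (nat_lit 608) (nat_lit 11393250159) (nat_lit 76) (nat_lit 219156080) (nat_lit 243) (nat_lit 5) (nat_lit 251) (nat_lit 5) (nat_lit 244) (nat_lit 5) (nat_lit 467) (nat_lit 437) (nat_lit 296)))) (XT.nd (nat_lit 156) (nat_lit 532) (nat_lit 0) (XT.nd (nat_lit 78) (nat_lit 456) (nat_lit 0) (XT.lf (nat_lit 0) (nat_lit 11123571767) (nat_lit 608) (nat_lit 274204085) (nat_lit 76) (nat_lit 8591228455) (nat_lit 243) (nat_lit 5) (nat_lit 251) (nat_lit 5) (nat_lit 244) (nat_lit 5) (nat_lit 468) (nat_lit 437) (nat_lit 295)) (XT.lf (nat_lit 0) (nat_lit 11391447408) (nat_lit 456) (nat_lit 3003320448) (nat_lit 532) (nat_lit 5931573552) (nat_lit 237) (nat_lit 5) (nat_lit 243) (nat_lit 5) (nat_lit 244) (nat_lit 5) (nat_lit 469) (nat_lit 437) (nat_lit 294))) (XT.nd (nat_lit 78) (nat_lit 76) (nat_lit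 0) (XT.lf (nat_lit 0) (nat_lit 2728557006) (nat_lit 456) (nat_lit 15110878473) (nat_lit 532) (nat_lit 2832103676) (nat_lit 231) (nat_lit 5) (nat_lit 237) (nat_lit 5) (nat_lit 238) (nat_lit 5) (nat_lit 470) (nat_lit 437) (nat_lit 293)) (XT.lf (nat_lit 0) (nat_lit 466303687) (nat_lit 532) (nat_lit 6142865860) (nat_lit 76) (nat_lit 14414430386) (nat_lit 230) (nat_lit 5) (nat_lit 237) (nat_lit 5) (nat_lit 231) (nat_lit 5) (nat_lit 471) (nat_lit 437) (nat_lit 292))))) (XT.nd (nat_lit 312) (nat_lit 912) (nat_lit 0) (XT.nd (nat_lit 156) (nat_lit 836) (nat_lit 0) (XT.nd (nat_lit 78) (nat_lit 0) (nat_lit 0) (XT.lf (nat_lit 0) (nat_lit 3879156672) (nat_lit 532) (nat_lit 15312411820) (nat_lit 76) (nat_lit 2191640897) (nat_lit 224) (nat_lit 5) (nat_lit 231) (nat_lit 5) (nat_lit 225) (nat_lit 5) (nat_lit 472) (nat_lit 437) (nat_lit 291)) (XT.lf (nat_lit 0) (nat_lit 7514957792) (nat_lit 532) (nat_lit 3050303936) (nat_lit 76)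 (nat_lit 11184729059) (nat_lit 224) (nat_lit 5) (nat_lit 231) (nat_lit 5) (nat_lit 225) (nat_lit 5) (nat_lit 473) (nat_lit 437) (nat_lit 290))) (XT.nd (nat_lit 78) (nat_lit 380) (nat_lit 0) (XT.lf (nat_lit 0) (nat_lit 9761112643) (nat_lit 456) (nat_lit 1585249267) (nat_lit 532) (nat_lit 10778818368) (nat_lit 218) (nat_lit 5) (nat_lit 224) (nat_lit 5) (nat_lit 225) (nat_lit 5) (nat_lit 474) (nat_lit 437) (nat_lit 289)) (XT.lf (nat_lit 0) (nat_lit 434051644) (nat_lit 380) (nat_lit 14960417471) (nat_lit 456) (nat_lit 7114104015) (nat_lit 213) (nat_lit 5) (nat_lit 218) (nat_lit 5) (nat_lit 219) (nat_lit 5) (nat_lit 475) (nat_lit 437) (nat_lit 288)))) (XT.nd (nat_lit 156) (nat_lit 380) (nat_lit 0) (XT.nd (nat_lit 78) (nat_lit 532) (nat_lit 0) (XT.lf (nat_lit 0) (nat_lit 13844508226) (nat_lit 380) (nat_lit 5852837173) (nat_lit 456) (nat_lit 3202123083) (nat_lit 213) (nat_lit 5) (nat_lit 218) (nat_lit 5) (nat_lit 219)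 (nat_lit 5) (nat_lit 476) (nat_lit 437) (nat_lit 287)) (XT.lf (nat_lit 0) (nat_lit 881070279) (nat_lit 532) (nat_lit 18910525719) (nat_lit 76) (nat_lit 3508156757) (nat_lit 206) (nat_lit 5) (nat_lit 213) (nat_lit 5) (nat_lit 207) (nat_lit 5) (nat_lit 477) (nat_lit 437) (nat_lit 286))) (XT.nd (nat_lit 78) (nat_lit 380) (nat_lit 0) (XT.lf (nat_lit 0) (nat_lit 5165857805) (nat_lit 532) (nat_lit 5386525466) (nat_lit 76) (nat_lit 13154407871) (nat_lit 206) (nat_lit 5) (nat_lit 213) (nat_lit 5) (nat_lit 207) (nat_lit 5) (nat_lit 478) (nat_lit 437) (nat_lit 285)) (XT.lf (nat_lit 0) (nat_lit 8704287181) (nat_lit 380) (nat_lit 951938068) (nat_lit 456) (nat_lit 14467504779) (nat_lit 201) (nat_lit 5) (nat_lit 206) (nat_lit 5) (nat_lit 207) (nat_lit 5) (nat_lit 479) (nat_lit 437) (nat_lit 284))))))))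
noncomputable def xc176 : XT := (XT.nd (nat_lit 2418) (nat_lit 3344) (nat_lit 0) (XT.nd (nat_lit 1170) (nat_lit 2584) (nat_lit 0) (XT.nd (nat_lit 546) (nat_lit 1672) (nat_lit 0) (XT.nd (nat_lit 234) (nat_lit 760) (nat_lit 0) (XT.nd (nat_lit 78) (nat_lit 684) (nat_lit 0) (XT.lf (nat_lit 0) (nat_lit 14415593480) (nat_lit 456) (nat_lit 1318593668) (nat_lit 76) (nat_lit 8814961663) (nat_lit 201) (nat_lit 5) (nat_lit 207) (nat_lit 5) (nat_lit 202) (nat_lit 5) (nat_lit 480) (nat_lit 437) (nat_lit 283)) (XT.nd (nat_lit 78) (nat_lit 304) (nat_lit 0) (XT.lf (nat_lit 0) (nat_lit 13449716783) (nat_lit 380) (nat_lit 6000383219) (nat_lit 456) (nat_lit 5533259848) (nat_lit 196) (nat_lit 5) (nat_lit 201) (nat_lit 5) (nat_lit 202) (nat_lit 5) (nat_lit 481) (nat_lit 437) (nat_lit 282)) (XT.lf (nat_lit 0) (nat_lit 3274301787) (nat_lit 304) (nat_lit 21438683351) (nat_lit 380) (nat_lit 715292177) (nat_lit 192) (nat_lit 5) (nat_lit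 196) (nat_lit 5) (nat_lit 197) (nat_lit 5) (nat_lit 482) (nat_lit 437) (nat_lit 281)))) (XT.nd (nat_lit 156) (nat_lit 304) (nat_lit 0) (XT.nd (nat_lit 78) (nat_lit 380) (nat_lit 0) (XT.lf (nat_lit 0) (nat_lit 4335131623) (nat_lit 380) (nat_lit 7230237568) (nat_lit 76) (nat_lit 14314824818) (nat_lit 191) (nat_lit 5) (nat_lit 196) (nat_lit 5) (nat_lit 192) (nat_lit 5) (nat_lit 483) (nat_lit 437) (nat_lit 280)) (XT.lf (nat_lit 0) (nat_lit 8287388056) (nat_lit 380) (nat_lit 1308913945) (nat_lit 456) (nat_lit 16746945787) (nat_lit 186) (nat_lit 5) (nat_lit 191) (nat_lit 5) (nat_lit 192) (nat_lit 5) (nat_lit 484) (nat_lit 437) (nat_lit 279))) (XT.nd (nat_lit 78) (nat_lit 304) (nat_lit 0) (XT.lf (nat_lit 0) (nat_lit 15172028192) (nat_lit 456) (nat_lit 2497469525) (nat_lit 76) (nat_lit 9145994199) (nat_lit 186) (nat_lit 5) (nat_lit 192) (nat_lit 5) (nat_lit 187) (nat_lit 5) (nat_lit 485) (nat_lit 437) (nat_lit 278)) (XT.lf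 (nat_lit 0) (nat_lit 13775233731) (nat_lit 304) (nat_lit 7279361752) (nat_lit 380) (nat_lit 6243121148) (nat_lit 182) (nat_lit 5) (nat_lit 186) (nat_lit 5) (nat_lit 187) (nat_lit 5) (nat_lit 486) (nat_lit 437) (nat_lit 277))))) (XT.nd (nat_lit 312) (nat_lit 988) (nat_lit 0) (XT.nd (nat_lit 156) (nat_lit 304) (nat_lit 0) (XT.nd (nat_lit 78) (nat_lit 76) (nat_lit 0) (XT.lf (nat_lit 0) (nat_lit 2806936814) (nat_lit 304) (nat_lit 24386313335) (nat_lit 380) (nat_lit 598769960) (nat_lit 178) (nat_lit 5) (nat_lit 182) (nat_lit 5) (nat_lit 183) (nat_lit 5) (nat_lit 487) (nat_lit 437) (nat_lit 276)) (XT.lf (nat_lit 0) (nat_lit 5317417073) (nat_lit 380) (nat_lit 8525555508) (nat_lit 76) (nat_lit 14450548548) (nat_lit 177) (nat_lit 5) (nat_lit 182) (nat_lit 5) (nat_lit 178) (nat_lit 5) (nat_lit 488) (nat_lit 437) (nat_lit 275))) (XT.nd (nat_lit 78) (nat_lit 0) (nat_lit 0) (XT.lf (nat_lit 0) (nat_lit 8581140503) (nat_lit 304)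 (nat_lit 2894859551) (nat_lit 380) (nat_lit 17331581227) (nat_lit 173) (nat_lit 5) (nat_lit 177) (nat_lit 5) (nat_lit 178) (nat_lit 5) (nat_lit 489) (nat_lit 437) (nat_lit 274)) (XT.lf (nat_lit 0) (nat_lit 17981371122) (nat_lit 380) (nat_lit 3048297375) (nat_lit 76) (nat_lit 8302534119) (nat_lit 173) (nat_lit 5) (nat_lit 178) (nat_lit 5) (nat_lit 174) (nat_lit 5) (nat_lit 490) (nat_lit 437) (nat_lit 273)))) (XT.nd (nat_lit 156) (nat_lit 304) (nat_lit 0) (XT.nd (nat_lit 78) (nat_lit 380) (nat_lit 0) (XT.lf (nat_lit 0) (nat_lit 14899308879) (nat_lit 304) (nat_lit 9949154208) (nat_lit 380) (nat_lit 5019103000) (nat_lit 169) (nat_lit 5) (nat_lit 173) (nat_lit 5) (nat_lit 174) (nat_lit 5) (nat_lit 491) (nat_lit 437) (nat_lit 272)) (XT.lf (nat_lit 0) (nat_lit 1543315076) (nat_lit 380) (nat_lit 27364812411) (nat_lit 76) (nat_lit 1508328182) (nat_lit 164) (nat_lit 5) (nat_lit 169) (nat_lit 5) (nat_lit 165) (nat_lit 5)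 (nat_lit 492) (nat_lit 437) (nat_lit 271))) (XT.nd (nat_lit 78) (nat_lit 304) (nat_lit 0) (XT.lf (nat_lit 0) (nat_lit 8447635766) (nat_lit 380) (nat_lit 9216038163) (nat_lit 76) (nat_lit 13309270177) (nat_lit 164) (nat_lit 5) (nat_lit 169) (nat_lit 5) (nat_lit 165) (nat_lit 5) (nat_lit 493) (nat_lit 437) (nat_lit 270)) (XT.lf (nat_lit 0) (nat_lit 9657854010) (nat_lit 304) (nat_lit 5988978016) (nat_lit 380) (nat_lit 15896663049) (nat_lit 160) (nat_lit 5) (nat_lit 164) (nat_lit 5) (nat_lit 165) (nat_lit 5) (nat_lit 494) (nat_lit 437) (nat_lit 269)))))) (XT.nd (nat_lit 624) (nat_lit 1216) (nat_lit 0) (XT.nd (nat_lit 312) (nat_lit 760) (nat_lit 0) (XT.nd (nat_lit 156) (nat_lit 380) (nat_lit 0) (XT.nd (nat_lit 78) (nat_lit 228) (nat_lit 0) (XT.lf (nat_lit 0) (nat_lit 23208967532) (nat_lit 380) (nat_lit 2908283718) (nat_lit 76) (nat_lit 6009502670) (nat_lit 160) (nat_lit 5) (nat_lit 165) (nat_lit 5) (nat_lit 161) (nat_lit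 5) (nat_lit 495) (nat_lit 437) (nat_lit 268)) (XT.lf (nat_lit 0) (nat_lit 16901278070) (nat_lit 228) (nat_lit 14313554848) (nat_lit 304) (nat_lit 1506171878) (nat_lit 157) (nat_lit 5) (nat_lit 160) (nat_lit 5) (nat_lit 161) (nat_lit 5) (nat_lit 496) (nat_lit 437) (nat_lit 267))) (XT.nd (nat_lit 78) (nat_lit 0) (nat_lit 0) (XT.lf (nat_lit 0) (nat_lit 4044625104) (nat_lit 304) (nat_lit 2027254442) (nat_lit 380) (nat_lit 27257526846) (nat_lit 152) (nat_lit 5) (nat_lit 156) (nat_lit 5) (nat_lit 157) (nat_lit 5) (nat_lit 497) (nat_lit 437) (nat_lit 266)) (XT.lf (nat_lit 0) (nat_lit 14105657370) (nat_lit 380) (nat_lit 9248414378) (nat_lit 76) (nat_lit 10593781408) (nat_lit 152) (nat_lit 5) (nat_lit 157) (nat_lit 5) (nat_lit 153) (nat_lit 5) (nat_lit 498) (nat_lit 437) (nat_lit 265)))) (XT.nd (nat_lit 156) (nat_lit 532) (nat_lit 0) (XT.nd (nat_lit 78) (nat_lit 0) (nat_lit 0) (XT.lf (nat_lit 0) (nat_lit 11587622350) (nat_lit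 228) (nat_lit 10919594253) (nat_lit 304) (nat_lit 12073833891) (nat_lit 149) (nat_lit 5) (nat_lit 152) (nat_lit 5) (nat_lit 153) (nat_lit 5) (nat_lit 499) (nat_lit 437) (nat_lit 264)) (XT.lf (nat_lit 0) (nat_lit 31268633855) (nat_lit 304) (nat_lit 2018695696) (nat_lit 76) (nat_lit 1942680072) (nat_lit 149) (nat_lit 5) (nat_lit 153) (nat_lit 5) (nat_lit 150) (nat_lit 5) (nat_lit 500) (nat_lit 437) (nat_lit 263))) (XT.nd (nat_lit 78) (nat_lit 228) (nat_lit 0) (XT.lf (nat_lit 0) (nat_lit 4606099226) (nat_lit 304) (nat_lit 16077394719) (nat_lit 76) (nat_lit 15204754667) (nat_lit 145) (nat_lit 5) (nat_lit 149) (nat_lit 5) (nat_lit 146) (nat_lit 5) (nat_lit 501) (nat_lit 437) (nat_lit 262)) (XT.lf (nat_lit 0) (nat_lit 5838245352) (nat_lit 228) (nat_lit 7584942183) (nat_lit 304) (nat_lit 23139704516) (nat_lit 142) (nat_lit 5) (nat_lit 145) (nat_lit 5) (nat_lit 146) (nat_lit 5) (nat_lit 502) (nat_lit 437) (nat_lit 261)))))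 (XT.nd (nat_lit 312) (nat_lit 684) (nat_lit 0) (XT.nd (nat_lit 156) (nat_lit 304) (nat_lit 0) (XT.nd (nat_lit 78) (nat_lit 228) (nat_lit 0) (XT.lf (nat_lit 0) (nat_lit 22721059552) (nat_lit 304) (nat_lit 8577703100) (nat_lit 76) (nat_lit 5952524195) (nat_lit 142) (nat_lit 5) (nat_lit 146) (nat_lit 5) (nat_lit 143) (nat_lit 5) (nat_lit 503) (nat_lit 437) (nat_lit 260)) (XT.lf (nat_lit 0) (nat_lit 14433065926) (nat_lit 228) (nat_lit 18074305660) (nat_lit 304) (nat_lit 5446676964) (nat_lit 139) (nat_lit 5) (nat_lit 142) (nat_lit 5) (nat_lit 143) (nat_lit 5) (nat_lit 504) (nat_lit 437) (nat_lit 259))) (XT.nd (nat_lit 78) (nat_lit 228) (nat_lit 0) (XT.lf (nat_lit 0) (nat_lit 3916251248) (nat_lit 304) (nat_lit 410880787) (nat_lit 76) (nat_lit 34347139132) (nat_lit 138) (nat_lit 5) (nat_lit 142) (nat_lit 5) (nat_lit 139) (nat_lit 5) (nat_lit 505) (nat_lit 437) (nat_lit 258)) (XT.lf (nat_lit 0) (nat_lit 13772431868) (nat_lit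 304) (nat_lit 15709025601) (nat_lit 76) (nat_lit 9923370214) (nat_lit 135) (nat_lit 5) (nat_lit 139) (nat_lit 5) (nat_lit 136) (nat_lit 5) (nat_lit 506) (nat_lit 437) (nat_lit 257)))) (XT.nd (nat_lit 156) (nat_lit 456) (nat_lit 0) (XT.nd (nat_lit 78) (nat_lit 0) (nat_lit 0) (XT.lf (nat_lit 0) (nat_lit 8492809183) (nat_lit 228) (nat_lit 15555997372) (nat_lit 304) (nat_lit 16104759239) (nat_lit 132) (nat_lit 5) (nat_lit 135) (nat_lit 5) (nat_lit 136) (nat_lit 5) (nat_lit 507) (nat_lit 437) (nat_lit 256)) (XT.lf (nat_lit 0) (nat_lit 33735823095) (nat_lit 228) (nat_lit 1052172208) (nat_lit 304) (nat_lit 6132135215) (nat_lit 132) (nat_lit 5) (nat_lit 135) (nat_lit 5) (nat_lit 136) (nat_lit 5) (nat_lit 508) (nat_lit 437) (nat_lit 255))) (XT.nd (nat_lit 78) (nat_lit 228) (nat_lit 0) (XT.lf (nat_lit 0) (nat_lit 4366734348) (nat_lit 228) (nat_lit 23501230300) (nat_lit 76) (nat_lit 13831298492) (nat_lit 129) (nat_lit 5)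 (nat_lit 132) (nat_lit 5) (nat_lit 130) (nat_lit 5) (nat_lit 509) (nat_lit 437) (nat_lit 254)) (XT.lf (nat_lit 0) (nat_lit 1948899571) (nat_lit 228) (nat_lit 13206836859) (nat_lit 304) (nat_lit 27341259535) (nat_lit 126) (nat_lit 5) (nat_lit 129) (nat_lit 5) (nat_lit 130) (nat_lit 5) (nat_lit 510) (nat_lit 437) (nat_lit 253))))))) (XT.nd (nat_lit 1170) (nat_lit 1520) (nat_lit 0) (XT.nd (nat_lit 546) (nat_lit 912) (nat_lit 0) (XT.nd (nat_lit 234) (nat_lit 684) (nat_lit 0) (XT.nd (nat_lit 78) (nat_lit 228) (nat_lit 0) (XT.lf (nat_lit 0) (nat_lit 26522306098) (nat_lit 304) (nat_lit 14694639755) (nat_lit 76) (nat_lit 2094098137) (nat_lit 126) (nat_lit 5) (nat_lit 130) (nat_lit 5) (nat_lit 127) (nat_lit 5) (nat_lit 511) (nat_lit 437) (nat_lit 252)) (XT.nd (nat_lit 78) (nat_lit 76) (nat_lit 0) (XT.lf (nat_lit 0) (nat_lit 12031815893) (nat_lit 152) (nat_lit 26440614726) (nat_lit 228) (nat_lit 5669806236) (nat_lit 124)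 (nat_lit 5) (nat_lit 126) (nat_lit 5) (nat_lit 127) (nat_lit 5) (nat_lit 512) (nat_lit 437) (nat_lit 251)) (XT.lf (nat_lit 0) (nat_lit 5815859734) (nat_lit 228) (nat_lit 5196318676) (nat_lit 76) (nat_lit 33980139391) (nat_lit 123) (nat_lit 5) (nat_lit 126) (nat_lit 5) (nat_lit 124) (nat_lit 5) (nat_lit 513) (nat_lit 437) (nat_lit 250)))) (XT.nd (nat_lit 156) (nat_lit 304) (nat_lit 0) (XT.nd (nat_lit 78) (nat_lit 152) (nat_lit 0) (XT.lf (nat_lit 0) (nat_lit 17798234581) (nat_lit 304) (nat_lit 22999659926) (nat_lit 76) (nat_lit 5060339800) (nat_lit 120) (nat_lit 5) (nat_lit 124) (nat_lit 5) (nat_lit 121) (nat_lit 5) (nat_lit 514) (nat_lit 437) (nat_lit 249)) (XT.lf (nat_lit 0) (nat_lit 5096511801) (nat_lit 152) (nat_lit 25250868280) (nat_lit 228) (nat_lit 16396529363) (nat_lit 118) (nat_lit 5) (nat_lit 120) (nat_lit 5) (nat_lit 121) (nat_lit 5) (nat_lit 515) (nat_lit 437) (nat_lit 248))) (XT.nd (nat_lit 78) (nat_lit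 304) (nat_lit 0) (XT.lf (nat_lit 0) (nat_lit 34500634530) (nat_lit 152) (nat_lit 9000948512) (nat_lit 228) (nat_lit 4147714414) (nat_lit 118) (nat_lit 5) (nat_lit 120) (nat_lit 5) (nat_lit 121) (nat_lit 5) (nat_lit 516) (nat_lit 437) (nat_lit 247)) (XT.lf (nat_lit 0) (nat_lit 8534441270) (nat_lit 304) (nat_lit 32213379170) (nat_lit 76) (nat_lit 7824650772) (nat_lit 114) (nat_lit 5) (nat_lit 118) (nat_lit 5) (nat_lit 115) (nat_lit 5) (nat_lit 517) (nat_lit 437) (nat_lit 246))))) (XT.nd (nat_lit 312) (nat_lit 532) (nat_lit 0) (XT.nd (nat_lit 156) (nat_lit 228) (nat_lit 0) (XT.nd (nat_lit 78) (nat_lit 152) (nat_lit 0) (XT.lf (nat_lit 0) (nat_lit 21733327572) (nat_lit 304) (nat_lit 2635551000) (nat_lit 76) (nat_lit 25146640793) (nat_lit 114) (nat_lit 5) (nat_lit 118) (nat_lit 5) (nat_lit 115) (nat_lit 5) (nat_lit 518) (nat_lit 437) (nat_lit 245)) (XT.lf (nat_lit 0) (nat_lit 28377228658) (nat_lit 152) (nat_lit 7220257565)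 (nat_lit 228) (nat_lit 14881293669) (nat_lit 112) (nat_lit 5) (nat_lit 114) (nat_lit 5) (nat_lit 115) (nat_lit 5) (nat_lit 519) (nat_lit 437) (nat_lit 244))) (XT.nd (nat_lit 78) (nat_lit 76) (nat_lit 0) (XT.lf (nat_lit 0) (nat_lit 8972576141) (nat_lit 152) (nat_lit 41115047601) (nat_lit 228) (nat_lit 1377012969) (nat_lit 110) (nat_lit 5) (nat_lit 112) (nat_lit 5) (nat_lit 113) (nat_lit 5) (nat_lit 520) (nat_lit 437) (nat_lit 243)) (XT.lf (nat_lit 0) (nat_lit 12581276034) (nat_lit 228) (nat_lit 11241704202) (nat_lit 76) (nat_lit 28644672057) (nat_lit 109) (nat_lit 5) (nat_lit 112) (nat_lit 5) (nat_lit 110) (nat_lit 5) (nat_lit 521) (nat_lit 437) (nat_lit 242)))) (XT.nd (nat_lit 156) (nat_lit 228) (nat_lit 0) (XT.nd (nat_lit 78) (nat_lit 152) (nat_lit 0) (XT.lf (nat_lit 0) (nat_lit 21343036321) (nat_lit 152) (nat_lit 5789415844) (nat_lit 228) (nat_lit 26361842804) (nat_lit 107) (nat_lit 5) (nat_lit 109) (nat_lit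 5) (nat_lit 110) (nat_lit 5) (nat_lit 522) (nat_lit 437) (nat_lit 241)) (XT.lf (nat_lit 0) (nat_lit 466524580) (nat_lit 152) (nat_lit 41892333698) (nat_lit 228) (nat_lit 12185717895) (nat_lit 105) (nat_lit 5) (nat_lit 107) (nat_lit 5) (nat_lit 108) (nat_lit 5) (nat_lit 523) (nat_lit 437) (nat_lit 240))) (XT.nd (nat_lit 78) (nat_lit 152) (nat_lit 0) (XT.lf (nat_lit 0) (nat_lit 2750427744) (nat_lit 228) (nat_lit 20984467302) (nat_lit 76) (nat_lit 31879317942) (nat_lit 104) (nat_lit 5) (nat_lit 107) (nat_lit 5) (nat_lit 105) (nat_lit 5) (nat_lit 524) (nat_lit 437) (nat_lit 239)) (XT.lf (nat_lit 0) (nat_lit 13233689958) (nat_lit 152) (nat_lit 4780029766) (nat_lit 228) (nat_lit 38694880259) (nat_lit 102) (nat_lit 5) (nat_lit 104) (nat_lit 5) (nat_lit 105) (nat_lit 5) (nat_lit 525) (nat_lit 437) (nat_lit 238)))))) (XT.nd (nat_lit 624) (nat_lit 608) (nat_lit 0) (XT.nd (nat_lit 312) (nat_lit 532) (nat_lit 0) (XT.nd (nat_lit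 156) (nat_lit 228) (nat_lit 0) (XT.nd (nat_lit 78) (nat_lit 152) (nat_lit 0) (XT.lf (nat_lit 0) (nat_lit 34087420203) (nat_lit 228) (nat_lit 9070564760) (nat_lit 76) (nat_lit 14667258412) (nat_lit 102) (nat_lit 5) (nat_lit 105) (nat_lit 5) (nat_lit 103) (nat_lit 5) (nat_lit 526) (nat_lit 437) (nat_lit 237)) (XT.lf (nat_lit 0) (nat_lit 26836597693) (nat_lit 152) (nat_lit 24108910787) (nat_lit 228) (nat_lit 8020812360) (nat_lit 100) (nat_lit 5) (nat_lit 102) (nat_lit 5) (nat_lit 103) (nat_lit 5) (nat_lit 527) (nat_lit 437) (nat_lit 236))) (XT.nd (nat_lit 78) (nat_lit 0) (nat_lit 0) (XT.lf (nat_lit 0) (nat_lit 3858226597) (nat_lit 152) (nat_lit 4276576514) (nat_lit 228) (nat_lit 52000677929) (nat_lit 97) (nat_lit 5) (nat_lit 99) (nat_lit 5) (nat_lit 100) (nat_lit 5) (nat_lit 528) (nat_lit 437) (nat_lit 235)) (XT.lf (nat_lit 0) (nat_lit 25093685512) (nat_lit 228) (nat_lit 19989100678) (nat_lit 76) (nat_lit 16240153238)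 (nat_lit 97) (nat_lit 5) (nat_lit 100) (nat_lit 5) (nat_lit 98) (nat_lit 5) (nat_lit 529) (nat_lit 437) (nat_lit 234)))) (XT.nd (nat_lit 156) (nat_lit 380) (nat_lit 0) (XT.nd (nat_lit 78) (nat_lit 0) (nat_lit 0) (XT.lf (nat_lit 0) (nat_lit 17684933961) (nat_lit 152) (nat_lit 25085730126) (nat_lit 228) (nat_lit 19769077659) (nat_lit 95) (nat_lit 5) (nat_lit 97) (nat_lit 5) (nat_lit 98) (nat_lit 5) (nat_lit 530) (nat_lit 437) (nat_lit 233)) (XT.lf (nat_lit 0) (nat_lit 56893482549) (nat_lit 152) (nat_lit 4283344323) (nat_lit 228) (nat_lit 2610255080) (nat_lit 95) (nat_lit 5) (nat_lit 97) (nat_lit 5) (nat_lit 98) (nat_lit 5) (nat_lit 531) (nat_lit 437) (nat_lit 232))) (XT.nd (nat_lit 78) (nat_lit 152) (nat_lit 0) (XT.lf (nat_lit 0) (nat_lit 15250063629) (nat_lit 228) (nat_lit 32533202458) (nat_lit 76) (nat_lit 17269812262) (nat_lit 92) (nat_lit 5) (nat_lit 95) (nat_lit 5) (nat_lit 93) (nat_lit 5) (nat_lit 532) (nat_lit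 437) (nat_lit 231)) (XT.lf (nat_lit 0) (nat_lit 6963671095) (nat_lit 152) (nat_lit 26806799494) (nat_lit 228) (nat_lit 32580506518) (nat_lit 90) (nat_lit 5) (nat_lit 92) (nat_lit 5) (nat_lit 93) (nat_lit 5) (nat_lit 533) (nat_lit 437) (nat_lit 230))))) (XT.nd (nat_lit 312) (nat_lit 304) (nat_lit 0) (XT.nd (nat_lit 156) (nat_lit 152) (nat_lit 0) (XT.nd (nat_lit 78) (nat_lit 152) (nat_lit 0) (XT.lf (nat_lit 0) (nat_lit 48307028577) (nat_lit 152) (nat_lit 4865109015) (nat_lit 228) (nat_lit 14505905858) (nat_lit 90) (nat_lit 5) (nat_lit 92) (nat_lit 5) (nat_lit 93) (nat_lit 5) (nat_lit 534) (nat_lit 437) (nat_lit 229)) (XT.lf (nat_lit 0) (nat_lit 4414593957) (nat_lit 152) (nat_lit 46975462016) (nat_lit 76) (nat_lit 17642163957) (nat_lit 88) (nat_lit 5) (nat_lit 90) (nat_lit 5) (nat_lit 89) (nat_lit 5) (nat_lit 535) (nat_lit 437) (nat_lit 228))) (XT.nd (nat_lit 78) (nat_lit 152) (nat_lit 0) (XT.lf (nat_lit 0) (nat_lit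 23854061542) (nat_lit 152) (nat_lit 5495663343) (nat_lit 76) (nat_lit 41065700971) (nat_lit 88) (nat_lit 5) (nat_lit 90) (nat_lit 5) (nat_lit 89) (nat_lit 5) (nat_lit 536) (nat_lit 437) (nat_lit 227)) (XT.lf (nat_lit 0) (nat_lit 37964269641) (nat_lit 152) (nat_lit 6274652823) (nat_lit 228) (nat_lit 27590339269) (nat_lit 86) (nat_lit 5) (nat_lit 88) (nat_lit 5) (nat_lit 89) (nat_lit 5) (nat_lit 537) (nat_lit 437) (nat_lit 226)))) (XT.nd (nat_lit 156) (nat_lit 152) (nat_lit 0) (XT.nd (nat_lit 78) (nat_lit 76) (nat_lit 0) (XT.lf (nat_lit 0) (nat_lit 9569761327) (nat_lit 76) (nat_lit 55979035585) (nat_lit 152) (nat_lit 7727311795) (nat_lit 85) (nat_lit 5) (nat_lit 86) (nat_lit 5) (nat_lit 87) (nat_lit 4) (nat_lit 538) (nat_lit 437) (nat_lit 225)) (XT.lf (nat_lit 0) (nat_lit 12887934370) (nat_lit 152) (nat_lit 19947332752) (nat_lit 76) (nat_lit 41915279474) (nat_lit 84) (nat_lit 5) (nat_lit 86) (nat_lit 5) (nat_lit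 85) (nat_lit 5) (nat_lit 539) (nat_lit 437) (nat_lit 224))) (XT.nd (nat_lit 78) (nat_lit 0) (nat_lit 0) (XT.lf (nat_lit 0) (nat_lit 25541405262) (nat_lit 152) (nat_lit 8667806230) (nat_lit 228) (nat_lit 42050424389) (nat_lit 82) (nat_lit 5) (nat_lit 84) (nat_lit 5) (nat_lit 85) (nat_lit 5) (nat_lit 540) (nat_lit 437) (nat_lit 223)) (XT.lf (nat_lit 0) (nat_lit 56526884698) (nat_lit 228) (nat_lit 5167156213) (nat_lit 76) (nat_lit 16109254244) (nat_lit 82) (nat_lit 5) (nat_lit 85) (nat_lit 5) (nat_lit 83) (nat_lit 4) (nat_lit 541) (nat_lit 437) (nat_lit 222))))))))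
noncomputable def xc177 : XT := (XT.nd (nat_lit 56160) (nat_lit 0) (nat_lit 7600) (XT.nd (nat_lit 54912) (nat_lit 0) (nat_lit 15808) (XT.nd (nat_lit 546) (nat_lit 0) (nat_lit 0) (XT.nd (nat_lit 234) (nat_lit 380) (nat_lit 0) (XT.nd (nat_lit 78) (nat_lit 152) (nat_lit 0) (XT.lf (nat_lit 0) (nat_lit 615033406) (nat_lit 152) (nat_lit 36895607612) (nat_lit 76) (nat_lit 41867691372) (nat_lit 80) (nat_lit 5) (nat_lit 82) (nat_lit 5) (nat_lit 81) (nat_lit 5) (nat_lit 542) (nat_lit 437) (nat_lit 221)) (XT.nd (nat_lit 78) (nat_lit 0) (nat_lit 0) (XT.lf (nat_lit 0) (nat_lit 10661018239) (nat_lit 152) (nat_lit 12227195529) (nat_lit 228) (nat_lit 58101508450) (nat_lit 78) (nat_lit 5) (nat_lit 80) (nat_lit 5) (nat_lit 81) (nat_lit 5) (nat_lit 543) (nat_lit 437) (nat_lit 220)) (XT.lf (nat_lit 0) (nat_lit 46336107326) (nat_lit 228) (nat_lit 22378912369) (nat_lit 76) (nat_lit 13919238553) (nat_lit 78) (nat_lit 5) (nat_lit 81)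 (nat_lit 5) (nat_lit 79) (nat_lit 4) (nat_lit 544) (nat_lit 437) (nat_lit 219)))) (XT.nd (nat_lit 156) (nat_lit 228) (nat_lit 0) (XT.nd (nat_lit 78) (nat_lit 76) (nat_lit 0) (XT.lf (nat_lit 0) (nat_lit 27418671232) (nat_lit 76) (nat_lit 43450926613) (nat_lit 152) (nat_lit 13447067746) (nat_lit 77) (nat_lit 5) (nat_lit 78) (nat_lit 5) (nat_lit 79) (nat_lit 4) (nat_lit 545) (nat_lit 437) (nat_lit 218)) (XT.lf (nat_lit 0) (nat_lit 10118421995) (nat_lit 152) (nat_lit 6977742567) (nat_lit 76) (nat_lit 68943698298) (nat_lit 76) (nat_lit 5) (nat_lit 78) (nat_lit 5) (nat_lit 77) (nat_lit 5) (nat_lit 546) (nat_lit 437) (nat_lit 217))) (XT.nd (nat_lit 78) (nat_lit 76) (nat_lit 0) (XT.lf (nat_lit 0) (nat_lit 34654747235) (nat_lit 228) (nat_lit 42715862387) (nat_lit 76) (nat_lit 10424127975) (nat_lit 74) (nat_lit 5) (nat_lit 77) (nat_lit 5) (nat_lit 75) (nat_lit 4) (nat_lit 547) (nat_lit 437) (nat_lit 216)) (XT.lf (nat_lit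 0) (nat_lit 9245989405) (nat_lit 76) (nat_lit 51008093562) (nat_lit 152) (nat_lit 29338368021) (nat_lit 73) (nat_lit 5) (nat_lit 74) (nat_lit 5) (nat_lit 75) (nat_lit 4) (nat_lit 548) (nat_lit 437) (nat_lit 215))))) (XT.nd (nat_lit 54054) (nat_lit 0) (nat_lit 18164) (XT.nd (nat_lit 53898) (nat_lit 0) (nat_lit 19228) (XT.nd (nat_lit 53820) (nat_lit 0) (nat_lit 19228) (XT.lf (nat_lit 0) (nat_lit 63637824434) (nat_lit 76) (nat_lit 23412561476) (nat_lit 152) (nat_lit 4380840290) (nat_lit 73) (nat_lit 5) (nat_lit 74) (nat_lit 5) (nat_lit 75) (nat_lit 4) (nat_lit 549) (nat_lit 437) (nat_lit 214)) (XT.lf (nat_lit 0) (nat_lit 2507400413) (nat_lit 0) (nat_lit 2507400413) (nat_lit 1140) (nat_lit 1370197633) (nat_lit 326) (nat_lit 5) (nat_lit 326) (nat_lit 3) (nat_lit 341) (nat_lit 3) (nat_lit 438) (nat_lit 438) (nat_lit 324))) (XT.nd (nat_lit 78) (nat_lit 0) (nat_lit 0) (XT.lf (nat_lit 0) (nat_lit 10602280262) (nat_lit 1140)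 (nat_lit 1425745585) (nat_lit 1216) (nat_lit 920814230) (nat_lit 326) (nat_lit 5) (nat_lit 341) (nat_lit 3) (nat_lit 342) (nat_lit 5) (nat_lit 439) (nat_lit 438) (nat_lit 323)) (XT.lf (nat_lit 76) (nat_lit 5135523500) (nat_lit 0) (nat_lit 6139584210) (nat_lit 1216) (nat_lit 1855453317) (nat_lit 327) (nat_lit 5) (nat_lit 326) (nat_lit 5) (nat_lit 342) (nat_lit 5) (nat_lit 440) (nat_lit 438) (nat_lit 322)))) (XT.nd (nat_lit 156) (nat_lit 1064) (nat_lit 0) (XT.nd (nat_lit 78) (nat_lit 0) (nat_lit 76) (XT.lf (nat_lit 76) (nat_lit 11914315608) (nat_lit 0) (nat_lit 52538139) (nat_lit 1216) (nat_lit 1350919352) (nat_lit 327) (nat_lit 5) (nat_lit 326) (nat_lit 5) (nat_lit 342) (nat_lit 5) (nat_lit 441) (nat_lit 438) (nat_lit 321)) (XT.lf (nat_lit 76) (nat_lit 5423114890) (nat_lit 0) (nat_lit 7352989542) (nat_lit 1216) (nat_lit 731595995) (nat_lit 328) (nat_lit 5) (nat_lit 327) (nat_lit 5) (nat_lit 343) (nat_lit 5) (nat_lit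 442) (nat_lit 438) (nat_lit 320))) (XT.nd (nat_lit 78) (nat_lit 1140) (nat_lit 0) (XT.lf (nat_lit 76) (nat_lit 12473993049) (nat_lit 0) (nat_lit 1135543124) (nat_lit 1216) (nat_lit 93793717) (nat_lit 328) (nat_lit 5) (nat_lit 327) (nat_lit 5) (nat_lit 343) (nat_lit 5) (nat_lit 443) (nat_lit 438) (nat_lit 319)) (XT.lf (nat_lit 0) (nat_lit 646007052) (nat_lit 1216) (nat_lit 8021540205) (nat_lit 1292) (nat_lit 5234304318) (nat_lit 312) (nat_lit 5) (nat_lit 328) (nat_lit 5) (nat_lit 329) (nat_lit 5) (nat_lit 444) (nat_lit 438) (nat_lit 318)))))) (XT.nd (nat_lit 624) (nat_lit 2356) (nat_lit 0) (XT.nd (nat_lit 312) (nat_lit 0) (nat_lit 152) (XT.nd (nat_lit 156) (nat_lit 0) (nat_lit 76) (XT.nd (nat_lit 78) (nat_lit 0) (nat_lit 76) (XT.lf (nat_lit 0) (nat_lit 1415791355) (nat_lit 1216) (nat_lit 898960507) (nat_lit 1292) (nat_lit 11791260250) (nat_lit 312) (nat_lit 5) (nat_lit 328) (nat_lit 5) (nat_lit 329) (nat_lit 5)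 (nat_lit 445) (nat_lit 438) (nat_lit 317)) (XT.lf (nat_lit 0) (nat_lit 2299316771) (nat_lit 1216) (nat_lit 7799794645) (nat_lit 1292) (nat_lit 4214467882) (nat_lit 313) (nat_lit 5) (nat_lit 329) (nat_lit 5) (nat_lit 330) (nat_lit 5) (nat_lit 446) (nat_lit 438) (nat_lit 316))) (XT.nd (nat_lit 78) (nat_lit 0) (nat_lit 76) (XT.lf (nat_lit 0) (nat_lit 3228097806) (nat_lit 1216) (nat_lit 392020759) (nat_lit 1292) (nat_lit 10906693665) (nat_lit 313) (nat_lit 5) (nat_lit 329) (nat_lit 5) (nat_lit 330) (nat_lit 5) (nat_lit 447) (nat_lit 438) (nat_lit 315)) (XT.lf (nat_lit 0) (nat_lit 4272756679) (nat_lit 1216) (nat_lit 7401919262) (nat_lit 1292) (nat_lit 3069126964) (nat_lit 314) (nat_lit 5) (nat_lit 330) (nat_lit 5) (nat_lit 331) (nat_lit 5) (nat_lit 448) (nat_lit 438) (nat_lit 314)))) (XT.nd (nat_lit 156) (nat_lit 0) (nat_lit 76) (XT.nd (nat_lit 78) (nat_lit 0) (nat_lit 76) (XT.lf (nat_lit 76) (nat_lit 309503409) (nat_lit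 0) (nat_lit 5069447761) (nat_lit 1292) (nat_lit 9587447411) (nat_lit 315) (nat_lit 5) (nat_lit 314) (nat_lit 5) (nat_lit 331) (nat_lit 5) (nat_lit 449) (nat_lit 438) (nat_lit 313)) (XT.lf (nat_lit 0) (nat_lit 6598173154) (nat_lit 1216) (nat_lit 6816457556) (nat_lit 1292) (nat_lit 1778647287) (nat_lit 315) (nat_lit 5) (nat_lit 331) (nat_lit 5) (nat_lit 332) (nat_lit 5) (nat_lit 450) (nat_lit 438) (nat_lit 312))) (XT.nd (nat_lit 78) (nat_lit 0) (nat_lit 76) (XT.lf (nat_lit 76) (nat_lit 1223535529) (nat_lit 0) (nat_lit 6680437834) (nat_lit 1292) (nat_lit 7521491475) (nat_lit 316) (nat_lit 5) (nat_lit 315) (nat_lit 5) (nat_lit 332) (nat_lit 5) (nat_lit 451) (nat_lit 438) (nat_lit 311)) (XT.lf (nat_lit 0) (nat_lit 9309251025) (nat_lit 1216) (nat_lit 6030857889) (nat_lit 1292) (nat_lit 322700323) (nat_lit 316) (nat_lit 5) (nat_lit 332) (nat_lit 5) (nat_lit 333) (nat_lit 5) (nat_lit 452) (nat_lit 438) (nat_lit 310)))))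 (XT.nd (nat_lit 312) (nat_lit 1520) (nat_lit 0) (XT.nd (nat_lit 156) (nat_lit 1140) (nat_lit 0) (XT.nd (nat_lit 78) (nat_lit 0) (nat_lit 0) (XT.lf (nat_lit 76) (nat_lit 2355829305) (nat_lit 0) (nat_lit 8478316581) (nat_lit 1292) (nat_lit 5070805343) (nat_lit 317) (nat_lit 5) (nat_lit 316) (nat_lit 5) (nat_lit 333) (nat_lit 5) (nat_lit 453) (nat_lit 438) (nat_lit 309)) (XT.lf (nat_lit 76) (nat_lit 11108491262) (nat_lit 0) (nat_lit 1346107468) (nat_lit 1292) (nat_lit 3698265410) (nat_lit 317) (nat_lit 5) (nat_lit 316) (nat_lit 5) (nat_lit 333) (nat_lit 5) (nat_lit 454) (nat_lit 438) (nat_lit 308))) (XT.nd (nat_lit 78) (nat_lit 0) (nat_lit 0) (XT.lf (nat_lit 0) (nat_lit 3721130869) (nat_lit 1216) (nat_lit 10485231809) (nat_lit 1292) (nat_lit 2199371804) (nat_lit 301) (nat_lit 5) (nat_lit 317) (nat_lit 5) (nat_lit 318) (nat_lit 5) (nat_lit 455) (nat_lit 438) (nat_lit 307)) (XT.lf (nat_lit 0) (nat_lit 12830178686) (nat_lit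 1216) (nat_lit 3234111989) (nat_lit 1292) (nat_lit 600292863) (nat_lit 301) (nat_lit 5) (nat_lit 317) (nat_lit 5) (nat_lit 318) (nat_lit 5) (nat_lit 456) (nat_lit 438) (nat_lit 306)))) (XT.nd (nat_lit 156) (nat_lit 608) (nat_lit 0) (XT.nd (nat_lit 78) (nat_lit 0) (nat_lit 0) (XT.lf (nat_lit 0) (nat_lit 1108927972) (nat_lit 912) (nat_lit 11604192278) (nat_lit 76) (nat_lit 4215298972) (nat_lit 289) (nat_lit 5) (nat_lit 301) (nat_lit 5) (nat_lit 290) (nat_lit 5) (nat_lit 457) (nat_lit 438) (nat_lit 305)) (XT.lf (nat_lit 0) (nat_lit 2918387744) (nat_lit 912) (nat_lit 2410530982) (nat_lit 76) (nat_lit 11869242976) (nat_lit 289) (nat_lit 5) (nat_lit 301) (nat_lit 5) (nat_lit 290) (nat_lit 5) (nat_lit 458) (nat_lit 438) (nat_lit 304))) (XT.nd (nat_lit 78) (nat_lit 0) (nat_lit 0) (XT.lf (nat_lit 0) (nat_lit 4864021573) (nat_lit 684) (nat_lit 10306669916) (nat_lit 76) (nat_lit 2302849095) (nat_lit 281) (nat_lit 5) (nat_lit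 290) (nat_lit 5) (nat_lit 282) (nat_lit 5) (nat_lit 459) (nat_lit 438) (nat_lit 303)) (XT.lf (nat_lit 0) (nat_lit 6935770268) (nat_lit 684) (nat_lit 737770742) (nat_lit 76) (nat_lit 10081608255) (nat_lit 281) (nat_lit 5) (nat_lit 290) (nat_lit 5) (nat_lit 282) (nat_lit 5) (nat_lit 460) (nat_lit 438) (nat_lit 302))))))) (XT.nd (nat_lit 1170) (nat_lit 3420) (nat_lit 0) (XT.nd (nat_lit 546) (nat_lit 2432) (nat_lit 0) (XT.nd (nat_lit 234) (nat_lit 1216) (nat_lit 0) (XT.nd (nat_lit 78) (nat_lit 532) (nat_lit 0) (XT.lf (nat_lit 0) (nat_lit 9151011136) (nat_lit 684) (nat_lit 8753729273) (nat_lit 76) (nat_lit 138026394) (nat_lit 273) (nat_lit 5) (nat_lit 282) (nat_lit 5) (nat_lit 274) (nat_lit 5) (nat_lit 461) (nat_lit 438) (nat_lit 301)) (XT.nd (nat_lit 78) (nat_lit 0) (nat_lit 0) (XT.lf (nat_lit 0) (nat_lit 1231728827) (nat_lit 532) (nat_lit 10287188051) (nat_lit 608) (nat_lit 6817510521) (nat_lit 266) (nat_lit 5) (nat_lit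 273) (nat_lit 5) (nat_lit 274) (nat_lit 5) (nat_lit 462) (nat_lit 438) (nat_lit 300)) (XT.lf (nat_lit 0) (nat_lit 11687042659) (nat_lit 532) (nat_lit 2350258716) (nat_lit 608) (nat_lit 4599213933) (nat_lit 266) (nat_lit 5) (nat_lit 273) (nat_lit 5) (nat_lit 274) (nat_lit 5) (nat_lit 463) (nat_lit 438) (nat_lit 299)))) (XT.nd (nat_lit 156) (nat_lit 532) (nat_lit 0) (XT.nd (nat_lit 78) (nat_lit 76) (nat_lit 0) (XT.lf (nat_lit 0) (nat_lit 3513842413) (nat_lit 608) (nat_lit 13198468566) (nat_lit 684) (nat_lit 2230863387) (nat_lit 258) (nat_lit 5) (nat_lit 266) (nat_lit 5) (nat_lit 267) (nat_lit 5) (nat_lit 464) (nat_lit 438) (nat_lit 298)) (XT.lf (nat_lit 0) (nat_lit 289995223) (nat_lit 684) (nat_lit 4858609394) (nat_lit 76) (nat_lit 14107803314) (nat_lit 257) (nat_lit 5) (nat_lit 266) (nat_lit 5) (nat_lit 258) (nat_lit 5) (nat_lit 465) (nat_lit 438) (nat_lit 297))) (XT.nd (nat_lit 78) (nat_lit 0) (nat_lit 0) (XT.lf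 (nat_lit 0) (nat_lit 2923089531) (nat_lit 608) (nat_lit 13490303480) (nat_lit 76) (nat_lit 3162540073) (nat_lit 250) (nat_lit 5) (nat_lit 258) (nat_lit 5) (nat_lit 251) (nat_lit 5) (nat_lit 466) (nat_lit 438) (nat_lit 296)) (XT.lf (nat_lit 0) (nat_lit 5727490084) (nat_lit 608) (nat_lit 2506351988) (nat_lit 76) (nat_lit 11668433159) (nat_lit 250) (nat_lit 5) (nat_lit 258) (nat_lit 5) (nat_lit 251) (nat_lit 5) (nat_lit 467) (nat_lit 438) (nat_lit 295))))) (XT.nd (nat_lit 312) (nat_lit 988) (nat_lit 0) (XT.nd (nat_lit 156) (nat_lit 456) (nat_lit 0) (XT.nd (nat_lit 78) (nat_lit 456) (nat_lit 0) (XT.lf (nat_lit 0) (nat_lit 8696990893) (nat_lit 608) (nat_lit 11265366298) (nat_lit 76) (nat_lit 273622023) (nat_lit 243) (nat_lit 5) (nat_lit 251) (nat_lit 5) (nat_lit 244) (nat_lit 5) (nat_lit 468) (nat_lit 438) (nat_lit 294)) (XT.lf (nat_lit 0) (nat_lit 177025524) (nat_lit 456) (nat_lit 11679503010) (nat_lit 532) (nat_lit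 8720137832) (nat_lit 237) (nat_lit 5) (nat_lit 243) (nat_lit 5) (nat_lit 244) (nat_lit 5) (nat_lit 469) (nat_lit 438) (nat_lit 293))) (XT.nd (nat_lit 78) (nat_lit 456) (nat_lit 0) (XT.lf (nat_lit 0) (nat_lit 12184721556) (nat_lit 456) (nat_lit 3032198596) (nat_lit 532) (nat_lit 5707472529) (nat_lit 237) (nat_lit 5) (nat_lit 243) (nat_lit 5) (nat_lit 244) (nat_lit 5) (nat_lit 470) (nat_lit 438) (nat_lit 292)) (XT.lf (nat_lit 0) (nat_lit 3268558823) (nat_lit 456) (nat_lit 15489976078) (nat_lit 532) (nat_lit 2521604112) (nat_lit 231) (nat_lit 5) (nat_lit 237) (nat_lit 5) (nat_lit 238) (nat_lit 5) (nat_lit 471) (nat_lit 438) (nat_lit 291)))) (XT.nd (nat_lit 156) (nat_lit 456) (nat_lit 0) (XT.nd (nat_lit 78) (nat_lit 456) (nat_lit 0) (XT.lf (nat_lit 0) (nat_lit 856745005) (nat_lit 532) (nat_lit 5874831452) (nat_lit 76) (nat_lit 14911410735) (nat_lit 230) (nat_lit 5) (nat_lit 237) (nat_lit 5) (nat_lit 231) (nat_lit 5)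 (nat_lit 472) (nat_lit 438) (nat_lit 290)) (XT.lf (nat_lit 0) (nat_lit 4366074982) (nat_lit 532) (nat_lit 15313528813) (nat_lit 76) (nat_lit 2333959186) (nat_lit 224) (nat_lit 5) (nat_lit 231) (nat_lit 5) (nat_lit 225) (nat_lit 5) (nat_lit 473) (nat_lit 438) (nat_lit 289))) (XT.nd (nat_lit 78) (nat_lit 456) (nat_lit 0) (XT.lf (nat_lit 0) (nat_lit 8100157604) (nat_lit 532) (nat_lit 2696904937) (nat_lit 76) (nat_lit 11594609826) (nat_lit 224) (nat_lit 5) (nat_lit 231) (nat_lit 5) (nat_lit 225) (nat_lit 5) (nat_lit 474) (nat_lit 438) (nat_lit 288)) (XT.lf (nat_lit 0) (nat_lit 10494492296) (nat_lit 456) (nat_lit 1545768163) (nat_lit 532) (nat_lit 10738045131) (nat_lit 218) (nat_lit 5) (nat_lit 224) (nat_lit 5) (nat_lit 225) (nat_lit 5) (nat_lit 475) (nat_lit 438) (nat_lit 287)))))) (XT.nd (nat_lit 624) (nat_lit 1444) (nat_lit 0) (XT.nd (nat_lit 312) (nat_lit 1064) (nat_lit 0) (XT.nd (nat_lit 156) (nat_lit 532) (nat_lit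 0) (XT.nd (nat_lit 78) (nat_lit 0) (nat_lit 0) (XT.lf (nat_lit 0) (nat_lit 892997801) (nat_lit 380) (nat_lit 15311615538) (nat_lit 456) (nat_lit 6968743539) (nat_lit 213) (nat_lit 5) (nat_lit 218) (nat_lit 5) (nat_lit 219) (nat_lit 5) (nat_lit 476) (nat_lit 438) (nat_lit 286)) (XT.lf (nat_lit 0) (nat_lit 14692779985) (nat_lit 380) (nat_lit 5933650971) (nat_lit 456) (nat_lit 2949853187) (nat_lit 213) (nat_lit 5) (nat_lit 218) (nat_lit 5) (nat_lit 219) (nat_lit 5) (nat_lit 477) (nat_lit 438) (nat_lit 285))) (XT.nd (nat_lit 78) (nat_lit 0) (nat_lit 0) (XT.lf (nat_lit 0) (nat_lit 1244234934) (nat_lit 532) (nat_lit 19033259087) (nat_lit 76) (nat_lit 3711127247) (nat_lit 206) (nat_lit 5) (nat_lit 213) (nat_lit 5) (nat_lit 207) (nat_lit 5) (nat_lit 478) (nat_lit 438) (nat_lit 284)) (XT.lf (nat_lit 0) (nat_lit 5647758342) (nat_lit 532) (nat_lit 5116487829) (nat_lit 76) (nat_lit 13643919512) (nat_lit 206) (nat_lit 5) (nat_lit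 213) (nat_lit 5) (nat_lit 207) (nat_lit 5) (nat_lit 479) (nat_lit 438) (nat_lit 283)))) (XT.nd (nat_lit 156) (nat_lit 684) (nat_lit 0) (XT.nd (nat_lit 78) (nat_lit 0) (nat_lit 0) (XT.lf (nat_lit 0) (nat_lit 9392817498) (nat_lit 380) (nat_lit 874605676) (nat_lit 456) (nat_lit 14570352595) (nat_lit 201) (nat_lit 5) (nat_lit 206) (nat_lit 5) (nat_lit 207) (nat_lit 5) (nat_lit 480) (nat_lit 438) (nat_lit 282)) (XT.lf (nat_lit 0) (nat_lit 15161196287) (nat_lit 456) (nat_lit 934801985) (nat_lit 76) (nat_lit 9180210735) (nat_lit 201) (nat_lit 5) (nat_lit 207) (nat_lit 5) (nat_lit 202) (nat_lit 5) (nat_lit 481) (nat_lit 438) (nat_lit 281))) (XT.nd (nat_lit 78) (nat_lit 304) (nat_lit 0) (XT.lf (nat_lit 0) (nat_lit 14272407294) (nat_lit 380) (nat_lit 6069239870) (nat_lit 456) (nat_lit 5381952526) (nat_lit 196) (nat_lit 5) (nat_lit 201) (nat_lit 5) (nat_lit 202) (nat_lit 5) (nat_lit 482) (nat_lit 438) (nat_lit 280)) (XT.lf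 (nat_lit 0) (nat_lit 3795732201) (nat_lit 304) (nat_lit 21962819931) (nat_lit 380) (nat_lit 423429121) (nat_lit 192) (nat_lit 5) (nat_lit 196) (nat_lit 5) (nat_lit 197) (nat_lit 5) (nat_lit 483) (nat_lit 438) (nat_lit 279))))) (XT.nd (nat_lit 312) (nat_lit 684) (nat_lit 0) (XT.nd (nat_lit 156) (nat_lit 304) (nat_lit 0) (XT.nd (nat_lit 78) (nat_lit 380) (nat_lit 0) (XT.lf (nat_lit 0) (nat_lit 4763445556) (nat_lit 380) (nat_lit 7030315664) (nat_lit 76) (nat_lit 14853872845) (nat_lit 191) (nat_lit 5) (nat_lit 196) (nat_lit 5) (nat_lit 192) (nat_lit 5) (nat_lit 484) (nat_lit 438) (nat_lit 278)) (XT.lf (nat_lit 0) (nat_lit 8948752169) (nat_lit 380) (nat_lit 1228979226) (nat_lit 456) (nat_lit 16946990176) (nat_lit 186) (nat_lit 5) (nat_lit 191) (nat_lit 5) (nat_lit 192) (nat_lit 5) (nat_lit 485) (nat_lit 438) (nat_lit 277))) (XT.nd (nat_lit 78) (nat_lit 304) (nat_lit 0) (XT.lf (nat_lit 0) (nat_lit 15913292122) (nat_lit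 456) (nat_lit 2164218583) (nat_lit 76) (nat_lit 9533845942) (nat_lit 186) (nat_lit 5) (nat_lit 192) (nat_lit 5) (nat_lit 187) (nat_lit 5) (nat_lit 486) (nat_lit 438) (nat_lit 276)) (XT.lf (nat_lit 0) (nat_lit 14592664054) (nat_lit 304) (nat_lit 7375224440) (nat_lit 380) (nat_lit 6140293542) (nat_lit 182) (nat_lit 5) (nat_lit 186) (nat_lit 5) (nat_lit 187) (nat_lit 5) (nat_lit 487) (nat_lit 438) (nat_lit 275)))) (XT.nd (nat_lit 156) (nat_lit 304) (nat_lit 0) (XT.nd (nat_lit 78) (nat_lit 76) (nat_lit 0) (XT.lf (nat_lit 0) (nat_lit 3298572666) (nat_lit 304) (nat_lit 24988986448) (nat_lit 380) (nat_lit 329850293) (nat_lit 178) (nat_lit 5) (nat_lit 182) (nat_lit 5) (nat_lit 183) (nat_lit 5) (nat_lit 488) (nat_lit 438) (nat_lit 274)) (XT.lf (nat_lit 0) (nat_lit 5750031477) (nat_lit 380) (nat_lit 8380311145) (nat_lit 76) (nat_lit 15003776339) (nat_lit 177) (nat_lit 5) (nat_lit 182) (nat_lit 5) (nat_lit 178) (nat_lit 5)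 (nat_lit 489) (nat_lit 438) (nat_lit 273))) (XT.nd (nat_lit 78) (nat_lit 0) (nat_lit 0) (XT.lf (nat_lit 0) (nat_lit 9235654266) (nat_lit 304) (nat_lit 2853580521) (nat_lit 380) (nat_lit 17574490684) (nat_lit 173) (nat_lit 5) (nat_lit 177) (nat_lit 5) (nat_lit 178) (nat_lit 5) (nat_lit 490) (nat_lit 438) (nat_lit 272)) (XT.lf (nat_lit 0) (nat_lit 18783129095) (nat_lit 380) (nat_lit 2747580101) (nat_lit 76) (nat_lit 8673575813) (nat_lit 173) (nat_lit 5) (nat_lit 178) (nat_lit 5) (nat_lit 174) (nat_lit 5) (nat_lit 491) (nat_lit 438) (nat_lit 271))))))))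
noncomputable def xc178 : XT := (XT.nd (nat_lit 2418) (nat_lit 2736) (nat_lit 0) (XT.nd (nat_lit 1170) (nat_lit 2204) (nat_lit 0) (XT.nd (nat_lit 546) (nat_lit 1064) (nat_lit 0) (XT.nd (nat_lit 234) (nat_lit 912) (nat_lit 0) (XT.nd (nat_lit 78) (nat_lit 380) (nat_lit 0) (XT.lf (nat_lit 0) (nat_lit 15734609574) (nat_lit 304) (nat_lit 10117716731) (nat_lit 380) (nat_lit 4903500716) (nat_lit 169) (nat_lit 5) (nat_lit 173) (nat_lit 5) (nat_lit 174) (nat_lit 5) (nat_lit 492) (nat_lit 438) (nat_lit 270)) (XT.nd (nat_lit 78) (nat_lit 0) (nat_lit 0) (XT.lf (nat_lit 0) (nat_lit 1848014321) (nat_lit 380) (nat_lit 27789633428) (nat_lit 76) (nat_lit 1683536619) (nat_lit 164) (nat_lit 5) (nat_lit 169) (nat_lit 5) (nat_lit 165) (nat_lit 5) (nat_lit 493) (nat_lit 438) (nat_lit 269)) (XT.lf (nat_lit 0) (nat_lit 8951938424) (nat_lit 380) (nat_lit 9107933527) (nat_lit 76) (nat_lit 13834721672) (nat_lit 164) (nat_lit 5) (nat_lit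 169) (nat_lit 5) (nat_lit 165) (nat_lit 5) (nat_lit 494) (nat_lit 438) (nat_lit 268)))) (XT.nd (nat_lit 156) (nat_lit 608) (nat_lit 0) (XT.nd (nat_lit 78) (nat_lit 0) (nat_lit 0) (XT.lf (nat_lit 0) (nat_lit 10328404963) (nat_lit 304) (nat_lit 6035059242) (nat_lit 380) (nat_lit 16118906674) (nat_lit 160) (nat_lit 5) (nat_lit 164) (nat_lit 5) (nat_lit 165) (nat_lit 5) (nat_lit 495) (nat_lit 438) (nat_lit 267)) (XT.lf (nat_lit 0) (nat_lit 24146509711) (nat_lit 380) (nat_lit 2619842665) (nat_lit 76) (nat_lit 6316954090) (nat_lit 160) (nat_lit 5) (nat_lit 165) (nat_lit 5) (nat_lit 161) (nat_lit 5) (nat_lit 496) (nat_lit 438) (nat_lit 266))) (XT.nd (nat_lit 78) (nat_lit 380) (nat_lit 0) (XT.lf (nat_lit 0) (nat_lit 17780322746) (nat_lit 228) (nat_lit 14608776894) (nat_lit 304) (nat_lit 1306389119) (nat_lit 157) (nat_lit 5) (nat_lit 160) (nat_lit 5) (nat_lit 161) (nat_lit 5) (nat_lit 497) (nat_lit 438) (nat_lit 265)) (XT.lf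 (nat_lit 0) (nat_lit 4539067496) (nat_lit 304) (nat_lit 1951746887) (nat_lit 380) (nat_lit 27831359979) (nat_lit 152) (nat_lit 5) (nat_lit 156) (nat_lit 5) (nat_lit 157) (nat_lit 5) (nat_lit 498) (nat_lit 438) (nat_lit 264))))) (XT.nd (nat_lit 312) (nat_lit 532) (nat_lit 0) (XT.nd (nat_lit 156) (nat_lit 304) (nat_lit 0) (XT.nd (nat_lit 78) (nat_lit 228) (nat_lit 0) (XT.lf (nat_lit 0) (nat_lit 14759981355) (nat_lit 380) (nat_lit 9157995528) (nat_lit 76) (nat_lit 11041366688) (nat_lit 152) (nat_lit 5) (nat_lit 157) (nat_lit 5) (nat_lit 153) (nat_lit 5) (nat_lit 499) (nat_lit 438) (nat_lit 263)) (XT.lf (nat_lit 0) (nat_lit 12299515720) (nat_lit 228) (nat_lit 11110840531) (nat_lit 304) (nat_lit 12201277818) (nat_lit 149) (nat_lit 5) (nat_lit 152) (nat_lit 5) (nat_lit 153) (nat_lit 5) (nat_lit 500) (nat_lit 438) (nat_lit 262))) (XT.nd (nat_lit 78) (nat_lit 304) (nat_lit 0) (XT.lf (nat_lit 0) (nat_lit 32429249909) (nat_lit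 304) (nat_lit 1720225459) (nat_lit 76) (nat_lit 2130747887) (nat_lit 149) (nat_lit 5) (nat_lit 153) (nat_lit 5) (nat_lit 150) (nat_lit 5) (nat_lit 501) (nat_lit 438) (nat_lit 261)) (XT.lf (nat_lit 0) (nat_lit 4965957046) (nat_lit 304) (nat_lit 16199784227) (nat_lit 76) (nat_lit 15792495178) (nat_lit 145) (nat_lit 5) (nat_lit 149) (nat_lit 5) (nat_lit 146) (nat_lit 5) (nat_lit 502) (nat_lit 438) (nat_lit 260)))) (XT.nd (nat_lit 156) (nat_lit 304) (nat_lit 0) (XT.nd (nat_lit 78) (nat_lit 0) (nat_lit 0) (XT.lf (nat_lit 0) (nat_lit 6369796299) (nat_lit 228) (nat_lit 7674731127) (nat_lit 304) (nat_lit 23608682958) (nat_lit 142) (nat_lit 5) (nat_lit 145) (nat_lit 5) (nat_lit 146) (nat_lit 5) (nat_lit 503) (nat_lit 438) (nat_lit 259)) (XT.lf (nat_lit 0) (nat_lit 23616252980) (nat_lit 304) (nat_lit 8483919834) (nat_lit 76) (nat_lit 6262236951) (nat_lit 142) (nat_lit 5) (nat_lit 146) (nat_lit 5) (nat_lit 143) (nat_lit 5)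 (nat_lit 504) (nat_lit 438) (nat_lit 258))) (XT.nd (nat_lit 78) (nat_lit 76) (nat_lit 0) (XT.lf (nat_lit 0) (nat_lit 15213729964) (nat_lit 228) (nat_lit 18479546205) (nat_lit 304) (nat_lit 5393064754) (nat_lit 139) (nat_lit 5) (nat_lit 142) (nat_lit 5) (nat_lit 143) (nat_lit 5) (nat_lit 505) (nat_lit 438) (nat_lit 257)) (XT.lf (nat_lit 0) (nat_lit 4240319196) (nat_lit 304) (nat_lit 81542079) (nat_lit 76) (nat_lit 35506432528) (nat_lit 138) (nat_lit 5) (nat_lit 142) (nat_lit 5) (nat_lit 139) (nat_lit 5) (nat_lit 506) (nat_lit 438) (nat_lit 256)))))) (XT.nd (nat_lit 624) (nat_lit 1064) (nat_lit 0) (XT.nd (nat_lit 312) (nat_lit 456) (nat_lit 0) (XT.nd (nat_lit 156) (nat_lit 228) (nat_lit 0) (XT.nd (nat_lit 78) (nat_lit 228) (nat_lit 0) (XT.lf (nat_lit 0) (nat_lit 14390713320) (nat_lit 304) (nat_lit 15837151470) (nat_lit 76) (nat_lit 10352946617) (nat_lit 135) (nat_lit 5) (nat_lit 139) (nat_lit 5) (nat_lit 136) (nat_lit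 5) (nat_lit 507) (nat_lit 438) (nat_lit 255)) (XT.lf (nat_lit 0) (nat_lit 9087374192) (nat_lit 228) (nat_lit 15885297202) (nat_lit 304) (nat_lit 16379421732) (nat_lit 132) (nat_lit 5) (nat_lit 135) (nat_lit 5) (nat_lit 136) (nat_lit 5) (nat_lit 508) (nat_lit 438) (nat_lit 254))) (XT.nd (nat_lit 78) (nat_lit 228) (nat_lit 0) (XT.lf (nat_lit 0) (nat_lit 35077781995) (nat_lit 228) (nat_lit 950358645) (nat_lit 304) (nat_lit 6113691228) (nat_lit 132) (nat_lit 5) (nat_lit 135) (nat_lit 5) (nat_lit 136) (nat_lit 5) (nat_lit 509) (nat_lit 438) (nat_lit 253)) (XT.lf (nat_lit 0) (nat_lit 4694886934) (nat_lit 228) (nat_lit 23871111353) (nat_lit 76) (nat_lit 14378321253) (nat_lit 129) (nat_lit 5) (nat_lit 132) (nat_lit 5) (nat_lit 130) (nat_lit 5) (nat_lit 510) (nat_lit 438) (nat_lit 252)))) (XT.nd (nat_lit 156) (nat_lit 228) (nat_lit 0) (XT.nd (nat_lit 78) (nat_lit 0) (nat_lit 0) (XT.lf (nat_lit 0) (nat_lit 2339236572) (nat_lit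 228) (nat_lit 13465770396) (nat_lit 304) (nat_lit 27961054151) (nat_lit 126) (nat_lit 5) (nat_lit 129) (nat_lit 5) (nat_lit 130) (nat_lit 5) (nat_lit 511) (nat_lit 438) (nat_lit 251)) (XT.lf (nat_lit 0) (nat_lit 27508186915) (nat_lit 304) (nat_lit 14808881665) (nat_lit 76) (nat_lit 2287593806) (nat_lit 126) (nat_lit 5) (nat_lit 130) (nat_lit 5) (nat_lit 127) (nat_lit 5) (nat_lit 512) (nat_lit 438) (nat_lit 250))) (XT.nd (nat_lit 78) (nat_lit 76) (nat_lit 0) (XT.lf (nat_lit 0) (nat_lit 12716165719) (nat_lit 152) (nat_lit 27098217981) (nat_lit 228) (nat_lit 5646480472) (nat_lit 124) (nat_lit 5) (nat_lit 126) (nat_lit 5) (nat_lit 127) (nat_lit 5) (nat_lit 513) (nat_lit 438) (nat_lit 249)) (XT.lf (nat_lit 0) (nat_lit 6174457499) (nat_lit 228) (nat_lit 5034561764) (nat_lit 76) (nat_lit 35127538396) (nat_lit 123) (nat_lit 5) (nat_lit 126) (nat_lit 5) (nat_lit 124) (nat_lit 5) (nat_lit 514) (nat_lit 438) (nat_lit 248)))))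 (XT.nd (nat_lit 312) (nat_lit 380) (nat_lit 0) (XT.nd (nat_lit 156) (nat_lit 304) (nat_lit 0) (XT.nd (nat_lit 78) (nat_lit 152) (nat_lit 0) (XT.lf (nat_lit 0) (nat_lit 18515240362) (nat_lit 304) (nat_lit 23370934180) (nat_lit 76) (nat_lit 5342309189) (nat_lit 120) (nat_lit 5) (nat_lit 124) (nat_lit 5) (nat_lit 121) (nat_lit 5) (nat_lit 515) (nat_lit 438) (nat_lit 247)) (XT.lf (nat_lit 0) (nat_lit 5564998036) (nat_lit 152) (nat_lit 25873564035) (nat_lit 228) (nat_lit 16702236165) (nat_lit 118) (nat_lit 5) (nat_lit 120) (nat_lit 5) (nat_lit 121) (nat_lit 5) (nat_lit 516) (nat_lit 438) (nat_lit 246))) (XT.nd (nat_lit 78) (nat_lit 304) (nat_lit 0) (XT.lf (nat_lit 0) (nat_lit 35842052480) (nat_lit 152) (nat_lit 9140073770) (nat_lit 228) (nat_lit 4091379751) (nat_lit 118) (nat_lit 5) (nat_lit 120) (nat_lit 5) (nat_lit 121) (nat_lit 5) (nat_lit 517) (nat_lit 438) (nat_lit 245)) (XT.lf (nat_lit 0) (nat_lit 8966768541)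 (nat_lit 304) (nat_lit 32868899032) (nat_lit 76) (nat_lit 8188683764) (nat_lit 114) (nat_lit 5) (nat_lit 118) (nat_lit 5) (nat_lit 115) (nat_lit 5) (nat_lit 518) (nat_lit 438) (nat_lit 244)))) (XT.nd (nat_lit 156) (nat_lit 228) (nat_lit 0) (XT.nd (nat_lit 78) (nat_lit 152) (nat_lit 0) (XT.lf (nat_lit 0) (nat_lit 22556486655) (nat_lit 304) (nat_lit 2412790817) (nat_lit 76) (nat_lit 26026567657) (nat_lit 114) (nat_lit 5) (nat_lit 118) (nat_lit 5) (nat_lit 115) (nat_lit 5) (nat_lit 519) (nat_lit 438) (nat_lit 243)) (XT.lf (nat_lit 0) (nat_lit 29527413145) (nat_lit 152) (nat_lit 7307044597) (nat_lit 228) (nat_lit 15153609245) (nat_lit 112) (nat_lit 5) (nat_lit 114) (nat_lit 5) (nat_lit 115) (nat_lit 5) (nat_lit 520) (nat_lit 438) (nat_lit 242))) (XT.nd (nat_lit 78) (nat_lit 76) (nat_lit 0) (XT.lf (nat_lit 0) (nat_lit 9541481829) (nat_lit 152) (nat_lit 42216986602) (nat_lit 228) (nat_lit 1245056151) (nat_lit 110) (nat_lit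 5) (nat_lit 112) (nat_lit 5) (nat_lit 113) (nat_lit 5) (nat_lit 521) (nat_lit 438) (nat_lit 241)) (XT.lf (nat_lit 0) (nat_lit 13123652315) (nat_lit 228) (nat_lit 11284669810) (nat_lit 76) (nat_lit 29628407119) (nat_lit 109) (nat_lit 5) (nat_lit 112) (nat_lit 5) (nat_lit 110) (nat_lit 5) (nat_lit 522) (nat_lit 438) (nat_lit 240))))))) (XT.nd (nat_lit 1170) (nat_lit 1140) (nat_lit 0) (XT.nd (nat_lit 546) (nat_lit 684) (nat_lit 0) (XT.nd (nat_lit 234) (nat_lit 532) (nat_lit 0) (XT.nd (nat_lit 78) (nat_lit 228) (nat_lit 0) (XT.lf (nat_lit 0) (nat_lit 22274727776) (nat_lit 152) (nat_lit 5834633053) (nat_lit 228) (nat_lit 26984870589) (nat_lit 107) (nat_lit 5) (nat_lit 109) (nat_lit 5) (nat_lit 110) (nat_lit 5) (nat_lit 523) (nat_lit 438) (nat_lit 239)) (XT.nd (nat_lit 78) (nat_lit 76) (nat_lit 0) (XT.lf (nat_lit 0) (nat_lit 772685472) (nat_lit 152) (nat_lit 43019135360) (nat_lit 228) (nat_lit 12384222501) (nat_lit 105)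 (nat_lit 5) (nat_lit 107) (nat_lit 5) (nat_lit 108) (nat_lit 5) (nat_lit 524) (nat_lit 438) (nat_lit 238)) (XT.lf (nat_lit 0) (nat_lit 2991976356) (nat_lit 228) (nat_lit 21327176729) (nat_lit 76) (nat_lit 32958711241) (nat_lit 104) (nat_lit 5) (nat_lit 107) (nat_lit 5) (nat_lit 105) (nat_lit 5) (nat_lit 525) (nat_lit 438) (nat_lit 237)))) (XT.nd (nat_lit 156) (nat_lit 380) (nat_lit 0) (XT.nd (nat_lit 78) (nat_lit 0) (nat_lit 0) (XT.lf (nat_lit 0) (nat_lit 13914713243) (nat_lit 152) (nat_lit 4796551845) (nat_lit 228) (nat_lit 39693875019) (nat_lit 102) (nat_lit 5) (nat_lit 104) (nat_lit 5) (nat_lit 105) (nat_lit 5) (nat_lit 526) (nat_lit 438) (nat_lit 236)) (XT.lf (nat_lit 0) (nat_lit 35263783983) (nat_lit 228) (nat_lit 9063544979) (nat_lit 76) (nat_lit 15228055729) (nat_lit 102) (nat_lit 5) (nat_lit 105) (nat_lit 5) (nat_lit 103) (nat_lit 5) (nat_lit 527) (nat_lit 438) (nat_lit 235))) (XT.nd (nat_lit 78) (nat_lit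 228) (nat_lit 0) (XT.lf (nat_lit 0) (nat_lit 27918095713) (nat_lit 152) (nat_lit 24707698224) (nat_lit 228) (nat_lit 8104955282) (nat_lit 100) (nat_lit 5) (nat_lit 102) (nat_lit 5) (nat_lit 103) (nat_lit 5) (nat_lit 528) (nat_lit 438) (nat_lit 234)) (XT.lf (nat_lit 0) (nat_lit 4250690759) (nat_lit 152) (nat_lit 4279775579) (nat_lit 228) (nat_lit 53404527126) (nat_lit 97) (nat_lit 5) (nat_lit 99) (nat_lit 5) (nat_lit 100) (nat_lit 5) (nat_lit 529) (nat_lit 438) (nat_lit 233))))) (XT.nd (nat_lit 312) (nat_lit 304) (nat_lit 0) (XT.nd (nat_lit 156) (nat_lit 228) (nat_lit 0) (XT.nd (nat_lit 78) (nat_lit 152) (nat_lit 0) (XT.lf (nat_lit 0) (nat_lit 25994866617) (nat_lit 228) (nat_lit 20316864135) (nat_lit 76) (nat_lit 16846442411) (nat_lit 97) (nat_lit 5) (nat_lit 100) (nat_lit 5) (nat_lit 98) (nat_lit 5) (nat_lit 530) (nat_lit 438) (nat_lit 232)) (XT.lf (nat_lit 0) (nat_lit 18484725762) (nat_lit 152) (nat_lit 25715695449)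 (nat_lit 228) (nat_lit 20211110435) (nat_lit 95) (nat_lit 5) (nat_lit 97) (nat_lit 5) (nat_lit 98) (nat_lit 5) (nat_lit 531) (nat_lit 438) (nat_lit 231))) (XT.nd (nat_lit 78) (nat_lit 228) (nat_lit 0) (XT.lf (nat_lit 0) (nat_lit 58861688756) (nat_lit 152) (nat_lit 4292809138) (nat_lit 228) (nat_lit 2541922389) (nat_lit 95) (nat_lit 5) (nat_lit 97) (nat_lit 5) (nat_lit 98) (nat_lit 5) (nat_lit 532) (nat_lit 438) (nat_lit 230)) (XT.lf (nat_lit 0) (nat_lit 15850821420) (nat_lit 228) (nat_lit 33244406330) (nat_lit 76) (nat_lit 17905142313) (nat_lit 92) (nat_lit 5) (nat_lit 95) (nat_lit 5) (nat_lit 93) (nat_lit 5) (nat_lit 533) (nat_lit 438) (nat_lit 229)))) (XT.nd (nat_lit 156) (nat_lit 152) (nat_lit 0) (XT.nd (nat_lit 78) (nat_lit 0) (nat_lit 0) (XT.lf (nat_lit 0) (nat_lit 7434777427) (nat_lit 152) (nat_lit 27490411050) (nat_lit 228) (nat_lit 33412066956) (nat_lit 90) (nat_lit 5) (nat_lit 92) (nat_lit 5) (nat_lit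 93) (nat_lit 5) (nat_lit 534) (nat_lit 438) (nat_lit 228)) (XT.lf (nat_lit 0) (nat_lit 50010798852) (nat_lit 152) (nat_lit 4893982257) (nat_lit 228) (nat_lit 14799476473) (nat_lit 90) (nat_lit 5) (nat_lit 92) (nat_lit 5) (nat_lit 93) (nat_lit 5) (nat_lit 535) (nat_lit 438) (nat_lit 227))) (XT.nd (nat_lit 78) (nat_lit 0) (nat_lit 0) (XT.lf (nat_lit 0) (nat_lit 4685410421) (nat_lit 152) (nat_lit 48126933204) (nat_lit 76) (nat_lit 18286688912) (nat_lit 88) (nat_lit 5) (nat_lit 90) (nat_lit 5) (nat_lit 89) (nat_lit 5) (nat_lit 536) (nat_lit 438) (nat_lit 226)) (XT.lf (nat_lit 0) (nat_lit 24704031588) (nat_lit 152) (nat_lit 5410249096) (nat_lit 76) (nat_lit 42409574948) (nat_lit 88) (nat_lit 5) (nat_lit 90) (nat_lit 5) (nat_lit 89) (nat_lit 5) (nat_lit 537) (nat_lit 438) (nat_lit 225)))))) (XT.nd (nat_lit 624) (nat_lit 380) (nat_lit 0) (XT.nd (nat_lit 312) (nat_lit 304) (nat_lit 0) (XT.nd (nat_lit 156) (nat_lit 228)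 (nat_lit 0) (XT.nd (nat_lit 78) (nat_lit 76) (nat_lit 0) (XT.lf (nat_lit 0) (nat_lit 39351028112) (nat_lit 152) (nat_lit 6347879470) (nat_lit 228) (nat_lit 28281245002) (nat_lit 86) (nat_lit 5) (nat_lit 88) (nat_lit 5) (nat_lit 89) (nat_lit 5) (nat_lit 538) (nat_lit 438) (nat_lit 224)) (XT.lf (nat_lit 0) (nat_lit 10105108017) (nat_lit 76) (nat_lit 57542561518) (nat_lit 152) (nat_lit 7822747766) (nat_lit 85) (nat_lit 5) (nat_lit 86) (nat_lit 5) (nat_lit 87) (nat_lit 4) (nat_lit 539) (nat_lit 438) (nat_lit 223))) (XT.nd (nat_lit 78) (nat_lit 152) (nat_lit 0) (XT.lf (nat_lit 0) (nat_lit 13404399637) (nat_lit 152) (nat_lit 20302143494) (nat_lit 76) (nat_lit 43282622778) (nat_lit 84) (nat_lit 5) (nat_lit 86) (nat_lit 5) (nat_lit 85) (nat_lit 5) (nat_lit 540) (nat_lit 438) (nat_lit 222)) (XT.lf (nat_lit 0) (nat_lit 26548868334) (nat_lit 152) (nat_lit 8814984125) (nat_lit 228) (nat_lit 43179719357) (nat_lit 82) (nat_lit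 5) (nat_lit 84) (nat_lit 5) (nat_lit 85) (nat_lit 5) (nat_lit 541) (nat_lit 438) (nat_lit 221)))) (XT.nd (nat_lit 156) (nat_lit 152) (nat_lit 0) (XT.nd (nat_lit 78) (nat_lit 152) (nat_lit 0) (XT.lf (nat_lit 0) (nat_lit 58348370333) (nat_lit 228) (nat_lit 5085288169) (nat_lit 76) (nat_lit 16699962997) (nat_lit 82) (nat_lit 5) (nat_lit 85) (nat_lit 5) (nat_lit 83) (nat_lit 4) (nat_lit 542) (nat_lit 438) (nat_lit 220)) (XT.lf (nat_lit 0) (nat_lit 758990148) (nat_lit 152) (nat_lit 37765415663) (nat_lit 76) (nat_lit 43231509363) (nat_lit 80) (nat_lit 5) (nat_lit 82) (nat_lit 5) (nat_lit 81) (nat_lit 5) (nat_lit 543) (nat_lit 438) (nat_lit 219))) (XT.nd (nat_lit 78) (nat_lit 0) (nat_lit 0) (XT.lf (nat_lit 0) (nat_lit 11215584844) (nat_lit 152) (nat_lit 12483381996) (nat_lit 228) (nat_lit 59716721888) (nat_lit 78) (nat_lit 5) (nat_lit 80) (nat_lit 5) (nat_lit 81) (nat_lit 5) (nat_lit 544) (nat_lit 438) (nat_lit 218))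 (XT.lf (nat_lit 0) (nat_lit 47847714911) (nat_lit 228) (nat_lit 22819796462) (nat_lit 76) (nat_lit 14442126991) (nat_lit 78) (nat_lit 5) (nat_lit 81) (nat_lit 5) (nat_lit 79) (nat_lit 4) (nat_lit 545) (nat_lit 438) (nat_lit 217))))) (XT.nd (nat_lit 54132) (nat_lit 0) (nat_lit 19228) (XT.nd (nat_lit 156) (nat_lit 228) (nat_lit 0) (XT.nd (nat_lit 78) (nat_lit 76) (nat_lit 0) (XT.lf (nat_lit 0) (nat_lit 28469455008) (nat_lit 76) (nat_lit 44646409419) (nat_lit 152) (nat_lit 13726693928) (nat_lit 77) (nat_lit 5) (nat_lit 78) (nat_lit 5) (nat_lit 79) (nat_lit 4) (nat_lit 546) (nat_lit 438) (nat_lit 216)) (XT.lf (nat_lit 0) (nat_lit 10539809939) (nat_lit 152) (nat_lit 6963151604) (nat_lit 76) (nat_lit 71114560406) (nat_lit 76) (nat_lit 5) (nat_lit 78) (nat_lit 5) (nat_lit 77) (nat_lit 5) (nat_lit 547) (nat_lit 438) (nat_lit 215))) (XT.nd (nat_lit 78) (nat_lit 76) (nat_lit 0) (XT.lf (nat_lit 0) (nat_lit 35811935407) (nat_lit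 228) (nat_lit 43773123802) (nat_lit 76) (nat_lit 10839992455) (nat_lit 74) (nat_lit 5) (nat_lit 77) (nat_lit 5) (nat_lit 75) (nat_lit 4) (nat_lit 548) (nat_lit 438) (nat_lit 214)) (XT.lf (nat_lit 0) (nat_lit 9745385363) (nat_lit 76) (nat_lit 52432576342) (nat_lit 152) (nat_lit 30098773486) (nat_lit 73) (nat_lit 5) (nat_lit 74) (nat_lit 5) (nat_lit 75) (nat_lit 4) (nat_lit 549) (nat_lit 438) (nat_lit 213)))) (XT.nd (nat_lit 156) (nat_lit 0) (nat_lit 0) (XT.nd (nat_lit 78) (nat_lit 0) (nat_lit 0) (XT.lf (nat_lit 0) (nat_lit 2787239923) (nat_lit 0) (nat_lit 2787239923) (nat_lit 1140) (nat_lit 989752141) (nat_lit 326) (nat_lit 5) (nat_lit 326) (nat_lit 3) (nat_lit 341) (nat_lit 3) (nat_lit 439) (nat_lit 439) (nat_lit 322)) (XT.lf (nat_lit 0) (nat_lit 11711160489) (nat_lit 1140) (nat_lit 1043467792) (nat_lit 1216) (nat_lit 558876185) (nat_lit 326) (nat_lit 5) (nat_lit 341) (nat_lit 3) (nat_lit 342) (nat_lit 5) (nat_lit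 440) (nat_lit 439) (nat_lit 321))) (XT.nd (nat_lit 78) (nat_lit 0) (nat_lit 0) (XT.lf (nat_lit 76) (nat_lit 5710472206) (nat_lit 0) (nat_lit 6674712985) (nat_lit 1216) (nat_lit 1116063707) (nat_lit 327) (nat_lit 5) (nat_lit 326) (nat_lit 5) (nat_lit 342) (nat_lit 5) (nat_lit 441) (nat_lit 439) (nat_lit 320)) (XT.lf (nat_lit 76) (nat_lit 12680369349) (nat_lit 0) (nat_lit 394833943) (nat_lit 1216) (nat_lit 619550613) (nat_lit 327) (nat_lit 5) (nat_lit 326) (nat_lit 5) (nat_lit 342) (nat_lit 5) (nat_lit 442) (nat_lit 439) (nat_lit 319))))))))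
noncomputable def xc179 : XT := (XT.nd (nat_lit 2418) (nat_lit 6688) (nat_lit 0) (XT.nd (nat_lit 1170) (nat_lit 5396) (nat_lit 0) (XT.nd (nat_lit 546) (nat_lit 760) (nat_lit 0) (XT.nd (nat_lit 234) (nat_lit 0) (nat_lit 76) (XT.nd (nat_lit 78) (nat_lit 1216) (nat_lit 0) (XT.lf (nat_lit 76) (nat_lit 6016000871) (nat_lit 0) (nat_lit 7871860537) (nat_lit 1216) (nat_lit 3145846) (nat_lit 328) (nat_lit 5) (nat_lit 327) (nat_lit 5) (nat_lit 343) (nat_lit 5) (nat_lit 443) (nat_lit 439) (nat_lit 318)) (XT.nd (nat_lit 78) (nat_lit 0) (nat_lit 76) (XT.lf (nat_lit 0) (nat_lit 619602933) (nat_lit 1216) (nat_lit 833343214) (nat_lit 1292) (nat_lit 12640015787) (nat_lit 311) (nat_lit 5) (nat_lit 327) (nat_lit 5) (nat_lit 328) (nat_lit 5) (nat_lit 444) (nat_lit 439) (nat_lit 317)) (XT.lf (nat_lit 0) (nat_lit 1360423743) (nat_lit 1216) (nat_lit 7810888474) (nat_lit 1292) (nat_lit 5126679778) (nat_lit 312) (nat_lit 5) (nat_lit 328)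 (nat_lit 5) (nat_lit 329) (nat_lit 5) (nat_lit 445) (nat_lit 439) (nat_lit 316)))) (XT.nd (nat_lit 156) (nat_lit 0) (nat_lit 76) (XT.nd (nat_lit 78) (nat_lit 0) (nat_lit 76) (XT.lf (nat_lit 0) (nat_lit 2133057794) (nat_lit 1216) (nat_lit 487775986) (nat_lit 1292) (nat_lit 11888052747) (nat_lit 312) (nat_lit 5) (nat_lit 328) (nat_lit 5) (nat_lit 329) (nat_lit 5) (nat_lit 446) (nat_lit 439) (nat_lit 315)) (XT.lf (nat_lit 0) (nat_lit 3025438146) (nat_lit 1216) (nat_lit 7577923964) (nat_lit 1292) (nat_lit 4119849954) (nat_lit 313) (nat_lit 5) (nat_lit 329) (nat_lit 5) (nat_lit 330) (nat_lit 5) (nat_lit 447) (nat_lit 439) (nat_lit 314))) (XT.nd (nat_lit 78) (nat_lit 0) (nat_lit 76) (XT.lf (nat_lit 76) (nat_lit 39577837) (nat_lit 0) (nat_lit 3923745167) (nat_lit 1292) (nat_lit 10980083526) (nat_lit 314) (nat_lit 5) (nat_lit 313) (nat_lit 5) (nat_lit 330) (nat_lit 5) (nat_lit 448) (nat_lit 439) (nat_lit 313)) (XT.lf (nat_lit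 0) (nat_lit 5022789301) (nat_lit 1216) (nat_lit 7165181138) (nat_lit 1292) (nat_lit 2979434164) (nat_lit 314) (nat_lit 5) (nat_lit 330) (nat_lit 5) (nat_lit 331) (nat_lit 5) (nat_lit 449) (nat_lit 439) (nat_lit 312))))) (XT.nd (nat_lit 312) (nat_lit 988) (nat_lit 0) (XT.nd (nat_lit 156) (nat_lit 0) (nat_lit 76) (XT.nd (nat_lit 78) (nat_lit 0) (nat_lit 76) (XT.lf (nat_lit 76) (nat_lit 773086216) (nat_lit 0) (nat_lit 5375338264) (nat_lit 1292) (nat_lit 9248667680) (nat_lit 315) (nat_lit 5) (nat_lit 314) (nat_lit 5) (nat_lit 331) (nat_lit 5) (nat_lit 450) (nat_lit 439) (nat_lit 311)) (XT.lf (nat_lit 0) (nat_lit 7385075909) (nat_lit 1216) (nat_lit 6560684709) (nat_lit 1292) (nat_lit 1685593366) (nat_lit 315) (nat_lit 5) (nat_lit 331) (nat_lit 5) (nat_lit 332) (nat_lit 5) (nat_lit 451) (nat_lit 439) (nat_lit 310))) (XT.nd (nat_lit 78) (nat_lit 0) (nat_lit 76) (XT.lf (nat_lit 76) (nat_lit 1715995751) (nat_lit 0) (nat_lit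 7001281257) (nat_lit 1292) (nat_lit 7153614178) (nat_lit 316) (nat_lit 5) (nat_lit 315) (nat_lit 5) (nat_lit 332) (nat_lit 5) (nat_lit 452) (nat_lit 439) (nat_lit 309)) (XT.lf (nat_lit 0) (nat_lit 10146806998) (nat_lit 1216) (nat_lit 5751347311) (nat_lit 1292) (nat_lit 217740305) (nat_lit 316) (nat_lit 5) (nat_lit 332) (nat_lit 5) (nat_lit 333) (nat_lit 5) (nat_lit 453) (nat_lit 439) (nat_lit 308)))) (XT.nd (nat_lit 156) (nat_lit 1140) (nat_lit 0) (XT.nd (nat_lit 78) (nat_lit 0) (nat_lit 0) (XT.lf (nat_lit 76) (nat_lit 2882426417) (nat_lit 0) (nat_lit 8823144353) (nat_lit 1292) (nat_lit 4660087905) (nat_lit 317) (nat_lit 5) (nat_lit 316) (nat_lit 5) (nat_lit 333) (nat_lit 5) (nat_lit 454) (nat_lit 439) (nat_lit 307)) (XT.lf (nat_lit 76) (nat_lit 11884388945) (nat_lit 0) (nat_lit 1474333678) (nat_lit 1292) (nat_lit 3262765218) (nat_lit 317) (nat_lit 5) (nat_lit 316) (nat_lit 5) (nat_lit 333) (nat_lit 5) (nat_lit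 455) (nat_lit 439) (nat_lit 306))) (XT.nd (nat_lit 78) (nat_lit 0) (nat_lit 0) (XT.lf (nat_lit 0) (nat_lit 4287709957) (nat_lit 1216) (nat_lit 10863431890) (nat_lit 1292) (nat_lit 1731160762) (nat_lit 301) (nat_lit 5) (nat_lit 317) (nat_lit 5) (nat_lit 318) (nat_lit 5) (nat_lit 456) (nat_lit 439) (nat_lit 305)) (XT.lf (nat_lit 0) (nat_lit 13656778378) (nat_lit 1216) (nat_lit 3392924792) (nat_lit 1292) (nat_lit 99668450) (nat_lit 301) (nat_lit 5) (nat_lit 317) (nat_lit 5) (nat_lit 318) (nat_lit 5) (nat_lit 457) (nat_lit 439) (nat_lit 304)))))) (XT.nd (nat_lit 624) (nat_lit 2128) (nat_lit 0) (XT.nd (nat_lit 312) (nat_lit 1748) (nat_lit 0) (XT.nd (nat_lit 156) (nat_lit 608) (nat_lit 0) (XT.nd (nat_lit 78) (nat_lit 0) (nat_lit 0) (XT.lf (nat_lit 0) (nat_lit 1639712361) (nat_lit 912) (nat_lit 11489421128) (nat_lit 76) (nat_lit 4292170481) (nat_lit 289) (nat_lit 5) (nat_lit 301) (nat_lit 5) (nat_lit 290) (nat_lit 5)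 (nat_lit 458) (nat_lit 439) (nat_lit 303)) (XT.lf (nat_lit 0) (nat_lit 3488965152) (nat_lit 912) (nat_lit 2033432427) (nat_lit 76) (nat_lit 12177177101) (nat_lit 289) (nat_lit 5) (nat_lit 301) (nat_lit 5) (nat_lit 290) (nat_lit 5) (nat_lit 459) (nat_lit 439) (nat_lit 302))) (XT.nd (nat_lit 78) (nat_lit 0) (nat_lit 0) (XT.lf (nat_lit 0) (nat_lit 5482905649) (nat_lit 684) (nat_lit 10156353279) (nat_lit 76) (nat_lit 2344259068) (nat_lit 281) (nat_lit 5) (nat_lit 290) (nat_lit 5) (nat_lit 282) (nat_lit 5) (nat_lit 460) (nat_lit 439) (nat_lit 301)) (XT.lf (nat_lit 0) (nat_lit 7603031171) (nat_lit 684) (nat_lit 313771113) (nat_lit 76) (nat_lit 10357187085) (nat_lit 281) (nat_lit 5) (nat_lit 290) (nat_lit 5) (nat_lit 282) (nat_lit 5) (nat_lit 461) (nat_lit 439) (nat_lit 300)))) (XT.nd (nat_lit 156) (nat_lit 608) (nat_lit 0) (XT.nd (nat_lit 78) (nat_lit 532) (nat_lit 0) (XT.lf (nat_lit 0) (nat_lit 9875521526) (nat_lit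 684) (nat_lit 8560963049) (nat_lit 76) (nat_lit 134028218) (nat_lit 273) (nat_lit 5) (nat_lit 282) (nat_lit 5) (nat_lit 274) (nat_lit 5) (nat_lit 462) (nat_lit 439) (nat_lit 299)) (XT.lf (nat_lit 0) (nat_lit 1719594304) (nat_lit 532) (nat_lit 10586098379) (nat_lit 608) (nat_lit 6567554772) (nat_lit 266) (nat_lit 5) (nat_lit 273) (nat_lit 5) (nat_lit 274) (nat_lit 5) (nat_lit 463) (nat_lit 439) (nat_lit 298))) (XT.nd (nat_lit 78) (nat_lit 608) (nat_lit 0) (XT.lf (nat_lit 0) (nat_lit 12475434145) (nat_lit 532) (nat_lit 2411343843) (nat_lit 608) (nat_lit 4295946599) (nat_lit 266) (nat_lit 5) (nat_lit 273) (nat_lit 5) (nat_lit 274) (nat_lit 5) (nat_lit 464) (nat_lit 439) (nat_lit 297)) (XT.lf (nat_lit 0) (nat_lit 4065416085) (nat_lit 608) (nat_lit 13568522046) (nat_lit 684) (nat_lit 1864889311) (nat_lit 258) (nat_lit 5) (nat_lit 266) (nat_lit 5) (nat_lit 267) (nat_lit 5) (nat_lit 465) (nat_lit 439) (nat_lit 296)))))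 (XT.nd (nat_lit 312) (nat_lit 988) (nat_lit 0) (XT.nd (nat_lit 156) (nat_lit 532) (nat_lit 0) (XT.nd (nat_lit 78) (nat_lit 532) (nat_lit 0) (XT.lf (nat_lit 0) (nat_lit 710784924) (nat_lit 684) (nat_lit 4562970339) (nat_lit 76) (nat_lit 14547949764) (nat_lit 257) (nat_lit 5) (nat_lit 266) (nat_lit 5) (nat_lit 258) (nat_lit 5) (nat_lit 466) (nat_lit 439) (nat_lit 295)) (XT.lf (nat_lit 0) (nat_lit 3415385943) (nat_lit 608) (nat_lit 13446097629) (nat_lit 76) (nat_lit 3289557893) (nat_lit 250) (nat_lit 5) (nat_lit 258) (nat_lit 5) (nat_lit 251) (nat_lit 5) (nat_lit 467) (nat_lit 439) (nat_lit 294))) (XT.nd (nat_lit 78) (nat_lit 532) (nat_lit 0) (XT.lf (nat_lit 0) (nat_lit 6292133937) (nat_lit 608) (nat_lit 2145702785) (nat_lit 76) (nat_lit 12049691608) (nat_lit 250) (nat_lit 5) (nat_lit 258) (nat_lit 5) (nat_lit 251) (nat_lit 5) (nat_lit 468) (nat_lit 439) (nat_lit 293)) (XT.lf (nat_lit 0) (nat_lit 9343869490) (nat_lit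 608) (nat_lit 11160607552) (nat_lit 76) (nat_lit 326972790) (nat_lit 243) (nat_lit 5) (nat_lit 251) (nat_lit 5) (nat_lit 244) (nat_lit 5) (nat_lit 469) (nat_lit 439) (nat_lit 292)))) (XT.nd (nat_lit 156) (nat_lit 532) (nat_lit 0) (XT.nd (nat_lit 78) (nat_lit 0) (nat_lit 0) (XT.lf (nat_lit 0) (nat_lit 620715634) (nat_lit 456) (nat_lit 11970449785) (nat_lit 532) (nat_lit 8591403880) (nat_lit 237) (nat_lit 5) (nat_lit 243) (nat_lit 5) (nat_lit 244) (nat_lit 5) (nat_lit 470) (nat_lit 439) (nat_lit 291)) (XT.lf (nat_lit 0) (nat_lit 12975874217) (nat_lit 456) (nat_lit 3065457451) (nat_lit 532) (nat_lit 5499727689) (nat_lit 237) (nat_lit 5) (nat_lit 243) (nat_lit 5) (nat_lit 244) (nat_lit 5) (nat_lit 471) (nat_lit 439) (nat_lit 290))) (XT.nd (nat_lit 78) (nat_lit 76) (nat_lit 0) (XT.lf (nat_lit 0) (nat_lit 3798461291) (nat_lit 456) (nat_lit 15884707645) (nat_lit 532) (nat_lit 2224490735) (nat_lit 231) (nat_lit 5) (nat_lit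 237) (nat_lit 5) (nat_lit 238) (nat_lit 5) (nat_lit 472) (nat_lit 439) (nat_lit 289)) (XT.lf (nat_lit 0) (nat_lit 1237289666) (nat_lit 532) (nat_lit 5624721053) (nat_lit 76) (nat_lit 15419595207) (nat_lit 230) (nat_lit 5) (nat_lit 237) (nat_lit 5) (nat_lit 231) (nat_lit 5) (nat_lit 473) (nat_lit 439) (nat_lit 288))))))) (XT.nd (nat_lit 1248) (nat_lit 2736) (nat_lit 0) (XT.nd (nat_lit 624) (nat_lit 1748) (nat_lit 0) (XT.nd (nat_lit 312) (nat_lit 912) (nat_lit 0) (XT.nd (nat_lit 156) (nat_lit 836) (nat_lit 0) (XT.nd (nat_lit 78) (nat_lit 0) (nat_lit 0) (XT.lf (nat_lit 0) (nat_lit 4846330123) (nat_lit 532) (nat_lit 15340985048) (nat_lit 76) (nat_lit 2476151646) (nat_lit 224) (nat_lit 5) (nat_lit 231) (nat_lit 5) (nat_lit 225) (nat_lit 5) (nat_lit 474) (nat_lit 439) (nat_lit 287)) (XT.lf (nat_lit 0) (nat_lit 8682262226) (nat_lit 532) (nat_lit 2358443513) (nat_lit 76) (nat_lit 12012519659) (nat_lit 224) (nat_lit 5)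 (nat_lit 231) (nat_lit 5) (nat_lit 225) (nat_lit 5) (nat_lit 475) (nat_lit 439) (nat_lit 286))) (XT.nd (nat_lit 78) (nat_lit 380) (nat_lit 0) (XT.lf (nat_lit 0) (nat_lit 11224584180) (nat_lit 456) (nat_lit 1510098997) (nat_lit 532) (nat_lit 10716951695) (nat_lit 218) (nat_lit 5) (nat_lit 224) (nat_lit 5) (nat_lit 225) (nat_lit 5) (nat_lit 476) (nat_lit 439) (nat_lit 285)) (XT.lf (nat_lit 0) (nat_lit 1340114446) (nat_lit 380) (nat_lit 15678953016) (nat_lit 456) (nat_lit 6839617895) (nat_lit 213) (nat_lit 5) (nat_lit 218) (nat_lit 5) (nat_lit 219) (nat_lit 5) (nat_lit 477) (nat_lit 439) (nat_lit 284)))) (XT.nd (nat_lit 156) (nat_lit 380) (nat_lit 0) (XT.nd (nat_lit 78) (nat_lit 532) (nat_lit 0) (XT.lf (nat_lit 0) (nat_lit 15541647570) (nat_lit 380) (nat_lit 6022329443) (nat_lit 456) (nat_lit 2710010966) (nat_lit 213) (nat_lit 5) (nat_lit 218) (nat_lit 5) (nat_lit 219) (nat_lit 5) (nat_lit 478) (nat_lit 439) (nat_lit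 283)) (XT.lf (nat_lit 0) (nat_lit 1598964703) (nat_lit 532) (nat_lit 19185195305) (nat_lit 76) (nat_lit 3914576992) (nat_lit 206) (nat_lit 5) (nat_lit 213) (nat_lit 5) (nat_lit 207) (nat_lit 5) (nat_lit 479) (nat_lit 439) (nat_lit 282))) (XT.nd (nat_lit 78) (nat_lit 380) (nat_lit 0) (XT.lf (nat_lit 0) (nat_lit 6125349074) (nat_lit 532) (nat_lit 4863126585) (nat_lit 76) (nat_lit 14142670037) (nat_lit 206) (nat_lit 5) (nat_lit 213) (nat_lit 5) (nat_lit 207) (nat_lit 5) (nat_lit 480) (nat_lit 439) (nat_lit 281)) (XT.lf (nat_lit 0) (nat_lit 10077469119) (nat_lit 380) (nat_lit 801031863) (nat_lit 456) (nat_lit 14695296778) (nat_lit 201) (nat_lit 5) (nat_lit 206) (nat_lit 5) (nat_lit 207) (nat_lit 5) (nat_lit 481) (nat_lit 439) (nat_lit 280))))) (XT.nd (nat_lit 312) (nat_lit 988) (nat_lit 0) (XT.nd (nat_lit 156) (nat_lit 380) (nat_lit 0) (XT.nd (nat_lit 78) (nat_lit 380) (nat_lit 0) (XT.lf (nat_lit 0) (nat_lit 15911191947)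 (nat_lit 456) (nat_lit 563798545) (nat_lit 76) (nat_lit 9550630933) (nat_lit 201) (nat_lit 5) (nat_lit 207) (nat_lit 5) (nat_lit 202) (nat_lit 5) (nat_lit 482) (nat_lit 439) (nat_lit 279)) (XT.lf (nat_lit 0) (nat_lit 15095714782) (nat_lit 380) (nat_lit 6146542965) (nat_lit 456) (nat_lit 5244320597) (nat_lit 196) (nat_lit 5) (nat_lit 201) (nat_lit 5) (nat_lit 202) (nat_lit 5) (nat_lit 483) (nat_lit 439) (nat_lit 278))) (XT.nd (nat_lit 78) (nat_lit 76) (nat_lit 0) (XT.lf (nat_lit 0) (nat_lit 4308512039) (nat_lit 304) (nat_lit 22509513068) (nat_lit 380) (nat_lit 140796128) (nat_lit 192) (nat_lit 5) (nat_lit 196) (nat_lit 5) (nat_lit 197) (nat_lit 5) (nat_lit 484) (nat_lit 439) (nat_lit 277)) (XT.lf (nat_lit 0) (nat_lit 5187487564) (nat_lit 380) (nat_lit 6848323796) (nat_lit 76) (nat_lit 15402800636) (nat_lit 191) (nat_lit 5) (nat_lit 196) (nat_lit 5) (nat_lit 192) (nat_lit 5) (nat_lit 485) (nat_lit 439) (nat_lit 276))))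 (XT.nd (nat_lit 156) (nat_lit 608) (nat_lit 0) (XT.nd (nat_lit 78) (nat_lit 0) (nat_lit 0) (XT.lf (nat_lit 0) (nat_lit 9606264099) (nat_lit 380) (nat_lit 1153489156) (nat_lit 456) (nat_lit 17170392827) (nat_lit 186) (nat_lit 5) (nat_lit 191) (nat_lit 5) (nat_lit 192) (nat_lit 5) (nat_lit 486) (nat_lit 439) (nat_lit 275)) (XT.lf (nat_lit 0) (nat_lit 16660370484) (nat_lit 456) (nat_lit 1844401030) (nat_lit 76) (nat_lit 9926819485) (nat_lit 186) (nat_lit 5) (nat_lit 192) (nat_lit 5) (nat_lit 187) (nat_lit 5) (nat_lit 487) (nat_lit 439) (nat_lit 274))) (XT.nd (nat_lit 78) (nat_lit 304) (nat_lit 0) (XT.lf (nat_lit 0) (nat_lit 15411416085) (nat_lit 304) (nat_lit 7480996052) (nat_lit 380) (nat_lit 6051035253) (nat_lit 182) (nat_lit 5) (nat_lit 186) (nat_lit 5) (nat_lit 187) (nat_lit 5) (nat_lit 488) (nat_lit 439) (nat_lit 273)) (XT.lf (nat_lit 0) (nat_lit 3781569574) (nat_lit 304) (nat_lit 25617140077) (nat_lit 380) (nat_lit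 69331282) (nat_lit 178) (nat_lit 5) (nat_lit 182) (nat_lit 5) (nat_lit 183) (nat_lit 5) (nat_lit 489) (nat_lit 439) (nat_lit 272)))))) (XT.nd (nat_lit 624) (nat_lit 1368) (nat_lit 0) (XT.nd (nat_lit 312) (nat_lit 684) (nat_lit 0) (XT.nd (nat_lit 156) (nat_lit 304) (nat_lit 0) (XT.nd (nat_lit 78) (nat_lit 304) (nat_lit 0) (XT.lf (nat_lit 0) (nat_lit 6179947722) (nat_lit 380) (nat_lit 8253729124) (nat_lit 76) (nat_lit 15566729044) (nat_lit 177) (nat_lit 5) (nat_lit 182) (nat_lit 5) (nat_lit 178) (nat_lit 5) (nat_lit 490) (nat_lit 439) (nat_lit 271)) (XT.lf (nat_lit 0) (nat_lit 9887009451) (nat_lit 304) (nat_lit 2818418008) (nat_lit 380) (nat_lit 17840590539) (nat_lit 173) (nat_lit 5) (nat_lit 177) (nat_lit 5) (nat_lit 178) (nat_lit 5) (nat_lit 491) (nat_lit 439) (nat_lit 270))) (XT.nd (nat_lit 78) (nat_lit 304) (nat_lit 0) (XT.lf (nat_lit 0) (nat_lit 19593881748) (nat_lit 380) (nat_lit 2460353251) (nat_lit 76) (nat_lit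 9048747429) (nat_lit 173) (nat_lit 5) (nat_lit 178) (nat_lit 5) (nat_lit 174) (nat_lit 5) (nat_lit 492) (nat_lit 439) (nat_lit 269)) (XT.lf (nat_lit 0) (nat_lit 16572678053) (nat_lit 304) (nat_lit 10298793616) (nat_lit 380) (nat_lit 4799709918) (nat_lit 169) (nat_lit 5) (nat_lit 173) (nat_lit 5) (nat_lit 174) (nat_lit 5) (nat_lit 493) (nat_lit 439) (nat_lit 268)))) (XT.nd (nat_lit 156) (nat_lit 304) (nat_lit 0) (XT.nd (nat_lit 78) (nat_lit 0) (nat_lit 0) (XT.lf (nat_lit 0) (nat_lit 2147021338) (nat_lit 380) (nat_lit 28249938177) (nat_lit 76) (nat_lit 1856541153) (nat_lit 164) (nat_lit 5) (nat_lit 169) (nat_lit 5) (nat_lit 165) (nat_lit 5) (nat_lit 494) (nat_lit 439) (nat_lit 267)) (XT.lf (nat_lit 0) (nat_lit 9456968992) (nat_lit 380) (nat_lit 9018662548) (nat_lit 76) (nat_lit 14368693842) (nat_lit 164) (nat_lit 5) (nat_lit 169) (nat_lit 5) (nat_lit 165) (nat_lit 5) (nat_lit 495) (nat_lit 439) (nat_lit 266))) (XT.nd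 (nat_lit 78) (nat_lit 0) (nat_lit 0) (XT.lf (nat_lit 0) (nat_lit 10997212087) (nat_lit 304) (nat_lit 6090191408) (nat_lit 380) (nat_lit 16362435918) (nat_lit 160) (nat_lit 5) (nat_lit 164) (nat_lit 5) (nat_lit 165) (nat_lit 5) (nat_lit 496) (nat_lit 439) (nat_lit 265)) (XT.lf (nat_lit 0) (nat_lit 25098328091) (nat_lit 380) (nat_lit 2344314499) (nat_lit 76) (nat_lit 6626329184) (nat_lit 160) (nat_lit 5) (nat_lit 165) (nat_lit 5) (nat_lit 161) (nat_lit 5) (nat_lit 497) (nat_lit 439) (nat_lit 264))))) (XT.nd (nat_lit 312) (nat_lit 532) (nat_lit 0) (XT.nd (nat_lit 156) (nat_lit 228) (nat_lit 0) (XT.nd (nat_lit 78) (nat_lit 380) (nat_lit 0) (XT.lf (nat_lit 0) (nat_lit 18664384076) (nat_lit 228) (nat_lit 14920558345) (nat_lit 304) (nat_lit 1114675038) (nat_lit 157) (nat_lit 5) (nat_lit 160) (nat_lit 5) (nat_lit 161) (nat_lit 5) (nat_lit 498) (nat_lit 439) (nat_lit 263)) (XT.lf (nat_lit 0) (nat_lit 5026925485) (nat_lit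 304) (nat_lit 1881799729) (nat_lit 380) (nat_lit 28436408543) (nat_lit 152) (nat_lit 5) (nat_lit 156) (nat_lit 5) (nat_lit 157) (nat_lit 5) (nat_lit 499) (nat_lit 439) (nat_lit 262))) (XT.nd (nat_lit 78) (nat_lit 228) (nat_lit 0) (XT.lf (nat_lit 0) (nat_lit 15420665859) (nat_lit 380) (nat_lit 9085981429) (nat_lit 76) (nat_lit 11494930092) (nat_lit 152) (nat_lit 5) (nat_lit 157) (nat_lit 5) (nat_lit 153) (nat_lit 5) (nat_lit 500) (nat_lit 439) (nat_lit 261)) (XT.lf (nat_lit 0) (nat_lit 13011855608) (nat_lit 228) (nat_lit 11315650760) (nat_lit 304) (nat_lit 12346021884) (nat_lit 149) (nat_lit 5) (nat_lit 152) (nat_lit 5) (nat_lit 153) (nat_lit 5) (nat_lit 501) (nat_lit 439) (nat_lit 260)))) (XT.nd (nat_lit 156) (nat_lit 228) (nat_lit 0) (XT.nd (nat_lit 78) (nat_lit 304) (nat_lit 0) (XT.lf (nat_lit 0) (nat_lit 33611908760) (nat_lit 304) (nat_lit 1433410970) (nat_lit 76) (nat_lit 2317007407) (nat_lit 149) (nat_lit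 5) (nat_lit 153) (nat_lit 5) (nat_lit 150) (nat_lit 5) (nat_lit 502) (nat_lit 439) (nat_lit 259)) (XT.lf (nat_lit 0) (nat_lit 5323885558) (nat_lit 304) (nat_lit 16346507008) (nat_lit 76) (nat_lit 16390313647) (nat_lit 145) (nat_lit 5) (nat_lit 149) (nat_lit 5) (nat_lit 146) (nat_lit 5) (nat_lit 503) (nat_lit 439) (nat_lit 258))) (XT.nd (nat_lit 78) (nat_lit 0) (nat_lit 0) (XT.lf (nat_lit 0) (nat_lit 6896834749) (nat_lit 228) (nat_lit 7775121687) (nat_lit 304) (nat_lit 24104658883) (nat_lit 142) (nat_lit 5) (nat_lit 145) (nat_lit 5) (nat_lit 146) (nat_lit 5) (nat_lit 504) (nat_lit 439) (nat_lit 257)) (XT.lf (nat_lit 0) (nat_lit 24526042899) (nat_lit 304) (nat_lit 8407478472) (nat_lit 76) (nat_lit 6573713288) (nat_lit 142) (nat_lit 5) (nat_lit 146) (nat_lit 5) (nat_lit 143) (nat_lit 5) (nat_lit 505) (nat_lit 439) (nat_lit 256))))))))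
noncomputable def xc180 : XT := (XT.nd (nat_lit 2418) (nat_lit 1216) (nat_lit 0) (XT.nd (nat_lit 1170) (nat_lit 1824) (nat_lit 0) (XT.nd (nat_lit 546) (nat_lit 912) (nat_lit 0) (XT.nd (nat_lit 234) (nat_lit 684) (nat_lit 0) (XT.nd (nat_lit 78) (nat_lit 304) (nat_lit 0) (XT.lf (nat_lit 0) (nat_lit 15997856125) (nat_lit 228) (nat_lit 18904807674) (nat_lit 304) (nat_lit 5350301584) (nat_lit 139) (nat_lit 5) (nat_lit 142) (nat_lit 5) (nat_lit 143) (nat_lit 5) (nat_lit 506) (nat_lit 439) (nat_lit 255)) (XT.nd (nat_lit 78) (nat_lit 0) (nat_lit 0) (XT.lf (nat_lit 0) (nat_lit 242801750) (nat_lit 228) (nat_lit 4321782830) (nat_lit 304) (nat_lit 36452638740) (nat_lit 135) (nat_lit 5) (nat_lit 138) (nat_lit 5) (nat_lit 139) (nat_lit 5) (nat_lit 507) (nat_lit 439) (nat_lit 254)) (XT.lf (nat_lit 0) (nat_lit 15015769148) (nat_lit 304) (nat_lit 15988819037) (nat_lit 76) (nat_lit 10787840131) (nat_lit 135) (nat_lit 5) (nat_lit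 139) (nat_lit 5) (nat_lit 136) (nat_lit 5) (nat_lit 508) (nat_lit 439) (nat_lit 253)))) (XT.nd (nat_lit 156) (nat_lit 456) (nat_lit 0) (XT.nd (nat_lit 78) (nat_lit 0) (nat_lit 0) (XT.lf (nat_lit 0) (nat_lit 9680271346) (nat_lit 228) (nat_lit 16232362206) (nat_lit 304) (nat_lit 16674291721) (nat_lit 132) (nat_lit 5) (nat_lit 135) (nat_lit 5) (nat_lit 136) (nat_lit 5) (nat_lit 509) (nat_lit 439) (nat_lit 252)) (XT.lf (nat_lit 0) (nat_lit 36441062958) (nat_lit 228) (nat_lit 853147160) (nat_lit 304) (nat_lit 6106312972) (nat_lit 132) (nat_lit 5) (nat_lit 135) (nat_lit 5) (nat_lit 136) (nat_lit 5) (nat_lit 510) (nat_lit 439) (nat_lit 251))) (XT.nd (nat_lit 78) (nat_lit 228) (nat_lit 0) (XT.lf (nat_lit 0) (nat_lit 5021566849) (nat_lit 228) (nat_lit 24271328156) (nat_lit 76) (nat_lit 14934172547) (nat_lit 129) (nat_lit 5) (nat_lit 132) (nat_lit 5) (nat_lit 130) (nat_lit 5) (nat_lit 511) (nat_lit 439) (nat_lit 250)) (XT.lf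 (nat_lit 0) (nat_lit 2722232986) (nat_lit 228) (nat_lit 13740351888) (nat_lit 304) (nat_lit 28610948863) (nat_lit 126) (nat_lit 5) (nat_lit 129) (nat_lit 5) (nat_lit 130) (nat_lit 5) (nat_lit 512) (nat_lit 439) (nat_lit 249))))) (XT.nd (nat_lit 312) (nat_lit 456) (nat_lit 0) (XT.nd (nat_lit 156) (nat_lit 304) (nat_lit 0) (XT.nd (nat_lit 78) (nat_lit 152) (nat_lit 0) (XT.lf (nat_lit 0) (nat_lit 28512725230) (nat_lit 304) (nat_lit 14945298852) (nat_lit 76) (nat_lit 2479393196) (nat_lit 126) (nat_lit 5) (nat_lit 130) (nat_lit 5) (nat_lit 127) (nat_lit 5) (nat_lit 513) (nat_lit 439) (nat_lit 248)) (XT.lf (nat_lit 0) (nat_lit 13402481823) (nat_lit 152) (nat_lit 27783334201) (nat_lit 228) (nat_lit 5633558031) (nat_lit 124) (nat_lit 5) (nat_lit 126) (nat_lit 5) (nat_lit 127) (nat_lit 5) (nat_lit 514) (nat_lit 439) (nat_lit 247))) (XT.nd (nat_lit 78) (nat_lit 228) (nat_lit 0) (XT.lf (nat_lit 0) (nat_lit 6533243842) (nat_lit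 228) (nat_lit 4886186351) (nat_lit 76) (nat_lit 36302011945) (nat_lit 123) (nat_lit 5) (nat_lit 126) (nat_lit 5) (nat_lit 124) (nat_lit 5) (nat_lit 515) (nat_lit 439) (nat_lit 246)) (XT.lf (nat_lit 0) (nat_lit 19243247996) (nat_lit 304) (nat_lit 23771642238) (nat_lit 76) (nat_lit 5625265990) (nat_lit 120) (nat_lit 5) (nat_lit 124) (nat_lit 5) (nat_lit 121) (nat_lit 5) (nat_lit 516) (nat_lit 439) (nat_lit 245)))) (XT.nd (nat_lit 156) (nat_lit 304) (nat_lit 0) (XT.nd (nat_lit 78) (nat_lit 0) (nat_lit 0) (XT.lf (nat_lit 0) (nat_lit 6029422651) (nat_lit 152) (nat_lit 26522680474) (nat_lit 228) (nat_lit 17027802187) (nat_lit 118) (nat_lit 5) (nat_lit 120) (nat_lit 5) (nat_lit 121) (nat_lit 5) (nat_lit 517) (nat_lit 439) (nat_lit 244)) (XT.lf (nat_lit 0) (nat_lit 37206124418) (nat_lit 152) (nat_lit 9290887166) (nat_lit 228) (nat_lit 4043731761) (nat_lit 118) (nat_lit 5) (nat_lit 120) (nat_lit 5) (nat_lit 121) (nat_lit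 5) (nat_lit 518) (nat_lit 439) (nat_lit 243))) (XT.nd (nat_lit 78) (nat_lit 0) (nat_lit 0) (XT.lf (nat_lit 0) (nat_lit 9401945632) (nat_lit 304) (nat_lit 33561930360) (nat_lit 76) (nat_lit 8556215772) (nat_lit 114) (nat_lit 5) (nat_lit 118) (nat_lit 5) (nat_lit 115) (nat_lit 5) (nat_lit 519) (nat_lit 439) (nat_lit 242)) (XT.lf (nat_lit 0) (nat_lit 23394515268) (nat_lit 304) (nat_lit 2200673917) (nat_lit 76) (nat_lit 26925686526) (nat_lit 114) (nat_lit 5) (nat_lit 118) (nat_lit 5) (nat_lit 115) (nat_lit 5) (nat_lit 520) (nat_lit 439) (nat_lit 241)))))) (XT.nd (nat_lit 624) (nat_lit 912) (nat_lit 0) (XT.nd (nat_lit 312) (nat_lit 380) (nat_lit 0) (XT.nd (nat_lit 156) (nat_lit 228) (nat_lit 0) (XT.nd (nat_lit 78) (nat_lit 152) (nat_lit 0) (XT.lf (nat_lit 0) (nat_lit 30694946942) (nat_lit 152) (nat_lit 7403887480) (nat_lit 228) (nat_lit 15444089675) (nat_lit 112) (nat_lit 5) (nat_lit 114) (nat_lit 5) (nat_lit 115) (nat_lit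 5) (nat_lit 521) (nat_lit 439) (nat_lit 240)) (XT.lf (nat_lit 0) (nat_lit 10110249051) (nat_lit 152) (nat_lit 43359533125) (nat_lit 228) (nat_lit 1119086875) (nat_lit 110) (nat_lit 5) (nat_lit 112) (nat_lit 5) (nat_lit 113) (nat_lit 5) (nat_lit 522) (nat_lit 439) (nat_lit 239))) (XT.nd (nat_lit 78) (nat_lit 152) (nat_lit 0) (XT.lf (nat_lit 0) (nat_lit 13672831768) (nat_lit 228) (nat_lit 11345817580) (nat_lit 76) (nat_lit 30634513457) (nat_lit 109) (nat_lit 5) (nat_lit 112) (nat_lit 5) (nat_lit 110) (nat_lit 5) (nat_lit 523) (nat_lit 439) (nat_lit 238)) (XT.lf (nat_lit 0) (nat_lit 23217642402) (nat_lit 152) (nat_lit 5888581210) (nat_lit 228) (nat_lit 27636223192) (nat_lit 107) (nat_lit 5) (nat_lit 109) (nat_lit 5) (nat_lit 110) (nat_lit 5) (nat_lit 524) (nat_lit 439) (nat_lit 237)))) (XT.nd (nat_lit 156) (nat_lit 152) (nat_lit 0) (XT.nd (nat_lit 78) (nat_lit 76) (nat_lit 0) (XT.lf (nat_lit 0) (nat_lit 1071259716)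 (nat_lit 152) (nat_lit 44187201787) (nat_lit 228) (nat_lit 12598272571) (nat_lit 105) (nat_lit 5) (nat_lit 107) (nat_lit 5) (nat_lit 108) (nat_lit 5) (nat_lit 525) (nat_lit 439) (nat_lit 236)) (XT.lf (nat_lit 0) (nat_lit 3231642122) (nat_lit 228) (nat_lit 21696632343) (nat_lit 76) (nat_lit 34063424847) (nat_lit 104) (nat_lit 5) (nat_lit 107) (nat_lit 5) (nat_lit 105) (nat_lit 5) (nat_lit 526) (nat_lit 439) (nat_lit 235))) (XT.nd (nat_lit 78) (nat_lit 0) (nat_lit 0) (XT.lf (nat_lit 0) (nat_lit 14599863742) (nat_lit 152) (nat_lit 4820852949) (nat_lit 228) (nat_lit 40732130568) (nat_lit 102) (nat_lit 5) (nat_lit 104) (nat_lit 5) (nat_lit 105) (nat_lit 5) (nat_lit 527) (nat_lit 439) (nat_lit 234)) (XT.lf (nat_lit 0) (nat_lit 36466613304) (nat_lit 228) (nat_lit 9072338195) (nat_lit 76) (nat_lit 15798743724) (nat_lit 102) (nat_lit 5) (nat_lit 105) (nat_lit 5) (nat_lit 103) (nat_lit 5) (nat_lit 528) (nat_lit 439) (nat_lit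 233))))) (XT.nd (nat_lit 312) (nat_lit 380) (nat_lit 0) (XT.nd (nat_lit 156) (nat_lit 152) (nat_lit 0) (XT.nd (nat_lit 78) (nat_lit 228) (nat_lit 0) (XT.lf (nat_lit 0) (nat_lit 29016172177) (nat_lit 152) (nat_lit 25331594939) (nat_lit 228) (nat_lit 8200605167) (nat_lit 100) (nat_lit 5) (nat_lit 102) (nat_lit 5) (nat_lit 103) (nat_lit 5) (nat_lit 529) (nat_lit 439) (nat_lit 232)) (XT.lf (nat_lit 0) (nat_lit 4639044138) (nat_lit 152) (nat_lit 4290251766) (nat_lit 228) (nat_lit 54859456662) (nat_lit 97) (nat_lit 5) (nat_lit 99) (nat_lit 5) (nat_lit 100) (nat_lit 5) (nat_lit 530) (nat_lit 439) (nat_lit 231))) (XT.nd (nat_lit 78) (nat_lit 152) (nat_lit 0) (XT.lf (nat_lit 0) (nat_lit 26914566078) (nat_lit 228) (nat_lit 20670069218) (nat_lit 76) (nat_lit 17464084317) (nat_lit 97) (nat_lit 5) (nat_lit 100) (nat_lit 5) (nat_lit 98) (nat_lit 5) (nat_lit 531) (nat_lit 439) (nat_lit 230)) (XT.lf (nat_lit 0) (nat_lit 19293055623)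 (nat_lit 152) (nat_lit 26371597852) (nat_lit 228) (nat_lit 20675074483) (nat_lit 95) (nat_lit 5) (nat_lit 97) (nat_lit 5) (nat_lit 98) (nat_lit 5) (nat_lit 532) (nat_lit 439) (nat_lit 229)))) (XT.nd (nat_lit 156) (nat_lit 152) (nat_lit 0) (XT.nd (nat_lit 78) (nat_lit 228) (nat_lit 0) (XT.lf (nat_lit 0) (nat_lit 60873935621) (nat_lit 152) (nat_lit 4309391024) (nat_lit 228) (nat_lit 2479957473) (nat_lit 95) (nat_lit 5) (nat_lit 97) (nat_lit 5) (nat_lit 98) (nat_lit 5) (nat_lit 533) (nat_lit 439) (nat_lit 228)) (XT.lf (nat_lit 0) (nat_lit 16461378470) (nat_lit 228) (nat_lit 33992146474) (nat_lit 76) (nat_lit 18552802457) (nat_lit 92) (nat_lit 5) (nat_lit 95) (nat_lit 5) (nat_lit 93) (nat_lit 5) (nat_lit 534) (nat_lit 439) (nat_lit 227))) (XT.nd (nat_lit 78) (nat_lit 0) (nat_lit 0) (XT.lf (nat_lit 0) (nat_lit 7904965816) (nat_lit 152) (nat_lit 28201453451) (nat_lit 228) (nat_lit 34276946866) (nat_lit 90) (nat_lit 5)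 (nat_lit 92) (nat_lit 5) (nat_lit 93) (nat_lit 5) (nat_lit 535) (nat_lit 439) (nat_lit 226)) (XT.lf (nat_lit 0) (nat_lit 51751069483) (nat_lit 152) (nat_lit 4930442570) (nat_lit 228) (nat_lit 15109983002) (nat_lit 90) (nat_lit 5) (nat_lit 92) (nat_lit 5) (nat_lit 93) (nat_lit 5) (nat_lit 536) (nat_lit 439) (nat_lit 225))))))) (XT.nd (nat_lit 55068) (nat_lit 0) (nat_lit 17252) (XT.nd (nat_lit 546) (nat_lit 608) (nat_lit 0) (XT.nd (nat_lit 234) (nat_lit 304) (nat_lit 0) (XT.nd (nat_lit 78) (nat_lit 152) (nat_lit 0) (XT.lf (nat_lit 0) (nat_lit 4956407879) (nat_lit 152) (nat_lit 49327746883) (nat_lit 76) (nat_lit 18943933218) (nat_lit 88) (nat_lit 5) (nat_lit 90) (nat_lit 5) (nat_lit 89) (nat_lit 5) (nat_lit 537) (nat_lit 439) (nat_lit 224)) (XT.nd (nat_lit 78) (nat_lit 152) (nat_lit 0) (XT.lf (nat_lit 0) (nat_lit 25571788599) (nat_lit 152) (nat_lit 5336639756) (nat_lit 76) (nat_lit 43787341457) (nat_lit 88) (nat_lit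 5) (nat_lit 90) (nat_lit 5) (nat_lit 89) (nat_lit 5) (nat_lit 538) (nat_lit 439) (nat_lit 223)) (XT.lf (nat_lit 0) (nat_lit 40765162858) (nat_lit 152) (nat_lit 6429905129) (nat_lit 228) (nat_lit 29000731042) (nat_lit 86) (nat_lit 5) (nat_lit 88) (nat_lit 5) (nat_lit 89) (nat_lit 5) (nat_lit 539) (nat_lit 439) (nat_lit 222)))) (XT.nd (nat_lit 156) (nat_lit 152) (nat_lit 0) (XT.nd (nat_lit 78) (nat_lit 76) (nat_lit 0) (XT.lf (nat_lit 0) (nat_lit 10642264321) (nat_lit 76) (nat_lit 59159643213) (nat_lit 152) (nat_lit 7928875779) (nat_lit 85) (nat_lit 5) (nat_lit 86) (nat_lit 5) (nat_lit 87) (nat_lit 4) (nat_lit 540) (nat_lit 439) (nat_lit 221)) (XT.lf (nat_lit 0) (nat_lit 13928906247) (nat_lit 152) (nat_lit 20681582725) (nat_lit 76) (nat_lit 44684678537) (nat_lit 84) (nat_lit 5) (nat_lit 86) (nat_lit 5) (nat_lit 85) (nat_lit 5) (nat_lit 541) (nat_lit 439) (nat_lit 220))) (XT.nd (nat_lit 78) (nat_lit 0) (nat_lit 0)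 (XT.lf (nat_lit 0) (nat_lit 27572708232) (nat_lit 152) (nat_lit 8973055769) (nat_lit 228) (nat_lit 44350483014) (nat_lit 82) (nat_lit 5) (nat_lit 84) (nat_lit 5) (nat_lit 85) (nat_lit 5) (nat_lit 542) (nat_lit 439) (nat_lit 219)) (XT.lf (nat_lit 0) (nat_lit 60217286042) (nat_lit 228) (nat_lit 5014562121) (nat_lit 76) (nat_lit 17302226027) (nat_lit 82) (nat_lit 5) (nat_lit 85) (nat_lit 5) (nat_lit 83) (nat_lit 4) (nat_lit 543) (nat_lit 439) (nat_lit 218))))) (XT.nd (nat_lit 312) (nat_lit 228) (nat_lit 0) (XT.nd (nat_lit 156) (nat_lit 76) (nat_lit 0) (XT.nd (nat_lit 78) (nat_lit 152) (nat_lit 0) (XT.lf (nat_lit 0) (nat_lit 900061048) (nat_lit 152) (nat_lit 38674926180) (nat_lit 76) (nat_lit 44630054465) (nat_lit 80) (nat_lit 5) (nat_lit 82) (nat_lit 5) (nat_lit 81) (nat_lit 5) (nat_lit 544) (nat_lit 439) (nat_lit 217)) (XT.lf (nat_lit 0) (nat_lit 11773313636) (nat_lit 152) (nat_lit 12753604637) (nat_lit 228) (nat_lit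 61387729798) (nat_lit 78) (nat_lit 5) (nat_lit 80) (nat_lit 5) (nat_lit 81) (nat_lit 5) (nat_lit 545) (nat_lit 439) (nat_lit 216))) (XT.nd (nat_lit 78) (nat_lit 76) (nat_lit 0) (XT.lf (nat_lit 0) (nat_lit 49397694727) (nat_lit 228) (nat_lit 23287137760) (nat_lit 76) (nat_lit 14974656785) (nat_lit 78) (nat_lit 5) (nat_lit 81) (nat_lit 5) (nat_lit 79) (nat_lit 4) (nat_lit 546) (nat_lit 439) (nat_lit 215)) (XT.lf (nat_lit 0) (nat_lit 29538661326) (nat_lit 76) (nat_lit 45883958933) (nat_lit 152) (nat_lit 14021814710) (nat_lit 77) (nat_lit 5) (nat_lit 78) (nat_lit 5) (nat_lit 79) (nat_lit 4) (nat_lit 547) (nat_lit 439) (nat_lit 214)))) (XT.nd (nat_lit 54054) (nat_lit 0) (nat_lit 19152) (XT.nd (nat_lit 78) (nat_lit 152) (nat_lit 0) (XT.lf (nat_lit 0) (nat_lit 10967075293) (nat_lit 152) (nat_lit 6960977022) (nat_lit 76) (nat_lit 73344661521) (nat_lit 76) (nat_lit 5) (nat_lit 78) (nat_lit 5) (nat_lit 77) (nat_lit 5) (nat_lit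 548) (nat_lit 439) (nat_lit 213)) (XT.lf (nat_lit 0) (nat_lit 36997091617) (nat_lit 228) (nat_lit 44874973886) (nat_lit 76) (nat_lit 11262412175) (nat_lit 74) (nat_lit 5) (nat_lit 77) (nat_lit 5) (nat_lit 75) (nat_lit 4) (nat_lit 549) (nat_lit 439) (nat_lit 212))) (XT.nd (nat_lit 78) (nat_lit 0) (nat_lit 0) (XT.lf (nat_lit 0) (nat_lit 3063728737) (nat_lit 0) (nat_lit 3063728737) (nat_lit 1140) (nat_lit 622092060) (nat_lit 326) (nat_lit 5) (nat_lit 326) (nat_lit 3) (nat_lit 341) (nat_lit 3) (nat_lit 440) (nat_lit 440) (nat_lit 320)) (XT.lf (nat_lit 0) (nat_lit 12807911290) (nat_lit 1140) (nat_lit 674121284) (nat_lit 1216) (nat_lit 208442477) (nat_lit 326) (nat_lit 5) (nat_lit 341) (nat_lit 3) (nat_lit 342) (nat_lit 5) (nat_lit 441) (nat_lit 440) (nat_lit 319)))))) (XT.nd (nat_lit 624) (nat_lit 684) (nat_lit 0) (XT.nd (nat_lit 312) (nat_lit 0) (nat_lit 152) (XT.nd (nat_lit 156) (nat_lit 0) (nat_lit 76) (XT.nd (nat_lit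 78) (nat_lit 1216) (nat_lit 0) (XT.lf (nat_lit 76) (nat_lit 6278508968) (nat_lit 0) (nat_lit 7205750161) (nat_lit 1216) (nat_lit 400131716) (nat_lit 327) (nat_lit 5) (nat_lit 326) (nat_lit 5) (nat_lit 342) (nat_lit 5) (nat_lit 442) (nat_lit 440) (nat_lit 318)) (XT.lf (nat_lit 0) (nat_lit 87703706) (nat_lit 1216) (nat_lit 639250576) (nat_lit 1292) (nat_lit 13357358656) (nat_lit 310) (nat_lit 5) (nat_lit 326) (nat_lit 5) (nat_lit 327) (nat_lit 5) (nat_lit 443) (nat_lit 440) (nat_lit 317))) (XT.nd (nat_lit 78) (nat_lit 0) (nat_lit 0) (XT.lf (nat_lit 0) (nat_lit 690342716) (nat_lit 1216) (nat_lit 7691861271) (nat_lit 1292) (nat_lit 5904664796) (nat_lit 311) (nat_lit 5) (nat_lit 327) (nat_lit 5) (nat_lit 328) (nat_lit 5) (nat_lit 444) (nat_lit 440) (nat_lit 316)) (XT.lf (nat_lit 0) (nat_lit 1311511128) (nat_lit 1216) (nat_lit 451193842) (nat_lit 1292) (nat_lit 12732784051) (nat_lit 311) (nat_lit 5) (nat_lit 327) (nat_lit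 5) (nat_lit 328) (nat_lit 5) (nat_lit 445) (nat_lit 440) (nat_lit 315)))) (XT.nd (nat_lit 156) (nat_lit 0) (nat_lit 76) (XT.nd (nat_lit 78) (nat_lit 0) (nat_lit 0) (XT.lf (nat_lit 0) (nat_lit 2056374998) (nat_lit 1216) (nat_lit 7619823539) (nat_lit 1292) (nat_lit 5031018705) (nat_lit 312) (nat_lit 5) (nat_lit 328) (nat_lit 5) (nat_lit 329) (nat_lit 5) (nat_lit 446) (nat_lit 440) (nat_lit 314)) (XT.lf (nat_lit 0) (nat_lit 2833106365) (nat_lit 1216) (nat_lit 89407722) (nat_lit 1292) (nat_lit 12002498731) (nat_lit 312) (nat_lit 5) (nat_lit 328) (nat_lit 5) (nat_lit 329) (nat_lit 5) (nat_lit 447) (nat_lit 440) (nat_lit 313))) (XT.nd (nat_lit 78) (nat_lit 0) (nat_lit 0) (XT.lf (nat_lit 0) (nat_lit 3735620531) (nat_lit 1216) (nat_lit 7375565651) (nat_lit 1292) (nat_lit 4035082775) (nat_lit 313) (nat_lit 5) (nat_lit 329) (nat_lit 5) (nat_lit 330) (nat_lit 5) (nat_lit 448) (nat_lit 440) (nat_lit 312)) (XT.lf (nat_lit 76)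 (nat_lit 466248498) (nat_lit 0) (nat_lit 4221442105) (nat_lit 1292) (nat_lit 10685798850) (nat_lit 314) (nat_lit 5) (nat_lit 313) (nat_lit 5) (nat_lit 330) (nat_lit 5) (nat_lit 449) (nat_lit 440) (nat_lit 311))))) (XT.nd (nat_lit 312) (nat_lit 988) (nat_lit 0) (XT.nd (nat_lit 156) (nat_lit 0) (nat_lit 76) (XT.nd (nat_lit 78) (nat_lit 0) (nat_lit 0) (XT.lf (nat_lit 0) (nat_lit 5759626171) (nat_lit 1216) (nat_lit 6947677621) (nat_lit 1292) (nat_lit 2897484727) (nat_lit 314) (nat_lit 5) (nat_lit 330) (nat_lit 5) (nat_lit 331) (nat_lit 5) (nat_lit 450) (nat_lit 440) (nat_lit 310)) (XT.lf (nat_lit 76) (nat_lit 1224497961) (nat_lit 0) (nat_lit 5681576327) (nat_lit 1292) (nat_lit 8935682661) (nat_lit 315) (nat_lit 5) (nat_lit 314) (nat_lit 5) (nat_lit 331) (nat_lit 5) (nat_lit 451) (nat_lit 440) (nat_lit 309))) (XT.nd (nat_lit 78) (nat_lit 0) (nat_lit 0) (XT.lf (nat_lit 0) (nat_lit 8161777173) (nat_lit 1216) (nat_lit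 6323659861) (nat_lit 1292) (nat_lit 1598152552) (nat_lit 315) (nat_lit 5) (nat_lit 331) (nat_lit 5) (nat_lit 332) (nat_lit 5) (nat_lit 452) (nat_lit 440) (nat_lit 308)) (XT.lf (nat_lit 76) (nat_lit 2197067627) (nat_lit 0) (nat_lit 7324836791) (nat_lit 1292) (nat_lit 6808771154) (nat_lit 316) (nat_lit 5) (nat_lit 315) (nat_lit 5) (nat_lit 332) (nat_lit 5) (nat_lit 453) (nat_lit 440) (nat_lit 307)))) (XT.nd (nat_lit 156) (nat_lit 1140) (nat_lit 0) (XT.nd (nat_lit 78) (nat_lit 0) (nat_lit 0) (XT.lf (nat_lit 0) (nat_lit 10977442183) (nat_lit 1216) (nat_lit 5489882344) (nat_lit 1292) (nat_lit 116212350) (nat_lit 316) (nat_lit 5) (nat_lit 332) (nat_lit 5) (nat_lit 333) (nat_lit 5) (nat_lit 454) (nat_lit 440) (nat_lit 306)) (XT.lf (nat_lit 76) (nat_lit 3398649641) (nat_lit 0) (nat_lit 9173123136) (nat_lit 1292) (nat_lit 4269358353) (nat_lit 317) (nat_lit 5) (nat_lit 316) (nat_lit 5) (nat_lit 333) (nat_lit 5) (nat_lit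 455) (nat_lit 440) (nat_lit 305))) (XT.nd (nat_lit 78) (nat_lit 1140) (nat_lit 0) (XT.lf (nat_lit 76) (nat_lit 12658154042) (nat_lit 0) (nat_lit 1601364127) (nat_lit 1292) (nat_lit 2845568380) (nat_lit 317) (nat_lit 5) (nat_lit 316) (nat_lit 5) (nat_lit 333) (nat_lit 5) (nat_lit 456) (nat_lit 440) (nat_lit 304)) (XT.lf (nat_lit 0) (nat_lit 4845170704) (nat_lit 1216) (nat_lit 11249324598) (nat_lit 1292) (nat_lit 1279568207) (nat_lit 301) (nat_lit 5) (nat_lit 317) (nat_lit 5) (nat_lit 318) (nat_lit 5) (nat_lit 457) (nat_lit 440) (nat_lit 303))))))))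
noncomputable def xc181 : XT := (XT.nd (nat_lit 2418) (nat_lit 5472) (nat_lit 0) (XT.nd (nat_lit 1170) (nat_lit 3876) (nat_lit 0) (XT.nd (nat_lit 546) (nat_lit 2204) (nat_lit 0) (XT.nd (nat_lit 234) (nat_lit 1748) (nat_lit 0) (XT.nd (nat_lit 78) (nat_lit 836) (nat_lit 0) (XT.lf (nat_lit 0) (nat_lit 378666816) (nat_lit 1292) (nat_lit 3170464404) (nat_lit 76) (nat_lit 14100330391) (nat_lit 300) (nat_lit 5) (nat_lit 317) (nat_lit 5) (nat_lit 301) (nat_lit 5) (nat_lit 458) (nat_lit 440) (nat_lit 302)) (XT.nd (nat_lit 78) (nat_lit 0) (nat_lit 0) (XT.lf (nat_lit 0) (nat_lit 2157860795) (nat_lit 912) (nat_lit 11397779020) (nat_lit 76) (nat_lit 4374194659) (nat_lit 289) (nat_lit 5) (nat_lit 301) (nat_lit 5) (nat_lit 290) (nat_lit 5) (nat_lit 459) (nat_lit 440) (nat_lit 301)) (XT.lf (nat_lit 0) (nat_lit 4048932227) (nat_lit 912) (nat_lit 1670819146) (nat_lit 76) (nat_lit 12497112863) (nat_lit 289) (nat_lit 5) (nat_lit 301)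 (nat_lit 5) (nat_lit 290) (nat_lit 5) (nat_lit 460) (nat_lit 440) (nat_lit 300)))) (XT.nd (nat_lit 156) (nat_lit 532) (nat_lit 0) (XT.nd (nat_lit 78) (nat_lit 608) (nat_lit 0) (XT.lf (nat_lit 0) (nat_lit 6093206211) (nat_lit 684) (nat_lit 10027905283) (nat_lit 76) (nat_lit 2388500026) (nat_lit 281) (nat_lit 5) (nat_lit 290) (nat_lit 5) (nat_lit 282) (nat_lit 5) (nat_lit 461) (nat_lit 440) (nat_lit 299)) (XT.lf (nat_lit 0) (nat_lit 99275890) (nat_lit 608) (nat_lit 8165629054) (nat_lit 684) (nat_lit 10544254104) (nat_lit 273) (nat_lit 5) (nat_lit 281) (nat_lit 5) (nat_lit 282) (nat_lit 5) (nat_lit 462) (nat_lit 440) (nat_lit 298))) (XT.nd (nat_lit 78) (nat_lit 532) (nat_lit 0) (XT.lf (nat_lit 0) (nat_lit 10595936532) (nat_lit 684) (nat_lit 8388554403) (nat_lit 76) (nat_lit 130377307) (nat_lit 273) (nat_lit 5) (nat_lit 282) (nat_lit 5) (nat_lit 274) (nat_lit 5) (nat_lit 463) (nat_lit 440) (nat_lit 297)) (XT.lf (nat_lit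 0) (nat_lit 2196211459) (nat_lit 532) (nat_lit 10894533142) (nat_lit 608) (nat_lit 6336189424) (nat_lit 266) (nat_lit 5) (nat_lit 273) (nat_lit 5) (nat_lit 274) (nat_lit 5) (nat_lit 464) (nat_lit 440) (nat_lit 296))))) (XT.nd (nat_lit 312) (nat_lit 988) (nat_lit 0) (XT.nd (nat_lit 156) (nat_lit 608) (nat_lit 0) (XT.nd (nat_lit 78) (nat_lit 608) (nat_lit 0) (XT.lf (nat_lit 0) (nat_lit 13262347000) (nat_lit 532) (nat_lit 2474802422) (nat_lit 608) (nat_lit 4008910442) (nat_lit 266) (nat_lit 5) (nat_lit 273) (nat_lit 5) (nat_lit 274) (nat_lit 5) (nat_lit 465) (nat_lit 440) (nat_lit 295)) (XT.lf (nat_lit 0) (nat_lit 4607925650) (nat_lit 608) (nat_lit 13951163929) (nat_lit 684) (nat_lit 1512786242) (nat_lit 258) (nat_lit 5) (nat_lit 266) (nat_lit 5) (nat_lit 267) (nat_lit 5) (nat_lit 466) (nat_lit 440) (nat_lit 294))) (XT.nd (nat_lit 78) (nat_lit 532) (nat_lit 0) (XT.lf (nat_lit 0) (nat_lit 1120542674) (nat_lit 684)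 (nat_lit 4283800126) (nat_lit 76) (nat_lit 15000329770) (nat_lit 257) (nat_lit 5) (nat_lit 266) (nat_lit 5) (nat_lit 258) (nat_lit 5) (nat_lit 467) (nat_lit 440) (nat_lit 293)) (XT.lf (nat_lit 0) (nat_lit 3899225337) (nat_lit 608) (nat_lit 13426335158) (nat_lit 76) (nat_lit 3418541188) (nat_lit 250) (nat_lit 5) (nat_lit 258) (nat_lit 5) (nat_lit 251) (nat_lit 5) (nat_lit 468) (nat_lit 440) (nat_lit 292)))) (XT.nd (nat_lit 156) (nat_lit 456) (nat_lit 0) (XT.nd (nat_lit 78) (nat_lit 532) (nat_lit 0) (XT.lf (nat_lit 0) (nat_lit 6851167680) (nat_lit 608) (nat_lit 1799253092) (nat_lit 76) (nat_lit 12440596491) (nat_lit 250) (nat_lit 5) (nat_lit 258) (nat_lit 5) (nat_lit 251) (nat_lit 5) (nat_lit 469) (nat_lit 440) (nat_lit 291)) (XT.lf (nat_lit 0) (nat_lit 9987998253) (nat_lit 608) (nat_lit 11078119968) (nat_lit 76) (nat_lit 379332739) (nat_lit 243) (nat_lit 5) (nat_lit 251) (nat_lit 5) (nat_lit 244) (nat_lit 5) (nat_lit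 470) (nat_lit 440) (nat_lit 290))) (XT.nd (nat_lit 78) (nat_lit 0) (nat_lit 0) (XT.lf (nat_lit 0) (nat_lit 1052551681) (nat_lit 456) (nat_lit 12273536965) (nat_lit 532) (nat_lit 8481214912) (nat_lit 237) (nat_lit 5) (nat_lit 243) (nat_lit 5) (nat_lit 244) (nat_lit 5) (nat_lit 471) (nat_lit 440) (nat_lit 289)) (XT.lf (nat_lit 0) (nat_lit 13766329645) (nat_lit 456) (nat_lit 3103026695) (nat_lit 532) (nat_lit 5307504875) (nat_lit 237) (nat_lit 5) (nat_lit 243) (nat_lit 5) (nat_lit 244) (nat_lit 5) (nat_lit 472) (nat_lit 440) (nat_lit 288)))))) (XT.nd (nat_lit 624) (nat_lit 1520) (nat_lit 0) (XT.nd (nat_lit 312) (nat_lit 1368) (nat_lit 0) (XT.nd (nat_lit 156) (nat_lit 456) (nat_lit 0) (XT.nd (nat_lit 78) (nat_lit 76) (nat_lit 0) (XT.lf (nat_lit 0) (nat_lit 4319471123) (nat_lit 456) (nat_lit 16295297593) (nat_lit 532) (nat_lit 1939861993) (nat_lit 231) (nat_lit 5) (nat_lit 237) (nat_lit 5) (nat_lit 238) (nat_lit 5)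 (nat_lit 473) (nat_lit 440) (nat_lit 287)) (XT.lf (nat_lit 0) (nat_lit 1608881267) (nat_lit 532) (nat_lit 5391581882) (nat_lit 76) (nat_lit 15939532626) (nat_lit 230) (nat_lit 5) (nat_lit 237) (nat_lit 5) (nat_lit 231) (nat_lit 5) (nat_lit 474) (nat_lit 440) (nat_lit 286))) (XT.nd (nat_lit 78) (nat_lit 0) (nat_lit 0) (XT.lf (nat_lit 0) (nat_lit 5320943225) (nat_lit 532) (nat_lit 15394060646) (nat_lit 76) (nat_lit 2618466816) (nat_lit 224) (nat_lit 5) (nat_lit 231) (nat_lit 5) (nat_lit 225) (nat_lit 5) (nat_lit 475) (nat_lit 440) (nat_lit 285)) (XT.lf (nat_lit 0) (nat_lit 9262364266) (nat_lit 532) (nat_lit 2033901718) (nat_lit 76) (nat_lit 12438944395) (nat_lit 224) (nat_lit 5) (nat_lit 231) (nat_lit 5) (nat_lit 225) (nat_lit 5) (nat_lit 476) (nat_lit 440) (nat_lit 284)))) (XT.nd (nat_lit 156) (nat_lit 532) (nat_lit 0) (XT.nd (nat_lit 78) (nat_lit 380) (nat_lit 0) (XT.lf (nat_lit 0) (nat_lit 11952741364) (nat_lit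 456) (nat_lit 1478069314) (nat_lit 532) (nat_lit 10714928537) (nat_lit 218) (nat_lit 5) (nat_lit 224) (nat_lit 5) (nat_lit 225) (nat_lit 5) (nat_lit 477) (nat_lit 440) (nat_lit 283)) (XT.lf (nat_lit 0) (nat_lit 1776516117) (nat_lit 380) (nat_lit 16062592426) (nat_lit 456) (nat_lit 6726031853) (nat_lit 213) (nat_lit 5) (nat_lit 218) (nat_lit 5) (nat_lit 219) (nat_lit 5) (nat_lit 478) (nat_lit 440) (nat_lit 282))) (XT.nd (nat_lit 78) (nat_lit 532) (nat_lit 0) (XT.lf (nat_lit 0) (nat_lit 16392555480) (nat_lit 380) (nat_lit 6118796238) (nat_lit 456) (nat_lit 2481821413) (nat_lit 213) (nat_lit 5) (nat_lit 218) (nat_lit 5) (nat_lit 219) (nat_lit 5) (nat_lit 479) (nat_lit 440) (nat_lit 281)) (XT.lf (nat_lit 0) (nat_lit 1946116151) (nat_lit 532) (nat_lit 19365745456) (nat_lit 76) (nat_lit 4118842398) (nat_lit 206) (nat_lit 5) (nat_lit 213) (nat_lit 5) (nat_lit 207) (nat_lit 5) (nat_lit 480) (nat_lit 440) (nat_lit 280)))))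 (XT.nd (nat_lit 312) (nat_lit 760) (nat_lit 0) (XT.nd (nat_lit 156) (nat_lit 380) (nat_lit 0) (XT.nd (nat_lit 78) (nat_lit 380) (nat_lit 0) (XT.lf (nat_lit 0) (nat_lit 6599577999) (nat_lit 532) (nat_lit 4625519695) (nat_lit 76) (nat_lit 14651249261) (nat_lit 206) (nat_lit 5) (nat_lit 213) (nat_lit 5) (nat_lit 207) (nat_lit 5) (nat_lit 481) (nat_lit 440) (nat_lit 279)) (XT.lf (nat_lit 0) (nat_lit 10759534069) (nat_lit 380) (nat_lit 730980451) (nat_lit 456) (nat_lit 14841908915) (nat_lit 201) (nat_lit 5) (nat_lit 206) (nat_lit 5) (nat_lit 207) (nat_lit 5) (nat_lit 482) (nat_lit 440) (nat_lit 278))) (XT.nd (nat_lit 78) (nat_lit 380) (nat_lit 0) (XT.lf (nat_lit 0) (nat_lit 16666744100) (nat_lit 456) (nat_lit 204571961) (nat_lit 76) (nat_lit 9926709552) (nat_lit 201) (nat_lit 5) (nat_lit 207) (nat_lit 5) (nat_lit 202) (nat_lit 5) (nat_lit 483) (nat_lit 440) (nat_lit 277)) (XT.lf (nat_lit 0) (nat_lit 15921039114) (nat_lit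 380) (nat_lit 6232179614) (nat_lit 456) (nat_lit 5119728728) (nat_lit 196) (nat_lit 5) (nat_lit 201) (nat_lit 5) (nat_lit 202) (nat_lit 5) (nat_lit 484) (nat_lit 440) (nat_lit 276)))) (XT.nd (nat_lit 156) (nat_lit 380) (nat_lit 0) (XT.nd (nat_lit 78) (nat_lit 0) (nat_lit 0) (XT.lf (nat_lit 0) (nat_lit 130759988) (nat_lit 380) (nat_lit 22946966841) (nat_lit 76) (nat_lit 4681695920) (nat_lit 191) (nat_lit 5) (nat_lit 196) (nat_lit 5) (nat_lit 192) (nat_lit 5) (nat_lit 485) (nat_lit 440) (nat_lit 275)) (XT.lf (nat_lit 0) (nat_lit 5608112324) (nat_lit 380) (nat_lit 6683426315) (nat_lit 76) (nat_lit 15962265752) (nat_lit 191) (nat_lit 5) (nat_lit 196) (nat_lit 5) (nat_lit 192) (nat_lit 5) (nat_lit 486) (nat_lit 440) (nat_lit 274))) (XT.nd (nat_lit 78) (nat_lit 0) (nat_lit 0) (XT.lf (nat_lit 0) (nat_lit 10261168362) (nat_lit 380) (nat_lit 1082184276) (nat_lit 456) (nat_lit 17416858128) (nat_lit 186) (nat_lit 5) (nat_lit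 191) (nat_lit 5) (nat_lit 192) (nat_lit 5) (nat_lit 487) (nat_lit 440) (nat_lit 273)) (XT.lf (nat_lit 0) (nat_lit 17414380484) (nat_lit 456) (nat_lit 1537074836) (nat_lit 76) (nat_lit 10325442398) (nat_lit 186) (nat_lit 5) (nat_lit 192) (nat_lit 5) (nat_lit 187) (nat_lit 5) (nat_lit 488) (nat_lit 440) (nat_lit 272))))))) (XT.nd (nat_lit 1248) (nat_lit 2356) (nat_lit 0) (XT.nd (nat_lit 624) (nat_lit 1444) (nat_lit 0) (XT.nd (nat_lit 312) (nat_lit 684) (nat_lit 0) (XT.nd (nat_lit 156) (nat_lit 304) (nat_lit 0) (XT.nd (nat_lit 78) (nat_lit 380) (nat_lit 0) (XT.lf (nat_lit 0) (nat_lit 16232861320) (nat_lit 304) (nat_lit 7596570131) (nat_lit 380) (nat_lit 5974797346) (nat_lit 182) (nat_lit 5) (nat_lit 186) (nat_lit 5) (nat_lit 187) (nat_lit 5) (nat_lit 489) (nat_lit 440) (nat_lit 271)) (XT.lf (nat_lit 0) (nat_lit 179900036) (nat_lit 380) (nat_lit 26089397154) (nat_lit 76) (nat_lit 4075294263) (nat_lit 177) (nat_lit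 5) (nat_lit 182) (nat_lit 5) (nat_lit 178) (nat_lit 5) (nat_lit 490) (nat_lit 440) (nat_lit 270))) (XT.nd (nat_lit 78) (nat_lit 304) (nat_lit 0) (XT.lf (nat_lit 0) (nat_lit 6607984763) (nat_lit 380) (nat_lit 8145047893) (nat_lit 76) (nat_lit 16140092886) (nat_lit 177) (nat_lit 5) (nat_lit 182) (nat_lit 5) (nat_lit 178) (nat_lit 5) (nat_lit 491) (nat_lit 440) (nat_lit 269)) (XT.lf (nat_lit 0) (nat_lit 10536419770) (nat_lit 304) (nat_lit 2789133308) (nat_lit 380) (nat_lit 18129663599) (nat_lit 173) (nat_lit 5) (nat_lit 177) (nat_lit 5) (nat_lit 178) (nat_lit 5) (nat_lit 492) (nat_lit 440) (nat_lit 268)))) (XT.nd (nat_lit 156) (nat_lit 380) (nat_lit 0) (XT.nd (nat_lit 78) (nat_lit 304) (nat_lit 0) (XT.lf (nat_lit 0) (nat_lit 20414763315) (nat_lit 380) (nat_lit 2185729263) (nat_lit 76) (nat_lit 9428574770) (nat_lit 173) (nat_lit 5) (nat_lit 178) (nat_lit 5) (nat_lit 174) (nat_lit 5) (nat_lit 493) (nat_lit 440) (nat_lit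 267)) (XT.lf (nat_lit 0) (nat_lit 17414876955) (nat_lit 304) (nat_lit 10492332204) (nat_lit 380) (nat_lit 4707207843) (nat_lit 169) (nat_lit 5) (nat_lit 173) (nat_lit 5) (nat_lit 174) (nat_lit 5) (nat_lit 494) (nat_lit 440) (nat_lit 266))) (XT.nd (nat_lit 78) (nat_lit 0) (nat_lit 0) (XT.lf (nat_lit 0) (nat_lit 2441016848) (nat_lit 380) (nat_lit 28745485851) (nat_lit 76) (nat_lit 2027703912) (nat_lit 164) (nat_lit 5) (nat_lit 169) (nat_lit 5) (nat_lit 165) (nat_lit 5) (nat_lit 495) (nat_lit 440) (nat_lit 265)) (XT.lf (nat_lit 0) (nat_lit 9963575993) (nat_lit 380) (nat_lit 8947522939) (nat_lit 76) (nat_lit 14911858080) (nat_lit 164) (nat_lit 5) (nat_lit 169) (nat_lit 5) (nat_lit 165) (nat_lit 5) (nat_lit 496) (nat_lit 440) (nat_lit 264))))) (XT.nd (nat_lit 312) (nat_lit 532) (nat_lit 0) (XT.nd (nat_lit 156) (nat_lit 608) (nat_lit 0) (XT.nd (nat_lit 78) (nat_lit 0) (nat_lit 0) (XT.lf (nat_lit 0) (nat_lit 11665477940)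 (nat_lit 304) (nat_lit 6154205840) (nat_lit 380) (nat_lit 16627050201) (nat_lit 160) (nat_lit 5) (nat_lit 164) (nat_lit 5) (nat_lit 165) (nat_lit 5) (nat_lit 497) (nat_lit 440) (nat_lit 263)) (XT.lf (nat_lit 0) (nat_lit 26065646005) (nat_lit 380) (nat_lit 2080848622) (nat_lit 76) (nat_lit 6938104705) (nat_lit 160) (nat_lit 5) (nat_lit 165) (nat_lit 5) (nat_lit 161) (nat_lit 5) (nat_lit 498) (nat_lit 440) (nat_lit 262))) (XT.nd (nat_lit 78) (nat_lit 380) (nat_lit 0) (XT.lf (nat_lit 0) (nat_lit 19554838407) (nat_lit 228) (nat_lit 15248953816) (nat_lit 304) (nat_lit 930464470) (nat_lit 157) (nat_lit 5) (nat_lit 160) (nat_lit 5) (nat_lit 161) (nat_lit 5) (nat_lit 499) (nat_lit 440) (nat_lit 261)) (XT.lf (nat_lit 0) (nat_lit 5509231000) (nat_lit 304) (nat_lit 1817130557) (nat_lit 380) (nat_lit 29072805318) (nat_lit 152) (nat_lit 5) (nat_lit 156) (nat_lit 5) (nat_lit 157) (nat_lit 5) (nat_lit 500) (nat_lit 440) (nat_lit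 260)))) (XT.nd (nat_lit 156) (nat_lit 304) (nat_lit 0) (XT.nd (nat_lit 78) (nat_lit 228) (nat_lit 0) (XT.lf (nat_lit 0) (nat_lit 16088663405) (nat_lit 380) (nat_lit 9031712003) (nat_lit 76) (nat_lit 11955078591) (nat_lit 152) (nat_lit 5) (nat_lit 157) (nat_lit 5) (nat_lit 153) (nat_lit 5) (nat_lit 501) (nat_lit 440) (nat_lit 259)) (XT.lf (nat_lit 0) (nat_lit 13725855744) (nat_lit 228) (nat_lit 11533982583) (nat_lit 304) (nat_lit 12507811468) (nat_lit 149) (nat_lit 5) (nat_lit 152) (nat_lit 5) (nat_lit 153) (nat_lit 5) (nat_lit 502) (nat_lit 440) (nat_lit 258))) (XT.nd (nat_lit 78) (nat_lit 304) (nat_lit 0) (XT.lf (nat_lit 0) (nat_lit 34818005068) (nat_lit 304) (nat_lit 1157418810) (nat_lit 76) (nat_lit 2501832064) (nat_lit 149) (nat_lit 5) (nat_lit 153) (nat_lit 5) (nat_lit 150) (nat_lit 5) (nat_lit 503) (nat_lit 440) (nat_lit 257)) (XT.lf (nat_lit 0) (nat_lit 5680557351) (nat_lit 304) (nat_lit 16517107001) (nat_lit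 76) (nat_lit 16998946060) (nat_lit 145) (nat_lit 5) (nat_lit 149) (nat_lit 5) (nat_lit 146) (nat_lit 5) (nat_lit 504) (nat_lit 440) (nat_lit 256)))))) (XT.nd (nat_lit 624) (nat_lit 1140) (nat_lit 0) (XT.nd (nat_lit 312) (nat_lit 456) (nat_lit 0) (XT.nd (nat_lit 156) (nat_lit 532) (nat_lit 0) (XT.nd (nat_lit 78) (nat_lit 0) (nat_lit 0) (XT.lf (nat_lit 0) (nat_lit 7420399761) (nat_lit 228) (nat_lit 7885977965) (nat_lit 304) (nat_lit 24627700088) (nat_lit 142) (nat_lit 5) (nat_lit 145) (nat_lit 5) (nat_lit 146) (nat_lit 5) (nat_lit 505) (nat_lit 440) (nat_lit 255)) (XT.lf (nat_lit 0) (nat_lit 25451570938) (nat_lit 304) (nat_lit 8347742267) (nat_lit 76) (nat_lit 6887438240) (nat_lit 142) (nat_lit 5) (nat_lit 146) (nat_lit 5) (nat_lit 143) (nat_lit 5) (nat_lit 506) (nat_lit 440) (nat_lit 254))) (XT.nd (nat_lit 78) (nat_lit 304) (nat_lit 0) (XT.lf (nat_lit 0) (nat_lit 16786693931) (nat_lit 228) (nat_lit 19350239285)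 (nat_lit 304) (nat_lit 5317997820) (nat_lit 139) (nat_lit 5) (nat_lit 142) (nat_lit 5) (nat_lit 143) (nat_lit 5) (nat_lit 507) (nat_lit 440) (nat_lit 253)) (XT.lf (nat_lit 0) (nat_lit 559692387) (nat_lit 228) (nat_lit 4328349878) (nat_lit 304) (nat_lit 37354094965) (nat_lit 135) (nat_lit 5) (nat_lit 138) (nat_lit 5) (nat_lit 139) (nat_lit 5) (nat_lit 508) (nat_lit 440) (nat_lit 252)))) (XT.nd (nat_lit 156) (nat_lit 228) (nat_lit 0) (XT.nd (nat_lit 78) (nat_lit 228) (nat_lit 0) (XT.lf (nat_lit 0) (nat_lit 15648478464) (nat_lit 304) (nat_lit 16163603810) (nat_lit 76) (nat_lit 11228644827) (nat_lit 135) (nat_lit 5) (nat_lit 139) (nat_lit 5) (nat_lit 136) (nat_lit 5) (nat_lit 509) (nat_lit 440) (nat_lit 251)) (XT.lf (nat_lit 0) (nat_lit 10272570267) (nat_lit 228) (nat_lit 16597272641) (nat_lit 304) (nat_lit 16989288440) (nat_lit 132) (nat_lit 5) (nat_lit 135) (nat_lit 5) (nat_lit 136) (nat_lit 5) (nat_lit 510) (nat_lit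 440) (nat_lit 250))) (XT.nd (nat_lit 78) (nat_lit 228) (nat_lit 0) (XT.lf (nat_lit 0) (nat_lit 37827392692) (nat_lit 228) (nat_lit 760236301) (nat_lit 304) (nat_lit 6109665437) (nat_lit 132) (nat_lit 5) (nat_lit 135) (nat_lit 5) (nat_lit 136) (nat_lit 5) (nat_lit 511) (nat_lit 440) (nat_lit 249)) (XT.lf (nat_lit 0) (nat_lit 5347379570) (nat_lit 228) (nat_lit 24701686364) (nat_lit 76) (nat_lit 15499552475) (nat_lit 129) (nat_lit 5) (nat_lit 132) (nat_lit 5) (nat_lit 130) (nat_lit 5) (nat_lit 512) (nat_lit 440) (nat_lit 248))))) (XT.nd (nat_lit 312) (nat_lit 684) (nat_lit 0) (XT.nd (nat_lit 156) (nat_lit 228) (nat_lit 0) (XT.nd (nat_lit 78) (nat_lit 0) (nat_lit 0) (XT.lf (nat_lit 0) (nat_lit 3098762185) (nat_lit 228) (nat_lit 14030598433) (nat_lit 304) (nat_lit 29291186169) (nat_lit 126) (nat_lit 5) (nat_lit 129) (nat_lit 5) (nat_lit 130) (nat_lit 5) (nat_lit 513) (nat_lit 440) (nat_lit 247)) (XT.lf (nat_lit 0) (nat_lit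 29537107559) (nat_lit 304) (nat_lit 15103480361) (nat_lit 76) (nat_lit 2669876015) (nat_lit 126) (nat_lit 5) (nat_lit 130) (nat_lit 5) (nat_lit 127) (nat_lit 5) (nat_lit 514) (nat_lit 440) (nat_lit 246))) (XT.nd (nat_lit 78) (nat_lit 76) (nat_lit 0) (XT.lf (nat_lit 0) (nat_lit 14091888857) (nat_lit 152) (nat_lit 28496341891) (nat_lit 228) (nat_lit 5630713650) (nat_lit 124) (nat_lit 5) (nat_lit 126) (nat_lit 5) (nat_lit 127) (nat_lit 5) (nat_lit 515) (nat_lit 440) (nat_lit 245)) (XT.lf (nat_lit 0) (nat_lit 6892831145) (nat_lit 228) (nat_lit 4750547165) (nat_lit 76) (nat_lit 37504794046) (nat_lit 123) (nat_lit 5) (nat_lit 126) (nat_lit 5) (nat_lit 124) (nat_lit 5) (nat_lit 516) (nat_lit 440) (nat_lit 244)))) (XT.nd (nat_lit 156) (nat_lit 304) (nat_lit 0) (XT.nd (nat_lit 78) (nat_lit 152) (nat_lit 0) (XT.lf (nat_lit 0) (nat_lit 19983190759) (nat_lit 304) (nat_lit 24201616873) (nat_lit 76) (nat_lit 5909668728) (nat_lit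 120) (nat_lit 5) (nat_lit 124) (nat_lit 5) (nat_lit 121) (nat_lit 5) (nat_lit 517) (nat_lit 440) (nat_lit 243)) (XT.lf (nat_lit 0) (nat_lit 6490703741) (nat_lit 152) (nat_lit 27198565919) (nat_lit 228) (nat_lit 17373209668) (nat_lit 118) (nat_lit 5) (nat_lit 120) (nat_lit 5) (nat_lit 121) (nat_lit 5) (nat_lit 518) (nat_lit 440) (nat_lit 242))) (XT.nd (nat_lit 78) (nat_lit 304) (nat_lit 0) (XT.lf (nat_lit 0) (nat_lit 38594539617) (nat_lit 152) (nat_lit 9453307985) (nat_lit 228) (nat_lit 4004435379) (nat_lit 118) (nat_lit 5) (nat_lit 120) (nat_lit 5) (nat_lit 121) (nat_lit 5) (nat_lit 519) (nat_lit 440) (nat_lit 241)) (XT.lf (nat_lit 0) (nat_lit 9840638966) (nat_lit 304) (nat_lit 34292574072) (nat_lit 76) (nat_lit 8927777818) (nat_lit 114) (nat_lit 5) (nat_lit 118) (nat_lit 5) (nat_lit 115) (nat_lit 5) (nat_lit 520) (nat_lit 440) (nat_lit 240))))))))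
noncomputable def xc182 : XT := (XT.nd (nat_lit 56394) (nat_lit 0) (nat_lit 12236) (XT.nd (nat_lit 1170) (nat_lit 1216) (nat_lit 0) (XT.nd (nat_lit 546) (nat_lit 912) (nat_lit 0) (XT.nd (nat_lit 234) (nat_lit 456) (nat_lit 0) (XT.nd (nat_lit 78) (nat_lit 304) (nat_lit 0) (XT.lf (nat_lit 0) (nat_lit 24248423508) (nat_lit 304) (nat_lit 1998525010) (nat_lit 76) (nat_lit 27844986804) (nat_lit 114) (nat_lit 5) (nat_lit 118) (nat_lit 5) (nat_lit 115) (nat_lit 5) (nat_lit 521) (nat_lit 440) (nat_lit 239)) (XT.nd (nat_lit 78) (nat_lit 152) (nat_lit 0) (XT.lf (nat_lit 0) (nat_lit 31881335366) (nat_lit 152) (nat_lit 7510660099) (nat_lit 228) (nat_lit 15752706127) (nat_lit 112) (nat_lit 5) (nat_lit 114) (nat_lit 5) (nat_lit 115) (nat_lit 5) (nat_lit 522) (nat_lit 440) (nat_lit 238)) (XT.lf (nat_lit 0) (nat_lit 10679861328) (nat_lit 152) (nat_lit 44543472031) (nat_lit 228) (nat_lit 998713812) (nat_lit 110) (nat_lit 5) (nat_lit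 112) (nat_lit 5) (nat_lit 113) (nat_lit 5) (nat_lit 523) (nat_lit 440) (nat_lit 237)))) (XT.nd (nat_lit 156) (nat_lit 228) (nat_lit 0) (XT.nd (nat_lit 78) (nat_lit 152) (nat_lit 0) (XT.lf (nat_lit 0) (nat_lit 14229561998) (nat_lit 228) (nat_lit 11424723236) (nat_lit 76) (nat_lit 31664072118) (nat_lit 109) (nat_lit 5) (nat_lit 112) (nat_lit 5) (nat_lit 110) (nat_lit 5) (nat_lit 524) (nat_lit 440) (nat_lit 236)) (XT.lf (nat_lit 0) (nat_lit 24173077124) (nat_lit 152) (nat_lit 5951098921) (nat_lit 228) (nat_lit 28316197329) (nat_lit 107) (nat_lit 5) (nat_lit 109) (nat_lit 5) (nat_lit 110) (nat_lit 5) (nat_lit 525) (nat_lit 440) (nat_lit 235))) (XT.nd (nat_lit 78) (nat_lit 76) (nat_lit 0) (XT.lf (nat_lit 0) (nat_lit 1362982463) (nat_lit 152) (nat_lit 45397342646) (nat_lit 228) (nat_lit 12827783944) (nat_lit 105) (nat_lit 5) (nat_lit 107) (nat_lit 5) (nat_lit 108) (nat_lit 5) (nat_lit 526) (nat_lit 440) (nat_lit 234))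 (XT.lf (nat_lit 0) (nat_lit 3469892616) (nat_lit 228) (nat_lit 22092691378) (nat_lit 76) (nat_lit 35194623725) (nat_lit 104) (nat_lit 5) (nat_lit 107) (nat_lit 5) (nat_lit 105) (nat_lit 5) (nat_lit 527) (nat_lit 440) (nat_lit 233))))) (XT.nd (nat_lit 312) (nat_lit 380) (nat_lit 0) (XT.nd (nat_lit 156) (nat_lit 380) (nat_lit 0) (XT.nd (nat_lit 78) (nat_lit 0) (nat_lit 0) (XT.lf (nat_lit 0) (nat_lit 15290201159) (nat_lit 152) (nat_lit 4852748355) (nat_lit 228) (nat_lit 41810291392) (nat_lit 102) (nat_lit 5) (nat_lit 104) (nat_lit 5) (nat_lit 105) (nat_lit 5) (nat_lit 528) (nat_lit 440) (nat_lit 232)) (XT.lf (nat_lit 0) (nat_lit 37697208745) (nat_lit 228) (nat_lit 9096498977) (nat_lit 76) (nat_lit 16380017115) (nat_lit 102) (nat_lit 5) (nat_lit 105) (nat_lit 5) (nat_lit 103) (nat_lit 5) (nat_lit 529) (nat_lit 440) (nat_lit 231))) (XT.nd (nat_lit 78) (nat_lit 228) (nat_lit 0) (XT.lf (nat_lit 0) (nat_lit 30132235242)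 (nat_lit 152) (nat_lit 25980944020) (nat_lit 228) (nat_lit 8307591581) (nat_lit 100) (nat_lit 5) (nat_lit 102) (nat_lit 5) (nat_lit 103) (nat_lit 5) (nat_lit 530) (nat_lit 440) (nat_lit 230)) (XT.lf (nat_lit 0) (nat_lit 5024075256) (nat_lit 152) (nat_lit 4307811162) (nat_lit 228) (nat_lit 56366484327) (nat_lit 97) (nat_lit 5) (nat_lit 99) (nat_lit 5) (nat_lit 100) (nat_lit 5) (nat_lit 531) (nat_lit 440) (nat_lit 229)))) (XT.nd (nat_lit 156) (nat_lit 228) (nat_lit 0) (XT.nd (nat_lit 78) (nat_lit 152) (nat_lit 0) (XT.lf (nat_lit 0) (nat_lit 27853828363) (nat_lit 228) (nat_lit 21048583170) (nat_lit 76) (nat_lit 18093811950) (nat_lit 97) (nat_lit 5) (nat_lit 100) (nat_lit 5) (nat_lit 98) (nat_lit 5) (nat_lit 532) (nat_lit 440) (nat_lit 228)) (XT.lf (nat_lit 0) (nat_lit 20111066906) (nat_lit 152) (nat_lit 27053811430) (nat_lit 228) (nat_lit 21161130030) (nat_lit 95) (nat_lit 5) (nat_lit 97) (nat_lit 5) (nat_lit 98)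 (nat_lit 5) (nat_lit 533) (nat_lit 440) (nat_lit 227))) (XT.nd (nat_lit 78) (nat_lit 228) (nat_lit 0) (XT.lf (nat_lit 0) (nat_lit 62932405742) (nat_lit 152) (nat_lit 4332911241) (nat_lit 228) (nat_lit 2424068151) (nat_lit 95) (nat_lit 5) (nat_lit 97) (nat_lit 5) (nat_lit 98) (nat_lit 5) (nat_lit 534) (nat_lit 440) (nat_lit 226)) (XT.lf (nat_lit 0) (nat_lit 17082500820) (nat_lit 228) (nat_lit 34776646427) (nat_lit 76) (nat_lit 19213548917) (nat_lit 92) (nat_lit 5) (nat_lit 95) (nat_lit 5) (nat_lit 93) (nat_lit 5) (nat_lit 535) (nat_lit 440) (nat_lit 225)))))) (XT.nd (nat_lit 624) (nat_lit 456) (nat_lit 0) (XT.nd (nat_lit 312) (nat_lit 456) (nat_lit 0) (XT.nd (nat_lit 156) (nat_lit 152) (nat_lit 0) (XT.nd (nat_lit 78) (nat_lit 0) (nat_lit 0) (XT.lf (nat_lit 0) (nat_lit 8375072718) (nat_lit 152) (nat_lit 28940352243) (nat_lit 228) (nat_lit 35175665209) (nat_lit 90) (nat_lit 5) (nat_lit 92) (nat_lit 5) (nat_lit 93)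 (nat_lit 5) (nat_lit 536) (nat_lit 440) (nat_lit 224)) (XT.lf (nat_lit 0) (nat_lit 53529774312) (nat_lit 152) (nat_lit 4974331758) (nat_lit 228) (nat_lit 15437466897) (nat_lit 90) (nat_lit 5) (nat_lit 92) (nat_lit 5) (nat_lit 93) (nat_lit 5) (nat_lit 537) (nat_lit 440) (nat_lit 223))) (XT.nd (nat_lit 78) (nat_lit 0) (nat_lit 0) (XT.lf (nat_lit 0) (nat_lit 5228047750) (nat_lit 152) (nat_lit 50578533840) (nat_lit 76) (nat_lit 19614658264) (nat_lit 88) (nat_lit 5) (nat_lit 90) (nat_lit 5) (nat_lit 89) (nat_lit 5) (nat_lit 538) (nat_lit 440) (nat_lit 222)) (XT.lf (nat_lit 0) (nat_lit 26458308893) (nat_lit 152) (nat_lit 5274364726) (nat_lit 76) (nat_lit 45200386020) (nat_lit 88) (nat_lit 5) (nat_lit 90) (nat_lit 5) (nat_lit 89) (nat_lit 5) (nat_lit 539) (nat_lit 440) (nat_lit 221)))) (XT.nd (nat_lit 156) (nat_lit 228) (nat_lit 0) (XT.nd (nat_lit 78) (nat_lit 76) (nat_lit 0) (XT.lf (nat_lit 0) (nat_lit 42208311828) (nat_lit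 152) (nat_lit 6520614776) (nat_lit 228) (nat_lit 29749203995) (nat_lit 86) (nat_lit 5) (nat_lit 88) (nat_lit 5) (nat_lit 89) (nat_lit 5) (nat_lit 540) (nat_lit 440) (nat_lit 220)) (XT.lf (nat_lit 0) (nat_lit 11182102580) (nat_lit 76) (nat_lit 60831505607) (nat_lit 152) (nat_lit 8045567183) (nat_lit 85) (nat_lit 5) (nat_lit 86) (nat_lit 5) (nat_lit 87) (nat_lit 4) (nat_lit 541) (nat_lit 440) (nat_lit 219))) (XT.nd (nat_lit 78) (nat_lit 152) (nat_lit 0) (XT.lf (nat_lit 0) (nat_lit 14462123251) (nat_lit 152) (nat_lit 21085586552) (nat_lit 76) (nat_lit 46122850220) (nat_lit 84) (nat_lit 5) (nat_lit 86) (nat_lit 5) (nat_lit 85) (nat_lit 5) (nat_lit 542) (nat_lit 440) (nat_lit 218)) (XT.lf (nat_lit 0) (nat_lit 28614211137) (nat_lit 152) (nat_lit 9141976088) (nat_lit 228) (nat_lit 45563523734) (nat_lit 82) (nat_lit 5) (nat_lit 84) (nat_lit 5) (nat_lit 85) (nat_lit 5) (nat_lit 543) (nat_lit 440) (nat_lit 217))))) (XT.nd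 (nat_lit 312) (nat_lit 152) (nat_lit 0) (XT.nd (nat_lit 156) (nat_lit 152) (nat_lit 0) (XT.nd (nat_lit 78) (nat_lit 152) (nat_lit 0) (XT.lf (nat_lit 0) (nat_lit 62135468870) (nat_lit 228) (nat_lit 4954531747) (nat_lit 76) (nat_lit 17916743971) (nat_lit 82) (nat_lit 5) (nat_lit 85) (nat_lit 5) (nat_lit 83) (nat_lit 4) (nat_lit 544) (nat_lit 440) (nat_lit 216)) (XT.lf (nat_lit 0) (nat_lit 1038573103) (nat_lit 152) (nat_lit 39624549069) (nat_lit 76) (nat_lit 46064723674) (nat_lit 80) (nat_lit 5) (nat_lit 82) (nat_lit 5) (nat_lit 81) (nat_lit 5) (nat_lit 545) (nat_lit 440) (nat_lit 215))) (XT.nd (nat_lit 78) (nat_lit 0) (nat_lit 0) (XT.lf (nat_lit 0) (nat_lit 12335072992) (nat_lit 152) (nat_lit 13037919989) (nat_lit 228) (nat_lit 63115784780) (nat_lit 78) (nat_lit 5) (nat_lit 80) (nat_lit 5) (nat_lit 81) (nat_lit 5) (nat_lit 546) (nat_lit 440) (nat_lit 214)) (XT.lf (nat_lit 0) (nat_lit 50987598394) (nat_lit 228) (nat_lit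 23780970485) (nat_lit 76) (nat_lit 15517464199) (nat_lit 78) (nat_lit 5) (nat_lit 81) (nat_lit 5) (nat_lit 79) (nat_lit 4) (nat_lit 547) (nat_lit 440) (nat_lit 213)))) (XT.nd (nat_lit 54132) (nat_lit 0) (nat_lit 19000) (XT.nd (nat_lit 78) (nat_lit 76) (nat_lit 0) (XT.lf (nat_lit 0) (nat_lit 30627594913) (nat_lit 76) (nat_lit 47164481125) (nat_lit 152) (nat_lit 14332487027) (nat_lit 77) (nat_lit 5) (nat_lit 78) (nat_lit 5) (nat_lit 79) (nat_lit 4) (nat_lit 548) (nat_lit 440) (nat_lit 212)) (XT.lf (nat_lit 0) (nat_lit 11400782675) (nat_lit 152) (nat_lit 6970853434) (nat_lit 76) (nat_lit 75636116743) (nat_lit 76) (nat_lit 5) (nat_lit 78) (nat_lit 5) (nat_lit 77) (nat_lit 5) (nat_lit 549) (nat_lit 440) (nat_lit 211))) (XT.nd (nat_lit 78) (nat_lit 0) (nat_lit 0) (XT.lf (nat_lit 0) (nat_lit 3337440596) (nat_lit 0) (nat_lit 3337440596) (nat_lit 1140) (nat_lit 266211843) (nat_lit 326) (nat_lit 5) (nat_lit 326) (nat_lit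 3) (nat_lit 341) (nat_lit 3) (nat_lit 441) (nat_lit 441) (nat_lit 318)) (XT.lf (nat_lit 0) (nat_lit 13762022089) (nat_lit 0) (nat_lit 134041083) (nat_lit 1140) (nat_lit 183940763) (nat_lit 326) (nat_lit 5) (nat_lit 326) (nat_lit 3) (nat_lit 341) (nat_lit 3) (nat_lit 442) (nat_lit 441) (nat_lit 317))))))) (XT.nd (nat_lit 1170) (nat_lit 5548) (nat_lit 0) (XT.nd (nat_lit 546) (nat_lit 0) (nat_lit 228) (XT.nd (nat_lit 234) (nat_lit 0) (nat_lit 76) (XT.nd (nat_lit 78) (nat_lit 0) (nat_lit 0) (XT.lf (nat_lit 0) (nat_lit 288516761) (nat_lit 1216) (nat_lit 7442299204) (nat_lit 1292) (nat_lit 6549383117) (nat_lit 310) (nat_lit 5) (nat_lit 326) (nat_lit 5) (nat_lit 327) (nat_lit 5) (nat_lit 443) (nat_lit 441) (nat_lit 316)) (XT.nd (nat_lit 78) (nat_lit 0) (nat_lit 76) (XT.lf (nat_lit 0) (nat_lit 762771883) (nat_lit 1216) (nat_lit 281925736) (nat_lit 1292) (nat_lit 13441909428) (nat_lit 310) (nat_lit 5) (nat_lit 326) (nat_lit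 5) (nat_lit 327) (nat_lit 5) (nat_lit 444) (nat_lit 441) (nat_lit 315)) (XT.lf (nat_lit 0) (nat_lit 1364761839) (nat_lit 1216) (nat_lit 7527326170) (nat_lit 1292) (nat_lit 5803715216) (nat_lit 311) (nat_lit 5) (nat_lit 327) (nat_lit 5) (nat_lit 328) (nat_lit 5) (nat_lit 445) (nat_lit 441) (nat_lit 314)))) (XT.nd (nat_lit 156) (nat_lit 0) (nat_lit 76) (XT.nd (nat_lit 78) (nat_lit 0) (nat_lit 76) (XT.lf (nat_lit 0) (nat_lit 1985525240) (nat_lit 1216) (nat_lit 80952046) (nat_lit 1292) (nat_lit 12844777743) (nat_lit 311) (nat_lit 5) (nat_lit 327) (nat_lit 5) (nat_lit 328) (nat_lit 5) (nat_lit 446) (nat_lit 441) (nat_lit 313)) (XT.lf (nat_lit 0) (nat_lit 2735597158) (nat_lit 1216) (nat_lit 7447445874) (nat_lit 1292) (nat_lit 4946807909) (nat_lit 312) (nat_lit 5) (nat_lit 328) (nat_lit 5) (nat_lit 329) (nat_lit 5) (nat_lit 447) (nat_lit 441) (nat_lit 312))) (XT.nd (nat_lit 78) (nat_lit 0) (nat_lit 76) (XT.lf (nat_lit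 76) (nat_lit 303118545) (nat_lit 0) (nat_lit 3217439344) (nat_lit 1292) (nat_lit 11834076329) (nat_lit 313) (nat_lit 5) (nat_lit 312) (nat_lit 5) (nat_lit 329) (nat_lit 5) (nat_lit 448) (nat_lit 441) (nat_lit 311)) (XT.lf (nat_lit 0) (nat_lit 4431551189) (nat_lit 1216) (nat_lit 7191802898) (nat_lit 1292) (nat_lit 3959733451) (nat_lit 313) (nat_lit 5) (nat_lit 329) (nat_lit 5) (nat_lit 330) (nat_lit 5) (nat_lit 449) (nat_lit 441) (nat_lit 310))))) (XT.nd (nat_lit 312) (nat_lit 0) (nat_lit 152) (XT.nd (nat_lit 156) (nat_lit 0) (nat_lit 76) (XT.nd (nat_lit 78) (nat_lit 0) (nat_lit 76) (XT.lf (nat_lit 76) (nat_lit 881294795) (nat_lit 0) (nat_lit 4517738100) (nat_lit 1292) (nat_lit 10418487829) (nat_lit 314) (nat_lit 5) (nat_lit 313) (nat_lit 5) (nat_lit 330) (nat_lit 5) (nat_lit 450) (nat_lit 441) (nat_lit 309)) (XT.lf (nat_lit 0) (nat_lit 6484920557) (nat_lit 1216) (nat_lit 6748473910) (nat_lit 1292) (nat_lit 2822911991)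 (nat_lit 314) (nat_lit 5) (nat_lit 330) (nat_lit 5) (nat_lit 331) (nat_lit 5) (nat_lit 451) (nat_lit 441) (nat_lit 308))) (XT.nd (nat_lit 78) (nat_lit 0) (nat_lit 76) (XT.lf (nat_lit 76) (nat_lit 1664870527) (nat_lit 0) (nat_lit 5988679206) (nat_lit 1292) (nat_lit 8647202052) (nat_lit 315) (nat_lit 5) (nat_lit 314) (nat_lit 5) (nat_lit 331) (nat_lit 5) (nat_lit 452) (nat_lit 441) (nat_lit 307)) (XT.lf (nat_lit 0) (nat_lit 8929911653) (nat_lit 1216) (nat_lit 6104428767) (nat_lit 1292) (nat_lit 1516010773) (nat_lit 315) (nat_lit 5) (nat_lit 331) (nat_lit 5) (nat_lit 332) (nat_lit 5) (nat_lit 453) (nat_lit 441) (nat_lit 306)))) (XT.nd (nat_lit 156) (nat_lit 0) (nat_lit 76) (XT.nd (nat_lit 78) (nat_lit 0) (nat_lit 76) (XT.lf (nat_lit 76) (nat_lit 2667911321) (nat_lit 0) (nat_lit 7651582646) (nat_lit 1292) (nat_lit 6485697642) (nat_lit 316) (nat_lit 5) (nat_lit 315) (nat_lit 5) (nat_lit 332) (nat_lit 5) (nat_lit 454)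 (nat_lit 441) (nat_lit 305)) (XT.lf (nat_lit 0) (nat_lit 11802788613) (nat_lit 1216) (nat_lit 5245487113) (nat_lit 1292) (nat_lit 17841651) (nat_lit 316) (nat_lit 5) (nat_lit 332) (nat_lit 5) (nat_lit 333) (nat_lit 5) (nat_lit 455) (nat_lit 441) (nat_lit 304))) (XT.nd (nat_lit 78) (nat_lit 0) (nat_lit 0) (XT.lf (nat_lit 76) (nat_lit 3905690129) (nat_lit 0) (nat_lit 9528705605) (nat_lit 1292) (nat_lit 3897361633) (nat_lit 317) (nat_lit 5) (nat_lit 316) (nat_lit 5) (nat_lit 333) (nat_lit 5) (nat_lit 456) (nat_lit 441) (nat_lit 303)) (XT.lf (nat_lit 76) (nat_lit 13431181186) (nat_lit 0) (nat_lit 1727452405) (nat_lit 1292) (nat_lit 2445423324) (nat_lit 317) (nat_lit 5) (nat_lit 316) (nat_lit 5) (nat_lit 333) (nat_lit 5) (nat_lit 457) (nat_lit 441) (nat_lit 302)))))) (XT.nd (nat_lit 624) (nat_lit 2204) (nat_lit 0) (XT.nd (nat_lit 312) (nat_lit 1748) (nat_lit 0) (XT.nd (nat_lit 156) (nat_lit 836) (nat_lit 0) (XT.nd (nat_lit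 78) (nat_lit 76) (nat_lit 0) (XT.lf (nat_lit 0) (nat_lit 5394738709) (nat_lit 1216) (nat_lit 11643350429) (nat_lit 1292) (nat_lit 843332406) (nat_lit 301) (nat_lit 5) (nat_lit 317) (nat_lit 5) (nat_lit 318) (nat_lit 5) (nat_lit 458) (nat_lit 441) (nat_lit 301)) (XT.lf (nat_lit 0) (nat_lit 841833855) (nat_lit 1292) (nat_lit 2864108056) (nat_lit 76) (nat_lit 14459410596) (nat_lit 300) (nat_lit 5) (nat_lit 317) (nat_lit 5) (nat_lit 301) (nat_lit 5) (nat_lit 459) (nat_lit 441) (nat_lit 300))) (XT.nd (nat_lit 78) (nat_lit 0) (nat_lit 0) (XT.lf (nat_lit 0) (nat_lit 2664633629) (nat_lit 912) (nat_lit 11328434473) (nat_lit 76) (nat_lit 4461362683) (nat_lit 289) (nat_lit 5) (nat_lit 301) (nat_lit 5) (nat_lit 290) (nat_lit 5) (nat_lit 460) (nat_lit 441) (nat_lit 299)) (XT.lf (nat_lit 0) (nat_lit 4599562339) (nat_lit 912) (nat_lit 1321644772) (nat_lit 76) (nat_lit 12829251671) (nat_lit 289) (nat_lit 5) (nat_lit 301) (nat_lit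 5) (nat_lit 290) (nat_lit 5) (nat_lit 461) (nat_lit 441) (nat_lit 298)))) (XT.nd (nat_lit 156) (nat_lit 532) (nat_lit 0) (XT.nd (nat_lit 78) (nat_lit 608) (nat_lit 0) (XT.lf (nat_lit 0) (nat_lit 6696224278) (nat_lit 684) (nat_lit 9920467775) (nat_lit 76) (nat_lit 2435565703) (nat_lit 281) (nat_lit 5) (nat_lit 290) (nat_lit 5) (nat_lit 282) (nat_lit 5) (nat_lit 462) (nat_lit 441) (nat_lit 297)) (XT.lf (nat_lit 0) (nat_lit 506526140) (nat_lit 608) (nat_lit 8418194469) (nat_lit 684) (nat_lit 10436322733) (nat_lit 273) (nat_lit 5) (nat_lit 281) (nat_lit 5) (nat_lit 282) (nat_lit 5) (nat_lit 463) (nat_lit 441) (nat_lit 296))) (XT.nd (nat_lit 78) (nat_lit 532) (nat_lit 0) (XT.lf (nat_lit 0) (nat_lit 11313616079) (nat_lit 684) (nat_lit 8235613489) (nat_lit 76) (nat_lit 127057259) (nat_lit 273) (nat_lit 5) (nat_lit 282) (nat_lit 5) (nat_lit 274) (nat_lit 5) (nat_lit 464) (nat_lit 441) (nat_lit 295)) (XT.lf (nat_lit 0)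 (nat_lit 2662728706) (nat_lit 532) (nat_lit 11212746091) (nat_lit 608) (nat_lit 6122474567) (nat_lit 266) (nat_lit 5) (nat_lit 273) (nat_lit 5) (nat_lit 274) (nat_lit 5) (nat_lit 465) (nat_lit 441) (nat_lit 294))))) (XT.nd (nat_lit 312) (nat_lit 988) (nat_lit 0) (XT.nd (nat_lit 156) (nat_lit 608) (nat_lit 0) (XT.nd (nat_lit 78) (nat_lit 608) (nat_lit 0) (XT.lf (nat_lit 0) (nat_lit 14049179452) (nat_lit 532) (nat_lit 2540674606) (nat_lit 608) (nat_lit 3737138397) (nat_lit 266) (nat_lit 5) (nat_lit 273) (nat_lit 5) (nat_lit 274) (nat_lit 5) (nat_lit 466) (nat_lit 441) (nat_lit 293)) (XT.lf (nat_lit 0) (nat_lit 5142569380) (nat_lit 608) (nat_lit 14346686519) (nat_lit 684) (nat_lit 1173543806) (nat_lit 258) (nat_lit 5) (nat_lit 266) (nat_lit 5) (nat_lit 267) (nat_lit 5) (nat_lit 467) (nat_lit 441) (nat_lit 292))) (XT.nd (nat_lit 78) (nat_lit 532) (nat_lit 0) (XT.lf (nat_lit 0) (nat_lit 1520295444) (nat_lit 684) (nat_lit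 4020138314) (nat_lit 76) (nat_lit 15465366068) (nat_lit 257) (nat_lit 5) (nat_lit 266) (nat_lit 5) (nat_lit 258) (nat_lit 5) (nat_lit 468) (nat_lit 441) (nat_lit 291)) (XT.lf (nat_lit 0) (nat_lit 4375687267) (nat_lit 608) (nat_lit 13430270089) (nat_lit 76) (nat_lit 3549654836) (nat_lit 250) (nat_lit 5) (nat_lit 258) (nat_lit 5) (nat_lit 251) (nat_lit 5) (nat_lit 469) (nat_lit 441) (nat_lit 290)))) (XT.nd (nat_lit 156) (nat_lit 456) (nat_lit 0) (XT.nd (nat_lit 78) (nat_lit 532) (nat_lit 0) (XT.lf (nat_lit 0) (nat_lit 7405717438) (nat_lit 608) (nat_lit 1465992700) (nat_lit 76) (nat_lit 12841540028) (nat_lit 250) (nat_lit 5) (nat_lit 258) (nat_lit 5) (nat_lit 251) (nat_lit 5) (nat_lit 470) (nat_lit 441) (nat_lit 289)) (XT.lf (nat_lit 0) (nat_lit 10630566543) (nat_lit 608) (nat_lit 11017112817) (nat_lit 76) (nat_lit 430820898) (nat_lit 243) (nat_lit 5) (nat_lit 251) (nat_lit 5) (nat_lit 244) (nat_lit 5) (nat_lit 471)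 (nat_lit 441) (nat_lit 288))) (XT.nd (nat_lit 78) (nat_lit 0) (nat_lit 0) (XT.lf (nat_lit 0) (nat_lit 1473622602) (nat_lit 456) (nat_lit 12588932899) (nat_lit 532) (nat_lit 8388841025) (nat_lit 237) (nat_lit 5) (nat_lit 243) (nat_lit 5) (nat_lit 244) (nat_lit 5) (nat_lit 472) (nat_lit 441) (nat_lit 287)) (XT.lf (nat_lit 0) (nat_lit 14557469408) (nat_lit 456) (nat_lit 3144845483) (nat_lit 532) (nat_lit 5130020959) (nat_lit 237) (nat_lit 5) (nat_lit 243) (nat_lit 5) (nat_lit 244) (nat_lit 5) (nat_lit 473) (nat_lit 441) (nat_lit 286))))))))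
noncomputable def xc183 : XT := (XT.nd (nat_lit 2418) (nat_lit 4332) (nat_lit 0) (XT.nd (nat_lit 1170) (nat_lit 2812) (nat_lit 0) (XT.nd (nat_lit 546) (nat_lit 2052) (nat_lit 0) (XT.nd (nat_lit 234) (nat_lit 836) (nat_lit 0) (XT.nd (nat_lit 78) (nat_lit 532) (nat_lit 0) (XT.lf (nat_lit 0) (nat_lit 4832744570) (nat_lit 456) (nat_lit 16721991112) (nat_lit 532) (nat_lit 1666864088) (nat_lit 231) (nat_lit 5) (nat_lit 237) (nat_lit 5) (nat_lit 238) (nat_lit 5) (nat_lit 474) (nat_lit 441) (nat_lit 285)) (XT.nd (nat_lit 78) (nat_lit 456) (nat_lit 0) (XT.lf (nat_lit 0) (nat_lit 1972420502) (nat_lit 532) (nat_lit 5174518139) (nat_lit 76) (nat_lit 16471776067) (nat_lit 230) (nat_lit 5) (nat_lit 237) (nat_lit 5) (nat_lit 231) (nat_lit 5) (nat_lit 475) (nat_lit 441) (nat_lit 284)) (XT.lf (nat_lit 0) (nat_lit 5790895962) (nat_lit 532) (nat_lit 15472100815) (nat_lit 76) (nat_lit 2761146204) (nat_lit 224) (nat_lit 5) (nat_lit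 231) (nat_lit 5) (nat_lit 225) (nat_lit 5) (nat_lit 476) (nat_lit 441) (nat_lit 283)))) (XT.nd (nat_lit 156) (nat_lit 380) (nat_lit 0) (XT.nd (nat_lit 78) (nat_lit 456) (nat_lit 0) (XT.lf (nat_lit 0) (nat_lit 9841521058) (nat_lit 532) (nat_lit 1722315225) (nat_lit 76) (nat_lit 12874370381) (nat_lit 224) (nat_lit 5) (nat_lit 231) (nat_lit 5) (nat_lit 225) (nat_lit 5) (nat_lit 477) (nat_lit 441) (nat_lit 282)) (XT.lf (nat_lit 0) (nat_lit 12680274173) (nat_lit 456) (nat_lit 1449517951) (nat_lit 532) (nat_lit 10731416728) (nat_lit 218) (nat_lit 5) (nat_lit 224) (nat_lit 5) (nat_lit 225) (nat_lit 5) (nat_lit 478) (nat_lit 441) (nat_lit 281))) (XT.nd (nat_lit 78) (nat_lit 0) (nat_lit 0) (XT.lf (nat_lit 0) (nat_lit 2203266439) (nat_lit 380) (nat_lit 16462719628) (nat_lit 456) (nat_lit 6627337194) (nat_lit 213) (nat_lit 5) (nat_lit 218) (nat_lit 5) (nat_lit 219) (nat_lit 5) (nat_lit 479) (nat_lit 441) (nat_lit 280)) (XT.lf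 (nat_lit 0) (nat_lit 17246909658) (nat_lit 380) (nat_lit 6222990639) (nat_lit 456) (nat_lit 2264552159) (nat_lit 213) (nat_lit 5) (nat_lit 218) (nat_lit 5) (nat_lit 219) (nat_lit 5) (nat_lit 480) (nat_lit 441) (nat_lit 279))))) (XT.nd (nat_lit 312) (nat_lit 760) (nat_lit 0) (XT.nd (nat_lit 156) (nat_lit 760) (nat_lit 0) (XT.nd (nat_lit 78) (nat_lit 0) (nat_lit 0) (XT.lf (nat_lit 0) (nat_lit 2286507842) (nat_lit 532) (nat_lit 19574387056) (nat_lit 76) (nat_lit 4324251478) (nat_lit 206) (nat_lit 5) (nat_lit 213) (nat_lit 5) (nat_lit 207) (nat_lit 5) (nat_lit 481) (nat_lit 441) (nat_lit 278)) (XT.lf (nat_lit 0) (nat_lit 7071359715) (nat_lit 532) (nat_lit 4402799108) (nat_lit 76) (nat_lit 15170246746) (nat_lit 206) (nat_lit 5) (nat_lit 213) (nat_lit 5) (nat_lit 207) (nat_lit 5) (nat_lit 482) (nat_lit 441) (nat_lit 277))) (XT.nd (nat_lit 78) (nat_lit 380) (nat_lit 0) (XT.lf (nat_lit 0) (nat_lit 11440262287) (nat_lit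 380) (nat_lit 664228209) (nat_lit 456) (nat_lit 15009810384) (nat_lit 201) (nat_lit 5) (nat_lit 206) (nat_lit 5) (nat_lit 207) (nat_lit 5) (nat_lit 483) (nat_lit 441) (nat_lit 276)) (XT.lf (nat_lit 0) (nat_lit 146702101) (nat_lit 380) (nat_lit 17283700146) (nat_lit 456) (nat_lit 10163637527) (nat_lit 196) (nat_lit 5) (nat_lit 201) (nat_lit 5) (nat_lit 202) (nat_lit 5) (nat_lit 484) (nat_lit 441) (nat_lit 275)))) (XT.nd (nat_lit 156) (nat_lit 380) (nat_lit 0) (XT.nd (nat_lit 78) (nat_lit 380) (nat_lit 0) (XT.lf (nat_lit 0) (nat_lit 16749742857) (nat_lit 380) (nat_lit 6326054570) (nat_lit 456) (nat_lit 5007582549) (nat_lit 196) (nat_lit 5) (nat_lit 201) (nat_lit 5) (nat_lit 202) (nat_lit 5) (nat_lit 485) (nat_lit 441) (nat_lit 274)) (XT.lf (nat_lit 0) (nat_lit 391964470) (nat_lit 380) (nat_lit 23275815463) (nat_lit 76) (nat_lit 4916691552) (nat_lit 191) (nat_lit 5) (nat_lit 196) (nat_lit 5) (nat_lit 192) (nat_lit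 5) (nat_lit 486) (nat_lit 441) (nat_lit 273))) (XT.nd (nat_lit 78) (nat_lit 380) (nat_lit 0) (XT.lf (nat_lit 0) (nat_lit 6026143736) (nat_lit 380) (nat_lit 6534841354) (nat_lit 76) (nat_lit 16532924747) (nat_lit 191) (nat_lit 5) (nat_lit 196) (nat_lit 5) (nat_lit 192) (nat_lit 5) (nat_lit 487) (nat_lit 441) (nat_lit 272)) (XT.lf (nat_lit 0) (nat_lit 10914668734) (nat_lit 380) (nat_lit 1014819890) (nat_lit 456) (nat_lit 17686138795) (nat_lit 186) (nat_lit 5) (nat_lit 191) (nat_lit 5) (nat_lit 192) (nat_lit 5) (nat_lit 488) (nat_lit 441) (nat_lit 271)))))) (XT.nd (nat_lit 624) (nat_lit 1140) (nat_lit 0) (XT.nd (nat_lit 312) (nat_lit 988) (nat_lit 0) (XT.nd (nat_lit 156) (nat_lit 380) (nat_lit 0) (XT.nd (nat_lit 78) (nat_lit 304) (nat_lit 0) (XT.lf (nat_lit 0) (nat_lit 18176418728) (nat_lit 456) (nat_lit 1241346922) (nat_lit 76) (nat_lit 10730236614) (nat_lit 186) (nat_lit 5) (nat_lit 192) (nat_lit 5) (nat_lit 187)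 (nat_lit 5) (nat_lit 489) (nat_lit 441) (nat_lit 270)) (XT.lf (nat_lit 0) (nat_lit 17058335944) (nat_lit 304) (nat_lit 7721860201) (nat_lit 380) (nat_lit 5911069295) (nat_lit 182) (nat_lit 5) (nat_lit 186) (nat_lit 5) (nat_lit 187) (nat_lit 5) (nat_lit 490) (nat_lit 441) (nat_lit 269))) (XT.nd (nat_lit 78) (nat_lit 0) (nat_lit 0) (XT.lf (nat_lit 0) (nat_lit 420868503) (nat_lit 380) (nat_lit 26526163432) (nat_lit 76) (nat_lit 4300817140) (nat_lit 177) (nat_lit 5) (nat_lit 182) (nat_lit 5) (nat_lit 178) (nat_lit 5) (nat_lit 491) (nat_lit 441) (nat_lit 268)) (XT.lf (nat_lit 0) (nat_lit 7034934466) (nat_lit 380) (nat_lit 8053558906) (nat_lit 76) (nat_lit 16724552032) (nat_lit 177) (nat_lit 5) (nat_lit 182) (nat_lit 5) (nat_lit 178) (nat_lit 5) (nat_lit 492) (nat_lit 441) (nat_lit 267)))) (XT.nd (nat_lit 156) (nat_lit 684) (nat_lit 0) (XT.nd (nat_lit 78) (nat_lit 0) (nat_lit 0) (XT.lf (nat_lit 0) (nat_lit 11185060233)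 (nat_lit 304) (nat_lit 2765504790) (nat_lit 380) (nat_lit 18441538561) (nat_lit 173) (nat_lit 5) (nat_lit 177) (nat_lit 5) (nat_lit 178) (nat_lit 5) (nat_lit 493) (nat_lit 441) (nat_lit 266)) (XT.lf (nat_lit 0) (nat_lit 21246892438) (nat_lit 380) (nat_lit 1922868126) (nat_lit 76) (nat_lit 9813576342) (nat_lit 173) (nat_lit 5) (nat_lit 178) (nat_lit 5) (nat_lit 174) (nat_lit 5) (nat_lit 494) (nat_lit 441) (nat_lit 265))) (XT.nd (nat_lit 78) (nat_lit 380) (nat_lit 0) (XT.lf (nat_lit 0) (nat_lit 18262536347) (nat_lit 304) (nat_lit 10698302829) (nat_lit 380) (nat_lit 4625506393) (nat_lit 169) (nat_lit 5) (nat_lit 173) (nat_lit 5) (nat_lit 174) (nat_lit 5) (nat_lit 495) (nat_lit 441) (nat_lit 264)) (XT.lf (nat_lit 0) (nat_lit 2730653112) (nat_lit 380) (nat_lit 29276103353) (nat_lit 76) (nat_lit 2197373304) (nat_lit 164) (nat_lit 5) (nat_lit 169) (nat_lit 5) (nat_lit 165) (nat_lit 5) (nat_lit 496) (nat_lit 441) (nat_lit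 263))))) (XT.nd (nat_lit 312) (nat_lit 608) (nat_lit 0) (XT.nd (nat_lit 156) (nat_lit 228) (nat_lit 0) (XT.nd (nat_lit 78) (nat_lit 304) (nat_lit 0) (XT.lf (nat_lit 0) (nat_lit 10472585951) (nat_lit 380) (nat_lit 8893864089) (nat_lit 76) (nat_lit 15464882049) (nat_lit 164) (nat_lit 5) (nat_lit 169) (nat_lit 5) (nat_lit 165) (nat_lit 5) (nat_lit 497) (nat_lit 441) (nat_lit 262)) (XT.lf (nat_lit 0) (nat_lit 12334369124) (nat_lit 304) (nat_lit 6226954072) (nat_lit 380) (nat_lit 16912591093) (nat_lit 160) (nat_lit 5) (nat_lit 164) (nat_lit 5) (nat_lit 165) (nat_lit 5) (nat_lit 498) (nat_lit 441) (nat_lit 261))) (XT.nd (nat_lit 78) (nat_lit 228) (nat_lit 0) (XT.lf (nat_lit 0) (nat_lit 27049677854) (nat_lit 380) (nat_lit 1828639985) (nat_lit 76) (nat_lit 7252747654) (nat_lit 160) (nat_lit 5) (nat_lit 165) (nat_lit 5) (nat_lit 161) (nat_lit 5) (nat_lit 499) (nat_lit 441) (nat_lit 260)) (XT.lf (nat_lit 0) (nat_lit 20453033007)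 (nat_lit 228) (nat_lit 15594044940) (nat_lit 304) (nat_lit 753221631) (nat_lit 157) (nat_lit 5) (nat_lit 160) (nat_lit 5) (nat_lit 161) (nat_lit 5) (nat_lit 500) (nat_lit 441) (nat_lit 259)))) (XT.nd (nat_lit 156) (nat_lit 228) (nat_lit 0) (XT.nd (nat_lit 78) (nat_lit 0) (nat_lit 0) (XT.lf (nat_lit 0) (nat_lit 5986976353) (nat_lit 304) (nat_lit 1757474275) (nat_lit 380) (nat_lit 29740733204) (nat_lit 152) (nat_lit 5) (nat_lit 156) (nat_lit 5) (nat_lit 157) (nat_lit 5) (nat_lit 501) (nat_lit 441) (nat_lit 258)) (XT.lf (nat_lit 0) (nat_lit 16764911364) (nat_lit 380) (nat_lit 8994576957) (nat_lit 76) (nat_lit 12422412820) (nat_lit 152) (nat_lit 5) (nat_lit 157) (nat_lit 5) (nat_lit 153) (nat_lit 5) (nat_lit 502) (nat_lit 441) (nat_lit 257))) (XT.nd (nat_lit 78) (nat_lit 0) (nat_lit 0) (XT.lf (nat_lit 0) (nat_lit 14442697368) (nat_lit 228) (nat_lit 11765818159) (nat_lit 304) (nat_lit 12686428721) (nat_lit 149) (nat_lit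 5) (nat_lit 152) (nat_lit 5) (nat_lit 153) (nat_lit 5) (nat_lit 503) (nat_lit 441) (nat_lit 256)) (XT.lf (nat_lit 0) (nat_lit 36048933235) (nat_lit 304) (nat_lit 891458474) (nat_lit 76) (nat_lit 2685581941) (nat_lit 149) (nat_lit 5) (nat_lit 153) (nat_lit 5) (nat_lit 150) (nat_lit 5) (nat_lit 504) (nat_lit 441) (nat_lit 255))))))) (XT.nd (nat_lit 1248) (nat_lit 1976) (nat_lit 0) (XT.nd (nat_lit 624) (nat_lit 1064) (nat_lit 0) (XT.nd (nat_lit 312) (nat_lit 532) (nat_lit 0) (XT.nd (nat_lit 156) (nat_lit 228) (nat_lit 0) (XT.nd (nat_lit 78) (nat_lit 228) (nat_lit 0) (XT.lf (nat_lit 0) (nat_lit 6036623263) (nat_lit 304) (nat_lit 16711182548) (nat_lit 76) (nat_lit 17619125587) (nat_lit 145) (nat_lit 5) (nat_lit 149) (nat_lit 5) (nat_lit 146) (nat_lit 5) (nat_lit 505) (nat_lit 441) (nat_lit 254)) (XT.lf (nat_lit 0) (nat_lit 7941494146) (nat_lit 228) (nat_lit 8007186040) (nat_lit 304) (nat_lit 25177919005) (nat_lit 142)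 (nat_lit 5) (nat_lit 145) (nat_lit 5) (nat_lit 146) (nat_lit 5) (nat_lit 506) (nat_lit 441) (nat_lit 253))) (XT.nd (nat_lit 78) (nat_lit 228) (nat_lit 0) (XT.lf (nat_lit 0) (nat_lit 26393972578) (nat_lit 304) (nat_lit 8304121787) (nat_lit 76) (nat_lit 7203886586) (nat_lit 142) (nat_lit 5) (nat_lit 146) (nat_lit 5) (nat_lit 143) (nat_lit 5) (nat_lit 507) (nat_lit 441) (nat_lit 252)) (XT.lf (nat_lit 0) (nat_lit 17581464626) (nat_lit 228) (nat_lit 19816020647) (nat_lit 304) (nat_lit 5295793187) (nat_lit 139) (nat_lit 5) (nat_lit 142) (nat_lit 5) (nat_lit 143) (nat_lit 5) (nat_lit 508) (nat_lit 441) (nat_lit 251)))) (XT.nd (nat_lit 156) (nat_lit 228) (nat_lit 0) (XT.nd (nat_lit 78) (nat_lit 0) (nat_lit 0) (XT.lf (nat_lit 0) (nat_lit 868317058) (nat_lit 228) (nat_lit 4342179602) (nat_lit 304) (nat_lit 38293623520) (nat_lit 135) (nat_lit 5) (nat_lit 138) (nat_lit 5) (nat_lit 139) (nat_lit 5) (nat_lit 509) (nat_lit 441)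 (nat_lit 250)) (XT.lf (nat_lit 0) (nat_lit 16289707954) (nat_lit 304) (nat_lit 16361133474) (nat_lit 76) (nat_lit 11675947657) (nat_lit 135) (nat_lit 5) (nat_lit 139) (nat_lit 5) (nat_lit 136) (nat_lit 5) (nat_lit 510) (nat_lit 441) (nat_lit 249))) (XT.nd (nat_lit 78) (nat_lit 0) (nat_lit 0) (XT.lf (nat_lit 0) (nat_lit 10865308389) (nat_lit 228) (nat_lit 16980137157) (nat_lit 304) (nat_lit 17324368137) (nat_lit 132) (nat_lit 5) (nat_lit 135) (nat_lit 5) (nat_lit 136) (nat_lit 5) (nat_lit 511) (nat_lit 441) (nat_lit 248)) (XT.lf (nat_lit 0) (nat_lit 39238487302) (nat_lit 228) (nat_lit 671340805) (nat_lit 304) (nat_lit 6123441850) (nat_lit 132) (nat_lit 5) (nat_lit 135) (nat_lit 5) (nat_lit 136) (nat_lit 5) (nat_lit 512) (nat_lit 441) (nat_lit 247))))) (XT.nd (nat_lit 312) (nat_lit 456) (nat_lit 0) (XT.nd (nat_lit 156) (nat_lit 152) (nat_lit 0) (XT.nd (nat_lit 78) (nat_lit 228) (nat_lit 0) (XT.lf (nat_lit 0) (nat_lit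 5672911443) (nat_lit 228) (nat_lit 25162049203) (nat_lit 76) (nat_lit 16075157158) (nat_lit 129) (nat_lit 5) (nat_lit 132) (nat_lit 5) (nat_lit 130) (nat_lit 5) (nat_lit 513) (nat_lit 441) (nat_lit 246)) (XT.lf (nat_lit 0) (nat_lit 3469660962) (nat_lit 228) (nat_lit 14336553608) (nat_lit 304) (nat_lit 30002053754) (nat_lit 126) (nat_lit 5) (nat_lit 129) (nat_lit 5) (nat_lit 130) (nat_lit 5) (nat_lit 514) (nat_lit 441) (nat_lit 245))) (XT.nd (nat_lit 78) (nat_lit 152) (nat_lit 0) (XT.lf (nat_lit 0) (nat_lit 30582520034) (nat_lit 304) (nat_lit 15283064690) (nat_lit 76) (nat_lit 2859408646) (nat_lit 126) (nat_lit 5) (nat_lit 130) (nat_lit 5) (nat_lit 127) (nat_lit 5) (nat_lit 515) (nat_lit 441) (nat_lit 244)) (XT.lf (nat_lit 0) (nat_lit 14785484036) (nat_lit 152) (nat_lit 29237656564) (nat_lit 228) (nat_lit 5637648895) (nat_lit 124) (nat_lit 5) (nat_lit 126) (nat_lit 5) (nat_lit 127) (nat_lit 5) (nat_lit 516) (nat_lit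 441) (nat_lit 243)))) (XT.nd (nat_lit 156) (nat_lit 152) (nat_lit 0) (XT.nd (nat_lit 78) (nat_lit 228) (nat_lit 0) (XT.lf (nat_lit 0) (nat_lit 7253815333) (nat_lit 228) (nat_lit 4627039659) (nat_lit 76) (nat_lit 38737131517) (nat_lit 123) (nat_lit 5) (nat_lit 126) (nat_lit 5) (nat_lit 124) (nat_lit 5) (nat_lit 517) (nat_lit 441) (nat_lit 242)) (XT.lf (nat_lit 0) (nat_lit 20735995298) (nat_lit 304) (nat_lit 24660746129) (nat_lit 76) (nat_lit 6195965067) (nat_lit 120) (nat_lit 5) (nat_lit 124) (nat_lit 5) (nat_lit 121) (nat_lit 5) (nat_lit 518) (nat_lit 441) (nat_lit 241))) (XT.nd (nat_lit 78) (nat_lit 0) (nat_lit 0) (XT.lf (nat_lit 0) (nat_lit 6949727248) (nat_lit 152) (nat_lit 27901604649) (nat_lit 228) (nat_lit 17738475536) (nat_lit 118) (nat_lit 5) (nat_lit 120) (nat_lit 5) (nat_lit 121) (nat_lit 5) (nat_lit 519) (nat_lit 441) (nat_lit 240)) (XT.lf (nat_lit 0) (nat_lit 40008980072) (nat_lit 152) (nat_lit 9627277858)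 (nat_lit 228) (nat_lit 3973179682) (nat_lit 118) (nat_lit 5) (nat_lit 120) (nat_lit 5) (nat_lit 121) (nat_lit 5) (nat_lit 520) (nat_lit 441) (nat_lit 239)))))) (XT.nd (nat_lit 624) (nat_lit 912) (nat_lit 0) (XT.nd (nat_lit 312) (nat_lit 456) (nat_lit 0) (XT.nd (nat_lit 156) (nat_lit 304) (nat_lit 0) (XT.nd (nat_lit 78) (nat_lit 0) (nat_lit 0) (XT.lf (nat_lit 0) (nat_lit 10283501612) (nat_lit 304) (nat_lit 35060992921) (nat_lit 76) (nat_lit 9303892397) (nat_lit 114) (nat_lit 5) (nat_lit 118) (nat_lit 5) (nat_lit 115) (nat_lit 5) (nat_lit 521) (nat_lit 441) (nat_lit 238)) (XT.lf (nat_lit 0) (nat_lit 25119219395) (nat_lit 304) (nat_lit 1805705641) (nat_lit 76) (nat_lit 28785463830) (nat_lit 114) (nat_lit 5) (nat_lit 118) (nat_lit 5) (nat_lit 115) (nat_lit 5) (nat_lit 522) (nat_lit 441) (nat_lit 237))) (XT.nd (nat_lit 78) (nat_lit 152) (nat_lit 0) (XT.lf (nat_lit 0) (nat_lit 33088072360) (nat_lit 152) (nat_lit 7627257115)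 (nat_lit 228) (nat_lit 16079461844) (nat_lit 112) (nat_lit 5) (nat_lit 114) (nat_lit 5) (nat_lit 115) (nat_lit 5) (nat_lit 523) (nat_lit 441) (nat_lit 236)) (XT.lf (nat_lit 0) (nat_lit 11251274987) (nat_lit 152) (nat_lit 45769636605) (nat_lit 228) (nat_lit 883566668) (nat_lit 110) (nat_lit 5) (nat_lit 112) (nat_lit 5) (nat_lit 113) (nat_lit 5) (nat_lit 524) (nat_lit 441) (nat_lit 235)))) (XT.nd (nat_lit 156) (nat_lit 228) (nat_lit 0) (XT.nd (nat_lit 78) (nat_lit 152) (nat_lit 0) (XT.lf (nat_lit 0) (nat_lit 14794581836) (nat_lit 228) (nat_lit 11521005445) (nat_lit 76) (nat_lit 32718173053) (nat_lit 109) (nat_lit 5) (nat_lit 112) (nat_lit 5) (nat_lit 110) (nat_lit 5) (nat_lit 525) (nat_lit 441) (nat_lit 234)) (XT.lf (nat_lit 0) (nat_lit 25142312657) (nat_lit 152) (nat_lit 6022044250) (nat_lit 228) (nat_lit 29025130360) (nat_lit 107) (nat_lit 5) (nat_lit 109) (nat_lit 5) (nat_lit 110) (nat_lit 5) (nat_lit 526) (nat_lit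 441) (nat_lit 233))) (XT.nd (nat_lit 78) (nat_lit 76) (nat_lit 0) (XT.lf (nat_lit 0) (nat_lit 1648555655) (nat_lit 152) (nat_lit 46650416479) (nat_lit 228) (nat_lit 13072701538) (nat_lit 105) (nat_lit 5) (nat_lit 107) (nat_lit 5) (nat_lit 108) (nat_lit 5) (nat_lit 527) (nat_lit 441) (nat_lit 232)) (XT.lf (nat_lit 0) (nat_lit 3707179356) (nat_lit 228) (nat_lit 22515261039) (nat_lit 76) (nat_lit 36353484525) (nat_lit 104) (nat_lit 5) (nat_lit 107) (nat_lit 5) (nat_lit 105) (nat_lit 5) (nat_lit 528) (nat_lit 441) (nat_lit 231))))) (XT.nd (nat_lit 312) (nat_lit 380) (nat_lit 0) (XT.nd (nat_lit 156) (nat_lit 380) (nat_lit 0) (XT.nd (nat_lit 78) (nat_lit 0) (nat_lit 0) (XT.lf (nat_lit 0) (nat_lit 15986763264) (nat_lit 152) (nat_lit 4892071796) (nat_lit 228) (nat_lit 42929051927) (nat_lit 102) (nat_lit 5) (nat_lit 104) (nat_lit 5) (nat_lit 105) (nat_lit 5) (nat_lit 529) (nat_lit 441) (nat_lit 230)) (XT.lf (nat_lit 0)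 (nat_lit 38956880820) (nat_lit 228) (nat_lit 9135621335) (nat_lit 76) (nat_lit 16972568612) (nat_lit 102) (nat_lit 5) (nat_lit 105) (nat_lit 5) (nat_lit 103) (nat_lit 5) (nat_lit 530) (nat_lit 441) (nat_lit 229))) (XT.nd (nat_lit 78) (nat_lit 228) (nat_lit 0) (XT.lf (nat_lit 0) (nat_lit 31267683022) (nat_lit 152) (nat_lit 26656122395) (nat_lit 228) (nat_lit 8425768578) (nat_lit 100) (nat_lit 5) (nat_lit 102) (nat_lit 5) (nat_lit 103) (nat_lit 5) (nat_lit 531) (nat_lit 441) (nat_lit 228)) (XT.lf (nat_lit 0) (nat_lit 5406543951) (nat_lit 152) (nat_lit 4332277698) (nat_lit 228) (nat_lit 57926687986) (nat_lit 97) (nat_lit 5) (nat_lit 99) (nat_lit 5) (nat_lit 100) (nat_lit 5) (nat_lit 532) (nat_lit 441) (nat_lit 227)))) (XT.nd (nat_lit 156) (nat_lit 228) (nat_lit 0) (XT.nd (nat_lit 78) (nat_lit 152) (nat_lit 0) (XT.lf (nat_lit 0) (nat_lit 28813701204) (nat_lit 228) (nat_lit 21452320687) (nat_lit 76) (nat_lit 18736357766)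 (nat_lit 97) (nat_lit 5) (nat_lit 100) (nat_lit 5) (nat_lit 98) (nat_lit 5) (nat_lit 533) (nat_lit 441) (nat_lit 226)) (XT.lf (nat_lit 0) (nat_lit 20939886342) (nat_lit 152) (nat_lit 27762744692) (nat_lit 228) (nat_lit 21669470683) (nat_lit 95) (nat_lit 5) (nat_lit 97) (nat_lit 5) (nat_lit 98) (nat_lit 5) (nat_lit 534) (nat_lit 441) (nat_lit 225))) (XT.nd (nat_lit 78) (nat_lit 228) (nat_lit 0) (XT.lf (nat_lit 0) (nat_lit 65039297748) (nat_lit 152) (nat_lit 4363208209) (nat_lit 228) (nat_lit 2373981217) (nat_lit 95) (nat_lit 5) (nat_lit 97) (nat_lit 5) (nat_lit 98) (nat_lit 5) (nat_lit 535) (nat_lit 441) (nat_lit 224)) (XT.lf (nat_lit 0) (nat_lit 17714950390) (nat_lit 228) (nat_lit 35598186519) (nat_lit 76) (nat_lit 19888138424) (nat_lit 92) (nat_lit 5) (nat_lit 95) (nat_lit 5) (nat_lit 93) (nat_lit 5) (nat_lit 536) (nat_lit 441) (nat_lit 223))))))))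
noncomputable def xc184 : XT := (XT.nd (nat_lit 56472) (nat_lit 0) (nat_lit 8284) (XT.nd (nat_lit 55224) (nat_lit 0) (nat_lit 17024) (XT.nd (nat_lit 546) (nat_lit 532) (nat_lit 0) (XT.nd (nat_lit 234) (nat_lit 304) (nat_lit 0) (XT.nd (nat_lit 78) (nat_lit 152) (nat_lit 0) (XT.lf (nat_lit 0) (nat_lit 8845910088) (nat_lit 152) (nat_lit 29707568550) (nat_lit 228) (nat_lit 36108784102) (nat_lit 90) (nat_lit 5) (nat_lit 92) (nat_lit 5) (nat_lit 93) (nat_lit 5) (nat_lit 537) (nat_lit 441) (nat_lit 222)) (XT.nd (nat_lit 78) (nat_lit 152) (nat_lit 0) (XT.lf (nat_lit 0) (nat_lit 55348857046) (nat_lit 152) (nat_lit 5025509030) (nat_lit 228) (nat_lit 15781997638) (nat_lit 90) (nat_lit 5) (nat_lit 92) (nat_lit 5) (nat_lit 93) (nat_lit 5) (nat_lit 538) (nat_lit 441) (nat_lit 221)) (XT.lf (nat_lit 0) (nat_lit 5500779120) (nat_lit 152) (nat_lit 51879992551) (nat_lit 76) (nat_lit 20299626477) (nat_lit 88) (nat_lit 5) (nat_lit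 90) (nat_lit 5) (nat_lit 89) (nat_lit 5) (nat_lit 539) (nat_lit 441) (nat_lit 220)))) (XT.nd (nat_lit 156) (nat_lit 152) (nat_lit 0) (XT.nd (nat_lit 78) (nat_lit 152) (nat_lit 0) (XT.lf (nat_lit 0) (nat_lit 27364572662) (nat_lit 152) (nat_lit 5222986634) (nat_lit 76) (nat_lit 46650114558) (nat_lit 88) (nat_lit 5) (nat_lit 90) (nat_lit 5) (nat_lit 89) (nat_lit 5) (nat_lit 540) (nat_lit 441) (nat_lit 219)) (XT.lf (nat_lit 0) (nat_lit 43682115225) (nat_lit 152) (nat_lit 6619911695) (nat_lit 228) (nat_lit 30527108546) (nat_lit 86) (nat_lit 5) (nat_lit 88) (nat_lit 5) (nat_lit 89) (nat_lit 5) (nat_lit 541) (nat_lit 441) (nat_lit 218))) (XT.nd (nat_lit 78) (nat_lit 76) (nat_lit 0) (XT.lf (nat_lit 0) (nat_lit 11725474349) (nat_lit 76) (nat_lit 62559432299) (nat_lit 152) (nat_lit 8172715262) (nat_lit 85) (nat_lit 5) (nat_lit 86) (nat_lit 5) (nat_lit 87) (nat_lit 4) (nat_lit 542) (nat_lit 441) (nat_lit 217)) (XT.lf (nat_lit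 0) (nat_lit 15004715214) (nat_lit 152) (nat_lit 21514135245) (nat_lit 76) (nat_lit 47598562617) (nat_lit 84) (nat_lit 5) (nat_lit 86) (nat_lit 5) (nat_lit 85) (nat_lit 5) (nat_lit 543) (nat_lit 441) (nat_lit 216))))) (XT.nd (nat_lit 312) (nat_lit 76) (nat_lit 0) (XT.nd (nat_lit 156) (nat_lit 304) (nat_lit 0) (XT.nd (nat_lit 78) (nat_lit 0) (nat_lit 0) (XT.lf (nat_lit 0) (nat_lit 29674656190) (nat_lit 152) (nat_lit 9321720003) (nat_lit 228) (nat_lit 46819699150) (nat_lit 82) (nat_lit 5) (nat_lit 84) (nat_lit 5) (nat_lit 85) (nat_lit 5) (nat_lit 544) (nat_lit 441) (nat_lit 215)) (XT.lf (nat_lit 0) (nat_lit 64104787198) (nat_lit 228) (nat_lit 4904782142) (nat_lit 76) (nat_lit 18544218167) (nat_lit 82) (nat_lit 5) (nat_lit 85) (nat_lit 5) (nat_lit 83) (nat_lit 4) (nat_lit 545) (nat_lit 441) (nat_lit 214))) (XT.nd (nat_lit 78) (nat_lit 152) (nat_lit 0) (XT.lf (nat_lit 0) (nat_lit 1174839377) (nat_lit 152) (nat_lit 40614751375)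 (nat_lit 76) (nat_lit 47536935509) (nat_lit 80) (nat_lit 5) (nat_lit 82) (nat_lit 5) (nat_lit 81) (nat_lit 5) (nat_lit 546) (nat_lit 441) (nat_lit 213)) (XT.lf (nat_lit 0) (nat_lit 12901712935) (nat_lit 152) (nat_lit 13336407209) (nat_lit 228) (nat_lit 64902201190) (nat_lit 78) (nat_lit 5) (nat_lit 80) (nat_lit 5) (nat_lit 81) (nat_lit 5) (nat_lit 547) (nat_lit 441) (nat_lit 212)))) (XT.nd (nat_lit 54210) (nat_lit 0) (nat_lit 17632) (XT.nd (nat_lit 78) (nat_lit 76) (nat_lit 0) (XT.lf (nat_lit 0) (nat_lit 52619001088) (nat_lit 228) (nat_lit 24301373483) (nat_lit 76) (nat_lit 16071184666) (nat_lit 78) (nat_lit 5) (nat_lit 81) (nat_lit 5) (nat_lit 79) (nat_lit 4) (nat_lit 548) (nat_lit 441) (nat_lit 211)) (XT.lf (nat_lit 0) (nat_lit 31737556464) (nat_lit 76) (nat_lit 48488929578) (nat_lit 152) (nat_lit 14658792938) (nat_lit 77) (nat_lit 5) (nat_lit 78) (nat_lit 5) (nat_lit 79) (nat_lit 4) (nat_lit 549) (nat_lit 441)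 (nat_lit 210))) (XT.nd (nat_lit 78) (nat_lit 0) (nat_lit 0) (XT.lf (nat_lit 0) (nat_lit 77305939) (nat_lit 1292) (nat_lit 3530841168) (nat_lit 1292) (nat_lit 3530841168) (nat_lit 309) (nat_lit 3) (nat_lit 326) (nat_lit 3) (nat_lit 326) (nat_lit 5) (nat_lit 442) (nat_lit 442) (nat_lit 316)) (XT.lf (nat_lit 76) (nat_lit 20892204) (nat_lit 0) (nat_lit 465689470) (nat_lit 1292) (nat_lit 13995644538) (nat_lit 310) (nat_lit 5) (nat_lit 309) (nat_lit 3) (nat_lit 326) (nat_lit 5) (nat_lit 443) (nat_lit 442) (nat_lit 315)))))) (XT.nd (nat_lit 624) (nat_lit 684) (nat_lit 0) (XT.nd (nat_lit 312) (nat_lit 0) (nat_lit 152) (XT.nd (nat_lit 156) (nat_lit 0) (nat_lit 76) (XT.nd (nat_lit 78) (nat_lit 0) (nat_lit 0) (XT.lf (nat_lit 0) (nat_lit 950023785) (nat_lit 1216) (nat_lit 7300031910) (nat_lit 1292) (nat_lit 6438903457) (nat_lit 310) (nat_lit 5) (nat_lit 326) (nat_lit 5) (nat_lit 327) (nat_lit 5) (nat_lit 444) (nat_lit 442)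 (nat_lit 314)) (XT.lf (nat_lit 76) (nat_lit 65789871) (nat_lit 0) (nat_lit 1354334008) (nat_lit 1292) (nat_lit 13481988715) (nat_lit 311) (nat_lit 5) (nat_lit 310) (nat_lit 5) (nat_lit 327) (nat_lit 5) (nat_lit 445) (nat_lit 442) (nat_lit 313))) (XT.nd (nat_lit 78) (nat_lit 0) (nat_lit 0) (XT.lf (nat_lit 0) (nat_lit 2021887974) (nat_lit 1216) (nat_lit 7380546332) (nat_lit 1292) (nat_lit 5715700624) (nat_lit 311) (nat_lit 5) (nat_lit 327) (nat_lit 5) (nat_lit 328) (nat_lit 5) (nat_lit 446) (nat_lit 442) (nat_lit 312)) (XT.lf (nat_lit 76) (nat_lit 283906639) (nat_lit 0) (nat_lit 2362149636) (nat_lit 1292) (nat_lit 12694452211) (nat_lit 312) (nat_lit 5) (nat_lit 311) (nat_lit 5) (nat_lit 328) (nat_lit 5) (nat_lit 447) (nat_lit 442) (nat_lit 311)))) (XT.nd (nat_lit 156) (nat_lit 0) (nat_lit 76) (XT.nd (nat_lit 78) (nat_lit 0) (nat_lit 0) (XT.lf (nat_lit 0) (nat_lit 3399747182) (nat_lit 1216) (nat_lit 7292914333) (nat_lit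 1292) (nat_lit 4873568864) (nat_lit 312) (nat_lit 5) (nat_lit 328) (nat_lit 5) (nat_lit 329) (nat_lit 5) (nat_lit 448) (nat_lit 442) (nat_lit 310)) (XT.lf (nat_lit 76) (nat_lit 686461578) (nat_lit 0) (nat_lit 3508438824) (nat_lit 1292) (nat_lit 11603259004) (nat_lit 313) (nat_lit 5) (nat_lit 312) (nat_lit 5) (nat_lit 329) (nat_lit 5) (nat_lit 449) (nat_lit 442) (nat_lit 309))) (XT.nd (nat_lit 78) (nat_lit 0) (nat_lit 0) (XT.lf (nat_lit 0) (nat_lit 5114843696) (nat_lit 1216) (nat_lit 7025777626) (nat_lit 1292) (nat_lit 3893397914) (nat_lit 313) (nat_lit 5) (nat_lit 329) (nat_lit 5) (nat_lit 330) (nat_lit 5) (nat_lit 450) (nat_lit 442) (nat_lit 308)) (XT.lf (nat_lit 76) (nat_lit 1285770063) (nat_lit 0) (nat_lit 4813184214) (nat_lit 1292) (nat_lit 10176904481) (nat_lit 314) (nat_lit 5) (nat_lit 313) (nat_lit 5) (nat_lit 330) (nat_lit 5) (nat_lit 451) (nat_lit 442) (nat_lit 307))))) (XT.nd (nat_lit 312) (nat_lit 988)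 (nat_lit 0) (XT.nd (nat_lit 156) (nat_lit 0) (nat_lit 76) (XT.nd (nat_lit 78) (nat_lit 0) (nat_lit 0) (XT.lf (nat_lit 0) (nat_lit 7200257692) (nat_lit 1216) (nat_lit 6566693950) (nat_lit 1292) (nat_lit 2755372678) (nat_lit 314) (nat_lit 5) (nat_lit 330) (nat_lit 5) (nat_lit 331) (nat_lit 5) (nat_lit 452) (nat_lit 442) (nat_lit 306)) (XT.lf (nat_lit 76) (nat_lit 2095283818) (nat_lit 0) (nat_lit 6297150581) (nat_lit 1292) (nat_lit 8382015334) (nat_lit 315) (nat_lit 5) (nat_lit 314) (nat_lit 5) (nat_lit 331) (nat_lit 5) (nat_lit 453) (nat_lit 442) (nat_lit 305))) (XT.nd (nat_lit 78) (nat_lit 0) (nat_lit 0) (XT.lf (nat_lit 0) (nat_lit 9691051687) (nat_lit 1216) (nat_lit 5902095621) (nat_lit 1292) (nat_lit 1438872229) (nat_lit 315) (nat_lit 5) (nat_lit 331) (nat_lit 5) (nat_lit 332) (nat_lit 5) (nat_lit 454) (nat_lit 442) (nat_lit 304)) (XT.lf (nat_lit 76) (nat_lit 3129635592) (nat_lit 0) (nat_lit 7981988596) (nat_lit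 1292) (nat_lit 6183203205) (nat_lit 316) (nat_lit 5) (nat_lit 315) (nat_lit 5) (nat_lit 332) (nat_lit 5) (nat_lit 455) (nat_lit 442) (nat_lit 303)))) (XT.nd (nat_lit 156) (nat_lit 1064) (nat_lit 0) (XT.nd (nat_lit 78) (nat_lit 0) (nat_lit 76) (XT.lf (nat_lit 76) (nat_lit 12546004579) (nat_lit 0) (nat_lit 79178207) (nat_lit 1292) (nat_lit 4938826464) (nat_lit 316) (nat_lit 5) (nat_lit 315) (nat_lit 5) (nat_lit 332) (nat_lit 5) (nat_lit 456) (nat_lit 442) (nat_lit 302)) (XT.lf (nat_lit 76) (nat_lit 4404688525) (nat_lit 0) (nat_lit 9890340904) (nat_lit 1292) (nat_lit 3542911504) (nat_lit 317) (nat_lit 5) (nat_lit 316) (nat_lit 5) (nat_lit 333) (nat_lit 5) (nat_lit 457) (nat_lit 442) (nat_lit 301))) (XT.nd (nat_lit 78) (nat_lit 1140) (nat_lit 0) (XT.lf (nat_lit 76) (nat_lit 14204823119) (nat_lit 0) (nat_lit 1852843095) (nat_lit 1292) (nat_lit 2061144298) (nat_lit 317) (nat_lit 5) (nat_lit 316) (nat_lit 5) (nat_lit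 333) (nat_lit 5) (nat_lit 458) (nat_lit 442) (nat_lit 300)) (XT.lf (nat_lit 0) (nat_lit 5937590281) (nat_lit 1216) (nat_lit 12045951058) (nat_lit 1292) (nat_lit 421254825) (nat_lit 301) (nat_lit 5) (nat_lit 317) (nat_lit 5) (nat_lit 318) (nat_lit 5) (nat_lit 459) (nat_lit 442) (nat_lit 299))))))) (XT.nd (nat_lit 1170) (nat_lit 3876) (nat_lit 0) (XT.nd (nat_lit 546) (nat_lit 2204) (nat_lit 0) (XT.nd (nat_lit 234) (nat_lit 1748) (nat_lit 0) (XT.nd (nat_lit 78) (nat_lit 836) (nat_lit 0) (XT.lf (nat_lit 0) (nat_lit 1292960333) (nat_lit 1292) (nat_lit 2571607054) (nat_lit 76) (nat_lit 14832933034) (nat_lit 300) (nat_lit 5) (nat_lit 317) (nat_lit 5) (nat_lit 301) (nat_lit 5) (nat_lit 460) (nat_lit 442) (nat_lit 298)) (XT.nd (nat_lit 78) (nat_lit 0) (nat_lit 0) (XT.lf (nat_lit 0) (nat_lit 3161234915) (nat_lit 912) (nat_lit 11280618625) (nat_lit 76) (nat_lit 4553674847) (nat_lit 289) (nat_lit 5) (nat_lit 301) (nat_lit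 5) (nat_lit 290) (nat_lit 5) (nat_lit 461) (nat_lit 442) (nat_lit 297)) (XT.lf (nat_lit 0) (nat_lit 5142075692) (nat_lit 912) (nat_lit 984916560) (nat_lit 76) (nat_lit 13173810079) (nat_lit 289) (nat_lit 5) (nat_lit 301) (nat_lit 5) (nat_lit 290) (nat_lit 5) (nat_lit 462) (nat_lit 442) (nat_lit 296)))) (XT.nd (nat_lit 156) (nat_lit 532) (nat_lit 0) (XT.nd (nat_lit 78) (nat_lit 608) (nat_lit 0) (XT.lf (nat_lit 0) (nat_lit 7293210432) (nat_lit 684) (nat_lit 9833243778) (nat_lit 76) (nat_lit 2485454878) (nat_lit 281) (nat_lit 5) (nat_lit 290) (nat_lit 5) (nat_lit 282) (nat_lit 5) (nat_lit 463) (nat_lit 442) (nat_lit 295)) (XT.lf (nat_lit 0) (nat_lit 902787033) (nat_lit 608) (nat_lit 8677900775) (nat_lit 684) (nat_lit 10349507623) (nat_lit 273) (nat_lit 5) (nat_lit 281) (nat_lit 5) (nat_lit 282) (nat_lit 5) (nat_lit 464) (nat_lit 442) (nat_lit 294))) (XT.nd (nat_lit 78) (nat_lit 532) (nat_lit 0) (XT.lf (nat_lit 0)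 (nat_lit 12029875775) (nat_lit 684) (nat_lit 8101309902) (nat_lit 76) (nat_lit 124052720) (nat_lit 273) (nat_lit 5) (nat_lit 282) (nat_lit 5) (nat_lit 274) (nat_lit 5) (nat_lit 465) (nat_lit 442) (nat_lit 293)) (XT.lf (nat_lit 0) (nat_lit 3120243619) (nat_lit 532) (nat_lit 11541000427) (nat_lit 608) (nat_lit 5925528068) (nat_lit 266) (nat_lit 5) (nat_lit 273) (nat_lit 5) (nat_lit 274) (nat_lit 5) (nat_lit 466) (nat_lit 442) (nat_lit 292))))) (XT.nd (nat_lit 312) (nat_lit 988) (nat_lit 0) (XT.nd (nat_lit 156) (nat_lit 608) (nat_lit 0) (XT.nd (nat_lit 78) (nat_lit 608) (nat_lit 0) (XT.lf (nat_lit 0) (nat_lit 14837288866) (nat_lit 532) (nat_lit 2609003536) (nat_lit 608) (nat_lit 3479717853) (nat_lit 266) (nat_lit 5) (nat_lit 273) (nat_lit 5) (nat_lit 274) (nat_lit 5) (nat_lit 467) (nat_lit 442) (nat_lit 291)) (XT.lf (nat_lit 0) (nat_lit 5670497097) (nat_lit 608) (nat_lit 14755395789) (nat_lit 684) (nat_lit 846203203)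 (nat_lit 258) (nat_lit 5) (nat_lit 266) (nat_lit 5) (nat_lit 267) (nat_lit 5) (nat_lit 468) (nat_lit 442) (nat_lit 290))) (XT.nd (nat_lit 78) (nat_lit 532) (nat_lit 0) (XT.lf (nat_lit 0) (nat_lit 1911023065) (nat_lit 684) (nat_lit 3771079144) (nat_lit 76) (nat_lit 15943490877) (nat_lit 257) (nat_lit 5) (nat_lit 266) (nat_lit 5) (nat_lit 258) (nat_lit 5) (nat_lit 469) (nat_lit 442) (nat_lit 289)) (XT.lf (nat_lit 0) (nat_lit 4845807135) (nat_lit 608) (nat_lit 13457218984) (nat_lit 76) (nat_lit 3683062580) (nat_lit 250) (nat_lit 5) (nat_lit 258) (nat_lit 5) (nat_lit 251) (nat_lit 5) (nat_lit 470) (nat_lit 442) (nat_lit 288)))) (XT.nd (nat_lit 156) (nat_lit 456) (nat_lit 0) (XT.nd (nat_lit 78) (nat_lit 532) (nat_lit 0) (XT.lf (nat_lit 0) (nat_lit 7956868815) (nat_lit 608) (nat_lit 1144963542) (nat_lit 76) (nat_lit 13252920306) (nat_lit 250) (nat_lit 5) (nat_lit 258) (nat_lit 5) (nat_lit 251) (nat_lit 5) (nat_lit 471)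 (nat_lit 442) (nat_lit 287)) (XT.lf (nat_lit 0) (nat_lit 11272726392) (nat_lit 608) (nat_lit 10976855393) (nat_lit 76) (nat_lit 481551329) (nat_lit 243) (nat_lit 5) (nat_lit 251) (nat_lit 5) (nat_lit 244) (nat_lit 5) (nat_lit 472) (nat_lit 442) (nat_lit 286))) (XT.nd (nat_lit 78) (nat_lit 0) (nat_lit 0) (XT.lf (nat_lit 0) (nat_lit 1884967080) (nat_lit 456) (nat_lit 12916822232) (nat_lit 532) (nat_lit 8313604254) (nat_lit 237) (nat_lit 5) (nat_lit 243) (nat_lit 5) (nat_lit 244) (nat_lit 5) (nat_lit 473) (nat_lit 442) (nat_lit 285)) (XT.lf (nat_lit 0) (nat_lit 15350636015) (nat_lit 456) (nat_lit 3190862057) (nat_lit 532) (nat_lit 4966541003) (nat_lit 237) (nat_lit 5) (nat_lit 243) (nat_lit 5) (nat_lit 244) (nat_lit 5) (nat_lit 474) (nat_lit 442) (nat_lit 284)))))) (XT.nd (nat_lit 624) (nat_lit 1520) (nat_lit 0) (XT.nd (nat_lit 312) (nat_lit 1368) (nat_lit 0) (XT.nd (nat_lit 156) (nat_lit 456) (nat_lit 0) (XT.nd (nat_lit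 78) (nat_lit 76) (nat_lit 0) (XT.lf (nat_lit 0) (nat_lit 5339390885) (nat_lit 456) (nat_lit 17165053985) (nat_lit 532) (nat_lit 1404688123) (nat_lit 231) (nat_lit 5) (nat_lit 237) (nat_lit 5) (nat_lit 238) (nat_lit 5) (nat_lit 475) (nat_lit 442) (nat_lit 283)) (XT.lf (nat_lit 0) (nat_lit 2328767966) (nat_lit 532) (nat_lit 4972687795) (nat_lit 76) (nat_lit 17016883693) (nat_lit 230) (nat_lit 5) (nat_lit 237) (nat_lit 5) (nat_lit 231) (nat_lit 5) (nat_lit 476) (nat_lit 442) (nat_lit 282))) (XT.nd (nat_lit 78) (nat_lit 0) (nat_lit 0) (XT.lf (nat_lit 0) (nat_lit 6257133389) (nat_lit 532) (nat_lit 15574512825) (nat_lit 76) (nat_lit 2904424915) (nat_lit 224) (nat_lit 5) (nat_lit 231) (nat_lit 5) (nat_lit 225) (nat_lit 5) (nat_lit 477) (nat_lit 442) (nat_lit 281)) (XT.lf (nat_lit 0) (nat_lit 10420757513) (nat_lit 532) (nat_lit 1422770105) (nat_lit 76) (nat_lit 13319285303) (nat_lit 224) (nat_lit 5) (nat_lit 231) (nat_lit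 5) (nat_lit 225) (nat_lit 5) (nat_lit 478) (nat_lit 442) (nat_lit 280)))) (XT.nd (nat_lit 156) (nat_lit 532) (nat_lit 0) (XT.nd (nat_lit 78) (nat_lit 380) (nat_lit 0) (XT.lf (nat_lit 0) (nat_lit 13408453695) (nat_lit 456) (nat_lit 1424294429) (nat_lit 532) (nat_lit 10765905497) (nat_lit 218) (nat_lit 5) (nat_lit 224) (nat_lit 5) (nat_lit 225) (nat_lit 5) (nat_lit 479) (nat_lit 442) (nat_lit 279)) (XT.lf (nat_lit 0) (nat_lit 2621381435) (nat_lit 380) (nat_lit 16879543462) (nat_lit 456) (nat_lit 6542930226) (nat_lit 213) (nat_lit 5) (nat_lit 218) (nat_lit 5) (nat_lit 219) (nat_lit 5) (nat_lit 480) (nat_lit 442) (nat_lit 278))) (XT.nd (nat_lit 78) (nat_lit 532) (nat_lit 0) (XT.lf (nat_lit 0) (nat_lit 18106081028) (nat_lit 380) (nat_lit 6334867005) (nat_lit 456) (nat_lit 2057510972) (nat_lit 213) (nat_lit 5) (nat_lit 218) (nat_lit 5) (nat_lit 219) (nat_lit 5) (nat_lit 481) (nat_lit 442) (nat_lit 277)) (XT.lf (nat_lit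 0) (nat_lit 2620922859) (nat_lit 532) (nat_lit 19810661213) (nat_lit 76) (nat_lit 4531124661) (nat_lit 206) (nat_lit 5) (nat_lit 213) (nat_lit 5) (nat_lit 207) (nat_lit 5) (nat_lit 482) (nat_lit 442) (nat_lit 276))))) (XT.nd (nat_lit 312) (nat_lit 760) (nat_lit 0) (XT.nd (nat_lit 156) (nat_lit 380) (nat_lit 0) (XT.nd (nat_lit 78) (nat_lit 380) (nat_lit 0) (XT.lf (nat_lit 0) (nat_lit 7541577965) (nat_lit 532) (nat_lit 4194147688) (nat_lit 76) (nat_lit 15700252827) (nat_lit 206) (nat_lit 5) (nat_lit 213) (nat_lit 5) (nat_lit 207) (nat_lit 5) (nat_lit 483) (nat_lit 442) (nat_lit 275)) (XT.lf (nat_lit 0) (nat_lit 12120865006) (nat_lit 380) (nat_lit 600564090) (nat_lit 456) (nat_lit 15198670255) (nat_lit 201) (nat_lit 5) (nat_lit 206) (nat_lit 5) (nat_lit 207) (nat_lit 5) (nat_lit 484) (nat_lit 442) (nat_lit 274))) (XT.nd (nat_lit 78) (nat_lit 0) (nat_lit 0) (XT.lf (nat_lit 0) (nat_lit 491950318) (nat_lit 380) (nat_lit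 17711832090) (nat_lit 456) (nat_lit 10210548555) (nat_lit 196) (nat_lit 5) (nat_lit 201) (nat_lit 5) (nat_lit 202) (nat_lit 5) (nat_lit 485) (nat_lit 442) (nat_lit 273)) (XT.lf (nat_lit 0) (nat_lit 17583154710) (nat_lit 380) (nat_lit 6428089546) (nat_lit 456) (nat_lit 4907326436) (nat_lit 196) (nat_lit 5) (nat_lit 201) (nat_lit 5) (nat_lit 202) (nat_lit 5) (nat_lit 486) (nat_lit 442) (nat_lit 272)))) (XT.nd (nat_lit 156) (nat_lit 380) (nat_lit 0) (XT.nd (nat_lit 78) (nat_lit 0) (nat_lit 0) (XT.lf (nat_lit 0) (nat_lit 646236066) (nat_lit 380) (nat_lit 23635169781) (nat_lit 76) (nat_lit 5153309797) (nat_lit 191) (nat_lit 5) (nat_lit 196) (nat_lit 5) (nat_lit 192) (nat_lit 5) (nat_lit 487) (nat_lit 442) (nat_lit 271)) (XT.lf (nat_lit 0) (nat_lit 6442377234) (nat_lit 380) (nat_lit 6401837909) (nat_lit 76) (nat_lit 17115434333) (nat_lit 191) (nat_lit 5) (nat_lit 196) (nat_lit 5) (nat_lit 192) (nat_lit 5) (nat_lit 488)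 (nat_lit 442) (nat_lit 270))) (XT.nd (nat_lit 78) (nat_lit 0) (nat_lit 0) (XT.lf (nat_lit 0) (nat_lit 11567931514) (nat_lit 380) (nat_lit 951165219) (nat_lit 456) (nat_lit 17978034037) (nat_lit 186) (nat_lit 5) (nat_lit 191) (nat_lit 5) (nat_lit 192) (nat_lit 5) (nat_lit 489) (nat_lit 442) (nat_lit 269)) (XT.lf (nat_lit 0) (nat_lit 18947563707) (nat_lit 456) (nat_lit 956370194) (nat_lit 76) (nat_lit 11141719491) (nat_lit 186) (nat_lit 5) (nat_lit 192) (nat_lit 5) (nat_lit 187) (nat_lit 5) (nat_lit 490) (nat_lit 442) (nat_lit 268))))))))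
noncomputable def xc185 : XT := (XT.nd (nat_lit 2418) (nat_lit 3040) (nat_lit 0) (XT.nd (nat_lit 1170) (nat_lit 2356) (nat_lit 0) (XT.nd (nat_lit 546) (nat_lit 1140) (nat_lit 0) (XT.nd (nat_lit 234) (nat_lit 988) (nat_lit 0) (XT.nd (nat_lit 78) (nat_lit 380) (nat_lit 0) (XT.lf (nat_lit 0) (nat_lit 17889144167) (nat_lit 304) (nat_lit 7856799037) (nat_lit 380) (nat_lit 5859376988) (nat_lit 182) (nat_lit 5) (nat_lit 186) (nat_lit 5) (nat_lit 187) (nat_lit 5) (nat_lit 491) (nat_lit 442) (nat_lit 267)) (XT.nd (nat_lit 78) (nat_lit 0) (nat_lit 0) (XT.lf (nat_lit 0) (nat_lit 655543257) (nat_lit 380) (nat_lit 26995889672) (nat_lit 76) (nat_lit 4527177925) (nat_lit 177) (nat_lit 5) (nat_lit 182) (nat_lit 5) (nat_lit 178) (nat_lit 5) (nat_lit 492) (nat_lit 442) (nat_lit 266)) (XT.lf (nat_lit 0) (nat_lit 7461563761) (nat_lit 380) (nat_lit 7978603864) (nat_lit 76) (nat_lit 17320789826) (nat_lit 177) (nat_lit 5) (nat_lit 182)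 (nat_lit 5) (nat_lit 178) (nat_lit 5) (nat_lit 493) (nat_lit 442) (nat_lit 265)))) (XT.nd (nat_lit 156) (nat_lit 684) (nat_lit 0) (XT.nd (nat_lit 78) (nat_lit 0) (nat_lit 0) (XT.lf (nat_lit 0) (nat_lit 11834070302) (nat_lit 304) (nat_lit 2747327020) (nat_lit 380) (nat_lit 18776088379) (nat_lit 173) (nat_lit 5) (nat_lit 177) (nat_lit 5) (nat_lit 178) (nat_lit 5) (nat_lit 494) (nat_lit 442) (nat_lit 264)) (XT.lf (nat_lit 0) (nat_lit 22091374547) (nat_lit 380) (nat_lit 1670974553) (nat_lit 76) (nat_lit 10204264458) (nat_lit 173) (nat_lit 5) (nat_lit 178) (nat_lit 5) (nat_lit 174) (nat_lit 5) (nat_lit 495) (nat_lit 442) (nat_lit 263))) (XT.nd (nat_lit 78) (nat_lit 380) (nat_lit 0) (XT.lf (nat_lit 0) (nat_lit 19116956960) (nat_lit 304) (nat_lit 10916698101) (nat_lit 380) (nat_lit 4554150286) (nat_lit 169) (nat_lit 5) (nat_lit 173) (nat_lit 5) (nat_lit 174) (nat_lit 5) (nat_lit 496) (nat_lit 442) (nat_lit 262)) (XT.lf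 (nat_lit 0) (nat_lit 3016555888) (nat_lit 380) (nat_lit 29841683019) (nat_lit 76) (nat_lit 2365885014) (nat_lit 164) (nat_lit 5) (nat_lit 169) (nat_lit 5) (nat_lit 165) (nat_lit 5) (nat_lit 497) (nat_lit 442) (nat_lit 261))))) (XT.nd (nat_lit 312) (nat_lit 608) (nat_lit 0) (XT.nd (nat_lit 156) (nat_lit 228) (nat_lit 0) (XT.nd (nat_lit 78) (nat_lit 304) (nat_lit 0) (XT.lf (nat_lit 0) (nat_lit 10984805455) (nat_lit 380) (nat_lit 8857084444) (nat_lit 76) (nat_lit 16028430949) (nat_lit 164) (nat_lit 5) (nat_lit 169) (nat_lit 5) (nat_lit 165) (nat_lit 5) (nat_lit 498) (nat_lit 442) (nat_lit 260)) (XT.lf (nat_lit 0) (nat_lit 13005019338) (nat_lit 304) (nat_lit 6308307003) (nat_lit 380) (nat_lit 17218940817) (nat_lit 160) (nat_lit 5) (nat_lit 164) (nat_lit 5) (nat_lit 165) (nat_lit 5) (nat_lit 499) (nat_lit 442) (nat_lit 259))) (XT.nd (nat_lit 78) (nat_lit 228) (nat_lit 0) (XT.lf (nat_lit 0) (nat_lit 28051631445) (nat_lit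 380) (nat_lit 1586926373) (nat_lit 76) (nat_lit 7570716366) (nat_lit 160) (nat_lit 5) (nat_lit 165) (nat_lit 5) (nat_lit 161) (nat_lit 5) (nat_lit 500) (nat_lit 442) (nat_lit 258)) (XT.lf (nat_lit 0) (nat_lit 21360289232) (nat_lit 228) (nat_lit 15955939725) (nat_lit 304) (nat_lit 582438346) (nat_lit 157) (nat_lit 5) (nat_lit 160) (nat_lit 5) (nat_lit 161) (nat_lit 5) (nat_lit 501) (nat_lit 442) (nat_lit 257)))) (XT.nd (nat_lit 156) (nat_lit 228) (nat_lit 0) (XT.nd (nat_lit 78) (nat_lit 0) (nat_lit 0) (XT.lf (nat_lit 0) (nat_lit 6461117102) (nat_lit 304) (nat_lit 1702582141) (nat_lit 380) (nat_lit 30440424072) (nat_lit 152) (nat_lit 5) (nat_lit 156) (nat_lit 5) (nat_lit 157) (nat_lit 5) (nat_lit 502) (nat_lit 442) (nat_lit 256)) (XT.lf (nat_lit 0) (nat_lit 17450334015) (nat_lit 380) (nat_lit 8974013279) (nat_lit 76) (nat_lit 12897528291) (nat_lit 152) (nat_lit 5) (nat_lit 157) (nat_lit 5) (nat_lit 153) (nat_lit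 5) (nat_lit 503) (nat_lit 442) (nat_lit 255))) (XT.nd (nat_lit 78) (nat_lit 0) (nat_lit 0) (XT.lf (nat_lit 0) (nat_lit 15163532207) (nat_lit 228) (nat_lit 12011163426) (nat_lit 304) (nat_lit 12881691116) (nat_lit 149) (nat_lit 5) (nat_lit 152) (nat_lit 5) (nat_lit 153) (nat_lit 5) (nat_lit 504) (nat_lit 442) (nat_lit 254)) (XT.lf (nat_lit 0) (nat_lit 37306089813) (nat_lit 304) (nat_lit 634779757) (nat_lit 76) (nat_lit 2868604781) (nat_lit 149) (nat_lit 5) (nat_lit 153) (nat_lit 5) (nat_lit 150) (nat_lit 5) (nat_lit 505) (nat_lit 442) (nat_lit 253)))))) (XT.nd (nat_lit 624) (nat_lit 1064) (nat_lit 0) (XT.nd (nat_lit 312) (nat_lit 532) (nat_lit 0) (XT.nd (nat_lit 156) (nat_lit 228) (nat_lit 0) (XT.nd (nat_lit 78) (nat_lit 228) (nat_lit 0) (XT.lf (nat_lit 0) (nat_lit 6392714129) (nat_lit 304) (nat_lit 16928384116) (nat_lit 76) (nat_lit 18251583928) (nat_lit 145) (nat_lit 5) (nat_lit 149) (nat_lit 5) (nat_lit 146)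 (nat_lit 5) (nat_lit 506) (nat_lit 442) (nat_lit 252)) (XT.lf (nat_lit 0) (nat_lit 8461087252) (nat_lit 228) (nat_lit 8138653141) (nat_lit 304) (nat_lit 25755471595) (nat_lit 142) (nat_lit 5) (nat_lit 145) (nat_lit 5) (nat_lit 146) (nat_lit 5) (nat_lit 507) (nat_lit 442) (nat_lit 251))) (XT.nd (nat_lit 78) (nat_lit 228) (nat_lit 0) (XT.lf (nat_lit 0) (nat_lit 27354379288) (nat_lit 304) (nat_lit 8276072524) (nat_lit 76) (nat_lit 7523523966) (nat_lit 142) (nat_lit 5) (nat_lit 146) (nat_lit 5) (nat_lit 143) (nat_lit 5) (nat_lit 508) (nat_lit 442) (nat_lit 250)) (XT.lf (nat_lit 0) (nat_lit 18383364100) (nat_lit 228) (nat_lit 20302361182) (nat_lit 304) (nat_lit 5283355296) (nat_lit 139) (nat_lit 5) (nat_lit 142) (nat_lit 5) (nat_lit 143) (nat_lit 5) (nat_lit 509) (nat_lit 442) (nat_lit 249)))) (XT.nd (nat_lit 156) (nat_lit 228) (nat_lit 0) (XT.nd (nat_lit 78) (nat_lit 0) (nat_lit 0) (XT.lf (nat_lit 0) (nat_lit 1169448010)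 (nat_lit 228) (nat_lit 4363084284) (nat_lit 304) (nat_lit 39271733485) (nat_lit 135) (nat_lit 5) (nat_lit 138) (nat_lit 5) (nat_lit 139) (nat_lit 5) (nat_lit 510) (nat_lit 442) (nat_lit 248)) (XT.lf (nat_lit 0) (nat_lit 16940313733) (nat_lit 304) (nat_lit 16581085726) (nat_lit 76) (nat_lit 12130329664) (nat_lit 135) (nat_lit 5) (nat_lit 139) (nat_lit 5) (nat_lit 136) (nat_lit 5) (nat_lit 511) (nat_lit 442) (nat_lit 247))) (XT.nd (nat_lit 78) (nat_lit 0) (nat_lit 0) (XT.lf (nat_lit 0) (nat_lit 11459493689) (nat_lit 228) (nat_lit 17381092159) (nat_lit 304) (nat_lit 17679522920) (nat_lit 132) (nat_lit 5) (nat_lit 135) (nat_lit 5) (nat_lit 136) (nat_lit 5) (nat_lit 512) (nat_lit 442) (nat_lit 246)) (XT.lf (nat_lit 0) (nat_lit 40676055560) (nat_lit 228) (nat_lit 586190628) (nat_lit 304) (nat_lit 6147362328) (nat_lit 132) (nat_lit 5) (nat_lit 135) (nat_lit 5) (nat_lit 136) (nat_lit 5) (nat_lit 513) (nat_lit 442) (nat_lit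 245))))) (XT.nd (nat_lit 312) (nat_lit 456) (nat_lit 0) (XT.nd (nat_lit 156) (nat_lit 152) (nat_lit 0) (XT.nd (nat_lit 78) (nat_lit 228) (nat_lit 0) (XT.lf (nat_lit 0) (nat_lit 5998731256) (nat_lit 228) (nat_lit 25652335552) (nat_lit 76) (nat_lit 16661680050) (nat_lit 129) (nat_lit 5) (nat_lit 132) (nat_lit 5) (nat_lit 130) (nat_lit 5) (nat_lit 514) (nat_lit 442) (nat_lit 244)) (XT.lf (nat_lit 0) (nat_lit 3835732044) (nat_lit 228) (nat_lit 14658286771) (nat_lit 304) (nat_lit 30743883677) (nat_lit 126) (nat_lit 5) (nat_lit 129) (nat_lit 5) (nat_lit 130) (nat_lit 5) (nat_lit 515) (nat_lit 442) (nat_lit 243))) (XT.nd (nat_lit 78) (nat_lit 152) (nat_lit 0) (XT.lf (nat_lit 0) (nat_lit 31650150455) (nat_lit 304) (nat_lit 15483737719) (nat_lit 76) (nat_lit 3048345161) (nat_lit 126) (nat_lit 5) (nat_lit 130) (nat_lit 5) (nat_lit 127) (nat_lit 5) (nat_lit 516) (nat_lit 442) (nat_lit 242)) (XT.lf (nat_lit 0) (nat_lit 15484339831)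 (nat_lit 152) (nat_lit 30007730381) (nat_lit 228) (nat_lit 5654090866) (nat_lit 124) (nat_lit 5) (nat_lit 126) (nat_lit 5) (nat_lit 127) (nat_lit 5) (nat_lit 517) (nat_lit 442) (nat_lit 241)))) (XT.nd (nat_lit 156) (nat_lit 152) (nat_lit 0) (XT.nd (nat_lit 78) (nat_lit 228) (nat_lit 0) (XT.lf (nat_lit 0) (nat_lit 7616777378) (nat_lit 228) (nat_lit 4515097790) (nat_lit 76) (nat_lit 40000285758) (nat_lit 123) (nat_lit 5) (nat_lit 126) (nat_lit 5) (nat_lit 124) (nat_lit 5) (nat_lit 518) (nat_lit 442) (nat_lit 240)) (XT.lf (nat_lit 0) (nat_lit 21502583420) (nat_lit 304) (nat_lit 25148971519) (nat_lit 76) (nat_lit 6484592889) (nat_lit 120) (nat_lit 5) (nat_lit 124) (nat_lit 5) (nat_lit 121) (nat_lit 5) (nat_lit 519) (nat_lit 442) (nat_lit 239))) (XT.nd (nat_lit 78) (nat_lit 0) (nat_lit 0) (XT.lf (nat_lit 0) (nat_lit 7407349422) (nat_lit 152) (nat_lit 28632216510) (nat_lit 228) (nat_lit 18123650424) (nat_lit 118) (nat_lit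 5) (nat_lit 120) (nat_lit 5) (nat_lit 121) (nat_lit 5) (nat_lit 520) (nat_lit 442) (nat_lit 238)) (XT.lf (nat_lit 0) (nat_lit 41451123606) (nat_lit 152) (nat_lit 9812760002) (nat_lit 228) (nat_lit 3949676647) (nat_lit 118) (nat_lit 5) (nat_lit 120) (nat_lit 5) (nat_lit 121) (nat_lit 5) (nat_lit 521) (nat_lit 442) (nat_lit 237))))))) (XT.nd (nat_lit 1248) (nat_lit 1064) (nat_lit 0) (XT.nd (nat_lit 624) (nat_lit 912) (nat_lit 0) (XT.nd (nat_lit 312) (nat_lit 456) (nat_lit 0) (XT.nd (nat_lit 156) (nat_lit 304) (nat_lit 0) (XT.nd (nat_lit 78) (nat_lit 0) (nat_lit 0) (XT.lf (nat_lit 0) (nat_lit 10731174798) (nat_lit 304) (nat_lit 35867409970) (nat_lit 76) (nat_lit 9685074627) (nat_lit 114) (nat_lit 5) (nat_lit 118) (nat_lit 5) (nat_lit 115) (nat_lit 5) (nat_lit 522) (nat_lit 442) (nat_lit 236)) (XT.lf (nat_lit 0) (nat_lit 26007910673) (nat_lit 304) (nat_lit 1621612016) (nat_lit 76) (nat_lit 29748120423) (nat_lit 114)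 (nat_lit 5) (nat_lit 118) (nat_lit 5) (nat_lit 115) (nat_lit 5) (nat_lit 523) (nat_lit 442) (nat_lit 235))) (XT.nd (nat_lit 78) (nat_lit 152) (nat_lit 0) (XT.lf (nat_lit 0) (nat_lit 34316643395) (nat_lit 152) (nat_lit 7753593173) (nat_lit 228) (nat_lit 16424391211) (nat_lit 112) (nat_lit 5) (nat_lit 114) (nat_lit 5) (nat_lit 115) (nat_lit 5) (nat_lit 524) (nat_lit 442) (nat_lit 234)) (XT.lf (nat_lit 0) (nat_lit 11825421607) (nat_lit 152) (nat_lit 47038908580) (nat_lit 228) (nat_lit 773294935) (nat_lit 110) (nat_lit 5) (nat_lit 112) (nat_lit 5) (nat_lit 113) (nat_lit 5) (nat_lit 525) (nat_lit 442) (nat_lit 233)))) (XT.nd (nat_lit 156) (nat_lit 228) (nat_lit 0) (XT.nd (nat_lit 78) (nat_lit 152) (nat_lit 0) (XT.lf (nat_lit 0) (nat_lit 15368622871) (nat_lit 228) (nat_lit 11634323903) (nat_lit 76) (nat_lit 33797916727) (nat_lit 109) (nat_lit 5) (nat_lit 112) (nat_lit 5) (nat_lit 110) (nat_lit 5) (nat_lit 526) (nat_lit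 442) (nat_lit 232)) (XT.lf (nat_lit 0) (nat_lit 26126616176) (nat_lit 152) (nat_lit 6101293910) (nat_lit 228) (nat_lit 29763399694) (nat_lit 107) (nat_lit 5) (nat_lit 109) (nat_lit 5) (nat_lit 110) (nat_lit 5) (nat_lit 527) (nat_lit 442) (nat_lit 231))) (XT.nd (nat_lit 78) (nat_lit 76) (nat_lit 0) (XT.lf (nat_lit 0) (nat_lit 1928650195) (nat_lit 152) (nat_lit 47947330758) (nat_lit 228) (nat_lit 13332998406) (nat_lit 105) (nat_lit 5) (nat_lit 107) (nat_lit 5) (nat_lit 108) (nat_lit 5) (nat_lit 528) (nat_lit 442) (nat_lit 230)) (XT.lf (nat_lit 0) (nat_lit 3943939050) (nat_lit 228) (nat_lit 22964296889) (nat_lit 76) (nat_lit 37541197260) (nat_lit 104) (nat_lit 5) (nat_lit 107) (nat_lit 5) (nat_lit 105) (nat_lit 5) (nat_lit 529) (nat_lit 442) (nat_lit 229))))) (XT.nd (nat_lit 312) (nat_lit 380) (nat_lit 0) (XT.nd (nat_lit 156) (nat_lit 380) (nat_lit 0) (XT.nd (nat_lit 78) (nat_lit 0) (nat_lit 0) (XT.lf (nat_lit 0)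 (nat_lit 16690568320) (nat_lit 152) (nat_lit 4938674643) (nat_lit 228) (nat_lit 44089156300) (nat_lit 102) (nat_lit 5) (nat_lit 104) (nat_lit 5) (nat_lit 105) (nat_lit 5) (nat_lit 530) (nat_lit 442) (nat_lit 228)) (XT.lf (nat_lit 0) (nat_lit 40246951947) (nat_lit 228) (nat_lit 9189336867) (nat_lit 76) (nat_lit 17577090174) (nat_lit 102) (nat_lit 5) (nat_lit 105) (nat_lit 5) (nat_lit 103) (nat_lit 5) (nat_lit 531) (nat_lit 442) (nat_lit 227))) (XT.nd (nat_lit 78) (nat_lit 228) (nat_lit 0) (XT.lf (nat_lit 0) (nat_lit 32423906296) (nat_lit 152) (nat_lit 27357540495) (nat_lit 228) (nat_lit 8555013735) (nat_lit 100) (nat_lit 5) (nat_lit 102) (nat_lit 5) (nat_lit 103) (nat_lit 5) (nat_lit 532) (nat_lit 442) (nat_lit 226)) (XT.lf (nat_lit 0) (nat_lit 5787183512) (nat_lit 152) (nat_lit 4363492331) (nat_lit 228) (nat_lit 59541205685) (nat_lit 97) (nat_lit 5) (nat_lit 99) (nat_lit 5) (nat_lit 100) (nat_lit 5) (nat_lit 533)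 (nat_lit 442) (nat_lit 225)))) (XT.nd (nat_lit 156) (nat_lit 228) (nat_lit 0) (XT.nd (nat_lit 78) (nat_lit 152) (nat_lit 0) (XT.lf (nat_lit 0) (nat_lit 29795237314) (nat_lit 228) (nat_lit 21881242387) (nat_lit 76) (nat_lit 19392454963) (nat_lit 97) (nat_lit 5) (nat_lit 100) (nat_lit 5) (nat_lit 98) (nat_lit 5) (nat_lit 534) (nat_lit 442) (nat_lit 224)) (XT.lf (nat_lit 0) (nat_lit 21780626461) (nat_lit 152) (nat_lit 28498840266) (nat_lit 228) (nat_lit 22200322785) (nat_lit 95) (nat_lit 5) (nat_lit 97) (nat_lit 5) (nat_lit 98) (nat_lit 5) (nat_lit 535) (nat_lit 442) (nat_lit 223))) (XT.nd (nat_lit 78) (nat_lit 228) (nat_lit 0) (XT.lf (nat_lit 0) (nat_lit 67196829621) (nat_lit 152) (nat_lit 4400136721) (nat_lit 228) (nat_lit 2329441412) (nat_lit 95) (nat_lit 5) (nat_lit 97) (nat_lit 5) (nat_lit 98) (nat_lit 5) (nat_lit 536) (nat_lit 442) (nat_lit 222)) (XT.lf (nat_lit 0) (nat_lit 18359486418) (nat_lit 228) (nat_lit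 36457102706) (nat_lit 76) (nat_lit 20577329507) (nat_lit 92) (nat_lit 5) (nat_lit 95) (nat_lit 5) (nat_lit 93) (nat_lit 5) (nat_lit 537) (nat_lit 442) (nat_lit 221)))))) (XT.nd (nat_lit 624) (nat_lit 304) (nat_lit 0) (XT.nd (nat_lit 312) (nat_lit 456) (nat_lit 0) (XT.nd (nat_lit 156) (nat_lit 152) (nat_lit 0) (XT.nd (nat_lit 78) (nat_lit 0) (nat_lit 0) (XT.lf (nat_lit 0) (nat_lit 9318267492) (nat_lit 152) (nat_lit 30503598829) (nat_lit 228) (nat_lit 37076908532) (nat_lit 90) (nat_lit 5) (nat_lit 92) (nat_lit 5) (nat_lit 93) (nat_lit 5) (nat_lit 538) (nat_lit 442) (nat_lit 220)) (XT.lf (nat_lit 0) (nat_lit 57210274312) (nat_lit 152) (nat_lit 5083850246) (nat_lit 228) (nat_lit 16143672040) (nat_lit 90) (nat_lit 5) (nat_lit 92) (nat_lit 5) (nat_lit 93) (nat_lit 5) (nat_lit 539) (nat_lit 442) (nat_lit 219))) (XT.nd (nat_lit 78) (nat_lit 0) (nat_lit 0) (XT.lf (nat_lit 0) (nat_lit 5775039874) (nat_lit 152) (nat_lit 53232888412)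 (nat_lit 76) (nat_lit 20999602609) (nat_lit 88) (nat_lit 5) (nat_lit 90) (nat_lit 5) (nat_lit 89) (nat_lit 5) (nat_lit 540) (nat_lit 442) (nat_lit 218)) (XT.lf (nat_lit 0) (nat_lit 28291565551) (nat_lit 152) (nat_lit 5182099616) (nat_lit 76) (nat_lit 48137955215) (nat_lit 88) (nat_lit 5) (nat_lit 90) (nat_lit 5) (nat_lit 89) (nat_lit 5) (nat_lit 541) (nat_lit 442) (nat_lit 217)))) (XT.nd (nat_lit 156) (nat_lit 228) (nat_lit 0) (XT.nd (nat_lit 78) (nat_lit 76) (nat_lit 0) (XT.lf (nat_lit 0) (nat_lit 45188218273) (nat_lit 152) (nat_lit 6727716770) (nat_lit 228) (nat_lit 31334927110) (nat_lit 86) (nat_lit 5) (nat_lit 88) (nat_lit 5) (nat_lit 89) (nat_lit 5) (nat_lit 542) (nat_lit 442) (nat_lit 216)) (XT.lf (nat_lit 0) (nat_lit 12273212461) (nat_lit 76) (nat_lit 64344766049) (nat_lit 152) (nat_lit 8310234418) (nat_lit 85) (nat_lit 5) (nat_lit 86) (nat_lit 5) (nat_lit 87) (nat_lit 4) (nat_lit 543) (nat_lit 442) (nat_lit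 215))) (XT.nd (nat_lit 78) (nat_lit 152) (nat_lit 0) (XT.lf (nat_lit 0) (nat_lit 15557343489) (nat_lit 152) (nat_lit 21967251918) (nat_lit 76) (nat_lit 49113263666) (nat_lit 84) (nat_lit 5) (nat_lit 86) (nat_lit 5) (nat_lit 85) (nat_lit 5) (nat_lit 544) (nat_lit 442) (nat_lit 214)) (XT.lf (nat_lit 0) (nat_lit 30755317893) (nat_lit 152) (nat_lit 9512281804) (nat_lit 228) (nat_lit 48119916201) (nat_lit 82) (nat_lit 5) (nat_lit 84) (nat_lit 5) (nat_lit 85) (nat_lit 5) (nat_lit 545) (nat_lit 442) (nat_lit 213))))) (XT.nd (nat_lit 54444) (nat_lit 0) (nat_lit 17556) (XT.nd (nat_lit 156) (nat_lit 152) (nat_lit 0) (XT.nd (nat_lit 78) (nat_lit 152) (nat_lit 0) (XT.lf (nat_lit 0) (nat_lit 66127143051) (nat_lit 228) (nat_lit 4864928191) (nat_lit 76) (nat_lit 19185351835) (nat_lit 82) (nat_lit 5) (nat_lit 85) (nat_lit 5) (nat_lit 83) (nat_lit 4) (nat_lit 546) (nat_lit 442) (nat_lit 212)) (XT.lf (nat_lit 0) (nat_lit 1309159948)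 (nat_lit 152) (nat_lit 41646056424) (nat_lit 76) (nat_lit 49048131825) (nat_lit 80) (nat_lit 5) (nat_lit 82) (nat_lit 5) (nat_lit 81) (nat_lit 5) (nat_lit 547) (nat_lit 442) (nat_lit 211))) (XT.nd (nat_lit 78) (nat_lit 0) (nat_lit 0) (XT.lf (nat_lit 0) (nat_lit 13474067134) (nat_lit 152) (nat_lit 13649167556) (nat_lit 228) (nat_lit 66748355611) (nat_lit 78) (nat_lit 5) (nat_lit 80) (nat_lit 5) (nat_lit 81) (nat_lit 5) (nat_lit 548) (nat_lit 442) (nat_lit 210)) (XT.lf (nat_lit 0) (nat_lit 54293503577) (nat_lit 228) (nat_lit 24848469059) (nat_lit 76) (nat_lit 16636453905) (nat_lit 78) (nat_lit 5) (nat_lit 81) (nat_lit 5) (nat_lit 79) (nat_lit 4) (nat_lit 549) (nat_lit 442) (nat_lit 209)))) (XT.nd (nat_lit 156) (nat_lit 0) (nat_lit 76) (XT.nd (nat_lit 78) (nat_lit 0) (nat_lit 0) (XT.lf (nat_lit 0) (nat_lit 405908033) (nat_lit 1292) (nat_lit 3468715613) (nat_lit 1292) (nat_lit 3468715613) (nat_lit 309) (nat_lit 3)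 (nat_lit 326) (nat_lit 3) (nat_lit 326) (nat_lit 5) (nat_lit 443) (nat_lit 443) (nat_lit 314)) (XT.lf (nat_lit 76) (nat_lit 354325437) (nat_lit 0) (nat_lit 783611884) (nat_lit 1292) (nat_lit 13759594331) (nat_lit 310) (nat_lit 5) (nat_lit 309) (nat_lit 3) (nat_lit 326) (nat_lit 5) (nat_lit 444) (nat_lit 443) (nat_lit 313))) (XT.nd (nat_lit 78) (nat_lit 0) (nat_lit 0) (XT.lf (nat_lit 0) (nat_lit 1593899671) (nat_lit 1216) (nat_lit 7174479875) (nat_lit 1292) (nat_lit 6342730233) (nat_lit 310) (nat_lit 5) (nat_lit 326) (nat_lit 5) (nat_lit 327) (nat_lit 5) (nat_lit 445) (nat_lit 443) (nat_lit 312)) (XT.lf (nat_lit 76) (nat_lit 408938589) (nat_lit 0) (nat_lit 1654520213) (nat_lit 1292) (nat_lit 13267639998) (nat_lit 311) (nat_lit 5) (nat_lit 310) (nat_lit 5) (nat_lit 327) (nat_lit 5) (nat_lit 446) (nat_lit 443) (nat_lit 311))))))))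
noncomputable def xc186 : XT := (XT.nd (nat_lit 2418) (nat_lit 6688) (nat_lit 0) (XT.nd (nat_lit 1170) (nat_lit 5320) (nat_lit 0) (XT.nd (nat_lit 546) (nat_lit 836) (nat_lit 0) (XT.nd (nat_lit 234) (nat_lit 0) (nat_lit 76) (XT.nd (nat_lit 78) (nat_lit 0) (nat_lit 0) (XT.lf (nat_lit 0) (nat_lit 2663356452) (nat_lit 1216) (nat_lit 7250751842) (nat_lit 1292) (nat_lit 5640092703) (nat_lit 311) (nat_lit 5) (nat_lit 327) (nat_lit 5) (nat_lit 328) (nat_lit 5) (nat_lit 447) (nat_lit 443) (nat_lit 310)) (XT.nd (nat_lit 78) (nat_lit 0) (nat_lit 76) (XT.lf (nat_lit 76) (nat_lit 640191474) (nat_lit 0) (nat_lit 2652484434) (nat_lit 1292) (nat_lit 12490978630) (nat_lit 312) (nat_lit 5) (nat_lit 311) (nat_lit 5) (nat_lit 328) (nat_lit 5) (nat_lit 448) (nat_lit 443) (nat_lit 309)) (XT.lf (nat_lit 0) (nat_lit 4050407813) (nat_lit 1216) (nat_lit 7155443004) (nat_lit 1292) (nat_lit 4810855880) (nat_lit 312) (nat_lit 5) (nat_lit 328)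 (nat_lit 5) (nat_lit 329) (nat_lit 5) (nat_lit 449) (nat_lit 443) (nat_lit 308)))) (XT.nd (nat_lit 156) (nat_lit 0) (nat_lit 76) (XT.nd (nat_lit 78) (nat_lit 0) (nat_lit 76) (XT.lf (nat_lit 76) (nat_lit 1059821451) (nat_lit 0) (nat_lit 3797004553) (nat_lit 1292) (nat_lit 11399146751) (nat_lit 313) (nat_lit 5) (nat_lit 312) (nat_lit 5) (nat_lit 329) (nat_lit 5) (nat_lit 450) (nat_lit 443) (nat_lit 307)) (XT.lf (nat_lit 0) (nat_lit 5787042869) (nat_lit 1216) (nat_lit 6876687293) (nat_lit 1292) (nat_lit 3835699389) (nat_lit 313) (nat_lit 5) (nat_lit 329) (nat_lit 5) (nat_lit 330) (nat_lit 5) (nat_lit 451) (nat_lit 443) (nat_lit 306))) (XT.nd (nat_lit 78) (nat_lit 0) (nat_lit 76) (XT.lf (nat_lit 76) (nat_lit 1680678752) (nat_lit 0) (nat_lit 5108313996) (nat_lit 1292) (nat_lit 9959883420) (nat_lit 314) (nat_lit 5) (nat_lit 313) (nat_lit 5) (nat_lit 330) (nat_lit 5) (nat_lit 452) (nat_lit 443) (nat_lit 305)) (XT.lf (nat_lit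 0) (nat_lit 7907159493) (nat_lit 1216) (nat_lit 6401517205) (nat_lit 1292) (nat_lit 2694545619) (nat_lit 314) (nat_lit 5) (nat_lit 330) (nat_lit 5) (nat_lit 331) (nat_lit 5) (nat_lit 453) (nat_lit 443) (nat_lit 304))))) (XT.nd (nat_lit 312) (nat_lit 1064) (nat_lit 0) (XT.nd (nat_lit 156) (nat_lit 0) (nat_lit 76) (XT.nd (nat_lit 78) (nat_lit 0) (nat_lit 76) (XT.lf (nat_lit 76) (nat_lit 2516769136) (nat_lit 0) (nat_lit 6607481820) (nat_lit 1292) (nat_lit 8138987361) (nat_lit 315) (nat_lit 5) (nat_lit 314) (nat_lit 5) (nat_lit 331) (nat_lit 5) (nat_lit 454) (nat_lit 443) (nat_lit 303)) (XT.lf (nat_lit 0) (nat_lit 10446711774) (nat_lit 1216) (nat_lit 5715819806) (nat_lit 1292) (nat_lit 1366458354) (nat_lit 315) (nat_lit 5) (nat_lit 331) (nat_lit 5) (nat_lit 332) (nat_lit 5) (nat_lit 455) (nat_lit 443) (nat_lit 302))) (XT.nd (nat_lit 78) (nat_lit 0) (nat_lit 0) (XT.lf (nat_lit 76) (nat_lit 3583301199) (nat_lit 0) (nat_lit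 8316517035) (nat_lit 1292) (nat_lit 5900167520) (nat_lit 316) (nat_lit 5) (nat_lit 315) (nat_lit 5) (nat_lit 332) (nat_lit 5) (nat_lit 456) (nat_lit 443) (nat_lit 301)) (XT.lf (nat_lit 76) (nat_lit 13271682328) (nat_lit 0) (nat_lit 173853341) (nat_lit 1292) (nat_lit 4632106034) (nat_lit 316) (nat_lit 5) (nat_lit 315) (nat_lit 5) (nat_lit 332) (nat_lit 5) (nat_lit 457) (nat_lit 443) (nat_lit 300)))) (XT.nd (nat_lit 156) (nat_lit 1216) (nat_lit 0) (XT.nd (nat_lit 78) (nat_lit 0) (nat_lit 0) (XT.lf (nat_lit 76) (nat_lit 4896738401) (nat_lit 0) (nat_lit 10258475517) (nat_lit 1292) (nat_lit 3204886494) (nat_lit 317) (nat_lit 5) (nat_lit 316) (nat_lit 5) (nat_lit 333) (nat_lit 5) (nat_lit 458) (nat_lit 443) (nat_lit 299)) (XT.lf (nat_lit 76) (nat_lit 14980394241) (nat_lit 0) (nat_lit 1977772451) (nat_lit 1292) (nat_lit 1691607408) (nat_lit 317) (nat_lit 5) (nat_lit 316) (nat_lit 5) (nat_lit 333) (nat_lit 5) (nat_lit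 459) (nat_lit 443) (nat_lit 298))) (XT.nd (nat_lit 78) (nat_lit 76) (nat_lit 0) (XT.lf (nat_lit 0) (nat_lit 6474855901) (nat_lit 1216) (nat_lit 12457570062) (nat_lit 1292) (nat_lit 12196217) (nat_lit 301) (nat_lit 5) (nat_lit 317) (nat_lit 5) (nat_lit 318) (nat_lit 5) (nat_lit 460) (nat_lit 443) (nat_lit 297)) (XT.lf (nat_lit 0) (nat_lit 1733173841) (nat_lit 1292) (nat_lit 2292054122) (nat_lit 76) (nat_lit 15221120309) (nat_lit 300) (nat_lit 5) (nat_lit 317) (nat_lit 5) (nat_lit 301) (nat_lit 5) (nat_lit 461) (nat_lit 443) (nat_lit 296)))))) (XT.nd (nat_lit 624) (nat_lit 2128) (nat_lit 0) (XT.nd (nat_lit 312) (nat_lit 1140) (nat_lit 0) (XT.nd (nat_lit 156) (nat_lit 1216) (nat_lit 0) (XT.nd (nat_lit 78) (nat_lit 0) (nat_lit 0) (XT.lf (nat_lit 0) (nat_lit 3648816120) (nat_lit 912) (nat_lit 11253622082) (nat_lit 76) (nat_lit 4651140293) (nat_lit 289) (nat_lit 5) (nat_lit 301) (nat_lit 5) (nat_lit 290) (nat_lit 5)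 (nat_lit 462) (nat_lit 443) (nat_lit 295)) (XT.lf (nat_lit 0) (nat_lit 5677642971) (nat_lit 912) (nat_lit 659692112) (nat_lit 76) (nat_lit 13531019722) (nat_lit 289) (nat_lit 5) (nat_lit 301) (nat_lit 5) (nat_lit 290) (nat_lit 5) (nat_lit 463) (nat_lit 443) (nat_lit 294))) (XT.nd (nat_lit 78) (nat_lit 608) (nat_lit 0) (XT.lf (nat_lit 0) (nat_lit 7885368444) (nat_lit 684) (nat_lit 9765494338) (nat_lit 76) (nat_lit 2538171229) (nat_lit 281) (nat_lit 5) (nat_lit 290) (nat_lit 5) (nat_lit 282) (nat_lit 5) (nat_lit 464) (nat_lit 443) (nat_lit 293)) (XT.lf (nat_lit 0) (nat_lit 1289061057) (nat_lit 608) (nat_lit 8944987229) (nat_lit 684) (nat_lit 10283044230) (nat_lit 273) (nat_lit 5) (nat_lit 281) (nat_lit 5) (nat_lit 282) (nat_lit 5) (nat_lit 465) (nat_lit 443) (nat_lit 292)))) (XT.nd (nat_lit 156) (nat_lit 608) (nat_lit 0) (XT.nd (nat_lit 78) (nat_lit 532) (nat_lit 0) (XT.lf (nat_lit 0) (nat_lit 12745990460) (nat_lit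 684) (nat_lit 7984869519) (nat_lit 76) (nat_lit 121349326) (nat_lit 273) (nat_lit 5) (nat_lit 282) (nat_lit 5) (nat_lit 274) (nat_lit 5) (nat_lit 466) (nat_lit 443) (nat_lit 291)) (XT.lf (nat_lit 0) (nat_lit 3569806296) (nat_lit 532) (nat_lit 11879568976) (nat_lit 608) (nat_lit 5744522361) (nat_lit 266) (nat_lit 5) (nat_lit 273) (nat_lit 5) (nat_lit 274) (nat_lit 5) (nat_lit 467) (nat_lit 443) (nat_lit 290))) (XT.nd (nat_lit 78) (nat_lit 608) (nat_lit 0) (XT.lf (nat_lit 0) (nat_lit 15627995269) (nat_lit 532) (nat_lit 2679835328) (nat_lit 608) (nat_lit 3235787496) (nat_lit 266) (nat_lit 5) (nat_lit 273) (nat_lit 5) (nat_lit 274) (nat_lit 5) (nat_lit 468) (nat_lit 443) (nat_lit 289)) (XT.lf (nat_lit 0) (nat_lit 6192813571) (nat_lit 608) (nat_lit 15177611508) (nat_lit 684) (nat_lit 529854059) (nat_lit 258) (nat_lit 5) (nat_lit 266) (nat_lit 5) (nat_lit 267) (nat_lit 5) (nat_lit 469) (nat_lit 443) (nat_lit 288)))))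 (XT.nd (nat_lit 312) (nat_lit 988) (nat_lit 0) (XT.nd (nat_lit 156) (nat_lit 532) (nat_lit 0) (XT.nd (nat_lit 78) (nat_lit 532) (nat_lit 0) (XT.lf (nat_lit 0) (nat_lit 2293661286) (nat_lit 684) (nat_lit 3535768385) (nat_lit 76) (nat_lit 16435146370) (nat_lit 257) (nat_lit 5) (nat_lit 266) (nat_lit 5) (nat_lit 258) (nat_lit 5) (nat_lit 470) (nat_lit 443) (nat_lit 287)) (XT.lf (nat_lit 0) (nat_lit 5310579266) (nat_lit 608) (nat_lit 13506557942) (nat_lit 76) (nat_lit 3818927348) (nat_lit 250) (nat_lit 5) (nat_lit 258) (nat_lit 5) (nat_lit 251) (nat_lit 5) (nat_lit 471) (nat_lit 443) (nat_lit 286))) (XT.nd (nat_lit 78) (nat_lit 532) (nat_lit 0) (XT.lf (nat_lit 0) (nat_lit 8505669945) (nat_lit 608) (nat_lit 835256515) (nat_lit 76) (nat_lit 13675141789) (nat_lit 250) (nat_lit 5) (nat_lit 258) (nat_lit 5) (nat_lit 251) (nat_lit 5) (nat_lit 472) (nat_lit 443) (nat_lit 285)) (XT.lf (nat_lit 0) (nat_lit 11915595574) (nat_lit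 608) (nat_lit 10956674008) (nat_lit 76) (nat_lit 531633465) (nat_lit 243) (nat_lit 5) (nat_lit 251) (nat_lit 5) (nat_lit 244) (nat_lit 5) (nat_lit 473) (nat_lit 443) (nat_lit 284)))) (XT.nd (nat_lit 156) (nat_lit 532) (nat_lit 0) (XT.nd (nat_lit 78) (nat_lit 0) (nat_lit 0) (XT.lf (nat_lit 0) (nat_lit 2287576795) (nat_lit 456) (nat_lit 13257405744) (nat_lit 532) (nat_lit 8254875891) (nat_lit 237) (nat_lit 5) (nat_lit 243) (nat_lit 5) (nat_lit 244) (nat_lit 5) (nat_lit 474) (nat_lit 443) (nat_lit 283)) (XT.lf (nat_lit 0) (nat_lit 16147136361) (nat_lit 456) (nat_lit 3241033399) (nat_lit 532) (nat_lit 4816375592) (nat_lit 237) (nat_lit 5) (nat_lit 243) (nat_lit 5) (nat_lit 244) (nat_lit 5) (nat_lit 475) (nat_lit 443) (nat_lit 282))) (XT.nd (nat_lit 78) (nat_lit 76) (nat_lit 0) (XT.lf (nat_lit 0) (nat_lit 5840475598) (nat_lit 456) (nat_lit 17624772444) (nat_lit 532) (nat_lit 1152567397) (nat_lit 231) (nat_lit 5) (nat_lit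 237) (nat_lit 5) (nat_lit 238) (nat_lit 5) (nat_lit 476) (nat_lit 443) (nat_lit 281)) (XT.lf (nat_lit 0) (nat_lit 2678746802) (nat_lit 532) (nat_lit 4785299584) (nat_lit 76) (nat_lit 17575419559) (nat_lit 230) (nat_lit 5) (nat_lit 237) (nat_lit 5) (nat_lit 231) (nat_lit 5) (nat_lit 477) (nat_lit 443) (nat_lit 280))))))) (XT.nd (nat_lit 1170) (nat_lit 3040) (nat_lit 0) (XT.nd (nat_lit 546) (nat_lit 1824) (nat_lit 0) (XT.nd (nat_lit 234) (nat_lit 912) (nat_lit 0) (XT.nd (nat_lit 78) (nat_lit 456) (nat_lit 0) (XT.lf (nat_lit 0) (nat_lit 6720566636) (nat_lit 532) (nat_lit 15700763184) (nat_lit 76) (nat_lit 3048532236) (nat_lit 224) (nat_lit 5) (nat_lit 231) (nat_lit 5) (nat_lit 225) (nat_lit 5) (nat_lit 478) (nat_lit 443) (nat_lit 279)) (XT.nd (nat_lit 78) (nat_lit 456) (nat_lit 0) (XT.lf (nat_lit 0) (nat_lit 11001068826) (nat_lit 532) (nat_lit 1134399785) (nat_lit 76) (nat_lit 13774178982) (nat_lit 224) (nat_lit 5)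 (nat_lit 231) (nat_lit 5) (nat_lit 225) (nat_lit 5) (nat_lit 479) (nat_lit 443) (nat_lit 278)) (XT.lf (nat_lit 0) (nat_lit 14138515107) (nat_lit 456) (nat_lit 1402258382) (nat_lit 532) (nat_lit 10817929949) (nat_lit 218) (nat_lit 5) (nat_lit 224) (nat_lit 5) (nat_lit 225) (nat_lit 5) (nat_lit 480) (nat_lit 443) (nat_lit 277)))) (XT.nd (nat_lit 156) (nat_lit 532) (nat_lit 0) (XT.nd (nat_lit 78) (nat_lit 0) (nat_lit 0) (XT.lf (nat_lit 0) (nat_lit 3031832665) (nat_lit 380) (nat_lit 17313295443) (nat_lit 456) (nat_lit 6472249442) (nat_lit 213) (nat_lit 5) (nat_lit 218) (nat_lit 5) (nat_lit 219) (nat_lit 5) (nat_lit 481) (nat_lit 443) (nat_lit 276)) (XT.lf (nat_lit 0) (nat_lit 18971408883) (nat_lit 380) (nat_lit 6454394254) (nat_lit 456) (nat_lit 1860043397) (nat_lit 213) (nat_lit 5) (nat_lit 218) (nat_lit 5) (nat_lit 219) (nat_lit 5) (nat_lit 482) (nat_lit 443) (nat_lit 275))) (XT.nd (nat_lit 78) (nat_lit 0) (nat_lit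 0) (XT.lf (nat_lit 0) (nat_lit 2950111184) (nat_lit 532) (nat_lit 20074169988) (nat_lit 76) (nat_lit 4739775564) (nat_lit 206) (nat_lit 5) (nat_lit 213) (nat_lit 5) (nat_lit 207) (nat_lit 5) (nat_lit 483) (nat_lit 443) (nat_lit 274)) (XT.lf (nat_lit 0) (nat_lit 8011088060) (nat_lit 532) (nat_lit 3998796331) (nat_lit 76) (nat_lit 16241859600) (nat_lit 206) (nat_lit 5) (nat_lit 213) (nat_lit 5) (nat_lit 207) (nat_lit 5) (nat_lit 484) (nat_lit 443) (nat_lit 273))))) (XT.nd (nat_lit 312) (nat_lit 684) (nat_lit 0) (XT.nd (nat_lit 156) (nat_lit 380) (nat_lit 0) (XT.nd (nat_lit 78) (nat_lit 380) (nat_lit 0) (XT.lf (nat_lit 0) (nat_lit 12802517962) (nat_lit 380) (nat_lit 539788511) (nat_lit 456) (nat_lit 15408203328) (nat_lit 201) (nat_lit 5) (nat_lit 206) (nat_lit 5) (nat_lit 207) (nat_lit 5) (nat_lit 485) (nat_lit 443) (nat_lit 272)) (XT.lf (nat_lit 0) (nat_lit 827989961) (nat_lit 380) (nat_lit 18157996120) (nat_lit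 456) (nat_lit 10273677061) (nat_lit 196) (nat_lit 5) (nat_lit 201) (nat_lit 5) (nat_lit 202) (nat_lit 5) (nat_lit 486) (nat_lit 443) (nat_lit 271))) (XT.nd (nat_lit 78) (nat_lit 380) (nat_lit 0) (XT.lf (nat_lit 0) (nat_lit 18422572781) (nat_lit 380) (nat_lit 6538222589) (nat_lit 456) (nat_lit 4818441422) (nat_lit 196) (nat_lit 5) (nat_lit 201) (nat_lit 5) (nat_lit 202) (nat_lit 5) (nat_lit 487) (nat_lit 443) (nat_lit 270)) (XT.lf (nat_lit 0) (nat_lit 894214591) (nat_lit 380) (nat_lit 24024760131) (nat_lit 76) (nat_lit 5391910880) (nat_lit 191) (nat_lit 5) (nat_lit 196) (nat_lit 5) (nat_lit 192) (nat_lit 5) (nat_lit 488) (nat_lit 443) (nat_lit 269)))) (XT.nd (nat_lit 156) (nat_lit 304) (nat_lit 0) (XT.nd (nat_lit 78) (nat_lit 380) (nat_lit 0) (XT.lf (nat_lit 0) (nat_lit 6857581990) (nat_lit 380) (nat_lit 6283733101) (nat_lit 76) (nat_lit 17710452498) (nat_lit 191) (nat_lit 5) (nat_lit 196) (nat_lit 5) (nat_lit 192)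 (nat_lit 5) (nat_lit 489) (nat_lit 443) (nat_lit 268)) (XT.lf (nat_lit 0) (nat_lit 12222088621) (nat_lit 380) (nat_lit 891002591) (nat_lit 456) (nat_lit 18292387858) (nat_lit 186) (nat_lit 5) (nat_lit 191) (nat_lit 5) (nat_lit 192) (nat_lit 5) (nat_lit 490) (nat_lit 443) (nat_lit 267))) (XT.nd (nat_lit 78) (nat_lit 304) (nat_lit 0) (XT.lf (nat_lit 0) (nat_lit 19728878183) (nat_lit 456) (nat_lit 681340746) (nat_lit 76) (nat_lit 11560404839) (nat_lit 186) (nat_lit 5) (nat_lit 192) (nat_lit 5) (nat_lit 187) (nat_lit 5) (nat_lit 491) (nat_lit 443) (nat_lit 266)) (XT.lf (nat_lit 0) (nat_lit 18726561393) (nat_lit 304) (nat_lit 8001337987) (nat_lit 380) (nat_lit 5819280848) (nat_lit 182) (nat_lit 5) (nat_lit 186) (nat_lit 5) (nat_lit 187) (nat_lit 5) (nat_lit 492) (nat_lit 443) (nat_lit 265)))))) (XT.nd (nat_lit 624) (nat_lit 1368) (nat_lit 0) (XT.nd (nat_lit 312) (nat_lit 988) (nat_lit 0) (XT.nd (nat_lit 156) (nat_lit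 304) (nat_lit 0) (XT.nd (nat_lit 78) (nat_lit 0) (nat_lit 0) (XT.lf (nat_lit 0) (nat_lit 884511750) (nat_lit 380) (nat_lit 27498424800) (nat_lit 76) (nat_lit 4754742033) (nat_lit 177) (nat_lit 5) (nat_lit 182) (nat_lit 5) (nat_lit 178) (nat_lit 5) (nat_lit 493) (nat_lit 443) (nat_lit 264)) (XT.lf (nat_lit 0) (nat_lit 7888616689) (nat_lit 380) (nat_lit 7919572114) (nat_lit 76) (nat_lit 17929489997) (nat_lit 177) (nat_lit 5) (nat_lit 182) (nat_lit 5) (nat_lit 178) (nat_lit 5) (nat_lit 494) (nat_lit 443) (nat_lit 263))) (XT.nd (nat_lit 78) (nat_lit 0) (nat_lit 0) (XT.lf (nat_lit 0) (nat_lit 12484556886) (nat_lit 304) (nat_lit 2734409934) (nat_lit 380) (nat_lit 19133228756) (nat_lit 173) (nat_lit 5) (nat_lit 177) (nat_lit 5) (nat_lit 178) (nat_lit 5) (nat_lit 495) (nat_lit 443) (nat_lit 262)) (XT.lf (nat_lit 0) (nat_lit 22949304148) (nat_lit 380) (nat_lit 1429295309) (nat_lit 76) (nat_lit 10601146305) (nat_lit 173)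 (nat_lit 5) (nat_lit 178) (nat_lit 5) (nat_lit 174) (nat_lit 5) (nat_lit 496) (nat_lit 443) (nat_lit 261)))) (XT.nd (nat_lit 156) (nat_lit 304) (nat_lit 0) (XT.nd (nat_lit 78) (nat_lit 380) (nat_lit 0) (XT.lf (nat_lit 0) (nat_lit 19979413281) (nat_lit 304) (nat_lit 11147532238) (nat_lit 380) (nat_lit 4492715319) (nat_lit 169) (nat_lit 5) (nat_lit 173) (nat_lit 5) (nat_lit 174) (nat_lit 5) (nat_lit 497) (nat_lit 443) (nat_lit 260)) (XT.lf (nat_lit 0) (nat_lit 3299326278) (nat_lit 380) (nat_lit 30442180532) (nat_lit 76) (nat_lit 2533562961) (nat_lit 164) (nat_lit 5) (nat_lit 169) (nat_lit 5) (nat_lit 165) (nat_lit 5) (nat_lit 498) (nat_lit 443) (nat_lit 259))) (XT.nd (nat_lit 78) (nat_lit 304) (nat_lit 0) (XT.lf (nat_lit 0) (nat_lit 11501023127) (nat_lit 380) (nat_lit 8836629038) (nat_lit 76) (nat_lit 16603168729) (nat_lit 164) (nat_lit 5) (nat_lit 169) (nat_lit 5) (nat_lit 165) (nat_lit 5) (nat_lit 499) (nat_lit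 443) (nat_lit 258)) (XT.lf (nat_lit 0) (nat_lit 13678532290) (nat_lit 304) (nat_lit 6398154109) (nat_lit 380) (nat_lit 17546020863) (nat_lit 160) (nat_lit 5) (nat_lit 164) (nat_lit 5) (nat_lit 165) (nat_lit 5) (nat_lit 500) (nat_lit 443) (nat_lit 257))))) (XT.nd (nat_lit 312) (nat_lit 760) (nat_lit 0) (XT.nd (nat_lit 156) (nat_lit 380) (nat_lit 0) (XT.nd (nat_lit 78) (nat_lit 228) (nat_lit 0) (XT.lf (nat_lit 0) (nat_lit 29072710274) (nat_lit 380) (nat_lit 1354985846) (nat_lit 76) (nat_lit 7892461557) (nat_lit 160) (nat_lit 5) (nat_lit 165) (nat_lit 5) (nat_lit 161) (nat_lit 5) (nat_lit 501) (nat_lit 443) (nat_lit 256)) (XT.lf (nat_lit 0) (nat_lit 22277905558) (nat_lit 228) (nat_lit 16334771973) (nat_lit 304) (nat_lit 417632361) (nat_lit 157) (nat_lit 5) (nat_lit 160) (nat_lit 5) (nat_lit 161) (nat_lit 5) (nat_lit 502) (nat_lit 443) (nat_lit 255))) (XT.nd (nat_lit 78) (nat_lit 0) (nat_lit 0) (XT.lf (nat_lit 0) (nat_lit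 6932574762) (nat_lit 304) (nat_lit 1652220863) (nat_lit 380) (nat_lit 31172157740) (nat_lit 152) (nat_lit 5) (nat_lit 156) (nat_lit 5) (nat_lit 157) (nat_lit 5) (nat_lit 503) (nat_lit 443) (nat_lit 254)) (XT.lf (nat_lit 0) (nat_lit 18145844517) (nat_lit 380) (nat_lit 8969502895) (nat_lit 76) (nat_lit 13381016575) (nat_lit 152) (nat_lit 5) (nat_lit 157) (nat_lit 5) (nat_lit 153) (nat_lit 5) (nat_lit 504) (nat_lit 443) (nat_lit 253)))) (XT.nd (nat_lit 156) (nat_lit 532) (nat_lit 0) (XT.nd (nat_lit 78) (nat_lit 0) (nat_lit 0) (XT.lf (nat_lit 0) (nat_lit 15889485320) (nat_lit 228) (nat_lit 12270047411) (nat_lit 304) (nat_lit 13093450110) (nat_lit 149) (nat_lit 5) (nat_lit 152) (nat_lit 5) (nat_lit 153) (nat_lit 5) (nat_lit 505) (nat_lit 443) (nat_lit 252)) (XT.lf (nat_lit 0) (nat_lit 38590875845) (nat_lit 304) (nat_lit 386670287) (nat_lit 76) (nat_lit 3051236948) (nat_lit 149) (nat_lit 5) (nat_lit 153) (nat_lit 5)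 (nat_lit 150) (nat_lit 5) (nat_lit 506) (nat_lit 443) (nat_lit 251))) (XT.nd (nat_lit 78) (nat_lit 228) (nat_lit 0) (XT.lf (nat_lit 0) (nat_lit 6749442455) (nat_lit 304) (nat_lit 17168412180) (nat_lit 76) (nat_lit 18897052621) (nat_lit 145) (nat_lit 5) (nat_lit 149) (nat_lit 5) (nat_lit 146) (nat_lit 5) (nat_lit 507) (nat_lit 443) (nat_lit 250)) (XT.lf (nat_lit 0) (nat_lit 8980117609) (nat_lit 228) (nat_lit 8280306862) (nat_lit 304) (nat_lit 26360556348) (nat_lit 142) (nat_lit 5) (nat_lit 145) (nat_lit 5) (nat_lit 146) (nat_lit 5) (nat_lit 508) (nat_lit 443) (nat_lit 249))))))))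
noncomputable def xc187 : XT := (XT.nd (nat_lit 2418) (nat_lit 912) (nat_lit 0) (XT.nd (nat_lit 1170) (nat_lit 1824) (nat_lit 0) (XT.nd (nat_lit 546) (nat_lit 1140) (nat_lit 0) (XT.nd (nat_lit 234) (nat_lit 456) (nat_lit 0) (XT.nd (nat_lit 78) (nat_lit 532) (nat_lit 0) (XT.lf (nat_lit 0) (nat_lit 28333920584) (nat_lit 304) (nat_lit 8263092643) (nat_lit 76) (nat_lit 7846807952) (nat_lit 142) (nat_lit 5) (nat_lit 146) (nat_lit 5) (nat_lit 143) (nat_lit 5) (nat_lit 509) (nat_lit 443) (nat_lit 248)) (XT.nd (nat_lit 78) (nat_lit 304) (nat_lit 0) (XT.lf (nat_lit 0) (nat_lit 19193565688) (nat_lit 228) (nat_lit 20809499615) (nat_lit 304) (nat_lit 5280378261) (nat_lit 139) (nat_lit 5) (nat_lit 142) (nat_lit 5) (nat_lit 143) (nat_lit 5) (nat_lit 510) (nat_lit 443) (nat_lit 247)) (XT.lf (nat_lit 0) (nat_lit 1463822091) (nat_lit 228) (nat_lit 4390893859) (nat_lit 304) (nat_lit 40288985555) (nat_lit 135) (nat_lit 5) (nat_lit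 138) (nat_lit 5) (nat_lit 139) (nat_lit 5) (nat_lit 511) (nat_lit 443) (nat_lit 246)))) (XT.nd (nat_lit 156) (nat_lit 228) (nat_lit 0) (XT.nd (nat_lit 78) (nat_lit 228) (nat_lit 0) (XT.lf (nat_lit 0) (nat_lit 17601143129) (nat_lit 304) (nat_lit 16823186267) (nat_lit 76) (nat_lit 12592367159) (nat_lit 135) (nat_lit 5) (nat_lit 139) (nat_lit 5) (nat_lit 136) (nat_lit 5) (nat_lit 512) (nat_lit 443) (nat_lit 245)) (XT.lf (nat_lit 0) (nat_lit 12056107276) (nat_lit 228) (nat_lit 17800301234) (nat_lit 304) (nat_lit 18054779697) (nat_lit 132) (nat_lit 5) (nat_lit 135) (nat_lit 5) (nat_lit 136) (nat_lit 5) (nat_lit 513) (nat_lit 443) (nat_lit 244))) (XT.nd (nat_lit 78) (nat_lit 228) (nat_lit 0) (XT.lf (nat_lit 0) (nat_lit 42141802058) (nat_lit 228) (nat_lit 504530047) (nat_lit 304) (nat_lit 6181172605) (nat_lit 132) (nat_lit 5) (nat_lit 135) (nat_lit 5) (nat_lit 136) (nat_lit 5) (nat_lit 514) (nat_lit 443) (nat_lit 243))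 (XT.lf (nat_lit 0) (nat_lit 6325391722) (nat_lit 228) (nat_lit 26172518186) (nat_lit 76) (nat_lit 17259813208) (nat_lit 129) (nat_lit 5) (nat_lit 132) (nat_lit 5) (nat_lit 130) (nat_lit 5) (nat_lit 515) (nat_lit 443) (nat_lit 242))))) (XT.nd (nat_lit 312) (nat_lit 684) (nat_lit 0) (XT.nd (nat_lit 156) (nat_lit 228) (nat_lit 0) (XT.nd (nat_lit 78) (nat_lit 0) (nat_lit 0) (XT.lf (nat_lit 0) (nat_lit 4197746463) (nat_lit 228) (nat_lit 14995892435) (nat_lit 304) (nat_lit 31517051644) (nat_lit 126) (nat_lit 5) (nat_lit 129) (nat_lit 5) (nat_lit 130) (nat_lit 5) (nat_lit 516) (nat_lit 443) (nat_lit 241)) (XT.lf (nat_lit 0) (nat_lit 32741190288) (nat_lit 304) (nat_lit 15705230800) (nat_lit 76) (nat_lit 3237028295) (nat_lit 126) (nat_lit 5) (nat_lit 130) (nat_lit 5) (nat_lit 127) (nat_lit 5) (nat_lit 517) (nat_lit 443) (nat_lit 240))) (XT.nd (nat_lit 78) (nat_lit 76) (nat_lit 0) (XT.lf (nat_lit 0) (nat_lit 16189506538)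 (nat_lit 152) (nat_lit 30807051857) (nat_lit 228) (nat_lit 5679790983) (nat_lit 124) (nat_lit 5) (nat_lit 126) (nat_lit 5) (nat_lit 127) (nat_lit 5) (nat_lit 518) (nat_lit 443) (nat_lit 239)) (XT.lf (nat_lit 0) (nat_lit 7982284739) (nat_lit 228) (nat_lit 4414191917) (nat_lit 76) (nat_lit 41295534500) (nat_lit 123) (nat_lit 5) (nat_lit 126) (nat_lit 5) (nat_lit 124) (nat_lit 5) (nat_lit 519) (nat_lit 443) (nat_lit 238)))) (XT.nd (nat_lit 156) (nat_lit 304) (nat_lit 0) (XT.nd (nat_lit 78) (nat_lit 152) (nat_lit 0) (XT.lf (nat_lit 0) (nat_lit 22283873820) (nat_lit 304) (nat_lit 25666286368) (nat_lit 76) (nat_lit 6775981341) (nat_lit 120) (nat_lit 5) (nat_lit 124) (nat_lit 5) (nat_lit 121) (nat_lit 5) (nat_lit 520) (nat_lit 443) (nat_lit 237)) (XT.lf (nat_lit 0) (nat_lit 7864399159) (nat_lit 152) (nat_lit 29390856605) (nat_lit 228) (nat_lit 18528817777) (nat_lit 118) (nat_lit 5) (nat_lit 120) (nat_lit 5) (nat_lit 121)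 (nat_lit 5) (nat_lit 521) (nat_lit 443) (nat_lit 236))) (XT.nd (nat_lit 78) (nat_lit 304) (nat_lit 0) (XT.lf (nat_lit 0) (nat_lit 42922646882) (nat_lit 152) (nat_lit 10009738529) (nat_lit 228) (nat_lit 3933659995) (nat_lit 118) (nat_lit 5) (nat_lit 120) (nat_lit 5) (nat_lit 121) (nat_lit 5) (nat_lit 522) (nat_lit 443) (nat_lit 235)) (XT.lf (nat_lit 0) (nat_lit 11184289359) (nat_lit 304) (nat_lit 36712107227) (nat_lit 76) (nat_lit 10071833349) (nat_lit 114) (nat_lit 5) (nat_lit 118) (nat_lit 5) (nat_lit 115) (nat_lit 5) (nat_lit 523) (nat_lit 443) (nat_lit 234)))))) (XT.nd (nat_lit 624) (nat_lit 912) (nat_lit 0) (XT.nd (nat_lit 312) (nat_lit 532) (nat_lit 0) (XT.nd (nat_lit 156) (nat_lit 228) (nat_lit 0) (XT.nd (nat_lit 78) (nat_lit 152) (nat_lit 0) (XT.lf (nat_lit 0) (nat_lit 26915506554) (nat_lit 304) (nat_lit 1445672956) (nat_lit 76) (nat_lit 30733968389) (nat_lit 114) (nat_lit 5) (nat_lit 118) (nat_lit 5) (nat_lit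 115) (nat_lit 5) (nat_lit 524) (nat_lit 443) (nat_lit 233)) (XT.lf (nat_lit 0) (nat_lit 35568528280) (nat_lit 152) (nat_lit 7889602180) (nat_lit 228) (nat_lit 16787558908) (nat_lit 112) (nat_lit 5) (nat_lit 114) (nat_lit 5) (nat_lit 115) (nat_lit 5) (nat_lit 525) (nat_lit 443) (nat_lit 232))) (XT.nd (nat_lit 78) (nat_lit 76) (nat_lit 0) (XT.lf (nat_lit 0) (nat_lit 12403210336) (nat_lit 152) (nat_lit 48352218241) (nat_lit 228) (nat_lit 667566708) (nat_lit 110) (nat_lit 5) (nat_lit 112) (nat_lit 5) (nat_lit 113) (nat_lit 5) (nat_lit 526) (nat_lit 443) (nat_lit 231)) (XT.lf (nat_lit 0) (nat_lit 15952410919) (nat_lit 228) (nat_lit 11764377557) (nat_lit 76) (nat_lit 34904415717) (nat_lit 109) (nat_lit 5) (nat_lit 112) (nat_lit 5) (nat_lit 110) (nat_lit 5) (nat_lit 527) (nat_lit 443) (nat_lit 230)))) (XT.nd (nat_lit 156) (nat_lit 228) (nat_lit 0) (XT.nd (nat_lit 78) (nat_lit 152) (nat_lit 0) (XT.lf (nat_lit 0) (nat_lit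 27127243900) (nat_lit 152) (nat_lit 6188742504) (nat_lit 228) (nat_lit 30531422264) (nat_lit 107) (nat_lit 5) (nat_lit 109) (nat_lit 5) (nat_lit 110) (nat_lit 5) (nat_lit 528) (nat_lit 443) (nat_lit 229)) (XT.lf (nat_lit 0) (nat_lit 2203908015) (nat_lit 152) (nat_lit 49289042024) (nat_lit 228) (nat_lit 13608674872) (nat_lit 105) (nat_lit 5) (nat_lit 107) (nat_lit 5) (nat_lit 108) (nat_lit 5) (nat_lit 529) (nat_lit 443) (nat_lit 228))) (XT.nd (nat_lit 78) (nat_lit 152) (nat_lit 0) (XT.lf (nat_lit 0) (nat_lit 4180594777) (nat_lit 228) (nat_lit 23439801362) (nat_lit 76) (nat_lit 38758966968) (nat_lit 104) (nat_lit 5) (nat_lit 107) (nat_lit 5) (nat_lit 105) (nat_lit 5) (nat_lit 530) (nat_lit 443) (nat_lit 227)) (XT.lf (nat_lit 0) (nat_lit 17402617407) (nat_lit 152) (nat_lit 4992425128) (nat_lit 228) (nat_lit 45291398162) (nat_lit 102) (nat_lit 5) (nat_lit 104) (nat_lit 5) (nat_lit 105) (nat_lit 5) (nat_lit 531) (nat_lit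 443) (nat_lit 226))))) (XT.nd (nat_lit 312) (nat_lit 532) (nat_lit 0) (XT.nd (nat_lit 156) (nat_lit 228) (nat_lit 0) (XT.nd (nat_lit 78) (nat_lit 152) (nat_lit 0) (XT.lf (nat_lit 0) (nat_lit 41568758377) (nat_lit 228) (nat_lit 9257313036) (nat_lit 76) (nat_lit 18194274218) (nat_lit 102) (nat_lit 5) (nat_lit 105) (nat_lit 5) (nat_lit 103) (nat_lit 5) (nat_lit 532) (nat_lit 443) (nat_lit 225)) (XT.lf (nat_lit 0) (nat_lit 33602291109) (nat_lit 152) (nat_lit 28085641983) (nat_lit 228) (nat_lit 8695227252) (nat_lit 100) (nat_lit 5) (nat_lit 102) (nat_lit 5) (nat_lit 103) (nat_lit 5) (nat_lit 533) (nat_lit 443) (nat_lit 224))) (XT.nd (nat_lit 78) (nat_lit 0) (nat_lit 0) (XT.lf (nat_lit 0) (nat_lit 6166702725) (nat_lit 152) (nat_lit 4401312269) (nat_lit 228) (nat_lit 61211235861) (nat_lit 97) (nat_lit 5) (nat_lit 99) (nat_lit 5) (nat_lit 100) (nat_lit 5) (nat_lit 534) (nat_lit 443) (nat_lit 223)) (XT.lf (nat_lit 0) (nat_lit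 30799496048) (nat_lit 228) (nat_lit 22335353408) (nat_lit 76) (nat_lit 20062838721) (nat_lit 97) (nat_lit 5) (nat_lit 100) (nat_lit 5) (nat_lit 98) (nat_lit 5) (nat_lit 535) (nat_lit 443) (nat_lit 222)))) (XT.nd (nat_lit 156) (nat_lit 380) (nat_lit 0) (XT.nd (nat_lit 78) (nat_lit 0) (nat_lit 0) (XT.lf (nat_lit 0) (nat_lit 22634387915) (nat_lit 152) (nat_lit 29262574664) (nat_lit 228) (nat_lit 22753944855) (nat_lit 95) (nat_lit 5) (nat_lit 97) (nat_lit 5) (nat_lit 98) (nat_lit 5) (nat_lit 536) (nat_lit 443) (nat_lit 221)) (XT.lf (nat_lit 0) (nat_lit 69407241947) (nat_lit 152) (nat_lit 4443567221) (nat_lit 228) (nat_lit 2290210468) (nat_lit 95) (nat_lit 5) (nat_lit 97) (nat_lit 5) (nat_lit 98) (nat_lit 5) (nat_lit 537) (nat_lit 443) (nat_lit 220))) (XT.nd (nat_lit 78) (nat_lit 152) (nat_lit 0) (XT.lf (nat_lit 0) (nat_lit 19016866841) (nat_lit 228) (nat_lit 37353785521) (nat_lit 76) (nat_lit 21281883751) (nat_lit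 92) (nat_lit 5) (nat_lit 95) (nat_lit 5) (nat_lit 93) (nat_lit 5) (nat_lit 538) (nat_lit 443) (nat_lit 219)) (XT.lf (nat_lit 0) (nat_lit 9792914114) (nat_lit 152) (nat_lit 31328974701) (nat_lit 228) (nat_lit 38080686150) (nat_lit 90) (nat_lit 5) (nat_lit 92) (nat_lit 5) (nat_lit 93) (nat_lit 5) (nat_lit 539) (nat_lit 443) (nat_lit 218))))))) (XT.nd (nat_lit 55458) (nat_lit 0) (nat_lit 15428) (XT.nd (nat_lit 624) (nat_lit 304) (nat_lit 0) (XT.nd (nat_lit 312) (nat_lit 304) (nat_lit 0) (XT.nd (nat_lit 156) (nat_lit 152) (nat_lit 0) (XT.nd (nat_lit 78) (nat_lit 152) (nat_lit 0) (XT.lf (nat_lit 0) (nat_lit 59115998655) (nat_lit 152) (nat_lit 5149247217) (nat_lit 228) (nat_lit 16522613621) (nat_lit 90) (nat_lit 5) (nat_lit 92) (nat_lit 5) (nat_lit 93) (nat_lit 5) (nat_lit 540) (nat_lit 443) (nat_lit 217)) (XT.lf (nat_lit 0) (nat_lit 6051257779) (nat_lit 152) (nat_lit 54638053106) (nat_lit 76) (nat_lit 21715354979) (nat_lit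 88) (nat_lit 5) (nat_lit 90) (nat_lit 5) (nat_lit 89) (nat_lit 5) (nat_lit 541) (nat_lit 443) (nat_lit 216))) (XT.nd (nat_lit 78) (nat_lit 152) (nat_lit 0) (XT.lf (nat_lit 0) (nat_lit 29240280196) (nat_lit 152) (nat_lit 5151327694) (nat_lit 76) (nat_lit 49665360174) (nat_lit 88) (nat_lit 5) (nat_lit 90) (nat_lit 5) (nat_lit 89) (nat_lit 5) (nat_lit 542) (nat_lit 443) (nat_lit 215)) (XT.lf (nat_lit 0) (nat_lit 46728273900) (nat_lit 152) (nat_lit 6843967845) (nat_lit 228) (nat_lit 32173179568) (nat_lit 86) (nat_lit 5) (nat_lit 88) (nat_lit 5) (nat_lit 89) (nat_lit 5) (nat_lit 543) (nat_lit 443) (nat_lit 214)))) (XT.nd (nat_lit 156) (nat_lit 152) (nat_lit 0) (XT.nd (nat_lit 78) (nat_lit 76) (nat_lit 0) (XT.lf (nat_lit 0) (nat_lit 12826133014) (nat_lit 76) (nat_lit 66188909370) (nat_lit 152) (nat_lit 8458059405) (nat_lit 85) (nat_lit 5) (nat_lit 86) (nat_lit 5) (nat_lit 87) (nat_lit 4) (nat_lit 544) (nat_lit 443) (nat_lit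 213)) (XT.lf (nat_lit 0) (nat_lit 16120667449) (nat_lit 152) (nat_lit 22445001322) (nat_lit 76) (nat_lit 50668426276) (nat_lit 84) (nat_lit 5) (nat_lit 86) (nat_lit 5) (nat_lit 85) (nat_lit 5) (nat_lit 545) (nat_lit 443) (nat_lit 212))) (XT.nd (nat_lit 78) (nat_lit 0) (nat_lit 0) (XT.lf (nat_lit 0) (nat_lit 31857468445) (nat_lit 152) (nat_lit 9713674577) (nat_lit 228) (nat_lit 49465131254) (nat_lit 82) (nat_lit 5) (nat_lit 84) (nat_lit 5) (nat_lit 85) (nat_lit 5) (nat_lit 546) (nat_lit 443) (nat_lit 211)) (XT.lf (nat_lit 0) (nat_lit 68204474391) (nat_lit 228) (nat_lit 4834613039) (nat_lit 76) (nat_lit 19840851237) (nat_lit 82) (nat_lit 5) (nat_lit 85) (nat_lit 5) (nat_lit 83) (nat_lit 4) (nat_lit 547) (nat_lit 443) (nat_lit 210))))) (XT.nd (nat_lit 54522) (nat_lit 0) (nat_lit 17632) (XT.nd (nat_lit 54366) (nat_lit 0) (nat_lit 17556) (XT.nd (nat_lit 78) (nat_lit 152) (nat_lit 0) (XT.lf (nat_lit 0) (nat_lit 1441822803)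 (nat_lit 152) (nat_lit 42719043081) (nat_lit 76) (nat_lit 50599779616) (nat_lit 80) (nat_lit 5) (nat_lit 82) (nat_lit 5) (nat_lit 81) (nat_lit 5) (nat_lit 548) (nat_lit 443) (nat_lit 209)) (XT.lf (nat_lit 0) (nat_lit 14052954820) (nat_lit 152) (nat_lit 13976323920) (nat_lit 228) (nat_lit 68655687403) (nat_lit 78) (nat_lit 5) (nat_lit 80) (nat_lit 5) (nat_lit 81) (nat_lit 5) (nat_lit 549) (nat_lit 443) (nat_lit 208))) (XT.nd (nat_lit 78) (nat_lit 0) (nat_lit 0) (XT.lf (nat_lit 0) (nat_lit 725638215) (nat_lit 1292) (nat_lit 3414373093) (nat_lit 1292) (nat_lit 3414373093) (nat_lit 309) (nat_lit 3) (nat_lit 326) (nat_lit 3) (nat_lit 326) (nat_lit 5) (nat_lit 444) (nat_lit 444) (nat_lit 312)) (XT.lf (nat_lit 76) (nat_lit 678657215) (nat_lit 0) (nat_lit 1093623898) (nat_lit 1292) (nat_lit 13554115084) (nat_lit 310) (nat_lit 5) (nat_lit 309) (nat_lit 3) (nat_lit 326) (nat_lit 5) (nat_lit 445) (nat_lit 444) (nat_lit 311))))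 (XT.nd (nat_lit 156) (nat_lit 0) (nat_lit 76) (XT.nd (nat_lit 78) (nat_lit 0) (nat_lit 0) (XT.lf (nat_lit 0) (nat_lit 2221766781) (nat_lit 1216) (nat_lit 7064940030) (nat_lit 1292) (nat_lit 6260281131) (nat_lit 310) (nat_lit 5) (nat_lit 326) (nat_lit 5) (nat_lit 327) (nat_lit 5) (nat_lit 446) (nat_lit 444) (nat_lit 310)) (XT.lf (nat_lit 76) (nat_lit 742796927) (nat_lit 0) (nat_lit 1948812418) (nat_lit 1292) (nat_lit 13082382952) (nat_lit 311) (nat_lit 5) (nat_lit 310) (nat_lit 5) (nat_lit 327) (nat_lit 5) (nat_lit 447) (nat_lit 444) (nat_lit 309))) (XT.nd (nat_lit 78) (nat_lit 0) (nat_lit 0) (XT.lf (nat_lit 0) (nat_lit 3290728009) (nat_lit 1216) (nat_lit 7137224459) (nat_lit 1292) (nat_lit 5576399885) (nat_lit 311) (nat_lit 5) (nat_lit 327) (nat_lit 5) (nat_lit 328) (nat_lit 5) (nat_lit 448) (nat_lit 444) (nat_lit 308)) (XT.lf (nat_lit 76) (nat_lit 987201569) (nat_lit 0) (nat_lit 2938930782) (nat_lit 1292) (nat_lit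 12314942463) (nat_lit 312) (nat_lit 5) (nat_lit 311) (nat_lit 5) (nat_lit 328) (nat_lit 5) (nat_lit 449) (nat_lit 444) (nat_lit 307)))))) (XT.nd (nat_lit 624) (nat_lit 2356) (nat_lit 0) (XT.nd (nat_lit 312) (nat_lit 0) (nat_lit 152) (XT.nd (nat_lit 156) (nat_lit 0) (nat_lit 76) (XT.nd (nat_lit 78) (nat_lit 0) (nat_lit 0) (XT.lf (nat_lit 0) (nat_lit 4689092462) (nat_lit 1216) (nat_lit 7034298245) (nat_lit 1292) (nat_lit 4758254371) (nat_lit 312) (nat_lit 5) (nat_lit 328) (nat_lit 5) (nat_lit 329) (nat_lit 5) (nat_lit 450) (nat_lit 444) (nat_lit 306)) (XT.lf (nat_lit 76) (nat_lit 1424131908) (nat_lit 0) (nat_lit 4083704363) (nat_lit 1292) (nat_lit 11220610244) (nat_lit 313) (nat_lit 5) (nat_lit 312) (nat_lit 5) (nat_lit 329) (nat_lit 5) (nat_lit 451) (nat_lit 444) (nat_lit 305))) (XT.nd (nat_lit 78) (nat_lit 0) (nat_lit 0) (XT.lf (nat_lit 0) (nat_lit 6449629424) (nat_lit 1216) (nat_lit 6743781896) (nat_lit 1292)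 (nat_lit 3786286949) (nat_lit 313) (nat_lit 5) (nat_lit 329) (nat_lit 5) (nat_lit 330) (nat_lit 5) (nat_lit 452) (nat_lit 444) (nat_lit 304)) (XT.lf (nat_lit 76) (nat_lit 2066979582) (nat_lit 0) (nat_lit 5403644907) (nat_lit 1292) (nat_lit 9766335502) (nat_lit 314) (nat_lit 5) (nat_lit 313) (nat_lit 5) (nat_lit 330) (nat_lit 5) (nat_lit 453) (nat_lit 444) (nat_lit 303)))) (XT.nd (nat_lit 156) (nat_lit 0) (nat_lit 76) (XT.nd (nat_lit 78) (nat_lit 0) (nat_lit 0) (XT.lf (nat_lit 0) (nat_lit 8607089020) (nat_lit 1216) (nat_lit 6252175631) (nat_lit 1292) (nat_lit 2640130560) (nat_lit 314) (nat_lit 5) (nat_lit 330) (nat_lit 5) (nat_lit 331) (nat_lit 5) (nat_lit 454) (nat_lit 444) (nat_lit 302)) (XT.lf (nat_lit 76) (nat_lit 2930312368) (nat_lit 0) (nat_lit 6920153179) (nat_lit 1292) (nat_lit 7917054207) (nat_lit 315) (nat_lit 5) (nat_lit 314) (nat_lit 5) (nat_lit 331) (nat_lit 5) (nat_lit 455) (nat_lit 444) (nat_lit 301)))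 (XT.nd (nat_lit 78) (nat_lit 0) (nat_lit 0) (XT.lf (nat_lit 0) (nat_lit 11198352864) (nat_lit 1216) (nat_lit 5544812843) (nat_lit 1292) (nat_lit 1298506829) (nat_lit 315) (nat_lit 5) (nat_lit 331) (nat_lit 5) (nat_lit 332) (nat_lit 5) (nat_lit 456) (nat_lit 444) (nat_lit 300)) (XT.lf (nat_lit 76) (nat_lit 4029924130) (nat_lit 0) (nat_lit 8655623990) (nat_lit 1292) (nat_lit 5635536406) (nat_lit 316) (nat_lit 5) (nat_lit 315) (nat_lit 5) (nat_lit 332) (nat_lit 5) (nat_lit 457) (nat_lit 444) (nat_lit 299))))) (XT.nd (nat_lit 312) (nat_lit 1444) (nat_lit 0) (XT.nd (nat_lit 156) (nat_lit 1140) (nat_lit 0) (XT.nd (nat_lit 78) (nat_lit 0) (nat_lit 76) (XT.lf (nat_lit 76) (nat_lit 13999079297) (nat_lit 0) (nat_lit 266070343) (nat_lit 1292) (nat_lit 4342296263) (nat_lit 316) (nat_lit 5) (nat_lit 315) (nat_lit 5) (nat_lit 332) (nat_lit 5) (nat_lit 458) (nat_lit 444) (nat_lit 298)) (XT.lf (nat_lit 76) (nat_lit 5382889513)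 (nat_lit 0) (nat_lit 10633554116) (nat_lit 1292) (nat_lit 2882226080) (nat_lit 317) (nat_lit 5) (nat_lit 316) (nat_lit 5) (nat_lit 333) (nat_lit 5) (nat_lit 459) (nat_lit 444) (nat_lit 297))) (XT.nd (nat_lit 78) (nat_lit 1216) (nat_lit 0) (XT.lf (nat_lit 76) (nat_lit 15759173990) (nat_lit 0) (nat_lit 2102469056) (nat_lit 1292) (nat_lit 1335746884) (nat_lit 317) (nat_lit 5) (nat_lit 316) (nat_lit 5) (nat_lit 333) (nat_lit 5) (nat_lit 460) (nat_lit 444) (nat_lit 296)) (XT.lf (nat_lit 0) (nat_lit 377415744) (nat_lit 1292) (nat_lit 12497426724) (nat_lit 76) (nat_lit 6626396602) (nat_lit 300) (nat_lit 5) (nat_lit 317) (nat_lit 5) (nat_lit 301) (nat_lit 5) (nat_lit 461) (nat_lit 444) (nat_lit 295)))) (XT.nd (nat_lit 156) (nat_lit 608) (nat_lit 0) (XT.nd (nat_lit 78) (nat_lit 836) (nat_lit 0) (XT.lf (nat_lit 0) (nat_lit 2163550335) (nat_lit 1292) (nat_lit 2024590707) (nat_lit 76) (nat_lit 15624213795) (nat_lit 300) (nat_lit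 5) (nat_lit 317) (nat_lit 5) (nat_lit 301) (nat_lit 5) (nat_lit 462) (nat_lit 444) (nat_lit 294)) (XT.lf (nat_lit 0) (nat_lit 4128479640) (nat_lit 912) (nat_lit 11246791964) (nat_lit 76) (nat_lit 4753776775) (nat_lit 289) (nat_lit 5) (nat_lit 301) (nat_lit 5) (nat_lit 290) (nat_lit 5) (nat_lit 463) (nat_lit 444) (nat_lit 293))) (XT.nd (nat_lit 78) (nat_lit 608) (nat_lit 0) (XT.lf (nat_lit 0) (nat_lit 6207388800) (nat_lit 912) (nat_lit 345076293) (nat_lit 76) (nat_lit 13901127278) (nat_lit 289) (nat_lit 5) (nat_lit 301) (nat_lit 5) (nat_lit 290) (nat_lit 5) (nat_lit 464) (nat_lit 444) (nat_lit 292)) (XT.lf (nat_lit 0) (nat_lit 8473858706) (nat_lit 684) (nat_lit 9716535563) (nat_lit 76) (nat_lit 2593723194) (nat_lit 281) (nat_lit 5) (nat_lit 290) (nat_lit 5) (nat_lit 282) (nat_lit 5) (nat_lit 465) (nat_lit 444) (nat_lit 291))))))))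
noncomputable def xc188 : XT := (XT.nd (nat_lit 2418) (nat_lit 4788) (nat_lit 0) (XT.nd (nat_lit 1170) (nat_lit 3876) (nat_lit 0) (XT.nd (nat_lit 546) (nat_lit 1976) (nat_lit 0) (XT.nd (nat_lit 234) (nat_lit 1216) (nat_lit 0) (XT.nd (nat_lit 78) (nat_lit 532) (nat_lit 0) (XT.lf (nat_lit 0) (nat_lit 1666304302) (nat_lit 608) (nat_lit 9219698832) (nat_lit 684) (nat_lit 10236225329) (nat_lit 273) (nat_lit 5) (nat_lit 281) (nat_lit 5) (nat_lit 282) (nat_lit 5) (nat_lit 466) (nat_lit 444) (nat_lit 290)) (XT.nd (nat_lit 78) (nat_lit 532) (nat_lit 0) (XT.lf (nat_lit 0) (nat_lit 13463197595) (nat_lit 684) (nat_lit 7885571529) (nat_lit 76) (nat_lit 118933649) (nat_lit 273) (nat_lit 5) (nat_lit 282) (nat_lit 5) (nat_lit 274) (nat_lit 5) (nat_lit 467) (nat_lit 444) (nat_lit 289)) (XT.lf (nat_lit 0) (nat_lit 4012422560) (nat_lit 532) (nat_lit 12228734380) (nat_lit 608) (nat_lit 5578681437) (nat_lit 266) (nat_lit 5) (nat_lit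 273) (nat_lit 5) (nat_lit 274) (nat_lit 5) (nat_lit 468) (nat_lit 444) (nat_lit 288)))) (XT.nd (nat_lit 156) (nat_lit 608) (nat_lit 0) (XT.nd (nat_lit 78) (nat_lit 608) (nat_lit 0) (XT.lf (nat_lit 0) (nat_lit 16422584714) (nat_lit 532) (nat_lit 2753219063) (nat_lit 608) (nat_lit 3004534331) (nat_lit 266) (nat_lit 5) (nat_lit 273) (nat_lit 5) (nat_lit 274) (nat_lit 5) (nat_lit 469) (nat_lit 444) (nat_lit 287)) (XT.lf (nat_lit 0) (nat_lit 6710581729) (nat_lit 608) (nat_lit 15613667391) (nat_lit 684) (nat_lit 223631442) (nat_lit 258) (nat_lit 5) (nat_lit 266) (nat_lit 5) (nat_lit 267) (nat_lit 5) (nat_lit 470) (nat_lit 444) (nat_lit 286))) (XT.nd (nat_lit 78) (nat_lit 532) (nat_lit 0) (XT.lf (nat_lit 0) (nat_lit 2669104670) (nat_lit 684) (nat_lit 3313400365) (nat_lit 76) (nat_lit 16940785138) (nat_lit 257) (nat_lit 5) (nat_lit 266) (nat_lit 5) (nat_lit 258) (nat_lit 5) (nat_lit 471) (nat_lit 444) (nat_lit 285)) (XT.lf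 (nat_lit 0) (nat_lit 5770959814) (nat_lit 608) (nat_lit 13577719794) (nat_lit 76) (nat_lit 3957411551) (nat_lit 250) (nat_lit 5) (nat_lit 258) (nat_lit 5) (nat_lit 251) (nat_lit 5) (nat_lit 472) (nat_lit 444) (nat_lit 284))))) (XT.nd (nat_lit 312) (nat_lit 988) (nat_lit 0) (XT.nd (nat_lit 156) (nat_lit 456) (nat_lit 0) (XT.nd (nat_lit 78) (nat_lit 532) (nat_lit 0) (XT.lf (nat_lit 0) (nat_lit 9053134383) (nat_lit 608) (nat_lit 536008495) (nat_lit 76) (nat_lit 14108615832) (nat_lit 250) (nat_lit 5) (nat_lit 258) (nat_lit 5) (nat_lit 251) (nat_lit 5) (nat_lit 473) (nat_lit 444) (nat_lit 283)) (XT.lf (nat_lit 0) (nat_lit 12560260529) (nat_lit 608) (nat_lit 10955949168) (nat_lit 76) (nat_lit 581172435) (nat_lit 243) (nat_lit 5) (nat_lit 251) (nat_lit 5) (nat_lit 244) (nat_lit 5) (nat_lit 474) (nat_lit 444) (nat_lit 282))) (XT.nd (nat_lit 78) (nat_lit 0) (nat_lit 0) (XT.lf (nat_lit 0) (nat_lit 2682399502) (nat_lit 456)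 (nat_lit 13610900227) (nat_lit 532) (nat_lit 8212073973) (nat_lit 237) (nat_lit 5) (nat_lit 243) (nat_lit 5) (nat_lit 244) (nat_lit 5) (nat_lit 475) (nat_lit 444) (nat_lit 281)) (XT.lf (nat_lit 0) (nat_lit 16948245018) (nat_lit 456) (nat_lit 3295324896) (nat_lit 532) (nat_lit 4678878321) (nat_lit 237) (nat_lit 5) (nat_lit 243) (nat_lit 5) (nat_lit 244) (nat_lit 5) (nat_lit 476) (nat_lit 444) (nat_lit 280)))) (XT.nd (nat_lit 156) (nat_lit 456) (nat_lit 0) (XT.nd (nat_lit 78) (nat_lit 76) (nat_lit 0) (XT.lf (nat_lit 0) (nat_lit 6337023626) (nat_lit 456) (nat_lit 18101453066) (nat_lit 532) (nat_lit 909774855) (nat_lit 231) (nat_lit 5) (nat_lit 237) (nat_lit 5) (nat_lit 238) (nat_lit 5) (nat_lit 477) (nat_lit 444) (nat_lit 279)) (XT.lf (nat_lit 0) (nat_lit 3023145210) (nat_lit 532) (nat_lit 4611610155) (nat_lit 76) (nat_lit 18147954420) (nat_lit 230) (nat_lit 5) (nat_lit 237) (nat_lit 5) (nat_lit 231) (nat_lit 5) (nat_lit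 478) (nat_lit 444) (nat_lit 278))) (XT.nd (nat_lit 78) (nat_lit 0) (nat_lit 0) (XT.lf (nat_lit 0) (nat_lit 7182075468) (nat_lit 532) (nat_lit 15850374989) (nat_lit 76) (nat_lit 3193692203) (nat_lit 224) (nat_lit 5) (nat_lit 231) (nat_lit 5) (nat_lit 225) (nat_lit 5) (nat_lit 479) (nat_lit 444) (nat_lit 277)) (XT.lf (nat_lit 0) (nat_lit 11583423059) (nat_lit 532) (nat_lit 856382176) (nat_lit 76) (nat_lit 14239544157) (nat_lit 224) (nat_lit 5) (nat_lit 231) (nat_lit 5) (nat_lit 225) (nat_lit 5) (nat_lit 480) (nat_lit 444) (nat_lit 276)))))) (XT.nd (nat_lit 624) (nat_lit 1748) (nat_lit 0) (XT.nd (nat_lit 312) (nat_lit 760) (nat_lit 0) (XT.nd (nat_lit 156) (nat_lit 532) (nat_lit 0) (XT.nd (nat_lit 78) (nat_lit 380) (nat_lit 0) (XT.lf (nat_lit 0) (nat_lit 14871660853) (nat_lit 456) (nat_lit 1383279024) (nat_lit 532) (nat_lit 10887068929) (nat_lit 218) (nat_lit 5) (nat_lit 224) (nat_lit 5) (nat_lit 225) (nat_lit 5) (nat_lit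 481) (nat_lit 444) (nat_lit 275)) (XT.lf (nat_lit 0) (nat_lit 3435550193) (nat_lit 380) (nat_lit 17764229490) (nat_lit 456) (nat_lit 6414773329) (nat_lit 213) (nat_lit 5) (nat_lit 218) (nat_lit 5) (nat_lit 219) (nat_lit 5) (nat_lit 482) (nat_lit 444) (nat_lit 274))) (XT.nd (nat_lit 78) (nat_lit 532) (nat_lit 0) (XT.lf (nat_lit 0) (nat_lit 19844204109) (nat_lit 380) (nat_lit 6581555386) (nat_lit 456) (nat_lit 1671530528) (nat_lit 213) (nat_lit 5) (nat_lit 218) (nat_lit 5) (nat_lit 219) (nat_lit 5) (nat_lit 483) (nat_lit 444) (nat_lit 273)) (XT.lf (nat_lit 0) (nat_lit 3274791953) (nat_lit 532) (nat_lit 20364573934) (nat_lit 76) (nat_lit 4950511732) (nat_lit 206) (nat_lit 5) (nat_lit 213) (nat_lit 5) (nat_lit 207) (nat_lit 5) (nat_lit 484) (nat_lit 444) (nat_lit 272)))) (XT.nd (nat_lit 156) (nat_lit 380) (nat_lit 0) (XT.nd (nat_lit 78) (nat_lit 380) (nat_lit 0) (XT.lf (nat_lit 0) (nat_lit 8480719181) (nat_lit 532)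 (nat_lit 3816021237) (nat_lit 76) (nat_lit 16795661894) (nat_lit 206) (nat_lit 5) (nat_lit 213) (nat_lit 5) (nat_lit 207) (nat_lit 5) (nat_lit 485) (nat_lit 444) (nat_lit 271)) (XT.lf (nat_lit 0) (nat_lit 13486364455) (nat_lit 380) (nat_lit 481712676) (nat_lit 456) (nat_lit 15638168313) (nat_lit 201) (nat_lit 5) (nat_lit 206) (nat_lit 5) (nat_lit 207) (nat_lit 5) (nat_lit 486) (nat_lit 444) (nat_lit 270))) (XT.nd (nat_lit 78) (nat_lit 0) (nat_lit 0) (XT.lf (nat_lit 0) (nat_lit 1155667942) (nat_lit 380) (nat_lit 18622435379) (nat_lit 456) (nat_lit 10352659405) (nat_lit 196) (nat_lit 5) (nat_lit 201) (nat_lit 5) (nat_lit 202) (nat_lit 5) (nat_lit 487) (nat_lit 444) (nat_lit 269)) (XT.lf (nat_lit 0) (nat_lit 19269267714) (nat_lit 380) (nat_lit 6656407495) (nat_lit 456) (nat_lit 4740443240) (nat_lit 196) (nat_lit 5) (nat_lit 201) (nat_lit 5) (nat_lit 202) (nat_lit 5) (nat_lit 488) (nat_lit 444) (nat_lit 268))))) (XT.nd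 (nat_lit 312) (nat_lit 988) (nat_lit 0) (XT.nd (nat_lit 156) (nat_lit 380) (nat_lit 0) (XT.nd (nat_lit 78) (nat_lit 0) (nat_lit 0) (XT.lf (nat_lit 0) (nat_lit 1136510387) (nat_lit 380) (nat_lit 24444376775) (nat_lit 76) (nat_lit 5632847950) (nat_lit 191) (nat_lit 5) (nat_lit 196) (nat_lit 5) (nat_lit 192) (nat_lit 5) (nat_lit 489) (nat_lit 444) (nat_lit 267)) (XT.lf (nat_lit 0) (nat_lit 7272503002) (nat_lit 380) (nat_lit 6179889599) (nat_lit 76) (nat_lit 18318639610) (nat_lit 191) (nat_lit 5) (nat_lit 196) (nat_lit 5) (nat_lit 192) (nat_lit 5) (nat_lit 490) (nat_lit 444) (nat_lit 266))) (XT.nd (nat_lit 78) (nat_lit 0) (nat_lit 0) (XT.lf (nat_lit 0) (nat_lit 12878240545) (nat_lit 380) (nat_lit 834126688) (nat_lit 456) (nat_lit 18629087478) (nat_lit 186) (nat_lit 5) (nat_lit 191) (nat_lit 5) (nat_lit 192) (nat_lit 5) (nat_lit 491) (nat_lit 444) (nat_lit 265)) (XT.lf (nat_lit 0) (nat_lit 20521411476) (nat_lit 456)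 (nat_lit 415495217) (nat_lit 76) (nat_lit 11986803903) (nat_lit 186) (nat_lit 5) (nat_lit 192) (nat_lit 5) (nat_lit 187) (nat_lit 5) (nat_lit 492) (nat_lit 444) (nat_lit 264)))) (XT.nd (nat_lit 156) (nat_lit 304) (nat_lit 0) (XT.nd (nat_lit 78) (nat_lit 380) (nat_lit 0) (XT.lf (nat_lit 0) (nat_lit 19571837264) (nat_lit 304) (nat_lit 8155446351) (nat_lit 380) (nat_lit 5790374072) (nat_lit 182) (nat_lit 5) (nat_lit 186) (nat_lit 5) (nat_lit 187) (nat_lit 5) (nat_lit 493) (nat_lit 444) (nat_lit 263)) (XT.lf (nat_lit 0) (nat_lit 1108334496) (nat_lit 380) (nat_lit 28033678645) (nat_lit 76) (nat_lit 4983866310) (nat_lit 177) (nat_lit 5) (nat_lit 182) (nat_lit 5) (nat_lit 178) (nat_lit 5) (nat_lit 494) (nat_lit 444) (nat_lit 262))) (XT.nd (nat_lit 78) (nat_lit 304) (nat_lit 0) (XT.lf (nat_lit 0) (nat_lit 8316816348) (nat_lit 380) (nat_lit 7875898211) (nat_lit 76) (nat_lit 18551337819) (nat_lit 177) (nat_lit 5) (nat_lit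 182) (nat_lit 5) (nat_lit 178) (nat_lit 5) (nat_lit 495) (nat_lit 444) (nat_lit 261)) (XT.lf (nat_lit 0) (nat_lit 13137597198) (nat_lit 304) (nat_lit 2726578064) (nat_lit 380) (nat_lit 19512916754) (nat_lit 173) (nat_lit 5) (nat_lit 177) (nat_lit 5) (nat_lit 178) (nat_lit 5) (nat_lit 496) (nat_lit 444) (nat_lit 260))))))) (XT.nd (nat_lit 1170) (nat_lit 2204) (nat_lit 0) (XT.nd (nat_lit 546) (nat_lit 1368) (nat_lit 0) (XT.nd (nat_lit 234) (nat_lit 532) (nat_lit 0) (XT.nd (nat_lit 78) (nat_lit 684) (nat_lit 0) (XT.lf (nat_lit 0) (nat_lit 23821767026) (nat_lit 380) (nat_lit 1197116689) (nat_lit 76) (nat_lit 11004724962) (nat_lit 173) (nat_lit 5) (nat_lit 178) (nat_lit 5) (nat_lit 174) (nat_lit 5) (nat_lit 497) (nat_lit 444) (nat_lit 259)) (XT.nd (nat_lit 78) (nat_lit 380) (nat_lit 0) (XT.lf (nat_lit 0) (nat_lit 20851156518) (nat_lit 304) (nat_lit 11390840470) (nat_lit 380) (nat_lit 4440806726) (nat_lit 169) (nat_lit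 5) (nat_lit 173) (nat_lit 5) (nat_lit 174) (nat_lit 5) (nat_lit 498) (nat_lit 444) (nat_lit 258)) (XT.lf (nat_lit 0) (nat_lit 3579542482) (nat_lit 380) (nat_lit 31077612997) (nat_lit 76) (nat_lit 2700720191) (nat_lit 164) (nat_lit 5) (nat_lit 169) (nat_lit 5) (nat_lit 165) (nat_lit 5) (nat_lit 499) (nat_lit 444) (nat_lit 257)))) (XT.nd (nat_lit 156) (nat_lit 228) (nat_lit 0) (XT.nd (nat_lit 78) (nat_lit 304) (nat_lit 0) (XT.lf (nat_lit 0) (nat_lit 12022011506) (nat_lit 380) (nat_lit 8831987180) (nat_lit 76) (nat_lit 17189759267) (nat_lit 164) (nat_lit 5) (nat_lit 169) (nat_lit 5) (nat_lit 165) (nat_lit 5) (nat_lit 500) (nat_lit 444) (nat_lit 256)) (XT.lf (nat_lit 0) (nat_lit 14355984472) (nat_lit 304) (nat_lit 6496402717) (nat_lit 380) (nat_lit 17893790707) (nat_lit 160) (nat_lit 5) (nat_lit 164) (nat_lit 5) (nat_lit 165) (nat_lit 5) (nat_lit 501) (nat_lit 444) (nat_lit 255))) (XT.nd (nat_lit 78) (nat_lit 228)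 (nat_lit 0) (XT.lf (nat_lit 0) (nat_lit 30114115718) (nat_lit 380) (nat_lit 1132134320) (nat_lit 76) (nat_lit 8218427316) (nat_lit 160) (nat_lit 5) (nat_lit 165) (nat_lit 5) (nat_lit 161) (nat_lit 5) (nat_lit 502) (nat_lit 444) (nat_lit 254)) (XT.lf (nat_lit 0) (nat_lit 23207160482) (nat_lit 228) (nat_lit 16730700753) (nat_lit 304) (nat_lit 258345765) (nat_lit 157) (nat_lit 5) (nat_lit 160) (nat_lit 5) (nat_lit 161) (nat_lit 5) (nat_lit 503) (nat_lit 444) (nat_lit 253))))) (XT.nd (nat_lit 312) (nat_lit 760) (nat_lit 0) (XT.nd (nat_lit 156) (nat_lit 228) (nat_lit 0) (XT.nd (nat_lit 78) (nat_lit 0) (nat_lit 0) (XT.lf (nat_lit 0) (nat_lit 7402239390) (nat_lit 304) (nat_lit 1606171745) (nat_lit 380) (nat_lit 31936261059) (nat_lit 152) (nat_lit 5) (nat_lit 156) (nat_lit 5) (nat_lit 157) (nat_lit 5) (nat_lit 504) (nat_lit 444) (nat_lit 252)) (XT.lf (nat_lit 0) (nat_lit 18852346802) (nat_lit 380) (nat_lit 8980570467)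 (nat_lit 76) (nat_lit 13873466428) (nat_lit 152) (nat_lit 5) (nat_lit 157) (nat_lit 5) (nat_lit 153) (nat_lit 5) (nat_lit 505) (nat_lit 444) (nat_lit 251))) (XT.nd (nat_lit 78) (nat_lit 0) (nat_lit 0) (XT.lf (nat_lit 0) (nat_lit 16621657812) (nat_lit 228) (nat_lit 12542521614) (nat_lit 304) (nat_lit 13321589895) (nat_lit 149) (nat_lit 5) (nat_lit 152) (nat_lit 5) (nat_lit 153) (nat_lit 5) (nat_lit 506) (nat_lit 444) (nat_lit 250)) (XT.lf (nat_lit 0) (nat_lit 39904699149) (nat_lit 304) (nat_lit 146453201) (nat_lit 76) (nat_lit 3233804336) (nat_lit 149) (nat_lit 5) (nat_lit 153) (nat_lit 5) (nat_lit 150) (nat_lit 5) (nat_lit 507) (nat_lit 444) (nat_lit 249)))) (XT.nd (nat_lit 156) (nat_lit 228) (nat_lit 0) (XT.nd (nat_lit 78) (nat_lit 228) (nat_lit 0) (XT.lf (nat_lit 0) (nat_lit 7107404004) (nat_lit 304) (nat_lit 17431015248) (nat_lit 76) (nat_lit 19556264298) (nat_lit 145) (nat_lit 5) (nat_lit 149) (nat_lit 5) (nat_lit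 146) (nat_lit 5) (nat_lit 508) (nat_lit 444) (nat_lit 248)) (XT.lf (nat_lit 0) (nat_lit 9499495442) (nat_lit 228) (nat_lit 8432094451) (nat_lit 304) (nat_lit 26993413386) (nat_lit 142) (nat_lit 5) (nat_lit 145) (nat_lit 5) (nat_lit 146) (nat_lit 5) (nat_lit 509) (nat_lit 444) (nat_lit 247))) (XT.nd (nat_lit 78) (nat_lit 228) (nat_lit 0) (XT.lf (nat_lit 0) (nat_lit 29333726040) (nat_lit 304) (nat_lit 8264720876) (nat_lit 76) (nat_lit 8174189065) (nat_lit 142) (nat_lit 5) (nat_lit 146) (nat_lit 5) (nat_lit 143) (nat_lit 5) (nat_lit 510) (nat_lit 444) (nat_lit 246)) (XT.lf (nat_lit 0) (nat_lit 20013222847) (nat_lit 228) (nat_lit 21337703538) (nat_lit 304) (nat_lit 5286581394) (nat_lit 139) (nat_lit 5) (nat_lit 142) (nat_lit 5) (nat_lit 143) (nat_lit 5) (nat_lit 511) (nat_lit 444) (nat_lit 245)))))) (XT.nd (nat_lit 624) (nat_lit 1064) (nat_lit 0) (XT.nd (nat_lit 312) (nat_lit 608) (nat_lit 0) (XT.nd (nat_lit 156) (nat_lit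 228) (nat_lit 0) (XT.nd (nat_lit 78) (nat_lit 0) (nat_lit 0) (XT.lf (nat_lit 0) (nat_lit 1752143050) (nat_lit 228) (nat_lit 4425455105) (nat_lit 304) (nat_lit 41345991501) (nat_lit 135) (nat_lit 5) (nat_lit 138) (nat_lit 5) (nat_lit 139) (nat_lit 5) (nat_lit 512) (nat_lit 444) (nat_lit 244)) (XT.lf (nat_lit 0) (nat_lit 18273036395) (nat_lit 304) (nat_lit 17087206927) (nat_lit 76) (nat_lit 13062632854) (nat_lit 135) (nat_lit 5) (nat_lit 139) (nat_lit 5) (nat_lit 136) (nat_lit 5) (nat_lit 513) (nat_lit 444) (nat_lit 243))) (XT.nd (nat_lit 78) (nat_lit 0) (nat_lit 0) (XT.lf (nat_lit 0) (nat_lit 12656105864) (nat_lit 228) (nat_lit 18237954640) (nat_lit 304) (nat_lit 18450199211) (nat_lit 132) (nat_lit 5) (nat_lit 135) (nat_lit 5) (nat_lit 136) (nat_lit 5) (nat_lit 514) (nat_lit 444) (nat_lit 242)) (XT.lf (nat_lit 0) (nat_lit 43637430265) (nat_lit 228) (nat_lit 426116791) (nat_lit 304) (nat_lit 6224642854) (nat_lit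 132) (nat_lit 5) (nat_lit 135) (nat_lit 5) (nat_lit 136) (nat_lit 5) (nat_lit 515) (nat_lit 444) (nat_lit 241)))) (XT.nd (nat_lit 156) (nat_lit 152) (nat_lit 0) (XT.nd (nat_lit 78) (nat_lit 228) (nat_lit 0) (XT.lf (nat_lit 0) (nat_lit 6653430907) (nat_lit 228) (nat_lit 26722622158) (nat_lit 76) (nat_lit 17870248529) (nat_lit 129) (nat_lit 5) (nat_lit 132) (nat_lit 5) (nat_lit 130) (nat_lit 5) (nat_lit 516) (nat_lit 444) (nat_lit 240)) (XT.lf (nat_lit 0) (nat_lit 4556445807) (nat_lit 228) (nat_lit 15349489691) (nat_lit 304) (nat_lit 32321976387) (nat_lit 126) (nat_lit 5) (nat_lit 129) (nat_lit 5) (nat_lit 130) (nat_lit 5) (nat_lit 517) (nat_lit 444) (nat_lit 239))) (XT.nd (nat_lit 78) (nat_lit 152) (nat_lit 0) (XT.lf (nat_lit 0) (nat_lit 33856836609) (nat_lit 304) (nat_lit 15947318961) (nat_lit 76) (nat_lit 3425790364) (nat_lit 126) (nat_lit 5) (nat_lit 130) (nat_lit 5) (nat_lit 127) (nat_lit 5) (nat_lit 518) (nat_lit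 444) (nat_lit 238)) (XT.lf (nat_lit 0) (nat_lit 16902014725) (nat_lit 152) (nat_lit 31636145650) (nat_lit 228) (nat_lit 5714523850) (nat_lit 124) (nat_lit 5) (nat_lit 126) (nat_lit 5) (nat_lit 127) (nat_lit 5) (nat_lit 519) (nat_lit 444) (nat_lit 237))))) (XT.nd (nat_lit 312) (nat_lit 608) (nat_lit 0) (XT.nd (nat_lit 156) (nat_lit 152) (nat_lit 0) (XT.nd (nat_lit 78) (nat_lit 228) (nat_lit 0) (XT.lf (nat_lit 0) (nat_lit 8350892728) (nat_lit 228) (nat_lit 4323826829) (nat_lit 76) (nat_lit 42624173529) (nat_lit 123) (nat_lit 5) (nat_lit 126) (nat_lit 5) (nat_lit 124) (nat_lit 5) (nat_lit 520) (nat_lit 444) (nat_lit 236)) (XT.lf (nat_lit 0) (nat_lit 23080783754) (nat_lit 304) (nat_lit 26212734290) (nat_lit 76) (nat_lit 7070551822) (nat_lit 120) (nat_lit 5) (nat_lit 124) (nat_lit 5) (nat_lit 121) (nat_lit 5) (nat_lit 521) (nat_lit 444) (nat_lit 235))) (XT.nd (nat_lit 78) (nat_lit 0) (nat_lit 0) (XT.lf (nat_lit 0) (nat_lit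 8321680228) (nat_lit 152) (nat_lit 30178015049) (nat_lit 228) (nat_lit 18954093037) (nat_lit 118) (nat_lit 5) (nat_lit 120) (nat_lit 5) (nat_lit 121) (nat_lit 5) (nat_lit 522) (nat_lit 444) (nat_lit 234)) (XT.lf (nat_lit 0) (nat_lit 44425228322) (nat_lit 152) (nat_lit 10218217817) (nat_lit 228) (nat_lit 3924884092) (nat_lit 118) (nat_lit 5) (nat_lit 120) (nat_lit 5) (nat_lit 121) (nat_lit 5) (nat_lit 523) (nat_lit 444) (nat_lit 233)))) (XT.nd (nat_lit 156) (nat_lit 304) (nat_lit 0) (XT.nd (nat_lit 78) (nat_lit 0) (nat_lit 0) (XT.lf (nat_lit 0) (nat_lit 11643467128) (nat_lit 304) (nat_lit 37595424405) (nat_lit 76) (nat_lit 10464672188) (nat_lit 114) (nat_lit 5) (nat_lit 118) (nat_lit 5) (nat_lit 115) (nat_lit 5) (nat_lit 524) (nat_lit 444) (nat_lit 232)) (XT.lf (nat_lit 0) (nat_lit 27843019409) (nat_lit 304) (nat_lit 1277347962) (nat_lit 76) (nat_lit 31744030001) (nat_lit 114) (nat_lit 5) (nat_lit 118) (nat_lit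 5) (nat_lit 115) (nat_lit 5) (nat_lit 525) (nat_lit 444) (nat_lit 231))) (XT.nd (nat_lit 78) (nat_lit 152) (nat_lit 0) (XT.lf (nat_lit 0) (nat_lit 36845203868) (nat_lit 152) (nat_lit 8035236622) (nat_lit 228) (nat_lit 17169059143) (nat_lit 112) (nat_lit 5) (nat_lit 114) (nat_lit 5) (nat_lit 115) (nat_lit 5) (nat_lit 526) (nat_lit 444) (nat_lit 230)) (XT.lf (nat_lit 0) (nat_lit 12985530119) (nat_lit 152) (nat_lit 49710544618) (nat_lit 228) (nat_lit 566067576) (nat_lit 110) (nat_lit 5) (nat_lit 112) (nat_lit 5) (nat_lit 113) (nat_lit 5) (nat_lit 527) (nat_lit 444) (nat_lit 229))))))))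
noncomputable def xc189 : XT := (XT.nd (nat_lit 56784) (nat_lit 0) (nat_lit 9424) (XT.nd (nat_lit 1170) (nat_lit 456) (nat_lit 0) (XT.nd (nat_lit 546) (nat_lit 912) (nat_lit 0) (XT.nd (nat_lit 234) (nat_lit 380) (nat_lit 0) (XT.nd (nat_lit 78) (nat_lit 304) (nat_lit 0) (XT.lf (nat_lit 0) (nat_lit 16546667441) (nat_lit 228) (nat_lit 11910902943) (nat_lit 76) (nat_lit 36038796269) (nat_lit 109) (nat_lit 5) (nat_lit 112) (nat_lit 5) (nat_lit 110) (nat_lit 5) (nat_lit 528) (nat_lit 444) (nat_lit 228)) (XT.nd (nat_lit 78) (nat_lit 152) (nat_lit 0) (XT.lf (nat_lit 0) (nat_lit 28145443571) (nat_lit 152) (nat_lit 6284301825) (nat_lit 228) (nat_lit 31329654100) (nat_lit 107) (nat_lit 5) (nat_lit 109) (nat_lit 5) (nat_lit 110) (nat_lit 5) (nat_lit 529) (nat_lit 444) (nat_lit 227)) (XT.lf (nat_lit 0) (nat_lit 2474944017) (nat_lit 152) (nat_lit 50676556099) (nat_lit 228) (nat_lit 13899757734) (nat_lit 105) (nat_lit 5) (nat_lit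 107) (nat_lit 5) (nat_lit 108) (nat_lit 5) (nat_lit 530) (nat_lit 444) (nat_lit 226)))) (XT.nd (nat_lit 156) (nat_lit 152) (nat_lit 0) (XT.nd (nat_lit 78) (nat_lit 152) (nat_lit 0) (XT.lf (nat_lit 0) (nat_lit 4417557116) (nat_lit 228) (nat_lit 23941822404) (nat_lit 76) (nat_lit 40008015354) (nat_lit 104) (nat_lit 5) (nat_lit 107) (nat_lit 5) (nat_lit 105) (nat_lit 5) (nat_lit 531) (nat_lit 444) (nat_lit 225)) (XT.lf (nat_lit 0) (nat_lit 18123896643) (nat_lit 152) (nat_lit 5053207635) (nat_lit 228) (nat_lit 46536620618) (nat_lit 102) (nat_lit 5) (nat_lit 104) (nat_lit 5) (nat_lit 105) (nat_lit 5) (nat_lit 532) (nat_lit 444) (nat_lit 224))) (XT.nd (nat_lit 78) (nat_lit 152) (nat_lit 0) (XT.lf (nat_lit 0) (nat_lit 42923652095) (nat_lit 228) (nat_lit 9339251545) (nat_lit 76) (nat_lit 18824814801) (nat_lit 102) (nat_lit 5) (nat_lit 105) (nat_lit 5) (nat_lit 103) (nat_lit 5) (nat_lit 533) (nat_lit 444) (nat_lit 223))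 (XT.lf (nat_lit 0) (nat_lit 34804221304) (nat_lit 152) (nat_lit 28840903555) (nat_lit 228) (nat_lit 8846331130) (nat_lit 100) (nat_lit 5) (nat_lit 102) (nat_lit 5) (nat_lit 103) (nat_lit 5) (nat_lit 534) (nat_lit 444) (nat_lit 222))))) (XT.nd (nat_lit 312) (nat_lit 532) (nat_lit 0) (XT.nd (nat_lit 156) (nat_lit 152) (nat_lit 0) (XT.nd (nat_lit 78) (nat_lit 0) (nat_lit 0) (XT.lf (nat_lit 0) (nat_lit 6545787798) (nat_lit 152) (nat_lit 4445610255) (nat_lit 228) (nat_lit 62938037641) (nat_lit 97) (nat_lit 5) (nat_lit 99) (nat_lit 5) (nat_lit 100) (nat_lit 5) (nat_lit 535) (nat_lit 444) (nat_lit 221)) (XT.lf (nat_lit 0) (nat_lit 31827545041) (nat_lit 228) (nat_lit 22814702114) (nat_lit 76) (nat_lit 20748247408) (nat_lit 97) (nat_lit 5) (nat_lit 100) (nat_lit 5) (nat_lit 98) (nat_lit 5) (nat_lit 536) (nat_lit 444) (nat_lit 220))) (XT.nd (nat_lit 78) (nat_lit 0) (nat_lit 0) (XT.lf (nat_lit 0) (nat_lit 23502261725) (nat_lit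 152) (nat_lit 30054458116) (nat_lit 228) (nat_lit 23330627097) (nat_lit 95) (nat_lit 5) (nat_lit 97) (nat_lit 5) (nat_lit 98) (nat_lit 5) (nat_lit 537) (nat_lit 444) (nat_lit 219)) (XT.lf (nat_lit 0) (nat_lit 71672801120) (nat_lit 152) (nat_lit 4493385123) (nat_lit 228) (nat_lit 2256066195) (nat_lit 95) (nat_lit 5) (nat_lit 97) (nat_lit 5) (nat_lit 98) (nat_lit 5) (nat_lit 538) (nat_lit 444) (nat_lit 218)))) (XT.nd (nat_lit 156) (nat_lit 152) (nat_lit 0) (XT.nd (nat_lit 78) (nat_lit 152) (nat_lit 0) (XT.lf (nat_lit 0) (nat_lit 19687849639) (nat_lit 228) (nat_lit 38288679164) (nat_lit 76) (nat_lit 22002567013) (nat_lit 92) (nat_lit 5) (nat_lit 95) (nat_lit 5) (nat_lit 93) (nat_lit 5) (nat_lit 539) (nat_lit 444) (nat_lit 217)) (XT.lf (nat_lit 0) (nat_lit 10270600677) (nat_lit 152) (nat_lit 32184262839) (nat_lit 228) (nat_lit 39120807142) (nat_lit 90) (nat_lit 5) (nat_lit 92) (nat_lit 5) (nat_lit 93) (nat_lit 5) (nat_lit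 540) (nat_lit 444) (nat_lit 216))) (XT.nd (nat_lit 78) (nat_lit 152) (nat_lit 0) (XT.lf (nat_lit 0) (nat_lit 61068021468) (nat_lit 152) (nat_lit 5221607057) (nat_lit 228) (nat_lit 16918972037) (nat_lit 90) (nat_lit 5) (nat_lit 92) (nat_lit 5) (nat_lit 93) (nat_lit 5) (nat_lit 541) (nat_lit 444) (nat_lit 215)) (XT.lf (nat_lit 0) (nat_lit 6329851510) (nat_lit 152) (nat_lit 56096384106) (nat_lit 76) (nat_lit 22447656699) (nat_lit 88) (nat_lit 5) (nat_lit 90) (nat_lit 5) (nat_lit 89) (nat_lit 5) (nat_lit 542) (nat_lit 444) (nat_lit 214)))))) (XT.nd (nat_lit 54990) (nat_lit 0) (nat_lit 17328) (XT.nd (nat_lit 312) (nat_lit 152) (nat_lit 0) (XT.nd (nat_lit 156) (nat_lit 152) (nat_lit 0) (XT.nd (nat_lit 78) (nat_lit 152) (nat_lit 0) (XT.lf (nat_lit 0) (nat_lit 30211717726) (nat_lit 152) (nat_lit 5130323260) (nat_lit 76) (nat_lit 51233807456) (nat_lit 88) (nat_lit 5) (nat_lit 90) (nat_lit 5) (nat_lit 89) (nat_lit 5) (nat_lit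 543) (nat_lit 444) (nat_lit 213)) (XT.lf (nat_lit 0) (nat_lit 48303945360) (nat_lit 152) (nat_lit 6968619120) (nat_lit 228) (nat_lit 33042423070) (nat_lit 86) (nat_lit 5) (nat_lit 88) (nat_lit 5) (nat_lit 89) (nat_lit 5) (nat_lit 544) (nat_lit 444) (nat_lit 212))) (XT.nd (nat_lit 78) (nat_lit 76) (nat_lit 0) (XT.lf (nat_lit 0) (nat_lit 13385037260) (nat_lit 76) (nat_lit 68093325204) (nat_lit 152) (nat_lit 8616144626) (nat_lit 85) (nat_lit 5) (nat_lit 86) (nat_lit 5) (nat_lit 87) (nat_lit 4) (nat_lit 545) (nat_lit 444) (nat_lit 211)) (XT.lf (nat_lit 0) (nat_lit 16695345684) (nat_lit 152) (nat_lit 22947488742) (nat_lit 76) (nat_lit 52265550136) (nat_lit 84) (nat_lit 5) (nat_lit 86) (nat_lit 5) (nat_lit 85) (nat_lit 5) (nat_lit 546) (nat_lit 444) (nat_lit 210)))) (XT.nd (nat_lit 54522) (nat_lit 0) (nat_lit 17252) (XT.nd (nat_lit 78) (nat_lit 0) (nat_lit 0) (XT.lf (nat_lit 0) (nat_lit 32982379994) (nat_lit 152) (nat_lit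 9925929682) (nat_lit 228) (nat_lit 50856350312) (nat_lit 82) (nat_lit 5) (nat_lit 84) (nat_lit 5) (nat_lit 85) (nat_lit 5) (nat_lit 547) (nat_lit 444) (nat_lit 209)) (XT.lf (nat_lit 0) (nat_lit 70338757410) (nat_lit 228) (nat_lit 4813506649) (nat_lit 76) (nat_lit 20511426804) (nat_lit 82) (nat_lit 5) (nat_lit 85) (nat_lit 5) (nat_lit 83) (nat_lit 4) (nat_lit 548) (nat_lit 444) (nat_lit 208))) (XT.nd (nat_lit 78) (nat_lit 0) (nat_lit 0) (XT.lf (nat_lit 0) (nat_lit 1037305505) (nat_lit 1292) (nat_lit 3367493336) (nat_lit 1292) (nat_lit 3367493336) (nat_lit 309) (nat_lit 3) (nat_lit 326) (nat_lit 3) (nat_lit 326) (nat_lit 5) (nat_lit 445) (nat_lit 445) (nat_lit 310)) (XT.lf (nat_lit 76) (nat_lit 994711167) (nat_lit 0) (nat_lit 1396489791) (nat_lit 1292) (nat_lit 13377962518) (nat_lit 310) (nat_lit 5) (nat_lit 309) (nat_lit 3) (nat_lit 326) (nat_lit 5) (nat_lit 446) (nat_lit 445) (nat_lit 309))))) (XT.nd (nat_lit 312)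 (nat_lit 0) (nat_lit 152) (XT.nd (nat_lit 156) (nat_lit 0) (nat_lit 76) (XT.nd (nat_lit 78) (nat_lit 0) (nat_lit 0) (XT.lf (nat_lit 0) (nat_lit 2835172655) (nat_lit 1216) (nat_lit 6970757360) (nat_lit 1292) (nat_lit 6191014432) (nat_lit 310) (nat_lit 5) (nat_lit 326) (nat_lit 5) (nat_lit 327) (nat_lit 5) (nat_lit 447) (nat_lit 445) (nat_lit 308)) (XT.lf (nat_lit 76) (nat_lit 1068210423) (nat_lit 0) (nat_lit 2237889099) (nat_lit 1292) (nat_lit 12925051211) (nat_lit 311) (nat_lit 5) (nat_lit 310) (nat_lit 5) (nat_lit 327) (nat_lit 5) (nat_lit 448) (nat_lit 445) (nat_lit 307))) (XT.nd (nat_lit 78) (nat_lit 0) (nat_lit 0) (XT.lf (nat_lit 0) (nat_lit 3905493645) (nat_lit 1216) (nat_lit 7039294875) (nat_lit 1292) (nat_lit 5524165443) (nat_lit 311) (nat_lit 5) (nat_lit 327) (nat_lit 5) (nat_lit 328) (nat_lit 5) (nat_lit 449) (nat_lit 445) (nat_lit 306)) (XT.lf (nat_lit 76) (nat_lit 1325804657) (nat_lit 0) (nat_lit 3222095232)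 (nat_lit 1292) (nat_lit 12165241404) (nat_lit 312) (nat_lit 5) (nat_lit 311) (nat_lit 5) (nat_lit 328) (nat_lit 5) (nat_lit 450) (nat_lit 445) (nat_lit 305)))) (XT.nd (nat_lit 156) (nat_lit 0) (nat_lit 76) (XT.nd (nat_lit 78) (nat_lit 0) (nat_lit 0) (XT.lf (nat_lit 0) (nat_lit 5317249839) (nat_lit 1216) (nat_lit 6928795899) (nat_lit 1292) (nat_lit 4715379243) (nat_lit 312) (nat_lit 5) (nat_lit 328) (nat_lit 5) (nat_lit 329) (nat_lit 5) (nat_lit 451) (nat_lit 445) (nat_lit 304)) (XT.lf (nat_lit 76) (nat_lit 1780283910) (nat_lit 0) (nat_lit 4369086333) (nat_lit 1292) (nat_lit 11066597097) (nat_lit 313) (nat_lit 5) (nat_lit 312) (nat_lit 5) (nat_lit 329) (nat_lit 5) (nat_lit 452) (nat_lit 445) (nat_lit 303))) (XT.nd (nat_lit 78) (nat_lit 0) (nat_lit 0) (XT.lf (nat_lit 0) (nat_lit 7104024394) (nat_lit 1216) (nat_lit 6626361150) (nat_lit 1292) (nat_lit 3744834157) (nat_lit 313) (nat_lit 5) (nat_lit 329) (nat_lit 5)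 (nat_lit 330) (nat_lit 5) (nat_lit 453) (nat_lit 445) (nat_lit 302)) (XT.lf (nat_lit 76) (nat_lit 2445588523) (nat_lit 0) (nat_lit 5699679688) (nat_lit 1292) (nat_lit 9595243731) (nat_lit 314) (nat_lit 5) (nat_lit 313) (nat_lit 5) (nat_lit 330) (nat_lit 5) (nat_lit 454) (nat_lit 445) (nat_lit 301))))))) (XT.nd (nat_lit 1248) (nat_lit 4560) (nat_lit 0) (XT.nd (nat_lit 624) (nat_lit 2584) (nat_lit 0) (XT.nd (nat_lit 312) (nat_lit 1064) (nat_lit 0) (XT.nd (nat_lit 156) (nat_lit 0) (nat_lit 76) (XT.nd (nat_lit 78) (nat_lit 0) (nat_lit 0) (XT.lf (nat_lit 0) (nat_lit 9301454714) (nat_lit 1216) (nat_lit 6117950825) (nat_lit 1292) (nat_lit 2591847034) (nat_lit 314) (nat_lit 5) (nat_lit 330) (nat_lit 5) (nat_lit 331) (nat_lit 5) (nat_lit 455) (nat_lit 445) (nat_lit 300)) (XT.lf (nat_lit 76) (nat_lit 3336857009) (nat_lit 0) (nat_lit 7235634959) (nat_lit 1292) (nat_lit 7715219265) (nat_lit 315) (nat_lit 5) (nat_lit 314) (nat_lit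 5) (nat_lit 331) (nat_lit 5) (nat_lit 456) (nat_lit 445) (nat_lit 299))) (XT.nd (nat_lit 78) (nat_lit 0) (nat_lit 0) (XT.lf (nat_lit 0) (nat_lit 11947386433) (nat_lit 1216) (nat_lit 5388335514) (nat_lit 1292) (nat_lit 1234770664) (nat_lit 315) (nat_lit 5) (nat_lit 331) (nat_lit 5) (nat_lit 332) (nat_lit 5) (nat_lit 457) (nat_lit 445) (nat_lit 298)) (XT.lf (nat_lit 76) (nat_lit 4470478649) (nat_lit 0) (nat_lit 8999760091) (nat_lit 1292) (nat_lit 5388318079) (nat_lit 316) (nat_lit 5) (nat_lit 315) (nat_lit 5) (nat_lit 332) (nat_lit 5) (nat_lit 458) (nat_lit 445) (nat_lit 297)))) (XT.nd (nat_lit 156) (nat_lit 1140) (nat_lit 0) (XT.nd (nat_lit 78) (nat_lit 0) (nat_lit 76) (XT.lf (nat_lit 76) (nat_lit 14729398079) (nat_lit 0) (nat_lit 356059619) (nat_lit 1292) (nat_lit 4068405521) (nat_lit 316) (nat_lit 5) (nat_lit 315) (nat_lit 5) (nat_lit 332) (nat_lit 5) (nat_lit 459) (nat_lit 445) (nat_lit 296)) (XT.lf (nat_lit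 76) (nat_lit 5864150879) (nat_lit 0) (nat_lit 11016020381) (nat_lit 1292) (nat_lit 2573927090) (nat_lit 317) (nat_lit 5) (nat_lit 316) (nat_lit 5) (nat_lit 333) (nat_lit 5) (nat_lit 460) (nat_lit 445) (nat_lit 295))) (XT.nd (nat_lit 78) (nat_lit 1216) (nat_lit 0) (XT.lf (nat_lit 76) (nat_lit 16542410065) (nat_lit 0) (nat_lit 2227154430) (nat_lit 1292) (nat_lit 992551550) (nat_lit 317) (nat_lit 5) (nat_lit 316) (nat_lit 5) (nat_lit 333) (nat_lit 5) (nat_lit 461) (nat_lit 445) (nat_lit 294)) (XT.lf (nat_lit 0) (nat_lit 756098681) (nat_lit 1292) (nat_lit 12545917449) (nat_lit 76) (nat_lit 6773207798) (nat_lit 300) (nat_lit 5) (nat_lit 317) (nat_lit 5) (nat_lit 301) (nat_lit 5) (nat_lit 462) (nat_lit 445) (nat_lit 293))))) (XT.nd (nat_lit 312) (nat_lit 1140) (nat_lit 0) (XT.nd (nat_lit 156) (nat_lit 608) (nat_lit 0) (XT.nd (nat_lit 78) (nat_lit 836) (nat_lit 0) (XT.lf (nat_lit 0) (nat_lit 2585117490) (nat_lit 1292)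 (nat_lit 1768404082) (nat_lit 76) (nat_lit 16042473508) (nat_lit 300) (nat_lit 5) (nat_lit 317) (nat_lit 5) (nat_lit 301) (nat_lit 5) (nat_lit 463) (nat_lit 445) (nat_lit 292)) (XT.lf (nat_lit 0) (nat_lit 4601282127) (nat_lit 912) (nat_lit 11259529137) (nat_lit 76) (nat_lit 4861610432) (nat_lit 289) (nat_lit 5) (nat_lit 301) (nat_lit 5) (nat_lit 290) (nat_lit 5) (nat_lit 464) (nat_lit 445) (nat_lit 291))) (XT.nd (nat_lit 78) (nat_lit 608) (nat_lit 0) (XT.lf (nat_lit 0) (nat_lit 6732395025) (nat_lit 912) (nat_lit 40218304) (nat_lit 76) (nat_lit 14284394449) (nat_lit 289) (nat_lit 5) (nat_lit 301) (nat_lit 5) (nat_lit 290) (nat_lit 5) (nat_lit 465) (nat_lit 445) (nat_lit 290)) (XT.lf (nat_lit 0) (nat_lit 9059801500) (nat_lit 684) (nat_lit 9685735837) (nat_lit 76) (nat_lit 2652123851) (nat_lit 281) (nat_lit 5) (nat_lit 290) (nat_lit 5) (nat_lit 282) (nat_lit 5) (nat_lit 466) (nat_lit 445) (nat_lit 289)))) (XT.nd (nat_lit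 156) (nat_lit 532) (nat_lit 0) (XT.nd (nat_lit 78) (nat_lit 0) (nat_lit 0) (XT.lf (nat_lit 0) (nat_lit 2035429460) (nat_lit 608) (nat_lit 9502286579) (nat_lit 684) (nat_lit 10208398121) (nat_lit 273) (nat_lit 5) (nat_lit 281) (nat_lit 5) (nat_lit 282) (nat_lit 5) (nat_lit 467) (nat_lit 445) (nat_lit 288)) (XT.lf (nat_lit 0) (nat_lit 14182700481) (nat_lit 684) (nat_lit 7802745636) (nat_lit 76) (nat_lit 116793151) (nat_lit 273) (nat_lit 5) (nat_lit 282) (nat_lit 5) (nat_lit 274) (nat_lit 5) (nat_lit 468) (nat_lit 445) (nat_lit 287))) (XT.nd (nat_lit 78) (nat_lit 0) (nat_lit 0) (XT.lf (nat_lit 0) (nat_lit 4449056971) (nat_lit 532) (nat_lit 12588789300) (nat_lit 608) (nat_lit 5427278006) (nat_lit 266) (nat_lit 5) (nat_lit 273) (nat_lit 5) (nat_lit 274) (nat_lit 5) (nat_lit 469) (nat_lit 445) (nat_lit 286)) (XT.lf (nat_lit 0) (nat_lit 17222312483) (nat_lit 532) (nat_lit 2829206789) (nat_lit 608) (nat_lit 2785190871)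 (nat_lit 266) (nat_lit 5) (nat_lit 273) (nat_lit 5) (nat_lit 274) (nat_lit 5) (nat_lit 470) (nat_lit 445) (nat_lit 285)))))) (XT.nd (nat_lit 624) (nat_lit 1900) (nat_lit 0) (XT.nd (nat_lit 312) (nat_lit 1444) (nat_lit 0) (XT.nd (nat_lit 156) (nat_lit 532) (nat_lit 0) (XT.nd (nat_lit 78) (nat_lit 0) (nat_lit 0) (XT.lf (nat_lit 0) (nat_lit 71856856) (nat_lit 684) (nat_lit 15991328799) (nat_lit 76) (nat_lit 7152243235) (nat_lit 257) (nat_lit 5) (nat_lit 266) (nat_lit 5) (nat_lit 258) (nat_lit 5) (nat_lit 471) (nat_lit 445) (nat_lit 284)) (XT.lf (nat_lit 0) (nat_lit 3038209337) (nat_lit 684) (nat_lit 3103215165) (nat_lit 76) (nat_lit 17460870675) (nat_lit 257) (nat_lit 5) (nat_lit 266) (nat_lit 5) (nat_lit 258) (nat_lit 5) (nat_lit 472) (nat_lit 445) (nat_lit 283))) (XT.nd (nat_lit 78) (nat_lit 0) (nat_lit 0) (XT.lf (nat_lit 0) (nat_lit 6227869521) (nat_lit 608) (nat_lit 13670191470) (nat_lit 76) (nat_lit 4098677382)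 (nat_lit 250) (nat_lit 5) (nat_lit 258) (nat_lit 5) (nat_lit 251) (nat_lit 5) (nat_lit 473) (nat_lit 445) (nat_lit 282)) (XT.lf (nat_lit 0) (nat_lit 9600243863) (nat_lit 608) (nat_lit 246399510) (nat_lit 76) (nat_lit 14553761185) (nat_lit 250) (nat_lit 5) (nat_lit 258) (nat_lit 5) (nat_lit 251) (nat_lit 5) (nat_lit 474) (nat_lit 445) (nat_lit 281)))) (XT.nd (nat_lit 156) (nat_lit 456) (nat_lit 0) (XT.nd (nat_lit 78) (nat_lit 456) (nat_lit 0) (XT.lf (nat_lit 0) (nat_lit 13207779145) (nat_lit 608) (nat_lit 10974112929) (nat_lit 76) (nat_lit 630269374) (nat_lit 243) (nat_lit 5) (nat_lit 251) (nat_lit 5) (nat_lit 244) (nat_lit 5) (nat_lit 475) (nat_lit 445) (nat_lit 280)) (XT.lf (nat_lit 0) (nat_lit 3070341940) (nat_lit 456) (nat_lit 13977538395) (nat_lit 532) (nat_lit 8184660912) (nat_lit 237) (nat_lit 5) (nat_lit 243) (nat_lit 5) (nat_lit 244) (nat_lit 5) (nat_lit 476) (nat_lit 445) (nat_lit 279))) (XT.nd (nat_lit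 78) (nat_lit 456) (nat_lit 0) (XT.lf (nat_lit 0) (nat_lit 17755207371) (nat_lit 456) (nat_lit 3353710042) (nat_lit 532) (nat_lit 4553443427) (nat_lit 237) (nat_lit 5) (nat_lit 243) (nat_lit 5) (nat_lit 244) (nat_lit 5) (nat_lit 477) (nat_lit 445) (nat_lit 278)) (XT.lf (nat_lit 0) (nat_lit 6830022222) (nat_lit 456) (nat_lit 18595422711) (nat_lit 532) (nat_lit 675620685) (nat_lit 231) (nat_lit 5) (nat_lit 237) (nat_lit 5) (nat_lit 238) (nat_lit 5) (nat_lit 478) (nat_lit 445) (nat_lit 277))))) (XT.nd (nat_lit 312) (nat_lit 912) (nat_lit 0) (XT.nd (nat_lit 156) (nat_lit 456) (nat_lit 0) (XT.nd (nat_lit 78) (nat_lit 456) (nat_lit 0) (XT.lf (nat_lit 0) (nat_lit 3362718824) (nat_lit 532) (nat_lit 4450921400) (nat_lit 76) (nat_lit 18735066513) (nat_lit 230) (nat_lit 5) (nat_lit 237) (nat_lit 5) (nat_lit 231) (nat_lit 5) (nat_lit 479) (nat_lit 445) (nat_lit 276)) (XT.lf (nat_lit 0) (nat_lit 7642510711) (nat_lit 532) (nat_lit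 16022925460) (nat_lit 76) (nat_lit 3340124139) (nat_lit 224) (nat_lit 5) (nat_lit 231) (nat_lit 5) (nat_lit 225) (nat_lit 5) (nat_lit 480) (nat_lit 445) (nat_lit 275))) (XT.nd (nat_lit 78) (nat_lit 456) (nat_lit 0) (XT.lf (nat_lit 0) (nat_lit 12168763594) (nat_lit 532) (nat_lit 587936963) (nat_lit 76) (nat_lit 14715877249) (nat_lit 224) (nat_lit 5) (nat_lit 231) (nat_lit 5) (nat_lit 225) (nat_lit 5) (nat_lit 481) (nat_lit 445) (nat_lit 274)) (XT.lf (nat_lit 0) (nat_lit 15609063664) (nat_lit 456) (nat_lit 1367234638) (nat_lit 532) (nat_lit 10972943022) (nat_lit 218) (nat_lit 5) (nat_lit 224) (nat_lit 5) (nat_lit 225) (nat_lit 5) (nat_lit 482) (nat_lit 445) (nat_lit 273)))) (XT.nd (nat_lit 156) (nat_lit 532) (nat_lit 0) (XT.nd (nat_lit 78) (nat_lit 0) (nat_lit 0) (XT.lf (nat_lit 0) (nat_lit 3833425397) (nat_lit 380) (nat_lit 18232621719) (nat_lit 456) (nat_lit 6370018304) (nat_lit 213) (nat_lit 5) (nat_lit 218) (nat_lit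 5) (nat_lit 219) (nat_lit 5) (nat_lit 483) (nat_lit 445) (nat_lit 272)) (XT.lf (nat_lit 0) (nat_lit 20725752269) (nat_lit 380) (nat_lit 6716347042) (nat_lit 456) (nat_lit 1491386905) (nat_lit 213) (nat_lit 5) (nat_lit 218) (nat_lit 5) (nat_lit 219) (nat_lit 5) (nat_lit 484) (nat_lit 445) (nat_lit 271))) (XT.nd (nat_lit 78) (nat_lit 0) (nat_lit 0) (XT.lf (nat_lit 0) (nat_lit 3595655594) (nat_lit 532) (nat_lit 20681589809) (nat_lit 76) (nat_lit 5163635342) (nat_lit 206) (nat_lit 5) (nat_lit 213) (nat_lit 5) (nat_lit 207) (nat_lit 5) (nat_lit 485) (nat_lit 445) (nat_lit 270)) (XT.lf (nat_lit 0) (nat_lit 8951276564) (nat_lit 532) (nat_lit 3645141346) (nat_lit 76) (nat_lit 17362258215) (nat_lit 206) (nat_lit 5) (nat_lit 213) (nat_lit 5) (nat_lit 207) (nat_lit 5) (nat_lit 486) (nat_lit 445) (nat_lit 269))))))))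
noncomputable def xc190 : XT := (XT.nd (nat_lit 2418) (nat_lit 3572) (nat_lit 0) (XT.nd (nat_lit 1170) (nat_lit 2660) (nat_lit 0) (XT.nd (nat_lit 546) (nat_lit 1672) (nat_lit 0) (XT.nd (nat_lit 234) (nat_lit 760) (nat_lit 0) (XT.nd (nat_lit 78) (nat_lit 380) (nat_lit 0) (XT.lf (nat_lit 0) (nat_lit 14173518264) (nat_lit 380) (nat_lit 426157939) (nat_lit 456) (nat_lit 15888366134) (nat_lit 201) (nat_lit 5) (nat_lit 206) (nat_lit 5) (nat_lit 207) (nat_lit 5) (nat_lit 487) (nat_lit 445) (nat_lit 268)) (XT.nd (nat_lit 78) (nat_lit 0) (nat_lit 0) (XT.lf (nat_lit 0) (nat_lit 1475792106) (nat_lit 380) (nat_lit 19105417400) (nat_lit 456) (nat_lit 10447169842) (nat_lit 196) (nat_lit 5) (nat_lit 201) (nat_lit 5) (nat_lit 202) (nat_lit 5) (nat_lit 488) (nat_lit 445) (nat_lit 267)) (XT.lf (nat_lit 0) (nat_lit 20124485674) (nat_lit 380) (nat_lit 6782613273) (nat_lit 456) (nat_lit 4672880474) (nat_lit 196) (nat_lit 5) (nat_lit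 201) (nat_lit 5) (nat_lit 202) (nat_lit 5) (nat_lit 489) (nat_lit 445) (nat_lit 266)))) (XT.nd (nat_lit 156) (nat_lit 380) (nat_lit 0) (XT.nd (nat_lit 78) (nat_lit 0) (nat_lit 0) (XT.lf (nat_lit 0) (nat_lit 1373706235) (nat_lit 380) (nat_lit 24893867791) (nat_lit 76) (nat_lit 5876467890) (nat_lit 191) (nat_lit 5) (nat_lit 196) (nat_lit 5) (nat_lit 192) (nat_lit 5) (nat_lit 490) (nat_lit 445) (nat_lit 265)) (XT.lf (nat_lit 0) (nat_lit 7687863079) (nat_lit 380) (nat_lit 6089713193) (nat_lit 76) (nat_lit 18940659480) (nat_lit 191) (nat_lit 5) (nat_lit 196) (nat_lit 5) (nat_lit 192) (nat_lit 5) (nat_lit 491) (nat_lit 445) (nat_lit 264))) (XT.nd (nat_lit 78) (nat_lit 0) (nat_lit 0) (XT.lf (nat_lit 0) (nat_lit 13537459158) (nat_lit 380) (nat_lit 780343833) (nat_lit 456) (nat_lit 18988061889) (nat_lit 186) (nat_lit 5) (nat_lit 191) (nat_lit 5) (nat_lit 192) (nat_lit 5) (nat_lit 492) (nat_lit 445) (nat_lit 263)) (XT.lf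 (nat_lit 0) (nat_lit 21326201664) (nat_lit 456) (nat_lit 158108295) (nat_lit 76) (nat_lit 12421426325) (nat_lit 186) (nat_lit 5) (nat_lit 192) (nat_lit 5) (nat_lit 187) (nat_lit 5) (nat_lit 493) (nat_lit 445) (nat_lit 262))))) (XT.nd (nat_lit 312) (nat_lit 684) (nat_lit 0) (XT.nd (nat_lit 156) (nat_lit 304) (nat_lit 0) (XT.nd (nat_lit 78) (nat_lit 380) (nat_lit 0) (XT.lf (nat_lit 0) (nat_lit 20426198554) (nat_lit 304) (nat_lit 8319110802) (nat_lit 380) (nat_lit 5772280977) (nat_lit 182) (nat_lit 5) (nat_lit 186) (nat_lit 5) (nat_lit 187) (nat_lit 5) (nat_lit 494) (nat_lit 445) (nat_lit 261)) (XT.lf (nat_lit 0) (nat_lit 1327546821) (nat_lit 380) (nat_lit 28601620007) (nat_lit 76) (nat_lit 5214899893) (nat_lit 177) (nat_lit 5) (nat_lit 182) (nat_lit 5) (nat_lit 178) (nat_lit 5) (nat_lit 495) (nat_lit 445) (nat_lit 260))) (XT.nd (nat_lit 78) (nat_lit 304) (nat_lit 0) (XT.lf (nat_lit 0) (nat_lit 8746866751) (nat_lit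 380) (nat_lit 7847059626) (nat_lit 76) (nat_lit 19187021248) (nat_lit 177) (nat_lit 5) (nat_lit 182) (nat_lit 5) (nat_lit 178) (nat_lit 5) (nat_lit 496) (nat_lit 445) (nat_lit 259)) (XT.lf (nat_lit 0) (nat_lit 13794241474) (nat_lit 304) (nat_lit 2723669808) (nat_lit 380) (nat_lit 19915149516) (nat_lit 173) (nat_lit 5) (nat_lit 177) (nat_lit 5) (nat_lit 178) (nat_lit 5) (nat_lit 497) (nat_lit 445) (nat_lit 258)))) (XT.nd (nat_lit 156) (nat_lit 380) (nat_lit 0) (XT.nd (nat_lit 78) (nat_lit 304) (nat_lit 0) (XT.lf (nat_lit 0) (nat_lit 24709842370) (nat_lit 380) (nat_lit 973762135) (nat_lit 76) (nat_lit 11415500387) (nat_lit 173) (nat_lit 5) (nat_lit 178) (nat_lit 5) (nat_lit 174) (nat_lit 5) (nat_lit 498) (nat_lit 445) (nat_lit 257)) (XT.lf (nat_lit 0) (nat_lit 21733417424) (nat_lit 304) (nat_lit 11646678480) (nat_lit 380) (nat_lit 4398057649) (nat_lit 169) (nat_lit 5) (nat_lit 173) (nat_lit 5) (nat_lit 174) (nat_lit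 5) (nat_lit 499) (nat_lit 445) (nat_lit 256))) (XT.nd (nat_lit 78) (nat_lit 0) (nat_lit 0) (XT.lf (nat_lit 0) (nat_lit 3857761461) (nat_lit 380) (nat_lit 31748057183) (nat_lit 76) (nat_lit 2867659735) (nat_lit 164) (nat_lit 5) (nat_lit 169) (nat_lit 5) (nat_lit 165) (nat_lit 5) (nat_lit 500) (nat_lit 445) (nat_lit 255)) (XT.lf (nat_lit 0) (nat_lit 12548528846) (nat_lit 380) (nat_lit 8842690287) (nat_lit 76) (nat_lit 17788867519) (nat_lit 164) (nat_lit 5) (nat_lit 169) (nat_lit 5) (nat_lit 165) (nat_lit 5) (nat_lit 501) (nat_lit 445) (nat_lit 254)))))) (XT.nd (nat_lit 624) (nat_lit 1216) (nat_lit 0) (XT.nd (nat_lit 312) (nat_lit 532) (nat_lit 0) (XT.nd (nat_lit 156) (nat_lit 608) (nat_lit 0) (XT.nd (nat_lit 78) (nat_lit 0) (nat_lit 0) (XT.lf (nat_lit 0) (nat_lit 15038427803) (nat_lit 304) (nat_lit 6602977317) (nat_lit 380) (nat_lit 18262246636) (nat_lit 160) (nat_lit 5) (nat_lit 164) (nat_lit 5) (nat_lit 165) (nat_lit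 5) (nat_lit 502) (nat_lit 445) (nat_lit 253)) (XT.lf (nat_lit 0) (nat_lit 31177049167) (nat_lit 380) (nat_lit 917723289) (nat_lit 76) (nat_lit 8549052066) (nat_lit 160) (nat_lit 5) (nat_lit 165) (nat_lit 5) (nat_lit 161) (nat_lit 5) (nat_lit 503) (nat_lit 445) (nat_lit 252))) (XT.nd (nat_lit 78) (nat_lit 380) (nat_lit 0) (XT.lf (nat_lit 0) (nat_lit 24149315307) (nat_lit 228) (nat_lit 17143909947) (nat_lit 304) (nat_lit 104143487) (nat_lit 157) (nat_lit 5) (nat_lit 160) (nat_lit 5) (nat_lit 161) (nat_lit 5) (nat_lit 504) (nat_lit 445) (nat_lit 251)) (XT.lf (nat_lit 0) (nat_lit 7870972031) (nat_lit 304) (nat_lit 1564229888) (nat_lit 380) (nat_lit 32733107102) (nat_lit 152) (nat_lit 5) (nat_lit 156) (nat_lit 5) (nat_lit 157) (nat_lit 5) (nat_lit 505) (nat_lit 445) (nat_lit 250)))) (XT.nd (nat_lit 156) (nat_lit 304) (nat_lit 0) (XT.nd (nat_lit 78) (nat_lit 228) (nat_lit 0) (XT.lf (nat_lit 0) (nat_lit 19570737406) (nat_lit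 380) (nat_lit 9006781327) (nat_lit 76) (nat_lit 14375464893) (nat_lit 152) (nat_lit 5) (nat_lit 157) (nat_lit 5) (nat_lit 153) (nat_lit 5) (nat_lit 506) (nat_lit 445) (nat_lit 249)) (XT.lf (nat_lit 0) (nat_lit 17361129425) (nat_lit 228) (nat_lit 12828659436) (nat_lit 304) (nat_lit 13566026244) (nat_lit 149) (nat_lit 5) (nat_lit 152) (nat_lit 5) (nat_lit 153) (nat_lit 5) (nat_lit 507) (nat_lit 445) (nat_lit 248))) (XT.nd (nat_lit 78) (nat_lit 76) (nat_lit 0) (XT.lf (nat_lit 0) (nat_lit 88236880) (nat_lit 228) (nat_lit 41161587851) (nat_lit 304) (nat_lit 3329234542) (nat_lit 146) (nat_lit 5) (nat_lit 149) (nat_lit 5) (nat_lit 150) (nat_lit 5) (nat_lit 508) (nat_lit 445) (nat_lit 247)) (XT.lf (nat_lit 0) (nat_lit 7467179310) (nat_lit 304) (nat_lit 17715988031) (nat_lit 76) (nat_lit 20229953922) (nat_lit 145) (nat_lit 5) (nat_lit 149) (nat_lit 5) (nat_lit 146) (nat_lit 5) (nat_lit 509) (nat_lit 445) (nat_lit 246)))))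 (XT.nd (nat_lit 312) (nat_lit 456) (nat_lit 0) (XT.nd (nat_lit 156) (nat_lit 532) (nat_lit 0) (XT.nd (nat_lit 78) (nat_lit 0) (nat_lit 0) (XT.lf (nat_lit 0) (nat_lit 10020105061) (nat_lit 228) (nat_lit 8593982143) (nat_lit 304) (nat_lit 27654323666) (nat_lit 142) (nat_lit 5) (nat_lit 145) (nat_lit 5) (nat_lit 146) (nat_lit 5) (nat_lit 510) (nat_lit 445) (nat_lit 245)) (XT.lf (nat_lit 0) (nat_lit 30354927225) (nat_lit 304) (nat_lit 8280534548) (nat_lit 76) (nat_lit 8506111763) (nat_lit 142) (nat_lit 5) (nat_lit 146) (nat_lit 5) (nat_lit 143) (nat_lit 5) (nat_lit 511) (nat_lit 445) (nat_lit 244))) (XT.nd (nat_lit 78) (nat_lit 304) (nat_lit 0) (XT.lf (nat_lit 0) (nat_lit 20843471722) (nat_lit 228) (nat_lit 21887269026) (nat_lit 304) (nat_lit 5301707996) (nat_lit 139) (nat_lit 5) (nat_lit 142) (nat_lit 5) (nat_lit 143) (nat_lit 5) (nat_lit 512) (nat_lit 445) (nat_lit 243)) (XT.lf (nat_lit 0) (nat_lit 2035083717) (nat_lit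 228) (nat_lit 4466630889) (nat_lit 304) (nat_lit 42443413738) (nat_lit 135) (nat_lit 5) (nat_lit 138) (nat_lit 5) (nat_lit 139) (nat_lit 5) (nat_lit 513) (nat_lit 445) (nat_lit 242)))) (XT.nd (nat_lit 156) (nat_lit 228) (nat_lit 0) (XT.nd (nat_lit 78) (nat_lit 228) (nat_lit 0) (XT.lf (nat_lit 0) (nat_lit 18956828365) (nat_lit 304) (nat_lit 17372963933) (nat_lit 76) (nat_lit 13541696946) (nat_lit 135) (nat_lit 5) (nat_lit 139) (nat_lit 5) (nat_lit 136) (nat_lit 5) (nat_lit 514) (nat_lit 445) (nat_lit 241)) (XT.lf (nat_lit 0) (nat_lit 13260424132) (nat_lit 228) (nat_lit 18694268855) (nat_lit 304) (nat_lit 18865875159) (nat_lit 132) (nat_lit 5) (nat_lit 135) (nat_lit 5) (nat_lit 136) (nat_lit 5) (nat_lit 515) (nat_lit 445) (nat_lit 240))) (XT.nd (nat_lit 78) (nat_lit 228) (nat_lit 0) (XT.lf (nat_lit 0) (nat_lit 45164645496) (nat_lit 228) (nat_lit 350721242) (nat_lit 304) (nat_lit 6277566578) (nat_lit 132) (nat_lit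 5) (nat_lit 135) (nat_lit 5) (nat_lit 136) (nat_lit 5) (nat_lit 516) (nat_lit 445) (nat_lit 239)) (XT.lf (nat_lit 0) (nat_lit 6983373577) (nat_lit 228) (nat_lit 27302723319) (nat_lit 76) (nat_lit 18493678941) (nat_lit 129) (nat_lit 5) (nat_lit 132) (nat_lit 5) (nat_lit 130) (nat_lit 5) (nat_lit 517) (nat_lit 445) (nat_lit 238))))))) (XT.nd (nat_lit 1170) (nat_lit 1672) (nat_lit 0) (XT.nd (nat_lit 546) (nat_lit 1064) (nat_lit 0) (XT.nd (nat_lit 234) (nat_lit 456) (nat_lit 0) (XT.nd (nat_lit 78) (nat_lit 152) (nat_lit 0) (XT.lf (nat_lit 0) (nat_lit 4912544357) (nat_lit 228) (nat_lit 15719221703) (nat_lit 304) (nat_lit 33159119130) (nat_lit 126) (nat_lit 5) (nat_lit 129) (nat_lit 5) (nat_lit 130) (nat_lit 5) (nat_lit 518) (nat_lit 445) (nat_lit 237)) (XT.nd (nat_lit 78) (nat_lit 152) (nat_lit 0) (XT.lf (nat_lit 0) (nat_lit 34998294005) (nat_lit 304) (nat_lit 16209819250) (nat_lit 76) (nat_lit 3614954141) (nat_lit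 126) (nat_lit 5) (nat_lit 130) (nat_lit 5) (nat_lit 127) (nat_lit 5) (nat_lit 519) (nat_lit 445) (nat_lit 236)) (XT.lf (nat_lit 0) (nat_lit 17622877590) (nat_lit 152) (nat_lit 32495572405) (nat_lit 228) (nat_lit 5758086191) (nat_lit 124) (nat_lit 5) (nat_lit 126) (nat_lit 5) (nat_lit 127) (nat_lit 5) (nat_lit 520) (nat_lit 445) (nat_lit 235)))) (XT.nd (nat_lit 156) (nat_lit 152) (nat_lit 0) (XT.nd (nat_lit 78) (nat_lit 228) (nat_lit 0) (XT.lf (nat_lit 0) (nat_lit 8723145824) (nat_lit 228) (nat_lit 4243539895) (nat_lit 76) (nat_lit 43987518392) (nat_lit 123) (nat_lit 5) (nat_lit 126) (nat_lit 5) (nat_lit 124) (nat_lit 5) (nat_lit 521) (nat_lit 445) (nat_lit 234)) (XT.lf (nat_lit 0) (nat_lit 23894230662) (nat_lit 304) (nat_lit 26788407797) (nat_lit 76) (nat_lit 7368718938) (nat_lit 120) (nat_lit 5) (nat_lit 124) (nat_lit 5) (nat_lit 121) (nat_lit 5) (nat_lit 522) (nat_lit 445) (nat_lit 233))) (XT.nd (nat_lit 78)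 (nat_lit 0) (nat_lit 0) (XT.lf (nat_lit 0) (nat_lit 8779973386) (nat_lit 152) (nat_lit 30994216793) (nat_lit 228) (nat_lit 19399622913) (nat_lit 118) (nat_lit 5) (nat_lit 120) (nat_lit 5) (nat_lit 121) (nat_lit 5) (nat_lit 523) (nat_lit 445) (nat_lit 232)) (XT.lf (nat_lit 0) (nat_lit 45960550949) (nat_lit 152) (nat_lit 10438221917) (nat_lit 228) (nat_lit 3923122931) (nat_lit 118) (nat_lit 5) (nat_lit 120) (nat_lit 5) (nat_lit 121) (nat_lit 5) (nat_lit 524) (nat_lit 445) (nat_lit 231))))) (XT.nd (nat_lit 312) (nat_lit 456) (nat_lit 0) (XT.nd (nat_lit 156) (nat_lit 304) (nat_lit 0) (XT.nd (nat_lit 78) (nat_lit 0) (nat_lit 0) (XT.lf (nat_lit 0) (nat_lit 12109322266) (nat_lit 304) (nat_lit 38517757833) (nat_lit 76) (nat_lit 10864090568) (nat_lit 114) (nat_lit 5) (nat_lit 118) (nat_lit 5) (nat_lit 115) (nat_lit 5) (nat_lit 525) (nat_lit 445) (nat_lit 230)) (XT.lf (nat_lit 0) (nat_lit 28791466422) (nat_lit 304) (nat_lit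 1116125387) (nat_lit 76) (nat_lit 32779339459) (nat_lit 114) (nat_lit 5) (nat_lit 118) (nat_lit 5) (nat_lit 115) (nat_lit 5) (nat_lit 526) (nat_lit 445) (nat_lit 229))) (XT.nd (nat_lit 78) (nat_lit 152) (nat_lit 0) (XT.lf (nat_lit 0) (nat_lit 38148146694) (nat_lit 152) (nat_lit 8190466948) (nat_lit 228) (nat_lit 17569014947) (nat_lit 112) (nat_lit 5) (nat_lit 114) (nat_lit 5) (nat_lit 115) (nat_lit 5) (nat_lit 527) (nat_lit 445) (nat_lit 228)) (XT.lf (nat_lit 0) (nat_lit 13573251807) (nat_lit 152) (nat_lit 51114915750) (nat_lit 228) (nat_lit 468499568) (nat_lit 110) (nat_lit 5) (nat_lit 112) (nat_lit 5) (nat_lit 113) (nat_lit 5) (nat_lit 528) (nat_lit 445) (nat_lit 227)))) (XT.nd (nat_lit 156) (nat_lit 228) (nat_lit 0) (XT.nd (nat_lit 78) (nat_lit 152) (nat_lit 0) (XT.lf (nat_lit 0) (nat_lit 17152110913) (nat_lit 228) (nat_lit 12073672635) (nat_lit 76) (nat_lit 37202199841) (nat_lit 109) (nat_lit 5) (nat_lit 112)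 (nat_lit 5) (nat_lit 110) (nat_lit 5) (nat_lit 529) (nat_lit 445) (nat_lit 226)) (XT.lf (nat_lit 0) (nat_lit 29182456848) (nat_lit 152) (nat_lit 6387900205) (nat_lit 228) (nat_lit 32158589975) (nat_lit 107) (nat_lit 5) (nat_lit 109) (nat_lit 5) (nat_lit 110) (nat_lit 5) (nat_lit 530) (nat_lit 445) (nat_lit 225))) (XT.nd (nat_lit 78) (nat_lit 76) (nat_lit 0) (XT.lf (nat_lit 0) (nat_lit 2742347923) (nat_lit 152) (nat_lit 52110928393) (nat_lit 228) (nat_lit 14206299544) (nat_lit 105) (nat_lit 5) (nat_lit 107) (nat_lit 5) (nat_lit 108) (nat_lit 5) (nat_lit 531) (nat_lit 445) (nat_lit 224)) (XT.lf (nat_lit 0) (nat_lit 4655225216) (nat_lit 228) (nat_lit 24470452231) (nat_lit 76) (nat_lit 41289582403) (nat_lit 104) (nat_lit 5) (nat_lit 107) (nat_lit 5) (nat_lit 105) (nat_lit 5) (nat_lit 532) (nat_lit 445) (nat_lit 223)))))) (XT.nd (nat_lit 624) (nat_lit 760) (nat_lit 0) (XT.nd (nat_lit 312) (nat_lit 380) (nat_lit 0) (XT.nd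 (nat_lit 156) (nat_lit 380) (nat_lit 0) (XT.nd (nat_lit 78) (nat_lit 0) (nat_lit 0) (XT.lf (nat_lit 0) (nat_lit 18855379321) (nat_lit 152) (nat_lit 5120922020) (nat_lit 228) (nat_lit 47825716230) (nat_lit 102) (nat_lit 5) (nat_lit 104) (nat_lit 5) (nat_lit 105) (nat_lit 5) (nat_lit 533) (nat_lit 445) (nat_lit 222)) (XT.lf (nat_lit 0) (nat_lit 44313002685) (nat_lit 228) (nat_lit 9434886833) (nat_lit 76) (nat_lit 19469408766) (nat_lit 102) (nat_lit 5) (nat_lit 105) (nat_lit 5) (nat_lit 103) (nat_lit 5) (nat_lit 534) (nat_lit 445) (nat_lit 221))) (XT.nd (nat_lit 78) (nat_lit 228) (nat_lit 0) (XT.lf (nat_lit 0) (nat_lit 36031080963) (nat_lit 152) (nat_lit 29623834792) (nat_lit 228) (nat_lit 9008268392) (nat_lit 100) (nat_lit 5) (nat_lit 102) (nat_lit 5) (nat_lit 103) (nat_lit 5) (nat_lit 535) (nat_lit 445) (nat_lit 220)) (XT.lf (nat_lit 0) (nat_lit 6925104209) (nat_lit 152) (nat_lit 4496273895) (nat_lit 228) (nat_lit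 64722931249) (nat_lit 97) (nat_lit 5) (nat_lit 99) (nat_lit 5) (nat_lit 100) (nat_lit 5) (nat_lit 536) (nat_lit 445) (nat_lit 219)))) (XT.nd (nat_lit 156) (nat_lit 228) (nat_lit 0) (XT.nd (nat_lit 78) (nat_lit 152) (nat_lit 0) (XT.lf (nat_lit 0) (nat_lit 32880461797) (nat_lit 228) (nat_lit 23319378923) (nat_lit 76) (nat_lit 21449423764) (nat_lit 97) (nat_lit 5) (nat_lit 100) (nat_lit 5) (nat_lit 98) (nat_lit 5) (nat_lit 537) (nat_lit 445) (nat_lit 218)) (XT.lf (nat_lit 0) (nat_lit 24385331436) (nat_lit 152) (nat_lit 30875034466) (nat_lit 228) (nat_lit 23930690972) (nat_lit 95) (nat_lit 5) (nat_lit 97) (nat_lit 5) (nat_lit 98) (nat_lit 5) (nat_lit 538) (nat_lit 445) (nat_lit 217))) (XT.nd (nat_lit 78) (nat_lit 228) (nat_lit 0) (XT.lf (nat_lit 0) (nat_lit 73995802492) (nat_lit 152) (nat_lit 4549490178) (nat_lit 228) (nat_lit 2226801639) (nat_lit 95) (nat_lit 5) (nat_lit 97) (nat_lit 5) (nat_lit 98) (nat_lit 5) (nat_lit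 539) (nat_lit 445) (nat_lit 216)) (XT.lf (nat_lit 0) (nat_lit 20373194143) (nat_lit 228) (nat_lit 39262280699) (nat_lit 76) (nat_lit 22740150621) (nat_lit 92) (nat_lit 5) (nat_lit 95) (nat_lit 5) (nat_lit 93) (nat_lit 5) (nat_lit 540) (nat_lit 445) (nat_lit 215))))) (XT.nd (nat_lit 312) (nat_lit 456) (nat_lit 0) (XT.nd (nat_lit 156) (nat_lit 152) (nat_lit 0) (XT.nd (nat_lit 78) (nat_lit 0) (nat_lit 0) (XT.lf (nat_lit 0) (nat_lit 10752061273) (nat_lit 152) (nat_lit 33070064922) (nat_lit 228) (nat_lit 40198004179) (nat_lit 90) (nat_lit 5) (nat_lit 92) (nat_lit 5) (nat_lit 93) (nat_lit 5) (nat_lit 541) (nat_lit 445) (nat_lit 214)) (XT.lf (nat_lit 0) (nat_lit 63068355876) (nat_lit 152) (nat_lit 5300851578) (nat_lit 228) (nat_lit 17332922579) (nat_lit 90) (nat_lit 5) (nat_lit 92) (nat_lit 5) (nat_lit 93) (nat_lit 5) (nat_lit 542) (nat_lit 445) (nat_lit 213))) (XT.nd (nat_lit 78) (nat_lit 0) (nat_lit 0) (XT.lf (nat_lit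 0) (nat_lit 6611231642) (nat_lit 152) (nat_lit 57608844304) (nat_lit 76) (nat_lit 23197286862) (nat_lit 88) (nat_lit 5) (nat_lit 90) (nat_lit 5) (nat_lit 89) (nat_lit 5) (nat_lit 543) (nat_lit 445) (nat_lit 212)) (XT.lf (nat_lit 0) (nat_lit 31206889245) (nat_lit 152) (nat_lit 5118765651) (nat_lit 76) (nat_lit 52844802711) (nat_lit 88) (nat_lit 5) (nat_lit 90) (nat_lit 5) (nat_lit 89) (nat_lit 5) (nat_lit 544) (nat_lit 445) (nat_lit 211)))) (XT.nd (nat_lit 156) (nat_lit 228) (nat_lit 0) (XT.nd (nat_lit 78) (nat_lit 76) (nat_lit 0) (XT.lf (nat_lit 0) (nat_lit 49916908799) (nat_lit 152) (nat_lit 7101640592) (nat_lit 228) (nat_lit 33943251908) (nat_lit 86) (nat_lit 5) (nat_lit 88) (nat_lit 5) (nat_lit 89) (nat_lit 5) (nat_lit 545) (nat_lit 445) (nat_lit 210)) (XT.lf (nat_lit 0) (nat_lit 13950713418) (nat_lit 76) (nat_lit 70059537679) (nat_lit 152) (nat_lit 8784463482) (nat_lit 85) (nat_lit 5) (nat_lit 86) (nat_lit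 5) (nat_lit 87) (nat_lit 4) (nat_lit 546) (nat_lit 445) (nat_lit 209))) (XT.nd (nat_lit 78) (nat_lit 152) (nat_lit 0) (XT.lf (nat_lit 0) (nat_lit 17282037151) (nat_lit 152) (nat_lit 23474858998) (nat_lit 76) (nat_lit 53906163517) (nat_lit 84) (nat_lit 5) (nat_lit 86) (nat_lit 5) (nat_lit 85) (nat_lit 5) (nat_lit 547) (nat_lit 445) (nat_lit 208)) (XT.lf (nat_lit 0) (nat_lit 34131326836) (nat_lit 152) (nat_lit 10149096268) (nat_lit 228) (nat_lit 52294629304) (nat_lit 82) (nat_lit 5) (nat_lit 84) (nat_lit 5) (nat_lit 85) (nat_lit 5) (nat_lit 548) (nat_lit 445) (nat_lit 207))))))))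
noncomputable def xc191 : XT := (XT.nd (nat_lit 2418) (nat_lit 7144) (nat_lit 0) (XT.nd (nat_lit 1170) (nat_lit 5016) (nat_lit 0) (XT.nd (nat_lit 546) (nat_lit 0) (nat_lit 228) (XT.nd (nat_lit 234) (nat_lit 0) (nat_lit 76) (XT.nd (nat_lit 78) (nat_lit 0) (nat_lit 0) (XT.lf (nat_lit 0) (nat_lit 1341681475) (nat_lit 1292) (nat_lit 3327778244) (nat_lit 1292) (nat_lit 3327778244) (nat_lit 309) (nat_lit 3) (nat_lit 326) (nat_lit 3) (nat_lit 326) (nat_lit 5) (nat_lit 446) (nat_lit 446) (nat_lit 308)) (XT.nd (nat_lit 78) (nat_lit 0) (nat_lit 76) (XT.lf (nat_lit 76) (nat_lit 1303272679) (nat_lit 0) (nat_lit 1692939274) (nat_lit 1292) (nat_lit 13229979103) (nat_lit 310) (nat_lit 5) (nat_lit 309) (nat_lit 3) (nat_lit 326) (nat_lit 5) (nat_lit 447) (nat_lit 446) (nat_lit 307)) (XT.lf (nat_lit 0) (nat_lit 3435594854) (nat_lit 1216) (nat_lit 6891322374) (nat_lit 1292) (nat_lit 6134426896) (nat_lit 310) (nat_lit 5) (nat_lit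 326) (nat_lit 5) (nat_lit 327) (nat_lit 5) (nat_lit 448) (nat_lit 446) (nat_lit 306)))) (XT.nd (nat_lit 156) (nat_lit 0) (nat_lit 76) (XT.nd (nat_lit 78) (nat_lit 0) (nat_lit 76) (XT.lf (nat_lit 76) (nat_lit 1385985446) (nat_lit 0) (nat_lit 2522399990) (nat_lit 1292) (nat_lit 12794560473) (nat_lit 311) (nat_lit 5) (nat_lit 310) (nat_lit 5) (nat_lit 327) (nat_lit 5) (nat_lit 449) (nat_lit 446) (nat_lit 305)) (XT.lf (nat_lit 0) (nat_lit 4509079226) (nat_lit 1216) (nat_lit 6956340138) (nat_lit 1292) (nat_lit 5482965684) (nat_lit 311) (nat_lit 5) (nat_lit 327) (nat_lit 5) (nat_lit 328) (nat_lit 5) (nat_lit 450) (nat_lit 446) (nat_lit 304))) (XT.nd (nat_lit 78) (nat_lit 0) (nat_lit 76) (XT.lf (nat_lit 76) (nat_lit 1656828717) (nat_lit 0) (nat_lit 3502561017) (nat_lit 1292) (nat_lit 12040850609) (nat_lit 312) (nat_lit 5) (nat_lit 311) (nat_lit 5) (nat_lit 328) (nat_lit 5) (nat_lit 451) (nat_lit 446) (nat_lit 303)) (XT.lf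 (nat_lit 0) (nat_lit 5936268326) (nat_lit 1216) (nat_lit 6838298674) (nat_lit 1292) (nat_lit 4681873367) (nat_lit 312) (nat_lit 5) (nat_lit 328) (nat_lit 5) (nat_lit 329) (nat_lit 5) (nat_lit 452) (nat_lit 446) (nat_lit 302))))) (XT.nd (nat_lit 312) (nat_lit 0) (nat_lit 152) (XT.nd (nat_lit 156) (nat_lit 0) (nat_lit 76) (XT.nd (nat_lit 78) (nat_lit 0) (nat_lit 76) (XT.lf (nat_lit 76) (nat_lit 2129128421) (nat_lit 0) (nat_lit 4653680310) (nat_lit 1292) (nat_lit 10936127809) (nat_lit 313) (nat_lit 5) (nat_lit 312) (nat_lit 5) (nat_lit 329) (nat_lit 5) (nat_lit 453) (nat_lit 446) (nat_lit 301)) (XT.lf (nat_lit 0) (nat_lit 7751593318) (nat_lit 1216) (nat_lit 6523771833) (nat_lit 1292) (nat_lit 3711037792) (nat_lit 313) (nat_lit 5) (nat_lit 329) (nat_lit 5) (nat_lit 330) (nat_lit 5) (nat_lit 454) (nat_lit 446) (nat_lit 300))) (XT.nd (nat_lit 78) (nat_lit 0) (nat_lit 76) (XT.lf (nat_lit 76) (nat_lit 2817381623) (nat_lit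 0) (nat_lit 5996907644) (nat_lit 1292) (nat_lit 9445659402) (nat_lit 314) (nat_lit 5) (nat_lit 313) (nat_lit 5) (nat_lit 330) (nat_lit 5) (nat_lit 455) (nat_lit 446) (nat_lit 299)) (XT.lf (nat_lit 0) (nat_lit 9991614410) (nat_lit 1216) (nat_lit 5998171342) (nat_lit 1292) (nat_lit 2549433304) (nat_lit 314) (nat_lit 5) (nat_lit 330) (nat_lit 5) (nat_lit 331) (nat_lit 5) (nat_lit 456) (nat_lit 446) (nat_lit 298)))) (XT.nd (nat_lit 156) (nat_lit 0) (nat_lit 76) (XT.nd (nat_lit 78) (nat_lit 0) (nat_lit 76) (XT.lf (nat_lit 76) (nat_lit 3737307021) (nat_lit 0) (nat_lit 7554388600) (nat_lit 1292) (nat_lit 7532549565) (nat_lit 315) (nat_lit 5) (nat_lit 314) (nat_lit 5) (nat_lit 331) (nat_lit 5) (nat_lit 457) (nat_lit 446) (nat_lit 297)) (XT.lf (nat_lit 0) (nat_lit 12695178356) (nat_lit 1216) (nat_lit 5245695152) (nat_lit 1292) (nat_lit 1175017318) (nat_lit 315) (nat_lit 5) (nat_lit 331) (nat_lit 5) (nat_lit 332) (nat_lit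 5) (nat_lit 458) (nat_lit 446) (nat_lit 296))) (XT.nd (nat_lit 78) (nat_lit 0) (nat_lit 0) (XT.lf (nat_lit 76) (nat_lit 4905900197) (nat_lit 0) (nat_lit 9349371502) (nat_lit 1292) (nat_lit 5157579631) (nat_lit 316) (nat_lit 5) (nat_lit 315) (nat_lit 5) (nat_lit 332) (nat_lit 5) (nat_lit 459) (nat_lit 446) (nat_lit 295)) (XT.lf (nat_lit 76) (nat_lit 15463811272) (nat_lit 0) (nat_lit 444041027) (nat_lit 1292) (nat_lit 3809498473) (nat_lit 316) (nat_lit 5) (nat_lit 315) (nat_lit 5) (nat_lit 332) (nat_lit 5) (nat_lit 460) (nat_lit 446) (nat_lit 294)))))) (XT.nd (nat_lit 624) (nat_lit 2280) (nat_lit 0) (XT.nd (nat_lit 312) (nat_lit 2052) (nat_lit 0) (XT.nd (nat_lit 156) (nat_lit 1216) (nat_lit 0) (XT.nd (nat_lit 78) (nat_lit 0) (nat_lit 0) (XT.lf (nat_lit 76) (nat_lit 6341493712) (nat_lit 0) (nat_lit 11406317791) (nat_lit 1292) (nat_lit 2279040299) (nat_lit 317) (nat_lit 5) (nat_lit 316) (nat_lit 5) (nat_lit 333) (nat_lit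 5) (nat_lit 461) (nat_lit 446) (nat_lit 293)) (XT.lf (nat_lit 76) (nat_lit 17331321499) (nat_lit 0) (nat_lit 2352043625) (nat_lit 1292) (nat_lit 661061492) (nat_lit 317) (nat_lit 5) (nat_lit 316) (nat_lit 5) (nat_lit 333) (nat_lit 5) (nat_lit 462) (nat_lit 446) (nat_lit 292))) (XT.nd (nat_lit 78) (nat_lit 0) (nat_lit 0) (XT.lf (nat_lit 0) (nat_lit 1125054112) (nat_lit 1292) (nat_lit 12614601433) (nat_lit 76) (nat_lit 6927407235) (nat_lit 300) (nat_lit 5) (nat_lit 317) (nat_lit 5) (nat_lit 301) (nat_lit 5) (nat_lit 463) (nat_lit 446) (nat_lit 291)) (XT.lf (nat_lit 0) (nat_lit 2998857880) (nat_lit 1292) (nat_lit 1522724613) (nat_lit 76) (nat_lit 16476178008) (nat_lit 300) (nat_lit 5) (nat_lit 317) (nat_lit 5) (nat_lit 301) (nat_lit 5) (nat_lit 464) (nat_lit 446) (nat_lit 290)))) (XT.nd (nat_lit 156) (nat_lit 608) (nat_lit 0) (XT.nd (nat_lit 78) (nat_lit 608) (nat_lit 0) (XT.lf (nat_lit 0) (nat_lit 5068237640) (nat_lit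 912) (nat_lit 11291285616) (nat_lit 76) (nat_lit 4974675592) (nat_lit 289) (nat_lit 5) (nat_lit 301) (nat_lit 5) (nat_lit 290) (nat_lit 5) (nat_lit 465) (nat_lit 446) (nat_lit 289)) (XT.lf (nat_lit 0) (nat_lit 260779817) (nat_lit 608) (nat_lit 6995430774) (nat_lit 684) (nat_lit 14422824937) (nat_lit 281) (nat_lit 5) (nat_lit 289) (nat_lit 5) (nat_lit 290) (nat_lit 5) (nat_lit 466) (nat_lit 446) (nat_lit 288))) (XT.nd (nat_lit 78) (nat_lit 608) (nat_lit 0) (XT.lf (nat_lit 0) (nat_lit 9644280090) (nat_lit 684) (nat_lit 9672513218) (nat_lit 76) (nat_lit 2713390800) (nat_lit 281) (nat_lit 5) (nat_lit 290) (nat_lit 5) (nat_lit 282) (nat_lit 5) (nat_lit 467) (nat_lit 446) (nat_lit 287)) (XT.lf (nat_lit 0) (nat_lit 2397308660) (nat_lit 608) (nat_lit 9793007719) (nat_lit 684) (nat_lit 10198961529) (nat_lit 273) (nat_lit 5) (nat_lit 281) (nat_lit 5) (nat_lit 282) (nat_lit 5) (nat_lit 468) (nat_lit 446) (nat_lit 286)))))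 (XT.nd (nat_lit 312) (nat_lit 1064) (nat_lit 0) (XT.nd (nat_lit 156) (nat_lit 684) (nat_lit 0) (XT.nd (nat_lit 78) (nat_lit 532) (nat_lit 0) (XT.lf (nat_lit 0) (nat_lit 14905671323) (nat_lit 684) (nat_lit 7735769433) (nat_lit 76) (nat_lit 114916129) (nat_lit 273) (nat_lit 5) (nat_lit 282) (nat_lit 5) (nat_lit 274) (nat_lit 5) (nat_lit 469) (nat_lit 446) (nat_lit 285)) (XT.lf (nat_lit 0) (nat_lit 4880635698) (nat_lit 532) (nat_lit 12960036624) (nat_lit 608) (nat_lit 5289630822) (nat_lit 266) (nat_lit 5) (nat_lit 273) (nat_lit 5) (nat_lit 274) (nat_lit 5) (nat_lit 470) (nat_lit 446) (nat_lit 284))) (XT.nd (nat_lit 78) (nat_lit 684) (nat_lit 0) (XT.lf (nat_lit 0) (nat_lit 18028406147) (nat_lit 532) (nat_lit 2907853521) (nat_lit 608) (nat_lit 2577032496) (nat_lit 266) (nat_lit 5) (nat_lit 273) (nat_lit 5) (nat_lit 274) (nat_lit 5) (nat_lit 471) (nat_lit 446) (nat_lit 283)) (XT.lf (nat_lit 0) (nat_lit 354625694) (nat_lit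 684) (nat_lit 16170498555) (nat_lit 76) (nat_lit 7378327020) (nat_lit 257) (nat_lit 5) (nat_lit 266) (nat_lit 5) (nat_lit 258) (nat_lit 5) (nat_lit 472) (nat_lit 446) (nat_lit 282)))) (XT.nd (nat_lit 156) (nat_lit 532) (nat_lit 0) (XT.nd (nat_lit 78) (nat_lit 532) (nat_lit 0) (XT.lf (nat_lit 0) (nat_lit 3401795551) (nat_lit 684) (nat_lit 2904495982) (nat_lit 76) (nat_lit 17995877851) (nat_lit 257) (nat_lit 5) (nat_lit 266) (nat_lit 5) (nat_lit 258) (nat_lit 5) (nat_lit 473) (nat_lit 446) (nat_lit 281)) (XT.lf (nat_lit 0) (nat_lit 6682196334) (nat_lit 608) (nat_lit 13783511544) (nat_lit 76) (nat_lit 4242887100) (nat_lit 250) (nat_lit 5) (nat_lit 258) (nat_lit 5) (nat_lit 251) (nat_lit 5) (nat_lit 474) (nat_lit 446) (nat_lit 280))) (XT.nd (nat_lit 78) (nat_lit 0) (nat_lit 0) (XT.lf (nat_lit 0) (nat_lit 35033563) (nat_lit 532) (nat_lit 10113254115) (nat_lit 608) (nat_lit 14976307703) (nat_lit 243) (nat_lit 5) (nat_lit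 250) (nat_lit 5) (nat_lit 251) (nat_lit 5) (nat_lit 475) (nat_lit 446) (nat_lit 279)) (XT.lf (nat_lit 0) (nat_lit 13859183412) (nat_lit 608) (nat_lit 11010646417) (nat_lit 76) (nat_lit 679021705) (nat_lit 243) (nat_lit 5) (nat_lit 251) (nat_lit 5) (nat_lit 244) (nat_lit 5) (nat_lit 476) (nat_lit 446) (nat_lit 278))))))) (XT.nd (nat_lit 1248) (nat_lit 3192) (nat_lit 0) (XT.nd (nat_lit 624) (nat_lit 1672) (nat_lit 0) (XT.nd (nat_lit 312) (nat_lit 1292) (nat_lit 0) (XT.nd (nat_lit 156) (nat_lit 532) (nat_lit 0) (XT.nd (nat_lit 78) (nat_lit 0) (nat_lit 0) (XT.lf (nat_lit 0) (nat_lit 3452272589) (nat_lit 456) (nat_lit 14357568817) (nat_lit 532) (nat_lit 8172141280) (nat_lit 237) (nat_lit 5) (nat_lit 243) (nat_lit 5) (nat_lit 244) (nat_lit 5) (nat_lit 477) (nat_lit 446) (nat_lit 277)) (XT.lf (nat_lit 0) (nat_lit 18569242612) (nat_lit 456) (nat_lit 3416170150) (nat_lit 532) (nat_lit 4439503566) (nat_lit 237) (nat_lit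 5) (nat_lit 243) (nat_lit 5) (nat_lit 244) (nat_lit 5) (nat_lit 478) (nat_lit 446) (nat_lit 276))) (XT.nd (nat_lit 78) (nat_lit 76) (nat_lit 0) (XT.lf (nat_lit 0) (nat_lit 7320423772) (nat_lit 456) (nat_lit 19107028490) (nat_lit 532) (nat_lit 449450041) (nat_lit 231) (nat_lit 5) (nat_lit 237) (nat_lit 5) (nat_lit 238) (nat_lit 5) (nat_lit 479) (nat_lit 446) (nat_lit 275)) (XT.lf (nat_lit 0) (nat_lit 3698192959) (nat_lit 532) (nat_lit 4302577934) (nat_lit 76) (nat_lit 19337342337) (nat_lit 230) (nat_lit 5) (nat_lit 237) (nat_lit 5) (nat_lit 231) (nat_lit 5) (nat_lit 480) (nat_lit 446) (nat_lit 274)))) (XT.nd (nat_lit 156) (nat_lit 836) (nat_lit 0) (XT.nd (nat_lit 78) (nat_lit 0) (nat_lit 0) (XT.lf (nat_lit 0) (nat_lit 8102696559) (nat_lit 532) (nat_lit 16218043633) (nat_lit 76) (nat_lit 3488043172) (nat_lit 224) (nat_lit 5) (nat_lit 231) (nat_lit 5) (nat_lit 225) (nat_lit 5) (nat_lit 481) (nat_lit 446) (nat_lit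 273)) (XT.lf (nat_lit 0) (nat_lit 12758011480) (nat_lit 532) (nat_lit 328323042) (nat_lit 76) (nat_lit 15203679109) (nat_lit 224) (nat_lit 5) (nat_lit 231) (nat_lit 5) (nat_lit 225) (nat_lit 5) (nat_lit 482) (nat_lit 446) (nat_lit 272))) (XT.nd (nat_lit 78) (nat_lit 380) (nat_lit 0) (XT.lf (nat_lit 0) (nat_lit 16351869447) (nat_lit 456) (nat_lit 1354012110) (nat_lit 532) (nat_lit 11075212681) (nat_lit 218) (nat_lit 5) (nat_lit 224) (nat_lit 5) (nat_lit 225) (nat_lit 5) (nat_lit 483) (nat_lit 446) (nat_lit 271)) (XT.lf (nat_lit 0) (nat_lit 4226313632) (nat_lit 380) (nat_lit 18718770268) (nat_lit 456) (nat_lit 6337536778) (nat_lit 213) (nat_lit 5) (nat_lit 218) (nat_lit 5) (nat_lit 219) (nat_lit 5) (nat_lit 484) (nat_lit 446) (nat_lit 270))))) (XT.nd (nat_lit 312) (nat_lit 760) (nat_lit 0) (XT.nd (nat_lit 156) (nat_lit 380) (nat_lit 0) (XT.nd (nat_lit 78) (nat_lit 532) (nat_lit 0) (XT.lf (nat_lit 0) (nat_lit 21617316558)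 (nat_lit 380) (nat_lit 6858779102) (nat_lit 456) (nat_lit 1319058536) (nat_lit 213) (nat_lit 5) (nat_lit 218) (nat_lit 5) (nat_lit 219) (nat_lit 5) (nat_lit 485) (nat_lit 446) (nat_lit 269)) (XT.lf (nat_lit 0) (nat_lit 3913365852) (nat_lit 532) (nat_lit 21024988448) (nat_lit 76) (nat_lit 5379443882) (nat_lit 206) (nat_lit 5) (nat_lit 213) (nat_lit 5) (nat_lit 207) (nat_lit 5) (nat_lit 486) (nat_lit 446) (nat_lit 268))) (XT.nd (nat_lit 78) (nat_lit 380) (nat_lit 0) (XT.lf (nat_lit 0) (nat_lit 9423543590) (nat_lit 532) (nat_lit 3485515921) (nat_lit 76) (nat_lit 17942251669) (nat_lit 206) (nat_lit 5) (nat_lit 213) (nat_lit 5) (nat_lit 207) (nat_lit 5) (nat_lit 487) (nat_lit 446) (nat_lit 267)) (XT.lf (nat_lit 0) (nat_lit 14865066422) (nat_lit 380) (nat_lit 372955197) (nat_lit 456) (nat_lit 16158638357) (nat_lit 201) (nat_lit 5) (nat_lit 206) (nat_lit 5) (nat_lit 207) (nat_lit 5) (nat_lit 488) (nat_lit 446) (nat_lit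 266)))) (XT.nd (nat_lit 156) (nat_lit 380) (nat_lit 0) (XT.nd (nat_lit 78) (nat_lit 0) (nat_lit 0) (XT.lf (nat_lit 0) (nat_lit 1789133761) (nat_lit 380) (nat_lit 19607233857) (nat_lit 456) (nat_lit 10556918857) (nat_lit 196) (nat_lit 5) (nat_lit 201) (nat_lit 5) (nat_lit 202) (nat_lit 5) (nat_lit 489) (nat_lit 446) (nat_lit 265)) (XT.lf (nat_lit 0) (nat_lit 20989451206) (nat_lit 380) (nat_lit 6916823647) (nat_lit 456) (nat_lit 4615332830) (nat_lit 196) (nat_lit 5) (nat_lit 201) (nat_lit 5) (nat_lit 202) (nat_lit 5) (nat_lit 490) (nat_lit 446) (nat_lit 264))) (XT.nd (nat_lit 78) (nat_lit 0) (nat_lit 0) (XT.lf (nat_lit 0) (nat_lit 1606359157) (nat_lit 380) (nat_lit 25373137132) (nat_lit 76) (nat_lit 6123112103) (nat_lit 191) (nat_lit 5) (nat_lit 196) (nat_lit 5) (nat_lit 192) (nat_lit 5) (nat_lit 491) (nat_lit 446) (nat_lit 263)) (XT.lf (nat_lit 0) (nat_lit 8104364733) (nat_lit 380) (nat_lit 6012650518) (nat_lit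 76) (nat_lit 19577180406) (nat_lit 191) (nat_lit 5) (nat_lit 196) (nat_lit 5) (nat_lit 192) (nat_lit 5) (nat_lit 492) (nat_lit 446) (nat_lit 262)))))) (XT.nd (nat_lit 624) (nat_lit 1520) (nat_lit 0) (XT.nd (nat_lit 312) (nat_lit 608) (nat_lit 0) (XT.nd (nat_lit 156) (nat_lit 380) (nat_lit 0) (XT.nd (nat_lit 78) (nat_lit 304) (nat_lit 0) (XT.lf (nat_lit 0) (nat_lit 14200790395) (nat_lit 380) (nat_lit 729471317) (nat_lit 456) (nat_lit 19369280506) (nat_lit 186) (nat_lit 5) (nat_lit 191) (nat_lit 5) (nat_lit 192) (nat_lit 5) (nat_lit 493) (nat_lit 446) (nat_lit 261)) (XT.lf (nat_lit 0) (nat_lit 93330859) (nat_lit 304) (nat_lit 22051843992) (nat_lit 380) (nat_lit 12772347356) (nat_lit 182) (nat_lit 5) (nat_lit 186) (nat_lit 5) (nat_lit 187) (nat_lit 5) (nat_lit 494) (nat_lit 446) (nat_lit 260))) (XT.nd (nat_lit 78) (nat_lit 380) (nat_lit 0) (XT.lf (nat_lit 0) (nat_lit 21290851956) (nat_lit 304) (nat_lit 8492334856)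 (nat_lit 380) (nat_lit 5764655441) (nat_lit 182) (nat_lit 5) (nat_lit 186) (nat_lit 5) (nat_lit 187) (nat_lit 5) (nat_lit 495) (nat_lit 446) (nat_lit 259)) (XT.lf (nat_lit 0) (nat_lit 1542660519) (nat_lit 380) (nat_lit 29202274888) (nat_lit 76) (nat_lit 5448185041) (nat_lit 177) (nat_lit 5) (nat_lit 182) (nat_lit 5) (nat_lit 178) (nat_lit 5) (nat_lit 496) (nat_lit 446) (nat_lit 258)))) (XT.nd (nat_lit 156) (nat_lit 304) (nat_lit 0) (XT.nd (nat_lit 78) (nat_lit 304) (nat_lit 0) (XT.lf (nat_lit 0) (nat_lit 9179454593) (nat_lit 380) (nat_lit 7832574599) (nat_lit 76) (nat_lit 19837232032) (nat_lit 177) (nat_lit 5) (nat_lit 182) (nat_lit 5) (nat_lit 178) (nat_lit 5) (nat_lit 497) (nat_lit 446) (nat_lit 257)) (XT.lf (nat_lit 0) (nat_lit 14455515565) (nat_lit 304) (nat_lit 2725536752) (nat_lit 380) (nat_lit 20339963092) (nat_lit 173) (nat_lit 5) (nat_lit 177) (nat_lit 5) (nat_lit 178) (nat_lit 5) (nat_lit 498) (nat_lit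 446) (nat_lit 256))) (XT.nd (nat_lit 78) (nat_lit 304) (nat_lit 0) (XT.lf (nat_lit 0) (nat_lit 25614604824) (nat_lit 380) (nat_lit 758589991) (nat_lit 76) (nat_lit 11833970372) (nat_lit 173) (nat_lit 5) (nat_lit 178) (nat_lit 5) (nat_lit 174) (nat_lit 5) (nat_lit 499) (nat_lit 446) (nat_lit 255)) (XT.lf (nat_lit 0) (nat_lit 22627409024) (nat_lit 304) (nat_lit 11915121907) (nat_lit 380) (nat_lit 4364127685) (nat_lit 169) (nat_lit 5) (nat_lit 173) (nat_lit 5) (nat_lit 174) (nat_lit 5) (nat_lit 500) (nat_lit 446) (nat_lit 254))))) (XT.nd (nat_lit 312) (nat_lit 836) (nat_lit 0) (XT.nd (nat_lit 156) (nat_lit 304) (nat_lit 0) (XT.nd (nat_lit 78) (nat_lit 0) (nat_lit 0) (XT.lf (nat_lit 0) (nat_lit 4134520513) (nat_lit 380) (nat_lit 32453647920) (nat_lit 76) (nat_lit 3034675425) (nat_lit 164) (nat_lit 5) (nat_lit 169) (nat_lit 5) (nat_lit 165) (nat_lit 5) (nat_lit 501) (nat_lit 446) (nat_lit 253)) (XT.lf (nat_lit 0) (nat_lit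 13081320835) (nat_lit 380) (nat_lit 8868309851) (nat_lit 76) (nat_lit 18401160630) (nat_lit 164) (nat_lit 5) (nat_lit 169) (nat_lit 5) (nat_lit 165) (nat_lit 5) (nat_lit 502) (nat_lit 446) (nat_lit 252))) (XT.nd (nat_lit 78) (nat_lit 0) (nat_lit 0) (XT.lf (nat_lit 0) (nat_lit 15726892163) (nat_lit 304) (nat_lit 6717818939) (nat_lit 380) (nat_lit 18651420668) (nat_lit 160) (nat_lit 5) (nat_lit 164) (nat_lit 5) (nat_lit 165) (nat_lit 5) (nat_lit 503) (nat_lit 446) (nat_lit 251)) (XT.lf (nat_lit 0) (nat_lit 32262714095) (nat_lit 380) (nat_lit 711137672) (nat_lit 76) (nat_lit 8884769487) (nat_lit 160) (nat_lit 5) (nat_lit 165) (nat_lit 5) (nat_lit 161) (nat_lit 5) (nat_lit 504) (nat_lit 446) (nat_lit 250)))) (XT.nd (nat_lit 156) (nat_lit 228) (nat_lit 0) (XT.nd (nat_lit 78) (nat_lit 304) (nat_lit 0) (XT.lf (nat_lit 0) (nat_lit 44502427) (nat_lit 304) (nat_lit 17529656023) (nat_lit 76) (nat_lit 25060664999) (nat_lit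 156) (nat_lit 5) (nat_lit 160) (nat_lit 5) (nat_lit 157) (nat_lit 5) (nat_lit 505) (nat_lit 446) (nat_lit 249)) (XT.lf (nat_lit 0) (nat_lit 8339607045) (nat_lit 304) (nat_lit 1526203434) (nat_lit 380) (nat_lit 33563114465) (nat_lit 152) (nat_lit 5) (nat_lit 156) (nat_lit 5) (nat_lit 157) (nat_lit 5) (nat_lit 506) (nat_lit 446) (nat_lit 248))) (XT.nd (nat_lit 78) (nat_lit 228) (nat_lit 0) (XT.lf (nat_lit 0) (nat_lit 20301907223) (nat_lit 380) (nat_lit 9047739546) (nat_lit 76) (nat_lit 14887598359) (nat_lit 152) (nat_lit 5) (nat_lit 157) (nat_lit 5) (nat_lit 153) (nat_lit 5) (nat_lit 507) (nat_lit 446) (nat_lit 247)) (XT.lf (nat_lit 0) (nat_lit 18108961026) (nat_lit 228) (nat_lit 13128555673) (nat_lit 304) (nat_lit 13826705450) (nat_lit 149) (nat_lit 5) (nat_lit 152) (nat_lit 5) (nat_lit 153) (nat_lit 5) (nat_lit 508) (nat_lit 446) (nat_lit 246))))))))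
noncomputable def xc192 : XT := (XT.nd (nat_lit 2418) (nat_lit 836) (nat_lit 0) (XT.nd (nat_lit 1170) (nat_lit 1900) (nat_lit 0) (XT.nd (nat_lit 546) (nat_lit 1140) (nat_lit 0) (XT.nd (nat_lit 234) (nat_lit 532) (nat_lit 0) (XT.nd (nat_lit 78) (nat_lit 304) (nat_lit 0) (XT.lf (nat_lit 0) (nat_lit 319073094) (nat_lit 228) (nat_lit 42309130060) (nat_lit 304) (nat_lit 3283995188) (nat_lit 146) (nat_lit 5) (nat_lit 149) (nat_lit 5) (nat_lit 150) (nat_lit 5) (nat_lit 509) (nat_lit 446) (nat_lit 245)) (XT.nd (nat_lit 78) (nat_lit 228) (nat_lit 0) (XT.lf (nat_lit 0) (nat_lit 7829335123) (nat_lit 304) (nat_lit 18023169741) (nat_lit 76) (nat_lit 20918859982) (nat_lit 145) (nat_lit 5) (nat_lit 149) (nat_lit 5) (nat_lit 146) (nat_lit 5) (nat_lit 510) (nat_lit 446) (nat_lit 244)) (XT.lf (nat_lit 0) (nat_lit 10542807145) (nat_lit 228) (nat_lit 8765954553) (nat_lit 304) (nat_lit 28343608271) (nat_lit 142) (nat_lit 5) (nat_lit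 145) (nat_lit 5) (nat_lit 146) (nat_lit 5) (nat_lit 511) (nat_lit 446) (nat_lit 243)))) (XT.nd (nat_lit 156) (nat_lit 304) (nat_lit 0) (XT.nd (nat_lit 78) (nat_lit 228) (nat_lit 0) (XT.lf (nat_lit 0) (nat_lit 31398659596) (nat_lit 304) (nat_lit 8310147725) (nat_lit 76) (nat_lit 8843015378) (nat_lit 142) (nat_lit 5) (nat_lit 146) (nat_lit 5) (nat_lit 143) (nat_lit 5) (nat_lit 512) (nat_lit 446) (nat_lit 242)) (XT.lf (nat_lit 0) (nat_lit 21685433607) (nat_lit 228) (nat_lit 22458520314) (nat_lit 304) (nat_lit 5325524209) (nat_lit 139) (nat_lit 5) (nat_lit 142) (nat_lit 5) (nat_lit 143) (nat_lit 5) (nat_lit 513) (nat_lit 446) (nat_lit 241))) (XT.nd (nat_lit 78) (nat_lit 0) (nat_lit 0) (XT.lf (nat_lit 0) (nat_lit 2313288057) (nat_lit 228) (nat_lit 4514299465) (nat_lit 304) (nat_lit 43581964988) (nat_lit 135) (nat_lit 5) (nat_lit 138) (nat_lit 5) (nat_lit 139) (nat_lit 5) (nat_lit 514) (nat_lit 446) (nat_lit 240)) (XT.lf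 (nat_lit 0) (nat_lit 19653350049) (nat_lit 304) (nat_lit 17680316295) (nat_lit 76) (nat_lit 14030128179) (nat_lit 135) (nat_lit 5) (nat_lit 139) (nat_lit 5) (nat_lit 136) (nat_lit 5) (nat_lit 515) (nat_lit 446) (nat_lit 239))))) (XT.nd (nat_lit 312) (nat_lit 456) (nat_lit 0) (XT.nd (nat_lit 156) (nat_lit 456) (nat_lit 0) (XT.nd (nat_lit 78) (nat_lit 0) (nat_lit 0) (XT.lf (nat_lit 0) (nat_lit 13869976976) (nat_lit 228) (nat_lit 19169486190) (nat_lit 304) (nat_lit 19301933393) (nat_lit 132) (nat_lit 5) (nat_lit 135) (nat_lit 5) (nat_lit 136) (nat_lit 5) (nat_lit 516) (nat_lit 446) (nat_lit 238)) (XT.lf (nat_lit 0) (nat_lit 46725157792) (nat_lit 228) (nat_lit 278125665) (nat_lit 304) (nat_lit 6339759575) (nat_lit 132) (nat_lit 5) (nat_lit 135) (nat_lit 5) (nat_lit 136) (nat_lit 5) (nat_lit 517) (nat_lit 446) (nat_lit 237))) (XT.nd (nat_lit 78) (nat_lit 228) (nat_lit 0) (XT.lf (nat_lit 0) (nat_lit 7315732493) (nat_lit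 228) (nat_lit 27912946970) (nat_lit 76) (nat_lit 19130799571) (nat_lit 129) (nat_lit 5) (nat_lit 132) (nat_lit 5) (nat_lit 130) (nat_lit 5) (nat_lit 518) (nat_lit 446) (nat_lit 236)) (XT.lf (nat_lit 0) (nat_lit 5266731108) (nat_lit 228) (nat_lit 16105255250) (nat_lit 304) (nat_lit 34028983147) (nat_lit 126) (nat_lit 5) (nat_lit 129) (nat_lit 5) (nat_lit 130) (nat_lit 5) (nat_lit 519) (nat_lit 446) (nat_lit 235)))) (XT.nd (nat_lit 156) (nat_lit 304) (nat_lit 0) (XT.nd (nat_lit 78) (nat_lit 152) (nat_lit 0) (XT.lf (nat_lit 0) (nat_lit 36166776427) (nat_lit 304) (nat_lit 16492589199) (nat_lit 76) (nat_lit 3804833687) (nat_lit 126) (nat_lit 5) (nat_lit 130) (nat_lit 5) (nat_lit 127) (nat_lit 5) (nat_lit 520) (nat_lit 446) (nat_lit 234)) (XT.lf (nat_lit 0) (nat_lit 18353093207) (nat_lit 152) (nat_lit 33385928677) (nat_lit 228) (nat_lit 5810295858) (nat_lit 124) (nat_lit 5) (nat_lit 126) (nat_lit 5) (nat_lit 127) (nat_lit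 5) (nat_lit 521) (nat_lit 446) (nat_lit 233))) (XT.nd (nat_lit 78) (nat_lit 228) (nat_lit 0) (XT.lf (nat_lit 0) (nat_lit 9099578925) (nat_lit 228) (nat_lit 4172899312) (nat_lit 76) (nat_lit 45386906086) (nat_lit 123) (nat_lit 5) (nat_lit 126) (nat_lit 5) (nat_lit 124) (nat_lit 5) (nat_lit 522) (nat_lit 446) (nat_lit 232)) (XT.lf (nat_lit 0) (nat_lit 24725133739) (nat_lit 304) (nat_lit 27393447042) (nat_lit 76) (nat_lit 7670891413) (nat_lit 120) (nat_lit 5) (nat_lit 124) (nat_lit 5) (nat_lit 121) (nat_lit 5) (nat_lit 523) (nat_lit 446) (nat_lit 231)))))) (XT.nd (nat_lit 624) (nat_lit 912) (nat_lit 0) (XT.nd (nat_lit 312) (nat_lit 532) (nat_lit 0) (XT.nd (nat_lit 156) (nat_lit 304) (nat_lit 0) (XT.nd (nat_lit 78) (nat_lit 0) (nat_lit 0) (XT.lf (nat_lit 0) (nat_lit 9240038391) (nat_lit 152) (nat_lit 31840021516) (nat_lit 228) (nat_lit 19865584722) (nat_lit 118) (nat_lit 5) (nat_lit 120) (nat_lit 5) (nat_lit 121) (nat_lit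 5) (nat_lit 524) (nat_lit 446) (nat_lit 230)) (XT.lf (nat_lit 0) (nat_lit 47530305151) (nat_lit 152) (nat_lit 10669794030) (nat_lit 228) (nat_lit 3928169164) (nat_lit 118) (nat_lit 5) (nat_lit 120) (nat_lit 5) (nat_lit 121) (nat_lit 5) (nat_lit 525) (nat_lit 446) (nat_lit 229))) (XT.nd (nat_lit 78) (nat_lit 0) (nat_lit 0) (XT.lf (nat_lit 0) (nat_lit 12582462547) (nat_lit 304) (nat_lit 39479559486) (nat_lit 76) (nat_lit 11270584700) (nat_lit 114) (nat_lit 5) (nat_lit 118) (nat_lit 5) (nat_lit 115) (nat_lit 5) (nat_lit 526) (nat_lit 446) (nat_lit 228)) (XT.lf (nat_lit 0) (nat_lit 29761871204) (nat_lit 304) (nat_lit 961520720) (nat_lit 76) (nat_lit 33840944318) (nat_lit 114) (nat_lit 5) (nat_lit 118) (nat_lit 5) (nat_lit 115) (nat_lit 5) (nat_lit 527) (nat_lit 446) (nat_lit 227)))) (XT.nd (nat_lit 156) (nat_lit 228) (nat_lit 0) (XT.nd (nat_lit 78) (nat_lit 152) (nat_lit 0) (XT.lf (nat_lit 0) (nat_lit 39478835519)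 (nat_lit 152) (nat_lit 8355280992) (nat_lit 228) (nat_lit 17987577553) (nat_lit 112) (nat_lit 5) (nat_lit 114) (nat_lit 5) (nat_lit 115) (nat_lit 5) (nat_lit 528) (nat_lit 446) (nat_lit 226)) (XT.lf (nat_lit 0) (nat_lit 14167230193) (nat_lit 152) (nat_lit 52566409026) (nat_lit 228) (nat_lit 374580160) (nat_lit 110) (nat_lit 5) (nat_lit 112) (nat_lit 5) (nat_lit 113) (nat_lit 5) (nat_lit 529) (nat_lit 446) (nat_lit 225))) (XT.nd (nat_lit 78) (nat_lit 152) (nat_lit 0) (XT.lf (nat_lit 0) (nat_lit 17769458149) (nat_lit 228) (nat_lit 12252493809) (nat_lit 76) (nat_lit 38395784625) (nat_lit 109) (nat_lit 5) (nat_lit 112) (nat_lit 5) (nat_lit 110) (nat_lit 5) (nat_lit 530) (nat_lit 446) (nat_lit 224)) (XT.lf (nat_lit 0) (nat_lit 30239521628) (nat_lit 152) (nat_lit 6499481904) (nat_lit 228) (nat_lit 33018763126) (nat_lit 107) (nat_lit 5) (nat_lit 109) (nat_lit 5) (nat_lit 110) (nat_lit 5) (nat_lit 531) (nat_lit 446) (nat_lit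 223))))) (XT.nd (nat_lit 312) (nat_lit 532) (nat_lit 0) (XT.nd (nat_lit 156) (nat_lit 152) (nat_lit 0) (XT.nd (nat_lit 78) (nat_lit 76) (nat_lit 0) (XT.lf (nat_lit 0) (nat_lit 3006686026) (nat_lit 152) (nat_lit 53593264266) (nat_lit 228) (nat_lit 14528377942) (nat_lit 105) (nat_lit 5) (nat_lit 107) (nat_lit 5) (nat_lit 108) (nat_lit 5) (nat_lit 532) (nat_lit 446) (nat_lit 222)) (XT.lf (nat_lit 0) (nat_lit 4893987812) (nat_lit 228) (nat_lit 25025826195) (nat_lit 76) (nat_lit 42604927984) (nat_lit 104) (nat_lit 5) (nat_lit 107) (nat_lit 5) (nat_lit 105) (nat_lit 5) (nat_lit 533) (nat_lit 446) (nat_lit 221))) (XT.nd (nat_lit 78) (nat_lit 0) (nat_lit 0) (XT.lf (nat_lit 0) (nat_lit 19598027954) (nat_lit 152) (nat_lit 5195482999) (nat_lit 228) (nat_lit 49159627121) (nat_lit 102) (nat_lit 5) (nat_lit 104) (nat_lit 5) (nat_lit 105) (nat_lit 5) (nat_lit 534) (nat_lit 446) (nat_lit 220)) (XT.lf (nat_lit 0) (nat_lit 45738199183)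 (nat_lit 228) (nat_lit 9543984661) (nat_lit 76) (nat_lit 20128756861) (nat_lit 102) (nat_lit 5) (nat_lit 105) (nat_lit 5) (nat_lit 103) (nat_lit 5) (nat_lit 535) (nat_lit 446) (nat_lit 219)))) (XT.nd (nat_lit 156) (nat_lit 152) (nat_lit 0) (XT.nd (nat_lit 78) (nat_lit 228) (nat_lit 0) (XT.lf (nat_lit 0) (nat_lit 37284256790) (nat_lit 152) (nat_lit 30434978086) (nat_lit 228) (nat_lit 9181002378) (nat_lit 100) (nat_lit 5) (nat_lit 102) (nat_lit 5) (nat_lit 103) (nat_lit 5) (nat_lit 536) (nat_lit 446) (nat_lit 218)) (XT.lf (nat_lit 0) (nat_lit 7305298449) (nat_lit 152) (nat_lit 4553205031) (nat_lit 228) (nat_lit 66567298495) (nat_lit 97) (nat_lit 5) (nat_lit 99) (nat_lit 5) (nat_lit 100) (nat_lit 5) (nat_lit 537) (nat_lit 446) (nat_lit 217))) (XT.nd (nat_lit 78) (nat_lit 152) (nat_lit 0) (XT.lf (nat_lit 0) (nat_lit 33959335265) (nat_lit 228) (nat_lit 23849515241) (nat_lit 76) (nat_lit 22167116047) (nat_lit 97) (nat_lit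 5) (nat_lit 100) (nat_lit 5) (nat_lit 98) (nat_lit 5) (nat_lit 538) (nat_lit 446) (nat_lit 216)) (XT.lf (nat_lit 0) (nat_lit 25284675203) (nat_lit 152) (nat_lit 31724881133) (nat_lit 228) (nat_lit 24554488844) (nat_lit 95) (nat_lit 5) (nat_lit 97) (nat_lit 5) (nat_lit 98) (nat_lit 5) (nat_lit 539) (nat_lit 446) (nat_lit 215))))))) (XT.nd (nat_lit 55692) (nat_lit 0) (nat_lit 14972) (XT.nd (nat_lit 546) (nat_lit 152) (nat_lit 0) (XT.nd (nat_lit 234) (nat_lit 304) (nat_lit 0) (XT.nd (nat_lit 78) (nat_lit 380) (nat_lit 0) (XT.lf (nat_lit 0) (nat_lit 76378573484) (nat_lit 152) (nat_lit 4611795886) (nat_lit 228) (nat_lit 2202224274) (nat_lit 95) (nat_lit 5) (nat_lit 97) (nat_lit 5) (nat_lit 98) (nat_lit 5) (nat_lit 540) (nat_lit 446) (nat_lit 214)) (XT.nd (nat_lit 78) (nat_lit 152) (nat_lit 0) (XT.lf (nat_lit 0) (nat_lit 21073662296) (nat_lit 228) (nat_lit 40275139374) (nat_lit 76) (nat_lit 23495412541) (nat_lit 92)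 (nat_lit 5) (nat_lit 95) (nat_lit 5) (nat_lit 93) (nat_lit 5) (nat_lit 541) (nat_lit 446) (nat_lit 213)) (XT.lf (nat_lit 0) (nat_lit 11238015115) (nat_lit 152) (nat_lit 33987017655) (nat_lit 228) (nat_lit 41313052441) (nat_lit 90) (nat_lit 5) (nat_lit 92) (nat_lit 5) (nat_lit 93) (nat_lit 5) (nat_lit 542) (nat_lit 446) (nat_lit 212)))) (XT.nd (nat_lit 156) (nat_lit 152) (nat_lit 0) (XT.nd (nat_lit 78) (nat_lit 152) (nat_lit 0) (XT.lf (nat_lit 0) (nat_lit 65119039565) (nat_lit 152) (nat_lit 5386916722) (nat_lit 228) (nat_lit 17764665729) (nat_lit 90) (nat_lit 5) (nat_lit 92) (nat_lit 5) (nat_lit 93) (nat_lit 5) (nat_lit 543) (nat_lit 446) (nat_lit 211)) (XT.lf (nat_lit 0) (nat_lit 6895801589) (nat_lit 152) (nat_lit 59176461763) (nat_lit 76) (nat_lit 23965031712) (nat_lit 88) (nat_lit 5) (nat_lit 90) (nat_lit 5) (nat_lit 89) (nat_lit 5) (nat_lit 544) (nat_lit 446) (nat_lit 210))) (XT.nd (nat_lit 78) (nat_lit 152)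 (nat_lit 0) (XT.lf (nat_lit 0) (nat_lit 32226817279) (nat_lit 152) (nat_lit 5116359815) (nat_lit 76) (nat_lit 54499881010) (nat_lit 88) (nat_lit 5) (nat_lit 90) (nat_lit 5) (nat_lit 89) (nat_lit 5) (nat_lit 545) (nat_lit 446) (nat_lit 209)) (XT.lf (nat_lit 0) (nat_lit 51568855763) (nat_lit 152) (nat_lit 7243017549) (nat_lit 228) (nat_lit 34876297457) (nat_lit 86) (nat_lit 5) (nat_lit 88) (nat_lit 5) (nat_lit 89) (nat_lit 5) (nat_lit 546) (nat_lit 446) (nat_lit 208))))) (XT.nd (nat_lit 54834) (nat_lit 0) (nat_lit 17176) (XT.nd (nat_lit 54678) (nat_lit 0) (nat_lit 17100) (XT.nd (nat_lit 78) (nat_lit 76) (nat_lit 0) (XT.lf (nat_lit 0) (nat_lit 14523938412) (nat_lit 76) (nat_lit 72089132951) (nat_lit 152) (nat_lit 8963007771) (nat_lit 85) (nat_lit 5) (nat_lit 86) (nat_lit 5) (nat_lit 87) (nat_lit 4) (nat_lit 547) (nat_lit 446) (nat_lit 207)) (XT.lf (nat_lit 0) (nat_lit 17881402306) (nat_lit 152) (nat_lit 24027295543)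 (nat_lit 76) (nat_lit 55591825071) (nat_lit 84) (nat_lit 5) (nat_lit 86) (nat_lit 5) (nat_lit 85) (nat_lit 5) (nat_lit 548) (nat_lit 446) (nat_lit 206))) (XT.nd (nat_lit 78) (nat_lit 0) (nat_lit 0) (XT.lf (nat_lit 0) (nat_lit 1639502665) (nat_lit 1292) (nat_lit 3294950746) (nat_lit 1292) (nat_lit 3294950746) (nat_lit 309) (nat_lit 3) (nat_lit 326) (nat_lit 3) (nat_lit 326) (nat_lit 5) (nat_lit 447) (nat_lit 447) (nat_lit 306)) (XT.lf (nat_lit 76) (nat_lit 1605091359) (nat_lit 0) (nat_lit 1983669754) (nat_lit 1292) (nat_lit 13109089532) (nat_lit 310) (nat_lit 5) (nat_lit 309) (nat_lit 3) (nat_lit 326) (nat_lit 5) (nat_lit 448) (nat_lit 447) (nat_lit 305)))) (XT.nd (nat_lit 156) (nat_lit 0) (nat_lit 76) (XT.nd (nat_lit 78) (nat_lit 0) (nat_lit 0) (XT.lf (nat_lit 0) (nat_lit 4024445543) (nat_lit 1216) (nat_lit 6826068731) (nat_lit 1292) (nat_lit 6090051777) (nat_lit 310) (nat_lit 5) (nat_lit 326) (nat_lit 5) (nat_lit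 327) (nat_lit 5) (nat_lit 449) (nat_lit 447) (nat_lit 304)) (XT.lf (nat_lit 76) (nat_lit 1696891722) (nat_lit 0) (nat_lit 2802968039) (nat_lit 1292) (nat_lit 12689904239) (nat_lit 311) (nat_lit 5) (nat_lit 310) (nat_lit 5) (nat_lit 327) (nat_lit 5) (nat_lit 450) (nat_lit 447) (nat_lit 303))) (XT.nd (nat_lit 78) (nat_lit 0) (nat_lit 0) (XT.lf (nat_lit 0) (nat_lit 5102849832) (nat_lit 1216) (nat_lit 6887781230) (nat_lit 1292) (nat_lit 5452408257) (nat_lit 311) (nat_lit 5) (nat_lit 327) (nat_lit 5) (nat_lit 328) (nat_lit 5) (nat_lit 451) (nat_lit 447) (nat_lit 302)) (XT.lf (nat_lit 76) (nat_lit 1981064561) (nat_lit 0) (nat_lit 3780889735) (nat_lit 1292) (nat_lit 11940818670) (nat_lit 312) (nat_lit 5) (nat_lit 311) (nat_lit 5) (nat_lit 328) (nat_lit 5) (nat_lit 452) (nat_lit 447) (nat_lit 301)))))) (XT.nd (nat_lit 624) (nat_lit 2356) (nat_lit 0) (XT.nd (nat_lit 312) (nat_lit 0) (nat_lit 152) (XT.nd (nat_lit 156) (nat_lit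 0) (nat_lit 76) (XT.nd (nat_lit 78) (nat_lit 0) (nat_lit 0) (XT.lf (nat_lit 0) (nat_lit 6547480132) (nat_lit 1216) (nat_lit 6762213681) (nat_lit 1292) (nat_lit 4657406151) (nat_lit 312) (nat_lit 5) (nat_lit 328) (nat_lit 5) (nat_lit 329) (nat_lit 5) (nat_lit 453) (nat_lit 447) (nat_lit 300)) (XT.lf (nat_lit 76) (nat_lit 2471479032) (nat_lit 0) (nat_lit 4937999351) (nat_lit 1292) (nat_lit 10828291951) (nat_lit 313) (nat_lit 5) (nat_lit 312) (nat_lit 5) (nat_lit 329) (nat_lit 5) (nat_lit 454) (nat_lit 447) (nat_lit 299))) (XT.nd (nat_lit 78) (nat_lit 0) (nat_lit 0) (XT.lf (nat_lit 0) (nat_lit 8393650207) (nat_lit 1216) (nat_lit 6435405290) (nat_lit 1292) (nat_lit 3684616650) (nat_lit 313) (nat_lit 5) (nat_lit 329) (nat_lit 5) (nat_lit 330) (nat_lit 5) (nat_lit 455) (nat_lit 447) (nat_lit 298)) (XT.lf (nat_lit 76) (nat_lit 3183197674) (nat_lit 0) (nat_lit 6295805886) (nat_lit 1292) (nat_lit 9316698483) (nat_lit 314)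 (nat_lit 5) (nat_lit 313) (nat_lit 5) (nat_lit 330) (nat_lit 5) (nat_lit 456) (nat_lit 447) (nat_lit 297)))) (XT.nd (nat_lit 156) (nat_lit 0) (nat_lit 76) (XT.nd (nat_lit 78) (nat_lit 0) (nat_lit 0) (XT.lf (nat_lit 0) (nat_lit 10678879155) (nat_lit 1216) (nat_lit 5892210169) (nat_lit 1292) (nat_lit 2512645362) (nat_lit 314) (nat_lit 5) (nat_lit 330) (nat_lit 5) (nat_lit 331) (nat_lit 5) (nat_lit 457) (nat_lit 447) (nat_lit 296)) (XT.lf (nat_lit 76) (nat_lit 4132529542) (nat_lit 0) (nat_lit 7876867739) (nat_lit 1292) (nat_lit 7368172316) (nat_lit 315) (nat_lit 5) (nat_lit 314) (nat_lit 5) (nat_lit 331) (nat_lit 5) (nat_lit 458) (nat_lit 447) (nat_lit 295))) (XT.nd (nat_lit 78) (nat_lit 0) (nat_lit 0) (XT.lf (nat_lit 0) (nat_lit 13443052587) (nat_lit 1216) (nat_lit 5116243095) (nat_lit 1292) (nat_lit 1119027884) (nat_lit 315) (nat_lit 5) (nat_lit 331) (nat_lit 5) (nat_lit 332) (nat_lit 5) (nat_lit 459) (nat_lit 447)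 (nat_lit 294)) (XT.lf (nat_lit 76) (nat_lit 5337088125) (nat_lit 0) (nat_lit 9704900821) (nat_lit 1292) (nat_lit 4942443706) (nat_lit 316) (nat_lit 5) (nat_lit 315) (nat_lit 5) (nat_lit 332) (nat_lit 5) (nat_lit 460) (nat_lit 447) (nat_lit 293))))) (XT.nd (nat_lit 312) (nat_lit 1444) (nat_lit 0) (XT.nd (nat_lit 156) (nat_lit 1140) (nat_lit 0) (XT.nd (nat_lit 78) (nat_lit 0) (nat_lit 76) (XT.lf (nat_lit 76) (nat_lit 16203464370) (nat_lit 0) (nat_lit 530224563) (nat_lit 1292) (nat_lit 3564692831) (nat_lit 316) (nat_lit 5) (nat_lit 315) (nat_lit 5) (nat_lit 332) (nat_lit 5) (nat_lit 461) (nat_lit 447) (nat_lit 292)) (XT.lf (nat_lit 76) (nat_lit 6815854185) (nat_lit 0) (nat_lit 11804890395) (nat_lit 1292) (nat_lit 1996667232) (nat_lit 317) (nat_lit 5) (nat_lit 316) (nat_lit 5) (nat_lit 333) (nat_lit 5) (nat_lit 462) (nat_lit 447) (nat_lit 291))) (XT.nd (nat_lit 78) (nat_lit 1216) (nat_lit 0) (XT.lf (nat_lit 76) (nat_lit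 18127101593) (nat_lit 0) (nat_lit 2477345778) (nat_lit 1292) (nat_lit 340364913) (nat_lit 317) (nat_lit 5) (nat_lit 316) (nat_lit 5) (nat_lit 333) (nat_lit 5) (nat_lit 463) (nat_lit 447) (nat_lit 290)) (XT.lf (nat_lit 0) (nat_lit 1485200750) (nat_lit 1292) (nat_lit 12703008804) (nat_lit 76) (nat_lit 7089045272) (nat_lit 300) (nat_lit 5) (nat_lit 317) (nat_lit 5) (nat_lit 301) (nat_lit 5) (nat_lit 464) (nat_lit 447) (nat_lit 289)))) (XT.nd (nat_lit 156) (nat_lit 608) (nat_lit 0) (XT.nd (nat_lit 78) (nat_lit 836) (nat_lit 0) (XT.lf (nat_lit 0) (nat_lit 3405711980) (nat_lit 1292) (nat_lit 1286823175) (nat_lit 76) (nat_lit 16925624338) (nat_lit 300) (nat_lit 5) (nat_lit 317) (nat_lit 5) (nat_lit 301) (nat_lit 5) (nat_lit 465) (nat_lit 447) (nat_lit 288)) (XT.lf (nat_lit 0) (nat_lit 5530320634) (nat_lit 912) (nat_lit 11341562129) (nat_lit 76) (nat_lit 5093014595) (nat_lit 289) (nat_lit 5) (nat_lit 301) (nat_lit 5) (nat_lit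 290) (nat_lit 5) (nat_lit 466) (nat_lit 447) (nat_lit 287))) (XT.nd (nat_lit 78) (nat_lit 0) (nat_lit 0) (XT.lf (nat_lit 0) (nat_lit 554237208) (nat_lit 608) (nat_lit 7223411084) (nat_lit 684) (nat_lit 14542620149) (nat_lit 281) (nat_lit 5) (nat_lit 289) (nat_lit 5) (nat_lit 290) (nat_lit 5) (nat_lit 467) (nat_lit 447) (nat_lit 286)) (XT.lf (nat_lit 0) (nat_lit 10228343665) (nat_lit 684) (nat_lit 9676332977) (nat_lit 76) (nat_lit 2777546067) (nat_lit 281) (nat_lit 5) (nat_lit 290) (nat_lit 5) (nat_lit 282) (nat_lit 5) (nat_lit 468) (nat_lit 447) (nat_lit 285))))))))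
noncomputable def xc193 : XT := (XT.nd (nat_lit 2418) (nat_lit 4788) (nat_lit 0) (XT.nd (nat_lit 1170) (nat_lit 3876) (nat_lit 0) (XT.nd (nat_lit 546) (nat_lit 1976) (nat_lit 0) (XT.nd (nat_lit 234) (nat_lit 1216) (nat_lit 0) (XT.nd (nat_lit 78) (nat_lit 532) (nat_lit 0) (XT.lf (nat_lit 0) (nat_lit 2752776148) (nat_lit 608) (nat_lit 10092126014) (nat_lit 684) (nat_lit 10207363652) (nat_lit 273) (nat_lit 5) (nat_lit 281) (nat_lit 5) (nat_lit 282) (nat_lit 5) (nat_lit 469) (nat_lit 447) (nat_lit 284)) (XT.nd (nat_lit 78) (nat_lit 532) (nat_lit 0) (XT.lf (nat_lit 0) (nat_lit 15633254157) (nat_lit 684) (nat_lit 7684065937) (nat_lit 76) (nat_lit 113291677) (nat_lit 273) (nat_lit 5) (nat_lit 282) (nat_lit 5) (nat_lit 274) (nat_lit 5) (nat_lit 470) (nat_lit 447) (nat_lit 283)) (XT.lf (nat_lit 0) (nat_lit 5308049224) (nat_lit 532) (nat_lit 13342789692) (nat_lit 608) (nat_lit 5165102173) (nat_lit 266) (nat_lit 5) (nat_lit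 273) (nat_lit 5) (nat_lit 274) (nat_lit 5) (nat_lit 471) (nat_lit 447) (nat_lit 282)))) (XT.nd (nat_lit 156) (nat_lit 532) (nat_lit 0) (XT.nd (nat_lit 78) (nat_lit 684) (nat_lit 0) (XT.lf (nat_lit 0) (nat_lit 18842068482) (nat_lit 532) (nat_lit 2989217253) (nat_lit 608) (nat_lit 2379374952) (nat_lit 266) (nat_lit 5) (nat_lit 273) (nat_lit 5) (nat_lit 274) (nat_lit 5) (nat_lit 472) (nat_lit 447) (nat_lit 281)) (XT.lf (nat_lit 0) (nat_lit 629769255) (nat_lit 684) (nat_lit 16372297358) (nat_lit 76) (nat_lit 7610532225) (nat_lit 257) (nat_lit 5) (nat_lit 266) (nat_lit 5) (nat_lit 258) (nat_lit 5) (nat_lit 473) (nat_lit 447) (nat_lit 280))) (XT.nd (nat_lit 78) (nat_lit 532) (nat_lit 0) (XT.lf (nat_lit 0) (nat_lit 3760650185) (nat_lit 684) (nat_lit 2716566635) (nat_lit 76) (nat_lit 18546293405) (nat_lit 257) (nat_lit 5) (nat_lit 266) (nat_lit 5) (nat_lit 258) (nat_lit 5) (nat_lit 474) (nat_lit 447) (nat_lit 279)) (XT.lf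 (nat_lit 0) (nat_lit 7134797889) (nat_lit 608) (nat_lit 13917267932) (nat_lit 76) (nat_lit 4390203307) (nat_lit 250) (nat_lit 5) (nat_lit 258) (nat_lit 5) (nat_lit 251) (nat_lit 5) (nat_lit 475) (nat_lit 447) (nat_lit 278))))) (XT.nd (nat_lit 312) (nat_lit 988) (nat_lit 0) (XT.nd (nat_lit 156) (nat_lit 456) (nat_lit 0) (XT.nd (nat_lit 78) (nat_lit 0) (nat_lit 0) (XT.lf (nat_lit 0) (nat_lit 313090891) (nat_lit 532) (nat_lit 10387100079) (nat_lit 608) (nat_lit 15170699575) (nat_lit 243) (nat_lit 5) (nat_lit 250) (nat_lit 5) (nat_lit 251) (nat_lit 5) (nat_lit 476) (nat_lit 447) (nat_lit 277)) (XT.lf (nat_lit 0) (nat_lit 14515481954) (nat_lit 608) (nat_lit 11065077507) (nat_lit 76) (nat_lit 727523425) (nat_lit 243) (nat_lit 5) (nat_lit 251) (nat_lit 5) (nat_lit 244) (nat_lit 5) (nat_lit 477) (nat_lit 447) (nat_lit 276))) (XT.nd (nat_lit 78) (nat_lit 0) (nat_lit 0) (XT.lf (nat_lit 0) (nat_lit 3829024281) (nat_lit 456)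 (nat_lit 14751255888) (nat_lit 532) (nat_lit 8174059727) (nat_lit 237) (nat_lit 5) (nat_lit 243) (nat_lit 5) (nat_lit 244) (nat_lit 5) (nat_lit 478) (nat_lit 447) (nat_lit 275)) (XT.lf (nat_lit 0) (nat_lit 19391546604) (nat_lit 456) (nat_lit 3482694096) (nat_lit 532) (nat_lit 4336527711) (nat_lit 237) (nat_lit 5) (nat_lit 243) (nat_lit 5) (nat_lit 244) (nat_lit 5) (nat_lit 479) (nat_lit 447) (nat_lit 274)))) (XT.nd (nat_lit 156) (nat_lit 456) (nat_lit 0) (XT.nd (nat_lit 78) (nat_lit 76) (nat_lit 0) (XT.lf (nat_lit 0) (nat_lit 7809148451) (nat_lit 456) (nat_lit 19636637777) (nat_lit 532) (nat_lit 230640899) (nat_lit 231) (nat_lit 5) (nat_lit 237) (nat_lit 5) (nat_lit 238) (nat_lit 5) (nat_lit 480) (nat_lit 447) (nat_lit 273)) (XT.lf (nat_lit 0) (nat_lit 4030264744) (nat_lit 532) (nat_lit 4165964717) (nat_lit 76) (nat_lit 19955377424) (nat_lit 230) (nat_lit 5) (nat_lit 237) (nat_lit 5) (nat_lit 231) (nat_lit 5) (nat_lit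 481) (nat_lit 447) (nat_lit 272))) (XT.nd (nat_lit 78) (nat_lit 0) (nat_lit 0) (XT.lf (nat_lit 0) (nat_lit 8563432775) (nat_lit 532) (nat_lit 16435408213) (nat_lit 76) (nat_lit 3637660721) (nat_lit 224) (nat_lit 5) (nat_lit 231) (nat_lit 5) (nat_lit 225) (nat_lit 5) (nat_lit 482) (nat_lit 447) (nat_lit 271)) (XT.lf (nat_lit 0) (nat_lit 13352067668) (nat_lit 532) (nat_lit 76836103) (nat_lit 76) (nat_lit 15703455748) (nat_lit 224) (nat_lit 5) (nat_lit 231) (nat_lit 5) (nat_lit 225) (nat_lit 5) (nat_lit 483) (nat_lit 447) (nat_lit 270)))))) (XT.nd (nat_lit 624) (nat_lit 1748) (nat_lit 0) (XT.nd (nat_lit 312) (nat_lit 760) (nat_lit 0) (XT.nd (nat_lit 156) (nat_lit 532) (nat_lit 0) (XT.nd (nat_lit 78) (nat_lit 380) (nat_lit 0) (XT.lf (nat_lit 0) (nat_lit 17101200036) (nat_lit 456) (nat_lit 1343506480) (nat_lit 532) (nat_lit 11193576488) (nat_lit 218) (nat_lit 5) (nat_lit 224) (nat_lit 5) (nat_lit 225) (nat_lit 5) (nat_lit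 484) (nat_lit 447) (nat_lit 269)) (XT.lf (nat_lit 0) (nat_lit 4615036750) (nat_lit 380) (nat_lit 19222995170) (nat_lit 456) (nat_lit 6316915331) (nat_lit 213) (nat_lit 5) (nat_lit 218) (nat_lit 5) (nat_lit 219) (nat_lit 5) (nat_lit 485) (nat_lit 447) (nat_lit 268))) (XT.nd (nat_lit 78) (nat_lit 532) (nat_lit 0) (XT.lf (nat_lit 0) (nat_lit 22520140627) (nat_lit 380) (nat_lit 7008874314) (nat_lit 456) (nat_lit 1154021020) (nat_lit 213) (nat_lit 5) (nat_lit 218) (nat_lit 5) (nat_lit 219) (nat_lit 5) (nat_lit 486) (nat_lit 447) (nat_lit 267)) (XT.lf (nat_lit 0) (nat_lit 4228561710) (nat_lit 532) (nat_lit 21394592794) (nat_lit 76) (nat_lit 5598230799) (nat_lit 206) (nat_lit 5) (nat_lit 213) (nat_lit 5) (nat_lit 207) (nat_lit 5) (nat_lit 487) (nat_lit 447) (nat_lit 266)))) (XT.nd (nat_lit 156) (nat_lit 380) (nat_lit 0) (XT.nd (nat_lit 78) (nat_lit 380) (nat_lit 0) (XT.lf (nat_lit 0) (nat_lit 9898283764) (nat_lit 532)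 (nat_lit 3336542266) (nat_lit 76) (nat_lit 18536250870) (nat_lit 206) (nat_lit 5) (nat_lit 213) (nat_lit 5) (nat_lit 207) (nat_lit 5) (nat_lit 488) (nat_lit 447) (nat_lit 265)) (XT.lf (nat_lit 0) (nat_lit 15562071870) (nat_lit 380) (nat_lit 321944324) (nat_lit 456) (nat_lit 16448865731) (nat_lit 201) (nat_lit 5) (nat_lit 206) (nat_lit 5) (nat_lit 207) (nat_lit 5) (nat_lit 489) (nat_lit 447) (nat_lit 264))) (XT.nd (nat_lit 78) (nat_lit 0) (nat_lit 0) (XT.lf (nat_lit 0) (nat_lit 2096430067) (nat_lit 380) (nat_lit 20128200363) (nat_lit 456) (nat_lit 10681651609) (nat_lit 196) (nat_lit 5) (nat_lit 201) (nat_lit 5) (nat_lit 202) (nat_lit 5) (nat_lit 490) (nat_lit 447) (nat_lit 263)) (XT.lf (nat_lit 0) (nat_lit 21865369979) (nat_lit 380) (nat_lit 7059036600) (nat_lit 456) (nat_lit 4567409500) (nat_lit 196) (nat_lit 5) (nat_lit 201) (nat_lit 5) (nat_lit 202) (nat_lit 5) (nat_lit 491) (nat_lit 447) (nat_lit 262))))) (XT.nd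 (nat_lit 312) (nat_lit 684) (nat_lit 0) (XT.nd (nat_lit 156) (nat_lit 684) (nat_lit 0) (XT.nd (nat_lit 78) (nat_lit 0) (nat_lit 0) (XT.lf (nat_lit 0) (nat_lit 1835002127) (nat_lit 380) (nat_lit 25882142828) (nat_lit 76) (nat_lit 6373117254) (nat_lit 191) (nat_lit 5) (nat_lit 196) (nat_lit 5) (nat_lit 192) (nat_lit 5) (nat_lit 492) (nat_lit 447) (nat_lit 261)) (XT.lf (nat_lit 0) (nat_lit 8522691982) (nat_lit 380) (nat_lit 5948186909) (nat_lit 76) (nat_lit 20228876195) (nat_lit 191) (nat_lit 5) (nat_lit 196) (nat_lit 5) (nat_lit 192) (nat_lit 5) (nat_lit 493) (nat_lit 447) (nat_lit 260))) (XT.nd (nat_lit 78) (nat_lit 304) (nat_lit 0) (XT.lf (nat_lit 0) (nat_lit 14869256809) (nat_lit 380) (nat_lit 681336763) (nat_lit 456) (nat_lit 19772751948) (nat_lit 186) (nat_lit 5) (nat_lit 191) (nat_lit 5) (nat_lit 192) (nat_lit 5) (nat_lit 494) (nat_lit 447) (nat_lit 259)) (XT.lf (nat_lit 0) (nat_lit 340662285) (nat_lit 304)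 (nat_lit 22639273807) (nat_lit 380) (nat_lit 12979989655) (nat_lit 182) (nat_lit 5) (nat_lit 186) (nat_lit 5) (nat_lit 187) (nat_lit 5) (nat_lit 495) (nat_lit 447) (nat_lit 258)))) (XT.nd (nat_lit 156) (nat_lit 304) (nat_lit 0) (XT.nd (nat_lit 78) (nat_lit 380) (nat_lit 0) (XT.lf (nat_lit 0) (nat_lit 22166986739) (nat_lit 304) (nat_lit 8675138393) (nat_lit 380) (nat_lit 5767179452) (nat_lit 182) (nat_lit 5) (nat_lit 186) (nat_lit 5) (nat_lit 187) (nat_lit 5) (nat_lit 496) (nat_lit 447) (nat_lit 257)) (XT.lf (nat_lit 0) (nat_lit 1754165421) (nat_lit 380) (nat_lit 29835724867) (nat_lit 76) (nat_lit 5684057918) (nat_lit 177) (nat_lit 5) (nat_lit 182) (nat_lit 5) (nat_lit 178) (nat_lit 5) (nat_lit 497) (nat_lit 447) (nat_lit 256))) (XT.nd (nat_lit 78) (nat_lit 304) (nat_lit 0) (XT.lf (nat_lit 0) (nat_lit 9615250935) (nat_lit 380) (nat_lit 7832000121) (nat_lit 76) (nat_lit 20502666786) (nat_lit 177) (nat_lit 5) (nat_lit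 182) (nat_lit 5) (nat_lit 178) (nat_lit 5) (nat_lit 498) (nat_lit 447) (nat_lit 255)) (XT.lf (nat_lit 0) (nat_lit 15122423417) (nat_lit 304) (nat_lit 2732043028) (nat_lit 380) (nat_lit 20787431369) (nat_lit 173) (nat_lit 5) (nat_lit 177) (nat_lit 5) (nat_lit 178) (nat_lit 5) (nat_lit 499) (nat_lit 447) (nat_lit 254))))))) (XT.nd (nat_lit 1170) (nat_lit 2204) (nat_lit 0) (XT.nd (nat_lit 546) (nat_lit 1292) (nat_lit 0) (XT.nd (nat_lit 234) (nat_lit 608) (nat_lit 0) (XT.nd (nat_lit 78) (nat_lit 684) (nat_lit 0) (XT.lf (nat_lit 0) (nat_lit 26537126466) (nat_lit 380) (nat_lit 550991381) (nat_lit 76) (nat_lit 12260631460) (nat_lit 173) (nat_lit 5) (nat_lit 178) (nat_lit 5) (nat_lit 174) (nat_lit 5) (nat_lit 500) (nat_lit 447) (nat_lit 253)) (XT.nd (nat_lit 78) (nat_lit 380) (nat_lit 0) (XT.lf (nat_lit 0) (nat_lit 23534329208) (nat_lit 304) (nat_lit 12196265896) (nat_lit 380) (nat_lit 4338701536) (nat_lit 169) (nat_lit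 5) (nat_lit 173) (nat_lit 5) (nat_lit 174) (nat_lit 5) (nat_lit 501) (nat_lit 447) (nat_lit 252)) (XT.lf (nat_lit 0) (nat_lit 4410338773) (nat_lit 380) (nat_lit 33194576635) (nat_lit 76) (nat_lit 3202052663) (nat_lit 164) (nat_lit 5) (nat_lit 169) (nat_lit 5) (nat_lit 165) (nat_lit 5) (nat_lit 502) (nat_lit 447) (nat_lit 251)))) (XT.nd (nat_lit 156) (nat_lit 304) (nat_lit 0) (XT.nd (nat_lit 78) (nat_lit 304) (nat_lit 0) (XT.lf (nat_lit 0) (nat_lit 13621122252) (nat_lit 380) (nat_lit 8908455532) (nat_lit 76) (nat_lit 19027309017) (nat_lit 164) (nat_lit 5) (nat_lit 169) (nat_lit 5) (nat_lit 165) (nat_lit 5) (nat_lit 503) (nat_lit 447) (nat_lit 250)) (XT.lf (nat_lit 0) (nat_lit 16422387801) (nat_lit 304) (nat_lit 6840884569) (nat_lit 380) (nat_lit 19061379571) (nat_lit 160) (nat_lit 5) (nat_lit 164) (nat_lit 5) (nat_lit 165) (nat_lit 5) (nat_lit 504) (nat_lit 447) (nat_lit 249))) (XT.nd (nat_lit 78) (nat_lit 304)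 (nat_lit 0) (XT.lf (nat_lit 0) (nat_lit 33372318068) (nat_lit 380) (nat_lit 511793777) (nat_lit 76) (nat_lit 9226009394) (nat_lit 160) (nat_lit 5) (nat_lit 165) (nat_lit 5) (nat_lit 161) (nat_lit 5) (nat_lit 505) (nat_lit 447) (nat_lit 248)) (XT.lf (nat_lit 0) (nat_lit 186922465) (nat_lit 304) (nat_lit 17834216747) (nat_lit 76) (nat_lit 25888489817) (nat_lit 156) (nat_lit 5) (nat_lit 160) (nat_lit 5) (nat_lit 157) (nat_lit 5) (nat_lit 506) (nat_lit 447) (nat_lit 247))))) (XT.nd (nat_lit 312) (nat_lit 532) (nat_lit 0) (XT.nd (nat_lit 156) (nat_lit 456) (nat_lit 0) (XT.nd (nat_lit 78) (nat_lit 0) (nat_lit 0) (XT.lf (nat_lit 0) (nat_lit 8808954322) (nat_lit 304) (nat_lit 1491912857) (nat_lit 380) (nat_lit 34426746658) (nat_lit 152) (nat_lit 5) (nat_lit 156) (nat_lit 5) (nat_lit 157) (nat_lit 5) (nat_lit 507) (nat_lit 447) (nat_lit 246)) (XT.lf (nat_lit 0) (nat_lit 21046743208) (nat_lit 380) (nat_lit 9103086126) (nat_lit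 76) (nat_lit 15410453587) (nat_lit 152) (nat_lit 5) (nat_lit 157) (nat_lit 5) (nat_lit 153) (nat_lit 5) (nat_lit 508) (nat_lit 447) (nat_lit 245))) (XT.nd (nat_lit 78) (nat_lit 228) (nat_lit 0) (XT.lf (nat_lit 0) (nat_lit 18866196977) (nat_lit 228) (nat_lit 13442326053) (nat_lit 304) (nat_lit 14103603341) (nat_lit 149) (nat_lit 5) (nat_lit 152) (nat_lit 5) (nat_lit 153) (nat_lit 5) (nat_lit 509) (nat_lit 447) (nat_lit 244)) (XT.lf (nat_lit 0) (nat_lit 543735406) (nat_lit 228) (nat_lit 43496110224) (nat_lit 304) (nat_lit 3245728928) (nat_lit 146) (nat_lit 5) (nat_lit 149) (nat_lit 5) (nat_lit 150) (nat_lit 5) (nat_lit 510) (nat_lit 447) (nat_lit 243)))) (XT.nd (nat_lit 156) (nat_lit 228) (nat_lit 0) (XT.nd (nat_lit 78) (nat_lit 228) (nat_lit 0) (XT.lf (nat_lit 0) (nat_lit 8194425784) (nat_lit 304) (nat_lit 18352442521) (nat_lit 76) (nat_lit 21623725660) (nat_lit 145) (nat_lit 5) (nat_lit 149) (nat_lit 5) (nat_lit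 146) (nat_lit 5) (nat_lit 511) (nat_lit 447) (nat_lit 242)) (XT.lf (nat_lit 0) (nat_lit 11068440904) (nat_lit 228) (nat_lit 8948014106) (nat_lit 304) (nat_lit 29061627797) (nat_lit 142) (nat_lit 5) (nat_lit 145) (nat_lit 5) (nat_lit 146) (nat_lit 5) (nat_lit 512) (nat_lit 447) (nat_lit 241))) (XT.nd (nat_lit 78) (nat_lit 228) (nat_lit 0) (XT.lf (nat_lit 0) (nat_lit 32466064340) (nat_lit 304) (nat_lit 8353209476) (nat_lit 76) (nat_lit 9185335024) (nat_lit 142) (nat_lit 5) (nat_lit 146) (nat_lit 5) (nat_lit 143) (nat_lit 5) (nat_lit 513) (nat_lit 447) (nat_lit 240)) (XT.lf (nat_lit 0) (nat_lit 22540217309) (nat_lit 228) (nat_lit 23051809544) (nat_lit 304) (nat_lit 5357817952) (nat_lit 139) (nat_lit 5) (nat_lit 142) (nat_lit 5) (nat_lit 143) (nat_lit 5) (nat_lit 514) (nat_lit 447) (nat_lit 239)))))) (XT.nd (nat_lit 624) (nat_lit 1064) (nat_lit 0) (XT.nd (nat_lit 312) (nat_lit 608) (nat_lit 0) (XT.nd (nat_lit 156)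 (nat_lit 228) (nat_lit 0) (XT.nd (nat_lit 78) (nat_lit 0) (nat_lit 0) (XT.lf (nat_lit 0) (nat_lit 2587373125) (nat_lit 228) (nat_lit 4568353813) (nat_lit 304) (nat_lit 44762408044) (nat_lit 135) (nat_lit 5) (nat_lit 138) (nat_lit 5) (nat_lit 139) (nat_lit 5) (nat_lit 515) (nat_lit 447) (nat_lit 238)) (XT.lf (nat_lit 0) (nat_lit 20363430175) (nat_lit 304) (nat_lit 18009164321) (nat_lit 76) (nat_lit 14528494863) (nat_lit 135) (nat_lit 5) (nat_lit 139) (nat_lit 5) (nat_lit 136) (nat_lit 5) (nat_lit 516) (nat_lit 447) (nat_lit 237))) (XT.nd (nat_lit 78) (nat_lit 0) (nat_lit 0) (XT.lf (nat_lit 0) (nat_lit 14485661655) (nat_lit 228) (nat_lit 19663874451) (nat_lit 304) (nat_lit 19758531201) (nat_lit 132) (nat_lit 5) (nat_lit 135) (nat_lit 5) (nat_lit 136) (nat_lit 5) (nat_lit 517) (nat_lit 447) (nat_lit 236)) (XT.lf (nat_lit 0) (nat_lit 48320684730) (nat_lit 228) (nat_lit 208123489) (nat_lit 304) (nat_lit 6411058969)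 (nat_lit 132) (nat_lit 5) (nat_lit 135) (nat_lit 5) (nat_lit 136) (nat_lit 5) (nat_lit 518) (nat_lit 447) (nat_lit 235)))) (XT.nd (nat_lit 156) (nat_lit 152) (nat_lit 0) (XT.nd (nat_lit 78) (nat_lit 228) (nat_lit 0) (XT.lf (nat_lit 0) (nat_lit 7651009641) (nat_lit 228) (nat_lit 28553466637) (nat_lit 76) (nat_lit 19782308874) (nat_lit 129) (nat_lit 5) (nat_lit 132) (nat_lit 5) (nat_lit 130) (nat_lit 5) (nat_lit 519) (nat_lit 447) (nat_lit 234)) (XT.lf (nat_lit 0) (nat_lit 5619671698) (nat_lit 228) (nat_lit 16507780328) (nat_lit 304) (nat_lit 34932113404) (nat_lit 126) (nat_lit 5) (nat_lit 129) (nat_lit 5) (nat_lit 130) (nat_lit 5) (nat_lit 520) (nat_lit 447) (nat_lit 233))) (XT.nd (nat_lit 78) (nat_lit 152) (nat_lit 0) (XT.lf (nat_lit 0) (nat_lit 37363509007) (nat_lit 304) (nat_lit 16795525392) (nat_lit 76) (nat_lit 3995735152) (nat_lit 126) (nat_lit 5) (nat_lit 130) (nat_lit 5) (nat_lit 127) (nat_lit 5) (nat_lit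 521) (nat_lit 447) (nat_lit 232)) (XT.lf (nat_lit 0) (nat_lit 19093646688) (nat_lit 152) (nat_lit 34307846908) (nat_lit 228) (nat_lit 5870990897) (nat_lit 124) (nat_lit 5) (nat_lit 126) (nat_lit 5) (nat_lit 127) (nat_lit 5) (nat_lit 522) (nat_lit 447) (nat_lit 231))))) (XT.nd (nat_lit 312) (nat_lit 608) (nat_lit 0) (XT.nd (nat_lit 156) (nat_lit 152) (nat_lit 0) (XT.nd (nat_lit 78) (nat_lit 228) (nat_lit 0) (XT.lf (nat_lit 0) (nat_lit 9480718547) (nat_lit 228) (nat_lit 4111502466) (nat_lit 76) (nat_lit 46823696738) (nat_lit 123) (nat_lit 5) (nat_lit 126) (nat_lit 5) (nat_lit 124) (nat_lit 5) (nat_lit 523) (nat_lit 447) (nat_lit 230)) (XT.lf (nat_lit 0) (nat_lit 25574415470) (nat_lit 304) (nat_lit 28028038661) (nat_lit 76) (nat_lit 7977472965) (nat_lit 120) (nat_lit 5) (nat_lit 124) (nat_lit 5) (nat_lit 121) (nat_lit 5) (nat_lit 524) (nat_lit 447) (nat_lit 229))) (XT.nd (nat_lit 78) (nat_lit 0) (nat_lit 0) (XT.lf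 (nat_lit 0) (nat_lit 9702615925) (nat_lit 152) (nat_lit 32716023574) (nat_lit 228) (nat_lit 20352185803) (nat_lit 118) (nat_lit 5) (nat_lit 120) (nat_lit 5) (nat_lit 121) (nat_lit 5) (nat_lit 525) (nat_lit 447) (nat_lit 228)) (XT.lf (nat_lit 0) (nat_lit 49136191376) (nat_lit 152) (nat_lit 10912996019) (nat_lit 228) (nat_lit 3939833209) (nat_lit 118) (nat_lit 5) (nat_lit 120) (nat_lit 5) (nat_lit 121) (nat_lit 5) (nat_lit 526) (nat_lit 447) (nat_lit 227)))) (XT.nd (nat_lit 156) (nat_lit 304) (nat_lit 0) (XT.nd (nat_lit 78) (nat_lit 0) (nat_lit 0) (XT.lf (nat_lit 0) (nat_lit 13063490587) (nat_lit 304) (nat_lit 40481336146) (nat_lit 76) (nat_lit 11684648528) (nat_lit 114) (nat_lit 5) (nat_lit 118) (nat_lit 5) (nat_lit 115) (nat_lit 5) (nat_lit 527) (nat_lit 447) (nat_lit 226)) (XT.lf (nat_lit 0) (nat_lit 30755265364) (nat_lit 304) (nat_lit 813074958) (nat_lit 76) (nat_lit 34929906906) (nat_lit 114) (nat_lit 5) (nat_lit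 118) (nat_lit 5) (nat_lit 115) (nat_lit 5) (nat_lit 528) (nat_lit 447) (nat_lit 225))) (XT.nd (nat_lit 78) (nat_lit 152) (nat_lit 0) (XT.lf (nat_lit 0) (nat_lit 40838753818) (nat_lit 152) (nat_lit 8529683446) (nat_lit 228) (nat_lit 18424925831) (nat_lit 112) (nat_lit 5) (nat_lit 114) (nat_lit 5) (nat_lit 115) (nat_lit 5) (nat_lit 529) (nat_lit 447) (nat_lit 224)) (XT.lf (nat_lit 0) (nat_lit 14768305947) (nat_lit 152) (nat_lit 54066151606) (nat_lit 228) (nat_lit 284041342) (nat_lit 110) (nat_lit 5) (nat_lit 112) (nat_lit 5) (nat_lit 113) (nat_lit 5) (nat_lit 530) (nat_lit 447) (nat_lit 223))))))))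
noncomputable def xc194 : XT := (XT.nd (nat_lit 57018) (nat_lit 0) (nat_lit 8436) (XT.nd (nat_lit 1170) (nat_lit 228) (nat_lit 0) (XT.nd (nat_lit 546) (nat_lit 912) (nat_lit 0) (XT.nd (nat_lit 234) (nat_lit 380) (nat_lit 0) (XT.nd (nat_lit 78) (nat_lit 304) (nat_lit 0) (XT.lf (nat_lit 0) (nat_lit 18399425585) (nat_lit 228) (nat_lit 12447206897) (nat_lit 76) (nat_lit 39620727058) (nat_lit 109) (nat_lit 5) (nat_lit 112) (nat_lit 5) (nat_lit 110) (nat_lit 5) (nat_lit 531) (nat_lit 447) (nat_lit 222)) (XT.nd (nat_lit 78) (nat_lit 152) (nat_lit 0) (XT.lf (nat_lit 0) (nat_lit 31317874280) (nat_lit 152) (nat_lit 6619006556) (nat_lit 228) (nat_lit 33910745051) (nat_lit 107) (nat_lit 5) (nat_lit 109) (nat_lit 5) (nat_lit 110) (nat_lit 5) (nat_lit 532) (nat_lit 447) (nat_lit 221)) (XT.lf (nat_lit 0) (nat_lit 3268502844) (nat_lit 152) (nat_lit 55124719487) (nat_lit 228) (nat_lit 14866095067) (nat_lit 105) (nat_lit 5) (nat_lit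 107) (nat_lit 5) (nat_lit 108) (nat_lit 5) (nat_lit 533) (nat_lit 447) (nat_lit 220)))) (XT.nd (nat_lit 156) (nat_lit 152) (nat_lit 0) (XT.nd (nat_lit 78) (nat_lit 152) (nat_lit 0) (XT.lf (nat_lit 0) (nat_lit 5134224206) (nat_lit 228) (nat_lit 25608121762) (nat_lit 76) (nat_lit 43955333443) (nat_lit 104) (nat_lit 5) (nat_lit 107) (nat_lit 5) (nat_lit 105) (nat_lit 5) (nat_lit 534) (nat_lit 447) (nat_lit 219)) (XT.lf (nat_lit 0) (nat_lit 20352796255) (nat_lit 152) (nat_lit 5276819557) (nat_lit 228) (nat_lit 50539345149) (nat_lit 102) (nat_lit 5) (nat_lit 104) (nat_lit 5) (nat_lit 105) (nat_lit 5) (nat_lit 535) (nat_lit 447) (nat_lit 218))) (XT.nd (nat_lit 78) (nat_lit 152) (nat_lit 0) (XT.lf (nat_lit 0) (nat_lit 47200651895) (nat_lit 228) (nat_lit 9666340794) (nat_lit 76) (nat_lit 20803564831) (nat_lit 102) (nat_lit 5) (nat_lit 105) (nat_lit 5) (nat_lit 103) (nat_lit 5) (nat_lit 536) (nat_lit 447) (nat_lit 217))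 (XT.lf (nat_lit 0) (nat_lit 38565140415) (nat_lit 152) (nat_lit 31274908614) (nat_lit 228) (nat_lit 9364516090) (nat_lit 100) (nat_lit 5) (nat_lit 102) (nat_lit 5) (nat_lit 103) (nat_lit 5) (nat_lit 537) (nat_lit 447) (nat_lit 216))))) (XT.nd (nat_lit 312) (nat_lit 532) (nat_lit 0) (XT.nd (nat_lit 156) (nat_lit 152) (nat_lit 0) (XT.nd (nat_lit 78) (nat_lit 0) (nat_lit 0) (XT.lf (nat_lit 0) (nat_lit 7686999690) (nat_lit 152) (nat_lit 4616319156) (nat_lit 228) (nat_lit 68472583364) (nat_lit 97) (nat_lit 5) (nat_lit 99) (nat_lit 5) (nat_lit 100) (nat_lit 5) (nat_lit 538) (nat_lit 447) (nat_lit 215)) (XT.lf (nat_lit 0) (nat_lit 35065267378) (nat_lit 228) (nat_lit 24405282487) (nat_lit 76) (nat_lit 22902079167) (nat_lit 97) (nat_lit 5) (nat_lit 100) (nat_lit 5) (nat_lit 98) (nat_lit 5) (nat_lit 539) (nat_lit 447) (nat_lit 214))) (XT.nd (nat_lit 78) (nat_lit 0) (nat_lit 0) (XT.lf (nat_lit 0) (nat_lit 26201367805) (nat_lit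 152) (nat_lit 32604609123) (nat_lit 228) (nat_lit 25202403690) (nat_lit 95) (nat_lit 5) (nat_lit 97) (nat_lit 5) (nat_lit 98) (nat_lit 5) (nat_lit 540) (nat_lit 447) (nat_lit 213)) (XT.lf (nat_lit 0) (nat_lit 78823476655) (nat_lit 152) (nat_lit 4680228943) (nat_lit 228) (nat_lit 2182155256) (nat_lit 95) (nat_lit 5) (nat_lit 97) (nat_lit 5) (nat_lit 98) (nat_lit 5) (nat_lit 541) (nat_lit 447) (nat_lit 212)))) (XT.nd (nat_lit 156) (nat_lit 152) (nat_lit 0) (XT.nd (nat_lit 78) (nat_lit 152) (nat_lit 0) (XT.lf (nat_lit 0) (nat_lit 21790019898) (nat_lit 228) (nat_lit 41327856044) (nat_lit 76) (nat_lit 24269138525) (nat_lit 92) (nat_lit 5) (nat_lit 95) (nat_lit 5) (nat_lit 93) (nat_lit 5) (nat_lit 542) (nat_lit 447) (nat_lit 211)) (XT.lf (nat_lit 0) (nat_lit 11729168202) (nat_lit 152) (nat_lit 34935792842) (nat_lit 228) (nat_lit 42466769716) (nat_lit 90) (nat_lit 5) (nat_lit 92) (nat_lit 5) (nat_lit 93) (nat_lit 5) (nat_lit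 543) (nat_lit 447) (nat_lit 210))) (XT.nd (nat_lit 78) (nat_lit 152) (nat_lit 0) (XT.lf (nat_lit 0) (nat_lit 67222137581) (nat_lit 152) (nat_lit 5479752047) (nat_lit 228) (nat_lit 18214426771) (nat_lit 90) (nat_lit 5) (nat_lit 92) (nat_lit 5) (nat_lit 93) (nat_lit 5) (nat_lit 544) (nat_lit 447) (nat_lit 209)) (XT.lf (nat_lit 0) (nat_lit 7183958507) (nat_lit 152) (nat_lit 60800329590) (nat_lit 76) (nat_lit 24751685787) (nat_lit 88) (nat_lit 5) (nat_lit 90) (nat_lit 5) (nat_lit 89) (nat_lit 5) (nat_lit 545) (nat_lit 447) (nat_lit 208)))))) (XT.nd (nat_lit 55224) (nat_lit 0) (nat_lit 17176) (XT.nd (nat_lit 54912) (nat_lit 0) (nat_lit 17024) (XT.nd (nat_lit 156) (nat_lit 76) (nat_lit 0) (XT.nd (nat_lit 78) (nat_lit 152) (nat_lit 0) (XT.lf (nat_lit 0) (nat_lit 33272537205) (nat_lit 152) (nat_lit 5122835051) (nat_lit 76) (nat_lit 56200608628) (nat_lit 88) (nat_lit 5) (nat_lit 90) (nat_lit 5) (nat_lit 89) (nat_lit 5)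 (nat_lit 546) (nat_lit 447) (nat_lit 207)) (XT.lf (nat_lit 0) (nat_lit 53261495665) (nat_lit 152) (nat_lit 7392750096) (nat_lit 228) (nat_lit 35842228188) (nat_lit 86) (nat_lit 5) (nat_lit 88) (nat_lit 5) (nat_lit 89) (nat_lit 5) (nat_lit 547) (nat_lit 447) (nat_lit 206))) (XT.nd (nat_lit 54678) (nat_lit 0) (nat_lit 17024) (XT.lf (nat_lit 0) (nat_lit 15105479537) (nat_lit 76) (nat_lit 74183760132) (nat_lit 152) (nat_lit 9151787140) (nat_lit 85) (nat_lit 5) (nat_lit 86) (nat_lit 5) (nat_lit 87) (nat_lit 4) (nat_lit 548) (nat_lit 447) (nat_lit 205)) (XT.lf (nat_lit 0) (nat_lit 1931472877) (nat_lit 1292) (nat_lit 3268753697) (nat_lit 1292) (nat_lit 3268753697) (nat_lit 309) (nat_lit 3) (nat_lit 326) (nat_lit 3) (nat_lit 326) (nat_lit 5) (nat_lit 448) (nat_lit 448) (nat_lit 304)))) (XT.nd (nat_lit 156) (nat_lit 0) (nat_lit 76) (XT.nd (nat_lit 78) (nat_lit 0) (nat_lit 76) (XT.lf (nat_lit 76) (nat_lit 1900883367) (nat_lit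 0) (nat_lit 2269348480) (nat_lit 1292) (nat_lit 13014296478) (nat_lit 310) (nat_lit 5) (nat_lit 309) (nat_lit 3) (nat_lit 326) (nat_lit 5) (nat_lit 449) (nat_lit 448) (nat_lit 303)) (XT.lf (nat_lit 0) (nat_lit 4603075831) (nat_lit 1216) (nat_lit 6774471007) (nat_lit 1292) (nat_lit 6057456953) (nat_lit 310) (nat_lit 5) (nat_lit 326) (nat_lit 5) (nat_lit 327) (nat_lit 5) (nat_lit 450) (nat_lit 448) (nat_lit 302))) (XT.nd (nat_lit 78) (nat_lit 0) (nat_lit 76) (XT.lf (nat_lit 76) (nat_lit 2001664731) (nat_lit 0) (nat_lit 3080191258) (nat_lit 1292) (nat_lit 12610149818) (nat_lit 311) (nat_lit 5) (nat_lit 310) (nat_lit 5) (nat_lit 327) (nat_lit 5) (nat_lit 451) (nat_lit 448) (nat_lit 301)) (XT.lf (nat_lit 0) (nat_lit 5688113882) (nat_lit 1216) (nat_lit 6833080789) (nat_lit 1292) (nat_lit 5432130569) (nat_lit 311) (nat_lit 5) (nat_lit 327) (nat_lit 5) (nat_lit 328) (nat_lit 5) (nat_lit 452) (nat_lit 448) (nat_lit 300)))))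 (XT.nd (nat_lit 312) (nat_lit 0) (nat_lit 152) (XT.nd (nat_lit 156) (nat_lit 0) (nat_lit 76) (XT.nd (nat_lit 78) (nat_lit 0) (nat_lit 76) (XT.lf (nat_lit 76) (nat_lit 2299268280) (nat_lit 0) (nat_lit 4057622948) (nat_lit 1292) (nat_lit 11864263837) (nat_lit 312) (nat_lit 5) (nat_lit 311) (nat_lit 5) (nat_lit 328) (nat_lit 5) (nat_lit 453) (nat_lit 448) (nat_lit 299)) (XT.lf (nat_lit 0) (nat_lit 7152165216) (nat_lit 1216) (nat_lit 6699990116) (nat_lit 1292) (nat_lit 4641672197) (nat_lit 312) (nat_lit 5) (nat_lit 328) (nat_lit 5) (nat_lit 329) (nat_lit 5) (nat_lit 454) (nat_lit 448) (nat_lit 298))) (XT.nd (nat_lit 78) (nat_lit 0) (nat_lit 76) (XT.lf (nat_lit 76) (nat_lit 2808114456) (nat_lit 0) (nat_lit 5222541095) (nat_lit 1292) (nat_lit 10742244591) (nat_lit 313) (nat_lit 5) (nat_lit 312) (nat_lit 5) (nat_lit 329) (nat_lit 5) (nat_lit 455) (nat_lit 448) (nat_lit 297)) (XT.lf (nat_lit 0) (nat_lit 9031461305) (nat_lit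 1216) (nat_lit 6360695088) (nat_lit 1292) (nat_lit 3665310417) (nat_lit 313) (nat_lit 5) (nat_lit 329) (nat_lit 5) (nat_lit 330) (nat_lit 5) (nat_lit 456) (nat_lit 448) (nat_lit 296)))) (XT.nd (nat_lit 156) (nat_lit 0) (nat_lit 76) (XT.nd (nat_lit 78) (nat_lit 0) (nat_lit 76) (XT.lf (nat_lit 76) (nat_lit 3543840746) (nat_lit 0) (nat_lit 6596840504) (nat_lit 1292) (nat_lit 9207538205) (nat_lit 314) (nat_lit 5) (nat_lit 313) (nat_lit 5) (nat_lit 330) (nat_lit 5) (nat_lit 457) (nat_lit 448) (nat_lit 295)) (XT.lf (nat_lit 0) (nat_lit 11364516819) (nat_lit 1216) (nat_lit 5799482353) (nat_lit 1292) (nat_lit 2481255997) (nat_lit 314) (nat_lit 5) (nat_lit 330) (nat_lit 5) (nat_lit 331) (nat_lit 5) (nat_lit 458) (nat_lit 448) (nat_lit 294))) (XT.nd (nat_lit 78) (nat_lit 0) (nat_lit 76) (XT.lf (nat_lit 76) (nat_lit 4523357451) (nat_lit 0) (nat_lit 8203519215) (nat_lit 1292) (nat_lit 7221271651) (nat_lit 315) (nat_lit 5)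 (nat_lit 314) (nat_lit 5) (nat_lit 331) (nat_lit 5) (nat_lit 459) (nat_lit 448) (nat_lit 293)) (XT.lf (nat_lit 0) (nat_lit 14192294659) (nat_lit 1216) (nat_lit 4999372284) (nat_lit 1292) (nat_lit 1066596315) (nat_lit 315) (nat_lit 5) (nat_lit 331) (nat_lit 5) (nat_lit 332) (nat_lit 5) (nat_lit 460) (nat_lit 448) (nat_lit 292))))))) (XT.nd (nat_lit 1170) (nat_lit 4636) (nat_lit 0) (XT.nd (nat_lit 546) (nat_lit 2432) (nat_lit 0) (XT.nd (nat_lit 234) (nat_lit 1976) (nat_lit 0) (XT.nd (nat_lit 78) (nat_lit 0) (nat_lit 0) (XT.lf (nat_lit 76) (nat_lit 5764908303) (nat_lit 0) (nat_lit 10066787947) (nat_lit 1292) (nat_lit 4742085370) (nat_lit 316) (nat_lit 5) (nat_lit 315) (nat_lit 5) (nat_lit 332) (nat_lit 5) (nat_lit 461) (nat_lit 448) (nat_lit 291)) (XT.nd (nat_lit 78) (nat_lit 0) (nat_lit 76) (XT.lf (nat_lit 76) (nat_lit 16949478528) (nat_lit 0) (nat_lit 614811010) (nat_lit 1292) (nat_lit 3333156289) (nat_lit 316)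 (nat_lit 5) (nat_lit 315) (nat_lit 5) (nat_lit 332) (nat_lit 5) (nat_lit 462) (nat_lit 448) (nat_lit 290)) (XT.lf (nat_lit 76) (nat_lit 7288136072) (nat_lit 0) (nat_lit 12212183557) (nat_lit 1292) (nat_lit 1725957129) (nat_lit 317) (nat_lit 5) (nat_lit 316) (nat_lit 5) (nat_lit 333) (nat_lit 5) (nat_lit 463) (nat_lit 448) (nat_lit 289)))) (XT.nd (nat_lit 156) (nat_lit 836) (nat_lit 0) (XT.nd (nat_lit 78) (nat_lit 1216) (nat_lit 0) (XT.lf (nat_lit 76) (nat_lit 18930920719) (nat_lit 0) (nat_lit 2603264647) (nat_lit 1292) (nat_lit 29595161) (nat_lit 317) (nat_lit 5) (nat_lit 316) (nat_lit 5) (nat_lit 333) (nat_lit 5) (nat_lit 464) (nat_lit 448) (nat_lit 288)) (XT.lf (nat_lit 0) (nat_lit 1837415378) (nat_lit 1292) (nat_lit 12810717343) (nat_lit 76) (nat_lit 7258183610) (nat_lit 300) (nat_lit 5) (nat_lit 317) (nat_lit 5) (nat_lit 301) (nat_lit 5) (nat_lit 465) (nat_lit 448) (nat_lit 287))) (XT.nd (nat_lit 78) (nat_lit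 836) (nat_lit 0) (XT.lf (nat_lit 0) (nat_lit 3806581015) (nat_lit 1292) (nat_lit 1060008719) (nat_lit 76) (nat_lit 17391128001) (nat_lit 300) (nat_lit 5) (nat_lit 317) (nat_lit 5) (nat_lit 301) (nat_lit 5) (nat_lit 466) (nat_lit 448) (nat_lit 286)) (XT.lf (nat_lit 0) (nat_lit 5988468791) (nat_lit 912) (nat_lit 11409905838) (nat_lit 76) (nat_lit 5216677626) (nat_lit 289) (nat_lit 5) (nat_lit 301) (nat_lit 5) (nat_lit 290) (nat_lit 5) (nat_lit 467) (nat_lit 448) (nat_lit 285))))) (XT.nd (nat_lit 312) (nat_lit 1216) (nat_lit 0) (XT.nd (nat_lit 156) (nat_lit 608) (nat_lit 0) (XT.nd (nat_lit 78) (nat_lit 0) (nat_lit 0) (XT.lf (nat_lit 0) (nat_lit 840101761) (nat_lit 608) (nat_lit 7457190790) (nat_lit 684) (nat_lit 14683970356) (nat_lit 281) (nat_lit 5) (nat_lit 289) (nat_lit 5) (nat_lit 290) (nat_lit 5) (nat_lit 468) (nat_lit 448) (nat_lit 284)) (XT.lf (nat_lit 0) (nat_lit 10813010142) (nat_lit 684) (nat_lit 9696705315)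 (nat_lit 76) (nat_lit 2844616009) (nat_lit 281) (nat_lit 5) (nat_lit 290) (nat_lit 5) (nat_lit 282) (nat_lit 5) (nat_lit 469) (nat_lit 448) (nat_lit 283))) (XT.nd (nat_lit 78) (nat_lit 0) (nat_lit 0) (XT.lf (nat_lit 0) (nat_lit 3102630833) (nat_lit 608) (nat_lit 10399912005) (nat_lit 684) (nat_lit 10233099386) (nat_lit 273) (nat_lit 5) (nat_lit 281) (nat_lit 5) (nat_lit 282) (nat_lit 5) (nat_lit 470) (nat_lit 448) (nat_lit 282)) (XT.lf (nat_lit 0) (nat_lit 16366567640) (nat_lit 684) (nat_lit 7647101273) (nat_lit 76) (nat_lit 111909642) (nat_lit 273) (nat_lit 5) (nat_lit 282) (nat_lit 5) (nat_lit 274) (nat_lit 5) (nat_lit 471) (nat_lit 448) (nat_lit 281)))) (XT.nd (nat_lit 156) (nat_lit 684) (nat_lit 0) (XT.nd (nat_lit 78) (nat_lit 0) (nat_lit 0) (XT.lf (nat_lit 0) (nat_lit 5732154925) (nat_lit 532) (nat_lit 13737372534) (nat_lit 608) (nat_lit 5053095511) (nat_lit 266) (nat_lit 5) (nat_lit 273) (nat_lit 5) (nat_lit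 274) (nat_lit 5) (nat_lit 472) (nat_lit 448) (nat_lit 280)) (XT.lf (nat_lit 0) (nat_lit 19664480268) (nat_lit 532) (nat_lit 3073358966) (nat_lit 608) (nat_lit 2191572001) (nat_lit 266) (nat_lit 5) (nat_lit 273) (nat_lit 5) (nat_lit 274) (nat_lit 5) (nat_lit 473) (nat_lit 448) (nat_lit 279))) (XT.nd (nat_lit 78) (nat_lit 0) (nat_lit 0) (XT.lf (nat_lit 0) (nat_lit 897983466) (nat_lit 684) (nat_lit 16596413631) (nat_lit 76) (nat_lit 7849080443) (nat_lit 257) (nat_lit 5) (nat_lit 266) (nat_lit 5) (nat_lit 258) (nat_lit 5) (nat_lit 474) (nat_lit 448) (nat_lit 278)) (XT.lf (nat_lit 0) (nat_lit 4115529043) (nat_lit 684) (nat_lit 2538789219) (nat_lit 76) (nat_lit 19112616431) (nat_lit 257) (nat_lit 5) (nat_lit 266) (nat_lit 5) (nat_lit 258) (nat_lit 5) (nat_lit 475) (nat_lit 448) (nat_lit 277)))))) (XT.nd (nat_lit 624) (nat_lit 2128) (nat_lit 0) (XT.nd (nat_lit 312) (nat_lit 988) (nat_lit 0) (XT.nd (nat_lit 156) (nat_lit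 456) (nat_lit 0) (XT.nd (nat_lit 78) (nat_lit 532) (nat_lit 0) (XT.lf (nat_lit 0) (nat_lit 7586503872) (nat_lit 608) (nat_lit 14071095745) (nat_lit 76) (nat_lit 4540789220) (nat_lit 250) (nat_lit 5) (nat_lit 258) (nat_lit 5) (nat_lit 251) (nat_lit 5) (nat_lit 476) (nat_lit 448) (nat_lit 276)) (XT.lf (nat_lit 0) (nat_lit 583588644) (nat_lit 532) (nat_lit 10670857808) (nat_lit 608) (nat_lit 15385555353) (nat_lit 243) (nat_lit 5) (nat_lit 250) (nat_lit 5) (nat_lit 251) (nat_lit 5) (nat_lit 477) (nat_lit 448) (nat_lit 275))) (XT.nd (nat_lit 78) (nat_lit 456) (nat_lit 0) (XT.lf (nat_lit 0) (nat_lit 15177662446) (nat_lit 608) (nat_lit 11136978648) (nat_lit 76) (nat_lit 775865358) (nat_lit 243) (nat_lit 5) (nat_lit 251) (nat_lit 5) (nat_lit 244) (nat_lit 5) (nat_lit 478) (nat_lit 448) (nat_lit 274)) (XT.lf (nat_lit 0) (nat_lit 4201396673) (nat_lit 456) (nat_lit 15158879819) (nat_lit 532) (nat_lit 8189999032) (nat_lit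 237) (nat_lit 5) (nat_lit 243) (nat_lit 5) (nat_lit 244) (nat_lit 5) (nat_lit 479) (nat_lit 448) (nat_lit 273)))) (XT.nd (nat_lit 156) (nat_lit 532) (nat_lit 0) (XT.nd (nat_lit 78) (nat_lit 456) (nat_lit 0) (XT.lf (nat_lit 0) (nat_lit 20223294617) (nat_lit 456) (nat_lit 3553278078) (nat_lit 532) (nat_lit 4244019185) (nat_lit 237) (nat_lit 5) (nat_lit 243) (nat_lit 5) (nat_lit 244) (nat_lit 5) (nat_lit 480) (nat_lit 448) (nat_lit 272)) (XT.lf (nat_lit 0) (nat_lit 8297086742) (nat_lit 456) (nat_lit 20184638252) (nat_lit 532) (nat_lit 18602031) (nat_lit 231) (nat_lit 5) (nat_lit 237) (nat_lit 5) (nat_lit 238) (nat_lit 5) (nat_lit 481) (nat_lit 448) (nat_lit 271))) (XT.nd (nat_lit 78) (nat_lit 456) (nat_lit 0) (XT.lf (nat_lit 0) (nat_lit 4359605147) (nat_lit 532) (nat_lit 4040504830) (nat_lit 76) (nat_lit 20589777098) (nat_lit 230) (nat_lit 5) (nat_lit 237) (nat_lit 5) (nat_lit 231) (nat_lit 5) (nat_lit 482) (nat_lit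 448) (nat_lit 270)) (XT.lf (nat_lit 0) (nat_lit 9025496771) (nat_lit 532) (nat_lit 16674745577) (nat_lit 76) (nat_lit 3789184976) (nat_lit 224) (nat_lit 5) (nat_lit 231) (nat_lit 5) (nat_lit 225) (nat_lit 5) (nat_lit 483) (nat_lit 448) (nat_lit 269))))) (XT.nd (nat_lit 312) (nat_lit 1292) (nat_lit 0) (XT.nd (nat_lit 156) (nat_lit 380) (nat_lit 0) (XT.nd (nat_lit 78) (nat_lit 0) (nat_lit 0) (XT.lf (nat_lit 0) (nat_lit 170521132) (nat_lit 456) (nat_lit 13782933168) (nat_lit 532) (nat_lit 16046837086) (nat_lit 218) (nat_lit 5) (nat_lit 224) (nat_lit 5) (nat_lit 225) (nat_lit 5) (nat_lit 484) (nat_lit 448) (nat_lit 268)) (XT.lf (nat_lit 0) (nat_lit 17858155828) (nat_lit 456) (nat_lit 1335620522) (nat_lit 532) (nat_lit 11327769518) (nat_lit 218) (nat_lit 5) (nat_lit 224) (nat_lit 5) (nat_lit 225) (nat_lit 5) (nat_lit 485) (nat_lit 448) (nat_lit 267))) (XT.nd (nat_lit 78) (nat_lit 0) (nat_lit 0) (XT.lf (nat_lit 0) (nat_lit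 5000385496) (nat_lit 380) (nat_lit 19745638267) (nat_lit 456) (nat_lit 6307773012) (nat_lit 213) (nat_lit 5) (nat_lit 218) (nat_lit 5) (nat_lit 219) (nat_lit 5) (nat_lit 486) (nat_lit 448) (nat_lit 266)) (XT.lf (nat_lit 0) (nat_lit 23435451296) (nat_lit 380) (nat_lit 7166667962) (nat_lit 456) (nat_lit 995777788) (nat_lit 213) (nat_lit 5) (nat_lit 218) (nat_lit 5) (nat_lit 219) (nat_lit 5) (nat_lit 487) (nat_lit 448) (nat_lit 265)))) (XT.nd (nat_lit 156) (nat_lit 760) (nat_lit 0) (XT.nd (nat_lit 78) (nat_lit 0) (nat_lit 0) (XT.lf (nat_lit 0) (nat_lit 4541859208) (nat_lit 532) (nat_lit 21790276080) (nat_lit 76) (nat_lit 5820286122) (nat_lit 206) (nat_lit 5) (nat_lit 213) (nat_lit 5) (nat_lit 207) (nat_lit 5) (nat_lit 488) (nat_lit 448) (nat_lit 264)) (XT.lf (nat_lit 0) (nat_lit 10376242614) (nat_lit 532) (nat_lit 3197653585) (nat_lit 76) (nat_lit 19144870823) (nat_lit 206) (nat_lit 5) (nat_lit 213) (nat_lit 5) (nat_lit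 207) (nat_lit 5) (nat_lit 489) (nat_lit 448) (nat_lit 263))) (XT.nd (nat_lit 78) (nat_lit 380) (nat_lit 0) (XT.lf (nat_lit 0) (nat_lit 16265575985) (nat_lit 380) (nat_lit 272973633) (nat_lit 456) (nat_lit 16758966846) (nat_lit 201) (nat_lit 5) (nat_lit 206) (nat_lit 5) (nat_lit 207) (nat_lit 5) (nat_lit 490) (nat_lit 448) (nat_lit 262)) (XT.lf (nat_lit 0) (nat_lit 2398386305) (nat_lit 380) (nat_lit 20668656319) (nat_lit 456) (nat_lit 10821146482) (nat_lit 196) (nat_lit 5) (nat_lit 201) (nat_lit 5) (nat_lit 202) (nat_lit 5) (nat_lit 491) (nat_lit 448) (nat_lit 261))))))))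
noncomputable def xc195 : XT := (XT.nd (nat_lit 2418) (nat_lit 3040) (nat_lit 0) (XT.nd (nat_lit 1170) (nat_lit 2584) (nat_lit 0) (XT.nd (nat_lit 546) (nat_lit 1292) (nat_lit 0) (XT.nd (nat_lit 234) (nat_lit 1064) (nat_lit 0) (XT.nd (nat_lit 78) (nat_lit 380) (nat_lit 0) (XT.lf (nat_lit 0) (nat_lit 22753431405) (nat_lit 380) (nat_lit 7209263955) (nat_lit 456) (nat_lit 4528747635) (nat_lit 196) (nat_lit 5) (nat_lit 201) (nat_lit 5) (nat_lit 202) (nat_lit 5) (nat_lit 492) (nat_lit 448) (nat_lit 260)) (XT.nd (nat_lit 78) (nat_lit 0) (nat_lit 0) (XT.lf (nat_lit 0) (nat_lit 2060145693) (nat_lit 380) (nat_lit 26420895341) (nat_lit 76) (nat_lit 6626815992) (nat_lit 191) (nat_lit 5) (nat_lit 196) (nat_lit 5) (nat_lit 192) (nat_lit 5) (nat_lit 493) (nat_lit 448) (nat_lit 259)) (XT.lf (nat_lit 0) (nat_lit 8943512063) (nat_lit 380) (nat_lit 5895844388) (nat_lit 76) (nat_lit 20896427161) (nat_lit 191) (nat_lit 5) (nat_lit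 196) (nat_lit 5) (nat_lit 192) (nat_lit 5) (nat_lit 494) (nat_lit 448) (nat_lit 258)))) (XT.nd (nat_lit 156) (nat_lit 380) (nat_lit 0) (XT.nd (nat_lit 78) (nat_lit 304) (nat_lit 0) (XT.lf (nat_lit 0) (nat_lit 15543860012) (nat_lit 380) (nat_lit 635777533) (nat_lit 456) (nat_lit 20198522899) (nat_lit 186) (nat_lit 5) (nat_lit 191) (nat_lit 5) (nat_lit 192) (nat_lit 5) (nat_lit 495) (nat_lit 448) (nat_lit 257)) (XT.lf (nat_lit 0) (nat_lit 581376545) (nat_lit 304) (nat_lit 23248581624) (nat_lit 380) (nat_lit 13203937255) (nat_lit 182) (nat_lit 5) (nat_lit 186) (nat_lit 5) (nat_lit 187) (nat_lit 5) (nat_lit 496) (nat_lit 448) (nat_lit 256))) (XT.nd (nat_lit 78) (nat_lit 380) (nat_lit 0) (XT.lf (nat_lit 0) (nat_lit 23055777304) (nat_lit 304) (nat_lit 8867557207) (nat_lit 380) (nat_lit 5779561738) (nat_lit 182) (nat_lit 5) (nat_lit 186) (nat_lit 5) (nat_lit 187) (nat_lit 5) (nat_lit 497) (nat_lit 448) (nat_lit 255))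 (XT.lf (nat_lit 0) (nat_lit 1962530874) (nat_lit 380) (nat_lit 30502105627) (nat_lit 76) (nat_lit 5922849358) (nat_lit 177) (nat_lit 5) (nat_lit 182) (nat_lit 5) (nat_lit 178) (nat_lit 5) (nat_lit 498) (nat_lit 448) (nat_lit 254))))) (XT.nd (nat_lit 312) (nat_lit 684) (nat_lit 0) (XT.nd (nat_lit 156) (nat_lit 304) (nat_lit 0) (XT.nd (nat_lit 78) (nat_lit 304) (nat_lit 0) (XT.lf (nat_lit 0) (nat_lit 10054912823) (nat_lit 380) (nat_lit 7844930041) (nat_lit 76) (nat_lit 21184028053) (nat_lit 177) (nat_lit 5) (nat_lit 182) (nat_lit 5) (nat_lit 178) (nat_lit 5) (nat_lit 499) (nat_lit 448) (nat_lit 253)) (XT.lf (nat_lit 0) (nat_lit 15795949437) (nat_lit 304) (nat_lit 2743064714) (nat_lit 380) (nat_lit 21257665098) (nat_lit 173) (nat_lit 5) (nat_lit 177) (nat_lit 5) (nat_lit 178) (nat_lit 5) (nat_lit 500) (nat_lit 448) (nat_lit 252))) (XT.nd (nat_lit 78) (nat_lit 304) (nat_lit 0) (XT.lf (nat_lit 0) (nat_lit 27478478734)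 (nat_lit 380) (nat_lit 350388208) (nat_lit 76) (nat_lit 12695979838) (nat_lit 173) (nat_lit 5) (nat_lit 178) (nat_lit 5) (nat_lit 174) (nat_lit 5) (nat_lit 501) (nat_lit 448) (nat_lit 251)) (XT.lf (nat_lit 0) (nat_lit 24455363245) (nat_lit 304) (nat_lit 12490224691) (nat_lit 380) (nat_lit 4321487731) (nat_lit 169) (nat_lit 5) (nat_lit 173) (nat_lit 5) (nat_lit 174) (nat_lit 5) (nat_lit 502) (nat_lit 448) (nat_lit 250)))) (XT.nd (nat_lit 156) (nat_lit 304) (nat_lit 0) (XT.nd (nat_lit 78) (nat_lit 0) (nat_lit 0) (XT.lf (nat_lit 0) (nat_lit 4685718637) (nat_lit 380) (nat_lit 33971090036) (nat_lit 76) (nat_lit 3370069164) (nat_lit 164) (nat_lit 5) (nat_lit 169) (nat_lit 5) (nat_lit 165) (nat_lit 5) (nat_lit 503) (nat_lit 448) (nat_lit 249)) (XT.lf (nat_lit 0) (nat_lit 14168658541) (nat_lit 380) (nat_lit 8962773376) (nat_lit 76) (nat_lit 19667987434) (nat_lit 164) (nat_lit 5) (nat_lit 169) (nat_lit 5) (nat_lit 165)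 (nat_lit 5) (nat_lit 504) (nat_lit 448) (nat_lit 248))) (XT.nd (nat_lit 78) (nat_lit 0) (nat_lit 0) (XT.lf (nat_lit 0) (nat_lit 17125907651) (nat_lit 304) (nat_lit 6972146606) (nat_lit 380) (nat_lit 19492223957) (nat_lit 160) (nat_lit 5) (nat_lit 164) (nat_lit 5) (nat_lit 165) (nat_lit 5) (nat_lit 505) (nat_lit 448) (nat_lit 247)) (XT.lf (nat_lit 0) (nat_lit 34507074705) (nat_lit 380) (nat_lit 319137388) (nat_lit 76) (nat_lit 9573198595) (nat_lit 160) (nat_lit 5) (nat_lit 165) (nat_lit 5) (nat_lit 161) (nat_lit 5) (nat_lit 506) (nat_lit 448) (nat_lit 246)))))) (XT.nd (nat_lit 624) (nat_lit 1216) (nat_lit 0) (XT.nd (nat_lit 312) (nat_lit 532) (nat_lit 0) (XT.nd (nat_lit 156) (nat_lit 228) (nat_lit 0) (XT.nd (nat_lit 78) (nat_lit 304) (nat_lit 0) (XT.lf (nat_lit 0) (nat_lit 325516250) (nat_lit 304) (nat_lit 18160619479) (nat_lit 76) (nat_lit 26736786389) (nat_lit 156) (nat_lit 5) (nat_lit 160) (nat_lit 5) (nat_lit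 157) (nat_lit 5) (nat_lit 507) (nat_lit 448) (nat_lit 245)) (XT.lf (nat_lit 0) (nat_lit 9279801390) (nat_lit 304) (nat_lit 1461190292) (nat_lit 380) (nat_lit 35324511598) (nat_lit 152) (nat_lit 5) (nat_lit 156) (nat_lit 5) (nat_lit 157) (nat_lit 5) (nat_lit 508) (nat_lit 448) (nat_lit 244))) (XT.nd (nat_lit 78) (nat_lit 228) (nat_lit 0) (XT.lf (nat_lit 0) (nat_lit 21806130016) (nat_lit 380) (nat_lit 9172497301) (nat_lit 76) (nat_lit 15944618714) (nat_lit 152) (nat_lit 5) (nat_lit 157) (nat_lit 5) (nat_lit 153) (nat_lit 5) (nat_lit 509) (nat_lit 448) (nat_lit 243)) (XT.lf (nat_lit 0) (nat_lit 19633867419) (nat_lit 228) (nat_lit 13770106824) (nat_lit 304) (nat_lit 14396724382) (nat_lit 149) (nat_lit 5) (nat_lit 152) (nat_lit 5) (nat_lit 153) (nat_lit 5) (nat_lit 510) (nat_lit 448) (nat_lit 242)))) (XT.nd (nat_lit 156) (nat_lit 228) (nat_lit 0) (XT.nd (nat_lit 78) (nat_lit 76) (nat_lit 0) (XT.lf (nat_lit 0) (nat_lit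 762790535) (nat_lit 228) (nat_lit 44723423790) (nat_lit 304) (nat_lit 3214166763) (nat_lit 146) (nat_lit 5) (nat_lit 149) (nat_lit 5) (nat_lit 150) (nat_lit 5) (nat_lit 511) (nat_lit 448) (nat_lit 241)) (XT.lf (nat_lit 0) (nat_lit 8562994543) (nat_lit 304) (nat_lit 18703729990) (nat_lit 76) (nat_lit 22345299980) (nat_lit 145) (nat_lit 5) (nat_lit 149) (nat_lit 5) (nat_lit 146) (nat_lit 5) (nat_lit 512) (nat_lit 448) (nat_lit 240))) (XT.nd (nat_lit 78) (nat_lit 0) (nat_lit 0) (XT.lf (nat_lit 0) (nat_lit 11597826155) (nat_lit 228) (nat_lit 9140180533) (nat_lit 304) (nat_lit 29808781823) (nat_lit 142) (nat_lit 5) (nat_lit 145) (nat_lit 5) (nat_lit 146) (nat_lit 5) (nat_lit 513) (nat_lit 448) (nat_lit 239)) (XT.lf (nat_lit 0) (nat_lit 33558290173) (nat_lit 304) (nat_lit 8409402253) (nat_lit 76) (nat_lit 9533502469) (nat_lit 142) (nat_lit 5) (nat_lit 146) (nat_lit 5) (nat_lit 143) (nat_lit 5) (nat_lit 514) (nat_lit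 448) (nat_lit 238))))) (XT.nd (nat_lit 312) (nat_lit 456) (nat_lit 0) (XT.nd (nat_lit 156) (nat_lit 228) (nat_lit 0) (XT.nd (nat_lit 78) (nat_lit 304) (nat_lit 0) (XT.lf (nat_lit 0) (nat_lit 23408921419) (nat_lit 228) (nat_lit 23667516551) (nat_lit 304) (nat_lit 5398397921) (nat_lit 139) (nat_lit 5) (nat_lit 142) (nat_lit 5) (nat_lit 143) (nat_lit 5) (nat_lit 515) (nat_lit 448) (nat_lit 237)) (XT.lf (nat_lit 0) (nat_lit 2857930906) (nat_lit 228) (nat_lit 4628701029) (nat_lit 304) (nat_lit 45985555623) (nat_lit 135) (nat_lit 5) (nat_lit 138) (nat_lit 5) (nat_lit 139) (nat_lit 5) (nat_lit 516) (nat_lit 448) (nat_lit 236))) (XT.nd (nat_lit 78) (nat_lit 228) (nat_lit 0) (XT.lf (nat_lit 0) (nat_lit 21087896681) (nat_lit 304) (nat_lit 18359448240) (nat_lit 76) (nat_lit 15037365863) (nat_lit 135) (nat_lit 5) (nat_lit 139) (nat_lit 5) (nat_lit 136) (nat_lit 5) (nat_lit 517) (nat_lit 448) (nat_lit 235)) (XT.lf (nat_lit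 0) (nat_lit 15108359858) (nat_lit 228) (nat_lit 20177726659) (nat_lit 304) (nat_lit 20235856658) (nat_lit 132) (nat_lit 5) (nat_lit 135) (nat_lit 5) (nat_lit 136) (nat_lit 5) (nat_lit 518) (nat_lit 448) (nat_lit 234)))) (XT.nd (nat_lit 156) (nat_lit 228) (nat_lit 0) (XT.nd (nat_lit 78) (nat_lit 228) (nat_lit 0) (XT.lf (nat_lit 0) (nat_lit 49952954159) (nat_lit 228) (nat_lit 140518625) (nat_lit 304) (nat_lit 6491322313) (nat_lit 132) (nat_lit 5) (nat_lit 135) (nat_lit 5) (nat_lit 136) (nat_lit 5) (nat_lit 519) (nat_lit 448) (nat_lit 233)) (XT.lf (nat_lit 0) (nat_lit 7989697413) (nat_lit 228) (nat_lit 29224502965) (nat_lit 76) (nat_lit 20448909742) (nat_lit 129) (nat_lit 5) (nat_lit 132) (nat_lit 5) (nat_lit 130) (nat_lit 5) (nat_lit 520) (nat_lit 448) (nat_lit 232))) (XT.nd (nat_lit 78) (nat_lit 0) (nat_lit 0) (XT.lf (nat_lit 0) (nat_lit 5972010229) (nat_lit 228) (nat_lit 16927009798) (nat_lit 304) (nat_lit 35869096282)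 (nat_lit 126) (nat_lit 5) (nat_lit 129) (nat_lit 5) (nat_lit 130) (nat_lit 5) (nat_lit 521) (nat_lit 448) (nat_lit 231)) (XT.lf (nat_lit 0) (nat_lit 38589729847) (nat_lit 304) (nat_lit 17118562157) (nat_lit 76) (nat_lit 4187957526) (nat_lit 126) (nat_lit 5) (nat_lit 130) (nat_lit 5) (nat_lit 127) (nat_lit 5) (nat_lit 522) (nat_lit 448) (nat_lit 230))))))) (XT.nd (nat_lit 1248) (nat_lit 1064) (nat_lit 0) (XT.nd (nat_lit 624) (nat_lit 912) (nat_lit 0) (XT.nd (nat_lit 312) (nat_lit 456) (nat_lit 0) (XT.nd (nat_lit 156) (nat_lit 380) (nat_lit 0) (XT.nd (nat_lit 78) (nat_lit 76) (nat_lit 0) (XT.lf (nat_lit 0) (nat_lit 19845512252) (nat_lit 152) (nat_lit 35261995475) (nat_lit 228) (nat_lit 5940028686) (nat_lit 124) (nat_lit 5) (nat_lit 126) (nat_lit 5) (nat_lit 127) (nat_lit 5) (nat_lit 523) (nat_lit 448) (nat_lit 229)) (XT.lf (nat_lit 0) (nat_lit 9867083975) (nat_lit 228) (nat_lit 4058974390) (nat_lit 76) (nat_lit 48299275270)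 (nat_lit 123) (nat_lit 5) (nat_lit 126) (nat_lit 5) (nat_lit 124) (nat_lit 5) (nat_lit 524) (nat_lit 448) (nat_lit 228))) (XT.nd (nat_lit 78) (nat_lit 152) (nat_lit 0) (XT.lf (nat_lit 0) (nat_lit 26443003123) (nat_lit 304) (nat_lit 28692414752) (nat_lit 76) (nat_lit 8288863144) (nat_lit 120) (nat_lit 5) (nat_lit 124) (nat_lit 5) (nat_lit 121) (nat_lit 5) (nat_lit 525) (nat_lit 448) (nat_lit 227)) (XT.lf (nat_lit 0) (nat_lit 10168429422) (nat_lit 152) (nat_lit 33622852017) (nat_lit 228) (nat_lit 20859662999) (nat_lit 118) (nat_lit 5) (nat_lit 120) (nat_lit 5) (nat_lit 121) (nat_lit 5) (nat_lit 526) (nat_lit 448) (nat_lit 226)))) (XT.nd (nat_lit 156) (nat_lit 152) (nat_lit 0) (XT.nd (nat_lit 78) (nat_lit 304) (nat_lit 0) (XT.lf (nat_lit 0) (nat_lit 50779922767) (nat_lit 152) (nat_lit 11167907973) (nat_lit 228) (nat_lit 3957942402) (nat_lit 118) (nat_lit 5) (nat_lit 120) (nat_lit 5) (nat_lit 121) (nat_lit 5) (nat_lit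 527) (nat_lit 448) (nat_lit 225)) (XT.lf (nat_lit 0) (nat_lit 13553005037) (nat_lit 304) (nat_lit 41523648674) (nat_lit 76) (nat_lit 12106774642) (nat_lit 114) (nat_lit 5) (nat_lit 118) (nat_lit 5) (nat_lit 115) (nat_lit 5) (nat_lit 528) (nat_lit 448) (nat_lit 224))) (XT.nd (nat_lit 78) (nat_lit 152) (nat_lit 0) (XT.lf (nat_lit 0) (nat_lit 31772690055) (nat_lit 304) (nat_lit 670353074) (nat_lit 76) (nat_lit 36047305724) (nat_lit 114) (nat_lit 5) (nat_lit 118) (nat_lit 5) (nat_lit 115) (nat_lit 5) (nat_lit 529) (nat_lit 448) (nat_lit 223)) (XT.lf (nat_lit 0) (nat_lit 42229392191) (nat_lit 152) (nat_lit 8713695379) (nat_lit 228) (nat_lit 18881265793) (nat_lit 112) (nat_lit 5) (nat_lit 114) (nat_lit 5) (nat_lit 115) (nat_lit 5) (nat_lit 530) (nat_lit 448) (nat_lit 222))))) (XT.nd (nat_lit 312) (nat_lit 380) (nat_lit 0) (XT.nd (nat_lit 156) (nat_lit 304) (nat_lit 0) (XT.nd (nat_lit 78) (nat_lit 76) (nat_lit 0) (XT.lf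 (nat_lit 0) (nat_lit 15377307476) (nat_lit 152) (nat_lit 55615320912) (nat_lit 228) (nat_lit 196628730) (nat_lit 110) (nat_lit 5) (nat_lit 112) (nat_lit 5) (nat_lit 113) (nat_lit 5) (nat_lit 531) (nat_lit 448) (nat_lit 221)) (XT.lf (nat_lit 0) (nat_lit 19042730524) (nat_lit 228) (nat_lit 12657684348) (nat_lit 76) (nat_lit 40878223310) (nat_lit 109) (nat_lit 5) (nat_lit 112) (nat_lit 5) (nat_lit 110) (nat_lit 5) (nat_lit 532) (nat_lit 448) (nat_lit 220))) (XT.nd (nat_lit 78) (nat_lit 152) (nat_lit 0) (XT.lf (nat_lit 0) (nat_lit 32418751826) (nat_lit 152) (nat_lit 6746448650) (nat_lit 228) (nat_lit 34835145386) (nat_lit 107) (nat_lit 5) (nat_lit 109) (nat_lit 5) (nat_lit 110) (nat_lit 5) (nat_lit 533) (nat_lit 448) (nat_lit 219)) (XT.lf (nat_lit 0) (nat_lit 3528322691) (nat_lit 152) (nat_lit 56706500748) (nat_lit 228) (nat_lit 15219577010) (nat_lit 105) (nat_lit 5) (nat_lit 107) (nat_lit 5) (nat_lit 108) (nat_lit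 5) (nat_lit 534) (nat_lit 448) (nat_lit 218)))) (XT.nd (nat_lit 156) (nat_lit 152) (nat_lit 0) (XT.nd (nat_lit 78) (nat_lit 152) (nat_lit 0) (XT.lf (nat_lit 0) (nat_lit 5376305187) (nat_lit 228) (nat_lit 26217557592) (nat_lit 76) (nat_lit 45342103183) (nat_lit 104) (nat_lit 5) (nat_lit 107) (nat_lit 5) (nat_lit 105) (nat_lit 5) (nat_lit 535) (nat_lit 448) (nat_lit 217)) (XT.lf (nat_lit 0) (nat_lit 21120631026) (nat_lit 152) (nat_lit 5364874421) (nat_lit 228) (nat_lit 51965912170) (nat_lit 102) (nat_lit 5) (nat_lit 104) (nat_lit 5) (nat_lit 105) (nat_lit 5) (nat_lit 536) (nat_lit 448) (nat_lit 216))) (XT.nd (nat_lit 78) (nat_lit 152) (nat_lit 0) (XT.lf (nat_lit 0) (nat_lit 48701794212) (nat_lit 228) (nat_lit 9801779782) (nat_lit 76) (nat_lit 21494544493) (nat_lit 102) (nat_lit 5) (nat_lit 105) (nat_lit 5) (nat_lit 103) (nat_lit 5) (nat_lit 537) (nat_lit 448) (nat_lit 215)) (XT.lf (nat_lit 0) (nat_lit 39875130656)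 (nat_lit 152) (nat_lit 32144234377) (nat_lit 228) (nat_lit 9558811588) (nat_lit 100) (nat_lit 5) (nat_lit 102) (nat_lit 5) (nat_lit 103) (nat_lit 5) (nat_lit 538) (nat_lit 448) (nat_lit 214)))))) (XT.nd (nat_lit 624) (nat_lit 152) (nat_lit 0) (XT.nd (nat_lit 312) (nat_lit 532) (nat_lit 0) (XT.nd (nat_lit 156) (nat_lit 152) (nat_lit 0) (XT.nd (nat_lit 78) (nat_lit 0) (nat_lit 0) (XT.lf (nat_lit 0) (nat_lit 8070821376) (nat_lit 152) (nat_lit 4685544874) (nat_lit 228) (nat_lit 70440292691) (nat_lit 97) (nat_lit 5) (nat_lit 99) (nat_lit 5) (nat_lit 100) (nat_lit 5) (nat_lit 539) (nat_lit 448) (nat_lit 213)) (XT.lf (nat_lit 0) (nat_lit 36199374569) (nat_lit 228) (nat_lit 24986891230) (nat_lit 76) (nat_lit 23655075784) (nat_lit 97) (nat_lit 5) (nat_lit 100) (nat_lit 5) (nat_lit 98) (nat_lit 5) (nat_lit 540) (nat_lit 448) (nat_lit 212))) (XT.nd (nat_lit 78) (nat_lit 0) (nat_lit 0) (XT.lf (nat_lit 0) (nat_lit 27136482594)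 (nat_lit 152) (nat_lit 33514863106) (nat_lit 228) (nat_lit 25874848862) (nat_lit 95) (nat_lit 5) (nat_lit 97) (nat_lit 5) (nat_lit 98) (nat_lit 5) (nat_lit 541) (nat_lit 448) (nat_lit 211)) (XT.lf (nat_lit 0) (nat_lit 81332912755) (nat_lit 152) (nat_lit 4754728733) (nat_lit 228) (nat_lit 2166428710) (nat_lit 95) (nat_lit 5) (nat_lit 97) (nat_lit 5) (nat_lit 98) (nat_lit 5) (nat_lit 542) (nat_lit 448) (nat_lit 210)))) (XT.nd (nat_lit 156) (nat_lit 152) (nat_lit 0) (XT.nd (nat_lit 78) (nat_lit 152) (nat_lit 0) (XT.lf (nat_lit 0) (nat_lit 22523037803) (nat_lit 228) (nat_lit 42421082703) (nat_lit 76) (nat_lit 25062123237) (nat_lit 92) (nat_lit 5) (nat_lit 95) (nat_lit 5) (nat_lit 93) (nat_lit 5) (nat_lit 543) (nat_lit 448) (nat_lit 209)) (XT.lf (nat_lit 0) (nat_lit 12226214927) (nat_lit 152) (nat_lit 35917097523) (nat_lit 228) (nat_lit 43660016565) (nat_lit 90) (nat_lit 5) (nat_lit 92) (nat_lit 5) (nat_lit 93) (nat_lit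 5) (nat_lit 544) (nat_lit 448) (nat_lit 208))) (XT.nd (nat_lit 78) (nat_lit 152) (nat_lit 0) (XT.lf (nat_lit 0) (nat_lit 69379745085) (nat_lit 152) (nat_lit 5579320235) (nat_lit 228) (nat_lit 18682455454) (nat_lit 90) (nat_lit 5) (nat_lit 92) (nat_lit 5) (nat_lit 93) (nat_lit 5) (nat_lit 545) (nat_lit 448) (nat_lit 207)) (XT.lf (nat_lit 0) (nat_lit 7476094163) (nat_lit 152) (nat_lit 62481605926) (nat_lit 76) (nat_lit 25558053048) (nat_lit 88) (nat_lit 5) (nat_lit 90) (nat_lit 5) (nat_lit 89) (nat_lit 5) (nat_lit 546) (nat_lit 448) (nat_lit 206))))) (XT.nd (nat_lit 54990) (nat_lit 0) (nat_lit 17024) (XT.nd (nat_lit 54834) (nat_lit 0) (nat_lit 16948) (XT.nd (nat_lit 78) (nat_lit 152) (nat_lit 0) (XT.lf (nat_lit 0) (nat_lit 34345098662) (nat_lit 152) (nat_lit 5137943838) (nat_lit 76) (nat_lit 57948584836) (nat_lit 88) (nat_lit 5) (nat_lit 90) (nat_lit 5) (nat_lit 89) (nat_lit 5) (nat_lit 547) (nat_lit 448) (nat_lit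 205)) (XT.lf (nat_lit 0) (nat_lit 54996558208) (nat_lit 152) (nat_lit 7550852723) (nat_lit 228) (nat_lit 36841749729) (nat_lit 86) (nat_lit 5) (nat_lit 88) (nat_lit 5) (nat_lit 89) (nat_lit 5) (nat_lit 548) (nat_lit 448) (nat_lit 204))) (XT.nd (nat_lit 78) (nat_lit 0) (nat_lit 0) (XT.lf (nat_lit 0) (nat_lit 2218265335) (nat_lit 1292) (nat_lit 3248948865) (nat_lit 1292) (nat_lit 3248948865) (nat_lit 309) (nat_lit 3) (nat_lit 326) (nat_lit 3) (nat_lit 326) (nat_lit 5) (nat_lit 449) (nat_lit 449) (nat_lit 302)) (XT.lf (nat_lit 76) (nat_lit 2191333628) (nat_lit 0) (nat_lit 2550614563) (nat_lit 1292) (nat_lit 12944676602) (nat_lit 310) (nat_lit 5) (nat_lit 309) (nat_lit 3) (nat_lit 326) (nat_lit 5) (nat_lit 450) (nat_lit 449) (nat_lit 301)))) (XT.nd (nat_lit 156) (nat_lit 0) (nat_lit 76) (XT.nd (nat_lit 78) (nat_lit 0) (nat_lit 0) (XT.lf (nat_lit 0) (nat_lit 5172779871) (nat_lit 1216) (nat_lit 6736042601) (nat_lit 1292)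 (nat_lit 6036243177) (nat_lit 310) (nat_lit 5) (nat_lit 326) (nat_lit 5) (nat_lit 327) (nat_lit 5) (nat_lit 451) (nat_lit 449) (nat_lit 300)) (XT.lf (nat_lit 76) (nat_lit 2301007970) (nat_lit 0) (nat_lit 3354644481) (nat_lit 1292) (nat_lit 12554434566) (nat_lit 311) (nat_lit 5) (nat_lit 310) (nat_lit 5) (nat_lit 327) (nat_lit 5) (nat_lit 452) (nat_lit 449) (nat_lit 299))) (XT.nd (nat_lit 78) (nat_lit 0) (nat_lit 0) (XT.lf (nat_lit 0) (nat_lit 6266127036) (nat_lit 1216) (nat_lit 6791740968) (nat_lit 1292) (nat_lit 5421798288) (nat_lit 311) (nat_lit 5) (nat_lit 327) (nat_lit 5) (nat_lit 328) (nat_lit 5) (nat_lit 453) (nat_lit 449) (nat_lit 298)) (XT.lf (nat_lit 76) (nat_lit 2612163551) (nat_lit 0) (nat_lit 4333283696) (nat_lit 1292) (nat_lit 11810370476) (nat_lit 312) (nat_lit 5) (nat_lit 311) (nat_lit 5) (nat_lit 328) (nat_lit 5) (nat_lit 454) (nat_lit 449) (nat_lit 297))))))))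
noncomputable def xc196 : XT := (XT.nd (nat_lit 2418) (nat_lit 6004) (nat_lit 0) (XT.nd (nat_lit 1170) (nat_lit 4788) (nat_lit 0) (XT.nd (nat_lit 546) (nat_lit 2356) (nat_lit 0) (XT.nd (nat_lit 234) (nat_lit 0) (nat_lit 76) (XT.nd (nat_lit 78) (nat_lit 0) (nat_lit 0) (XT.lf (nat_lit 0) (nat_lit 7751555019) (nat_lit 1216) (nat_lit 6651117094) (nat_lit 1292) (nat_lit 4634390042) (nat_lit 312) (nat_lit 5) (nat_lit 328) (nat_lit 5) (nat_lit 329) (nat_lit 5) (nat_lit 455) (nat_lit 449) (nat_lit 296)) (XT.nd (nat_lit 78) (nat_lit 0) (nat_lit 76) (XT.lf (nat_lit 76) (nat_lit 3139780883) (nat_lit 0) (nat_lit 5507789072) (nat_lit 1292) (nat_lit 10677202928) (nat_lit 313) (nat_lit 5) (nat_lit 312) (nat_lit 5) (nat_lit 329) (nat_lit 5) (nat_lit 456) (nat_lit 449) (nat_lit 295)) (XT.lf (nat_lit 0) (nat_lit 9666248666) (nat_lit 1216) (nat_lit 6299114808) (nat_lit 1292) (nat_lit 3652878617) (nat_lit 313) (nat_lit 5) (nat_lit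 329) (nat_lit 5) (nat_lit 330) (nat_lit 5) (nat_lit 457) (nat_lit 449) (nat_lit 294)))) (XT.nd (nat_lit 156) (nat_lit 0) (nat_lit 76) (XT.nd (nat_lit 78) (nat_lit 0) (nat_lit 76) (XT.lf (nat_lit 76) (nat_lit 3900082580) (nat_lit 0) (nat_lit 6900467693) (nat_lit 1292) (nat_lit 9117413864) (nat_lit 314) (nat_lit 5) (nat_lit 313) (nat_lit 5) (nat_lit 330) (nat_lit 5) (nat_lit 458) (nat_lit 449) (nat_lit 293)) (XT.lf (nat_lit 0) (nat_lit 12049755548) (nat_lit 1216) (nat_lit 5719442767) (nat_lit 1292) (nat_lit 2455053912) (nat_lit 314) (nat_lit 5) (nat_lit 330) (nat_lit 5) (nat_lit 331) (nat_lit 5) (nat_lit 459) (nat_lit 449) (nat_lit 292))) (XT.nd (nat_lit 78) (nat_lit 0) (nat_lit 76) (XT.lf (nat_lit 76) (nat_lit 4910591799) (nat_lit 0) (nat_lit 8534784037) (nat_lit 1292) (nat_lit 7091085563) (nat_lit 315) (nat_lit 5) (nat_lit 314) (nat_lit 5) (nat_lit 331) (nat_lit 5) (nat_lit 460) (nat_lit 449) (nat_lit 291)) (XT.lf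 (nat_lit 0) (nat_lit 14944155021) (nat_lit 1216) (nat_lit 4894515011) (nat_lit 1292) (nat_lit 1017528688) (nat_lit 315) (nat_lit 5) (nat_lit 331) (nat_lit 5) (nat_lit 332) (nat_lit 5) (nat_lit 461) (nat_lit 449) (nat_lit 290))))) (XT.nd (nat_lit 312) (nat_lit 1368) (nat_lit 0) (XT.nd (nat_lit 156) (nat_lit 1216) (nat_lit 0) (XT.nd (nat_lit 78) (nat_lit 0) (nat_lit 0) (XT.lf (nat_lit 76) (nat_lit 6190195578) (nat_lit 0) (nat_lit 10435470916) (nat_lit 1292) (nat_lit 4555729167) (nat_lit 316) (nat_lit 5) (nat_lit 315) (nat_lit 5) (nat_lit 332) (nat_lit 5) (nat_lit 462) (nat_lit 449) (nat_lit 289)) (XT.lf (nat_lit 76) (nat_lit 17702953201) (nat_lit 0) (nat_lit 697992554) (nat_lit 1292) (nat_lit 3114103633) (nat_lit 316) (nat_lit 5) (nat_lit 315) (nat_lit 5) (nat_lit 332) (nat_lit 5) (nat_lit 463) (nat_lit 449) (nat_lit 288))) (XT.nd (nat_lit 78) (nat_lit 1292) (nat_lit 0) (XT.lf (nat_lit 76) (nat_lit 7759213240) (nat_lit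 0) (nat_lit 12628644691) (nat_lit 1292) (nat_lit 1466104096) (nat_lit 317) (nat_lit 5) (nat_lit 316) (nat_lit 5) (nat_lit 333) (nat_lit 5) (nat_lit 464) (nat_lit 449) (nat_lit 287)) (XT.lf (nat_lit 0) (nat_lit 266762971) (nat_lit 1292) (nat_lit 2460542363) (nat_lit 1368) (nat_lit 19474472253) (nat_lit 299) (nat_lit 5) (nat_lit 316) (nat_lit 5) (nat_lit 317) (nat_lit 5) (nat_lit 465) (nat_lit 449) (nat_lit 286)))) (XT.nd (nat_lit 156) (nat_lit 1444) (nat_lit 0) (XT.nd (nat_lit 78) (nat_lit 0) (nat_lit 0) (XT.lf (nat_lit 0) (nat_lit 2182535583) (nat_lit 1292) (nat_lit 12937350367) (nat_lit 76) (nat_lit 7434895073) (nat_lit 300) (nat_lit 5) (nat_lit 317) (nat_lit 5) (nat_lit 301) (nat_lit 5) (nat_lit 466) (nat_lit 449) (nat_lit 285)) (XT.lf (nat_lit 0) (nat_lit 4202329652) (nat_lit 1292) (nat_lit 841625976) (nat_lit 76) (nat_lit 17873022961) (nat_lit 300) (nat_lit 5) (nat_lit 317) (nat_lit 5) (nat_lit 301) (nat_lit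 5) (nat_lit 467) (nat_lit 449) (nat_lit 284))) (XT.nd (nat_lit 78) (nat_lit 608) (nat_lit 0) (XT.lf (nat_lit 0) (nat_lit 6443585705) (nat_lit 912) (nat_lit 11495908213) (nat_lit 76) (nat_lit 5345722581) (nat_lit 289) (nat_lit 5) (nat_lit 301) (nat_lit 5) (nat_lit 290) (nat_lit 5) (nat_lit 468) (nat_lit 449) (nat_lit 283)) (XT.lf (nat_lit 0) (nat_lit 1119086920) (nat_lit 608) (nat_lit 7697003577) (nat_lit 684) (nat_lit 14846491166) (nat_lit 281) (nat_lit 5) (nat_lit 289) (nat_lit 5) (nat_lit 290) (nat_lit 5) (nat_lit 469) (nat_lit 449) (nat_lit 282)))))) (XT.nd (nat_lit 624) (nat_lit 2432) (nat_lit 0) (XT.nd (nat_lit 312) (nat_lit 1216) (nat_lit 0) (XT.nd (nat_lit 156) (nat_lit 532) (nat_lit 0) (XT.nd (nat_lit 78) (nat_lit 608) (nat_lit 0) (XT.lf (nat_lit 0) (nat_lit 11399268830) (nat_lit 684) (nat_lit 9733183200) (nat_lit 76) (nat_lit 2914631236) (nat_lit 281) (nat_lit 5) (nat_lit 290) (nat_lit 5) (nat_lit 282)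 (nat_lit 5) (nat_lit 470) (nat_lit 449) (nat_lit 281)) (XT.lf (nat_lit 0) (nat_lit 3447638687) (nat_lit 608) (nat_lit 10716643280) (nat_lit 684) (nat_lit 10275708189) (nat_lit 273) (nat_lit 5) (nat_lit 281) (nat_lit 5) (nat_lit 282) (nat_lit 5) (nat_lit 471) (nat_lit 449) (nat_lit 280))) (XT.nd (nat_lit 78) (nat_lit 532) (nat_lit 0) (XT.lf (nat_lit 0) (nat_lit 17106707716) (nat_lit 684) (nat_lit 7624382497) (nat_lit 76) (nat_lit 110760583) (nat_lit 273) (nat_lit 5) (nat_lit 282) (nat_lit 5) (nat_lit 274) (nat_lit 5) (nat_lit 472) (nat_lit 449) (nat_lit 279)) (XT.lf (nat_lit 0) (nat_lit 6153779507) (nat_lit 532) (nat_lit 14144120114) (nat_lit 608) (nat_lit 4953053231) (nat_lit 266) (nat_lit 5) (nat_lit 273) (nat_lit 5) (nat_lit 274) (nat_lit 5) (nat_lit 473) (nat_lit 449) (nat_lit 278)))) (XT.nd (nat_lit 156) (nat_lit 532) (nat_lit 0) (XT.nd (nat_lit 78) (nat_lit 684) (nat_lit 0) (XT.lf (nat_lit 0) (nat_lit 20496802962)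 (nat_lit 532) (nat_lit 3160342651) (nat_lit 608) (nat_lit 2013013194) (nat_lit 266) (nat_lit 5) (nat_lit 273) (nat_lit 5) (nat_lit 274) (nat_lit 5) (nat_lit 474) (nat_lit 449) (nat_lit 277)) (XT.lf (nat_lit 0) (nat_lit 1159932051) (nat_lit 684) (nat_lit 16842583307) (nat_lit 76) (nat_lit 8094197733) (nat_lit 257) (nat_lit 5) (nat_lit 266) (nat_lit 5) (nat_lit 258) (nat_lit 5) (nat_lit 475) (nat_lit 449) (nat_lit 276))) (XT.nd (nat_lit 78) (nat_lit 532) (nat_lit 0) (XT.lf (nat_lit 0) (nat_lit 4467159070) (nat_lit 684) (nat_lit 2370561892) (nat_lit 76) (nat_lit 19695358882) (nat_lit 257) (nat_lit 5) (nat_lit 266) (nat_lit 5) (nat_lit 258) (nat_lit 5) (nat_lit 476) (nat_lit 449) (nat_lit 275)) (XT.lf (nat_lit 0) (nat_lit 8038118261) (nat_lit 608) (nat_lit 14244675291) (nat_lit 76) (nat_lit 4694808931) (nat_lit 250) (nat_lit 5) (nat_lit 258) (nat_lit 5) (nat_lit 251) (nat_lit 5) (nat_lit 477) (nat_lit 449) (nat_lit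 274))))) (XT.nd (nat_lit 312) (nat_lit 1444) (nat_lit 0) (XT.nd (nat_lit 156) (nat_lit 456) (nat_lit 0) (XT.nd (nat_lit 78) (nat_lit 0) (nat_lit 0) (XT.lf (nat_lit 0) (nat_lit 847212832) (nat_lit 532) (nat_lit 10964727275) (nat_lit 608) (nat_lit 15620649011) (nat_lit 243) (nat_lit 5) (nat_lit 250) (nat_lit 5) (nat_lit 251) (nat_lit 5) (nat_lit 478) (nat_lit 449) (nat_lit 273)) (XT.lf (nat_lit 0) (nat_lit 15846693925) (nat_lit 608) (nat_lit 11225964824) (nat_lit 76) (nat_lit 824135409) (nat_lit 243) (nat_lit 5) (nat_lit 251) (nat_lit 5) (nat_lit 244) (nat_lit 5) (nat_lit 479) (nat_lit 449) (nat_lit 272))) (XT.nd (nat_lit 78) (nat_lit 0) (nat_lit 0) (XT.lf (nat_lit 0) (nat_lit 4570158588) (nat_lit 456) (nat_lit 15580736659) (nat_lit 532) (nat_lit 8219578268) (nat_lit 237) (nat_lit 5) (nat_lit 243) (nat_lit 5) (nat_lit 244) (nat_lit 5) (nat_lit 480) (nat_lit 449) (nat_lit 271)) (XT.lf (nat_lit 0) (nat_lit 21065643955)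 (nat_lit 456) (nat_lit 3627925396) (nat_lit 532) (nat_lit 4161513805) (nat_lit 237) (nat_lit 5) (nat_lit 243) (nat_lit 5) (nat_lit 244) (nat_lit 5) (nat_lit 481) (nat_lit 449) (nat_lit 270)))) (XT.nd (nat_lit 156) (nat_lit 912) (nat_lit 0) (XT.nd (nat_lit 78) (nat_lit 0) (nat_lit 0) (XT.lf (nat_lit 0) (nat_lit 183575401) (nat_lit 532) (nat_lit 20566008819) (nat_lit 76) (nat_lit 8599672686) (nat_lit 230) (nat_lit 5) (nat_lit 237) (nat_lit 5) (nat_lit 231) (nat_lit 5) (nat_lit 482) (nat_lit 449) (nat_lit 269)) (XT.lf (nat_lit 0) (nat_lit 4686860885) (nat_lit 532) (nat_lit 3925657358) (nat_lit 76) (nat_lit 21241157234) (nat_lit 230) (nat_lit 5) (nat_lit 237) (nat_lit 5) (nat_lit 231) (nat_lit 5) (nat_lit 483) (nat_lit 449) (nat_lit 268))) (XT.nd (nat_lit 78) (nat_lit 456) (nat_lit 0) (XT.lf (nat_lit 0) (nat_lit 9489645606) (nat_lit 532) (nat_lit 16935827908) (nat_lit 76) (nat_lit 3942821345) (nat_lit 224) (nat_lit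 5) (nat_lit 231) (nat_lit 5) (nat_lit 225) (nat_lit 5) (nat_lit 484) (nat_lit 449) (nat_lit 267)) (XT.lf (nat_lit 0) (nat_lit 412452096) (nat_lit 456) (nat_lit 14149633637) (nat_lit 532) (nat_lit 16332500194) (nat_lit 218) (nat_lit 5) (nat_lit 224) (nat_lit 5) (nat_lit 225) (nat_lit 5) (nat_lit 485) (nat_lit 449) (nat_lit 266))))))) (XT.nd (nat_lit 1170) (nat_lit 2888) (nat_lit 0) (XT.nd (nat_lit 546) (nat_lit 1444) (nat_lit 0) (XT.nd (nat_lit 234) (nat_lit 1292) (nat_lit 0) (XT.nd (nat_lit 78) (nat_lit 380) (nat_lit 0) (XT.lf (nat_lit 0) (nat_lit 18623818299) (nat_lit 456) (nat_lit 1330264354) (nat_lit 532) (nat_lit 11477561822) (nat_lit 218) (nat_lit 5) (nat_lit 224) (nat_lit 5) (nat_lit 225) (nat_lit 5) (nat_lit 486) (nat_lit 449) (nat_lit 265)) (XT.nd (nat_lit 78) (nat_lit 0) (nat_lit 0) (XT.lf (nat_lit 0) (nat_lit 5383121770) (nat_lit 380) (nat_lit 20287063162) (nat_lit 456) (nat_lit 6309759734) (nat_lit 213)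 (nat_lit 5) (nat_lit 218) (nat_lit 5) (nat_lit 219) (nat_lit 5) (nat_lit 487) (nat_lit 449) (nat_lit 264)) (XT.lf (nat_lit 0) (nat_lit 24364461154) (nat_lit 380) (nat_lit 7332207561) (nat_lit 456) (nat_lit 843858434) (nat_lit 213) (nat_lit 5) (nat_lit 218) (nat_lit 5) (nat_lit 219) (nat_lit 5) (nat_lit 488) (nat_lit 449) (nat_lit 263)))) (XT.nd (nat_lit 156) (nat_lit 760) (nat_lit 0) (XT.nd (nat_lit 78) (nat_lit 0) (nat_lit 0) (XT.lf (nat_lit 0) (nat_lit 4853853176) (nat_lit 532) (nat_lit 22211960140) (nat_lit 76) (nat_lit 6045897061) (nat_lit 206) (nat_lit 5) (nat_lit 213) (nat_lit 5) (nat_lit 207) (nat_lit 5) (nat_lit 489) (nat_lit 449) (nat_lit 262)) (XT.lf (nat_lit 0) (nat_lit 10858149495) (nat_lit 532) (nat_lit 3068316957) (nat_lit 76) (nat_lit 19768733797) (nat_lit 206) (nat_lit 5) (nat_lit 213) (nat_lit 5) (nat_lit 207) (nat_lit 5) (nat_lit 490) (nat_lit 449) (nat_lit 261))) (XT.nd (nat_lit 78) (nat_lit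 380) (nat_lit 0) (XT.lf (nat_lit 0) (nat_lit 16976601008) (nat_lit 380) (nat_lit 225899366) (nat_lit 456) (nat_lit 17088896887) (nat_lit 201) (nat_lit 5) (nat_lit 206) (nat_lit 5) (nat_lit 207) (nat_lit 5) (nat_lit 491) (nat_lit 449) (nat_lit 260)) (XT.lf (nat_lit 0) (nat_lit 2695678017) (nat_lit 380) (nat_lit 21228964803) (nat_lit 456) (nat_lit 10975213741) (nat_lit 196) (nat_lit 5) (nat_lit 201) (nat_lit 5) (nat_lit 202) (nat_lit 5) (nat_lit 492) (nat_lit 449) (nat_lit 259))))) (XT.nd (nat_lit 312) (nat_lit 684) (nat_lit 0) (XT.nd (nat_lit 156) (nat_lit 380) (nat_lit 0) (XT.nd (nat_lit 78) (nat_lit 380) (nat_lit 0) (XT.lf (nat_lit 0) (nat_lit 23654811165) (nat_lit 380) (nat_lit 7367530994) (nat_lit 456) (nat_lit 4499010903) (nat_lit 196) (nat_lit 5) (nat_lit 201) (nat_lit 5) (nat_lit 202) (nat_lit 5) (nat_lit 493) (nat_lit 449) (nat_lit 258)) (XT.lf (nat_lit 0) (nat_lit 2282279502) (nat_lit 380) (nat_lit 26989456058)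 (nat_lit 76) (nat_lit 6884537637) (nat_lit 191) (nat_lit 5) (nat_lit 196) (nat_lit 5) (nat_lit 192) (nat_lit 5) (nat_lit 494) (nat_lit 449) (nat_lit 257))) (XT.nd (nat_lit 78) (nat_lit 380) (nat_lit 0) (XT.lf (nat_lit 0) (nat_lit 9367477074) (nat_lit 380) (nat_lit 5855179775) (nat_lit 76) (nat_lit 21580521107) (nat_lit 191) (nat_lit 5) (nat_lit 196) (nat_lit 5) (nat_lit 192) (nat_lit 5) (nat_lit 495) (nat_lit 449) (nat_lit 256)) (XT.lf (nat_lit 0) (nat_lit 16225583013) (nat_lit 380) (nat_lit 592640157) (nat_lit 456) (nat_lit 20646677090) (nat_lit 186) (nat_lit 5) (nat_lit 191) (nat_lit 5) (nat_lit 192) (nat_lit 5) (nat_lit 496) (nat_lit 449) (nat_lit 255)))) (XT.nd (nat_lit 156) (nat_lit 380) (nat_lit 0) (XT.nd (nat_lit 78) (nat_lit 0) (nat_lit 0) (XT.lf (nat_lit 0) (nat_lit 816080912) (nat_lit 304) (nat_lit 23880179522) (nat_lit 380) (nat_lit 13444100910) (nat_lit 182) (nat_lit 5) (nat_lit 186) (nat_lit 5) (nat_lit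 187) (nat_lit 5) (nat_lit 497) (nat_lit 449) (nat_lit 254)) (XT.lf (nat_lit 0) (nat_lit 23958385643) (nat_lit 304) (nat_lit 9069642612) (nat_lit 380) (nat_lit 5801536491) (nat_lit 182) (nat_lit 5) (nat_lit 186) (nat_lit 5) (nat_lit 187) (nat_lit 5) (nat_lit 498) (nat_lit 449) (nat_lit 253))) (XT.nd (nat_lit 78) (nat_lit 0) (nat_lit 0) (XT.lf (nat_lit 0) (nat_lit 2168207149) (nat_lit 380) (nat_lit 31201605608) (nat_lit 76) (nat_lit 6164885580) (nat_lit 177) (nat_lit 5) (nat_lit 182) (nat_lit 5) (nat_lit 178) (nat_lit 5) (nat_lit 499) (nat_lit 449) (nat_lit 252)) (XT.lf (nat_lit 0) (nat_lit 10499084818) (nat_lit 380) (nat_lit 7870993294) (nat_lit 76) (nat_lit 21882025343) (nat_lit 177) (nat_lit 5) (nat_lit 182) (nat_lit 5) (nat_lit 178) (nat_lit 5) (nat_lit 500) (nat_lit 449) (nat_lit 251)))))) (XT.nd (nat_lit 624) (nat_lit 1292) (nat_lit 0) (XT.nd (nat_lit 312) (nat_lit 608) (nat_lit 0) (XT.nd (nat_lit 156) (nat_lit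 684) (nat_lit 0) (XT.nd (nat_lit 78) (nat_lit 0) (nat_lit 0) (XT.lf (nat_lit 0) (nat_lit 16477060759) (nat_lit 304) (nat_lit 2758489274) (nat_lit 380) (nat_lit 21750811007) (nat_lit 173) (nat_lit 5) (nat_lit 177) (nat_lit 5) (nat_lit 178) (nat_lit 5) (nat_lit 501) (nat_lit 449) (nat_lit 250)) (XT.lf (nat_lit 0) (nat_lit 28439734287) (nat_lit 380) (nat_lit 156231258) (nat_lit 76) (nat_lit 13140512202) (nat_lit 173) (nat_lit 5) (nat_lit 178) (nat_lit 5) (nat_lit 174) (nat_lit 5) (nat_lit 502) (nat_lit 449) (nat_lit 249))) (XT.nd (nat_lit 78) (nat_lit 380) (nat_lit 0) (XT.lf (nat_lit 0) (nat_lit 25391686184) (nat_lit 304) (nat_lit 12797131280) (nat_lit 380) (nat_lit 4312217431) (nat_lit 169) (nat_lit 5) (nat_lit 173) (nat_lit 5) (nat_lit 174) (nat_lit 5) (nat_lit 503) (nat_lit 449) (nat_lit 248)) (XT.lf (nat_lit 0) (nat_lit 4961147110) (nat_lit 380) (nat_lit 34783488929) (nat_lit 76) (nat_lit 3538995652) (nat_lit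 164) (nat_lit 5) (nat_lit 169) (nat_lit 5) (nat_lit 165) (nat_lit 5) (nat_lit 504) (nat_lit 449) (nat_lit 247)))) (XT.nd (nat_lit 156) (nat_lit 304) (nat_lit 0) (XT.nd (nat_lit 78) (nat_lit 304) (nat_lit 0) (XT.lf (nat_lit 0) (nat_lit 14724647340) (nat_lit 380) (nat_lit 9030944141) (nat_lit 76) (nat_lit 20323876002) (nat_lit 164) (nat_lit 5) (nat_lit 169) (nat_lit 5) (nat_lit 165) (nat_lit 5) (nat_lit 505) (nat_lit 449) (nat_lit 246)) (XT.lf (nat_lit 0) (nat_lit 17838429547) (nat_lit 304) (nat_lit 7111592369) (nat_lit 380) (nat_lit 19944087480) (nat_lit 160) (nat_lit 5) (nat_lit 164) (nat_lit 5) (nat_lit 165) (nat_lit 5) (nat_lit 506) (nat_lit 449) (nat_lit 245))) (XT.nd (nat_lit 78) (nat_lit 304) (nat_lit 0) (XT.lf (nat_lit 0) (nat_lit 35668205596) (nat_lit 380) (nat_lit 132641943) (nat_lit 76) (nat_lit 9926761712) (nat_lit 160) (nat_lit 5) (nat_lit 165) (nat_lit 5) (nat_lit 161) (nat_lit 5) (nat_lit 507) (nat_lit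 449) (nat_lit 244)) (XT.lf (nat_lit 0) (nat_lit 460633902) (nat_lit 304) (nat_lit 18508790152) (nat_lit 76) (nat_lit 27606419321) (nat_lit 156) (nat_lit 5) (nat_lit 160) (nat_lit 5) (nat_lit 157) (nat_lit 5) (nat_lit 508) (nat_lit 449) (nat_lit 243))))) (XT.nd (nat_lit 312) (nat_lit 532) (nat_lit 0) (XT.nd (nat_lit 156) (nat_lit 456) (nat_lit 0) (XT.nd (nat_lit 78) (nat_lit 0) (nat_lit 0) (XT.lf (nat_lit 0) (nat_lit 9752915423) (nat_lit 304) (nat_lit 1433878907) (nat_lit 380) (nat_lit 36256961189) (nat_lit 152) (nat_lit 5) (nat_lit 156) (nat_lit 5) (nat_lit 157) (nat_lit 5) (nat_lit 509) (nat_lit 449) (nat_lit 242)) (XT.lf (nat_lit 0) (nat_lit 22580951593) (nat_lit 380) (nat_lit 9255682957) (nat_lit 76) (nat_lit 16490684225) (nat_lit 152) (nat_lit 5) (nat_lit 157) (nat_lit 5) (nat_lit 153) (nat_lit 5) (nat_lit 510) (nat_lit 449) (nat_lit 241))) (XT.nd (nat_lit 78) (nat_lit 228) (nat_lit 0) (XT.lf (nat_lit 0) (nat_lit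 20412990457) (nat_lit 228) (nat_lit 14112054397) (nat_lit 304) (nat_lit 14706100842) (nat_lit 149) (nat_lit 5) (nat_lit 152) (nat_lit 5) (nat_lit 153) (nat_lit 5) (nat_lit 511) (nat_lit 449) (nat_lit 240)) (XT.lf (nat_lit 0) (nat_lit 976779037) (nat_lit 228) (nat_lit 45992009584) (nat_lit 304) (nat_lit 3189059074) (nat_lit 146) (nat_lit 5) (nat_lit 149) (nat_lit 5) (nat_lit 150) (nat_lit 5) (nat_lit 512) (nat_lit 449) (nat_lit 239)))) (XT.nd (nat_lit 156) (nat_lit 228) (nat_lit 0) (XT.nd (nat_lit 78) (nat_lit 228) (nat_lit 0) (XT.lf (nat_lit 0) (nat_lit 8935574818) (nat_lit 304) (nat_lit 19076995904) (nat_lit 76) (nat_lit 23084338921) (nat_lit 145) (nat_lit 5) (nat_lit 149) (nat_lit 5) (nat_lit 146) (nat_lit 5) (nat_lit 513) (nat_lit 449) (nat_lit 238)) (XT.lf (nat_lit 0) (nat_lit 12131765298) (nat_lit 228) (nat_lit 9342490392) (nat_lit 304) (nat_lit 30585508462) (nat_lit 142) (nat_lit 5) (nat_lit 145) (nat_lit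 5) (nat_lit 146) (nat_lit 5) (nat_lit 514) (nat_lit 449) (nat_lit 237))) (XT.nd (nat_lit 78) (nat_lit 228) (nat_lit 0) (XT.lf (nat_lit 0) (nat_lit 34676495097) (nat_lit 304) (nat_lit 8478440370) (nat_lit 76) (nat_lit 9887946976) (nat_lit 142) (nat_lit 5) (nat_lit 146) (nat_lit 5) (nat_lit 143) (nat_lit 5) (nat_lit 515) (nat_lit 449) (nat_lit 236)) (XT.lf (nat_lit 0) (nat_lit 24292636502) (nat_lit 228) (nat_lit 24306048711) (nat_lit 304) (nat_lit 5447092652) (nat_lit 139) (nat_lit 5) (nat_lit 142) (nat_lit 5) (nat_lit 143) (nat_lit 5) (nat_lit 516) (nat_lit 449) (nat_lit 235))))))))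
noncomputable def xc197 : XT := (XT.nd (nat_lit 2418) (nat_lit 0) (nat_lit 0) (XT.nd (nat_lit 1170) (nat_lit 1824) (nat_lit 0) (XT.nd (nat_lit 546) (nat_lit 1064) (nat_lit 0) (XT.nd (nat_lit 234) (nat_lit 456) (nat_lit 0) (XT.nd (nat_lit 78) (nat_lit 228) (nat_lit 0) (XT.lf (nat_lit 0) (nat_lit 3125530071) (nat_lit 228) (nat_lit 4695261751) (nat_lit 304) (nat_lit 47252270314) (nat_lit 135) (nat_lit 5) (nat_lit 138) (nat_lit 5) (nat_lit 139) (nat_lit 5) (nat_lit 517) (nat_lit 449) (nat_lit 234)) (XT.nd (nat_lit 78) (nat_lit 228) (nat_lit 0) (XT.lf (nat_lit 0) (nat_lit 21827578168) (nat_lit 304) (nat_lit 18731146938) (nat_lit 76) (nat_lit 15557311567) (nat_lit 135) (nat_lit 5) (nat_lit 139) (nat_lit 5) (nat_lit 136) (nat_lit 5) (nat_lit 518) (nat_lit 449) (nat_lit 233)) (XT.lf (nat_lit 0) (nat_lit 15738939671) (nat_lit 228) (nat_lit 20711360819) (nat_lit 304) (nat_lit 20734128061) (nat_lit 132) (nat_lit 5) (nat_lit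 135) (nat_lit 5) (nat_lit 136) (nat_lit 5) (nat_lit 519) (nat_lit 449) (nat_lit 232)))) (XT.nd (nat_lit 156) (nat_lit 228) (nat_lit 0) (XT.nd (nat_lit 78) (nat_lit 228) (nat_lit 0) (XT.lf (nat_lit 0) (nat_lit 51623706877) (nat_lit 228) (nat_lit 75124825) (nat_lit 304) (nat_lit 6580426742) (nat_lit 132) (nat_lit 5) (nat_lit 135) (nat_lit 5) (nat_lit 136) (nat_lit 5) (nat_lit 520) (nat_lit 449) (nat_lit 231)) (XT.lf (nat_lit 0) (nat_lit 8332279732) (nat_lit 228) (nat_lit 29926322727) (nat_lit 76) (nat_lit 21131310583) (nat_lit 129) (nat_lit 5) (nat_lit 132) (nat_lit 5) (nat_lit 130) (nat_lit 5) (nat_lit 521) (nat_lit 449) (nat_lit 230))) (XT.nd (nat_lit 78) (nat_lit 0) (nat_lit 0) (XT.lf (nat_lit 0) (nat_lit 6324371007) (nat_lit 228) (nat_lit 17363179089) (nat_lit 304) (nat_lit 36840559383) (nat_lit 126) (nat_lit 5) (nat_lit 129) (nat_lit 5) (nat_lit 130) (nat_lit 5) (nat_lit 522) (nat_lit 449) (nat_lit 229)) (XT.lf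 (nat_lit 0) (nat_lit 39846691768) (nat_lit 304) (nat_lit 17461670349) (nat_lit 76) (nat_lit 4381793367) (nat_lit 126) (nat_lit 5) (nat_lit 130) (nat_lit 5) (nat_lit 127) (nat_lit 5) (nat_lit 523) (nat_lit 449) (nat_lit 228))))) (XT.nd (nat_lit 312) (nat_lit 456) (nat_lit 0) (XT.nd (nat_lit 156) (nat_lit 380) (nat_lit 0) (XT.nd (nat_lit 78) (nat_lit 76) (nat_lit 0) (XT.lf (nat_lit 0) (nat_lit 20609655227) (nat_lit 152) (nat_lit 36249078791) (nat_lit 228) (nat_lit 6017285125) (nat_lit 124) (nat_lit 5) (nat_lit 126) (nat_lit 5) (nat_lit 127) (nat_lit 5) (nat_lit 524) (nat_lit 449) (nat_lit 227)) (XT.lf (nat_lit 0) (nat_lit 10259188371) (nat_lit 228) (nat_lit 4014966309) (nat_lit 76) (nat_lit 49815053067) (nat_lit 123) (nat_lit 5) (nat_lit 126) (nat_lit 5) (nat_lit 124) (nat_lit 5) (nat_lit 525) (nat_lit 449) (nat_lit 226))) (XT.nd (nat_lit 78) (nat_lit 152) (nat_lit 0) (XT.lf (nat_lit 0) (nat_lit 27331830202) (nat_lit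 304) (nat_lit 29386851942) (nat_lit 76) (nat_lit 8605458147) (nat_lit 120) (nat_lit 5) (nat_lit 124) (nat_lit 5) (nat_lit 121) (nat_lit 5) (nat_lit 526) (nat_lit 449) (nat_lit 225)) (XT.lf (nat_lit 0) (nat_lit 10638186819) (nat_lit 152) (nat_lit 34561170659) (nat_lit 228) (nat_lit 21388282205) (nat_lit 118) (nat_lit 5) (nat_lit 120) (nat_lit 5) (nat_lit 121) (nat_lit 5) (nat_lit 527) (nat_lit 449) (nat_lit 224)))) (XT.nd (nat_lit 156) (nat_lit 152) (nat_lit 0) (XT.nd (nat_lit 78) (nat_lit 304) (nat_lit 0) (XT.lf (nat_lit 0) (nat_lit 52463227745) (nat_lit 152) (nat_lit 11434627815) (nat_lit 228) (nat_lit 3982340204) (nat_lit 118) (nat_lit 5) (nat_lit 120) (nat_lit 5) (nat_lit 121) (nat_lit 5) (nat_lit 528) (nat_lit 449) (nat_lit 223)) (XT.lf (nat_lit 0) (nat_lit 14051601722) (nat_lit 304) (nat_lit 42607111403) (nat_lit 76) (nat_lit 12537455173) (nat_lit 114) (nat_lit 5) (nat_lit 118) (nat_lit 5) (nat_lit 115) (nat_lit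 5) (nat_lit 529) (nat_lit 449) (nat_lit 222))) (XT.nd (nat_lit 78) (nat_lit 152) (nat_lit 0) (XT.lf (nat_lit 0) (nat_lit 32815197488) (nat_lit 304) (nat_lit 532942568) (nat_lit 76) (nat_lit 37194236829) (nat_lit 114) (nat_lit 5) (nat_lit 118) (nat_lit 5) (nat_lit 115) (nat_lit 5) (nat_lit 530) (nat_lit 449) (nat_lit 221)) (XT.lf (nat_lit 0) (nat_lit 43652250730) (nat_lit 152) (nat_lit 8907353794) (nat_lit 228) (nat_lit 19356830157) (nat_lit 112) (nat_lit 5) (nat_lit 114) (nat_lit 5) (nat_lit 115) (nat_lit 5) (nat_lit 531) (nat_lit 449) (nat_lit 220)))))) (XT.nd (nat_lit 624) (nat_lit 912) (nat_lit 0) (XT.nd (nat_lit 312) (nat_lit 380) (nat_lit 0) (XT.nd (nat_lit 156) (nat_lit 304) (nat_lit 0) (XT.nd (nat_lit 78) (nat_lit 76) (nat_lit 0) (XT.lf (nat_lit 0) (nat_lit 15995052706) (nat_lit 152) (nat_lit 57215145191) (nat_lit 228) (nat_lit 112100736) (nat_lit 110) (nat_lit 5) (nat_lit 112) (nat_lit 5) (nat_lit 113)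 (nat_lit 5) (nat_lit 532) (nat_lit 449) (nat_lit 219)) (XT.lf (nat_lit 0) (nat_lit 19700092345) (nat_lit 228) (nat_lit 12883829474) (nat_lit 76) (nat_lit 42169490775) (nat_lit 109) (nat_lit 5) (nat_lit 112) (nat_lit 5) (nat_lit 110) (nat_lit 5) (nat_lit 533) (nat_lit 449) (nat_lit 218))) (XT.nd (nat_lit 78) (nat_lit 152) (nat_lit 0) (XT.lf (nat_lit 0) (nat_lit 33543394046) (nat_lit 152) (nat_lit 6881797050) (nat_lit 228) (nat_lit 35792611834) (nat_lit 107) (nat_lit 5) (nat_lit 109) (nat_lit 5) (nat_lit 110) (nat_lit 5) (nat_lit 534) (nat_lit 449) (nat_lit 217)) (XT.lf (nat_lit 0) (nat_lit 3786651175) (nat_lit 152) (nat_lit 58339866263) (nat_lit 228) (nat_lit 15588973342) (nat_lit 105) (nat_lit 5) (nat_lit 107) (nat_lit 5) (nat_lit 108) (nat_lit 5) (nat_lit 535) (nat_lit 449) (nat_lit 216)))) (XT.nd (nat_lit 156) (nat_lit 152) (nat_lit 0) (XT.nd (nat_lit 78) (nat_lit 152) (nat_lit 0) (XT.lf (nat_lit 0) (nat_lit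 5620593924) (nat_lit 228) (nat_lit 26854392716) (nat_lit 76) (nat_lit 46766566238) (nat_lit 104) (nat_lit 5) (nat_lit 107) (nat_lit 5) (nat_lit 105) (nat_lit 5) (nat_lit 536) (nat_lit 449) (nat_lit 215)) (XT.lf (nat_lit 0) (nat_lit 21902473995) (nat_lit 152) (nat_lit 5459603552) (nat_lit 228) (nat_lit 53440420374) (nat_lit 102) (nat_lit 5) (nat_lit 104) (nat_lit 5) (nat_lit 105) (nat_lit 5) (nat_lit 537) (nat_lit 449) (nat_lit 214))) (XT.nd (nat_lit 78) (nat_lit 152) (nat_lit 0) (XT.lf (nat_lit 0) (nat_lit 50243084404) (nat_lit 228) (nat_lit 9950153813) (nat_lit 76) (nat_lit 22202414777) (nat_lit 102) (nat_lit 5) (nat_lit 105) (nat_lit 5) (nat_lit 103) (nat_lit 5) (nat_lit 538) (nat_lit 449) (nat_lit 213)) (XT.lf (nat_lit 0) (nat_lit 41215635709) (nat_lit 152) (nat_lit 33043596289) (nat_lit 228) (nat_lit 9763909441) (nat_lit 100) (nat_lit 5) (nat_lit 102) (nat_lit 5) (nat_lit 103) (nat_lit 5) (nat_lit 539) (nat_lit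 449) (nat_lit 212))))) (XT.nd (nat_lit 312) (nat_lit 532) (nat_lit 0) (XT.nd (nat_lit 156) (nat_lit 152) (nat_lit 0) (XT.nd (nat_lit 78) (nat_lit 0) (nat_lit 0) (XT.lf (nat_lit 0) (nat_lit 8457362735) (nat_lit 152) (nat_lit 4760823392) (nat_lit 228) (nat_lit 72471996925) (nat_lit 97) (nat_lit 5) (nat_lit 99) (nat_lit 5) (nat_lit 100) (nat_lit 5) (nat_lit 540) (nat_lit 449) (nat_lit 211)) (XT.lf (nat_lit 0) (nat_lit 37362789278) (nat_lit 228) (nat_lit 25594590405) (nat_lit 76) (nat_lit 24426877405) (nat_lit 97) (nat_lit 5) (nat_lit 100) (nat_lit 5) (nat_lit 98) (nat_lit 5) (nat_lit 541) (nat_lit 449) (nat_lit 210))) (XT.nd (nat_lit 78) (nat_lit 0) (nat_lit 0) (XT.lf (nat_lit 0) (nat_lit 28091093383) (nat_lit 152) (nat_lit 34456321545) (nat_lit 228) (nat_lit 26572267918) (nat_lit 95) (nat_lit 5) (nat_lit 97) (nat_lit 5) (nat_lit 98) (nat_lit 5) (nat_lit 542) (nat_lit 449) (nat_lit 209)) (XT.lf (nat_lit 0) (nat_lit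 83909323741) (nat_lit 152) (nat_lit 4835246853) (nat_lit 228) (nat_lit 2154891076) (nat_lit 95) (nat_lit 5) (nat_lit 97) (nat_lit 5) (nat_lit 98) (nat_lit 5) (nat_lit 543) (nat_lit 449) (nat_lit 208)))) (XT.nd (nat_lit 156) (nat_lit 152) (nat_lit 0) (XT.nd (nat_lit 78) (nat_lit 152) (nat_lit 0) (XT.lf (nat_lit 0) (nat_lit 23273493108) (nat_lit 228) (nat_lit 43555522120) (nat_lit 76) (nat_lit 25875171357) (nat_lit 92) (nat_lit 5) (nat_lit 95) (nat_lit 5) (nat_lit 93) (nat_lit 5) (nat_lit 544) (nat_lit 449) (nat_lit 207)) (XT.lf (nat_lit 0) (nat_lit 12729839605) (nat_lit 152) (nat_lit 36931674165) (nat_lit 228) (nat_lit 44893696557) (nat_lit 90) (nat_lit 5) (nat_lit 92) (nat_lit 5) (nat_lit 93) (nat_lit 5) (nat_lit 545) (nat_lit 449) (nat_lit 206))) (XT.nd (nat_lit 78) (nat_lit 152) (nat_lit 0) (XT.lf (nat_lit 0) (nat_lit 71593990089) (nat_lit 152) (nat_lit 5685596654) (nat_lit 228) (nat_lit 19169025716) (nat_lit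 90) (nat_lit 5) (nat_lit 92) (nat_lit 5) (nat_lit 93) (nat_lit 5) (nat_lit 546) (nat_lit 449) (nat_lit 205)) (XT.lf (nat_lit 0) (nat_lit 7772595766) (nat_lit 152) (nat_lit 64221514042) (nat_lit 76) (nat_lit 26384947988) (nat_lit 88) (nat_lit 5) (nat_lit 90) (nat_lit 5) (nat_lit 89) (nat_lit 5) (nat_lit 547) (nat_lit 449) (nat_lit 204))))))) (XT.nd (nat_lit 56004) (nat_lit 0) (nat_lit 11780) (XT.nd (nat_lit 55380) (nat_lit 0) (nat_lit 17024) (XT.nd (nat_lit 55068) (nat_lit 0) (nat_lit 16872) (XT.nd (nat_lit 54912) (nat_lit 0) (nat_lit 16796) (XT.nd (nat_lit 54834) (nat_lit 0) (nat_lit 16796) (XT.lf (nat_lit 0) (nat_lit 35445566940) (nat_lit 152) (nat_lit 5161460734) (nat_lit 76) (nat_lit 59745443690) (nat_lit 88) (nat_lit 5) (nat_lit 90) (nat_lit 5) (nat_lit 89) (nat_lit 5) (nat_lit 548) (nat_lit 449) (nat_lit 203)) (XT.lf (nat_lit 0) (nat_lit 2500524740) (nat_lit 1292) (nat_lit 3235315961) (nat_lit 1292) (nat_lit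 3235315961) (nat_lit 309) (nat_lit 3) (nat_lit 326) (nat_lit 3) (nat_lit 326) (nat_lit 5) (nat_lit 450) (nat_lit 450) (nat_lit 300))) (XT.nd (nat_lit 78) (nat_lit 0) (nat_lit 76) (XT.lf (nat_lit 76) (nat_lit 2477097918) (nat_lit 0) (nat_lit 2828080900) (nat_lit 1292) (nat_lit 12899376811) (nat_lit 310) (nat_lit 5) (nat_lit 309) (nat_lit 3) (nat_lit 326) (nat_lit 5) (nat_lit 451) (nat_lit 450) (nat_lit 299)) (XT.lf (nat_lit 0) (nat_lit 5734798751) (nat_lit 1216) (nat_lit 6710333761) (nat_lit 1292) (nat_lit 6026042430) (nat_lit 310) (nat_lit 5) (nat_lit 326) (nat_lit 5) (nat_lit 327) (nat_lit 5) (nat_lit 452) (nat_lit 450) (nat_lit 298)))) (XT.nd (nat_lit 156) (nat_lit 0) (nat_lit 76) (XT.nd (nat_lit 78) (nat_lit 0) (nat_lit 76) (XT.lf (nat_lit 76) (nat_lit 2595595091) (nat_lit 0) (nat_lit 3626881031) (nat_lit 1292) (nat_lit 12521962366) (nat_lit 311) (nat_lit 5) (nat_lit 310) (nat_lit 5) (nat_lit 327) (nat_lit 5)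 (nat_lit 453) (nat_lit 450) (nat_lit 297)) (XT.lf (nat_lit 0) (nat_lit 6838095896) (nat_lit 1216) (nat_lit 6763301430) (nat_lit 1292) (nat_lit 5421103950) (nat_lit 311) (nat_lit 5) (nat_lit 327) (nat_lit 5) (nat_lit 328) (nat_lit 5) (nat_lit 454) (nat_lit 450) (nat_lit 296))) (XT.nd (nat_lit 78) (nat_lit 0) (nat_lit 76) (XT.lf (nat_lit 76) (nat_lit 2920443834) (nat_lit 0) (nat_lit 4608377935) (nat_lit 1292) (nat_lit 11778385731) (nat_lit 312) (nat_lit 5) (nat_lit 311) (nat_lit 5) (nat_lit 328) (nat_lit 5) (nat_lit 455) (nat_lit 450) (nat_lit 295)) (XT.lf (nat_lit 0) (nat_lit 8346835996) (nat_lit 1216) (nat_lit 6615121598) (nat_lit 1292) (nat_lit 4635300978) (nat_lit 312) (nat_lit 5) (nat_lit 328) (nat_lit 5) (nat_lit 329) (nat_lit 5) (nat_lit 456) (nat_lit 450) (nat_lit 294))))) (XT.nd (nat_lit 312) (nat_lit 0) (nat_lit 152) (XT.nd (nat_lit 156) (nat_lit 0) (nat_lit 76) (XT.nd (nat_lit 78) (nat_lit 0) (nat_lit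 76) (XT.lf (nat_lit 76) (nat_lit 3467194210) (nat_lit 0) (nat_lit 5794213945) (nat_lit 1292) (nat_lit 10632443137) (nat_lit 313) (nat_lit 5) (nat_lit 312) (nat_lit 5) (nat_lit 329) (nat_lit 5) (nat_lit 457) (nat_lit 450) (nat_lit 293)) (XT.lf (nat_lit 0) (nat_lit 10299193541) (nat_lit 1216) (nat_lit 6250175978) (nat_lit 1292) (nat_lit 3647099613) (nat_lit 313) (nat_lit 5) (nat_lit 329) (nat_lit 5) (nat_lit 330) (nat_lit 5) (nat_lit 458) (nat_lit 450) (nat_lit 292))) (XT.nd (nat_lit 78) (nat_lit 0) (nat_lit 76) (XT.lf (nat_lit 76) (nat_lit 4252664859) (nat_lit 0) (nat_lit 7207134824) (nat_lit 1292) (nat_lit 9045615809) (nat_lit 314) (nat_lit 5) (nat_lit 313) (nat_lit 5) (nat_lit 330) (nat_lit 5) (nat_lit 459) (nat_lit 450) (nat_lit 291)) (XT.lf (nat_lit 0) (nat_lit 12735787025) (nat_lit 1216) (nat_lit 5651584014) (nat_lit 1292) (nat_lit 2433842900) (nat_lit 314) (nat_lit 5) (nat_lit 330) (nat_lit 5) (nat_lit 331)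 (nat_lit 5) (nat_lit 460) (nat_lit 450) (nat_lit 290)))) (XT.nd (nat_lit 156) (nat_lit 0) (nat_lit 76) (XT.nd (nat_lit 78) (nat_lit 0) (nat_lit 76) (XT.lf (nat_lit 76) (nat_lit 5295004118) (nat_lit 0) (nat_lit 8871098314) (nat_lit 1292) (nat_lit 6976903021) (nat_lit 315) (nat_lit 5) (nat_lit 314) (nat_lit 5) (nat_lit 331) (nat_lit 5) (nat_lit 461) (nat_lit 450) (nat_lit 289)) (XT.lf (nat_lit 0) (nat_lit 15699852205) (nat_lit 1216) (nat_lit 4801140788) (nat_lit 1292) (nat_lit 971642525) (nat_lit 315) (nat_lit 5) (nat_lit 331) (nat_lit 5) (nat_lit 332) (nat_lit 5) (nat_lit 462) (nat_lit 450) (nat_lit 288))) (XT.nd (nat_lit 78) (nat_lit 0) (nat_lit 0) (XT.lf (nat_lit 76) (nat_lit 6613756122) (nat_lit 0) (nat_lit 10811386707) (nat_lit 1292) (nat_lit 4382646339) (nat_lit 316) (nat_lit 5) (nat_lit 315) (nat_lit 5) (nat_lit 332) (nat_lit 5) (nat_lit 463) (nat_lit 450) (nat_lit 287)) (XT.lf (nat_lit 76) (nat_lit 18464968667)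 (nat_lit 0) (nat_lit 779953364) (nat_lit 1292) (nat_lit 2906794021) (nat_lit 316) (nat_lit 5) (nat_lit 315) (nat_lit 5) (nat_lit 332) (nat_lit 5) (nat_lit 464) (nat_lit 450) (nat_lit 286)))))) (XT.nd (nat_lit 624) (nat_lit 2280) (nat_lit 0) (XT.nd (nat_lit 312) (nat_lit 1976) (nat_lit 0) (XT.nd (nat_lit 156) (nat_lit 0) (nat_lit 76) (XT.nd (nat_lit 78) (nat_lit 1292) (nat_lit 0) (XT.lf (nat_lit 76) (nat_lit 8229932032) (nat_lit 0) (nat_lit 13054723965) (nat_lit 1292) (nat_lit 1216344410) (nat_lit 317) (nat_lit 5) (nat_lit 316) (nat_lit 5) (nat_lit 333) (nat_lit 5) (nat_lit 465) (nat_lit 450) (nat_lit 285)) (XT.lf (nat_lit 0) (nat_lit 554388024) (nat_lit 1292) (nat_lit 2297757429) (nat_lit 1368) (nat_lit 20007272654) (nat_lit 299) (nat_lit 5) (nat_lit 316) (nat_lit 5) (nat_lit 317) (nat_lit 5) (nat_lit 466) (nat_lit 450) (nat_lit 284))) (XT.nd (nat_lit 78) (nat_lit 0) (nat_lit 0) (XT.lf (nat_lit 0) (nat_lit 2521362336)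 (nat_lit 1292) (nat_lit 13082574757) (nat_lit 76) (nat_lit 7619263401) (nat_lit 300) (nat_lit 5) (nat_lit 317) (nat_lit 5) (nat_lit 301) (nat_lit 5) (nat_lit 467) (nat_lit 450) (nat_lit 283)) (XT.lf (nat_lit 0) (nat_lit 4593788558) (nat_lit 1292) (nat_lit 631053277) (nat_lit 76) (nat_lit 18371661685) (nat_lit 300) (nat_lit 5) (nat_lit 317) (nat_lit 5) (nat_lit 301) (nat_lit 5) (nat_lit 468) (nat_lit 450) (nat_lit 282)))) (XT.nd (nat_lit 156) (nat_lit 608) (nat_lit 0) (XT.nd (nat_lit 78) (nat_lit 608) (nat_lit 0) (XT.lf (nat_lit 0) (nat_lit 6896543433) (nat_lit 912) (nat_lit 11599203029) (nat_lit 76) (nat_lit 5480214935) (nat_lit 289) (nat_lit 5) (nat_lit 301) (nat_lit 5) (nat_lit 290) (nat_lit 5) (nat_lit 469) (nat_lit 450) (nat_lit 281)) (XT.lf (nat_lit 0) (nat_lit 1391873503) (nat_lit 608) (nat_lit 7943086710) (nat_lit 684) (nat_lit 15029845840) (nat_lit 281) (nat_lit 5) (nat_lit 289) (nat_lit 5) (nat_lit 290)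 (nat_lit 5) (nat_lit 470) (nat_lit 450) (nat_lit 280))) (XT.nd (nat_lit 78) (nat_lit 608) (nat_lit 0) (XT.lf (nat_lit 0) (nat_lit 11988082961) (nat_lit 684) (nat_lit 9785360358) (nat_lit 76) (nat_lit 2987626537) (nat_lit 281) (nat_lit 5) (nat_lit 290) (nat_lit 5) (nat_lit 282) (nat_lit 5) (nat_lit 471) (nat_lit 450) (nat_lit 279)) (XT.lf (nat_lit 0) (nat_lit 3788535025) (nat_lit 608) (nat_lit 11042604747) (nat_lit 684) (nat_lit 10334771989) (nat_lit 273) (nat_lit 5) (nat_lit 281) (nat_lit 5) (nat_lit 282) (nat_lit 5) (nat_lit 472) (nat_lit 450) (nat_lit 278))))) (XT.nd (nat_lit 312) (nat_lit 1064) (nat_lit 0) (XT.nd (nat_lit 156) (nat_lit 684) (nat_lit 0) (XT.nd (nat_lit 78) (nat_lit 532) (nat_lit 0) (XT.lf (nat_lit 0) (nat_lit 17854750164) (nat_lit 684) (nat_lit 7615455555) (nat_lit 76) (nat_lit 109835734) (nat_lit 273) (nat_lit 5) (nat_lit 282) (nat_lit 5) (nat_lit 274) (nat_lit 5) (nat_lit 473) (nat_lit 450)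 (nat_lit 277)) (XT.lf (nat_lit 0) (nat_lit 6573721325) (nat_lit 532) (nat_lit 14563378587) (nat_lit 608) (nat_lit 4864454568) (nat_lit 266) (nat_lit 5) (nat_lit 273) (nat_lit 5) (nat_lit 274) (nat_lit 5) (nat_lit 474) (nat_lit 450) (nat_lit 276))) (XT.nd (nat_lit 78) (nat_lit 684) (nat_lit 0) (XT.lf (nat_lit 0) (nat_lit 21340181257) (nat_lit 532) (nat_lit 3250235328) (nat_lit 608) (nat_lit 1843121784) (nat_lit 266) (nat_lit 5) (nat_lit 273) (nat_lit 5) (nat_lit 274) (nat_lit 5) (nat_lit 475) (nat_lit 450) (nat_lit 275)) (XT.lf (nat_lit 0) (nat_lit 1416248610) (nat_lit 684) (nat_lit 17110587988) (nat_lit 76) (nat_lit 8346114887) (nat_lit 257) (nat_lit 5) (nat_lit 266) (nat_lit 5) (nat_lit 258) (nat_lit 5) (nat_lit 476) (nat_lit 450) (nat_lit 274)))) (XT.nd (nat_lit 156) (nat_lit 532) (nat_lit 0) (XT.nd (nat_lit 78) (nat_lit 532) (nat_lit 0) (XT.lf (nat_lit 0) (nat_lit 4816240442) (nat_lit 684) (nat_lit 2211316790)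 (nat_lit 76) (nat_lit 20295046078) (nat_lit 257) (nat_lit 5) (nat_lit 266) (nat_lit 5) (nat_lit 258) (nat_lit 5) (nat_lit 477) (nat_lit 450) (nat_lit 273)) (XT.lf (nat_lit 0) (nat_lit 8490421459) (nat_lit 608) (nat_lit 14437730201) (nat_lit 76) (nat_lit 4852427669) (nat_lit 250) (nat_lit 5) (nat_lit 258) (nat_lit 5) (nat_lit 251) (nat_lit 5) (nat_lit 478) (nat_lit 450) (nat_lit 272))) (XT.nd (nat_lit 78) (nat_lit 0) (nat_lit 0) (XT.lf (nat_lit 0) (nat_lit 1104617651) (nat_lit 532) (nat_lit 11268920044) (nat_lit 608) (nat_lit 15875795955) (nat_lit 243) (nat_lit 5) (nat_lit 250) (nat_lit 5) (nat_lit 251) (nat_lit 5) (nat_lit 479) (nat_lit 450) (nat_lit 271)) (XT.lf (nat_lit 0) (nat_lit 16523529001) (nat_lit 608) (nat_lit 11331691659) (nat_lit 76) (nat_lit 872418798) (nat_lit 243) (nat_lit 5) (nat_lit 251) (nat_lit 5) (nat_lit 244) (nat_lit 5) (nat_lit 480) (nat_lit 450) (nat_lit 270))))))))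
noncomputable def xc198 : XT := (XT.nd (nat_lit 2418) (nat_lit 4180) (nat_lit 0) (XT.nd (nat_lit 1170) (nat_lit 2964) (nat_lit 0) (XT.nd (nat_lit 546) (nat_lit 2052) (nat_lit 0) (XT.nd (nat_lit 234) (nat_lit 912) (nat_lit 0) (XT.nd (nat_lit 78) (nat_lit 532) (nat_lit 0) (XT.lf (nat_lit 0) (nat_lit 4936050238) (nat_lit 456) (nat_lit 16017138347) (nat_lit 532) (nat_lit 8262451096) (nat_lit 237) (nat_lit 5) (nat_lit 243) (nat_lit 5) (nat_lit 244) (nat_lit 5) (nat_lit 481) (nat_lit 450) (nat_lit 269)) (XT.nd (nat_lit 78) (nat_lit 532) (nat_lit 0) (XT.lf (nat_lit 0) (nat_lit 21919736470) (nat_lit 456) (nat_lit 3706646254) (nat_lit 532) (nat_lit 4088578132) (nat_lit 237) (nat_lit 5) (nat_lit 243) (nat_lit 5) (nat_lit 244) (nat_lit 5) (nat_lit 482) (nat_lit 450) (nat_lit 268)) (XT.lf (nat_lit 0) (nat_lit 379827890) (nat_lit 532) (nat_lit 20953802078) (nat_lit 76) (nat_lit 8890368521) (nat_lit 230) (nat_lit 5) (nat_lit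 237) (nat_lit 5) (nat_lit 231) (nat_lit 5) (nat_lit 483) (nat_lit 450) (nat_lit 267)))) (XT.nd (nat_lit 156) (nat_lit 456) (nat_lit 0) (XT.nd (nat_lit 78) (nat_lit 456) (nat_lit 0) (XT.lf (nat_lit 0) (nat_lit 5012656253) (nat_lit 532) (nat_lit 3820915423) (nat_lit 76) (nat_lit 21910145014) (nat_lit 230) (nat_lit 5) (nat_lit 237) (nat_lit 5) (nat_lit 231) (nat_lit 5) (nat_lit 484) (nat_lit 450) (nat_lit 266)) (XT.lf (nat_lit 0) (nat_lit 9956617876) (nat_lit 532) (nat_lit 17218471473) (nat_lit 76) (nat_lit 4098772890) (nat_lit 224) (nat_lit 5) (nat_lit 231) (nat_lit 5) (nat_lit 225) (nat_lit 5) (nat_lit 485) (nat_lit 450) (nat_lit 265))) (XT.nd (nat_lit 78) (nat_lit 0) (nat_lit 0) (XT.lf (nat_lit 0) (nat_lit 648046821) (nat_lit 456) (nat_lit 14530020914) (nat_lit 532) (nat_lit 16637969587) (nat_lit 218) (nat_lit 5) (nat_lit 224) (nat_lit 5) (nat_lit 225) (nat_lit 5) (nat_lit 486) (nat_lit 450) (nat_lit 264)) (XT.lf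 (nat_lit 0) (nat_lit 19399252422) (nat_lit 456) (nat_lit 1327355070) (nat_lit 532) (nat_lit 11642757014) (nat_lit 218) (nat_lit 5) (nat_lit 224) (nat_lit 5) (nat_lit 225) (nat_lit 5) (nat_lit 487) (nat_lit 450) (nat_lit 263))))) (XT.nd (nat_lit 312) (nat_lit 1140) (nat_lit 0) (XT.nd (nat_lit 156) (nat_lit 532) (nat_lit 0) (XT.nd (nat_lit 78) (nat_lit 0) (nat_lit 0) (XT.lf (nat_lit 0) (nat_lit 5763980781) (nat_lit 380) (nat_lit 20847655212) (nat_lit 456) (nat_lit 6322554771) (nat_lit 213) (nat_lit 5) (nat_lit 218) (nat_lit 5) (nat_lit 219) (nat_lit 5) (nat_lit 488) (nat_lit 450) (nat_lit 262)) (XT.lf (nat_lit 0) (nat_lit 25308371065) (nat_lit 380) (nat_lit 7505552580) (nat_lit 456) (nat_lit 697817143) (nat_lit 213) (nat_lit 5) (nat_lit 218) (nat_lit 5) (nat_lit 219) (nat_lit 5) (nat_lit 489) (nat_lit 450) (nat_lit 261))) (XT.nd (nat_lit 78) (nat_lit 0) (nat_lit 0) (XT.lf (nat_lit 0) (nat_lit 5165118871) (nat_lit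 532) (nat_lit 22659613862) (nat_lit 76) (nat_lit 6275348585) (nat_lit 206) (nat_lit 5) (nat_lit 213) (nat_lit 5) (nat_lit 207) (nat_lit 5) (nat_lit 490) (nat_lit 450) (nat_lit 260)) (XT.lf (nat_lit 0) (nat_lit 11344719320) (nat_lit 532) (nat_lit 2948031433) (nat_lit 76) (nat_lit 20408470192) (nat_lit 206) (nat_lit 5) (nat_lit 213) (nat_lit 5) (nat_lit 207) (nat_lit 5) (nat_lit 491) (nat_lit 450) (nat_lit 259)))) (XT.nd (nat_lit 156) (nat_lit 380) (nat_lit 0) (XT.nd (nat_lit 78) (nat_lit 380) (nat_lit 0) (XT.lf (nat_lit 0) (nat_lit 17696152354) (nat_lit 380) (nat_lit 180585221) (nat_lit 456) (nat_lit 17438646494) (nat_lit 201) (nat_lit 5) (nat_lit 206) (nat_lit 5) (nat_lit 207) (nat_lit 5) (nat_lit 492) (nat_lit 450) (nat_lit 258)) (XT.lf (nat_lit 0) (nat_lit 2988953036) (nat_lit 380) (nat_lit 21809512504) (nat_lit 456) (nat_lit 11143694268) (nat_lit 196) (nat_lit 5) (nat_lit 201) (nat_lit 5) (nat_lit 202) (nat_lit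 5) (nat_lit 493) (nat_lit 450) (nat_lit 257))) (XT.nd (nat_lit 78) (nat_lit 380) (nat_lit 0) (XT.lf (nat_lit 0) (nat_lit 24570673634) (nat_lit 380) (nat_lit 7533876106) (nat_lit 456) (nat_lit 4477888138) (nat_lit 196) (nat_lit 5) (nat_lit 201) (nat_lit 5) (nat_lit 202) (nat_lit 5) (nat_lit 494) (nat_lit 450) (nat_lit 256)) (XT.lf (nat_lit 0) (nat_lit 2501873760) (nat_lit 380) (nat_lit 27587935909) (nat_lit 76) (nat_lit 7146608845) (nat_lit 191) (nat_lit 5) (nat_lit 196) (nat_lit 5) (nat_lit 192) (nat_lit 5) (nat_lit 495) (nat_lit 450) (nat_lit 255)))))) (XT.nd (nat_lit 624) (nat_lit 1292) (nat_lit 0) (XT.nd (nat_lit 312) (nat_lit 988) (nat_lit 0) (XT.nd (nat_lit 156) (nat_lit 304) (nat_lit 0) (XT.nd (nat_lit 78) (nat_lit 380) (nat_lit 0) (XT.lf (nat_lit 0) (nat_lit 9795225535) (nat_lit 380) (nat_lit 5825782906) (nat_lit 76) (nat_lit 22281854292) (nat_lit 191) (nat_lit 5) (nat_lit 196) (nat_lit 5) (nat_lit 192)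 (nat_lit 5) (nat_lit 496) (nat_lit 450) (nat_lit 254)) (XT.lf (nat_lit 0) (nat_lit 16915392449) (nat_lit 380) (nat_lit 551779809) (nat_lit 456) (nat_lit 21117334358) (nat_lit 186) (nat_lit 5) (nat_lit 191) (nat_lit 5) (nat_lit 192) (nat_lit 5) (nat_lit 497) (nat_lit 450) (nat_lit 253))) (XT.nd (nat_lit 78) (nat_lit 0) (nat_lit 0) (XT.lf (nat_lit 0) (nat_lit 1045354621) (nat_lit 304) (nat_lit 24534505964) (nat_lit 380) (nat_lit 13700421898) (nat_lit 182) (nat_lit 5) (nat_lit 186) (nat_lit 5) (nat_lit 187) (nat_lit 5) (nat_lit 498) (nat_lit 450) (nat_lit 252)) (XT.lf (nat_lit 0) (nat_lit 24875963699) (nat_lit 304) (nat_lit 9281461072) (nat_lit 380) (nat_lit 5832862160) (nat_lit 182) (nat_lit 5) (nat_lit 186) (nat_lit 5) (nat_lit 187) (nat_lit 5) (nat_lit 499) (nat_lit 450) (nat_lit 251)))) (XT.nd (nat_lit 156) (nat_lit 608) (nat_lit 0) (XT.nd (nat_lit 78) (nat_lit 0) (nat_lit 0) (XT.lf (nat_lit 0) (nat_lit 2371626772)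 (nat_lit 380) (nat_lit 31934464797) (nat_lit 76) (nat_lit 6410488893) (nat_lit 177) (nat_lit 5) (nat_lit 182) (nat_lit 5) (nat_lit 178) (nat_lit 5) (nat_lit 500) (nat_lit 450) (nat_lit 250)) (XT.lf (nat_lit 0) (nat_lit 10948400477) (nat_lit 380) (nat_lit 7909852239) (nat_lit 76) (nat_lit 22597376148) (nat_lit 177) (nat_lit 5) (nat_lit 182) (nat_lit 5) (nat_lit 178) (nat_lit 5) (nat_lit 501) (nat_lit 450) (nat_lit 249))) (XT.nd (nat_lit 78) (nat_lit 304) (nat_lit 0) (XT.lf (nat_lit 0) (nat_lit 17166709407) (nat_lit 304) (nat_lit 2778215032) (nat_lit 380) (nat_lit 22267051010) (nat_lit 173) (nat_lit 5) (nat_lit 177) (nat_lit 5) (nat_lit 178) (nat_lit 5) (nat_lit 502) (nat_lit 450) (nat_lit 248)) (XT.lf (nat_lit 0) (nat_lit 32638480) (nat_lit 304) (nat_lit 29389644080) (nat_lit 380) (nat_lit 13562401857) (nat_lit 169) (nat_lit 5) (nat_lit 173) (nat_lit 5) (nat_lit 174) (nat_lit 5) (nat_lit 503) (nat_lit 450) (nat_lit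 247))))) (XT.nd (nat_lit 312) (nat_lit 608) (nat_lit 0) (XT.nd (nat_lit 156) (nat_lit 304) (nat_lit 0) (XT.nd (nat_lit 78) (nat_lit 380) (nat_lit 0) (XT.lf (nat_lit 0) (nat_lit 26344465181) (nat_lit 304) (nat_lit 13117137072) (nat_lit 380) (nat_lit 4310643307) (nat_lit 169) (nat_lit 5) (nat_lit 173) (nat_lit 5) (nat_lit 174) (nat_lit 5) (nat_lit 504) (nat_lit 450) (nat_lit 246)) (XT.lf (nat_lit 0) (nat_lit 5237097099) (nat_lit 380) (nat_lit 35632127155) (nat_lit 76) (nat_lit 3709096537) (nat_lit 164) (nat_lit 5) (nat_lit 169) (nat_lit 5) (nat_lit 165) (nat_lit 5) (nat_lit 505) (nat_lit 450) (nat_lit 245))) (XT.nd (nat_lit 78) (nat_lit 304) (nat_lit 0) (XT.lf (nat_lit 0) (nat_lit 15289799941) (nat_lit 380) (nat_lit 9112681745) (nat_lit 76) (nat_lit 20995661229) (nat_lit 164) (nat_lit 5) (nat_lit 169) (nat_lit 5) (nat_lit 165) (nat_lit 5) (nat_lit 506) (nat_lit 450) (nat_lit 244)) (XT.lf (nat_lit 0) (nat_lit 18560918343)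 (nat_lit 304) (nat_lit 7259223639) (nat_lit 380) (nat_lit 20417136095) (nat_lit 160) (nat_lit 5) (nat_lit 164) (nat_lit 5) (nat_lit 165) (nat_lit 5) (nat_lit 507) (nat_lit 450) (nat_lit 243)))) (XT.nd (nat_lit 156) (nat_lit 304) (nat_lit 0) (XT.nd (nat_lit 78) (nat_lit 76) (nat_lit 0) (XT.lf (nat_lit 0) (nat_lit 49152307) (nat_lit 228) (nat_lit 36808262342) (nat_lit 304) (nat_lit 10238442150) (nat_lit 157) (nat_lit 5) (nat_lit 160) (nat_lit 5) (nat_lit 161) (nat_lit 5) (nat_lit 508) (nat_lit 450) (nat_lit 242)) (XT.lf (nat_lit 0) (nat_lit 592609356) (nat_lit 304) (nat_lit 18878694339) (nat_lit 76) (nat_lit 28498264781) (nat_lit 156) (nat_lit 5) (nat_lit 160) (nat_lit 5) (nat_lit 157) (nat_lit 5) (nat_lit 509) (nat_lit 450) (nat_lit 241))) (XT.nd (nat_lit 78) (nat_lit 0) (nat_lit 0) (XT.lf (nat_lit 0) (nat_lit 10229045152) (nat_lit 304) (nat_lit 1409832315) (nat_lit 380) (nat_lit 37224690991) (nat_lit 152) (nat_lit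 5) (nat_lit 156) (nat_lit 5) (nat_lit 157) (nat_lit 5) (nat_lit 510) (nat_lit 450) (nat_lit 240)) (XT.lf (nat_lit 0) (nat_lit 23372092722) (nat_lit 380) (nat_lit 9352385152) (nat_lit 76) (nat_lit 17049243896) (nat_lit 152) (nat_lit 5) (nat_lit 157) (nat_lit 5) (nat_lit 153) (nat_lit 5) (nat_lit 511) (nat_lit 450) (nat_lit 239))))))) (XT.nd (nat_lit 1170) (nat_lit 1976) (nat_lit 0) (XT.nd (nat_lit 546) (nat_lit 912) (nat_lit 0) (XT.nd (nat_lit 234) (nat_lit 760) (nat_lit 0) (XT.nd (nat_lit 78) (nat_lit 304) (nat_lit 0) (XT.lf (nat_lit 0) (nat_lit 21204574266) (nat_lit 228) (nat_lit 14468345021) (nat_lit 304) (nat_lit 15031792048) (nat_lit 149) (nat_lit 5) (nat_lit 152) (nat_lit 5) (nat_lit 153) (nat_lit 5) (nat_lit 512) (nat_lit 450) (nat_lit 238)) (XT.nd (nat_lit 78) (nat_lit 76) (nat_lit 0) (XT.lf (nat_lit 0) (nat_lit 1186216997) (nat_lit 228) (nat_lit 47302850162) (nat_lit 304) (nat_lit 3170174628) (nat_lit 146)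 (nat_lit 5) (nat_lit 149) (nat_lit 5) (nat_lit 150) (nat_lit 5) (nat_lit 513) (nat_lit 450) (nat_lit 237)) (XT.lf (nat_lit 0) (nat_lit 9312691396) (nat_lit 304) (nat_lit 19472242924) (nat_lit 76) (nat_lit 23841606521) (nat_lit 145) (nat_lit 5) (nat_lit 149) (nat_lit 5) (nat_lit 146) (nat_lit 5) (nat_lit 514) (nat_lit 450) (nat_lit 236)))) (XT.nd (nat_lit 156) (nat_lit 532) (nat_lit 0) (XT.nd (nat_lit 78) (nat_lit 0) (nat_lit 0) (XT.lf (nat_lit 0) (nat_lit 12671045204) (nat_lit 228) (nat_lit 9554996646) (nat_lit 304) (nat_lit 31392283994) (nat_lit 142) (nat_lit 5) (nat_lit 145) (nat_lit 5) (nat_lit 146) (nat_lit 5) (nat_lit 515) (nat_lit 450) (nat_lit 235)) (XT.lf (nat_lit 0) (nat_lit 35821848126) (nat_lit 304) (nat_lit 8560068583) (nat_lit 76) (nat_lit 10249096114) (nat_lit 142) (nat_lit 5) (nat_lit 146) (nat_lit 5) (nat_lit 143) (nat_lit 5) (nat_lit 516) (nat_lit 450) (nat_lit 234))) (XT.nd (nat_lit 78) (nat_lit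 304) (nat_lit 0) (XT.lf (nat_lit 0) (nat_lit 25192447213) (nat_lit 228) (nat_lit 24967840847) (nat_lit 304) (nat_lit 5503749653) (nat_lit 139) (nat_lit 5) (nat_lit 142) (nat_lit 5) (nat_lit 143) (nat_lit 5) (nat_lit 517) (nat_lit 450) (nat_lit 233)) (XT.lf (nat_lit 0) (nat_lit 3390717632) (nat_lit 228) (nat_lit 4767969627) (nat_lit 304) (nat_lit 48563464612) (nat_lit 135) (nat_lit 5) (nat_lit 138) (nat_lit 5) (nat_lit 139) (nat_lit 5) (nat_lit 518) (nat_lit 450) (nat_lit 232))))) (XT.nd (nat_lit 312) (nat_lit 456) (nat_lit 0) (XT.nd (nat_lit 156) (nat_lit 228) (nat_lit 0) (XT.nd (nat_lit 78) (nat_lit 228) (nat_lit 0) (XT.lf (nat_lit 0) (nat_lit 22583305301) (nat_lit 304) (nat_lit 19124276794) (nat_lit 76) (nat_lit 16088904821) (nat_lit 135) (nat_lit 5) (nat_lit 139) (nat_lit 5) (nat_lit 136) (nat_lit 5) (nat_lit 519) (nat_lit 450) (nat_lit 231)) (XT.lf (nat_lit 0) (nat_lit 16378257466) (nat_lit 228) (nat_lit 21265119743)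 (nat_lit 304) (nat_lit 21253593418) (nat_lit 132) (nat_lit 5) (nat_lit 135) (nat_lit 5) (nat_lit 136) (nat_lit 5) (nat_lit 520) (nat_lit 450) (nat_lit 230))) (XT.nd (nat_lit 78) (nat_lit 228) (nat_lit 0) (XT.lf (nat_lit 0) (nat_lit 53334699254) (nat_lit 228) (nat_lit 11765074) (nat_lit 304) (nat_lit 6678268200) (nat_lit 132) (nat_lit 5) (nat_lit 135) (nat_lit 5) (nat_lit 136) (nat_lit 5) (nat_lit 521) (nat_lit 450) (nat_lit 229)) (XT.lf (nat_lit 0) (nat_lit 8679233133) (nat_lit 228) (nat_lit 30659237936) (nat_lit 76) (nat_lit 21830226381) (nat_lit 129) (nat_lit 5) (nat_lit 132) (nat_lit 5) (nat_lit 130) (nat_lit 5) (nat_lit 522) (nat_lit 450) (nat_lit 228)))) (XT.nd (nat_lit 156) (nat_lit 228) (nat_lit 0) (XT.nd (nat_lit 78) (nat_lit 0) (nat_lit 0) (XT.lf (nat_lit 0) (nat_lit 6677360193) (nat_lit 228) (nat_lit 17816545946) (nat_lit 304) (nat_lit 37847171407) (nat_lit 126) (nat_lit 5) (nat_lit 129) (nat_lit 5) (nat_lit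 130) (nat_lit 5) (nat_lit 523) (nat_lit 450) (nat_lit 227)) (XT.lf (nat_lit 0) (nat_lit 41135664040) (nat_lit 304) (nat_lit 17824856237) (nat_lit 76) (nat_lit 4577529489) (nat_lit 126) (nat_lit 5) (nat_lit 130) (nat_lit 5) (nat_lit 127) (nat_lit 5) (nat_lit 524) (nat_lit 450) (nat_lit 226))) (XT.nd (nat_lit 78) (nat_lit 76) (nat_lit 0) (XT.lf (nat_lit 0) (nat_lit 21387033966) (nat_lit 152) (nat_lit 37269837469) (nat_lit 228) (nat_lit 6102653879) (nat_lit 124) (nat_lit 5) (nat_lit 126) (nat_lit 5) (nat_lit 127) (nat_lit 5) (nat_lit 525) (nat_lit 450) (nat_lit 225)) (XT.lf (nat_lit 0) (nat_lit 10657539832) (nat_lit 228) (nat_lit 3979154283) (nat_lit 76) (nat_lit 51372469631) (nat_lit 123) (nat_lit 5) (nat_lit 126) (nat_lit 5) (nat_lit 124) (nat_lit 5) (nat_lit 526) (nat_lit 450) (nat_lit 224)))))) (XT.nd (nat_lit 624) (nat_lit 912) (nat_lit 0) (XT.nd (nat_lit 312) (nat_lit 380) (nat_lit 0) (XT.nd (nat_lit 156) (nat_lit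 304) (nat_lit 0) (XT.nd (nat_lit 78) (nat_lit 152) (nat_lit 0) (XT.lf (nat_lit 0) (nat_lit 28241837880) (nat_lit 304) (nat_lit 30111670573) (nat_lit 76) (nat_lit 8927651590) (nat_lit 120) (nat_lit 5) (nat_lit 124) (nat_lit 5) (nat_lit 121) (nat_lit 5) (nat_lit 527) (nat_lit 450) (nat_lit 223)) (XT.lf (nat_lit 0) (nat_lit 11112582225) (nat_lit 152) (nat_lit 35531678209) (nat_lit 228) (nat_lit 21938337983) (nat_lit 118) (nat_lit 5) (nat_lit 120) (nat_lit 5) (nat_lit 121) (nat_lit 5) (nat_lit 528) (nat_lit 450) (nat_lit 222))) (XT.nd (nat_lit 78) (nat_lit 304) (nat_lit 0) (XT.lf (nat_lit 0) (nat_lit 54187852540) (nat_lit 152) (nat_lit 11713270951) (nat_lit 228) (nat_lit 4012885469) (nat_lit 118) (nat_lit 5) (nat_lit 120) (nat_lit 5) (nat_lit 121) (nat_lit 5) (nat_lit 529) (nat_lit 450) (nat_lit 221)) (XT.lf (nat_lit 0) (nat_lit 14559874756) (nat_lit 304) (nat_lit 43732391641) (nat_lit 76) (nat_lit 12977182648) (nat_lit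 114) (nat_lit 5) (nat_lit 118) (nat_lit 5) (nat_lit 115) (nat_lit 5) (nat_lit 530) (nat_lit 450) (nat_lit 220)))) (XT.nd (nat_lit 156) (nat_lit 228) (nat_lit 0) (XT.nd (nat_lit 78) (nat_lit 152) (nat_lit 0) (XT.lf (nat_lit 0) (nat_lit 33883852425) (nat_lit 304) (nat_lit 400452103) (nat_lit 76) (nat_lit 38371815215) (nat_lit 114) (nat_lit 5) (nat_lit 118) (nat_lit 5) (nat_lit 115) (nat_lit 5) (nat_lit 531) (nat_lit 450) (nat_lit 219)) (XT.lf (nat_lit 0) (nat_lit 45108841320) (nat_lit 152) (nat_lit 9110711228) (nat_lit 228) (nat_lit 19851877969) (nat_lit 112) (nat_lit 5) (nat_lit 114) (nat_lit 5) (nat_lit 115) (nat_lit 5) (nat_lit 532) (nat_lit 450) (nat_lit 218))) (XT.nd (nat_lit 78) (nat_lit 76) (nat_lit 0) (XT.lf (nat_lit 0) (nat_lit 16622350801) (nat_lit 152) (nat_lit 58866904147) (nat_lit 228) (nat_lit 30227774) (nat_lit 110) (nat_lit 5) (nat_lit 112) (nat_lit 5) (nat_lit 113) (nat_lit 5) (nat_lit 533) (nat_lit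 450) (nat_lit 217)) (XT.lf (nat_lit 0) (nat_lit 20372233682) (nat_lit 228) (nat_lit 13125575384) (nat_lit 76) (nat_lit 43495769546) (nat_lit 109) (nat_lit 5) (nat_lit 112) (nat_lit 5) (nat_lit 110) (nat_lit 5) (nat_lit 534) (nat_lit 450) (nat_lit 216))))) (XT.nd (nat_lit 312) (nat_lit 380) (nat_lit 0) (XT.nd (nat_lit 156) (nat_lit 228) (nat_lit 0) (XT.nd (nat_lit 78) (nat_lit 152) (nat_lit 0) (XT.lf (nat_lit 0) (nat_lit 34693045538) (nat_lit 152) (nat_lit 7025054563) (nat_lit 228) (nat_lit 36783830180) (nat_lit 107) (nat_lit 5) (nat_lit 109) (nat_lit 5) (nat_lit 110) (nat_lit 5) (nat_lit 535) (nat_lit 450) (nat_lit 215)) (XT.lf (nat_lit 0) (nat_lit 4043976607) (nat_lit 152) (nat_lit 60026126436) (nat_lit 228) (nat_lit 15974456683) (nat_lit 105) (nat_lit 5) (nat_lit 107) (nat_lit 5) (nat_lit 108) (nat_lit 5) (nat_lit 536) (nat_lit 450) (nat_lit 214))) (XT.nd (nat_lit 78) (nat_lit 152) (nat_lit 0) (XT.lf (nat_lit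 0) (nat_lit 5867446807) (nat_lit 228) (nat_lit 27518925805) (nat_lit 76) (nat_lit 48230077844) (nat_lit 104) (nat_lit 5) (nat_lit 107) (nat_lit 5) (nat_lit 105) (nat_lit 5) (nat_lit 537) (nat_lit 450) (nat_lit 213)) (XT.lf (nat_lit 0) (nat_lit 22699263588) (nat_lit 152) (nat_lit 5560975689) (nat_lit 228) (nat_lit 54964012699) (nat_lit 102) (nat_lit 5) (nat_lit 104) (nat_lit 5) (nat_lit 105) (nat_lit 5) (nat_lit 538) (nat_lit 450) (nat_lit 212)))) (XT.nd (nat_lit 156) (nat_lit 228) (nat_lit 0) (XT.nd (nat_lit 78) (nat_lit 152) (nat_lit 0) (XT.lf (nat_lit 0) (nat_lit 51826007406) (nat_lit 228) (nat_lit 10111341656) (nat_lit 76) (nat_lit 22927902763) (nat_lit 102) (nat_lit 5) (nat_lit 105) (nat_lit 5) (nat_lit 103) (nat_lit 5) (nat_lit 539) (nat_lit 450) (nat_lit 211)) (XT.lf (nat_lit 0) (nat_lit 42588075309) (nat_lit 152) (nat_lit 33973668322) (nat_lit 228) (nat_lit 9979848220) (nat_lit 100) (nat_lit 5) (nat_lit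 102) (nat_lit 5) (nat_lit 103) (nat_lit 5) (nat_lit 540) (nat_lit 450) (nat_lit 210))) (XT.nd (nat_lit 78) (nat_lit 0) (nat_lit 0) (XT.lf (nat_lit 0) (nat_lit 8847210224) (nat_lit 152) (nat_lit 4842108054) (nat_lit 228) (nat_lit 74569330980) (nat_lit 97) (nat_lit 5) (nat_lit 99) (nat_lit 5) (nat_lit 100) (nat_lit 5) (nat_lit 541) (nat_lit 450) (nat_lit 209)) (XT.lf (nat_lit 0) (nat_lit 38556661430) (nat_lit 228) (nat_lit 26228666630) (nat_lit 76) (nat_lit 25218265447) (nat_lit 97) (nat_lit 5) (nat_lit 100) (nat_lit 5) (nat_lit 98) (nat_lit 5) (nat_lit 542) (nat_lit 450) (nat_lit 208))))))))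
noncomputable def xc199 : XT := (XT.nd (nat_lit 57330) (nat_lit 0) (nat_lit 5320) (XT.nd (nat_lit 56082) (nat_lit 0) (nat_lit 13376) (XT.nd (nat_lit 55458) (nat_lit 0) (nat_lit 16720) (XT.nd (nat_lit 234) (nat_lit 152) (nat_lit 0) (XT.nd (nat_lit 78) (nat_lit 228) (nat_lit 0) (XT.lf (nat_lit 0) (nat_lit 29066276284) (nat_lit 152) (nat_lit 35429696878) (nat_lit 228) (nat_lit 27295134504) (nat_lit 95) (nat_lit 5) (nat_lit 97) (nat_lit 5) (nat_lit 98) (nat_lit 5) (nat_lit 543) (nat_lit 450) (nat_lit 207)) (XT.nd (nat_lit 78) (nat_lit 228) (nat_lit 0) (XT.lf (nat_lit 0) (nat_lit 86555195784) (nat_lit 152) (nat_lit 4921746673) (nat_lit 228) (nat_lit 2147400477) (nat_lit 95) (nat_lit 5) (nat_lit 97) (nat_lit 5) (nat_lit 98) (nat_lit 5) (nat_lit 544) (nat_lit 450) (nat_lit 206)) (XT.lf (nat_lit 0) (nat_lit 24042170302) (nat_lit 228) (nat_lit 44731927567) (nat_lit 76) (nat_lit 26709098686) (nat_lit 92) (nat_lit 5) (nat_lit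 95) (nat_lit 5) (nat_lit 93) (nat_lit 5) (nat_lit 545) (nat_lit 450) (nat_lit 205)))) (XT.nd (nat_lit 55068) (nat_lit 0) (nat_lit 16644) (XT.nd (nat_lit 78) (nat_lit 0) (nat_lit 0) (XT.lf (nat_lit 0) (nat_lit 13240717949) (nat_lit 152) (nat_lit 37980300905) (nat_lit 228) (nat_lit 46168756578) (nat_lit 90) (nat_lit 5) (nat_lit 92) (nat_lit 5) (nat_lit 93) (nat_lit 5) (nat_lit 546) (nat_lit 450) (nat_lit 204)) (XT.lf (nat_lit 0) (nat_lit 73867036157) (nat_lit 152) (nat_lit 5798568938) (nat_lit 228) (nat_lit 19674435443) (nat_lit 90) (nat_lit 5) (nat_lit 92) (nat_lit 5) (nat_lit 93) (nat_lit 5) (nat_lit 547) (nat_lit 450) (nat_lit 203))) (XT.nd (nat_lit 78) (nat_lit 0) (nat_lit 0) (XT.lf (nat_lit 0) (nat_lit 2778869208) (nat_lit 1292) (nat_lit 3227651743) (nat_lit 1292) (nat_lit 3227651743) (nat_lit 309) (nat_lit 3) (nat_lit 326) (nat_lit 3) (nat_lit 326) (nat_lit 5) (nat_lit 451) (nat_lit 451) (nat_lit 298)) (XT.lf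 (nat_lit 76) (nat_lit 2758804844) (nat_lit 0) (nat_lit 3102335997) (nat_lit 1292) (nat_lit 12877610741) (nat_lit 310) (nat_lit 5) (nat_lit 309) (nat_lit 3) (nat_lit 326) (nat_lit 5) (nat_lit 452) (nat_lit 451) (nat_lit 297))))) (XT.nd (nat_lit 312) (nat_lit 0) (nat_lit 152) (XT.nd (nat_lit 156) (nat_lit 0) (nat_lit 76) (XT.nd (nat_lit 78) (nat_lit 0) (nat_lit 0) (XT.lf (nat_lit 0) (nat_lit 6290324176) (nat_lit 1216) (nat_lit 6696929740) (nat_lit 1292) (nat_lit 6026516377) (nat_lit 310) (nat_lit 5) (nat_lit 326) (nat_lit 5) (nat_lit 327) (nat_lit 5) (nat_lit 453) (nat_lit 451) (nat_lit 296)) (XT.lf (nat_lit 76) (nat_lit 2886071938) (nat_lit 0) (nat_lit 3897434295) (nat_lit 1292) (nat_lit 12512000313) (nat_lit 311) (nat_lit 5) (nat_lit 310) (nat_lit 5) (nat_lit 327) (nat_lit 5) (nat_lit 454) (nat_lit 451) (nat_lit 295))) (XT.nd (nat_lit 78) (nat_lit 0) (nat_lit 0) (XT.lf (nat_lit 0) (nat_lit 7405181508) (nat_lit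 1216) (nat_lit 6747337464) (nat_lit 1292) (nat_lit 5429765641) (nat_lit 311) (nat_lit 5) (nat_lit 327) (nat_lit 5) (nat_lit 328) (nat_lit 5) (nat_lit 455) (nat_lit 451) (nat_lit 294)) (XT.lf (nat_lit 76) (nat_lit 3224774443) (nat_lit 0) (nat_lit 4883395914) (nat_lit 1292) (nat_lit 11767616406) (nat_lit 312) (nat_lit 5) (nat_lit 311) (nat_lit 5) (nat_lit 328) (nat_lit 5) (nat_lit 456) (nat_lit 451) (nat_lit 293)))) (XT.nd (nat_lit 156) (nat_lit 0) (nat_lit 76) (XT.nd (nat_lit 78) (nat_lit 0) (nat_lit 0) (XT.lf (nat_lit 0) (nat_lit 8939152969) (nat_lit 1216) (nat_lit 6591566566) (nat_lit 1292) (nat_lit 4644167939) (nat_lit 312) (nat_lit 5) (nat_lit 328) (nat_lit 5) (nat_lit 329) (nat_lit 5) (nat_lit 457) (nat_lit 451) (nat_lit 292)) (XT.lf (nat_lit 76) (nat_lit 3791042161) (nat_lit 0) (nat_lit 6082274693) (nat_lit 1292) (nat_lit 10607297400) (nat_lit 313) (nat_lit 5) (nat_lit 312) (nat_lit 5) (nat_lit 329) (nat_lit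 5) (nat_lit 458) (nat_lit 451) (nat_lit 291))) (XT.nd (nat_lit 78) (nat_lit 0) (nat_lit 0) (XT.lf (nat_lit 0) (nat_lit 10931439603) (nat_lit 1216) (nat_lit 6213426120) (nat_lit 1292) (nat_lit 3647769682) (nat_lit 313) (nat_lit 5) (nat_lit 329) (nat_lit 5) (nat_lit 330) (nat_lit 5) (nat_lit 459) (nat_lit 451) (nat_lit 290)) (XT.lf (nat_lit 76) (nat_lit 4602301362) (nat_lit 0) (nat_lit 7517281473) (nat_lit 1292) (nat_lit 8991486621) (nat_lit 314) (nat_lit 5) (nat_lit 313) (nat_lit 5) (nat_lit 330) (nat_lit 5) (nat_lit 460) (nat_lit 451) (nat_lit 289)))))) (XT.nd (nat_lit 624) (nat_lit 2508) (nat_lit 0) (XT.nd (nat_lit 312) (nat_lit 1140) (nat_lit 0) (XT.nd (nat_lit 156) (nat_lit 0) (nat_lit 76) (XT.nd (nat_lit 78) (nat_lit 0) (nat_lit 0) (XT.lf (nat_lit 0) (nat_lit 13423769591) (nat_lit 1216) (nat_lit 5595434451) (nat_lit 1292) (nat_lit 2417441060) (nat_lit 314) (nat_lit 5) (nat_lit 330) (nat_lit 5) (nat_lit 331)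 (nat_lit 5) (nat_lit 461) (nat_lit 451) (nat_lit 288)) (XT.lf (nat_lit 76) (nat_lit 5677338609) (nat_lit 0) (nat_lit 9212894150) (nat_lit 1292) (nat_lit 6878061268) (nat_lit 315) (nat_lit 5) (nat_lit 314) (nat_lit 5) (nat_lit 331) (nat_lit 5) (nat_lit 462) (nat_lit 451) (nat_lit 287))) (XT.nd (nat_lit 78) (nat_lit 0) (nat_lit 0) (XT.lf (nat_lit 0) (nat_lit 16460575865) (nat_lit 1216) (nat_lit 4718754356) (nat_lit 1292) (nat_lit 928766139) (nat_lit 315) (nat_lit 5) (nat_lit 331) (nat_lit 5) (nat_lit 332) (nat_lit 5) (nat_lit 463) (nat_lit 451) (nat_lit 286)) (XT.lf (nat_lit 76) (nat_lit 7036369651) (nat_lit 0) (nat_lit 11194972030) (nat_lit 1292) (nat_lit 4222152213) (nat_lit 316) (nat_lit 5) (nat_lit 315) (nat_lit 5) (nat_lit 332) (nat_lit 5) (nat_lit 464) (nat_lit 451) (nat_lit 285)))) (XT.nd (nat_lit 156) (nat_lit 1216) (nat_lit 0) (XT.nd (nat_lit 78) (nat_lit 0) (nat_lit 76) (XT.lf (nat_lit 76) (nat_lit 19236588451)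 (nat_lit 0) (nat_lit 860870141) (nat_lit 1292) (nat_lit 2710528409) (nat_lit 316) (nat_lit 5) (nat_lit 315) (nat_lit 5) (nat_lit 332) (nat_lit 5) (nat_lit 465) (nat_lit 451) (nat_lit 284)) (XT.lf (nat_lit 76) (nat_lit 8701113520) (nat_lit 0) (nat_lit 13490875000) (nat_lit 1292) (nat_lit 975953971) (nat_lit 317) (nat_lit 5) (nat_lit 316) (nat_lit 5) (nat_lit 333) (nat_lit 5) (nat_lit 466) (nat_lit 451) (nat_lit 283))) (XT.nd (nat_lit 78) (nat_lit 0) (nat_lit 76) (XT.lf (nat_lit 0) (nat_lit 834590373) (nat_lit 1292) (nat_lit 2143670824) (nat_lit 1368) (nat_lit 20559009575) (nat_lit 299) (nat_lit 5) (nat_lit 316) (nat_lit 5) (nat_lit 317) (nat_lit 5) (nat_lit 467) (nat_lit 451) (nat_lit 282)) (XT.lf (nat_lit 0) (nat_lit 2854662445) (nat_lit 1292) (nat_lit 13246099109) (nat_lit 76) (nat_lit 7811383084) (nat_lit 300) (nat_lit 5) (nat_lit 317) (nat_lit 5) (nat_lit 301) (nat_lit 5) (nat_lit 468) (nat_lit 451) (nat_lit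 281))))) (XT.nd (nat_lit 312) (nat_lit 1140) (nat_lit 0) (XT.nd (nat_lit 156) (nat_lit 608) (nat_lit 0) (XT.nd (nat_lit 78) (nat_lit 836) (nat_lit 0) (XT.lf (nat_lit 0) (nat_lit 4981756815) (nat_lit 1292) (nat_lit 427700516) (nat_lit 76) (nat_lit 18887415207) (nat_lit 300) (nat_lit 5) (nat_lit 317) (nat_lit 5) (nat_lit 301) (nat_lit 5) (nat_lit 469) (nat_lit 451) (nat_lit 280)) (XT.lf (nat_lit 0) (nat_lit 7348184910) (nat_lit 912) (nat_lit 11719464509) (nat_lit 76) (nat_lit 5620227639) (nat_lit 289) (nat_lit 5) (nat_lit 301) (nat_lit 5) (nat_lit 290) (nat_lit 5) (nat_lit 470) (nat_lit 451) (nat_lit 279))) (XT.nd (nat_lit 78) (nat_lit 0) (nat_lit 0) (XT.lf (nat_lit 0) (nat_lit 1659111823) (nat_lit 608) (nat_lit 8195681343) (nat_lit 684) (nat_lit 15233743325) (nat_lit 281) (nat_lit 5) (nat_lit 289) (nat_lit 5) (nat_lit 290) (nat_lit 5) (nat_lit 471) (nat_lit 451) (nat_lit 278)) (XT.lf (nat_lit 0) (nat_lit 12580392117)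 (nat_lit 684) (nat_lit 9852869385) (nat_lit 76) (nat_lit 3063640821) (nat_lit 281) (nat_lit 5) (nat_lit 290) (nat_lit 5) (nat_lit 282) (nat_lit 5) (nat_lit 472) (nat_lit 451) (nat_lit 277)))) (XT.nd (nat_lit 156) (nat_lit 532) (nat_lit 0) (XT.nd (nat_lit 78) (nat_lit 0) (nat_lit 0) (XT.lf (nat_lit 0) (nat_lit 4126026665) (nat_lit 608) (nat_lit 11378088912) (nat_lit 684) (nat_lit 10409913230) (nat_lit 273) (nat_lit 5) (nat_lit 281) (nat_lit 5) (nat_lit 282) (nat_lit 5) (nat_lit 473) (nat_lit 451) (nat_lit 276)) (XT.lf (nat_lit 0) (nat_lit 18611753040) (nat_lit 684) (nat_lit 7619903370) (nat_lit 76) (nat_lit 109126973) (nat_lit 273) (nat_lit 5) (nat_lit 282) (nat_lit 5) (nat_lit 274) (nat_lit 5) (nat_lit 474) (nat_lit 451) (nat_lit 275))) (XT.nd (nat_lit 78) (nat_lit 0) (nat_lit 0) (XT.lf (nat_lit 0) (nat_lit 6992752582) (nat_lit 532) (nat_lit 14995505574) (nat_lit 608) (nat_lit 4786813637) (nat_lit 266) (nat_lit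 5) (nat_lit 273) (nat_lit 5) (nat_lit 274) (nat_lit 5) (nat_lit 475) (nat_lit 451) (nat_lit 274)) (XT.lf (nat_lit 0) (nat_lit 22195745547) (nat_lit 532) (nat_lit 3343107076) (nat_lit 608) (nat_lit 1681352750) (nat_lit 266) (nat_lit 5) (nat_lit 273) (nat_lit 5) (nat_lit 274) (nat_lit 5) (nat_lit 476) (nat_lit 451) (nat_lit 273))))))) (XT.nd (nat_lit 1248) (nat_lit 3496) (nat_lit 0) (XT.nd (nat_lit 624) (nat_lit 1824) (nat_lit 0) (XT.nd (nat_lit 312) (nat_lit 988) (nat_lit 0) (XT.nd (nat_lit 156) (nat_lit 1064) (nat_lit 0) (XT.nd (nat_lit 78) (nat_lit 0) (nat_lit 0) (XT.lf (nat_lit 0) (nat_lit 1667538592) (nat_lit 684) (nat_lit 17400253240) (nat_lit 76) (nat_lit 8605067682) (nat_lit 257) (nat_lit 5) (nat_lit 266) (nat_lit 5) (nat_lit 258) (nat_lit 5) (nat_lit 477) (nat_lit 451) (nat_lit 272)) (XT.lf (nat_lit 0) (nat_lit 5163448552) (nat_lit 684) (nat_lit 2060518053) (nat_lit 76) (nat_lit 20912217216) (nat_lit 257)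 (nat_lit 5) (nat_lit 266) (nat_lit 5) (nat_lit 258) (nat_lit 5) (nat_lit 478) (nat_lit 451) (nat_lit 271))) (XT.nd (nat_lit 78) (nat_lit 532) (nat_lit 0) (XT.lf (nat_lit 0) (nat_lit 8944172325) (nat_lit 608) (nat_lit 14650025696) (nat_lit 76) (nat_lit 5013812045) (nat_lit 250) (nat_lit 5) (nat_lit 258) (nat_lit 5) (nat_lit 251) (nat_lit 5) (nat_lit 479) (nat_lit 451) (nat_lit 270)) (XT.lf (nat_lit 0) (nat_lit 1356427529) (nat_lit 532) (nat_lit 11583659292) (nat_lit 608) (nat_lit 16150851504) (nat_lit 243) (nat_lit 5) (nat_lit 250) (nat_lit 5) (nat_lit 251) (nat_lit 5) (nat_lit 480) (nat_lit 451) (nat_lit 269)))) (XT.nd (nat_lit 156) (nat_lit 532) (nat_lit 0) (XT.nd (nat_lit 78) (nat_lit 456) (nat_lit 0) (XT.lf (nat_lit 0) (nat_lit 17209105980) (nat_lit 608) (nat_lit 11453853636) (nat_lit 76) (nat_lit 920798287) (nat_lit 243) (nat_lit 5) (nat_lit 251) (nat_lit 5) (nat_lit 244) (nat_lit 5) (nat_lit 481) (nat_lit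 451) (nat_lit 268)) (XT.lf (nat_lit 0) (nat_lit 5299785335) (nat_lit 456) (nat_lit 16468412784) (nat_lit 532) (nat_lit 8318304156) (nat_lit 237) (nat_lit 5) (nat_lit 243) (nat_lit 5) (nat_lit 244) (nat_lit 5) (nat_lit 482) (nat_lit 451) (nat_lit 267))) (XT.nd (nat_lit 78) (nat_lit 532) (nat_lit 0) (XT.lf (nat_lit 0) (nat_lit 22786700981) (nat_lit 456) (nat_lit 3789457571) (nat_lit 532) (nat_lit 4024807831) (nat_lit 237) (nat_lit 5) (nat_lit 243) (nat_lit 5) (nat_lit 244) (nat_lit 5) (nat_lit 483) (nat_lit 451) (nat_lit 266)) (XT.lf (nat_lit 0) (nat_lit 571018398) (nat_lit 532) (nat_lit 21366385406) (nat_lit 76) (nat_lit 9187907792) (nat_lit 230) (nat_lit 5) (nat_lit 237) (nat_lit 5) (nat_lit 231) (nat_lit 5) (nat_lit 484) (nat_lit 451) (nat_lit 265))))) (XT.nd (nat_lit 312) (nat_lit 912) (nat_lit 0) (XT.nd (nat_lit 156) (nat_lit 456) (nat_lit 0) (XT.nd (nat_lit 78) (nat_lit 456) (nat_lit 0) (XT.lf (nat_lit 0) (nat_lit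 5337594844) (nat_lit 532) (nat_lit 3725804309) (nat_lit 76) (nat_lit 22597379671) (nat_lit 230) (nat_lit 5) (nat_lit 237) (nat_lit 5) (nat_lit 231) (nat_lit 5) (nat_lit 485) (nat_lit 451) (nat_lit 264)) (XT.lf (nat_lit 0) (nat_lit 10427135531) (nat_lit 532) (nat_lit 17522535022) (nat_lit 76) (nat_lit 4257240747) (nat_lit 224) (nat_lit 5) (nat_lit 231) (nat_lit 5) (nat_lit 225) (nat_lit 5) (nat_lit 486) (nat_lit 451) (nat_lit 263))) (XT.nd (nat_lit 78) (nat_lit 0) (nat_lit 0) (XT.lf (nat_lit 0) (nat_lit 877895579) (nat_lit 456) (nat_lit 14924351430) (nat_lit 532) (nat_lit 16963194439) (nat_lit 218) (nat_lit 5) (nat_lit 224) (nat_lit 5) (nat_lit 225) (nat_lit 5) (nat_lit 487) (nat_lit 451) (nat_lit 262)) (XT.lf (nat_lit 0) (nat_lit 20185508979) (nat_lit 456) (nat_lit 1326816390) (nat_lit 532) (nat_lit 11823190952) (nat_lit 218) (nat_lit 5) (nat_lit 224) (nat_lit 5) (nat_lit 225) (nat_lit 5) (nat_lit 488) (nat_lit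 451) (nat_lit 261)))) (XT.nd (nat_lit 156) (nat_lit 532) (nat_lit 0) (XT.nd (nat_lit 78) (nat_lit 0) (nat_lit 0) (XT.lf (nat_lit 0) (nat_lit 6143673094) (nat_lit 380) (nat_lit 21427821559) (nat_lit 456) (nat_lit 6345865352) (nat_lit 213) (nat_lit 5) (nat_lit 218) (nat_lit 5) (nat_lit 219) (nat_lit 5) (nat_lit 489) (nat_lit 451) (nat_lit 260)) (XT.lf (nat_lit 0) (nat_lit 26268372575) (nat_lit 380) (nat_lit 7686774197) (nat_lit 456) (nat_lit 557231209) (nat_lit 213) (nat_lit 5) (nat_lit 218) (nat_lit 5) (nat_lit 219) (nat_lit 5) (nat_lit 490) (nat_lit 451) (nat_lit 259))) (XT.nd (nat_lit 78) (nat_lit 0) (nat_lit 0) (XT.lf (nat_lit 0) (nat_lit 5476213544) (nat_lit 532) (nat_lit 23133251761) (nat_lit 76) (nat_lit 6508923974) (nat_lit 206) (nat_lit 5) (nat_lit 213) (nat_lit 5) (nat_lit 207) (nat_lit 5) (nat_lit 491) (nat_lit 451) (nat_lit 258)) (XT.lf (nat_lit 0) (nat_lit 11836654207) (nat_lit 532) (nat_lit 2836326244)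 (nat_lit 76) (nat_lit 21064719377) (nat_lit 206) (nat_lit 5) (nat_lit 213) (nat_lit 5) (nat_lit 207) (nat_lit 5) (nat_lit 492) (nat_lit 451) (nat_lit 257)))))) (XT.nd (nat_lit 624) (nat_lit 1672) (nat_lit 0) (XT.nd (nat_lit 312) (nat_lit 684) (nat_lit 0) (XT.nd (nat_lit 156) (nat_lit 380) (nat_lit 0) (XT.nd (nat_lit 78) (nat_lit 380) (nat_lit 0) (XT.lf (nat_lit 0) (nat_lit 18425220841) (nat_lit 380) (nat_lit 136901895) (nat_lit 456) (nat_lit 17808240708) (nat_lit 201) (nat_lit 5) (nat_lit 206) (nat_lit 5) (nat_lit 207) (nat_lit 5) (nat_lit 493) (nat_lit 451) (nat_lit 256)) (XT.lf (nat_lit 0) (nat_lit 3278833407) (nat_lit 380) (nat_lit 22410709707) (nat_lit 456) (nat_lit 11326458405) (nat_lit 196) (nat_lit 5) (nat_lit 201) (nat_lit 5) (nat_lit 202) (nat_lit 5) (nat_lit 494) (nat_lit 451) (nat_lit 255))) (XT.nd (nat_lit 78) (nat_lit 380) (nat_lit 0) (XT.lf (nat_lit 0) (nat_lit 25502174213) (nat_lit 380) (nat_lit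 7708350474) (nat_lit 456) (nat_lit 4465092072) (nat_lit 196) (nat_lit 5) (nat_lit 201) (nat_lit 5) (nat_lit 202) (nat_lit 5) (nat_lit 495) (nat_lit 451) (nat_lit 254)) (XT.lf (nat_lit 0) (nat_lit 2719380603) (nat_lit 380) (nat_lit 28216494120) (nat_lit 76) (nat_lit 7413354248) (nat_lit 191) (nat_lit 5) (nat_lit 196) (nat_lit 5) (nat_lit 192) (nat_lit 5) (nat_lit 496) (nat_lit 451) (nat_lit 253)))) (XT.nd (nat_lit 156) (nat_lit 304) (nat_lit 0) (XT.nd (nat_lit 78) (nat_lit 380) (nat_lit 0) (XT.lf (nat_lit 0) (nat_lit 10227383884) (nat_lit 380) (nat_lit 5807274970) (nat_lit 76) (nat_lit 23001132385) (nat_lit 191) (nat_lit 5) (nat_lit 196) (nat_lit 5) (nat_lit 192) (nat_lit 5) (nat_lit 497) (nat_lit 451) (nat_lit 252)) (XT.lf (nat_lit 0) (nat_lit 17614240730) (nat_lit 380) (nat_lit 513059801) (nat_lit 456) (nat_lit 21610649804) (nat_lit 186) (nat_lit 5) (nat_lit 191) (nat_lit 5) (nat_lit 192) (nat_lit 5) (nat_lit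 498) (nat_lit 451) (nat_lit 251))) (XT.nd (nat_lit 78) (nat_lit 0) (nat_lit 0) (XT.lf (nat_lit 0) (nat_lit 1269750684) (nat_lit 304) (nat_lit 25212025786) (nat_lit 380) (nat_lit 13972871035) (nat_lit 182) (nat_lit 5) (nat_lit 186) (nat_lit 5) (nat_lit 187) (nat_lit 5) (nat_lit 499) (nat_lit 451) (nat_lit 250)) (XT.lf (nat_lit 0) (nat_lit 25809655644) (nat_lit 304) (nat_lit 9503093877) (nat_lit 380) (nat_lit 5873320335) (nat_lit 182) (nat_lit 5) (nat_lit 186) (nat_lit 5) (nat_lit 187) (nat_lit 5) (nat_lit 500) (nat_lit 451) (nat_lit 249))))) (XT.nd (nat_lit 312) (nat_lit 684) (nat_lit 0) (XT.nd (nat_lit 156) (nat_lit 608) (nat_lit 0) (XT.nd (nat_lit 78) (nat_lit 0) (nat_lit 0) (XT.lf (nat_lit 0) (nat_lit 2573205783) (nat_lit 380) (nat_lit 32700973640) (nat_lit 76) (nat_lit 6659978360) (nat_lit 177) (nat_lit 5) (nat_lit 182) (nat_lit 5) (nat_lit 178) (nat_lit 5) (nat_lit 501) (nat_lit 451) (nat_lit 248)) (XT.lf (nat_lit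 0) (nat_lit 11403483762) (nat_lit 380) (nat_lit 7961201107) (nat_lit 76) (nat_lit 23330806947) (nat_lit 177) (nat_lit 5) (nat_lit 182) (nat_lit 5) (nat_lit 178) (nat_lit 5) (nat_lit 502) (nat_lit 451) (nat_lit 247))) (XT.nd (nat_lit 78) (nat_lit 304) (nat_lit 0) (XT.lf (nat_lit 0) (nat_lit 17865834382) (nat_lit 304) (nat_lit 2802150681) (nat_lit 380) (nat_lit 22806601490) (nat_lit 173) (nat_lit 5) (nat_lit 177) (nat_lit 5) (nat_lit 178) (nat_lit 5) (nat_lit 503) (nat_lit 451) (nat_lit 246)) (XT.lf (nat_lit 0) (nat_lit 219082112) (nat_lit 304) (nat_lit 30209286658) (nat_lit 380) (nat_lit 13842147071) (nat_lit 169) (nat_lit 5) (nat_lit 173) (nat_lit 5) (nat_lit 174) (nat_lit 5) (nat_lit 504) (nat_lit 451) (nat_lit 245)))) (XT.nd (nat_lit 156) (nat_lit 304) (nat_lit 0) (XT.nd (nat_lit 78) (nat_lit 380) (nat_lit 0) (XT.lf (nat_lit 0) (nat_lit 27314861736) (nat_lit 304) (nat_lit 13450411627) (nat_lit 380) (nat_lit 4316538489)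 (nat_lit 169) (nat_lit 5) (nat_lit 173) (nat_lit 5) (nat_lit 174) (nat_lit 5) (nat_lit 505) (nat_lit 451) (nat_lit 244)) (XT.lf (nat_lit 0) (nat_lit 5514028634) (nat_lit 380) (nat_lit 36517410658) (nat_lit 76) (nat_lit 3880630547) (nat_lit 164) (nat_lit 5) (nat_lit 169) (nat_lit 5) (nat_lit 165) (nat_lit 5) (nat_lit 506) (nat_lit 451) (nat_lit 243))) (XT.nd (nat_lit 78) (nat_lit 304) (nat_lit 0) (XT.lf (nat_lit 0) (nat_lit 15864822698) (nat_lit 380) (nat_lit 9207731798) (nat_lit 76) (nat_lit 21684037001) (nat_lit 164) (nat_lit 5) (nat_lit 169) (nat_lit 5) (nat_lit 165) (nat_lit 5) (nat_lit 507) (nat_lit 451) (nat_lit 242)) (XT.lf (nat_lit 0) (nat_lit 19294327955) (nat_lit 304) (nat_lit 7415056244) (nat_lit 380) (nat_lit 20911567410) (nat_lit 160) (nat_lit 5) (nat_lit 164) (nat_lit 5) (nat_lit 165) (nat_lit 5) (nat_lit 508) (nat_lit 451) (nat_lit 241))))))))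
noncomputable def xc200 : XT := (XT.nd (nat_lit 2418) (nat_lit 912) (nat_lit 0) (XT.nd (nat_lit 1170) (nat_lit 2052) (nat_lit 0) (XT.nd (nat_lit 546) (nat_lit 1216) (nat_lit 0) (XT.nd (nat_lit 234) (nat_lit 532) (nat_lit 0) (XT.nd (nat_lit 78) (nat_lit 380) (nat_lit 0) (XT.lf (nat_lit 0) (nat_lit 228299173) (nat_lit 228) (nat_lit 37848422900) (nat_lit 304) (nat_lit 10428597374) (nat_lit 157) (nat_lit 5) (nat_lit 160) (nat_lit 5) (nat_lit 161) (nat_lit 5) (nat_lit 509) (nat_lit 451) (nat_lit 240)) (XT.nd (nat_lit 78) (nat_lit 304) (nat_lit 0) (XT.lf (nat_lit 0) (nat_lit 721761411) (nat_lit 304) (nat_lit 19270336047) (nat_lit 76) (nat_lit 29413211669) (nat_lit 156) (nat_lit 5) (nat_lit 160) (nat_lit 5) (nat_lit 157) (nat_lit 5) (nat_lit 510) (nat_lit 451) (nat_lit 239)) (XT.lf (nat_lit 0) (nat_lit 10708922697) (nat_lit 304) (nat_lit 1388914014) (nat_lit 380) (nat_lit 38228339974) (nat_lit 152) (nat_lit 5) (nat_lit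 156) (nat_lit 5) (nat_lit 157) (nat_lit 5) (nat_lit 511) (nat_lit 451) (nat_lit 238)))) (XT.nd (nat_lit 156) (nat_lit 304) (nat_lit 0) (XT.nd (nat_lit 78) (nat_lit 228) (nat_lit 0) (XT.lf (nat_lit 0) (nat_lit 24180440517) (nat_lit 380) (nat_lit 9462376733) (nat_lit 76) (nat_lit 17620895730) (nat_lit 152) (nat_lit 5) (nat_lit 157) (nat_lit 5) (nat_lit 153) (nat_lit 5) (nat_lit 512) (nat_lit 451) (nat_lit 237)) (XT.lf (nat_lit 0) (nat_lit 22009619115) (nat_lit 228) (nat_lit 14839174514) (nat_lit 304) (nat_lit 15373883693) (nat_lit 149) (nat_lit 5) (nat_lit 152) (nat_lit 5) (nat_lit 153) (nat_lit 5) (nat_lit 513) (nat_lit 451) (nat_lit 236))) (XT.nd (nat_lit 78) (nat_lit 76) (nat_lit 0) (XT.lf (nat_lit 0) (nat_lit 1391597633) (nat_lit 228) (nat_lit 48656972230) (nat_lit 304) (nat_lit 3157299644) (nat_lit 146) (nat_lit 5) (nat_lit 149) (nat_lit 5) (nat_lit 150) (nat_lit 5) (nat_lit 514) (nat_lit 451) (nat_lit 235))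 (XT.lf (nat_lit 0) (nat_lit 9694861594) (nat_lit 304) (nat_lit 19889511486) (nat_lit 76) (nat_lit 24617875955) (nat_lit 145) (nat_lit 5) (nat_lit 149) (nat_lit 5) (nat_lit 146) (nat_lit 5) (nat_lit 515) (nat_lit 451) (nat_lit 234))))) (XT.nd (nat_lit 312) (nat_lit 456) (nat_lit 0) (XT.nd (nat_lit 156) (nat_lit 532) (nat_lit 0) (XT.nd (nat_lit 78) (nat_lit 0) (nat_lit 0) (XT.lf (nat_lit 0) (nat_lit 13216439024) (nat_lit 228) (nat_lit 9777768274) (nat_lit 304) (nat_lit 32229622575) (nat_lit 142) (nat_lit 5) (nat_lit 145) (nat_lit 5) (nat_lit 146) (nat_lit 5) (nat_lit 516) (nat_lit 451) (nat_lit 233)) (XT.lf (nat_lit 0) (nat_lit 36995530977) (nat_lit 304) (nat_lit 8654060764) (nat_lit 76) (nat_lit 10617376547) (nat_lit 142) (nat_lit 5) (nat_lit 146) (nat_lit 5) (nat_lit 143) (nat_lit 5) (nat_lit 517) (nat_lit 451) (nat_lit 232))) (XT.nd (nat_lit 78) (nat_lit 304) (nat_lit 0) (XT.lf (nat_lit 0) (nat_lit 26109434331)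 (nat_lit 228) (nat_lit 25653355169) (nat_lit 304) (nat_lit 5568234582) (nat_lit 139) (nat_lit 5) (nat_lit 142) (nat_lit 5) (nat_lit 143) (nat_lit 5) (nat_lit 518) (nat_lit 451) (nat_lit 231)) (XT.lf (nat_lit 0) (nat_lit 3654020516) (nat_lit 228) (nat_lit 4846770827) (nat_lit 304) (nat_lit 49920101031) (nat_lit 135) (nat_lit 5) (nat_lit 138) (nat_lit 5) (nat_lit 139) (nat_lit 5) (nat_lit 519) (nat_lit 451) (nat_lit 230)))) (XT.nd (nat_lit 156) (nat_lit 228) (nat_lit 0) (XT.nd (nat_lit 78) (nat_lit 228) (nat_lit 0) (XT.lf (nat_lit 0) (nat_lit 23355912188) (nat_lit 304) (nat_lit 19538890617) (nat_lit 76) (nat_lit 16632721846) (nat_lit 135) (nat_lit 5) (nat_lit 139) (nat_lit 5) (nat_lit 136) (nat_lit 5) (nat_lit 520) (nat_lit 451) (nat_lit 229)) (XT.lf (nat_lit 0) (nat_lit 17027159724) (nat_lit 228) (nat_lit 21839370911) (nat_lit 304) (nat_lit 21794530012) (nat_lit 132) (nat_lit 5) (nat_lit 135) (nat_lit 5) (nat_lit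 136) (nat_lit 5) (nat_lit 521) (nat_lit 451) (nat_lit 228))) (XT.nd (nat_lit 78) (nat_lit 228) (nat_lit 0) (XT.lf (nat_lit 0) (nat_lit 55038454838) (nat_lit 304) (nat_lit 6735509742) (nat_lit 76) (nat_lit 48758595) (nat_lit 132) (nat_lit 5) (nat_lit 136) (nat_lit 5) (nat_lit 133) (nat_lit 5) (nat_lit 522) (nat_lit 451) (nat_lit 227)) (XT.lf (nat_lit 0) (nat_lit 9031027801) (nat_lit 228) (nat_lit 31423605071) (nat_lit 76) (nat_lit 22546379737) (nat_lit 129) (nat_lit 5) (nat_lit 132) (nat_lit 5) (nat_lit 130) (nat_lit 5) (nat_lit 523) (nat_lit 451) (nat_lit 226)))))) (XT.nd (nat_lit 624) (nat_lit 912) (nat_lit 0) (XT.nd (nat_lit 312) (nat_lit 684) (nat_lit 0) (XT.nd (nat_lit 156) (nat_lit 228) (nat_lit 0) (XT.nd (nat_lit 78) (nat_lit 0) (nat_lit 0) (XT.lf (nat_lit 0) (nat_lit 7031567374) (nat_lit 228) (nat_lit 18287390221) (nat_lit 304) (nat_lit 38889642108) (nat_lit 126) (nat_lit 5) (nat_lit 129) (nat_lit 5) (nat_lit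 130) (nat_lit 5) (nat_lit 524) (nat_lit 451) (nat_lit 225)) (XT.lf (nat_lit 0) (nat_lit 42457934093) (nat_lit 304) (nat_lit 18208160486) (nat_lit 76) (nat_lit 4775447628) (nat_lit 126) (nat_lit 5) (nat_lit 130) (nat_lit 5) (nat_lit 127) (nat_lit 5) (nat_lit 525) (nat_lit 451) (nat_lit 224))) (XT.nd (nat_lit 78) (nat_lit 76) (nat_lit 0) (XT.lf (nat_lit 0) (nat_lit 22178601703) (nat_lit 152) (nat_lit 38325048547) (nat_lit 228) (nat_lit 6196045683) (nat_lit 124) (nat_lit 5) (nat_lit 126) (nat_lit 5) (nat_lit 127) (nat_lit 5) (nat_lit 526) (nat_lit 451) (nat_lit 223)) (XT.lf (nat_lit 0) (nat_lit 11062642415) (nat_lit 228) (nat_lit 3951237916) (nat_lit 76) (nat_lit 52972994244) (nat_lit 123) (nat_lit 5) (nat_lit 126) (nat_lit 5) (nat_lit 124) (nat_lit 5) (nat_lit 527) (nat_lit 451) (nat_lit 222)))) (XT.nd (nat_lit 156) (nat_lit 304) (nat_lit 0) (XT.nd (nat_lit 78) (nat_lit 152) (nat_lit 0) (XT.lf (nat_lit 0) (nat_lit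 29173976391) (nat_lit 304) (nat_lit 30867233973) (nat_lit 76) (nat_lit 9255835270) (nat_lit 120) (nat_lit 5) (nat_lit 124) (nat_lit 5) (nat_lit 121) (nat_lit 5) (nat_lit 528) (nat_lit 451) (nat_lit 221)) (XT.lf (nat_lit 0) (nat_lit 11592297520) (nat_lit 152) (nat_lit 36535108459) (nat_lit 228) (nat_lit 22510153228) (nat_lit 118) (nat_lit 5) (nat_lit 120) (nat_lit 5) (nat_lit 121) (nat_lit 5) (nat_lit 529) (nat_lit 451) (nat_lit 220))) (XT.nd (nat_lit 78) (nat_lit 304) (nat_lit 0) (XT.lf (nat_lit 0) (nat_lit 55955563677) (nat_lit 152) (nat_lit 12003969957) (nat_lit 228) (nat_lit 4049451748) (nat_lit 118) (nat_lit 5) (nat_lit 120) (nat_lit 5) (nat_lit 121) (nat_lit 5) (nat_lit 530) (nat_lit 451) (nat_lit 219)) (XT.lf (nat_lit 0) (nat_lit 15078417612) (nat_lit 304) (nat_lit 44900209271) (nat_lit 76) (nat_lit 13426450827) (nat_lit 114) (nat_lit 5) (nat_lit 118) (nat_lit 5) (nat_lit 115) (nat_lit 5) (nat_lit 531) (nat_lit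 451) (nat_lit 218))))) (XT.nd (nat_lit 312) (nat_lit 532) (nat_lit 0) (XT.nd (nat_lit 156) (nat_lit 228) (nat_lit 0) (XT.nd (nat_lit 78) (nat_lit 152) (nat_lit 0) (XT.lf (nat_lit 0) (nat_lit 34979733642) (nat_lit 304) (nat_lit 272510211) (nat_lit 76) (nat_lit 39581176176) (nat_lit 114) (nat_lit 5) (nat_lit 118) (nat_lit 5) (nat_lit 115) (nat_lit 5) (nat_lit 532) (nat_lit 451) (nat_lit 217)) (XT.lf (nat_lit 0) (nat_lit 46600689903) (nat_lit 152) (nat_lit 9323835394) (nat_lit 228) (nat_lit 20366694282) (nat_lit 112) (nat_lit 5) (nat_lit 114) (nat_lit 5) (nat_lit 115) (nat_lit 5) (nat_lit 533) (nat_lit 451) (nat_lit 216))) (XT.nd (nat_lit 78) (nat_lit 0) (nat_lit 0) (XT.lf (nat_lit 0) (nat_lit 48248248) (nat_lit 228) (nat_lit 60523194192) (nat_lit 76) (nat_lit 17211268345) (nat_lit 109) (nat_lit 5) (nat_lit 112) (nat_lit 5) (nat_lit 110) (nat_lit 5) (nat_lit 534) (nat_lit 451) (nat_lit 215)) (XT.lf (nat_lit 0) (nat_lit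 21059881573) (nat_lit 228) (nat_lit 13382884002) (nat_lit 76) (nat_lit 44858323892) (nat_lit 109) (nat_lit 5) (nat_lit 112) (nat_lit 5) (nat_lit 110) (nat_lit 5) (nat_lit 535) (nat_lit 451) (nat_lit 214)))) (XT.nd (nat_lit 156) (nat_lit 228) (nat_lit 0) (XT.nd (nat_lit 78) (nat_lit 152) (nat_lit 0) (XT.lf (nat_lit 0) (nat_lit 35868957717) (nat_lit 152) (nat_lit 7176237533) (nat_lit 228) (nat_lit 37809524359) (nat_lit 107) (nat_lit 5) (nat_lit 109) (nat_lit 5) (nat_lit 110) (nat_lit 5) (nat_lit 536) (nat_lit 451) (nat_lit 213)) (XT.lf (nat_lit 0) (nat_lit 4300771347) (nat_lit 152) (nat_lit 61766644591) (nat_lit 228) (nat_lit 16376222328) (nat_lit 105) (nat_lit 5) (nat_lit 107) (nat_lit 5) (nat_lit 108) (nat_lit 5) (nat_lit 537) (nat_lit 451) (nat_lit 212))) (XT.nd (nat_lit 78) (nat_lit 152) (nat_lit 0) (XT.lf (nat_lit 0) (nat_lit 6117214263) (nat_lit 228) (nat_lit 28211494528) (nat_lit 76) (nat_lit 49734021012)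 (nat_lit 104) (nat_lit 5) (nat_lit 107) (nat_lit 5) (nat_lit 105) (nat_lit 5) (nat_lit 538) (nat_lit 451) (nat_lit 211)) (XT.lf (nat_lit 0) (nat_lit 23511936635) (nat_lit 152) (nat_lit 5668971923) (nat_lit 228) (nat_lit 56537883325) (nat_lit 102) (nat_lit 5) (nat_lit 104) (nat_lit 5) (nat_lit 105) (nat_lit 5) (nat_lit 539) (nat_lit 451) (nat_lit 210))))))) (XT.nd (nat_lit 56160) (nat_lit 0) (nat_lit 13908) (XT.nd (nat_lit 546) (nat_lit 152) (nat_lit 0) (XT.nd (nat_lit 234) (nat_lit 380) (nat_lit 0) (XT.nd (nat_lit 78) (nat_lit 380) (nat_lit 0) (XT.lf (nat_lit 0) (nat_lit 53452076600) (nat_lit 228) (nat_lit 10285247678) (nat_lit 76) (nat_lit 23671744693) (nat_lit 102) (nat_lit 5) (nat_lit 105) (nat_lit 5) (nat_lit 103) (nat_lit 5) (nat_lit 540) (nat_lit 451) (nat_lit 209)) (XT.nd (nat_lit 78) (nat_lit 228) (nat_lit 0) (XT.lf (nat_lit 0) (nat_lit 43993882832) (nat_lit 152) (nat_lit 34935157705) (nat_lit 228) (nat_lit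 10206684044) (nat_lit 100) (nat_lit 5) (nat_lit 102) (nat_lit 5) (nat_lit 103) (nat_lit 5) (nat_lit 541) (nat_lit 451) (nat_lit 208)) (XT.lf (nat_lit 0) (nat_lit 9240938914) (nat_lit 152) (nat_lit 4929363905) (nat_lit 228) (nat_lit 76733995176) (nat_lit 97) (nat_lit 5) (nat_lit 99) (nat_lit 5) (nat_lit 100) (nat_lit 5) (nat_lit 542) (nat_lit 451) (nat_lit 207)))) (XT.nd (nat_lit 156) (nat_lit 228) (nat_lit 0) (XT.nd (nat_lit 78) (nat_lit 152) (nat_lit 0) (XT.lf (nat_lit 0) (nat_lit 39782159909) (nat_lit 228) (nat_lit 26889443598) (nat_lit 76) (nat_lit 26030032301) (nat_lit 97) (nat_lit 5) (nat_lit 100) (nat_lit 5) (nat_lit 98) (nat_lit 5) (nat_lit 543) (nat_lit 451) (nat_lit 206)) (XT.lf (nat_lit 0) (nat_lit 30063111495) (nat_lit 152) (nat_lit 36435735760) (nat_lit 228) (nat_lit 28043952294) (nat_lit 95) (nat_lit 5) (nat_lit 97) (nat_lit 5) (nat_lit 98) (nat_lit 5) (nat_lit 544) (nat_lit 451) (nat_lit 205))) (XT.nd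 (nat_lit 78) (nat_lit 228) (nat_lit 0) (XT.lf (nat_lit 0) (nat_lit 89273062261) (nat_lit 152) (nat_lit 5014202933) (nat_lit 228) (nat_lit 2143826137) (nat_lit 95) (nat_lit 5) (nat_lit 97) (nat_lit 5) (nat_lit 98) (nat_lit 5) (nat_lit 545) (nat_lit 451) (nat_lit 204)) (XT.lf (nat_lit 0) (nat_lit 24829862408) (nat_lit 228) (nat_lit 45951102646) (nat_lit 76) (nat_lit 27564733215) (nat_lit 92) (nat_lit 5) (nat_lit 95) (nat_lit 5) (nat_lit 93) (nat_lit 5) (nat_lit 546) (nat_lit 451) (nat_lit 203))))) (XT.nd (nat_lit 55302) (nat_lit 0) (nat_lit 16720) (XT.nd (nat_lit 55146) (nat_lit 0) (nat_lit 16644) (XT.nd (nat_lit 55068) (nat_lit 0) (nat_lit 16644) (XT.lf (nat_lit 0) (nat_lit 13759518483) (nat_lit 152) (nat_lit 39063791859) (nat_lit 228) (nat_lit 47486187193) (nat_lit 90) (nat_lit 5) (nat_lit 92) (nat_lit 5) (nat_lit 93) (nat_lit 5) (nat_lit 547) (nat_lit 451) (nat_lit 202)) (XT.lf (nat_lit 0) (nat_lit 3053892109)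 (nat_lit 1292) (nat_lit 3225769167) (nat_lit 1292) (nat_lit 3225769167) (nat_lit 309) (nat_lit 3) (nat_lit 326) (nat_lit 3) (nat_lit 326) (nat_lit 5) (nat_lit 452) (nat_lit 452) (nat_lit 296))) (XT.nd (nat_lit 78) (nat_lit 0) (nat_lit 76) (XT.lf (nat_lit 76) (nat_lit 3037057713) (nat_lit 0) (nat_lit 3373945684) (nat_lit 1292) (nat_lit 12878655461) (nat_lit 310) (nat_lit 5) (nat_lit 309) (nat_lit 3) (nat_lit 326) (nat_lit 5) (nat_lit 453) (nat_lit 452) (nat_lit 295)) (XT.lf (nat_lit 0) (nat_lit 6840501959) (nat_lit 1216) (nat_lit 6695449062) (nat_lit 1292) (nat_lit 6037354920) (nat_lit 310) (nat_lit 5) (nat_lit 326) (nat_lit 5) (nat_lit 327) (nat_lit 5) (nat_lit 454) (nat_lit 452) (nat_lit 294)))) (XT.nd (nat_lit 156) (nat_lit 0) (nat_lit 76) (XT.nd (nat_lit 78) (nat_lit 0) (nat_lit 76) (XT.lf (nat_lit 76) (nat_lit 3173058464) (nat_lit 0) (nat_lit 4166819227) (nat_lit 1292) (nat_lit 12523875618) (nat_lit 311) (nat_lit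 5) (nat_lit 310) (nat_lit 5) (nat_lit 327) (nat_lit 5) (nat_lit 455) (nat_lit 452) (nat_lit 293)) (XT.lf (nat_lit 0) (nat_lit 7968502696) (nat_lit 1216) (nat_lit 6743458211) (nat_lit 1292) (nat_lit 5447525773) (nat_lit 311) (nat_lit 5) (nat_lit 327) (nat_lit 5) (nat_lit 328) (nat_lit 5) (nat_lit 456) (nat_lit 452) (nat_lit 292))) (XT.nd (nat_lit 78) (nat_lit 0) (nat_lit 76) (XT.lf (nat_lit 76) (nat_lit 3525794510) (nat_lit 0) (nat_lit 5158813467) (nat_lit 1292) (nat_lit 11777426031) (nat_lit 312) (nat_lit 5) (nat_lit 311) (nat_lit 5) (nat_lit 328) (nat_lit 5) (nat_lit 457) (nat_lit 452) (nat_lit 291)) (XT.lf (nat_lit 0) (nat_lit 9529612309) (nat_lit 1216) (nat_lit 6580049089) (nat_lit 1292) (nat_lit 4660774466) (nat_lit 312) (nat_lit 5) (nat_lit 328) (nat_lit 5) (nat_lit 329) (nat_lit 5) (nat_lit 458) (nat_lit 452) (nat_lit 290)))))) (XT.nd (nat_lit 624) (nat_lit 2964) (nat_lit 0) (XT.nd (nat_lit 312) (nat_lit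 0) (nat_lit 152) (XT.nd (nat_lit 156) (nat_lit 0) (nat_lit 76) (XT.nd (nat_lit 78) (nat_lit 0) (nat_lit 76) (XT.lf (nat_lit 76) (nat_lit 4111986288) (nat_lit 0) (nat_lit 6372419745) (nat_lit 1292) (nat_lit 10601151132) (nat_lit 313) (nat_lit 5) (nat_lit 312) (nat_lit 5) (nat_lit 329) (nat_lit 5) (nat_lit 459) (nat_lit 452) (nat_lit 289)) (XT.lf (nat_lit 0) (nat_lit 11564096013) (nat_lit 1216) (nat_lit 6188446929) (nat_lit 1292) (nat_lit 3654702142) (nat_lit 313) (nat_lit 5) (nat_lit 329) (nat_lit 5) (nat_lit 330) (nat_lit 5) (nat_lit 460) (nat_lit 452) (nat_lit 288))) (XT.nd (nat_lit 78) (nat_lit 0) (nat_lit 76) (XT.lf (nat_lit 76) (nat_lit 4949680005) (nat_lit 0) (nat_lit 7831340405) (nat_lit 1292) (nat_lit 8954418454) (nat_lit 314) (nat_lit 5) (nat_lit 313) (nat_lit 5) (nat_lit 330) (nat_lit 5) (nat_lit 461) (nat_lit 452) (nat_lit 287)) (XT.lf (nat_lit 0) (nat_lit 14114831208) (nat_lit 1216) (nat_lit 5550556336)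 (nat_lit 1292) (nat_lit 2405680073) (nat_lit 314) (nat_lit 5) (nat_lit 330) (nat_lit 5) (nat_lit 331) (nat_lit 5) (nat_lit 462) (nat_lit 452) (nat_lit 286)))) (XT.nd (nat_lit 156) (nat_lit 0) (nat_lit 76) (XT.nd (nat_lit 78) (nat_lit 0) (nat_lit 76) (XT.lf (nat_lit 76) (nat_lit 6058314218) (nat_lit 0) (nat_lit 9560600502) (nat_lit 1292) (nat_lit 6793943267) (nat_lit 315) (nat_lit 5) (nat_lit 314) (nat_lit 5) (nat_lit 331) (nat_lit 5) (nat_lit 463) (nat_lit 452) (nat_lit 285)) (XT.lf (nat_lit 0) (nat_lit 17227489656) (nat_lit 1216) (nat_lit 4646893803) (nat_lit 1292) (nat_lit 888738030) (nat_lit 315) (nat_lit 5) (nat_lit 331) (nat_lit 5) (nat_lit 332) (nat_lit 5) (nat_lit 464) (nat_lit 452) (nat_lit 284))) (XT.nd (nat_lit 78) (nat_lit 0) (nat_lit 0) (XT.lf (nat_lit 76) (nat_lit 7458791540) (nat_lit 0) (nat_lit 11586664081) (nat_lit 1292) (nat_lit 4073603738) (nat_lit 316) (nat_lit 5) (nat_lit 315) (nat_lit 5) (nat_lit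 332) (nat_lit 5) (nat_lit 465) (nat_lit 452) (nat_lit 283)) (XT.lf (nat_lit 76) (nat_lit 20018861638) (nat_lit 0) (nat_lit 940912643) (nat_lit 1292) (nat_lit 2524647133) (nat_lit 316) (nat_lit 5) (nat_lit 315) (nat_lit 5) (nat_lit 332) (nat_lit 5) (nat_lit 466) (nat_lit 452) (nat_lit 282))))) (XT.nd (nat_lit 312) (nat_lit 1976) (nat_lit 0) (XT.nd (nat_lit 156) (nat_lit 0) (nat_lit 76) (XT.nd (nat_lit 78) (nat_lit 1292) (nat_lit 0) (XT.lf (nat_lit 76) (nat_lit 9173555662) (nat_lit 0) (nat_lit 13937555549) (nat_lit 1292) (nat_lit 744245909) (nat_lit 317) (nat_lit 5) (nat_lit 316) (nat_lit 5) (nat_lit 333) (nat_lit 5) (nat_lit 467) (nat_lit 452) (nat_lit 281)) (XT.lf (nat_lit 0) (nat_lit 1108068756) (nat_lit 1292) (nat_lit 1997763843) (nat_lit 1368) (nat_lit 21130081627) (nat_lit 299) (nat_lit 5) (nat_lit 316) (nat_lit 5) (nat_lit 317) (nat_lit 5) (nat_lit 468) (nat_lit 452) (nat_lit 280))) (XT.nd (nat_lit 78) (nat_lit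 0) (nat_lit 0) (XT.lf (nat_lit 0) (nat_lit 3183170863) (nat_lit 1292) (nat_lit 13427672024) (nat_lit 76) (nat_lit 8011359209) (nat_lit 300) (nat_lit 5) (nat_lit 317) (nat_lit 5) (nat_lit 301) (nat_lit 5) (nat_lit 469) (nat_lit 452) (nat_lit 279)) (XT.lf (nat_lit 0) (nat_lit 5367004223) (nat_lit 1292) (nat_lit 231007203) (nat_lit 76) (nat_lit 19420673229) (nat_lit 300) (nat_lit 5) (nat_lit 317) (nat_lit 5) (nat_lit 301) (nat_lit 5) (nat_lit 470) (nat_lit 452) (nat_lit 278)))) (XT.nd (nat_lit 156) (nat_lit 608) (nat_lit 0) (XT.nd (nat_lit 78) (nat_lit 608) (nat_lit 0) (XT.lf (nat_lit 0) (nat_lit 7799326258) (nat_lit 912) (nat_lit 11856405583) (nat_lit 76) (nat_lit 5765841024) (nat_lit 289) (nat_lit 5) (nat_lit 301) (nat_lit 5) (nat_lit 290) (nat_lit 5) (nat_lit 471) (nat_lit 452) (nat_lit 277)) (XT.lf (nat_lit 0) (nat_lit 1921423697) (nat_lit 608) (nat_lit 8455032821) (nat_lit 684) (nat_lit 15457936425) (nat_lit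 281) (nat_lit 5) (nat_lit 289) (nat_lit 5) (nat_lit 290) (nat_lit 5) (nat_lit 472) (nat_lit 452) (nat_lit 276))) (XT.nd (nat_lit 78) (nat_lit 608) (nat_lit 0) (XT.lf (nat_lit 0) (nat_lit 13177114529) (nat_lit 684) (nat_lit 9935379980) (nat_lit 76) (nat_lit 3142717062) (nat_lit 281) (nat_lit 5) (nat_lit 290) (nat_lit 5) (nat_lit 282) (nat_lit 5) (nat_lit 473) (nat_lit 452) (nat_lit 275)) (XT.lf (nat_lit 0) (nat_lit 4460793977) (nat_lit 608) (nat_lit 11723396159) (nat_lit 684) (nat_lit 10500793040) (nat_lit 273) (nat_lit 5) (nat_lit 281) (nat_lit 5) (nat_lit 282) (nat_lit 5) (nat_lit 474) (nat_lit 452) (nat_lit 274))))))))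
noncomputable def xc201 : XT := (XT.nd (nat_lit 2418) (nat_lit 4560) (nat_lit 0) (XT.nd (nat_lit 1170) (nat_lit 3724) (nat_lit 0) (XT.nd (nat_lit 546) (nat_lit 1900) (nat_lit 0) (XT.nd (nat_lit 234) (nat_lit 1748) (nat_lit 0) (XT.nd (nat_lit 78) (nat_lit 532) (nat_lit 0) (XT.lf (nat_lit 0) (nat_lit 19378759010) (nat_lit 684) (nat_lit 7637344046) (nat_lit 76) (nat_lit 108626786) (nat_lit 273) (nat_lit 5) (nat_lit 282) (nat_lit 5) (nat_lit 274) (nat_lit 5) (nat_lit 475) (nat_lit 452) (nat_lit 273)) (XT.nd (nat_lit 78) (nat_lit 0) (nat_lit 0) (XT.lf (nat_lit 0) (nat_lit 7411621424) (nat_lit 532) (nat_lit 15440870438) (nat_lit 608) (nat_lit 4719677573) (nat_lit 266) (nat_lit 5) (nat_lit 273) (nat_lit 5) (nat_lit 274) (nat_lit 5) (nat_lit 476) (nat_lit 452) (nat_lit 272)) (XT.lf (nat_lit 0) (nat_lit 23064614287) (nat_lit 532) (nat_lit 3439031063) (nat_lit 608) (nat_lit 1527190932) (nat_lit 266) (nat_lit 5) (nat_lit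 273) (nat_lit 5) (nat_lit 274) (nat_lit 5) (nat_lit 477) (nat_lit 452) (nat_lit 271)))) (XT.nd (nat_lit 156) (nat_lit 1064) (nat_lit 0) (XT.nd (nat_lit 78) (nat_lit 0) (nat_lit 0) (XT.lf (nat_lit 0) (nat_lit 1914381155) (nat_lit 684) (nat_lit 17711447011) (nat_lit 76) (nat_lit 8871297146) (nat_lit 257) (nat_lit 5) (nat_lit 266) (nat_lit 5) (nat_lit 258) (nat_lit 5) (nat_lit 478) (nat_lit 452) (nat_lit 270)) (XT.lf (nat_lit 0) (nat_lit 5509435897) (nat_lit 684) (nat_lit 1917659977) (nat_lit 76) (nat_lit 21547425901) (nat_lit 257) (nat_lit 5) (nat_lit 266) (nat_lit 5) (nat_lit 258) (nat_lit 5) (nat_lit 479) (nat_lit 452) (nat_lit 269))) (XT.nd (nat_lit 78) (nat_lit 532) (nat_lit 0) (XT.lf (nat_lit 0) (nat_lit 9400110109) (nat_lit 608) (nat_lit 14881366969) (nat_lit 76) (nat_lit 5179130306) (nat_lit 250) (nat_lit 5) (nat_lit 258) (nat_lit 5) (nat_lit 251) (nat_lit 5) (nat_lit 480) (nat_lit 452) (nat_lit 268)) (XT.lf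 (nat_lit 0) (nat_lit 1603239073) (nat_lit 532) (nat_lit 11909179860) (nat_lit 608) (nat_lit 16445709475) (nat_lit 243) (nat_lit 5) (nat_lit 250) (nat_lit 5) (nat_lit 251) (nat_lit 5) (nat_lit 481) (nat_lit 452) (nat_lit 267))))) (XT.nd (nat_lit 312) (nat_lit 912) (nat_lit 0) (XT.nd (nat_lit 156) (nat_lit 532) (nat_lit 0) (XT.nd (nat_lit 78) (nat_lit 456) (nat_lit 0) (XT.lf (nat_lit 0) (nat_lit 17904350889) (nat_lit 608) (nat_lit 11592182438) (nat_lit 76) (nat_lit 969354392) (nat_lit 243) (nat_lit 5) (nat_lit 251) (nat_lit 5) (nat_lit 244) (nat_lit 5) (nat_lit 482) (nat_lit 452) (nat_lit 266)) (XT.lf (nat_lit 0) (nat_lit 5662053086) (nat_lit 456) (nat_lit 16934903934) (nat_lit 532) (nat_lit 8386855568) (nat_lit 237) (nat_lit 5) (nat_lit 243) (nat_lit 5) (nat_lit 244) (nat_lit 5) (nat_lit 483) (nat_lit 452) (nat_lit 265))) (XT.nd (nat_lit 78) (nat_lit 532) (nat_lit 0) (XT.lf (nat_lit 0) (nat_lit 23667655594) (nat_lit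 456) (nat_lit 3876382818) (nat_lit 532) (nat_lit 3969826132) (nat_lit 237) (nat_lit 5) (nat_lit 243) (nat_lit 5) (nat_lit 244) (nat_lit 5) (nat_lit 484) (nat_lit 452) (nat_lit 264)) (XT.lf (nat_lit 0) (nat_lit 757623614) (nat_lit 532) (nat_lit 21803747282) (nat_lit 76) (nat_lit 9492603576) (nat_lit 230) (nat_lit 5) (nat_lit 237) (nat_lit 5) (nat_lit 231) (nat_lit 5) (nat_lit 485) (nat_lit 452) (nat_lit 263)))) (XT.nd (nat_lit 156) (nat_lit 456) (nat_lit 0) (XT.nd (nat_lit 78) (nat_lit 456) (nat_lit 0) (XT.lf (nat_lit 0) (nat_lit 5662261198) (nat_lit 532) (nat_lit 3639879713) (nat_lit 76) (nat_lit 23303513245) (nat_lit 230) (nat_lit 5) (nat_lit 237) (nat_lit 5) (nat_lit 231) (nat_lit 5) (nat_lit 486) (nat_lit 452) (nat_lit 262)) (XT.lf (nat_lit 0) (nat_lit 10901905595) (nat_lit 532) (nat_lit 17847918307) (nat_lit 76) (nat_lit 4418424527) (nat_lit 224) (nat_lit 5) (nat_lit 231) (nat_lit 5) (nat_lit 225) (nat_lit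 5) (nat_lit 487) (nat_lit 452) (nat_lit 261))) (XT.nd (nat_lit 78) (nat_lit 0) (nat_lit 0) (XT.lf (nat_lit 0) (nat_lit 1102561557) (nat_lit 456) (nat_lit 15332898156) (nat_lit 532) (nat_lit 17308159425) (nat_lit 218) (nat_lit 5) (nat_lit 224) (nat_lit 5) (nat_lit 225) (nat_lit 5) (nat_lit 488) (nat_lit 452) (nat_lit 260)) (XT.lf (nat_lit 0) (nat_lit 20983626784) (nat_lit 456) (nat_lit 1328578341) (nat_lit 532) (nat_lit 12018730518) (nat_lit 218) (nat_lit 5) (nat_lit 224) (nat_lit 5) (nat_lit 225) (nat_lit 5) (nat_lit 489) (nat_lit 452) (nat_lit 259)))))) (XT.nd (nat_lit 624) (nat_lit 1672) (nat_lit 0) (XT.nd (nat_lit 312) (nat_lit 1140) (nat_lit 0) (XT.nd (nat_lit 156) (nat_lit 532) (nat_lit 0) (XT.nd (nat_lit 78) (nat_lit 0) (nat_lit 0) (XT.lf (nat_lit 0) (nat_lit 6522886566) (nat_lit 380) (nat_lit 22027991196) (nat_lit 456) (nat_lit 6379425343) (nat_lit 213) (nat_lit 5) (nat_lit 218) (nat_lit 5) (nat_lit 219)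 (nat_lit 5) (nat_lit 490) (nat_lit 452) (nat_lit 258)) (XT.lf (nat_lit 0) (nat_lit 27245650237) (nat_lit 380) (nat_lit 7875955083) (nat_lit 456) (nat_lit 421699631) (nat_lit 213) (nat_lit 5) (nat_lit 218) (nat_lit 5) (nat_lit 219) (nat_lit 5) (nat_lit 491) (nat_lit 452) (nat_lit 257))) (XT.nd (nat_lit 78) (nat_lit 0) (nat_lit 0) (XT.lf (nat_lit 0) (nat_lit 5787677918) (nat_lit 532) (nat_lit 23632932680) (nat_lit 76) (nat_lit 6746905364) (nat_lit 206) (nat_lit 5) (nat_lit 213) (nat_lit 5) (nat_lit 207) (nat_lit 5) (nat_lit 492) (nat_lit 452) (nat_lit 256)) (XT.lf (nat_lit 0) (nat_lit 12334645064) (nat_lit 532) (nat_lit 2732759105) (nat_lit 76) (nat_lit 21738130541) (nat_lit 206) (nat_lit 5) (nat_lit 213) (nat_lit 5) (nat_lit 207) (nat_lit 5) (nat_lit 493) (nat_lit 452) (nat_lit 255)))) (XT.nd (nat_lit 156) (nat_lit 380) (nat_lit 0) (XT.nd (nat_lit 78) (nat_lit 380) (nat_lit 0) (XT.lf (nat_lit 0) (nat_lit 19164784814)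 (nat_lit 380) (nat_lit 94726661) (nat_lit 456) (nat_lit 18197738018) (nat_lit 201) (nat_lit 5) (nat_lit 206) (nat_lit 5) (nat_lit 207) (nat_lit 5) (nat_lit 494) (nat_lit 452) (nat_lit 254)) (XT.lf (nat_lit 0) (nat_lit 3565917215) (nat_lit 380) (nat_lit 23032990303) (nat_lit 456) (nat_lit 11523404866) (nat_lit 196) (nat_lit 5) (nat_lit 201) (nat_lit 5) (nat_lit 202) (nat_lit 5) (nat_lit 495) (nat_lit 452) (nat_lit 253))) (XT.nd (nat_lit 78) (nat_lit 380) (nat_lit 0) (XT.lf (nat_lit 0) (nat_lit 26450461580) (nat_lit 380) (nat_lit 7891017789) (nat_lit 456) (nat_lit 4460358144) (nat_lit 196) (nat_lit 5) (nat_lit 201) (nat_lit 5) (nat_lit 202) (nat_lit 5) (nat_lit 496) (nat_lit 452) (nat_lit 252)) (XT.lf (nat_lit 0) (nat_lit 2935235402) (nat_lit 380) (nat_lit 28875337076) (nat_lit 76) (nat_lit 7685097073) (nat_lit 191) (nat_lit 5) (nat_lit 196) (nat_lit 5) (nat_lit 192) (nat_lit 5) (nat_lit 497) (nat_lit 452) (nat_lit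 251))))) (XT.nd (nat_lit 312) (nat_lit 988) (nat_lit 0) (XT.nd (nat_lit 156) (nat_lit 304) (nat_lit 0) (XT.nd (nat_lit 78) (nat_lit 380) (nat_lit 0) (XT.lf (nat_lit 0) (nat_lit 10664567906) (nat_lit 380) (nat_lit 5799306940) (nat_lit 76) (nat_lit 23739071403) (nat_lit 191) (nat_lit 5) (nat_lit 196) (nat_lit 5) (nat_lit 192) (nat_lit 5) (nat_lit 498) (nat_lit 452) (nat_lit 250)) (XT.lf (nat_lit 0) (nat_lit 18323068092) (nat_lit 380) (nat_lit 476351112) (nat_lit 456) (nat_lit 22126813029) (nat_lit 186) (nat_lit 5) (nat_lit 191) (nat_lit 5) (nat_lit 192) (nat_lit 5) (nat_lit 499) (nat_lit 452) (nat_lit 249))) (XT.nd (nat_lit 78) (nat_lit 0) (nat_lit 0) (XT.lf (nat_lit 0) (nat_lit 1489797606) (nat_lit 304) (nat_lit 25913230222) (nat_lit 380) (nat_lit 14261447759) (nat_lit 182) (nat_lit 5) (nat_lit 186) (nat_lit 5) (nat_lit 187) (nat_lit 5) (nat_lit 500) (nat_lit 452) (nat_lit 248)) (XT.lf (nat_lit 0) (nat_lit 26760600072)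 (nat_lit 304) (nat_lit 9734636852) (nat_lit 380) (nat_lit 5922714695) (nat_lit 182) (nat_lit 5) (nat_lit 186) (nat_lit 5) (nat_lit 187) (nat_lit 5) (nat_lit 501) (nat_lit 452) (nat_lit 247)))) (XT.nd (nat_lit 156) (nat_lit 608) (nat_lit 0) (XT.nd (nat_lit 78) (nat_lit 0) (nat_lit 0) (XT.lf (nat_lit 0) (nat_lit 2773344938) (nat_lit 380) (nat_lit 33501472073) (nat_lit 76) (nat_lit 6913670444) (nat_lit 177) (nat_lit 5) (nat_lit 182) (nat_lit 5) (nat_lit 178) (nat_lit 5) (nat_lit 502) (nat_lit 452) (nat_lit 246)) (XT.lf (nat_lit 0) (nat_lit 11864950392) (nat_lit 380) (nat_lit 8024764542) (nat_lit 76) (nat_lit 24083054197) (nat_lit 177) (nat_lit 5) (nat_lit 182) (nat_lit 5) (nat_lit 178) (nat_lit 5) (nat_lit 503) (nat_lit 452) (nat_lit 245))) (XT.nd (nat_lit 78) (nat_lit 304) (nat_lit 0) (XT.lf (nat_lit 0) (nat_lit 18575363653) (nat_lit 304) (nat_lit 2830214823) (nat_lit 380) (nat_lit 23369712674) (nat_lit 173) (nat_lit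 5) (nat_lit 177) (nat_lit 5) (nat_lit 178) (nat_lit 5) (nat_lit 504) (nat_lit 452) (nat_lit 244)) (XT.lf (nat_lit 0) (nat_lit 400472633) (nat_lit 304) (nat_lit 31057080251) (nat_lit 380) (nat_lit 14137582243) (nat_lit 169) (nat_lit 5) (nat_lit 173) (nat_lit 5) (nat_lit 174) (nat_lit 5) (nat_lit 505) (nat_lit 452) (nat_lit 243))))))) (XT.nd (nat_lit 1170) (nat_lit 1976) (nat_lit 0) (XT.nd (nat_lit 546) (nat_lit 1292) (nat_lit 0) (XT.nd (nat_lit 234) (nat_lit 912) (nat_lit 0) (XT.nd (nat_lit 78) (nat_lit 380) (nat_lit 0) (XT.lf (nat_lit 0) (nat_lit 28304033858) (nat_lit 304) (nat_lit 13797142416) (nat_lit 380) (nat_lit 4329695575) (nat_lit 169) (nat_lit 5) (nat_lit 173) (nat_lit 5) (nat_lit 174) (nat_lit 5) (nat_lit 506) (nat_lit 452) (nat_lit 242)) (XT.nd (nat_lit 78) (nat_lit 0) (nat_lit 0) (XT.lf (nat_lit 0) (nat_lit 5792390035) (nat_lit 380) (nat_lit 37439796668) (nat_lit 76) (nat_lit 4053851342) (nat_lit 164)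 (nat_lit 5) (nat_lit 169) (nat_lit 5) (nat_lit 165) (nat_lit 5) (nat_lit 507) (nat_lit 452) (nat_lit 241)) (XT.lf (nat_lit 0) (nat_lit 16450418391) (nat_lit 380) (nat_lit 9315870247) (nat_lit 76) (nat_lit 22389705567) (nat_lit 164) (nat_lit 5) (nat_lit 169) (nat_lit 5) (nat_lit 165) (nat_lit 5) (nat_lit 508) (nat_lit 452) (nat_lit 240)))) (XT.nd (nat_lit 156) (nat_lit 380) (nat_lit 0) (XT.nd (nat_lit 78) (nat_lit 228) (nat_lit 0) (XT.lf (nat_lit 0) (nat_lit 20039603323) (nat_lit 304) (nat_lit 7579119671) (nat_lit 380) (nat_lit 21427610098) (nat_lit 160) (nat_lit 5) (nat_lit 164) (nat_lit 5) (nat_lit 165) (nat_lit 5) (nat_lit 509) (nat_lit 452) (nat_lit 239)) (XT.lf (nat_lit 0) (nat_lit 402621328) (nat_lit 228) (nat_lit 38923467149) (nat_lit 304) (nat_lit 10631173421) (nat_lit 157) (nat_lit 5) (nat_lit 160) (nat_lit 5) (nat_lit 161) (nat_lit 5) (nat_lit 510) (nat_lit 452) (nat_lit 238))) (XT.nd (nat_lit 78) (nat_lit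 304) (nat_lit 0) (XT.lf (nat_lit 0) (nat_lit 848394717) (nat_lit 304) (nat_lit 19683756598) (nat_lit 76) (nat_lit 30352162778) (nat_lit 156) (nat_lit 5) (nat_lit 160) (nat_lit 5) (nat_lit 157) (nat_lit 5) (nat_lit 511) (nat_lit 452) (nat_lit 237)) (XT.lf (nat_lit 0) (nat_lit 11193265305) (nat_lit 304) (nat_lit 1370996864) (nat_lit 380) (nat_lit 39268590356) (nat_lit 152) (nat_lit 5) (nat_lit 156) (nat_lit 5) (nat_lit 157) (nat_lit 5) (nat_lit 512) (nat_lit 452) (nat_lit 236))))) (XT.nd (nat_lit 312) (nat_lit 760) (nat_lit 0) (XT.nd (nat_lit 156) (nat_lit 304) (nat_lit 0) (XT.nd (nat_lit 78) (nat_lit 228) (nat_lit 0) (XT.lf (nat_lit 0) (nat_lit 25006885888) (nat_lit 380) (nat_lit 9585460049) (nat_lit 76) (nat_lit 18206242855) (nat_lit 152) (nat_lit 5) (nat_lit 157) (nat_lit 5) (nat_lit 153) (nat_lit 5) (nat_lit 513) (nat_lit 452) (nat_lit 235)) (XT.lf (nat_lit 0) (nat_lit 22829119320) (nat_lit 228) (nat_lit 15224758027)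 (nat_lit 304) (nat_lit 15732487218) (nat_lit 149) (nat_lit 5) (nat_lit 152) (nat_lit 5) (nat_lit 153) (nat_lit 5) (nat_lit 514) (nat_lit 452) (nat_lit 234))) (XT.nd (nat_lit 78) (nat_lit 76) (nat_lit 0) (XT.lf (nat_lit 0) (nat_lit 1593392811) (nat_lit 228) (nat_lit 50055447128) (nat_lit 304) (nat_lit 3150236918) (nat_lit 146) (nat_lit 5) (nat_lit 149) (nat_lit 5) (nat_lit 150) (nat_lit 5) (nat_lit 515) (nat_lit 452) (nat_lit 233)) (XT.lf (nat_lit 0) (nat_lit 10082596363) (nat_lit 304) (nat_lit 20328878774) (nat_lit 76) (nat_lit 25413930604) (nat_lit 145) (nat_lit 5) (nat_lit 149) (nat_lit 5) (nat_lit 146) (nat_lit 5) (nat_lit 516) (nat_lit 452) (nat_lit 232)))) (XT.nd (nat_lit 156) (nat_lit 532) (nat_lit 0) (XT.nd (nat_lit 78) (nat_lit 0) (nat_lit 0) (XT.lf (nat_lit 0) (nat_lit 13768707917) (nat_lit 228) (nat_lit 10010889925) (nat_lit 304) (nat_lit 33098076019) (nat_lit 142) (nat_lit 5) (nat_lit 145) (nat_lit 5)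 (nat_lit 146) (nat_lit 5) (nat_lit 517) (nat_lit 452) (nat_lit 231)) (XT.lf (nat_lit 0) (nat_lit 38198739735) (nat_lit 304) (nat_lit 8760218664) (nat_lit 76) (nat_lit 10993214791) (nat_lit 142) (nat_lit 5) (nat_lit 146) (nat_lit 5) (nat_lit 143) (nat_lit 5) (nat_lit 518) (nat_lit 452) (nat_lit 230))) (XT.nd (nat_lit 78) (nat_lit 304) (nat_lit 0) (XT.lf (nat_lit 0) (nat_lit 27044676736) (nat_lit 228) (nat_lit 26363081281) (nat_lit 304) (nat_lit 5640430492) (nat_lit 139) (nat_lit 5) (nat_lit 142) (nat_lit 5) (nat_lit 143) (nat_lit 5) (nat_lit 519) (nat_lit 452) (nat_lit 229)) (XT.lf (nat_lit 0) (nat_lit 3915947055) (nat_lit 228) (nat_lit 4931623581) (nat_lit 304) (nat_lit 51323192307) (nat_lit 135) (nat_lit 5) (nat_lit 138) (nat_lit 5) (nat_lit 139) (nat_lit 5) (nat_lit 520) (nat_lit 452) (nat_lit 228)))))) (XT.nd (nat_lit 624) (nat_lit 1064) (nat_lit 0) (XT.nd (nat_lit 312) (nat_lit 456) (nat_lit 0) (XT.nd (nat_lit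 156) (nat_lit 228) (nat_lit 0) (XT.nd (nat_lit 78) (nat_lit 228) (nat_lit 0) (XT.lf (nat_lit 0) (nat_lit 24146237709) (nat_lit 304) (nat_lit 19975076678) (nat_lit 76) (nat_lit 17189343127) (nat_lit 135) (nat_lit 5) (nat_lit 139) (nat_lit 5) (nat_lit 136) (nat_lit 5) (nat_lit 521) (nat_lit 452) (nat_lit 227)) (XT.lf (nat_lit 0) (nat_lit 17686484776) (nat_lit 228) (nat_lit 22434506394) (nat_lit 304) (nat_lit 22357244026) (nat_lit 132) (nat_lit 5) (nat_lit 135) (nat_lit 5) (nat_lit 136) (nat_lit 5) (nat_lit 522) (nat_lit 452) (nat_lit 226))) (XT.nd (nat_lit 78) (nat_lit 228) (nat_lit 0) (XT.lf (nat_lit 0) (nat_lit 56776056843) (nat_lit 304) (nat_lit 6791370826) (nat_lit 76) (nat_lit 107380515) (nat_lit 132) (nat_lit 5) (nat_lit 136) (nat_lit 5) (nat_lit 133) (nat_lit 5) (nat_lit 523) (nat_lit 452) (nat_lit 225)) (XT.lf (nat_lit 0) (nat_lit 9388128559) (nat_lit 228) (nat_lit 32219824391) (nat_lit 76) (nat_lit 23280501891)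 (nat_lit 129) (nat_lit 5) (nat_lit 132) (nat_lit 5) (nat_lit 130) (nat_lit 5) (nat_lit 524) (nat_lit 452) (nat_lit 224)))) (XT.nd (nat_lit 156) (nat_lit 228) (nat_lit 0) (XT.nd (nat_lit 78) (nat_lit 0) (nat_lit 0) (XT.lf (nat_lit 0) (nat_lit 7387567063) (nat_lit 228) (nat_lit 18776013716) (nat_lit 304) (nat_lit 39968722321) (nat_lit 126) (nat_lit 5) (nat_lit 129) (nat_lit 5) (nat_lit 130) (nat_lit 5) (nat_lit 525) (nat_lit 452) (nat_lit 223)) (XT.lf (nat_lit 0) (nat_lit 43814809199) (nat_lit 304) (nat_lit 18611657221) (nat_lit 76) (nat_lit 4975825067) (nat_lit 126) (nat_lit 5) (nat_lit 130) (nat_lit 5) (nat_lit 127) (nat_lit 5) (nat_lit 526) (nat_lit 452) (nat_lit 222))) (XT.nd (nat_lit 78) (nat_lit 76) (nat_lit 0) (XT.lf (nat_lit 0) (nat_lit 22985308343) (nat_lit 152) (nat_lit 39415525758) (nat_lit 228) (nat_lit 6297387689) (nat_lit 124) (nat_lit 5) (nat_lit 126) (nat_lit 5) (nat_lit 127) (nat_lit 5) (nat_lit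 527) (nat_lit 452) (nat_lit 221)) (XT.lf (nat_lit 0) (nat_lit 11474997122) (nat_lit 228) (nat_lit 3930939165) (nat_lit 76) (nat_lit 54618127634) (nat_lit 123) (nat_lit 5) (nat_lit 126) (nat_lit 5) (nat_lit 124) (nat_lit 5) (nat_lit 528) (nat_lit 452) (nat_lit 220))))) (XT.nd (nat_lit 312) (nat_lit 380) (nat_lit 0) (XT.nd (nat_lit 156) (nat_lit 304) (nat_lit 0) (XT.nd (nat_lit 78) (nat_lit 152) (nat_lit 0) (XT.lf (nat_lit 0) (nat_lit 30129206404) (nat_lit 304) (nat_lit 31653947837) (nat_lit 76) (nat_lit 9590399887) (nat_lit 120) (nat_lit 5) (nat_lit 124) (nat_lit 5) (nat_lit 121) (nat_lit 5) (nat_lit 529) (nat_lit 452) (nat_lit 219)) (XT.lf (nat_lit 0) (nat_lit 12078003883) (nat_lit 152) (nat_lit 37572230527) (nat_lit 228) (nat_lit 23104078907) (nat_lit 118) (nat_lit 5) (nat_lit 120) (nat_lit 5) (nat_lit 121) (nat_lit 5) (nat_lit 530) (nat_lit 452) (nat_lit 218))) (XT.nd (nat_lit 78) (nat_lit 304) (nat_lit 0) (XT.lf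 (nat_lit 0) (nat_lit 57768150430) (nat_lit 152) (nat_lit 12306874311) (nat_lit 228) (nat_lit 4091926642) (nat_lit 118) (nat_lit 5) (nat_lit 120) (nat_lit 5) (nat_lit 121) (nat_lit 5) (nat_lit 531) (nat_lit 452) (nat_lit 217)) (XT.lf (nat_lit 0) (nat_lit 15607824164) (nat_lit 304) (nat_lit 46111336467) (nat_lit 76) (nat_lit 13885755522) (nat_lit 114) (nat_lit 5) (nat_lit 118) (nat_lit 5) (nat_lit 115) (nat_lit 5) (nat_lit 532) (nat_lit 452) (nat_lit 216)))) (XT.nd (nat_lit 156) (nat_lit 228) (nat_lit 0) (XT.nd (nat_lit 78) (nat_lit 152) (nat_lit 0) (XT.lf (nat_lit 0) (nat_lit 36103935383) (nat_lit 304) (nat_lit 148764078) (nat_lit 76) (nat_lit 40823476675) (nat_lit 114) (nat_lit 5) (nat_lit 118) (nat_lit 5) (nat_lit 115) (nat_lit 5) (nat_lit 533) (nat_lit 452) (nat_lit 215)) (XT.lf (nat_lit 0) (nat_lit 48129338692) (nat_lit 152) (nat_lit 9546808848) (nat_lit 228) (nat_lit 20901589893) (nat_lit 112) (nat_lit 5) (nat_lit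 114) (nat_lit 5) (nat_lit 115) (nat_lit 5) (nat_lit 534) (nat_lit 452) (nat_lit 214))) (XT.nd (nat_lit 78) (nat_lit 0) (nat_lit 0) (XT.lf (nat_lit 0) (nat_lit 123948977) (nat_lit 228) (nat_lit 62206405898) (nat_lit 76) (nat_lit 17783607618) (nat_lit 109) (nat_lit 5) (nat_lit 112) (nat_lit 5) (nat_lit 110) (nat_lit 5) (nat_lit 535) (nat_lit 452) (nat_lit 213)) (XT.lf (nat_lit 0) (nat_lit 21763768586) (nat_lit 228) (nat_lit 13655745164) (nat_lit 76) (nat_lit 46258443728) (nat_lit 109) (nat_lit 5) (nat_lit 112) (nat_lit 5) (nat_lit 110) (nat_lit 5) (nat_lit 536) (nat_lit 452) (nat_lit 212))))))))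
noncomputable def xc202 : XT := (XT.nd (nat_lit 57486) (nat_lit 0) (nat_lit 6460) (XT.nd (nat_lit 56238) (nat_lit 0) (nat_lit 14972) (XT.nd (nat_lit 546) (nat_lit 380) (nat_lit 0) (XT.nd (nat_lit 234) (nat_lit 532) (nat_lit 0) (XT.nd (nat_lit 78) (nat_lit 228) (nat_lit 0) (XT.lf (nat_lit 0) (nat_lit 37072390774) (nat_lit 152) (nat_lit 7335375477) (nat_lit 228) (nat_lit 38870456592) (nat_lit 107) (nat_lit 5) (nat_lit 109) (nat_lit 5) (nat_lit 110) (nat_lit 5) (nat_lit 537) (nat_lit 452) (nat_lit 211)) (XT.nd (nat_lit 78) (nat_lit 76) (nat_lit 0) (XT.lf (nat_lit 0) (nat_lit 4557493085) (nat_lit 152) (nat_lit 63562837785) (nat_lit 228) (nat_lit 16794487927) (nat_lit 105) (nat_lit 5) (nat_lit 107) (nat_lit 5) (nat_lit 108) (nat_lit 5) (nat_lit 538) (nat_lit 452) (nat_lit 210)) (XT.lf (nat_lit 0) (nat_lit 6370241534) (nat_lit 228) (nat_lit 28932475002) (nat_lit 76) (nat_lit 51279808097) (nat_lit 104) (nat_lit 5) (nat_lit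 107) (nat_lit 5) (nat_lit 105) (nat_lit 5) (nat_lit 539) (nat_lit 452) (nat_lit 209)))) (XT.nd (nat_lit 156) (nat_lit 380) (nat_lit 0) (XT.nd (nat_lit 78) (nat_lit 0) (nat_lit 0) (XT.lf (nat_lit 0) (nat_lit 24341430033) (nat_lit 152) (nat_lit 5783585301) (nat_lit 228) (nat_lit 58163278232) (nat_lit 102) (nat_lit 5) (nat_lit 104) (nat_lit 5) (nat_lit 105) (nat_lit 5) (nat_lit 540) (nat_lit 452) (nat_lit 208)) (XT.lf (nat_lit 0) (nat_lit 55122835591) (nat_lit 228) (nat_lit 10471800936) (nat_lit 76) (nat_lit 24434686973) (nat_lit 102) (nat_lit 5) (nat_lit 105) (nat_lit 5) (nat_lit 103) (nat_lit 5) (nat_lit 541) (nat_lit 452) (nat_lit 207))) (XT.nd (nat_lit 78) (nat_lit 228) (nat_lit 0) (XT.lf (nat_lit 0) (nat_lit 45434507371) (nat_lit 152) (nat_lit 35928805171) (nat_lit 228) (nat_lit 10444490161) (nat_lit 100) (nat_lit 5) (nat_lit 102) (nat_lit 5) (nat_lit 103) (nat_lit 5) (nat_lit 542) (nat_lit 452) (nat_lit 206))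 (XT.lf (nat_lit 0) (nat_lit 9639113809) (nat_lit 152) (nat_lit 5022567294) (nat_lit 228) (nat_lit 78967756256) (nat_lit 97) (nat_lit 5) (nat_lit 99) (nat_lit 5) (nat_lit 100) (nat_lit 5) (nat_lit 543) (nat_lit 452) (nat_lit 205))))) (XT.nd (nat_lit 55380) (nat_lit 0) (nat_lit 16492) (XT.nd (nat_lit 156) (nat_lit 228) (nat_lit 0) (XT.nd (nat_lit 78) (nat_lit 152) (nat_lit 0) (XT.lf (nat_lit 0) (nat_lit 41040474020) (nat_lit 228) (nat_lit 27577281557) (nat_lit 76) (nat_lit 26862982369) (nat_lit 97) (nat_lit 5) (nat_lit 100) (nat_lit 5) (nat_lit 98) (nat_lit 5) (nat_lit 544) (nat_lit 452) (nat_lit 204)) (XT.lf (nat_lit 0) (nat_lit 31082685038) (nat_lit 152) (nat_lit 37475219347) (nat_lit 228) (nat_lit 28819254985) (nat_lit 95) (nat_lit 5) (nat_lit 97) (nat_lit 5) (nat_lit 98) (nat_lit 5) (nat_lit 545) (nat_lit 452) (nat_lit 203))) (XT.nd (nat_lit 78) (nat_lit 228) (nat_lit 0) (XT.lf (nat_lit 0) (nat_lit 92065506749)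 (nat_lit 152) (nat_lit 5112601365) (nat_lit 228) (nat_lit 2144047836) (nat_lit 95) (nat_lit 5) (nat_lit 97) (nat_lit 5) (nat_lit 98) (nat_lit 5) (nat_lit 546) (nat_lit 452) (nat_lit 202)) (XT.lf (nat_lit 0) (nat_lit 25637372096) (nat_lit 228) (nat_lit 47213901210) (nat_lit 76) (nat_lit 28442916203) (nat_lit 92) (nat_lit 5) (nat_lit 95) (nat_lit 5) (nat_lit 93) (nat_lit 5) (nat_lit 547) (nat_lit 452) (nat_lit 201)))) (XT.nd (nat_lit 156) (nat_lit 0) (nat_lit 76) (XT.nd (nat_lit 78) (nat_lit 0) (nat_lit 0) (XT.lf (nat_lit 0) (nat_lit 3326163811) (nat_lit 1292) (nat_lit 3229496594) (nat_lit 1292) (nat_lit 3229496594) (nat_lit 309) (nat_lit 3) (nat_lit 326) (nat_lit 3) (nat_lit 326) (nat_lit 5) (nat_lit 453) (nat_lit 453) (nat_lit 294)) (XT.lf (nat_lit 76) (nat_lit 3312436317) (nat_lit 0) (nat_lit 3643454758) (nat_lit 1292) (nat_lit 12901848378) (nat_lit 310) (nat_lit 5) (nat_lit 309) (nat_lit 3) (nat_lit 326) (nat_lit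 5) (nat_lit 454) (nat_lit 453) (nat_lit 293))) (XT.nd (nat_lit 78) (nat_lit 0) (nat_lit 0) (XT.lf (nat_lit 0) (nat_lit 7386435331) (nat_lit 1216) (nat_lit 6705541896) (nat_lit 1292) (nat_lit 6058274844) (nat_lit 310) (nat_lit 5) (nat_lit 326) (nat_lit 5) (nat_lit 327) (nat_lit 5) (nat_lit 455) (nat_lit 453) (nat_lit 292)) (XT.lf (nat_lit 76) (nat_lit 3457150556) (nat_lit 0) (nat_lit 4435533771) (nat_lit 1292) (nat_lit 12556972691) (nat_lit 311) (nat_lit 5) (nat_lit 310) (nat_lit 5) (nat_lit 327) (nat_lit 5) (nat_lit 456) (nat_lit 453) (nat_lit 291)))))) (XT.nd (nat_lit 624) (nat_lit 1672) (nat_lit 0) (XT.nd (nat_lit 312) (nat_lit 0) (nat_lit 152) (XT.nd (nat_lit 156) (nat_lit 0) (nat_lit 76) (XT.nd (nat_lit 78) (nat_lit 0) (nat_lit 0) (XT.lf (nat_lit 0) (nat_lit 8529139210) (nat_lit 1216) (nat_lit 6751305008) (nat_lit 1292) (nat_lit 5474149927) (nat_lit 311) (nat_lit 5) (nat_lit 327) (nat_lit 5) (nat_lit 328) (nat_lit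 5) (nat_lit 457) (nat_lit 453) (nat_lit 290)) (XT.lf (nat_lit 76) (nat_lit 3824118853) (nat_lit 0) (nat_lit 5435093259) (nat_lit 1292) (nat_lit 11807232111) (nat_lit 312) (nat_lit 5) (nat_lit 311) (nat_lit 5) (nat_lit 328) (nat_lit 5) (nat_lit 458) (nat_lit 453) (nat_lit 289))) (XT.nd (nat_lit 78) (nat_lit 0) (nat_lit 0) (XT.lf (nat_lit 0) (nat_lit 10119284966) (nat_lit 1216) (nat_lit 6580198724) (nat_lit 1292) (nat_lit 4684923733) (nat_lit 312) (nat_lit 5) (nat_lit 328) (nat_lit 5) (nat_lit 329) (nat_lit 5) (nat_lit 459) (nat_lit 453) (nat_lit 288)) (XT.lf (nat_lit 76) (nat_lit 4430663872) (nat_lit 0) (nat_lit 6665088060) (nat_lit 1292) (nat_lit 10613440365) (nat_lit 313) (nat_lit 5) (nat_lit 312) (nat_lit 5) (nat_lit 329) (nat_lit 5) (nat_lit 460) (nat_lit 453) (nat_lit 287)))) (XT.nd (nat_lit 156) (nat_lit 0) (nat_lit 76) (XT.nd (nat_lit 78) (nat_lit 0) (nat_lit 0) (XT.lf (nat_lit 0) (nat_lit 12198240329) (nat_lit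 1216) (nat_lit 6174852552) (nat_lit 1292) (nat_lit 3667726532) (nat_lit 313) (nat_lit 5) (nat_lit 329) (nat_lit 5) (nat_lit 330) (nat_lit 5) (nat_lit 461) (nat_lit 453) (nat_lit 286)) (XT.lf (nat_lit 76) (nat_lit 5295464780) (nat_lit 0) (nat_lit 8149738520) (nat_lit 1292) (nat_lit 8933850550) (nat_lit 314) (nat_lit 5) (nat_lit 313) (nat_lit 5) (nat_lit 330) (nat_lit 5) (nat_lit 462) (nat_lit 453) (nat_lit 285))) (XT.nd (nat_lit 78) (nat_lit 0) (nat_lit 0) (XT.lf (nat_lit 0) (nat_lit 14810072289) (nat_lit 1216) (nat_lit 5516544090) (nat_lit 1292) (nat_lit 2398404517) (nat_lit 314) (nat_lit 5) (nat_lit 330) (nat_lit 5) (nat_lit 331) (nat_lit 5) (nat_lit 463) (nat_lit 453) (nat_lit 284)) (XT.lf (nat_lit 76) (nat_lit 6438626610) (nat_lit 0) (nat_lit 9914644012) (nat_lit 1292) (nat_lit 6723975309) (nat_lit 315) (nat_lit 5) (nat_lit 314) (nat_lit 5) (nat_lit 331) (nat_lit 5) (nat_lit 464) (nat_lit 453) (nat_lit 283)))))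 (XT.nd (nat_lit 312) (nat_lit 1976) (nat_lit 0) (XT.nd (nat_lit 156) (nat_lit 0) (nat_lit 0) (XT.nd (nat_lit 78) (nat_lit 0) (nat_lit 0) (XT.lf (nat_lit 0) (nat_lit 18001734004) (nat_lit 1216) (nat_lit 4585128798) (nat_lit 1292) (nat_lit 851406303) (nat_lit 315) (nat_lit 5) (nat_lit 331) (nat_lit 5) (nat_lit 332) (nat_lit 5) (nat_lit 465) (nat_lit 453) (nat_lit 282)) (XT.lf (nat_lit 76) (nat_lit 7881754833) (nat_lit 0) (nat_lit 11986901282) (nat_lit 1292) (nat_lit 3936397163) (nat_lit 316) (nat_lit 5) (nat_lit 315) (nat_lit 5) (nat_lit 332) (nat_lit 5) (nat_lit 466) (nat_lit 453) (nat_lit 281))) (XT.nd (nat_lit 78) (nat_lit 0) (nat_lit 76) (XT.lf (nat_lit 76) (nat_lit 20812825105) (nat_lit 0) (nat_lit 1020244177) (nat_lit 1292) (nat_lit 2348527628) (nat_lit 316) (nat_lit 5) (nat_lit 315) (nat_lit 5) (nat_lit 332) (nat_lit 5) (nat_lit 467) (nat_lit 453) (nat_lit 280)) (XT.lf (nat_lit 76) (nat_lit 9648035341) (nat_lit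 0) (nat_lit 14395228166) (nat_lit 1292) (nat_lit 520568307) (nat_lit 317) (nat_lit 5) (nat_lit 316) (nat_lit 5) (nat_lit 333) (nat_lit 5) (nat_lit 468) (nat_lit 453) (nat_lit 279)))) (XT.nd (nat_lit 156) (nat_lit 760) (nat_lit 0) (XT.nd (nat_lit 78) (nat_lit 0) (nat_lit 76) (XT.lf (nat_lit 0) (nat_lit 1375489979) (nat_lit 1292) (nat_lit 1859546975) (nat_lit 1368) (nat_lit 21720909106) (nat_lit 299) (nat_lit 5) (nat_lit 316) (nat_lit 5) (nat_lit 317) (nat_lit 5) (nat_lit 469) (nat_lit 453) (nat_lit 278)) (XT.lf (nat_lit 0) (nat_lit 3507592885) (nat_lit 1292) (nat_lit 13627080507) (nat_lit 76) (nat_lit 8219307331) (nat_lit 300) (nat_lit 5) (nat_lit 317) (nat_lit 5) (nat_lit 301) (nat_lit 5) (nat_lit 470) (nat_lit 453) (nat_lit 277))) (XT.nd (nat_lit 78) (nat_lit 836) (nat_lit 0) (XT.lf (nat_lit 0) (nat_lit 5750273472) (nat_lit 1292) (nat_lit 40440644) (nat_lit 76) (nat_lit 19971844246) (nat_lit 300) (nat_lit 5) (nat_lit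 317) (nat_lit 5) (nat_lit 301) (nat_lit 5) (nat_lit 471) (nat_lit 453) (nat_lit 276)) (XT.lf (nat_lit 0) (nat_lit 8250758964) (nat_lit 912) (nat_lit 12009776269) (nat_lit 76) (nat_lit 5917142729) (nat_lit 289) (nat_lit 5) (nat_lit 301) (nat_lit 5) (nat_lit 290) (nat_lit 5) (nat_lit 472) (nat_lit 453) (nat_lit 275))))))) (XT.nd (nat_lit 1170) (nat_lit 4028) (nat_lit 0) (XT.nd (nat_lit 546) (nat_lit 2052) (nat_lit 0) (XT.nd (nat_lit 234) (nat_lit 1216) (nat_lit 0) (XT.nd (nat_lit 78) (nat_lit 608) (nat_lit 0) (XT.lf (nat_lit 0) (nat_lit 2179404346) (nat_lit 608) (nat_lit 8721390975) (nat_lit 684) (nat_lit 15702220092) (nat_lit 281) (nat_lit 5) (nat_lit 289) (nat_lit 5) (nat_lit 290) (nat_lit 5) (nat_lit 473) (nat_lit 453) (nat_lit 274)) (XT.nd (nat_lit 78) (nat_lit 608) (nat_lit 0) (XT.lf (nat_lit 0) (nat_lit 13779149284) (nat_lit 684) (nat_lit 10032597297) (nat_lit 76) (nat_lit 3224902255) (nat_lit 281) (nat_lit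 5) (nat_lit 290) (nat_lit 5) (nat_lit 282) (nat_lit 5) (nat_lit 474) (nat_lit 453) (nat_lit 273)) (XT.lf (nat_lit 0) (nat_lit 4793492819) (nat_lit 608) (nat_lit 12078835040) (nat_lit 684) (nat_lit 10607109519) (nat_lit 273) (nat_lit 5) (nat_lit 281) (nat_lit 5) (nat_lit 282) (nat_lit 5) (nat_lit 475) (nat_lit 453) (nat_lit 272)))) (XT.nd (nat_lit 156) (nat_lit 684) (nat_lit 0) (XT.nd (nat_lit 78) (nat_lit 532) (nat_lit 0) (XT.lf (nat_lit 0) (nat_lit 20156797603) (nat_lit 684) (nat_lit 7667429184) (nat_lit 76) (nat_lit 108328236) (nat_lit 273) (nat_lit 5) (nat_lit 282) (nat_lit 5) (nat_lit 274) (nat_lit 5) (nat_lit 476) (nat_lit 453) (nat_lit 271)) (XT.lf (nat_lit 0) (nat_lit 7831053924) (nat_lit 532) (nat_lit 15899854585) (nat_lit 608) (nat_lit 4662624793) (nat_lit 266) (nat_lit 5) (nat_lit 273) (nat_lit 5) (nat_lit 274) (nat_lit 5) (nat_lit 477) (nat_lit 453) (nat_lit 270))) (XT.nd (nat_lit 78) (nat_lit 684) (nat_lit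 0) (XT.lf (nat_lit 0) (nat_lit 23947896266) (nat_lit 532) (nat_lit 3538083580) (nat_lit 608) (nat_lit 1380149273) (nat_lit 266) (nat_lit 5) (nat_lit 273) (nat_lit 5) (nat_lit 274) (nat_lit 5) (nat_lit 478) (nat_lit 453) (nat_lit 269)) (XT.lf (nat_lit 0) (nat_lit 2157330928) (nat_lit 684) (nat_lit 18044078172) (nat_lit 76) (nat_lit 9145049816) (nat_lit 257) (nat_lit 5) (nat_lit 266) (nat_lit 5) (nat_lit 258) (nat_lit 5) (nat_lit 479) (nat_lit 453) (nat_lit 268))))) (XT.nd (nat_lit 312) (nat_lit 988) (nat_lit 0) (XT.nd (nat_lit 156) (nat_lit 532) (nat_lit 0) (XT.nd (nat_lit 78) (nat_lit 532) (nat_lit 0) (XT.lf (nat_lit 0) (nat_lit 5854833865) (nat_lit 684) (nat_lit 1782265262) (nat_lit 76) (nat_lit 22201240673) (nat_lit 257) (nat_lit 5) (nat_lit 266) (nat_lit 5) (nat_lit 258) (nat_lit 5) (nat_lit 480) (nat_lit 453) (nat_lit 267)) (XT.lf (nat_lit 0) (nat_lit 9858956295) (nat_lit 608) (nat_lit 15131597687) (nat_lit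 76) (nat_lit 5348552569) (nat_lit 250) (nat_lit 5) (nat_lit 258) (nat_lit 5) (nat_lit 251) (nat_lit 5) (nat_lit 481) (nat_lit 453) (nat_lit 266))) (XT.nd (nat_lit 78) (nat_lit 0) (nat_lit 0) (XT.lf (nat_lit 0) (nat_lit 1845622907) (nat_lit 532) (nat_lit 12245728317) (nat_lit 608) (nat_lit 16760300880) (nat_lit 243) (nat_lit 5) (nat_lit 250) (nat_lit 5) (nat_lit 251) (nat_lit 5) (nat_lit 482) (nat_lit 453) (nat_lit 265)) (XT.lf (nat_lit 0) (nat_lit 18610179437) (nat_lit 608) (nat_lit 11746445407) (nat_lit 76) (nat_lit 1018165589) (nat_lit 243) (nat_lit 5) (nat_lit 251) (nat_lit 5) (nat_lit 244) (nat_lit 5) (nat_lit 483) (nat_lit 453) (nat_lit 264)))) (XT.nd (nat_lit 156) (nat_lit 532) (nat_lit 0) (XT.nd (nat_lit 78) (nat_lit 0) (nat_lit 0) (XT.lf (nat_lit 0) (nat_lit 6023520099) (nat_lit 456) (nat_lit 17416971946) (nat_lit 532) (nat_lit 8467853531) (nat_lit 237) (nat_lit 5) (nat_lit 243) (nat_lit 5) (nat_lit 244)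 (nat_lit 5) (nat_lit 484) (nat_lit 453) (nat_lit 263)) (XT.lf (nat_lit 0) (nat_lit 24563709942) (nat_lit 456) (nat_lit 3967451870) (nat_lit 532) (nat_lit 3923282369) (nat_lit 237) (nat_lit 5) (nat_lit 243) (nat_lit 5) (nat_lit 244) (nat_lit 5) (nat_lit 485) (nat_lit 453) (nat_lit 262))) (XT.nd (nat_lit 78) (nat_lit 0) (nat_lit 0) (XT.lf (nat_lit 0) (nat_lit 940098447) (nat_lit 532) (nat_lit 22265919191) (nat_lit 76) (nat_lit 9804772153) (nat_lit 230) (nat_lit 5) (nat_lit 237) (nat_lit 5) (nat_lit 231) (nat_lit 5) (nat_lit 486) (nat_lit 453) (nat_lit 261)) (XT.lf (nat_lit 0) (nat_lit 5987222359) (nat_lit 532) (nat_lit 3562726096) (nat_lit 76) (nat_lit 24029211332) (nat_lit 230) (nat_lit 5) (nat_lit 237) (nat_lit 5) (nat_lit 231) (nat_lit 5) (nat_lit 487) (nat_lit 453) (nat_lit 260)))))) (XT.nd (nat_lit 624) (nat_lit 1824) (nat_lit 0) (XT.nd (nat_lit 312) (nat_lit 912) (nat_lit 0) (XT.nd (nat_lit 156) (nat_lit 380)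 (nat_lit 0) (XT.nd (nat_lit 78) (nat_lit 456) (nat_lit 0) (XT.lf (nat_lit 0) (nat_lit 11381621824) (nat_lit 532) (nat_lit 18194560715) (nat_lit 76) (nat_lit 4582522702) (nat_lit 224) (nat_lit 5) (nat_lit 231) (nat_lit 5) (nat_lit 225) (nat_lit 5) (nat_lit 488) (nat_lit 453) (nat_lit 259)) (XT.lf (nat_lit 0) (nat_lit 1322582613) (nat_lit 456) (nat_lit 15755950595) (nat_lit 532) (nat_lit 17672883662) (nat_lit 218) (nat_lit 5) (nat_lit 224) (nat_lit 5) (nat_lit 225) (nat_lit 5) (nat_lit 489) (nat_lit 453) (nat_lit 258))) (XT.nd (nat_lit 78) (nat_lit 380) (nat_lit 0) (XT.lf (nat_lit 0) (nat_lit 21794634819) (nat_lit 456) (nat_lit 1332576948) (nat_lit 532) (nat_lit 12229272486) (nat_lit 218) (nat_lit 5) (nat_lit 224) (nat_lit 5) (nat_lit 225) (nat_lit 5) (nat_lit 490) (nat_lit 453) (nat_lit 257)) (XT.lf (nat_lit 0) (nat_lit 6902288197) (nat_lit 380) (nat_lit 22648615068) (nat_lit 456) (nat_lit 6422994012) (nat_lit 213)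 (nat_lit 5) (nat_lit 218) (nat_lit 5) (nat_lit 219) (nat_lit 5) (nat_lit 491) (nat_lit 453) (nat_lit 256)))) (XT.nd (nat_lit 156) (nat_lit 380) (nat_lit 0) (XT.nd (nat_lit 78) (nat_lit 532) (nat_lit 0) (XT.lf (nat_lit 0) (nat_lit 28241383855) (nat_lit 380) (nat_lit 8073189207) (nat_lit 456) (nat_lit 290841793) (nat_lit 213) (nat_lit 5) (nat_lit 218) (nat_lit 5) (nat_lit 219) (nat_lit 5) (nat_lit 492) (nat_lit 453) (nat_lit 255)) (XT.lf (nat_lit 0) (nat_lit 6100037606) (nat_lit 532) (nat_lit 24158758597) (nat_lit 76) (nat_lit 6989574255) (nat_lit 206) (nat_lit 5) (nat_lit 213) (nat_lit 5) (nat_lit 207) (nat_lit 5) (nat_lit 493) (nat_lit 453) (nat_lit 254))) (XT.nd (nat_lit 78) (nat_lit 380) (nat_lit 0) (XT.lf (nat_lit 0) (nat_lit 12839373106) (nat_lit 532) (nat_lit 2636914632) (nat_lit 76) (nat_lit 22429363516) (nat_lit 206) (nat_lit 5) (nat_lit 213) (nat_lit 5) (nat_lit 207) (nat_lit 5) (nat_lit 494) (nat_lit 453)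 (nat_lit 253)) (XT.lf (nat_lit 0) (nat_lit 19915812200) (nat_lit 380) (nat_lit 53942963) (nat_lit 456) (nat_lit 18607229484) (nat_lit 201) (nat_lit 5) (nat_lit 206) (nat_lit 5) (nat_lit 207) (nat_lit 5) (nat_lit 495) (nat_lit 453) (nat_lit 252))))) (XT.nd (nat_lit 312) (nat_lit 1064) (nat_lit 0) (XT.nd (nat_lit 156) (nat_lit 380) (nat_lit 0) (XT.nd (nat_lit 78) (nat_lit 0) (nat_lit 0) (XT.lf (nat_lit 0) (nat_lit 3850780305) (nat_lit 380) (nat_lit 23676811858) (nat_lit 456) (nat_lit 11734459740) (nat_lit 196) (nat_lit 5) (nat_lit 201) (nat_lit 5) (nat_lit 202) (nat_lit 5) (nat_lit 496) (nat_lit 453) (nat_lit 251)) (XT.lf (nat_lit 0) (nat_lit 27416679868) (nat_lit 380) (nat_lit 8081953999) (nat_lit 456) (nat_lit 4463443382) (nat_lit 196) (nat_lit 5) (nat_lit 201) (nat_lit 5) (nat_lit 202) (nat_lit 5) (nat_lit 497) (nat_lit 453) (nat_lit 250))) (XT.nd (nat_lit 78) (nat_lit 0) (nat_lit 0) (XT.lf (nat_lit 0) (nat_lit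 3149858003) (nat_lit 380) (nat_lit 29564717306) (nat_lit 76) (nat_lit 7962159740) (nat_lit 191) (nat_lit 5) (nat_lit 196) (nat_lit 5) (nat_lit 192) (nat_lit 5) (nat_lit 498) (nat_lit 453) (nat_lit 249)) (XT.lf (nat_lit 0) (nat_lit 11107384108) (nat_lit 380) (nat_lit 5801558106) (nat_lit 76) (nat_lit 24496398646) (nat_lit 191) (nat_lit 5) (nat_lit 196) (nat_lit 5) (nat_lit 192) (nat_lit 5) (nat_lit 499) (nat_lit 453) (nat_lit 248)))) (XT.nd (nat_lit 156) (nat_lit 380) (nat_lit 0) (XT.nd (nat_lit 78) (nat_lit 304) (nat_lit 0) (XT.lf (nat_lit 0) (nat_lit 19042804567) (nat_lit 380) (nat_lit 441531943) (nat_lit 456) (nat_lit 22666047462) (nat_lit 186) (nat_lit 5) (nat_lit 191) (nat_lit 5) (nat_lit 192) (nat_lit 5) (nat_lit 500) (nat_lit 453) (nat_lit 247)) (XT.lf (nat_lit 0) (nat_lit 1706001009) (nat_lit 304) (nat_lit 26638636992) (nat_lit 380) (nat_lit 14566179299) (nat_lit 182) (nat_lit 5) (nat_lit 186) (nat_lit 5)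 (nat_lit 187) (nat_lit 5) (nat_lit 501) (nat_lit 453) (nat_lit 246))) (XT.nd (nat_lit 78) (nat_lit 380) (nat_lit 0) (XT.lf (nat_lit 0) (nat_lit 27729932127) (nat_lit 304) (nat_lit 9976200096) (nat_lit 380) (nat_lit 5980870026) (nat_lit 182) (nat_lit 5) (nat_lit 186) (nat_lit 5) (nat_lit 187) (nat_lit 5) (nat_lit 502) (nat_lit 453) (nat_lit 245)) (XT.lf (nat_lit 0) (nat_lit 2972430837) (nat_lit 380) (nat_lit 34336348664) (nat_lit 76) (nat_lit 7171879627) (nat_lit 177) (nat_lit 5) (nat_lit 182) (nat_lit 5) (nat_lit 178) (nat_lit 5) (nat_lit 503) (nat_lit 453) (nat_lit 244))))))))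
noncomputable def xc203 : XT := (XT.nd (nat_lit 2418) (nat_lit 1444) (nat_lit 0) (XT.nd (nat_lit 1170) (nat_lit 2128) (nat_lit 0) (XT.nd (nat_lit 546) (nat_lit 1368) (nat_lit 0) (XT.nd (nat_lit 234) (nat_lit 684) (nat_lit 0) (XT.nd (nat_lit 78) (nat_lit 608) (nat_lit 0) (XT.lf (nat_lit 0) (nat_lit 12333409148) (nat_lit 380) (nat_lit 8100296244) (nat_lit 76) (nat_lit 24854865308) (nat_lit 177) (nat_lit 5) (nat_lit 182) (nat_lit 5) (nat_lit 178) (nat_lit 5) (nat_lit 504) (nat_lit 453) (nat_lit 243)) (XT.nd (nat_lit 78) (nat_lit 304) (nat_lit 0) (XT.lf (nat_lit 0) (nat_lit 19296216079) (nat_lit 304) (nat_lit 2862335539) (nat_lit 380) (nat_lit 23956668075) (nat_lit 173) (nat_lit 5) (nat_lit 177) (nat_lit 5) (nat_lit 178) (nat_lit 5) (nat_lit 505) (nat_lit 453) (nat_lit 242)) (XT.lf (nat_lit 0) (nat_lit 577269598) (nat_lit 304) (nat_lit 31933664930) (nat_lit 380) (nat_lit 14448759158) (nat_lit 169) (nat_lit 5) (nat_lit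 173) (nat_lit 5) (nat_lit 174) (nat_lit 5) (nat_lit 506) (nat_lit 453) (nat_lit 241)))) (XT.nd (nat_lit 156) (nat_lit 304) (nat_lit 0) (XT.nd (nat_lit 78) (nat_lit 380) (nat_lit 0) (XT.lf (nat_lit 0) (nat_lit 29313138161) (nat_lit 304) (nat_lit 14157534622) (nat_lit 380) (nat_lit 4349925713) (nat_lit 169) (nat_lit 5) (nat_lit 173) (nat_lit 5) (nat_lit 174) (nat_lit 5) (nat_lit 507) (nat_lit 453) (nat_lit 240)) (XT.lf (nat_lit 0) (nat_lit 6072619030) (nat_lit 380) (nat_lit 38399792991) (nat_lit 76) (nat_lit 4229008101) (nat_lit 164) (nat_lit 5) (nat_lit 169) (nat_lit 5) (nat_lit 165) (nat_lit 5) (nat_lit 508) (nat_lit 453) (nat_lit 239))) (XT.nd (nat_lit 78) (nat_lit 304) (nat_lit 0) (XT.lf (nat_lit 0) (nat_lit 17047287538) (nat_lit 380) (nat_lit 9436902105) (nat_lit 76) (nat_lit 23113378499) (nat_lit 164) (nat_lit 5) (nat_lit 169) (nat_lit 5) (nat_lit 165) (nat_lit 5) (nat_lit 509) (nat_lit 453) (nat_lit 238))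 (XT.lf (nat_lit 0) (nat_lit 20797682298) (nat_lit 304) (nat_lit 7751456727) (nat_lit 380) (nat_lit 21965523391) (nat_lit 160) (nat_lit 5) (nat_lit 164) (nat_lit 5) (nat_lit 165) (nat_lit 5) (nat_lit 510) (nat_lit 453) (nat_lit 237))))) (XT.nd (nat_lit 312) (nat_lit 760) (nat_lit 0) (XT.nd (nat_lit 156) (nat_lit 304) (nat_lit 0) (XT.nd (nat_lit 78) (nat_lit 76) (nat_lit 0) (XT.lf (nat_lit 0) (nat_lit 572559502) (nat_lit 228) (nat_lit 40034230416) (nat_lit 304) (nat_lit 10846157380) (nat_lit 157) (nat_lit 5) (nat_lit 160) (nat_lit 5) (nat_lit 161) (nat_lit 5) (nat_lit 511) (nat_lit 453) (nat_lit 236)) (XT.lf (nat_lit 0) (nat_lit 972800714) (nat_lit 304) (nat_lit 20119033618) (nat_lit 76) (nat_lit 31316035947) (nat_lit 156) (nat_lit 5) (nat_lit 160) (nat_lit 5) (nat_lit 157) (nat_lit 5) (nat_lit 512) (nat_lit 453) (nat_lit 235))) (XT.nd (nat_lit 78) (nat_lit 0) (nat_lit 0) (XT.lf (nat_lit 0) (nat_lit 11682777023)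 (nat_lit 304) (nat_lit 1355962597) (nat_lit 380) (nat_lit 40346167515) (nat_lit 152) (nat_lit 5) (nat_lit 156) (nat_lit 5) (nat_lit 157) (nat_lit 5) (nat_lit 513) (nat_lit 453) (nat_lit 234)) (XT.lf (nat_lit 0) (nat_lit 25852324961) (nat_lit 380) (nat_lit 9721465754) (nat_lit 76) (nat_lit 18805894420) (nat_lit 152) (nat_lit 5) (nat_lit 157) (nat_lit 5) (nat_lit 153) (nat_lit 5) (nat_lit 514) (nat_lit 453) (nat_lit 233)))) (XT.nd (nat_lit 156) (nat_lit 304) (nat_lit 0) (XT.nd (nat_lit 78) (nat_lit 228) (nat_lit 0) (XT.lf (nat_lit 0) (nat_lit 23664065133) (nat_lit 228) (nat_lit 15625329855) (nat_lit 304) (nat_lit 16107739254) (nat_lit 149) (nat_lit 5) (nat_lit 152) (nat_lit 5) (nat_lit 153) (nat_lit 5) (nat_lit 515) (nat_lit 453) (nat_lit 232)) (XT.lf (nat_lit 0) (nat_lit 1792054478) (nat_lit 228) (nat_lit 51499391370) (nat_lit 304) (nat_lit 3148804996) (nat_lit 146) (nat_lit 5) (nat_lit 149) (nat_lit 5) (nat_lit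 150) (nat_lit 5) (nat_lit 516) (nat_lit 453) (nat_lit 231))) (XT.nd (nat_lit 78) (nat_lit 228) (nat_lit 0) (XT.lf (nat_lit 0) (nat_lit 10476401354) (nat_lit 304) (nat_lit 20790457782) (nat_lit 76) (nat_lit 26230565102) (nat_lit 145) (nat_lit 5) (nat_lit 149) (nat_lit 5) (nat_lit 146) (nat_lit 5) (nat_lit 517) (nat_lit 453) (nat_lit 230)) (XT.lf (nat_lit 0) (nat_lit 14328602713) (nat_lit 228) (nat_lit 10254461606) (nat_lit 304) (nat_lit 33998233652) (nat_lit 142) (nat_lit 5) (nat_lit 145) (nat_lit 5) (nat_lit 146) (nat_lit 5) (nat_lit 518) (nat_lit 453) (nat_lit 229)))))) (XT.nd (nat_lit 624) (nat_lit 912) (nat_lit 0) (XT.nd (nat_lit 312) (nat_lit 684) (nat_lit 0) (XT.nd (nat_lit 156) (nat_lit 304) (nat_lit 0) (XT.nd (nat_lit 78) (nat_lit 228) (nat_lit 0) (XT.lf (nat_lit 0) (nat_lit 39432686496) (nat_lit 304) (nat_lit 8878370757) (nat_lit 76) (nat_lit 11377037955) (nat_lit 142) (nat_lit 5) (nat_lit 146) (nat_lit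 5) (nat_lit 143) (nat_lit 5) (nat_lit 519) (nat_lit 453) (nat_lit 228)) (XT.lf (nat_lit 0) (nat_lit 27999253324) (nat_lit 228) (nat_lit 27097536220) (nat_lit 304) (nat_lit 5720237123) (nat_lit 139) (nat_lit 5) (nat_lit 142) (nat_lit 5) (nat_lit 143) (nat_lit 5) (nat_lit 520) (nat_lit 453) (nat_lit 227))) (XT.nd (nat_lit 78) (nat_lit 0) (nat_lit 0) (XT.lf (nat_lit 0) (nat_lit 4176988408) (nat_lit 228) (nat_lit 5022497756) (nat_lit 304) (nat_lit 52773801684) (nat_lit 135) (nat_lit 5) (nat_lit 138) (nat_lit 5) (nat_lit 139) (nat_lit 5) (nat_lit 521) (nat_lit 453) (nat_lit 226)) (XT.lf (nat_lit 0) (nat_lit 24955126825) (nat_lit 304) (nat_lit 20432957823) (nat_lit 76) (nat_lit 17759354297) (nat_lit 135) (nat_lit 5) (nat_lit 139) (nat_lit 5) (nat_lit 136) (nat_lit 5) (nat_lit 522) (nat_lit 453) (nat_lit 225)))) (XT.nd (nat_lit 156) (nat_lit 456) (nat_lit 0) (XT.nd (nat_lit 78) (nat_lit 0) (nat_lit 0) (XT.lf (nat_lit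 0) (nat_lit 18357064482) (nat_lit 228) (nat_lit 23050942808) (nat_lit 304) (nat_lit 22942070230) (nat_lit 132) (nat_lit 5) (nat_lit 135) (nat_lit 5) (nat_lit 136) (nat_lit 5) (nat_lit 523) (nat_lit 453) (nat_lit 224)) (XT.lf (nat_lit 0) (nat_lit 58560824419) (nat_lit 304) (nat_lit 6857300463) (nat_lit 76) (nat_lit 164479923) (nat_lit 132) (nat_lit 5) (nat_lit 136) (nat_lit 5) (nat_lit 133) (nat_lit 5) (nat_lit 524) (nat_lit 453) (nat_lit 223))) (XT.nd (nat_lit 78) (nat_lit 228) (nat_lit 0) (XT.lf (nat_lit 0) (nat_lit 9750995835) (nat_lit 228) (nat_lit 33048339347) (nat_lit 76) (nat_lit 24033333727) (nat_lit 129) (nat_lit 5) (nat_lit 132) (nat_lit 5) (nat_lit 130) (nat_lit 5) (nat_lit 525) (nat_lit 453) (nat_lit 222)) (XT.lf (nat_lit 0) (nat_lit 7745920127) (nat_lit 228) (nat_lit 19282740059) (nat_lit 304) (nat_lit 41085204059) (nat_lit 126) (nat_lit 5) (nat_lit 129) (nat_lit 5) (nat_lit 130) (nat_lit 5) (nat_lit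 526) (nat_lit 453) (nat_lit 221))))) (XT.nd (nat_lit 312) (nat_lit 456) (nat_lit 0) (XT.nd (nat_lit 156) (nat_lit 304) (nat_lit 0) (XT.nd (nat_lit 78) (nat_lit 152) (nat_lit 0) (XT.lf (nat_lit 0) (nat_lit 45207618149) (nat_lit 304) (nat_lit 19035453181) (nat_lit 76) (nat_lit 5178935252) (nat_lit 126) (nat_lit 5) (nat_lit 130) (nat_lit 5) (nat_lit 127) (nat_lit 5) (nat_lit 527) (nat_lit 453) (nat_lit 220)) (XT.lf (nat_lit 0) (nat_lit 23808102195) (nat_lit 152) (nat_lit 40542119869) (nat_lit 228) (nat_lit 6406622861) (nat_lit 124) (nat_lit 5) (nat_lit 126) (nat_lit 5) (nat_lit 127) (nat_lit 5) (nat_lit 528) (nat_lit 453) (nat_lit 219))) (XT.nd (nat_lit 78) (nat_lit 228) (nat_lit 0) (XT.lf (nat_lit 0) (nat_lit 11895102850) (nat_lit 228) (nat_lit 3918001199) (nat_lit 76) (nat_lit 56309403635) (nat_lit 123) (nat_lit 5) (nat_lit 126) (nat_lit 5) (nat_lit 124) (nat_lit 5) (nat_lit 529) (nat_lit 453) (nat_lit 218)) (XT.lf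 (nat_lit 0) (nat_lit 31108500375) (nat_lit 304) (nat_lit 32472259688) (nat_lit 76) (nat_lit 9931735748) (nat_lit 120) (nat_lit 5) (nat_lit 124) (nat_lit 5) (nat_lit 121) (nat_lit 5) (nat_lit 530) (nat_lit 453) (nat_lit 217)))) (XT.nd (nat_lit 156) (nat_lit 304) (nat_lit 0) (XT.nd (nat_lit 78) (nat_lit 0) (nat_lit 0) (XT.lf (nat_lit 0) (nat_lit 12570363264) (nat_lit 152) (nat_lit 38643849147) (nat_lit 228) (nat_lit 23720493839) (nat_lit 118) (nat_lit 5) (nat_lit 120) (nat_lit 5) (nat_lit 121) (nat_lit 5) (nat_lit 531) (nat_lit 453) (nat_lit 216)) (XT.lf (nat_lit 0) (nat_lit 59627427239) (nat_lit 152) (nat_lit 12622150157) (nat_lit 228) (nat_lit 4140211204) (nat_lit 118) (nat_lit 5) (nat_lit 120) (nat_lit 5) (nat_lit 121) (nat_lit 5) (nat_lit 532) (nat_lit 453) (nat_lit 215))) (XT.nd (nat_lit 78) (nat_lit 0) (nat_lit 0) (XT.lf (nat_lit 0) (nat_lit 16148689696) (nat_lit 304) (nat_lit 47366597493) (nat_lit 76) (nat_lit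 14355595385) (nat_lit 114) (nat_lit 5) (nat_lit 118) (nat_lit 5) (nat_lit 115) (nat_lit 5) (nat_lit 533) (nat_lit 453) (nat_lit 214)) (XT.lf (nat_lit 0) (nat_lit 37257568792) (nat_lit 304) (nat_lit 28878391) (nat_lit 76) (nat_lit 42099896701) (nat_lit 114) (nat_lit 5) (nat_lit 118) (nat_lit 5) (nat_lit 115) (nat_lit 5) (nat_lit 534) (nat_lit 453) (nat_lit 213))))))) (XT.nd (nat_lit 56394) (nat_lit 0) (nat_lit 14744) (XT.nd (nat_lit 624) (nat_lit 532) (nat_lit 0) (XT.nd (nat_lit 312) (nat_lit 380) (nat_lit 0) (XT.nd (nat_lit 156) (nat_lit 152) (nat_lit 0) (XT.nd (nat_lit 78) (nat_lit 228) (nat_lit 0) (XT.lf (nat_lit 0) (nat_lit 49696348358) (nat_lit 152) (nat_lit 9779728706) (nat_lit 228) (nat_lit 21456901123) (nat_lit 112) (nat_lit 5) (nat_lit 114) (nat_lit 5) (nat_lit 115) (nat_lit 5) (nat_lit 535) (nat_lit 453) (nat_lit 212)) (XT.lf (nat_lit 0) (nat_lit 197658287) (nat_lit 228) (nat_lit 63947719086) (nat_lit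 76) (nat_lit 18369902370) (nat_lit 109) (nat_lit 5) (nat_lit 112) (nat_lit 5) (nat_lit 110) (nat_lit 5) (nat_lit 536) (nat_lit 453) (nat_lit 211))) (XT.nd (nat_lit 78) (nat_lit 152) (nat_lit 0) (XT.lf (nat_lit 0) (nat_lit 22484633915) (nat_lit 228) (nat_lit 13944175782) (nat_lit 76) (nat_lit 47697446091) (nat_lit 109) (nat_lit 5) (nat_lit 112) (nat_lit 5) (nat_lit 110) (nat_lit 5) (nat_lit 537) (nat_lit 453) (nat_lit 210)) (XT.lf (nat_lit 0) (nat_lit 38304615590) (nat_lit 152) (nat_lit 7502510753) (nat_lit 228) (nat_lit 39967427582) (nat_lit 107) (nat_lit 5) (nat_lit 109) (nat_lit 5) (nat_lit 110) (nat_lit 5) (nat_lit 538) (nat_lit 453) (nat_lit 209)))) (XT.nd (nat_lit 156) (nat_lit 152) (nat_lit 0) (XT.nd (nat_lit 78) (nat_lit 76) (nat_lit 0) (XT.lf (nat_lit 0) (nat_lit 4814586053) (nat_lit 152) (nat_lit 65416177679) (nat_lit 228) (nat_lit 17229493201) (nat_lit 105) (nat_lit 5) (nat_lit 107) (nat_lit 5) (nat_lit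 108) (nat_lit 5) (nat_lit 539) (nat_lit 453) (nat_lit 208)) (XT.lf (nat_lit 0) (nat_lit 6626869415) (nat_lit 228) (nat_lit 29682281318) (nat_lit 76) (nat_lit 52868882381) (nat_lit 104) (nat_lit 5) (nat_lit 107) (nat_lit 5) (nat_lit 105) (nat_lit 5) (nat_lit 540) (nat_lit 453) (nat_lit 207))) (XT.nd (nat_lit 78) (nat_lit 0) (nat_lit 0) (XT.lf (nat_lit 0) (nat_lit 25188682359) (nat_lit 152) (nat_lit 5904820468) (nat_lit 228) (nat_lit 59841495843) (nat_lit 102) (nat_lit 5) (nat_lit 104) (nat_lit 5) (nat_lit 105) (nat_lit 5) (nat_lit 541) (nat_lit 453) (nat_lit 206)) (XT.lf (nat_lit 0) (nat_lit 56839859987) (nat_lit 228) (nat_lit 10670954330) (nat_lit 76) (nat_lit 25217487164) (nat_lit 102) (nat_lit 5) (nat_lit 105) (nat_lit 5) (nat_lit 103) (nat_lit 5) (nat_lit 542) (nat_lit 453) (nat_lit 205))))) (XT.nd (nat_lit 312) (nat_lit 0) (nat_lit 0) (XT.nd (nat_lit 156) (nat_lit 152) (nat_lit 0) (XT.nd (nat_lit 78) (nat_lit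 228) (nat_lit 0) (XT.lf (nat_lit 0) (nat_lit 46911415769) (nat_lit 152) (nat_lit 36955385261) (nat_lit 228) (nat_lit 10693356581) (nat_lit 100) (nat_lit 5) (nat_lit 102) (nat_lit 5) (nat_lit 103) (nat_lit 5) (nat_lit 543) (nat_lit 453) (nat_lit 204)) (XT.lf (nat_lit 0) (nat_lit 10042291113) (nat_lit 152) (nat_lit 5121705499) (nat_lit 228) (nat_lit 81272448502) (nat_lit 97) (nat_lit 5) (nat_lit 99) (nat_lit 5) (nat_lit 100) (nat_lit 5) (nat_lit 544) (nat_lit 453) (nat_lit 203))) (XT.nd (nat_lit 78) (nat_lit 152) (nat_lit 0) (XT.lf (nat_lit 0) (nat_lit 42332814938) (nat_lit 228) (nat_lit 28292576864) (nat_lit 76) (nat_lit 27717933109) (nat_lit 97) (nat_lit 5) (nat_lit 100) (nat_lit 5) (nat_lit 98) (nat_lit 5) (nat_lit 545) (nat_lit 453) (nat_lit 202)) (XT.lf (nat_lit 0) (nat_lit 32126090463) (nat_lit 152) (nat_lit 38548963640) (nat_lit 228) (nat_lit 29621606338) (nat_lit 95) (nat_lit 5) (nat_lit 97) (nat_lit 5) (nat_lit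 98) (nat_lit 5) (nat_lit 546) (nat_lit 453) (nat_lit 201)))) (XT.nd (nat_lit 55302) (nat_lit 0) (nat_lit 16264) (XT.nd (nat_lit 55224) (nat_lit 0) (nat_lit 16264) (XT.lf (nat_lit 0) (nat_lit 94935166004) (nat_lit 152) (nat_lit 5216938350) (nat_lit 228) (nat_lit 2147955391) (nat_lit 95) (nat_lit 5) (nat_lit 97) (nat_lit 5) (nat_lit 98) (nat_lit 5) (nat_lit 547) (nat_lit 453) (nat_lit 200)) (XT.lf (nat_lit 0) (nat_lit 3596233332) (nat_lit 1292) (nat_lit 3238677045) (nat_lit 1292) (nat_lit 3238677045) (nat_lit 309) (nat_lit 3) (nat_lit 326) (nat_lit 3) (nat_lit 326) (nat_lit 5) (nat_lit 454) (nat_lit 454) (nat_lit 292))) (XT.nd (nat_lit 78) (nat_lit 0) (nat_lit 76) (XT.lf (nat_lit 76) (nat_lit 3585498606) (nat_lit 0) (nat_lit 3911388530) (nat_lit 1292) (nat_lit 12946584338) (nat_lit 310) (nat_lit 5) (nat_lit 309) (nat_lit 3) (nat_lit 326) (nat_lit 5) (nat_lit 455) (nat_lit 454) (nat_lit 291)) (XT.lf (nat_lit 0) (nat_lit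 7929188079) (nat_lit 1216) (nat_lit 6726888530) (nat_lit 1292) (nat_lit 6089018542) (nat_lit 310) (nat_lit 5) (nat_lit 326) (nat_lit 5) (nat_lit 327) (nat_lit 5) (nat_lit 456) (nat_lit 454) (nat_lit 290)))))) (XT.nd (nat_lit 624) (nat_lit 1596) (nat_lit 0) (XT.nd (nat_lit 312) (nat_lit 0) (nat_lit 152) (XT.nd (nat_lit 156) (nat_lit 0) (nat_lit 76) (XT.nd (nat_lit 78) (nat_lit 0) (nat_lit 76) (XT.lf (nat_lit 76) (nat_lit 3738921758) (nat_lit 0) (nat_lit 4704060210) (nat_lit 1292) (nat_lit 12610730420) (nat_lit 311) (nat_lit 5) (nat_lit 310) (nat_lit 5) (nat_lit 327) (nat_lit 5) (nat_lit 457) (nat_lit 454) (nat_lit 289)) (XT.lf (nat_lit 0) (nat_lit 9088134729) (nat_lit 1216) (nat_lit 6770549834) (nat_lit 1292) (nat_lit 5509425779) (nat_lit 311) (nat_lit 5) (nat_lit 327) (nat_lit 5) (nat_lit 328) (nat_lit 5) (nat_lit 458) (nat_lit 454) (nat_lit 288))) (XT.nd (nat_lit 78) (nat_lit 0) (nat_lit 76) (XT.lf (nat_lit 76)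 (nat_lit 4120339740) (nat_lit 0) (nat_lit 5712685965) (nat_lit 1292) (nat_lit 11856503556) (nat_lit 312) (nat_lit 5) (nat_lit 311) (nat_lit 5) (nat_lit 328) (nat_lit 5) (nat_lit 459) (nat_lit 454) (nat_lit 287)) (XT.lf (nat_lit 0) (nat_lit 10709209342) (nat_lit 1216) (nat_lit 6591675911) (nat_lit 1292) (nat_lit 4716437638) (nat_lit 312) (nat_lit 5) (nat_lit 328) (nat_lit 5) (nat_lit 329) (nat_lit 5) (nat_lit 460) (nat_lit 454) (nat_lit 286)))) (XT.nd (nat_lit 156) (nat_lit 0) (nat_lit 76) (XT.nd (nat_lit 78) (nat_lit 0) (nat_lit 76) (XT.lf (nat_lit 76) (nat_lit 4747689732) (nat_lit 0) (nat_lit 6960710154) (nat_lit 1292) (nat_lit 10643649305) (nat_lit 313) (nat_lit 5) (nat_lit 312) (nat_lit 5) (nat_lit 329) (nat_lit 5) (nat_lit 461) (nat_lit 454) (nat_lit 285)) (XT.lf (nat_lit 0) (nat_lit 12834921289) (nat_lit 1216) (nat_lit 6172287982) (nat_lit 1292) (nat_lit 3686687845) (nat_lit 313) (nat_lit 5) (nat_lit 329)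 (nat_lit 5) (nat_lit 330) (nat_lit 5) (nat_lit 462) (nat_lit 454) (nat_lit 284))) (XT.nd (nat_lit 78) (nat_lit 0) (nat_lit 76) (XT.lf (nat_lit 76) (nat_lit 5640297594) (nat_lit 0) (nat_lit 8472897753) (nat_lit 1292) (nat_lit 8929266898) (nat_lit 314) (nat_lit 5) (nat_lit 313) (nat_lit 5) (nat_lit 330) (nat_lit 5) (nat_lit 463) (nat_lit 454) (nat_lit 283)) (XT.lf (nat_lit 0) (nat_lit 15510568391) (nat_lit 1216) (nat_lit 5493022659) (nat_lit 1292) (nat_lit 2395471216) (nat_lit 314) (nat_lit 5) (nat_lit 330) (nat_lit 5) (nat_lit 331) (nat_lit 5) (nat_lit 464) (nat_lit 454) (nat_lit 282))))) (XT.nd (nat_lit 312) (nat_lit 1900) (nat_lit 0) (XT.nd (nat_lit 156) (nat_lit 0) (nat_lit 76) (XT.nd (nat_lit 78) (nat_lit 0) (nat_lit 76) (XT.lf (nat_lit 76) (nat_lit 6818950048) (nat_lit 0) (nat_lit 10275449808) (nat_lit 1292) (nat_lit 6667624763) (nat_lit 315) (nat_lit 5) (nat_lit 314) (nat_lit 5) (nat_lit 331) (nat_lit 5) (nat_lit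 465) (nat_lit 454) (nat_lit 281)) (XT.lf (nat_lit 0) (nat_lit 18784428741) (nat_lit 1216) (nat_lit 4533058927) (nat_lit 1292) (nat_lit 816628135) (nat_lit 315) (nat_lit 5) (nat_lit 331) (nat_lit 5) (nat_lit 332) (nat_lit 5) (nat_lit 466) (nat_lit 454) (nat_lit 280))) (XT.nd (nat_lit 78) (nat_lit 0) (nat_lit 0) (XT.lf (nat_lit 76) (nat_lit 8305972156) (nat_lit 0) (nat_lit 12396124005) (nat_lit 1292) (nat_lit 3809965855) (nat_lit 316) (nat_lit 5) (nat_lit 315) (nat_lit 5) (nat_lit 332) (nat_lit 5) (nat_lit 467) (nat_lit 454) (nat_lit 279)) (XT.lf (nat_lit 76) (nat_lit 21619505662) (nat_lit 0) (nat_lit 1099022070) (nat_lit 1292) (nat_lit 2181582270) (nat_lit 316) (nat_lit 5) (nat_lit 315) (nat_lit 5) (nat_lit 332) (nat_lit 5) (nat_lit 468) (nat_lit 454) (nat_lit 278)))) (XT.nd (nat_lit 156) (nat_lit 760) (nat_lit 0) (XT.nd (nat_lit 78) (nat_lit 1292) (nat_lit 0) (XT.lf (nat_lit 76) (nat_lit 10125310324) (nat_lit 0)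 (nat_lit 14864360862) (nat_lit 1292) (nat_lit 304302070) (nat_lit 317) (nat_lit 5) (nat_lit 316) (nat_lit 5) (nat_lit 333) (nat_lit 5) (nat_lit 469) (nat_lit 454) (nat_lit 277)) (XT.lf (nat_lit 0) (nat_lit 1637490997) (nat_lit 1292) (nat_lit 1728558208) (nat_lit 1368) (nat_lit 22331934089) (nat_lit 299) (nat_lit 5) (nat_lit 316) (nat_lit 5) (nat_lit 317) (nat_lit 5) (nat_lit 470) (nat_lit 454) (nat_lit 276))) (XT.nd (nat_lit 78) (nat_lit 836) (nat_lit 0) (XT.lf (nat_lit 0) (nat_lit 3828606227) (nat_lit 1292) (nat_lit 13844148480) (nat_lit 76) (nat_lit 8435353367) (nat_lit 300) (nat_lit 5) (nat_lit 317) (nat_lit 5) (nat_lit 301) (nat_lit 5) (nat_lit 471) (nat_lit 454) (nat_lit 275)) (XT.lf (nat_lit 0) (nat_lit 147381736) (nat_lit 836) (nat_lit 5986317203) (nat_lit 912) (nat_lit 20395390693) (nat_lit 289) (nat_lit 5) (nat_lit 300) (nat_lit 5) (nat_lit 301) (nat_lit 5) (nat_lit 472) (nat_lit 454) (nat_lit 274))))))))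
noncomputable def xc204 : XT := (XT.nd (nat_lit 2418) (nat_lit 5168) (nat_lit 0) (XT.nd (nat_lit 1170) (nat_lit 3648) (nat_lit 0) (XT.nd (nat_lit 546) (nat_lit 2736) (nat_lit 0) (XT.nd (nat_lit 234) (nat_lit 1140) (nat_lit 0) (XT.nd (nat_lit 78) (nat_lit 608) (nat_lit 0) (XT.lf (nat_lit 0) (nat_lit 8703251964) (nat_lit 912) (nat_lit 12179362155) (nat_lit 76) (nat_lit 6074227634) (nat_lit 289) (nat_lit 5) (nat_lit 301) (nat_lit 5) (nat_lit 290) (nat_lit 5) (nat_lit 473) (nat_lit 454) (nat_lit 273)) (XT.nd (nat_lit 78) (nat_lit 0) (nat_lit 0) (XT.lf (nat_lit 0) (nat_lit 2433624198) (nat_lit 608) (nat_lit 8995010431) (nat_lit 684) (nat_lit 15966429851) (nat_lit 281) (nat_lit 5) (nat_lit 289) (nat_lit 5) (nat_lit 290) (nat_lit 5) (nat_lit 474) (nat_lit 454) (nat_lit 272)) (XT.lf (nat_lit 0) (nat_lit 14387378433) (nat_lit 684) (nat_lit 10144260406) (nat_lit 76) (nat_lit 3310247383) (nat_lit 281) (nat_lit 5) (nat_lit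 290) (nat_lit 5) (nat_lit 282) (nat_lit 5) (nat_lit 475) (nat_lit 454) (nat_lit 271)))) (XT.nd (nat_lit 156) (nat_lit 532) (nat_lit 0) (XT.nd (nat_lit 78) (nat_lit 0) (nat_lit 0) (XT.lf (nat_lit 0) (nat_lit 5124756386) (nat_lit 608) (nat_lit 12444722569) (nat_lit 684) (nat_lit 10728596146) (nat_lit 273) (nat_lit 5) (nat_lit 281) (nat_lit 5) (nat_lit 282) (nat_lit 5) (nat_lit 476) (nat_lit 454) (nat_lit 270)) (XT.lf (nat_lit 0) (nat_lit 20946887356) (nat_lit 684) (nat_lit 7709842311) (nat_lit 76) (nat_lit 108224937) (nat_lit 273) (nat_lit 5) (nat_lit 282) (nat_lit 5) (nat_lit 274) (nat_lit 5) (nat_lit 477) (nat_lit 454) (nat_lit 269))) (XT.nd (nat_lit 78) (nat_lit 0) (nat_lit 0) (XT.lf (nat_lit 0) (nat_lit 8251755980) (nat_lit 532) (nat_lit 16372851762) (nat_lit 608) (nat_lit 4615263355) (nat_lit 266) (nat_lit 5) (nat_lit 273) (nat_lit 5) (nat_lit 274) (nat_lit 5) (nat_lit 478) (nat_lit 454) (nat_lit 268)) (XT.lf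 (nat_lit 0) (nat_lit 24846692802) (nat_lit 532) (nat_lit 3640344087) (nat_lit 608) (nat_lit 1239767168) (nat_lit 266) (nat_lit 5) (nat_lit 273) (nat_lit 5) (nat_lit 274) (nat_lit 5) (nat_lit 479) (nat_lit 454) (nat_lit 267))))) (XT.nd (nat_lit 312) (nat_lit 988) (nat_lit 0) (XT.nd (nat_lit 156) (nat_lit 1064) (nat_lit 0) (XT.nd (nat_lit 78) (nat_lit 0) (nat_lit 0) (XT.lf (nat_lit 0) (nat_lit 2396919683) (nat_lit 684) (nat_lit 18398095163) (nat_lit 76) (nat_lit 9426578005) (nat_lit 257) (nat_lit 5) (nat_lit 266) (nat_lit 5) (nat_lit 258) (nat_lit 5) (nat_lit 480) (nat_lit 454) (nat_lit 266)) (XT.lf (nat_lit 0) (nat_lit 6200254441) (nat_lit 684) (nat_lit 1653883362) (nat_lit 76) (nat_lit 22874245558) (nat_lit 257) (nat_lit 5) (nat_lit 266) (nat_lit 5) (nat_lit 258) (nat_lit 5) (nat_lit 481) (nat_lit 454) (nat_lit 265))) (XT.nd (nat_lit 78) (nat_lit 532) (nat_lit 0) (XT.lf (nat_lit 0) (nat_lit 10321416362) (nat_lit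 608) (nat_lit 15400598600) (nat_lit 76) (nat_lit 5522251067) (nat_lit 250) (nat_lit 5) (nat_lit 258) (nat_lit 5) (nat_lit 251) (nat_lit 5) (nat_lit 482) (nat_lit 454) (nat_lit 264)) (XT.lf (nat_lit 0) (nat_lit 2084125405) (nat_lit 532) (nat_lit 12593563038) (nat_lit 608) (nat_lit 17094592723) (nat_lit 243) (nat_lit 5) (nat_lit 250) (nat_lit 5) (nat_lit 251) (nat_lit 5) (nat_lit 483) (nat_lit 454) (nat_lit 263)))) (XT.nd (nat_lit 156) (nat_lit 532) (nat_lit 0) (XT.nd (nat_lit 78) (nat_lit 456) (nat_lit 0) (XT.lf (nat_lit 0) (nat_lit 19327498884) (nat_lit 608) (nat_lit 11916444101) (nat_lit 76) (nat_lit 1067308507) (nat_lit 243) (nat_lit 5) (nat_lit 251) (nat_lit 5) (nat_lit 244) (nat_lit 5) (nat_lit 484) (nat_lit 454) (nat_lit 262)) (XT.lf (nat_lit 0) (nat_lit 6384832188) (nat_lit 456) (nat_lit 17914993305) (nat_lit 532) (nat_lit 8561075014) (nat_lit 237) (nat_lit 5) (nat_lit 243) (nat_lit 5) (nat_lit 244) (nat_lit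 5) (nat_lit 485) (nat_lit 454) (nat_lit 261))) (XT.nd (nat_lit 78) (nat_lit 532) (nat_lit 0) (XT.lf (nat_lit 0) (nat_lit 25475967343) (nat_lit 456) (nat_lit 4062700863) (nat_lit 532) (nat_lit 3884850623) (nat_lit 237) (nat_lit 5) (nat_lit 243) (nat_lit 5) (nat_lit 244) (nat_lit 5) (nat_lit 486) (nat_lit 454) (nat_lit 260)) (XT.lf (nat_lit 0) (nat_lit 1118877444) (nat_lit 532) (nat_lit 22752974428) (nat_lit 76) (nat_lit 10124733463) (nat_lit 230) (nat_lit 5) (nat_lit 237) (nat_lit 5) (nat_lit 231) (nat_lit 5) (nat_lit 487) (nat_lit 454) (nat_lit 259)))))) (XT.nd (nat_lit 624) (nat_lit 1824) (nat_lit 0) (XT.nd (nat_lit 312) (nat_lit 912) (nat_lit 0) (XT.nd (nat_lit 156) (nat_lit 456) (nat_lit 0) (XT.nd (nat_lit 78) (nat_lit 456) (nat_lit 0) (XT.lf (nat_lit 0) (nat_lit 6313029364) (nat_lit 532) (nat_lit 3493955122) (nat_lit 76) (nat_lit 24775153833) (nat_lit 230) (nat_lit 5) (nat_lit 237) (nat_lit 5) (nat_lit 231)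 (nat_lit 5) (nat_lit 488) (nat_lit 454) (nat_lit 258)) (XT.lf (nat_lit 0) (nat_lit 11866966286) (nat_lit 532) (nat_lit 18562440009) (nat_lit 76) (nat_lit 4749732986) (nat_lit 224) (nat_lit 5) (nat_lit 231) (nat_lit 5) (nat_lit 225) (nat_lit 5) (nat_lit 489) (nat_lit 454) (nat_lit 257))) (XT.nd (nat_lit 78) (nat_lit 0) (nat_lit 0) (XT.lf (nat_lit 0) (nat_lit 1538472937) (nat_lit 456) (nat_lit 16193814799) (nat_lit 532) (nat_lit 18057419737) (nat_lit 218) (nat_lit 5) (nat_lit 224) (nat_lit 5) (nat_lit 225) (nat_lit 5) (nat_lit 490) (nat_lit 454) (nat_lit 256)) (XT.lf (nat_lit 0) (nat_lit 22619554297) (nat_lit 456) (nat_lit 1338753951) (nat_lit 532) (nat_lit 12454742472) (nat_lit 218) (nat_lit 5) (nat_lit 224) (nat_lit 5) (nat_lit 225) (nat_lit 5) (nat_lit 491) (nat_lit 454) (nat_lit 255)))) (XT.nd (nat_lit 156) (nat_lit 532) (nat_lit 0) (XT.nd (nat_lit 78) (nat_lit 0) (nat_lit 0) (XT.lf (nat_lit 0) (nat_lit 7282525883)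 (nat_lit 380) (nat_lit 23290166211) (nat_lit 456) (nat_lit 6476354875) (nat_lit 213) (nat_lit 5) (nat_lit 218) (nat_lit 5) (nat_lit 219) (nat_lit 5) (nat_lit 492) (nat_lit 454) (nat_lit 254)) (XT.lf (nat_lit 0) (nat_lit 29256750651) (nat_lit 380) (nat_lit 8278581671) (nat_lit 456) (nat_lit 164296214) (nat_lit 213) (nat_lit 5) (nat_lit 218) (nat_lit 5) (nat_lit 219) (nat_lit 5) (nat_lit 493) (nat_lit 454) (nat_lit 253))) (XT.nd (nat_lit 78) (nat_lit 0) (nat_lit 0) (XT.lf (nat_lit 0) (nat_lit 6413804453) (nat_lit 532) (nat_lit 24710873542) (nat_lit 76) (nat_lit 7237212025) (nat_lit 206) (nat_lit 5) (nat_lit 213) (nat_lit 5) (nat_lit 207) (nat_lit 5) (nat_lit 494) (nat_lit 454) (nat_lit 252)) (XT.lf (nat_lit 0) (nat_lit 13351511308) (nat_lit 532) (nat_lit 2548402836) (nat_lit 76) (nat_lit 23139089608) (nat_lit 206) (nat_lit 5) (nat_lit 213) (nat_lit 5) (nat_lit 207) (nat_lit 5) (nat_lit 495) (nat_lit 454) (nat_lit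 251))))) (XT.nd (nat_lit 312) (nat_lit 684) (nat_lit 0) (XT.nd (nat_lit 156) (nat_lit 380) (nat_lit 0) (XT.nd (nat_lit 78) (nat_lit 380) (nat_lit 0) (XT.lf (nat_lit 0) (nat_lit 20679262476) (nat_lit 380) (nat_lit 14440036) (nat_lit 456) (nat_lit 19036837947) (nat_lit 201) (nat_lit 5) (nat_lit 206) (nat_lit 5) (nat_lit 207) (nat_lit 5) (nat_lit 496) (nat_lit 454) (nat_lit 250)) (XT.lf (nat_lit 0) (nat_lit 4133977929) (nat_lit 380) (nat_lit 24342655705) (nat_lit 456) (nat_lit 11959575564) (nat_lit 196) (nat_lit 5) (nat_lit 201) (nat_lit 5) (nat_lit 202) (nat_lit 5) (nat_lit 497) (nat_lit 454) (nat_lit 249))) (XT.nd (nat_lit 78) (nat_lit 380) (nat_lit 0) (XT.lf (nat_lit 0) (nat_lit 28401970764) (nat_lit 380) (nat_lit 8281247076) (nat_lit 456) (nat_lit 4474125355) (nat_lit 196) (nat_lit 5) (nat_lit 201) (nat_lit 5) (nat_lit 202) (nat_lit 5) (nat_lit 498) (nat_lit 454) (nat_lit 248)) (XT.lf (nat_lit 0) (nat_lit 3363653903)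 (nat_lit 380) (nat_lit 30284932571) (nat_lit 76) (nat_lit 8244864436) (nat_lit 191) (nat_lit 5) (nat_lit 196) (nat_lit 5) (nat_lit 192) (nat_lit 5) (nat_lit 499) (nat_lit 454) (nat_lit 247)))) (XT.nd (nat_lit 156) (nat_lit 304) (nat_lit 0) (XT.nd (nat_lit 78) (nat_lit 380) (nat_lit 0) (XT.lf (nat_lit 0) (nat_lit 11556431029) (nat_lit 380) (nat_lit 5813734700) (nat_lit 76) (nat_lit 25273853619) (nat_lit 191) (nat_lit 5) (nat_lit 196) (nat_lit 5) (nat_lit 192) (nat_lit 5) (nat_lit 500) (nat_lit 454) (nat_lit 246)) (XT.lf (nat_lit 0) (nat_lit 19774371892) (nat_lit 380) (nat_lit 408487297) (nat_lit 456) (nat_lit 23228609753) (nat_lit 186) (nat_lit 5) (nat_lit 191) (nat_lit 5) (nat_lit 192) (nat_lit 5) (nat_lit 501) (nat_lit 454) (nat_lit 245))) (XT.nd (nat_lit 78) (nat_lit 0) (nat_lit 0) (XT.lf (nat_lit 0) (nat_lit 1918845168) (nat_lit 304) (nat_lit 27388790410) (nat_lit 380) (nat_lit 14887119911) (nat_lit 182) (nat_lit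 5) (nat_lit 186) (nat_lit 5) (nat_lit 187) (nat_lit 5) (nat_lit 502) (nat_lit 454) (nat_lit 244)) (XT.lf (nat_lit 0) (nat_lit 28718785555) (nat_lit 304) (nat_lit 10227907758) (nat_lit 380) (nat_lit 6047631305) (nat_lit 182) (nat_lit 5) (nat_lit 186) (nat_lit 5) (nat_lit 187) (nat_lit 5) (nat_lit 503) (nat_lit 454) (nat_lit 243))))))) (XT.nd (nat_lit 1170) (nat_lit 2356) (nat_lit 0) (XT.nd (nat_lit 546) (nat_lit 1444) (nat_lit 0) (XT.nd (nat_lit 234) (nat_lit 684) (nat_lit 0) (XT.nd (nat_lit 78) (nat_lit 304) (nat_lit 0) (XT.lf (nat_lit 0) (nat_lit 3170837009) (nat_lit 380) (nat_lit 35206039867) (nat_lit 76) (nat_lit 7434919011) (nat_lit 177) (nat_lit 5) (nat_lit 182) (nat_lit 5) (nat_lit 178) (nat_lit 5) (nat_lit 504) (nat_lit 454) (nat_lit 242)) (XT.nd (nat_lit 78) (nat_lit 304) (nat_lit 0) (XT.lf (nat_lit 0) (nat_lit 12809463118) (nat_lit 380) (nat_lit 8187577698) (nat_lit 76) (nat_lit 25646999612) (nat_lit 177)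 (nat_lit 5) (nat_lit 182) (nat_lit 5) (nat_lit 178) (nat_lit 5) (nat_lit 505) (nat_lit 454) (nat_lit 241)) (XT.lf (nat_lit 0) (nat_lit 20029303255) (nat_lit 304) (nat_lit 2898449994) (nat_lit 380) (nat_lit 24567784010) (nat_lit 173) (nat_lit 5) (nat_lit 177) (nat_lit 5) (nat_lit 178) (nat_lit 5) (nat_lit 506) (nat_lit 454) (nat_lit 240)))) (XT.nd (nat_lit 156) (nat_lit 380) (nat_lit 0) (XT.nd (nat_lit 78) (nat_lit 0) (nat_lit 0) (XT.lf (nat_lit 0) (nat_lit 749911266) (nat_lit 304) (nat_lit 32839711707) (nat_lit 380) (nat_lit 14775755205) (nat_lit 169) (nat_lit 5) (nat_lit 173) (nat_lit 5) (nat_lit 174) (nat_lit 5) (nat_lit 507) (nat_lit 454) (nat_lit 239)) (XT.lf (nat_lit 0) (nat_lit 30343331898) (nat_lit 304) (nat_lit 14531810980) (nat_lit 380) (nat_lit 4377057729) (nat_lit 169) (nat_lit 5) (nat_lit 173) (nat_lit 5) (nat_lit 174) (nat_lit 5) (nat_lit 508) (nat_lit 454) (nat_lit 238))) (XT.nd (nat_lit 78) (nat_lit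 0) (nat_lit 0) (XT.lf (nat_lit 0) (nat_lit 6355143810) (nat_lit 380) (nat_lit 39397957411) (nat_lit 76) (nat_lit 4406346078) (nat_lit 164) (nat_lit 5) (nat_lit 169) (nat_lit 5) (nat_lit 165) (nat_lit 5) (nat_lit 509) (nat_lit 454) (nat_lit 237)) (XT.lf (nat_lit 0) (nat_lit 17656129668) (nat_lit 380) (nat_lit 9570660266) (nat_lit 76) (nat_lit 23855777654) (nat_lit 164) (nat_lit 5) (nat_lit 169) (nat_lit 5) (nat_lit 165) (nat_lit 5) (nat_lit 510) (nat_lit 454) (nat_lit 236))))) (XT.nd (nat_lit 312) (nat_lit 532) (nat_lit 0) (XT.nd (nat_lit 156) (nat_lit 380) (nat_lit 0) (XT.nd (nat_lit 78) (nat_lit 228) (nat_lit 0) (XT.lf (nat_lit 0) (nat_lit 21569497464) (nat_lit 304) (nat_lit 7932123216) (nat_lit 380) (nat_lit 22525596633) (nat_lit 160) (nat_lit 5) (nat_lit 164) (nat_lit 5) (nat_lit 165) (nat_lit 5) (nat_lit 511) (nat_lit 454) (nat_lit 235)) (XT.lf (nat_lit 0) (nat_lit 738534038) (nat_lit 228) (nat_lit 41181585213)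 (nat_lit 304) (nat_lit 11073558084) (nat_lit 157) (nat_lit 5) (nat_lit 160) (nat_lit 5) (nat_lit 161) (nat_lit 5) (nat_lit 512) (nat_lit 454) (nat_lit 234))) (XT.nd (nat_lit 78) (nat_lit 304) (nat_lit 0) (XT.lf (nat_lit 0) (nat_lit 1095258518) (nat_lit 304) (nat_lit 20576280112) (nat_lit 76) (nat_lit 32305765196) (nat_lit 156) (nat_lit 5) (nat_lit 160) (nat_lit 5) (nat_lit 157) (nat_lit 5) (nat_lit 513) (nat_lit 454) (nat_lit 233)) (XT.lf (nat_lit 0) (nat_lit 12178150294) (nat_lit 304) (nat_lit 1343701356) (nat_lit 380) (nat_lit 41461839983) (nat_lit 152) (nat_lit 5) (nat_lit 156) (nat_lit 5) (nat_lit 157) (nat_lit 5) (nat_lit 514) (nat_lit 454) (nat_lit 232)))) (XT.nd (nat_lit 156) (nat_lit 304) (nat_lit 0) (XT.nd (nat_lit 78) (nat_lit 228) (nat_lit 0) (XT.lf (nat_lit 0) (nat_lit 26717660471) (nat_lit 380) (nat_lit 9870251684) (nat_lit 76) (nat_lit 19420466463) (nat_lit 152) (nat_lit 5) (nat_lit 157) (nat_lit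 5) (nat_lit 153) (nat_lit 5) (nat_lit 515) (nat_lit 454) (nat_lit 231)) (XT.lf (nat_lit 0) (nat_lit 24515444561) (nat_lit 228) (nat_lit 16041143278) (nat_lit 304) (nat_lit 16499801123) (nat_lit 149) (nat_lit 5) (nat_lit 152) (nat_lit 5) (nat_lit 153) (nat_lit 5) (nat_lit 516) (nat_lit 454) (nat_lit 230))) (XT.nd (nat_lit 78) (nat_lit 76) (nat_lit 0) (XT.lf (nat_lit 0) (nat_lit 1988016020) (nat_lit 228) (nat_lit 52989967255) (nat_lit 304) (nat_lit 3152837409) (nat_lit 146) (nat_lit 5) (nat_lit 149) (nat_lit 5) (nat_lit 150) (nat_lit 5) (nat_lit 517) (nat_lit 454) (nat_lit 229)) (XT.lf (nat_lit 0) (nat_lit 10876777946) (nat_lit 304) (nat_lit 21274396460) (nat_lit 76) (nat_lit 27068586382) (nat_lit 145) (nat_lit 5) (nat_lit 149) (nat_lit 5) (nat_lit 146) (nat_lit 5) (nat_lit 518) (nat_lit 454) (nat_lit 228)))))) (XT.nd (nat_lit 624) (nat_lit 1140) (nat_lit 0) (XT.nd (nat_lit 312) (nat_lit 456) (nat_lit 0) (XT.nd (nat_lit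 156) (nat_lit 532) (nat_lit 0) (XT.nd (nat_lit 78) (nat_lit 0) (nat_lit 0) (XT.lf (nat_lit 0) (nat_lit 14896865505) (nat_lit 228) (nat_lit 10508598408) (nat_lit 304) (nat_lit 34930722232) (nat_lit 142) (nat_lit 5) (nat_lit 145) (nat_lit 5) (nat_lit 146) (nat_lit 5) (nat_lit 519) (nat_lit 454) (nat_lit 227)) (XT.lf (nat_lit 0) (nat_lit 40698600985) (nat_lit 304) (nat_lit 9008371171) (nat_lit 76) (nat_lit 11769274459) (nat_lit 142) (nat_lit 5) (nat_lit 146) (nat_lit 5) (nat_lit 143) (nat_lit 5) (nat_lit 520) (nat_lit 454) (nat_lit 226))) (XT.nd (nat_lit 78) (nat_lit 304) (nat_lit 0) (XT.lf (nat_lit 0) (nat_lit 28974244860) (nat_lit 228) (nat_lit 27857264550) (nat_lit 304) (nat_lit 5807570238) (nat_lit 139) (nat_lit 5) (nat_lit 142) (nat_lit 5) (nat_lit 143) (nat_lit 5) (nat_lit 521) (nat_lit 454) (nat_lit 225)) (XT.lf (nat_lit 0) (nat_lit 4437619901) (nat_lit 228) (nat_lit 5119374469) (nat_lit 304) (nat_lit 54273043265)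 (nat_lit 135) (nat_lit 5) (nat_lit 138) (nat_lit 5) (nat_lit 139) (nat_lit 5) (nat_lit 522) (nat_lit 454) (nat_lit 224)))) (XT.nd (nat_lit 156) (nat_lit 228) (nat_lit 0) (XT.nd (nat_lit 78) (nat_lit 228) (nat_lit 0) (XT.lf (nat_lit 0) (nat_lit 25783431855) (nat_lit 304) (nat_lit 20912690686) (nat_lit 76) (nat_lit 18343346988) (nat_lit 135) (nat_lit 5) (nat_lit 139) (nat_lit 5) (nat_lit 136) (nat_lit 5) (nat_lit 523) (nat_lit 454) (nat_lit 223)) (XT.lf (nat_lit 0) (nat_lit 19039725859) (nat_lit 228) (nat_lit 23689121315) (nat_lit 304) (nat_lit 23549371722) (nat_lit 132) (nat_lit 5) (nat_lit 135) (nat_lit 5) (nat_lit 136) (nat_lit 5) (nat_lit 524) (nat_lit 454) (nat_lit 222))) (XT.nd (nat_lit 78) (nat_lit 228) (nat_lit 0) (XT.lf (nat_lit 0) (nat_lit 60394457399) (nat_lit 304) (nat_lit 6933118931) (nat_lit 76) (nat_lit 220199496) (nat_lit 132) (nat_lit 5) (nat_lit 136) (nat_lit 5) (nat_lit 133) (nat_lit 5) (nat_lit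 525) (nat_lit 454) (nat_lit 221)) (XT.lf (nat_lit 0) (nat_lit 10120086572) (nat_lit 228) (nat_lit 33909636097) (nat_lit 76) (nat_lit 24805626772) (nat_lit 129) (nat_lit 5) (nat_lit 132) (nat_lit 5) (nat_lit 130) (nat_lit 5) (nat_lit 526) (nat_lit 454) (nat_lit 220))))) (XT.nd (nat_lit 312) (nat_lit 684) (nat_lit 0) (XT.nd (nat_lit 156) (nat_lit 228) (nat_lit 0) (XT.nd (nat_lit 78) (nat_lit 0) (nat_lit 0) (XT.lf (nat_lit 0) (nat_lit 8107175147) (nat_lit 228) (nat_lit 19807914626) (nat_lit 304) (nat_lit 42239920674) (nat_lit 126) (nat_lit 5) (nat_lit 129) (nat_lit 5) (nat_lit 130) (nat_lit 5) (nat_lit 527) (nat_lit 454) (nat_lit 219)) (XT.lf (nat_lit 0) (nat_lit 46637712915) (nat_lit 304) (nat_lit 19479686957) (nat_lit 76) (nat_lit 5385048368) (nat_lit 126) (nat_lit 5) (nat_lit 130) (nat_lit 5) (nat_lit 127) (nat_lit 5) (nat_lit 528) (nat_lit 454) (nat_lit 218))) (XT.nd (nat_lit 78) (nat_lit 76) (nat_lit 0) (XT.lf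 (nat_lit 0) (nat_lit 24647931652) (nat_lit 152) (nat_lit 41705719066) (nat_lit 228) (nat_lit 6523709417) (nat_lit 124) (nat_lit 5) (nat_lit 126) (nat_lit 5) (nat_lit 127) (nat_lit 5) (nat_lit 529) (nat_lit 454) (nat_lit 217)) (XT.lf (nat_lit 0) (nat_lit 12323457316) (nat_lit 228) (nat_lit 3912187346) (nat_lit 76) (nat_lit 58048390874) (nat_lit 123) (nat_lit 5) (nat_lit 126) (nat_lit 5) (nat_lit 124) (nat_lit 5) (nat_lit 530) (nat_lit 454) (nat_lit 216)))) (XT.nd (nat_lit 156) (nat_lit 304) (nat_lit 0) (XT.nd (nat_lit 78) (nat_lit 152) (nat_lit 0) (XT.lf (nat_lit 0) (nat_lit 32112843876) (nat_lit 304) (nat_lit 33322658430) (nat_lit 76) (nat_lit 10280233456) (nat_lit 120) (nat_lit 5) (nat_lit 124) (nat_lit 5) (nat_lit 121) (nat_lit 5) (nat_lit 531) (nat_lit 454) (nat_lit 215)) (XT.lf (nat_lit 0) (nat_lit 13070029789) (nat_lit 152) (nat_lit 39750805025) (nat_lit 228) (nat_lit 24359804540) (nat_lit 118) (nat_lit 5)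 (nat_lit 120) (nat_lit 5) (nat_lit 121) (nat_lit 5) (nat_lit 532) (nat_lit 454) (nat_lit 214))) (XT.nd (nat_lit 78) (nat_lit 304) (nat_lit 0) (XT.lf (nat_lit 0) (nat_lit 61535236102) (nat_lit 152) (nat_lit 12949980102) (nat_lit 228) (nat_lit 4194219371) (nat_lit 118) (nat_lit 5) (nat_lit 120) (nat_lit 5) (nat_lit 121) (nat_lit 5) (nat_lit 533) (nat_lit 454) (nat_lit 213)) (XT.lf (nat_lit 0) (nat_lit 16701611889) (nat_lit 304) (nat_lit 48666868613) (nat_lit 76) (nat_lit 14836472688) (nat_lit 114) (nat_lit 5) (nat_lit 118) (nat_lit 5) (nat_lit 115) (nat_lit 5) (nat_lit 534) (nat_lit 454) (nat_lit 212))))))))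
noncomputable def xc205 : XT := (XT.nd (nat_lit 57642) (nat_lit 0) (nat_lit 6612) (XT.nd (nat_lit 56394) (nat_lit 0) (nat_lit 15504) (XT.nd (nat_lit 546) (nat_lit 684) (nat_lit 0) (XT.nd (nat_lit 234) (nat_lit 380) (nat_lit 0) (XT.nd (nat_lit 78) (nat_lit 228) (nat_lit 0) (XT.lf (nat_lit 0) (nat_lit 89206486) (nat_lit 152) (nat_lit 38353414353) (nat_lit 228) (nat_lit 43323291653) (nat_lit 112) (nat_lit 5) (nat_lit 114) (nat_lit 5) (nat_lit 115) (nat_lit 5) (nat_lit 535) (nat_lit 454) (nat_lit 211)) (XT.nd (nat_lit 78) (nat_lit 228) (nat_lit 0) (XT.lf (nat_lit 0) (nat_lit 51303300177) (nat_lit 152) (nat_lit 10022706384) (nat_lit 228) (nat_lit 22032989657) (nat_lit 112) (nat_lit 5) (nat_lit 114) (nat_lit 5) (nat_lit 115) (nat_lit 5) (nat_lit 536) (nat_lit 454) (nat_lit 210)) (XT.lf (nat_lit 0) (nat_lit 269561115) (nat_lit 228) (nat_lit 65748440235) (nat_lit 76) (nat_lit 18970755803) (nat_lit 109) (nat_lit 5) (nat_lit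 112) (nat_lit 5) (nat_lit 110) (nat_lit 5) (nat_lit 537) (nat_lit 454) (nat_lit 209)))) (XT.nd (nat_lit 156) (nat_lit 228) (nat_lit 0) (XT.nd (nat_lit 78) (nat_lit 152) (nat_lit 0) (XT.lf (nat_lit 0) (nat_lit 23223224467) (nat_lit 228) (nat_lit 14248219090) (nat_lit 76) (nat_lit 49176676621) (nat_lit 109) (nat_lit 5) (nat_lit 112) (nat_lit 5) (nat_lit 110) (nat_lit 5) (nat_lit 538) (nat_lit 454) (nat_lit 208)) (XT.lf (nat_lit 0) (nat_lit 39566915611) (nat_lit 152) (nat_lit 7677698254) (nat_lit 228) (nat_lit 41101276776) (nat_lit 107) (nat_lit 5) (nat_lit 109) (nat_lit 5) (nat_lit 110) (nat_lit 5) (nat_lit 539) (nat_lit 454) (nat_lit 207))) (XT.nd (nat_lit 78) (nat_lit 76) (nat_lit 0) (XT.lf (nat_lit 0) (nat_lit 5072482184) (nat_lit 152) (nat_lit 67328191486) (nat_lit 228) (nat_lit 17681499721) (nat_lit 105) (nat_lit 5) (nat_lit 107) (nat_lit 5) (nat_lit 108) (nat_lit 5) (nat_lit 540) (nat_lit 454) (nat_lit 206))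 (XT.lf (nat_lit 0) (nat_lit 6887434981) (nat_lit 228) (nat_lit 30461365146) (nat_lit 76) (nat_lit 54502719652) (nat_lit 104) (nat_lit 5) (nat_lit 107) (nat_lit 5) (nat_lit 105) (nat_lit 5) (nat_lit 541) (nat_lit 454) (nat_lit 205))))) (XT.nd (nat_lit 312) (nat_lit 152) (nat_lit 0) (XT.nd (nat_lit 156) (nat_lit 380) (nat_lit 0) (XT.nd (nat_lit 78) (nat_lit 0) (nat_lit 0) (XT.lf (nat_lit 0) (nat_lit 26054635435) (nat_lit 152) (nat_lit 6032693340) (nat_lit 228) (nat_lit 61573887729) (nat_lit 102) (nat_lit 5) (nat_lit 104) (nat_lit 5) (nat_lit 105) (nat_lit 5) (nat_lit 542) (nat_lit 454) (nat_lit 204)) (XT.lf (nat_lit 0) (nat_lit 58604759178) (nat_lit 228) (nat_lit 10882683832) (nat_lit 76) (nat_lit 26020914957) (nat_lit 102) (nat_lit 5) (nat_lit 105) (nat_lit 5) (nat_lit 103) (nat_lit 5) (nat_lit 543) (nat_lit 454) (nat_lit 203))) (XT.nd (nat_lit 78) (nat_lit 228) (nat_lit 0) (XT.lf (nat_lit 0) (nat_lit 48426094633)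 (nat_lit 152) (nat_lit 38015706669) (nat_lit 228) (nat_lit 10953389736) (nat_lit 100) (nat_lit 5) (nat_lit 102) (nat_lit 5) (nat_lit 103) (nat_lit 5) (nat_lit 544) (nat_lit 454) (nat_lit 202)) (XT.lf (nat_lit 0) (nat_lit 10451019447) (nat_lit 152) (nat_lit 5226776388) (nat_lit 228) (nat_lit 83649974919) (nat_lit 97) (nat_lit 5) (nat_lit 99) (nat_lit 5) (nat_lit 100) (nat_lit 5) (nat_lit 545) (nat_lit 454) (nat_lit 201)))) (XT.nd (nat_lit 55380) (nat_lit 0) (nat_lit 16264) (XT.nd (nat_lit 78) (nat_lit 152) (nat_lit 0) (XT.lf (nat_lit 0) (nat_lit 43660417161) (nat_lit 228) (nat_lit 29035761617) (nat_lit 76) (nat_lit 28595716053) (nat_lit 97) (nat_lit 5) (nat_lit 100) (nat_lit 5) (nat_lit 98) (nat_lit 5) (nat_lit 546) (nat_lit 454) (nat_lit 200)) (XT.lf (nat_lit 0) (nat_lit 33194430509) (nat_lit 152) (nat_lit 39657819873) (nat_lit 228) (nat_lit 30451600276) (nat_lit 95) (nat_lit 5) (nat_lit 97) (nat_lit 5) (nat_lit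 98) (nat_lit 5) (nat_lit 547) (nat_lit 454) (nat_lit 199))) (XT.nd (nat_lit 78) (nat_lit 0) (nat_lit 0) (XT.lf (nat_lit 0) (nat_lit 3864629906) (nat_lit 1292) (nat_lit 3253167503) (nat_lit 1292) (nat_lit 3253167503) (nat_lit 309) (nat_lit 3) (nat_lit 326) (nat_lit 3) (nat_lit 326) (nat_lit 5) (nat_lit 455) (nat_lit 455) (nat_lit 290)) (XT.lf (nat_lit 76) (nat_lit 3856782293) (nat_lit 0) (nat_lit 4178254296) (nat_lit 1292) (nat_lit 13012312917) (nat_lit 310) (nat_lit 5) (nat_lit 309) (nat_lit 3) (nat_lit 326) (nat_lit 5) (nat_lit 456) (nat_lit 455) (nat_lit 289)))))) (XT.nd (nat_lit 624) (nat_lit 836) (nat_lit 0) (XT.nd (nat_lit 312) (nat_lit 0) (nat_lit 152) (XT.nd (nat_lit 156) (nat_lit 0) (nat_lit 76) (XT.nd (nat_lit 78) (nat_lit 0) (nat_lit 0) (XT.lf (nat_lit 0) (nat_lit 8469787529) (nat_lit 1216) (nat_lit 6759197944) (nat_lit 1292) (nat_lit 6129352830) (nat_lit 310) (nat_lit 5) (nat_lit 326) (nat_lit 5) (nat_lit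 327) (nat_lit 5) (nat_lit 457) (nat_lit 455) (nat_lit 288)) (XT.lf (nat_lit 76) (nat_lit 4018924914) (nat_lit 0) (nat_lit 4972866460) (nat_lit 1292) (nat_lit 12684639615) (nat_lit 311) (nat_lit 5) (nat_lit 310) (nat_lit 5) (nat_lit 327) (nat_lit 5) (nat_lit 458) (nat_lit 455) (nat_lit 287))) (XT.nd (nat_lit 78) (nat_lit 0) (nat_lit 0) (XT.lf (nat_lit 0) (nat_lit 9646499709) (nat_lit 1216) (nat_lit 6800893849) (nat_lit 1292) (nat_lit 5553162086) (nat_lit 311) (nat_lit 5) (nat_lit 327) (nat_lit 5) (nat_lit 328) (nat_lit 5) (nat_lit 459) (nat_lit 455) (nat_lit 286)) (XT.lf (nat_lit 76) (nat_lit 4415028565) (nat_lit 0) (nat_lit 5992031393) (nat_lit 1292) (nat_lit 11924758265) (nat_lit 312) (nat_lit 5) (nat_lit 311) (nat_lit 5) (nat_lit 328) (nat_lit 5) (nat_lit 460) (nat_lit 455) (nat_lit 285)))) (XT.nd (nat_lit 156) (nat_lit 0) (nat_lit 76) (XT.nd (nat_lit 78) (nat_lit 0) (nat_lit 0) (XT.lf (nat_lit 0) (nat_lit 11300394027)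 (nat_lit 1216) (nat_lit 6614170486) (nat_lit 1292) (nat_lit 4755155946) (nat_lit 312) (nat_lit 5) (nat_lit 328) (nat_lit 5) (nat_lit 329) (nat_lit 5) (nat_lit 461) (nat_lit 455) (nat_lit 284)) (XT.lf (nat_lit 76) (nat_lit 5063657933) (nat_lit 0) (nat_lit 7259709094) (nat_lit 1292) (nat_lit 10691308044) (nat_lit 313) (nat_lit 5) (nat_lit 312) (nat_lit 5) (nat_lit 329) (nat_lit 5) (nat_lit 462) (nat_lit 455) (nat_lit 283))) (XT.nd (nat_lit 78) (nat_lit 0) (nat_lit 0) (XT.lf (nat_lit 0) (nat_lit 13475161453) (nat_lit 1216) (nat_lit 6180427546) (nat_lit 1292) (nat_lit 3711445816) (nat_lit 313) (nat_lit 5) (nat_lit 329) (nat_lit 5) (nat_lit 330) (nat_lit 5) (nat_lit 463) (nat_lit 455) (nat_lit 282)) (XT.lf (nat_lit 76) (nat_lit 5984800019) (nat_lit 0) (nat_lit 8801235950) (nat_lit 1292) (nat_lit 8940194044) (nat_lit 314) (nat_lit 5) (nat_lit 313) (nat_lit 5) (nat_lit 330) (nat_lit 5) (nat_lit 464) (nat_lit 455) (nat_lit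 281))))) (XT.nd (nat_lit 312) (nat_lit 1140) (nat_lit 0) (XT.nd (nat_lit 156) (nat_lit 0) (nat_lit 76) (XT.nd (nat_lit 78) (nat_lit 0) (nat_lit 0) (XT.lf (nat_lit 0) (nat_lit 16217372797) (nat_lit 1216) (nat_lit 5479645976) (nat_lit 1292) (nat_lit 2396748647) (nat_lit 314) (nat_lit 5) (nat_lit 330) (nat_lit 5) (nat_lit 331) (nat_lit 5) (nat_lit 465) (nat_lit 455) (nat_lit 280)) (XT.lf (nat_lit 76) (nat_lit 7199939172) (nat_lit 0) (nat_lit 10643442284) (nat_lit 1292) (nat_lit 6624397963) (nat_lit 315) (nat_lit 5) (nat_lit 314) (nat_lit 5) (nat_lit 331) (nat_lit 5) (nat_lit 466) (nat_lit 455) (nat_lit 279))) (XT.nd (nat_lit 78) (nat_lit 0) (nat_lit 0) (XT.lf (nat_lit 0) (nat_lit 19576675635) (nat_lit 1216) (nat_lit 4490312139) (nat_lit 1292) (nat_lit 784269257) (nat_lit 315) (nat_lit 5) (nat_lit 331) (nat_lit 5) (nat_lit 332) (nat_lit 5) (nat_lit 467) (nat_lit 455) (nat_lit 278)) (XT.lf (nat_lit 76) (nat_lit 8732137538)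 (nat_lit 0) (nat_lit 12814775266) (nat_lit 1292) (nat_lit 3693778241) (nat_lit 316) (nat_lit 5) (nat_lit 315) (nat_lit 5) (nat_lit 332) (nat_lit 5) (nat_lit 468) (nat_lit 455) (nat_lit 277)))) (XT.nd (nat_lit 156) (nat_lit 1216) (nat_lit 0) (XT.nd (nat_lit 78) (nat_lit 0) (nat_lit 76) (XT.lf (nat_lit 76) (nat_lit 22439922111) (nat_lit 0) (nat_lit 1177398111) (nat_lit 1292) (nat_lit 2023256350) (nat_lit 316) (nat_lit 5) (nat_lit 315) (nat_lit 5) (nat_lit 332) (nat_lit 5) (nat_lit 469) (nat_lit 455) (nat_lit 276)) (XT.lf (nat_lit 76) (nat_lit 10606121122) (nat_lit 0) (nat_lit 15345427753) (nat_lit 1292) (nat_lit 94858895) (nat_lit 317) (nat_lit 5) (nat_lit 316) (nat_lit 5) (nat_lit 333) (nat_lit 5) (nat_lit 470) (nat_lit 455) (nat_lit 275))) (XT.nd (nat_lit 78) (nat_lit 0) (nat_lit 76) (XT.lf (nat_lit 0) (nat_lit 1894680878) (nat_lit 1292) (nat_lit 1604361438) (nat_lit 1368) (nat_lit 22963620559) (nat_lit 299) (nat_lit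 5) (nat_lit 316) (nat_lit 5) (nat_lit 317) (nat_lit 5) (nat_lit 471) (nat_lit 455) (nat_lit 274)) (XT.lf (nat_lit 0) (nat_lit 4146862996) (nat_lit 1292) (nat_lit 14078735409) (nat_lit 76) (nat_lit 8659633514) (nat_lit 300) (nat_lit 5) (nat_lit 317) (nat_lit 5) (nat_lit 301) (nat_lit 5) (nat_lit 472) (nat_lit 455) (nat_lit 273))))))) (XT.nd (nat_lit 1248) (nat_lit 3648) (nat_lit 0) (XT.nd (nat_lit 624) (nat_lit 2736) (nat_lit 0) (XT.nd (nat_lit 312) (nat_lit 1140) (nat_lit 0) (XT.nd (nat_lit 156) (nat_lit 608) (nat_lit 0) (XT.nd (nat_lit 78) (nat_lit 0) (nat_lit 0) (XT.lf (nat_lit 0) (nat_lit 330768777) (nat_lit 836) (nat_lit 6186135808) (nat_lit 912) (nat_lit 20802064962) (nat_lit 289) (nat_lit 5) (nat_lit 300) (nat_lit 5) (nat_lit 301) (nat_lit 5) (nat_lit 473) (nat_lit 455) (nat_lit 272)) (XT.lf (nat_lit 0) (nat_lit 9157553623) (nat_lit 912) (nat_lit 12364983003) (nat_lit 76) (nat_lit 6237197816) (nat_lit 289)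 (nat_lit 5) (nat_lit 301) (nat_lit 5) (nat_lit 290) (nat_lit 5) (nat_lit 474) (nat_lit 455) (nat_lit 271))) (XT.nd (nat_lit 78) (nat_lit 0) (nat_lit 0) (XT.lf (nat_lit 0) (nat_lit 2684630587) (nat_lit 608) (nat_lit 9276150900) (nat_lit 684) (nat_lit 16250440332) (nat_lit 281) (nat_lit 5) (nat_lit 289) (nat_lit 5) (nat_lit 290) (nat_lit 5) (nat_lit 475) (nat_lit 455) (nat_lit 270)) (XT.lf (nat_lit 0) (nat_lit 15002669002) (nat_lit 684) (nat_lit 10270140852) (nat_lit 76) (nat_lit 3398807383) (nat_lit 281) (nat_lit 5) (nat_lit 290) (nat_lit 5) (nat_lit 282) (nat_lit 5) (nat_lit 476) (nat_lit 455) (nat_lit 269)))) (XT.nd (nat_lit 156) (nat_lit 532) (nat_lit 0) (XT.nd (nat_lit 78) (nat_lit 0) (nat_lit 0) (XT.lf (nat_lit 0) (nat_lit 5455196959) (nat_lit 608) (nat_lit 12821384518) (nat_lit 684) (nat_lit 10865020286) (nat_lit 273) (nat_lit 5) (nat_lit 281) (nat_lit 5) (nat_lit 282) (nat_lit 5) (nat_lit 477) (nat_lit 455)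 (nat_lit 268)) (XT.lf (nat_lit 0) (nat_lit 21750037897) (nat_lit 684) (nat_lit 7764297398) (nat_lit 76) (nat_lit 108311022) (nat_lit 273) (nat_lit 5) (nat_lit 282) (nat_lit 5) (nat_lit 274) (nat_lit 5) (nat_lit 478) (nat_lit 455) (nat_lit 267))) (XT.nd (nat_lit 78) (nat_lit 0) (nat_lit 0) (XT.lf (nat_lit 0) (nat_lit 8674415114) (nat_lit 532) (nat_lit 16860268382) (nat_lit 608) (nat_lit 4577229427) (nat_lit 266) (nat_lit 5) (nat_lit 273) (nat_lit 5) (nat_lit 274) (nat_lit 5) (nat_lit 479) (nat_lit 455) (nat_lit 266)) (XT.lf (nat_lit 0) (nat_lit 25762099853) (nat_lit 532) (nat_lit 3745895252) (nat_lit 608) (nat_lit 1105608893) (nat_lit 266) (nat_lit 5) (nat_lit 273) (nat_lit 5) (nat_lit 274) (nat_lit 5) (nat_lit 480) (nat_lit 455) (nat_lit 265))))) (XT.nd (nat_lit 312) (nat_lit 988) (nat_lit 0) (XT.nd (nat_lit 156) (nat_lit 1064) (nat_lit 0) (XT.nd (nat_lit 78) (nat_lit 0) (nat_lit 0) (XT.lf (nat_lit 0) (nat_lit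 2633657914) (nat_lit 684) (nat_lit 18773484758) (nat_lit 76) (nat_lit 9716140068) (nat_lit 257) (nat_lit 5) (nat_lit 266) (nat_lit 5) (nat_lit 258) (nat_lit 5) (nat_lit 481) (nat_lit 455) (nat_lit 264)) (XT.lf (nat_lit 0) (nat_lit 6546291823) (nat_lit 684) (nat_lit 1532088930) (nat_lit 76) (nat_lit 23567040617) (nat_lit 257) (nat_lit 5) (nat_lit 266) (nat_lit 5) (nat_lit 258) (nat_lit 5) (nat_lit 482) (nat_lit 455) (nat_lit 263))) (XT.nd (nat_lit 78) (nat_lit 532) (nat_lit 0) (XT.lf (nat_lit 0) (nat_lit 10788181463) (nat_lit 608) (nat_lit 15688286255) (nat_lit 76) (nat_lit 5700400380) (nat_lit 250) (nat_lit 5) (nat_lit 258) (nat_lit 5) (nat_lit 251) (nat_lit 5) (nat_lit 483) (nat_lit 455) (nat_lit 262)) (XT.lf (nat_lit 0) (nat_lit 2319270349) (nat_lit 532) (nat_lit 12952954311) (nat_lit 608) (nat_lit 17448586897) (nat_lit 243) (nat_lit 5) (nat_lit 250) (nat_lit 5) (nat_lit 251) (nat_lit 5) (nat_lit 484) (nat_lit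 455) (nat_lit 261)))) (XT.nd (nat_lit 156) (nat_lit 532) (nat_lit 0) (XT.nd (nat_lit 78) (nat_lit 456) (nat_lit 0) (XT.lf (nat_lit 0) (nat_lit 20057209857) (nat_lit 608) (nat_lit 12102012955) (nat_lit 76) (nat_lit 1116858114) (nat_lit 243) (nat_lit 5) (nat_lit 251) (nat_lit 5) (nat_lit 244) (nat_lit 5) (nat_lit 485) (nat_lit 455) (nat_lit 260)) (XT.lf (nat_lit 0) (nat_lit 6746616088) (nat_lit 456) (nat_lit 18429361005) (nat_lit 532) (nat_lit 8666324529) (nat_lit 237) (nat_lit 5) (nat_lit 243) (nat_lit 5) (nat_lit 244) (nat_lit 5) (nat_lit 486) (nat_lit 455) (nat_lit 259))) (XT.nd (nat_lit 78) (nat_lit 532) (nat_lit 0) (XT.lf (nat_lit 0) (nat_lit 26405526883) (nat_lit 456) (nat_lit 4162172084) (nat_lit 532) (nat_lit 3854228438) (nat_lit 237) (nat_lit 5) (nat_lit 243) (nat_lit 5) (nat_lit 244) (nat_lit 5) (nat_lit 487) (nat_lit 455) (nat_lit 258)) (XT.lf (nat_lit 0) (nat_lit 1294376131) (nat_lit 532) (nat_lit 23265027004)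 (nat_lit 76) (nat_lit 10452811545) (nat_lit 230) (nat_lit 5) (nat_lit 237) (nat_lit 5) (nat_lit 231) (nat_lit 5) (nat_lit 488) (nat_lit 455) (nat_lit 257)))))) (XT.nd (nat_lit 624) (nat_lit 1824) (nat_lit 0) (XT.nd (nat_lit 312) (nat_lit 912) (nat_lit 0) (XT.nd (nat_lit 156) (nat_lit 456) (nat_lit 0) (XT.nd (nat_lit 78) (nat_lit 456) (nat_lit 0) (XT.lf (nat_lit 0) (nat_lit 6640218655) (nat_lit 532) (nat_lit 3433204207) (nat_lit 76) (nat_lit 25542035708) (nat_lit 230) (nat_lit 5) (nat_lit 237) (nat_lit 5) (nat_lit 231) (nat_lit 5) (nat_lit 489) (nat_lit 455) (nat_lit 256)) (XT.lf (nat_lit 0) (nat_lit 12358610873) (nat_lit 532) (nat_lit 18951571171) (nat_lit 76) (nat_lit 4920252690) (nat_lit 224) (nat_lit 5) (nat_lit 231) (nat_lit 5) (nat_lit 225) (nat_lit 5) (nat_lit 490) (nat_lit 455) (nat_lit 255))) (XT.nd (nat_lit 78) (nat_lit 0) (nat_lit 0) (XT.lf (nat_lit 0) (nat_lit 1750724634) (nat_lit 456) (nat_lit 16646813413)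 (nat_lit 532) (nat_lit 18461852825) (nat_lit 218) (nat_lit 5) (nat_lit 224) (nat_lit 5) (nat_lit 225) (nat_lit 5) (nat_lit 491) (nat_lit 455) (nat_lit 254)) (XT.lf (nat_lit 0) (nat_lit 23459400642) (nat_lit 456) (nat_lit 1347056541) (nat_lit 532) (nat_lit 12695093966) (nat_lit 218) (nat_lit 5) (nat_lit 224) (nat_lit 5) (nat_lit 225) (nat_lit 5) (nat_lit 492) (nat_lit 455) (nat_lit 253)))) (XT.nd (nat_lit 156) (nat_lit 532) (nat_lit 0) (XT.nd (nat_lit 78) (nat_lit 0) (nat_lit 0) (XT.lf (nat_lit 0) (nat_lit 7664230087) (nat_lit 380) (nat_lit 23953139923) (nat_lit 456) (nat_lit 6539314615) (nat_lit 213) (nat_lit 5) (nat_lit 218) (nat_lit 5) (nat_lit 219) (nat_lit 5) (nat_lit 493) (nat_lit 455) (nat_lit 252)) (XT.lf (nat_lit 0) (nat_lit 30292927373) (nat_lit 380) (nat_lit 8492248564) (nat_lit 456) (nat_lit 41719367) (nat_lit 213) (nat_lit 5) (nat_lit 218) (nat_lit 5) (nat_lit 219) (nat_lit 5) (nat_lit 494) (nat_lit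 455) (nat_lit 251))) (XT.nd (nat_lit 78) (nat_lit 0) (nat_lit 0) (XT.lf (nat_lit 0) (nat_lit 6729477818) (nat_lit 532) (nat_lit 25289462627) (nat_lit 76) (nat_lit 7490100412) (nat_lit 206) (nat_lit 5) (nat_lit 213) (nat_lit 5) (nat_lit 207) (nat_lit 5) (nat_lit 495) (nat_lit 455) (nat_lit 250)) (XT.lf (nat_lit 0) (nat_lit 13871725804) (nat_lit 532) (nat_lit 2466857716) (nat_lit 76) (nat_lit 23867992418) (nat_lit 206) (nat_lit 5) (nat_lit 213) (nat_lit 5) (nat_lit 207) (nat_lit 5) (nat_lit 496) (nat_lit 455) (nat_lit 249))))) (XT.nd (nat_lit 312) (nat_lit 684) (nat_lit 0) (XT.nd (nat_lit 156) (nat_lit 380) (nat_lit 0) (XT.nd (nat_lit 78) (nat_lit 380) (nat_lit 0) (XT.lf (nat_lit 0) (nat_lit 21432430732) (nat_lit 456) (nat_lit 19463059483) (nat_lit 76) (nat_lit 23421321) (nat_lit 201) (nat_lit 5) (nat_lit 207) (nat_lit 5) (nat_lit 202) (nat_lit 5) (nat_lit 497) (nat_lit 455) (nat_lit 248)) (XT.lf (nat_lit 0) (nat_lit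 4416046295) (nat_lit 380) (nat_lit 25031027082) (nat_lit 456) (nat_lit 12198730474) (nat_lit 196) (nat_lit 5) (nat_lit 201) (nat_lit 5) (nat_lit 202) (nat_lit 5) (nat_lit 498) (nat_lit 455) (nat_lit 247))) (XT.nd (nat_lit 78) (nat_lit 380) (nat_lit 0) (XT.lf (nat_lit 0) (nat_lit 29407475545) (nat_lit 380) (nat_lit 8488996824) (nat_lit 456) (nat_lit 4492201196) (nat_lit 196) (nat_lit 5) (nat_lit 201) (nat_lit 5) (nat_lit 202) (nat_lit 5) (nat_lit 499) (nat_lit 455) (nat_lit 246)) (XT.lf (nat_lit 0) (nat_lit 3577015363) (nat_lit 380) (nat_lit 31036325064) (nat_lit 76) (nat_lit 8533533683) (nat_lit 191) (nat_lit 5) (nat_lit 196) (nat_lit 5) (nat_lit 192) (nat_lit 5) (nat_lit 500) (nat_lit 455) (nat_lit 245)))) (XT.nd (nat_lit 156) (nat_lit 304) (nat_lit 0) (XT.nd (nat_lit 78) (nat_lit 380) (nat_lit 0) (XT.lf (nat_lit 0) (nat_lit 12012300506) (nat_lit 380) (nat_lit 5835568601) (nat_lit 76) (nat_lit 26072188950) (nat_lit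 191) (nat_lit 5) (nat_lit 196) (nat_lit 5) (nat_lit 192) (nat_lit 5) (nat_lit 501) (nat_lit 455) (nat_lit 244)) (XT.lf (nat_lit 0) (nat_lit 20518685325) (nat_lit 380) (nat_lit 377108581) (nat_lit 456) (nat_lit 23814789251) (nat_lit 186) (nat_lit 5) (nat_lit 191) (nat_lit 5) (nat_lit 192) (nat_lit 5) (nat_lit 502) (nat_lit 455) (nat_lit 243))) (XT.nd (nat_lit 78) (nat_lit 0) (nat_lit 0) (XT.lf (nat_lit 0) (nat_lit 2128794470) (nat_lit 304) (nat_lit 28164261559) (nat_lit 380) (nat_lit 15224350186) (nat_lit 182) (nat_lit 5) (nat_lit 186) (nat_lit 5) (nat_lit 187) (nat_lit 5) (nat_lit 503) (nat_lit 455) (nat_lit 242)) (XT.lf (nat_lit 0) (nat_lit 29728294701) (nat_lit 304) (nat_lit 10489897842) (nat_lit 380) (nat_lit 6122862844) (nat_lit 182) (nat_lit 5) (nat_lit 186) (nat_lit 5) (nat_lit 187) (nat_lit 5) (nat_lit 504) (nat_lit 455) (nat_lit 241))))))))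
noncomputable def xc206 : XT := (XT.nd (nat_lit 2418) (nat_lit 1292) (nat_lit 0) (XT.nd (nat_lit 1170) (nat_lit 2356) (nat_lit 0) (XT.nd (nat_lit 546) (nat_lit 1444) (nat_lit 0) (XT.nd (nat_lit 234) (nat_lit 684) (nat_lit 0) (XT.nd (nat_lit 78) (nat_lit 304) (nat_lit 0) (XT.lf (nat_lit 0) (nat_lit 3368924930) (nat_lit 380) (nat_lit 36111029380) (nat_lit 76) (nat_lit 7703100897) (nat_lit 177) (nat_lit 5) (nat_lit 182) (nat_lit 5) (nat_lit 178) (nat_lit 5) (nat_lit 505) (nat_lit 455) (nat_lit 240)) (XT.nd (nat_lit 78) (nat_lit 304) (nat_lit 0) (XT.lf (nat_lit 0) (nat_lit 13293710906) (nat_lit 380) (nat_lit 8286416987) (nat_lit 76) (nat_lit 26460229324) (nat_lit 177) (nat_lit 5) (nat_lit 182) (nat_lit 5) (nat_lit 178) (nat_lit 5) (nat_lit 506) (nat_lit 455) (nat_lit 239)) (XT.lf (nat_lit 0) (nat_lit 20775531296) (nat_lit 304) (nat_lit 2938504058) (nat_lit 380) (nat_lit 25203409191) (nat_lit 173) (nat_lit 5) (nat_lit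 177) (nat_lit 5) (nat_lit 178) (nat_lit 5) (nat_lit 507) (nat_lit 455) (nat_lit 238)))) (XT.nd (nat_lit 156) (nat_lit 380) (nat_lit 0) (XT.nd (nat_lit 78) (nat_lit 0) (nat_lit 0) (XT.lf (nat_lit 0) (nat_lit 918815975) (nat_lit 304) (nat_lit 33775922786) (nat_lit 380) (nat_lit 15118672759) (nat_lit 169) (nat_lit 5) (nat_lit 173) (nat_lit 5) (nat_lit 174) (nat_lit 5) (nat_lit 508) (nat_lit 455) (nat_lit 237)) (XT.lf (nat_lit 0) (nat_lit 31395774934) (nat_lit 304) (nat_lit 14920211646) (nat_lit 380) (nat_lit 4410937322) (nat_lit 169) (nat_lit 5) (nat_lit 173) (nat_lit 5) (nat_lit 174) (nat_lit 5) (nat_lit 509) (nat_lit 455) (nat_lit 236))) (XT.nd (nat_lit 78) (nat_lit 0) (nat_lit 0) (XT.lf (nat_lit 0) (nat_lit 6640384051) (nat_lit 380) (nat_lit 40434897200) (nat_lit 76) (nat_lit 4586107139) (nat_lit 164) (nat_lit 5) (nat_lit 169) (nat_lit 5) (nat_lit 165) (nat_lit 5) (nat_lit 510) (nat_lit 455) (nat_lit 235)) (XT.lf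 (nat_lit 0) (nat_lit 18277644555) (nat_lit 380) (nat_lit 9717004410) (nat_lit 76) (nat_lit 24617636109) (nat_lit 164) (nat_lit 5) (nat_lit 169) (nat_lit 5) (nat_lit 165) (nat_lit 5) (nat_lit 511) (nat_lit 455) (nat_lit 234))))) (XT.nd (nat_lit 312) (nat_lit 532) (nat_lit 0) (XT.nd (nat_lit 156) (nat_lit 380) (nat_lit 0) (XT.nd (nat_lit 78) (nat_lit 228) (nat_lit 0) (XT.lf (nat_lit 0) (nat_lit 22355977898) (nat_lit 304) (nat_lit 8121187665) (nat_lit 380) (nat_lit 23108148904) (nat_lit 160) (nat_lit 5) (nat_lit 164) (nat_lit 5) (nat_lit 165) (nat_lit 5) (nat_lit 512) (nat_lit 455) (nat_lit 233)) (XT.lf (nat_lit 0) (nat_lit 900946211) (nat_lit 228) (nat_lit 42366441653) (nat_lit 304) (nat_lit 11313405493) (nat_lit 157) (nat_lit 5) (nat_lit 160) (nat_lit 5) (nat_lit 161) (nat_lit 5) (nat_lit 513) (nat_lit 455) (nat_lit 232))) (XT.nd (nat_lit 78) (nat_lit 304) (nat_lit 0) (XT.lf (nat_lit 0) (nat_lit 1216035760) (nat_lit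 304) (nat_lit 21055643627) (nat_lit 76) (nat_lit 33322301873) (nat_lit 156) (nat_lit 5) (nat_lit 160) (nat_lit 5) (nat_lit 157) (nat_lit 5) (nat_lit 514) (nat_lit 455) (nat_lit 231)) (XT.lf (nat_lit 0) (nat_lit 12680067487) (nat_lit 304) (nat_lit 1334111257) (nat_lit 380) (nat_lit 42616419514) (nat_lit 152) (nat_lit 5) (nat_lit 156) (nat_lit 5) (nat_lit 157) (nat_lit 5) (nat_lit 515) (nat_lit 455) (nat_lit 230)))) (XT.nd (nat_lit 156) (nat_lit 304) (nat_lit 0) (XT.nd (nat_lit 78) (nat_lit 228) (nat_lit 0) (XT.lf (nat_lit 0) (nat_lit 27603803124) (nat_lit 380) (nat_lit 10031701828) (nat_lit 76) (nat_lit 20050582776) (nat_lit 152) (nat_lit 5) (nat_lit 157) (nat_lit 5) (nat_lit 153) (nat_lit 5) (nat_lit 516) (nat_lit 455) (nat_lit 229)) (XT.lf (nat_lit 0) (nat_lit 25384245133) (nat_lit 228) (nat_lit 16472470447) (nat_lit 304) (nat_lit 16908858397) (nat_lit 149) (nat_lit 5) (nat_lit 152) (nat_lit 5) (nat_lit 153) (nat_lit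 5) (nat_lit 517) (nat_lit 455) (nat_lit 228))) (XT.nd (nat_lit 78) (nat_lit 76) (nat_lit 0) (XT.lf (nat_lit 0) (nat_lit 2181693552) (nat_lit 228) (nat_lit 54528383536) (nat_lit 304) (nat_lit 3162181946) (nat_lit 146) (nat_lit 5) (nat_lit 149) (nat_lit 5) (nat_lit 150) (nat_lit 5) (nat_lit 518) (nat_lit 455) (nat_lit 227)) (XT.lf (nat_lit 0) (nat_lit 11284224230) (nat_lit 304) (nat_lit 21780876959) (nat_lit 76) (nat_lit 27928814703) (nat_lit 145) (nat_lit 5) (nat_lit 149) (nat_lit 5) (nat_lit 146) (nat_lit 5) (nat_lit 519) (nat_lit 455) (nat_lit 226)))))) (XT.nd (nat_lit 624) (nat_lit 1140) (nat_lit 0) (XT.nd (nat_lit 312) (nat_lit 456) (nat_lit 0) (XT.nd (nat_lit 156) (nat_lit 532) (nat_lit 0) (XT.nd (nat_lit 78) (nat_lit 0) (nat_lit 0) (XT.lf (nat_lit 0) (nat_lit 15474231185) (nat_lit 228) (nat_lit 10773430263) (nat_lit 304) (nat_lit 35896205941) (nat_lit 142) (nat_lit 5) (nat_lit 145) (nat_lit 5) (nat_lit 146)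 (nat_lit 5) (nat_lit 520) (nat_lit 455) (nat_lit 225)) (XT.lf (nat_lit 0) (nat_lit 41997732164) (nat_lit 304) (nat_lit 9150098686) (nat_lit 76) (nat_lit 12170354734) (nat_lit 142) (nat_lit 5) (nat_lit 146) (nat_lit 5) (nat_lit 143) (nat_lit 5) (nat_lit 521) (nat_lit 455) (nat_lit 224))) (XT.nd (nat_lit 78) (nat_lit 304) (nat_lit 0) (XT.lf (nat_lit 0) (nat_lit 29970735791) (nat_lit 228) (nat_lit 28642838499) (nat_lit 304) (nat_lit 5902361020) (nat_lit 139) (nat_lit 5) (nat_lit 142) (nat_lit 5) (nat_lit 143) (nat_lit 5) (nat_lit 522) (nat_lit 455) (nat_lit 223)) (XT.lf (nat_lit 0) (nat_lit 4698302311) (nat_lit 228) (nat_lit 5222245720) (nat_lit 304) (nat_lit 55822082457) (nat_lit 135) (nat_lit 5) (nat_lit 138) (nat_lit 5) (nat_lit 139) (nat_lit 5) (nat_lit 523) (nat_lit 455) (nat_lit 222)))) (XT.nd (nat_lit 156) (nat_lit 228) (nat_lit 0) (XT.nd (nat_lit 78) (nat_lit 228) (nat_lit 0) (XT.lf (nat_lit 0) (nat_lit 26632013729)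 (nat_lit 304) (nat_lit 21414464966) (nat_lit 76) (nat_lit 18941919677) (nat_lit 135) (nat_lit 5) (nat_lit 139) (nat_lit 5) (nat_lit 136) (nat_lit 5) (nat_lit 524) (nat_lit 455) (nat_lit 221)) (XT.lf (nat_lit 0) (nat_lit 19735292639) (nat_lit 228) (nat_lit 24349507673) (nat_lit 304) (nat_lit 24179539729) (nat_lit 132) (nat_lit 5) (nat_lit 135) (nat_lit 5) (nat_lit 136) (nat_lit 5) (nat_lit 525) (nat_lit 455) (nat_lit 220))) (XT.nd (nat_lit 78) (nat_lit 228) (nat_lit 0) (XT.lf (nat_lit 0) (nat_lit 62278690262) (nat_lit 304) (nat_lit 7018668777) (nat_lit 76) (nat_lit 274675380) (nat_lit 132) (nat_lit 5) (nat_lit 136) (nat_lit 5) (nat_lit 133) (nat_lit 5) (nat_lit 526) (nat_lit 455) (nat_lit 219)) (XT.lf (nat_lit 0) (nat_lit 10495855124) (nat_lit 228) (nat_lit 34804243089) (nat_lit 76) (nat_lit 25598144179) (nat_lit 129) (nat_lit 5) (nat_lit 132) (nat_lit 5) (nat_lit 130) (nat_lit 5) (nat_lit 527) (nat_lit 455) (nat_lit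 218))))) (XT.nd (nat_lit 312) (nat_lit 684) (nat_lit 0) (XT.nd (nat_lit 156) (nat_lit 228) (nat_lit 0) (XT.nd (nat_lit 78) (nat_lit 0) (nat_lit 0) (XT.lf (nat_lit 0) (nat_lit 8471869728) (nat_lit 228) (nat_lit 20351904507) (nat_lit 304) (nat_lit 43433747094) (nat_lit 126) (nat_lit 5) (nat_lit 129) (nat_lit 5) (nat_lit 130) (nat_lit 5) (nat_lit 528) (nat_lit 455) (nat_lit 217)) (XT.lf (nat_lit 0) (nat_lit 48106470301) (nat_lit 304) (nat_lit 19944528296) (nat_lit 76) (nat_lit 5594431903) (nat_lit 126) (nat_lit 5) (nat_lit 130) (nat_lit 5) (nat_lit 127) (nat_lit 5) (nat_lit 529) (nat_lit 455) (nat_lit 216))) (XT.nd (nat_lit 78) (nat_lit 76) (nat_lit 0) (XT.lf (nat_lit 0) (nat_lit 25505746819) (nat_lit 152) (nat_lit 42907249391) (nat_lit 228) (nat_lit 6648620312) (nat_lit 124) (nat_lit 5) (nat_lit 126) (nat_lit 5) (nat_lit 127) (nat_lit 5) (nat_lit 530) (nat_lit 455) (nat_lit 215)) (XT.lf (nat_lit 0) (nat_lit 12760557945)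 (nat_lit 228) (nat_lit 3913280095) (nat_lit 76) (nat_lit 59836694453) (nat_lit 123) (nat_lit 5) (nat_lit 126) (nat_lit 5) (nat_lit 124) (nat_lit 5) (nat_lit 531) (nat_lit 455) (nat_lit 214)))) (XT.nd (nat_lit 156) (nat_lit 304) (nat_lit 0) (XT.nd (nat_lit 78) (nat_lit 152) (nat_lit 0) (XT.lf (nat_lit 0) (nat_lit 33143236912) (nat_lit 304) (nat_lit 34205673983) (nat_lit 76) (nat_lit 10636284570) (nat_lit 120) (nat_lit 5) (nat_lit 124) (nat_lit 5) (nat_lit 121) (nat_lit 5) (nat_lit 532) (nat_lit 455) (nat_lit 213)) (XT.lf (nat_lit 0) (nat_lit 13577651115) (nat_lit 152) (nat_lit 40893975235) (nat_lit 228) (nat_lit 25022445114) (nat_lit 118) (nat_lit 5) (nat_lit 120) (nat_lit 5) (nat_lit 121) (nat_lit 5) (nat_lit 533) (nat_lit 455) (nat_lit 212))) (XT.nd (nat_lit 78) (nat_lit 304) (nat_lit 0) (XT.lf (nat_lit 0) (nat_lit 63493448944) (nat_lit 152) (nat_lit 13290563058) (nat_lit 228) (nat_lit 4253877444) (nat_lit 118)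 (nat_lit 5) (nat_lit 120) (nat_lit 5) (nat_lit 121) (nat_lit 5) (nat_lit 534) (nat_lit 455) (nat_lit 211)) (XT.lf (nat_lit 0) (nat_lit 17267191777) (nat_lit 304) (nat_lit 50013078079) (nat_lit 76) (nat_lit 15328894084) (nat_lit 114) (nat_lit 5) (nat_lit 118) (nat_lit 5) (nat_lit 115) (nat_lit 5) (nat_lit 535) (nat_lit 455) (nat_lit 210))))))) (XT.nd (nat_lit 56472) (nat_lit 0) (nat_lit 14592) (XT.nd (nat_lit 546) (nat_lit 532) (nat_lit 0) (XT.nd (nat_lit 234) (nat_lit 380) (nat_lit 0) (XT.nd (nat_lit 78) (nat_lit 228) (nat_lit 0) (XT.lf (nat_lit 0) (nat_lit 204563621) (nat_lit 152) (nat_lit 39455070975) (nat_lit 228) (nat_lit 44557341374) (nat_lit 112) (nat_lit 5) (nat_lit 114) (nat_lit 5) (nat_lit 115) (nat_lit 5) (nat_lit 536) (nat_lit 455) (nat_lit 209)) (XT.nd (nat_lit 78) (nat_lit 228) (nat_lit 0) (XT.lf (nat_lit 0) (nat_lit 52951798152) (nat_lit 152) (nat_lit 10275867373) (nat_lit 228) (nat_lit 22630242425)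 (nat_lit 112) (nat_lit 5) (nat_lit 114) (nat_lit 5) (nat_lit 115) (nat_lit 5) (nat_lit 537) (nat_lit 455) (nat_lit 208)) (XT.lf (nat_lit 0) (nat_lit 339833904) (nat_lit 228) (nat_lit 67609940078) (nat_lit 76) (nat_lit 19586778619) (nat_lit 109) (nat_lit 5) (nat_lit 112) (nat_lit 5) (nat_lit 110) (nat_lit 5) (nat_lit 538) (nat_lit 455) (nat_lit 207)))) (XT.nd (nat_lit 156) (nat_lit 228) (nat_lit 0) (XT.nd (nat_lit 78) (nat_lit 152) (nat_lit 0) (XT.lf (nat_lit 0) (nat_lit 23980295914) (nat_lit 228) (nat_lit 14567943950) (nat_lit 76) (nat_lit 50697511038) (nat_lit 109) (nat_lit 5) (nat_lit 112) (nat_lit 5) (nat_lit 110) (nat_lit 5) (nat_lit 539) (nat_lit 455) (nat_lit 206)) (XT.lf (nat_lit 0) (nat_lit 40860588697) (nat_lit 152) (nat_lit 7861005146) (nat_lit 228) (nat_lit 42272882679) (nat_lit 107) (nat_lit 5) (nat_lit 109) (nat_lit 5) (nat_lit 110) (nat_lit 5) (nat_lit 540) (nat_lit 455) (nat_lit 205))) (XT.nd (nat_lit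 78) (nat_lit 76) (nat_lit 0) (XT.lf (nat_lit 0) (nat_lit 5331602214) (nat_lit 152) (nat_lit 69300462980) (nat_lit 228) (nat_lit 18150790715) (nat_lit 105) (nat_lit 5) (nat_lit 107) (nat_lit 5) (nat_lit 108) (nat_lit 5) (nat_lit 541) (nat_lit 455) (nat_lit 204)) (XT.lf (nat_lit 0) (nat_lit 7152272266) (nat_lit 228) (nat_lit 31270215421) (nat_lit 76) (nat_lit 56182829801) (nat_lit 104) (nat_lit 5) (nat_lit 107) (nat_lit 5) (nat_lit 105) (nat_lit 5) (nat_lit 542) (nat_lit 455) (nat_lit 203))))) (XT.nd (nat_lit 312) (nat_lit 0) (nat_lit 0) (XT.nd (nat_lit 156) (nat_lit 380) (nat_lit 0) (XT.nd (nat_lit 78) (nat_lit 0) (nat_lit 0) (XT.lf (nat_lit 0) (nat_lit 26940235857) (nat_lit 152) (nat_lit 6167230797) (nat_lit 228) (nat_lit 63361859391) (nat_lit 102) (nat_lit 5) (nat_lit 104) (nat_lit 5) (nat_lit 105) (nat_lit 5) (nat_lit 543) (nat_lit 455) (nat_lit 202)) (XT.lf (nat_lit 0) (nat_lit 60419178126) (nat_lit 228) (nat_lit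 11106987773) (nat_lit 76) (nat_lit 26845753149) (nat_lit 102) (nat_lit 5) (nat_lit 105) (nat_lit 5) (nat_lit 103) (nat_lit 5) (nat_lit 544) (nat_lit 455) (nat_lit 201))) (XT.nd (nat_lit 78) (nat_lit 228) (nat_lit 0) (XT.lf (nat_lit 0) (nat_lit 49980052315) (nat_lit 152) (nat_lit 39110612641) (nat_lit 228) (nat_lit 11224712192) (nat_lit 100) (nat_lit 5) (nat_lit 102) (nat_lit 5) (nat_lit 103) (nat_lit 5) (nat_lit 545) (nat_lit 455) (nat_lit 200)) (XT.lf (nat_lit 0) (nat_lit 10865841011) (nat_lit 152) (nat_lit 5337788110) (nat_lit 228) (nat_lit 86102308518) (nat_lit 97) (nat_lit 5) (nat_lit 99) (nat_lit 5) (nat_lit 100) (nat_lit 5) (nat_lit 546) (nat_lit 455) (nat_lit 199)))) (XT.nd (nat_lit 55458) (nat_lit 0) (nat_lit 16112) (XT.nd (nat_lit 55380) (nat_lit 0) (nat_lit 16112) (XT.lf (nat_lit 0) (nat_lit 45024539955) (nat_lit 228) (nat_lit 29807303357) (nat_lit 76) (nat_lit 29497177837) (nat_lit 97) (nat_lit 5) (nat_lit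 100) (nat_lit 5) (nat_lit 98) (nat_lit 5) (nat_lit 547) (nat_lit 455) (nat_lit 198)) (XT.lf (nat_lit 0) (nat_lit 4131864470) (nat_lit 1292) (nat_lit 3272838263) (nat_lit 1292) (nat_lit 3272838263) (nat_lit 309) (nat_lit 3) (nat_lit 326) (nat_lit 3) (nat_lit 326) (nat_lit 5) (nat_lit 456) (nat_lit 456) (nat_lit 288))) (XT.nd (nat_lit 78) (nat_lit 0) (nat_lit 76) (XT.lf (nat_lit 76) (nat_lit 4126806366) (nat_lit 0) (nat_lit 4444542739) (nat_lit 1292) (nat_lit 13098535871) (nat_lit 310) (nat_lit 5) (nat_lit 309) (nat_lit 3) (nat_lit 326) (nat_lit 5) (nat_lit 457) (nat_lit 456) (nat_lit 287)) (XT.lf (nat_lit 0) (nat_lit 9009227378) (nat_lit 1216) (nat_lit 6802206477) (nat_lit 1292) (nat_lit 6179067831) (nat_lit 310) (nat_lit 5) (nat_lit 326) (nat_lit 5) (nat_lit 327) (nat_lit 5) (nat_lit 458) (nat_lit 456) (nat_lit 286)))))) (XT.nd (nat_lit 624) (nat_lit 1596) (nat_lit 0) (XT.nd (nat_lit 312) (nat_lit 0) (nat_lit 152)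 (XT.nd (nat_lit 156) (nat_lit 0) (nat_lit 76) (XT.nd (nat_lit 78) (nat_lit 0) (nat_lit 76) (XT.lf (nat_lit 76) (nat_lit 4297693720) (nat_lit 0) (nat_lit 5242407288) (nat_lit 1292) (nat_lit 12778240621) (nat_lit 311) (nat_lit 5) (nat_lit 310) (nat_lit 5) (nat_lit 327) (nat_lit 5) (nat_lit 459) (nat_lit 456) (nat_lit 285)) (XT.lf (nat_lit 0) (nat_lit 10205214088) (nat_lit 1216) (nat_lit 6842066031) (nat_lit 1292) (nat_lit 5605187747) (nat_lit 311) (nat_lit 5) (nat_lit 327) (nat_lit 5) (nat_lit 328) (nat_lit 5) (nat_lit 460) (nat_lit 456) (nat_lit 284))) (XT.nd (nat_lit 78) (nat_lit 0) (nat_lit 76) (XT.lf (nat_lit 76) (nat_lit 4708737441) (nat_lit 0) (nat_lit 6273559560) (nat_lit 1292) (nat_lit 12011560869) (nat_lit 312) (nat_lit 5) (nat_lit 311) (nat_lit 5) (nat_lit 328) (nat_lit 5) (nat_lit 461) (nat_lit 456) (nat_lit 283)) (XT.lf (nat_lit 0) (nat_lit 11893820406) (nat_lit 1216) (nat_lit 6647400293) (nat_lit 1292)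 (nat_lit 4800935498) (nat_lit 312) (nat_lit 5) (nat_lit 328) (nat_lit 5) (nat_lit 329) (nat_lit 5) (nat_lit 462) (nat_lit 456) (nat_lit 282)))) (XT.nd (nat_lit 156) (nat_lit 0) (nat_lit 76) (XT.nd (nat_lit 78) (nat_lit 0) (nat_lit 76) (XT.lf (nat_lit 76) (nat_lit 5379143417) (nat_lit 0) (nat_lit 7562501436) (nat_lit 1292) (nat_lit 10755990409) (nat_lit 313) (nat_lit 5) (nat_lit 312) (nat_lit 5) (nat_lit 329) (nat_lit 5) (nat_lit 463) (nat_lit 456) (nat_lit 281)) (XT.lf (nat_lit 0) (nat_lit 14119959728) (nat_lit 1216) (nat_lit 6198973490) (nat_lit 1292) (nat_lit 3741874246) (nat_lit 313) (nat_lit 5) (nat_lit 329) (nat_lit 5) (nat_lit 330) (nat_lit 5) (nat_lit 464) (nat_lit 456) (nat_lit 280))) (XT.nd (nat_lit 78) (nat_lit 0) (nat_lit 76) (XT.lf (nat_lit 76) (nat_lit 6329574952) (nat_lit 0) (nat_lit 9135167708) (nat_lit 1292) (nat_lit 8966199035) (nat_lit 314) (nat_lit 5) (nat_lit 313) (nat_lit 5) (nat_lit 330) (nat_lit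 5) (nat_lit 465) (nat_lit 456) (nat_lit 279)) (XT.lf (nat_lit 0) (nat_lit 16931518973) (nat_lit 1216) (nat_lit 5476095529) (nat_lit 1292) (nat_lit 2402116366) (nat_lit 314) (nat_lit 5) (nat_lit 330) (nat_lit 5) (nat_lit 331) (nat_lit 5) (nat_lit 466) (nat_lit 456) (nat_lit 278))))) (XT.nd (nat_lit 312) (nat_lit 1900) (nat_lit 0) (XT.nd (nat_lit 156) (nat_lit 0) (nat_lit 76) (XT.nd (nat_lit 78) (nat_lit 0) (nat_lit 76) (XT.lf (nat_lit 76) (nat_lit 7582230705) (nat_lit 0) (nat_lit 11019045846) (nat_lit 1292) (nat_lit 6593838222) (nat_lit 315) (nat_lit 5) (nat_lit 314) (nat_lit 5) (nat_lit 331) (nat_lit 5) (nat_lit 467) (nat_lit 456) (nat_lit 277)) (XT.lf (nat_lit 0) (nat_lit 20379560815) (nat_lit 1216) (nat_lit 4456543271) (nat_lit 1292) (nat_lit 754203479) (nat_lit 315) (nat_lit 5) (nat_lit 331) (nat_lit 5) (nat_lit 332) (nat_lit 5) (nat_lit 468) (nat_lit 456) (nat_lit 276))) (XT.nd (nat_lit 78) (nat_lit 0) (nat_lit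 0) (XT.lf (nat_lit 76) (nat_lit 9160928149) (nat_lit 0) (nat_lit 13243301416) (nat_lit 1292) (nat_lit 3587335872) (nat_lit 316) (nat_lit 5) (nat_lit 315) (nat_lit 5) (nat_lit 332) (nat_lit 5) (nat_lit 469) (nat_lit 456) (nat_lit 275)) (XT.lf (nat_lit 76) (nat_lit 23275087235) (nat_lit 0) (nat_lit 1255518979) (nat_lit 1292) (nat_lit 1873026160) (nat_lit 316) (nat_lit 5) (nat_lit 315) (nat_lit 5) (nat_lit 332) (nat_lit 5) (nat_lit 470) (nat_lit 456) (nat_lit 274)))) (XT.nd (nat_lit 156) (nat_lit 760) (nat_lit 0) (XT.nd (nat_lit 78) (nat_lit 0) (nat_lit 0) (XT.lf (nat_lit 0) (nat_lit 106206908) (nat_lit 1292) (nat_lit 15731630307) (nat_lit 1368) (nat_lit 10983913374) (nat_lit 299) (nat_lit 5) (nat_lit 316) (nat_lit 5) (nat_lit 317) (nat_lit 5) (nat_lit 471) (nat_lit 456) (nat_lit 273)) (XT.lf (nat_lit 0) (nat_lit 2147642665) (nat_lit 1292) (nat_lit 1486544956) (nat_lit 1368) (nat_lit 23616454566) (nat_lit 299) (nat_lit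 5) (nat_lit 316) (nat_lit 5) (nat_lit 317) (nat_lit 5) (nat_lit 472) (nat_lit 456) (nat_lit 272))) (XT.nd (nat_lit 78) (nat_lit 836) (nat_lit 0) (XT.lf (nat_lit 0) (nat_lit 4462991558) (nat_lit 1292) (nat_lit 14330735018) (nat_lit 76) (nat_lit 8892294181) (nat_lit 300) (nat_lit 5) (nat_lit 317) (nat_lit 5) (nat_lit 301) (nat_lit 5) (nat_lit 473) (nat_lit 456) (nat_lit 271)) (XT.lf (nat_lit 0) (nat_lit 509384073) (nat_lit 836) (nat_lit 6390787739) (nat_lit 912) (nat_lit 21232718058) (nat_lit 289) (nat_lit 5) (nat_lit 300) (nat_lit 5) (nat_lit 301) (nat_lit 5) (nat_lit 474) (nat_lit 456) (nat_lit 270))))))))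
noncomputable def xc207 : XT := (XT.nd (nat_lit 2418) (nat_lit 5320) (nat_lit 0) (XT.nd (nat_lit 1170) (nat_lit 3648) (nat_lit 0) (XT.nd (nat_lit 546) (nat_lit 2736) (nat_lit 0) (XT.nd (nat_lit 234) (nat_lit 1140) (nat_lit 0) (XT.nd (nat_lit 78) (nat_lit 608) (nat_lit 0) (XT.lf (nat_lit 0) (nat_lit 9614393627) (nat_lit 912) (nat_lit 12566491437) (nat_lit 76) (nat_lit 6406162514) (nat_lit 289) (nat_lit 5) (nat_lit 301) (nat_lit 5) (nat_lit 290) (nat_lit 5) (nat_lit 475) (nat_lit 456) (nat_lit 269)) (XT.nd (nat_lit 78) (nat_lit 0) (nat_lit 0) (XT.lf (nat_lit 0) (nat_lit 2932949374) (nat_lit 608) (nat_lit 9565077482) (nat_lit 684) (nat_lit 16554163915) (nat_lit 281) (nat_lit 5) (nat_lit 289) (nat_lit 5) (nat_lit 290) (nat_lit 5) (nat_lit 476) (nat_lit 456) (nat_lit 268)) (XT.lf (nat_lit 0) (nat_lit 15625874923) (nat_lit 684) (nat_lit 10410041321) (nat_lit 76) (nat_lit 3490641129) (nat_lit 281) (nat_lit 5) (nat_lit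 290) (nat_lit 5) (nat_lit 282) (nat_lit 5) (nat_lit 477) (nat_lit 456) (nat_lit 267)))) (XT.nd (nat_lit 156) (nat_lit 532) (nat_lit 0) (XT.nd (nat_lit 78) (nat_lit 0) (nat_lit 0) (XT.lf (nat_lit 0) (nat_lit 5785407568) (nat_lit 608) (nat_lit 13209155730) (nat_lit 684) (nat_lit 11016181807) (nat_lit 273) (nat_lit 5) (nat_lit 281) (nat_lit 5) (nat_lit 282) (nat_lit 5) (nat_lit 478) (nat_lit 456) (nat_lit 266)) (XT.lf (nat_lit 0) (nat_lit 22567251939) (nat_lit 684) (nat_lit 7830537488) (nat_lit 76) (nat_lit 108581126) (nat_lit 273) (nat_lit 5) (nat_lit 282) (nat_lit 5) (nat_lit 274) (nat_lit 5) (nat_lit 479) (nat_lit 456) (nat_lit 265))) (XT.nd (nat_lit 78) (nat_lit 0) (nat_lit 0) (XT.lf (nat_lit 0) (nat_lit 9099702195) (nat_lit 532) (nat_lit 17362523853) (nat_lit 608) (nat_lit 4548185835) (nat_lit 266) (nat_lit 5) (nat_lit 273) (nat_lit 5) (nat_lit 274) (nat_lit 5) (nat_lit 480) (nat_lit 456) (nat_lit 264)) (XT.lf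 (nat_lit 0) (nat_lit 26695210060) (nat_lit 532) (nat_lit 3854823002) (nat_lit 608) (nat_lit 977262135) (nat_lit 266) (nat_lit 5) (nat_lit 273) (nat_lit 5) (nat_lit 274) (nat_lit 5) (nat_lit 481) (nat_lit 456) (nat_lit 263))))) (XT.nd (nat_lit 312) (nat_lit 988) (nat_lit 0) (XT.nd (nat_lit 156) (nat_lit 1064) (nat_lit 0) (XT.nd (nat_lit 78) (nat_lit 0) (nat_lit 0) (XT.lf (nat_lit 0) (nat_lit 2868036339) (nat_lit 684) (nat_lit 19170270920) (nat_lit 76) (nat_lit 10014000670) (nat_lit 257) (nat_lit 5) (nat_lit 266) (nat_lit 5) (nat_lit 258) (nat_lit 5) (nat_lit 482) (nat_lit 456) (nat_lit 262)) (XT.lf (nat_lit 0) (nat_lit 6893523963) (nat_lit 684) (nat_lit 1416480354) (nat_lit 76) (nat_lit 24280242515) (nat_lit 257) (nat_lit 5) (nat_lit 266) (nat_lit 5) (nat_lit 258) (nat_lit 5) (nat_lit 483) (nat_lit 456) (nat_lit 261))) (XT.nd (nat_lit 78) (nat_lit 532) (nat_lit 0) (XT.lf (nat_lit 0) (nat_lit 11259930037) (nat_lit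 608) (nat_lit 15994611813) (nat_lit 76) (nat_lit 5883177667) (nat_lit 250) (nat_lit 5) (nat_lit 258) (nat_lit 5) (nat_lit 251) (nat_lit 5) (nat_lit 484) (nat_lit 456) (nat_lit 260)) (XT.lf (nat_lit 0) (nat_lit 2551560480) (nat_lit 532) (nat_lit 13324184455) (nat_lit 608) (nat_lit 17822319169) (nat_lit 243) (nat_lit 5) (nat_lit 250) (nat_lit 5) (nat_lit 251) (nat_lit 5) (nat_lit 485) (nat_lit 456) (nat_lit 259)))) (XT.nd (nat_lit 156) (nat_lit 532) (nat_lit 0) (XT.nd (nat_lit 78) (nat_lit 456) (nat_lit 0) (XT.lf (nat_lit 0) (nat_lit 20800208089) (nat_lit 608) (nat_lit 12303018043) (nat_lit 76) (nat_lit 1166887896) (nat_lit 243) (nat_lit 5) (nat_lit 251) (nat_lit 5) (nat_lit 244) (nat_lit 5) (nat_lit 486) (nat_lit 456) (nat_lit 258)) (XT.lf (nat_lit 0) (nat_lit 7109481094) (nat_lit 456) (nat_lit 18960484743) (nat_lit 532) (nat_lit 8783432999) (nat_lit 237) (nat_lit 5) (nat_lit 243) (nat_lit 5) (nat_lit 244) (nat_lit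 5) (nat_lit 487) (nat_lit 456) (nat_lit 257))) (XT.nd (nat_lit 78) (nat_lit 532) (nat_lit 0) (XT.lf (nat_lit 0) (nat_lit 27353485430) (nat_lit 456) (nat_lit 4265913856) (nat_lit 532) (nat_lit 3831135615) (nat_lit 237) (nat_lit 5) (nat_lit 243) (nat_lit 5) (nat_lit 244) (nat_lit 5) (nat_lit 488) (nat_lit 456) (nat_lit 256)) (XT.lf (nat_lit 0) (nat_lit 1466992279) (nat_lit 532) (nat_lit 23802230659) (nat_lit 76) (nat_lit 10789334979) (nat_lit 230) (nat_lit 5) (nat_lit 237) (nat_lit 5) (nat_lit 231) (nat_lit 5) (nat_lit 489) (nat_lit 456) (nat_lit 255)))))) (XT.nd (nat_lit 624) (nat_lit 1824) (nat_lit 0) (XT.nd (nat_lit 312) (nat_lit 912) (nat_lit 0) (XT.nd (nat_lit 156) (nat_lit 456) (nat_lit 0) (XT.nd (nat_lit 78) (nat_lit 456) (nat_lit 0) (XT.lf (nat_lit 0) (nat_lit 6969313433) (nat_lit 532) (nat_lit 3380135134) (nat_lit 76) (nat_lit 26330567738) (nat_lit 230) (nat_lit 5) (nat_lit 237) (nat_lit 5) (nat_lit 231)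 (nat_lit 5) (nat_lit 490) (nat_lit 456) (nat_lit 254)) (XT.lf (nat_lit 0) (nat_lit 12857218760) (nat_lit 532) (nat_lit 19362005347) (nat_lit 76) (nat_lit 5094279080) (nat_lit 224) (nat_lit 5) (nat_lit 231) (nat_lit 5) (nat_lit 225) (nat_lit 5) (nat_lit 491) (nat_lit 456) (nat_lit 253))) (XT.nd (nat_lit 78) (nat_lit 0) (nat_lit 0) (XT.lf (nat_lit 0) (nat_lit 1959809204) (nat_lit 456) (nat_lit 17115285748) (nat_lit 532) (nat_lit 18886299886) (nat_lit 218) (nat_lit 5) (nat_lit 224) (nat_lit 5) (nat_lit 225) (nat_lit 5) (nat_lit 492) (nat_lit 456) (nat_lit 252)) (XT.lf (nat_lit 0) (nat_lit 24315185411) (nat_lit 456) (nat_lit 1357437104) (nat_lit 532) (nat_lit 12950307441) (nat_lit 218) (nat_lit 5) (nat_lit 224) (nat_lit 5) (nat_lit 225) (nat_lit 5) (nat_lit 493) (nat_lit 456) (nat_lit 251)))) (XT.nd (nat_lit 156) (nat_lit 456) (nat_lit 0) (XT.nd (nat_lit 78) (nat_lit 76) (nat_lit 0) (XT.lf (nat_lit 0) (nat_lit 8048015439)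 (nat_lit 380) (nat_lit 24638053968) (nat_lit 456) (nat_lit 6611702079) (nat_lit 213) (nat_lit 5) (nat_lit 218) (nat_lit 5) (nat_lit 219) (nat_lit 5) (nat_lit 494) (nat_lit 456) (nat_lit 250)) (XT.lf (nat_lit 0) (nat_lit 75708683) (nat_lit 456) (nat_lit 8637843650) (nat_lit 76) (nat_lit 31274619136) (nat_lit 212) (nat_lit 5) (nat_lit 218) (nat_lit 5) (nat_lit 213) (nat_lit 5) (nat_lit 495) (nat_lit 456) (nat_lit 249))) (XT.nd (nat_lit 78) (nat_lit 0) (nat_lit 0) (XT.lf (nat_lit 0) (nat_lit 7047545800) (nat_lit 532) (nat_lit 25894751161) (nat_lit 76) (nat_lit 7748521989) (nat_lit 206) (nat_lit 5) (nat_lit 213) (nat_lit 5) (nat_lit 207) (nat_lit 5) (nat_lit 496) (nat_lit 456) (nat_lit 248)) (XT.lf (nat_lit 0) (nat_lit 14400677235) (nat_lit 532) (nat_lit 2391935928) (nat_lit 76) (nat_lit 24616768662) (nat_lit 206) (nat_lit 5) (nat_lit 213) (nat_lit 5) (nat_lit 207) (nat_lit 5) (nat_lit 497) (nat_lit 456) (nat_lit 247)))))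 (XT.nd (nat_lit 312) (nat_lit 684) (nat_lit 0) (XT.nd (nat_lit 156) (nat_lit 380) (nat_lit 0) (XT.nd (nat_lit 78) (nat_lit 380) (nat_lit 0) (XT.lf (nat_lit 0) (nat_lit 22186686635) (nat_lit 456) (nat_lit 19896499886) (nat_lit 76) (nat_lit 59946686) (nat_lit 201) (nat_lit 5) (nat_lit 207) (nat_lit 5) (nat_lit 202) (nat_lit 5) (nat_lit 498) (nat_lit 456) (nat_lit 246)) (XT.lf (nat_lit 0) (nat_lit 4697504051) (nat_lit 380) (nat_lit 25742455308) (nat_lit 456) (nat_lit 12451927418) (nat_lit 196) (nat_lit 5) (nat_lit 201) (nat_lit 5) (nat_lit 202) (nat_lit 5) (nat_lit 499) (nat_lit 456) (nat_lit 245))) (XT.nd (nat_lit 78) (nat_lit 380) (nat_lit 0) (XT.lf (nat_lit 0) (nat_lit 30434337062) (nat_lit 380) (nat_lit 8705314703) (nat_lit 456) (nat_lit 4517486678) (nat_lit 196) (nat_lit 5) (nat_lit 201) (nat_lit 5) (nat_lit 202) (nat_lit 5) (nat_lit 500) (nat_lit 456) (nat_lit 244)) (XT.lf (nat_lit 0) (nat_lit 3790322471) (nat_lit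 380) (nat_lit 31819280699) (nat_lit 76) (nat_lit 8828490880) (nat_lit 191) (nat_lit 5) (nat_lit 196) (nat_lit 5) (nat_lit 192) (nat_lit 5) (nat_lit 501) (nat_lit 456) (nat_lit 243)))) (XT.nd (nat_lit 156) (nat_lit 304) (nat_lit 0) (XT.nd (nat_lit 78) (nat_lit 380) (nat_lit 0) (XT.lf (nat_lit 0) (nat_lit 12475578887) (nat_lit 380) (nat_lit 5866816128) (nat_lit 76) (nat_lit 26892171305) (nat_lit 191) (nat_lit 5) (nat_lit 196) (nat_lit 5) (nat_lit 192) (nat_lit 5) (nat_lit 502) (nat_lit 456) (nat_lit 242)) (XT.lf (nat_lit 0) (nat_lit 21276655420) (nat_lit 380) (nat_lit 347293236) (nat_lit 456) (nat_lit 24424907550) (nat_lit 186) (nat_lit 5) (nat_lit 191) (nat_lit 5) (nat_lit 192) (nat_lit 5) (nat_lit 503) (nat_lit 456) (nat_lit 241))) (XT.nd (nat_lit 78) (nat_lit 0) (nat_lit 0) (XT.lf (nat_lit 0) (nat_lit 2336294788) (nat_lit 304) (nat_lit 28965648484) (nat_lit 380) (nat_lit 15577976419) (nat_lit 182) (nat_lit 5)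 (nat_lit 186) (nat_lit 5) (nat_lit 187) (nat_lit 5) (nat_lit 504) (nat_lit 456) (nat_lit 240)) (XT.lf (nat_lit 0) (nat_lit 30759596440) (nat_lit 304) (nat_lit 10762322037) (nat_lit 380) (nat_lit 6206447494) (nat_lit 182) (nat_lit 5) (nat_lit 186) (nat_lit 5) (nat_lit 187) (nat_lit 5) (nat_lit 505) (nat_lit 456) (nat_lit 239))))))) (XT.nd (nat_lit 1248) (nat_lit 2280) (nat_lit 0) (XT.nd (nat_lit 624) (nat_lit 1368) (nat_lit 0) (XT.nd (nat_lit 312) (nat_lit 684) (nat_lit 0) (XT.nd (nat_lit 156) (nat_lit 608) (nat_lit 0) (XT.nd (nat_lit 78) (nat_lit 0) (nat_lit 0) (XT.lf (nat_lit 0) (nat_lit 3567045002) (nat_lit 380) (nat_lit 37051847600) (nat_lit 76) (nat_lit 7976737345) (nat_lit 177) (nat_lit 5) (nat_lit 182) (nat_lit 5) (nat_lit 178) (nat_lit 5) (nat_lit 506) (nat_lit 456) (nat_lit 238)) (XT.lf (nat_lit 0) (nat_lit 13786747791) (nat_lit 380) (nat_lit 8396647689) (nat_lit 76) (nat_lit 27295340496) (nat_lit 177)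 (nat_lit 5) (nat_lit 182) (nat_lit 5) (nat_lit 178) (nat_lit 5) (nat_lit 507) (nat_lit 456) (nat_lit 237))) (XT.nd (nat_lit 78) (nat_lit 304) (nat_lit 0) (XT.lf (nat_lit 0) (nat_lit 21535802555) (nat_lit 304) (nat_lit 2982451964) (nat_lit 380) (nat_lit 25863924381) (nat_lit 173) (nat_lit 5) (nat_lit 177) (nat_lit 5) (nat_lit 178) (nat_lit 5) (nat_lit 508) (nat_lit 456) (nat_lit 236)) (XT.lf (nat_lit 0) (nat_lit 1084383443) (nat_lit 304) (nat_lit 34743031865) (nat_lit 380) (nat_lit 15477638633) (nat_lit 169) (nat_lit 5) (nat_lit 173) (nat_lit 5) (nat_lit 174) (nat_lit 5) (nat_lit 509) (nat_lit 456) (nat_lit 235)))) (XT.nd (nat_lit 156) (nat_lit 304) (nat_lit 0) (XT.nd (nat_lit 78) (nat_lit 380) (nat_lit 0) (XT.lf (nat_lit 0) (nat_lit 32471631667) (nat_lit 304) (nat_lit 15322994108) (nat_lit 380) (nat_lit 4451426307) (nat_lit 169) (nat_lit 5) (nat_lit 173) (nat_lit 5) (nat_lit 174) (nat_lit 5) (nat_lit 510) (nat_lit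 456) (nat_lit 234)) (XT.lf (nat_lit 0) (nat_lit 6928751880) (nat_lit 380) (nat_lit 41511268714) (nat_lit 76) (nat_lit 4768530281) (nat_lit 164) (nat_lit 5) (nat_lit 169) (nat_lit 5) (nat_lit 165) (nat_lit 5) (nat_lit 511) (nat_lit 456) (nat_lit 233))) (XT.nd (nat_lit 78) (nat_lit 304) (nat_lit 0) (XT.lf (nat_lit 0) (nat_lit 18912533413) (nat_lit 380) (nat_lit 9875819978) (nat_lit 76) (nat_lit 25399699103) (nat_lit 164) (nat_lit 5) (nat_lit 169) (nat_lit 5) (nat_lit 165) (nat_lit 5) (nat_lit 512) (nat_lit 456) (nat_lit 232)) (XT.lf (nat_lit 0) (nat_lit 23158050873) (nat_lit 304) (nat_lit 8318731063) (nat_lit 380) (nat_lit 23713528702) (nat_lit 160) (nat_lit 5) (nat_lit 164) (nat_lit 5) (nat_lit 165) (nat_lit 5) (nat_lit 513) (nat_lit 456) (nat_lit 231))))) (XT.nd (nat_lit 312) (nat_lit 760) (nat_lit 0) (XT.nd (nat_lit 156) (nat_lit 304) (nat_lit 0) (XT.nd (nat_lit 78) (nat_lit 76) (nat_lit 0) (XT.lf (nat_lit 0)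 (nat_lit 1060179472) (nat_lit 228) (nat_lit 43589747924) (nat_lit 304) (nat_lit 11565750128) (nat_lit 157) (nat_lit 5) (nat_lit 160) (nat_lit 5) (nat_lit 161) (nat_lit 5) (nat_lit 514) (nat_lit 456) (nat_lit 230)) (XT.lf (nat_lit 0) (nat_lit 1335389380) (nat_lit 304) (nat_lit 21557305500) (nat_lit 76) (nat_lit 34366615779) (nat_lit 156) (nat_lit 5) (nat_lit 160) (nat_lit 5) (nat_lit 157) (nat_lit 5) (nat_lit 515) (nat_lit 456) (nat_lit 229))) (XT.nd (nat_lit 78) (nat_lit 0) (nat_lit 0) (XT.lf (nat_lit 0) (nat_lit 13189202365) (nat_lit 304) (nat_lit 1327097984) (nat_lit 380) (nat_lit 43810761219) (nat_lit 152) (nat_lit 5) (nat_lit 156) (nat_lit 5) (nat_lit 157) (nat_lit 5) (nat_lit 516) (nat_lit 456) (nat_lit 228)) (XT.lf (nat_lit 0) (nat_lit 28511672934) (nat_lit 380) (nat_lit 10205725363) (nat_lit 76) (nat_lit 20696875751) (nat_lit 152) (nat_lit 5) (nat_lit 157) (nat_lit 5) (nat_lit 153) (nat_lit 5) (nat_lit 517)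 (nat_lit 456) (nat_lit 227)))) (XT.nd (nat_lit 156) (nat_lit 304) (nat_lit 0) (XT.nd (nat_lit 78) (nat_lit 228) (nat_lit 0) (XT.lf (nat_lit 0) (nat_lit 26271455620) (nat_lit 228) (nat_lit 16919602305) (nat_lit 304) (nat_lit 17335120510) (nat_lit 149) (nat_lit 5) (nat_lit 152) (nat_lit 5) (nat_lit 153) (nat_lit 5) (nat_lit 518) (nat_lit 456) (nat_lit 226)) (XT.lf (nat_lit 0) (nat_lit 2373487135) (nat_lit 228) (nat_lit 56115896145) (nat_lit 304) (nat_lit 3176699978) (nat_lit 146) (nat_lit 5) (nat_lit 149) (nat_lit 5) (nat_lit 150) (nat_lit 5) (nat_lit 519) (nat_lit 456) (nat_lit 225))) (XT.nd (nat_lit 78) (nat_lit 228) (nat_lit 0) (XT.lf (nat_lit 0) (nat_lit 11699235965) (nat_lit 304) (nat_lit 22310114942) (nat_lit 76) (nat_lit 28812084676) (nat_lit 145) (nat_lit 5) (nat_lit 149) (nat_lit 5) (nat_lit 146) (nat_lit 5) (nat_lit 520) (nat_lit 456) (nat_lit 224)) (XT.lf (nat_lit 0) (nat_lit 16061428914) (nat_lit 228)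 (nat_lit 11049101738) (nat_lit 304) (nat_lit 36895386438) (nat_lit 142) (nat_lit 5) (nat_lit 145) (nat_lit 5) (nat_lit 146) (nat_lit 5) (nat_lit 521) (nat_lit 456) (nat_lit 223)))))) (XT.nd (nat_lit 624) (nat_lit 1064) (nat_lit 0) (XT.nd (nat_lit 312) (nat_lit 684) (nat_lit 0) (XT.nd (nat_lit 156) (nat_lit 304) (nat_lit 0) (XT.nd (nat_lit 78) (nat_lit 228) (nat_lit 0) (XT.lf (nat_lit 0) (nat_lit 43331349820) (nat_lit 304) (nat_lit 9303455809) (nat_lit 76) (nat_lit 12580711904) (nat_lit 142) (nat_lit 5) (nat_lit 146) (nat_lit 5) (nat_lit 143) (nat_lit 5) (nat_lit 522) (nat_lit 456) (nat_lit 222)) (XT.lf (nat_lit 0) (nat_lit 30989815999) (nat_lit 228) (nat_lit 29454858137) (nat_lit 304) (nat_lit 6004555495) (nat_lit 139) (nat_lit 5) (nat_lit 142) (nat_lit 5) (nat_lit 143) (nat_lit 5) (nat_lit 523) (nat_lit 456) (nat_lit 221))) (XT.nd (nat_lit 78) (nat_lit 0) (nat_lit 0) (XT.lf (nat_lit 0) (nat_lit 4959483083) (nat_lit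 228) (nat_lit 5331114070) (nat_lit 304) (nat_lit 57422136479) (nat_lit 135) (nat_lit 5) (nat_lit 138) (nat_lit 5) (nat_lit 139) (nat_lit 5) (nat_lit 524) (nat_lit 456) (nat_lit 220)) (XT.lf (nat_lit 0) (nat_lit 27501743222) (nat_lit 304) (nat_lit 21938502799) (nat_lit 76) (nat_lit 19555678521) (nat_lit 135) (nat_lit 5) (nat_lit 139) (nat_lit 5) (nat_lit 136) (nat_lit 5) (nat_lit 525) (nat_lit 456) (nat_lit 219)))) (XT.nd (nat_lit 156) (nat_lit 456) (nat_lit 0) (XT.nd (nat_lit 78) (nat_lit 0) (nat_lit 0) (XT.lf (nat_lit 0) (nat_lit 20444586788) (nat_lit 228) (nat_lit 25032592317) (nat_lit 304) (nat_lit 24832993463) (nat_lit 132) (nat_lit 5) (nat_lit 135) (nat_lit 5) (nat_lit 136) (nat_lit 5) (nat_lit 526) (nat_lit 456) (nat_lit 218)) (XT.lf (nat_lit 0) (nat_lit 64215294104) (nat_lit 304) (nat_lit 7113813888) (nat_lit 76) (nat_lit 328037612) (nat_lit 132) (nat_lit 5) (nat_lit 136) (nat_lit 5) (nat_lit 133) (nat_lit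 5) (nat_lit 527) (nat_lit 456) (nat_lit 217))) (XT.nd (nat_lit 78) (nat_lit 228) (nat_lit 0) (XT.lf (nat_lit 0) (nat_lit 10878754113) (nat_lit 228) (nat_lit 35732730744) (nat_lit 76) (nat_lit 26411661701) (nat_lit 129) (nat_lit 5) (nat_lit 132) (nat_lit 5) (nat_lit 130) (nat_lit 5) (nat_lit 528) (nat_lit 456) (nat_lit 216)) (XT.lf (nat_lit 0) (nat_lit 8840531735) (nat_lit 228) (nat_lit 20915098500) (nat_lit 304) (nat_lit 44667600114) (nat_lit 126) (nat_lit 5) (nat_lit 129) (nat_lit 5) (nat_lit 130) (nat_lit 5) (nat_lit 529) (nat_lit 456) (nat_lit 215))))) (XT.nd (nat_lit 312) (nat_lit 608) (nat_lit 0) (XT.nd (nat_lit 156) (nat_lit 304) (nat_lit 0) (XT.nd (nat_lit 78) (nat_lit 152) (nat_lit 0) (XT.lf (nat_lit 0) (nat_lit 49615293591) (nat_lit 304) (nat_lit 20430177492) (nat_lit 76) (nat_lit 5807351187) (nat_lit 126) (nat_lit 5) (nat_lit 130) (nat_lit 5) (nat_lit 127) (nat_lit 5) (nat_lit 530) (nat_lit 456) (nat_lit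 214)) (XT.lf (nat_lit 0) (nat_lit 26382501105) (nat_lit 152) (nat_lit 44147675236) (nat_lit 228) (nat_lit 6781342767) (nat_lit 124) (nat_lit 5) (nat_lit 126) (nat_lit 5) (nat_lit 127) (nat_lit 5) (nat_lit 531) (nat_lit 456) (nat_lit 213))) (XT.nd (nat_lit 78) (nat_lit 228) (nat_lit 0) (XT.lf (nat_lit 0) (nat_lit 13206902734) (nat_lit 228) (nat_lit 3921080165) (nat_lit 76) (nat_lit 61675957651) (nat_lit 123) (nat_lit 5) (nat_lit 126) (nat_lit 5) (nat_lit 124) (nat_lit 5) (nat_lit 532) (nat_lit 456) (nat_lit 212)) (XT.lf (nat_lit 0) (nat_lit 34200695221) (nat_lit 304) (nat_lit 35121877006) (nat_lit 76) (nat_lit 11000282249) (nat_lit 120) (nat_lit 5) (nat_lit 124) (nat_lit 5) (nat_lit 121) (nat_lit 5) (nat_lit 533) (nat_lit 456) (nat_lit 211)))) (XT.nd (nat_lit 156) (nat_lit 456) (nat_lit 0) (XT.nd (nat_lit 78) (nat_lit 0) (nat_lit 0) (XT.lf (nat_lit 0) (nat_lit 14093869736) (nat_lit 152) (nat_lit 42074273669) (nat_lit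 228) (nat_lit 25708877198) (nat_lit 118) (nat_lit 5) (nat_lit 120) (nat_lit 5) (nat_lit 121) (nat_lit 5) (nat_lit 534) (nat_lit 456) (nat_lit 210)) (XT.lf (nat_lit 0) (nat_lit 65503969973) (nat_lit 152) (nat_lit 13644114102) (nat_lit 228) (nat_lit 4319123603) (nat_lit 118) (nat_lit 5) (nat_lit 120) (nat_lit 5) (nat_lit 121) (nat_lit 5) (nat_lit 535) (nat_lit 456) (nat_lit 209))) (XT.nd (nat_lit 78) (nat_lit 152) (nat_lit 0) (XT.lf (nat_lit 0) (nat_lit 17846034689) (nat_lit 304) (nat_lit 51406206218) (nat_lit 76) (nat_lit 15833371346) (nat_lit 114) (nat_lit 5) (nat_lit 118) (nat_lit 5) (nat_lit 115) (nat_lit 5) (nat_lit 536) (nat_lit 456) (nat_lit 208)) (XT.lf (nat_lit 0) (nat_lit 316913122) (nat_lit 152) (nat_lit 40592586985) (nat_lit 228) (nat_lit 45832181109) (nat_lit 112) (nat_lit 5) (nat_lit 114) (nat_lit 5) (nat_lit 115) (nat_lit 5) (nat_lit 537) (nat_lit 456) (nat_lit 207))))))))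
noncomputable def xc208 : XT := (XT.nd (nat_lit 57876) (nat_lit 0) (nat_lit 5548) (XT.nd (nat_lit 56628) (nat_lit 0) (nat_lit 13756) (XT.nd (nat_lit 546) (nat_lit 152) (nat_lit 0) (XT.nd (nat_lit 234) (nat_lit 532) (nat_lit 0) (XT.nd (nat_lit 78) (nat_lit 228) (nat_lit 0) (XT.lf (nat_lit 0) (nat_lit 54643471119) (nat_lit 152) (nat_lit 10539351045) (nat_lit 228) (nat_lit 23249071536) (nat_lit 112) (nat_lit 5) (nat_lit 114) (nat_lit 5) (nat_lit 115) (nat_lit 5) (nat_lit 538) (nat_lit 456) (nat_lit 206)) (XT.nd (nat_lit 78) (nat_lit 0) (nat_lit 0) (XT.lf (nat_lit 0) (nat_lit 408645148) (nat_lit 228) (nat_lit 69533654093) (nat_lit 76) (nat_lit 20218589860) (nat_lit 109) (nat_lit 5) (nat_lit 112) (nat_lit 5) (nat_lit 110) (nat_lit 5) (nat_lit 539) (nat_lit 456) (nat_lit 205)) (XT.lf (nat_lit 0) (nat_lit 24756613750) (nat_lit 228) (nat_lit 14903444223) (nat_lit 76) (nat_lit 52261356644) (nat_lit 109) (nat_lit 5) (nat_lit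 112) (nat_lit 5) (nat_lit 110) (nat_lit 5) (nat_lit 540) (nat_lit 456) (nat_lit 204)))) (XT.nd (nat_lit 156) (nat_lit 228) (nat_lit 0) (XT.nd (nat_lit 78) (nat_lit 152) (nat_lit 0) (XT.lf (nat_lit 0) (nat_lit 42186948933) (nat_lit 152) (nat_lit 8052510618) (nat_lit 228) (nat_lit 43483163231) (nat_lit 107) (nat_lit 5) (nat_lit 109) (nat_lit 5) (nat_lit 110) (nat_lit 5) (nat_lit 541) (nat_lit 456) (nat_lit 203)) (XT.lf (nat_lit 0) (nat_lit 5592356733) (nat_lit 152) (nat_lit 71334633574) (nat_lit 228) (nat_lit 18637670928) (nat_lit 105) (nat_lit 5) (nat_lit 107) (nat_lit 5) (nat_lit 108) (nat_lit 5) (nat_lit 542) (nat_lit 456) (nat_lit 202))) (XT.nd (nat_lit 78) (nat_lit 152) (nat_lit 0) (XT.lf (nat_lit 0) (nat_lit 7421712935) (nat_lit 228) (nat_lit 32109358099) (nat_lit 76) (nat_lit 57910758431) (nat_lit 104) (nat_lit 5) (nat_lit 107) (nat_lit 5) (nat_lit 105) (nat_lit 5) (nat_lit 543) (nat_lit 456) (nat_lit 201))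 (XT.lf (nat_lit 0) (nat_lit 27846436484) (nat_lit 152) (nat_lit 6308470416) (nat_lit 228) (nat_lit 65206871106) (nat_lit 102) (nat_lit 5) (nat_lit 104) (nat_lit 5) (nat_lit 105) (nat_lit 5) (nat_lit 544) (nat_lit 456) (nat_lit 200))))) (XT.nd (nat_lit 55770) (nat_lit 0) (nat_lit 15960) (XT.nd (nat_lit 55614) (nat_lit 0) (nat_lit 15884) (XT.nd (nat_lit 78) (nat_lit 152) (nat_lit 0) (XT.lf (nat_lit 0) (nat_lit 62284799160) (nat_lit 228) (nat_lit 11343886186) (nat_lit 76) (nat_lit 27692798610) (nat_lit 102) (nat_lit 5) (nat_lit 105) (nat_lit 5) (nat_lit 103) (nat_lit 5) (nat_lit 545) (nat_lit 456) (nat_lit 199)) (XT.lf (nat_lit 0) (nat_lit 51574820877) (nat_lit 152) (nat_lit 40240981423) (nat_lit 228) (nat_lit 11507462384) (nat_lit 100) (nat_lit 5) (nat_lit 102) (nat_lit 5) (nat_lit 103) (nat_lit 5) (nat_lit 546) (nat_lit 456) (nat_lit 198))) (XT.nd (nat_lit 78) (nat_lit 0) (nat_lit 0) (XT.lf (nat_lit 0) (nat_lit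 4398431081) (nat_lit 1292) (nat_lit 3297572317) (nat_lit 1292) (nat_lit 3297572317) (nat_lit 309) (nat_lit 3) (nat_lit 326) (nat_lit 3) (nat_lit 326) (nat_lit 5) (nat_lit 457) (nat_lit 457) (nat_lit 286)) (XT.lf (nat_lit 76) (nat_lit 4396072527) (nat_lit 0) (nat_lit 4710729257) (nat_lit 1292) (nat_lit 13204804763) (nat_lit 310) (nat_lit 5) (nat_lit 309) (nat_lit 3) (nat_lit 326) (nat_lit 5) (nat_lit 458) (nat_lit 457) (nat_lit 285)))) (XT.nd (nat_lit 156) (nat_lit 0) (nat_lit 76) (XT.nd (nat_lit 78) (nat_lit 0) (nat_lit 0) (XT.lf (nat_lit 0) (nat_lit 9548470382) (nat_lit 1216) (nat_lit 6855676568) (nat_lit 1292) (nat_lit 6237975935) (nat_lit 310) (nat_lit 5) (nat_lit 326) (nat_lit 5) (nat_lit 327) (nat_lit 5) (nat_lit 459) (nat_lit 457) (nat_lit 284)) (XT.lf (nat_lit 76) (nat_lit 4575744203) (nat_lit 0) (nat_lit 5513125482) (nat_lit 1292) (nat_lit 12891121083) (nat_lit 311) (nat_lit 5) (nat_lit 310) (nat_lit 5)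 (nat_lit 327) (nat_lit 5) (nat_lit 460) (nat_lit 457) (nat_lit 283))) (XT.nd (nat_lit 78) (nat_lit 0) (nat_lit 0) (XT.lf (nat_lit 0) (nat_lit 10765229863) (nat_lit 1216) (nat_lit 6893821901) (nat_lit 1292) (nat_lit 5665350918) (nat_lit 311) (nat_lit 5) (nat_lit 327) (nat_lit 5) (nat_lit 328) (nat_lit 5) (nat_lit 461) (nat_lit 457) (nat_lit 282)) (XT.lf (nat_lit 76) (nat_lit 5002000714) (nat_lit 0) (nat_lit 6557691716) (nat_lit 1292) (nat_lit 12116520625) (nat_lit 312) (nat_lit 5) (nat_lit 311) (nat_lit 5) (nat_lit 328) (nat_lit 5) (nat_lit 462) (nat_lit 457) (nat_lit 281)))))) (XT.nd (nat_lit 624) (nat_lit 2356) (nat_lit 0) (XT.nd (nat_lit 312) (nat_lit 0) (nat_lit 152) (XT.nd (nat_lit 156) (nat_lit 0) (nat_lit 76) (XT.nd (nat_lit 78) (nat_lit 0) (nat_lit 0) (XT.lf (nat_lit 0) (nat_lit 12490445141) (nat_lit 1216) (nat_lit 6691109880) (nat_lit 1292) (nat_lit 4853649466) (nat_lit 312) (nat_lit 5) (nat_lit 328) (nat_lit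 5) (nat_lit 329) (nat_lit 5) (nat_lit 463) (nat_lit 457) (nat_lit 280)) (XT.lf (nat_lit 76) (nat_lit 5694703549) (nat_lit 0) (nat_lit 7869498140) (nat_lit 1292) (nat_lit 10837311957) (nat_lit 313) (nat_lit 5) (nat_lit 312) (nat_lit 5) (nat_lit 329) (nat_lit 5) (nat_lit 464) (nat_lit 457) (nat_lit 279))) (XT.nd (nat_lit 78) (nat_lit 0) (nat_lit 0) (XT.lf (nat_lit 0) (nat_lit 14770293773) (nat_lit 1216) (nat_lit 6227654653) (nat_lit 1292) (nat_lit 3777860378) (nat_lit 313) (nat_lit 5) (nat_lit 329) (nat_lit 5) (nat_lit 330) (nat_lit 5) (nat_lit 465) (nat_lit 457) (nat_lit 278)) (XT.lf (nat_lit 76) (nat_lit 6675208202) (nat_lit 0) (nat_lit 9475105178) (nat_lit 1292) (nat_lit 9006887494) (nat_lit 314) (nat_lit 5) (nat_lit 313) (nat_lit 5) (nat_lit 330) (nat_lit 5) (nat_lit 466) (nat_lit 457) (nat_lit 277)))) (XT.nd (nat_lit 156) (nat_lit 0) (nat_lit 76) (XT.nd (nat_lit 78) (nat_lit 0) (nat_lit 0) (XT.lf (nat_lit 0)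 (nat_lit 17654022928) (nat_lit 1216) (nat_lit 5482079001) (nat_lit 1292) (nat_lit 2411464483) (nat_lit 314) (nat_lit 5) (nat_lit 330) (nat_lit 5) (nat_lit 331) (nat_lit 5) (nat_lit 467) (nat_lit 457) (nat_lit 276)) (XT.lf (nat_lit 76) (nat_lit 7966445065) (nat_lit 0) (nat_lit 11402685647) (nat_lit 1292) (nat_lit 6575523970) (nat_lit 315) (nat_lit 5) (nat_lit 314) (nat_lit 5) (nat_lit 331) (nat_lit 5) (nat_lit 468) (nat_lit 457) (nat_lit 275))) (XT.nd (nat_lit 78) (nat_lit 0) (nat_lit 0) (XT.lf (nat_lit 0) (nat_lit 21194157095) (nat_lit 1216) (nat_lit 4431432677) (nat_lit 1292) (nat_lit 726312233) (nat_lit 315) (nat_lit 5) (nat_lit 331) (nat_lit 5) (nat_lit 332) (nat_lit 5) (nat_lit 469) (nat_lit 457) (nat_lit 274)) (XT.lf (nat_lit 76) (nat_lit 9593005955) (nat_lit 0) (nat_lit 13682152813) (nat_lit 1292) (nat_lit 3490171599) (nat_lit 316) (nat_lit 5) (nat_lit 315) (nat_lit 5) (nat_lit 332) (nat_lit 5) (nat_lit 470)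 (nat_lit 457) (nat_lit 273))))) (XT.nd (nat_lit 312) (nat_lit 1368) (nat_lit 0) (XT.nd (nat_lit 156) (nat_lit 0) (nat_lit 0) (XT.nd (nat_lit 78) (nat_lit 1216) (nat_lit 0) (XT.lf (nat_lit 76) (nat_lit 24126009718) (nat_lit 0) (nat_lit 1333526640) (nat_lit 1292) (nat_lit 1730397188) (nat_lit 316) (nat_lit 5) (nat_lit 315) (nat_lit 5) (nat_lit 332) (nat_lit 5) (nat_lit 471) (nat_lit 457) (nat_lit 272)) (XT.lf (nat_lit 0) (nat_lit 299802203) (nat_lit 1292) (nat_lit 16042465309) (nat_lit 1368) (nat_lit 11278406882) (nat_lit 299) (nat_lit 5) (nat_lit 316) (nat_lit 5) (nat_lit 317) (nat_lit 5) (nat_lit 472) (nat_lit 457) (nat_lit 271))) (XT.nd (nat_lit 78) (nat_lit 0) (nat_lit 76) (XT.lf (nat_lit 0) (nat_lit 2396935137) (nat_lit 1292) (nat_lit 1374720036) (nat_lit 1368) (nat_lit 24290944424) (nat_lit 299) (nat_lit 5) (nat_lit 316) (nat_lit 5) (nat_lit 317) (nat_lit 5) (nat_lit 473) (nat_lit 457) (nat_lit 270)) (XT.lf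 (nat_lit 0) (nat_lit 4777598310) (nat_lit 1292) (nat_lit 14600074118) (nat_lit 76) (nat_lit 9133491945) (nat_lit 300) (nat_lit 5) (nat_lit 317) (nat_lit 5) (nat_lit 301) (nat_lit 5) (nat_lit 474) (nat_lit 457) (nat_lit 269)))) (XT.nd (nat_lit 156) (nat_lit 608) (nat_lit 0) (XT.nd (nat_lit 78) (nat_lit 0) (nat_lit 0) (XT.lf (nat_lit 0) (nat_lit 683674204) (nat_lit 836) (nat_lit 6600484654) (nat_lit 912) (nat_lit 21687393207) (nat_lit 289) (nat_lit 5) (nat_lit 300) (nat_lit 5) (nat_lit 301) (nat_lit 5) (nat_lit 475) (nat_lit 457) (nat_lit 268)) (XT.lf (nat_lit 0) (nat_lit 10074484778) (nat_lit 912) (nat_lit 12783771734) (nat_lit 76) (nat_lit 6581238108) (nat_lit 289) (nat_lit 5) (nat_lit 301) (nat_lit 5) (nat_lit 290) (nat_lit 5) (nat_lit 476) (nat_lit 457) (nat_lit 267))) (XT.nd (nat_lit 78) (nat_lit 0) (nat_lit 0) (XT.lf (nat_lit 0) (nat_lit 3179086474) (nat_lit 608) (nat_lit 9862060964) (nat_lit 684) (nat_lit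 16877549482) (nat_lit 281) (nat_lit 5) (nat_lit 289) (nat_lit 5) (nat_lit 290) (nat_lit 5) (nat_lit 477) (nat_lit 457) (nat_lit 266)) (XT.lf (nat_lit 0) (nat_lit 16257838889) (nat_lit 684) (nat_lit 10563794387) (nat_lit 76) (nat_lit 3585811418) (nat_lit 281) (nat_lit 5) (nat_lit 290) (nat_lit 5) (nat_lit 282) (nat_lit 5) (nat_lit 478) (nat_lit 457) (nat_lit 265))))))) (XT.nd (nat_lit 1170) (nat_lit 3420) (nat_lit 0) (XT.nd (nat_lit 546) (nat_lit 2432) (nat_lit 0) (XT.nd (nat_lit 234) (nat_lit 1216) (nat_lit 0) (XT.nd (nat_lit 78) (nat_lit 532) (nat_lit 0) (XT.lf (nat_lit 0) (nat_lit 6115963575) (nat_lit 608) (nat_lit 13608380421) (nat_lit 684) (nat_lit 11181911782) (nat_lit 273) (nat_lit 5) (nat_lit 281) (nat_lit 5) (nat_lit 282) (nat_lit 5) (nat_lit 479) (nat_lit 457) (nat_lit 264)) (XT.nd (nat_lit 78) (nat_lit 532) (nat_lit 0) (XT.lf (nat_lit 0) (nat_lit 23399527207) (nat_lit 684) (nat_lit 7908333402) (nat_lit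 76) (nat_lit 109030352) (nat_lit 273) (nat_lit 5) (nat_lit 282) (nat_lit 5) (nat_lit 274) (nat_lit 5) (nat_lit 480) (nat_lit 457) (nat_lit 263)) (XT.lf (nat_lit 0) (nat_lit 9528273078) (nat_lit 532) (nat_lit 17880050921) (nat_lit 608) (nat_lit 4527820706) (nat_lit 266) (nat_lit 5) (nat_lit 273) (nat_lit 5) (nat_lit 274) (nat_lit 5) (nat_lit 481) (nat_lit 457) (nat_lit 262)))) (XT.nd (nat_lit 156) (nat_lit 532) (nat_lit 0) (XT.nd (nat_lit 78) (nat_lit 684) (nat_lit 0) (XT.lf (nat_lit 0) (nat_lit 27647114728) (nat_lit 532) (nat_lit 3967216578) (nat_lit 608) (nat_lit 854336597) (nat_lit 266) (nat_lit 5) (nat_lit 273) (nat_lit 5) (nat_lit 274) (nat_lit 5) (nat_lit 482) (nat_lit 457) (nat_lit 261)) (XT.lf (nat_lit 0) (nat_lit 3100527318) (nat_lit 684) (nat_lit 19588513762) (nat_lit 76) (nat_lit 10320431059) (nat_lit 257) (nat_lit 5) (nat_lit 266) (nat_lit 5) (nat_lit 258) (nat_lit 5) (nat_lit 483) (nat_lit 457) (nat_lit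 260))) (XT.nd (nat_lit 78) (nat_lit 532) (nat_lit 0) (XT.lf (nat_lit 0) (nat_lit 7242514041) (nat_lit 684) (nat_lit 1306678372) (nat_lit 76) (nat_lit 25014485100) (nat_lit 257) (nat_lit 5) (nat_lit 266) (nat_lit 5) (nat_lit 258) (nat_lit 5) (nat_lit 484) (nat_lit 457) (nat_lit 259)) (XT.lf (nat_lit 0) (nat_lit 11737329343) (nat_lit 608) (nat_lit 16319559952) (nat_lit 76) (nat_lit 6070762898) (nat_lit 250) (nat_lit 5) (nat_lit 258) (nat_lit 5) (nat_lit 251) (nat_lit 5) (nat_lit 485) (nat_lit 457) (nat_lit 258))))) (XT.nd (nat_lit 312) (nat_lit 1444) (nat_lit 0) (XT.nd (nat_lit 156) (nat_lit 456) (nat_lit 0) (XT.nd (nat_lit 78) (nat_lit 0) (nat_lit 0) (XT.lf (nat_lit 0) (nat_lit 2781478978) (nat_lit 532) (nat_lit 13707547951) (nat_lit 608) (nat_lit 18215858256) (nat_lit 243) (nat_lit 5) (nat_lit 250) (nat_lit 5) (nat_lit 251) (nat_lit 5) (nat_lit 486) (nat_lit 457) (nat_lit 257)) (XT.lf (nat_lit 0) (nat_lit 21557386107)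 (nat_lit 608) (nat_lit 12519355920) (nat_lit 76) (nat_lit 1217470023) (nat_lit 243) (nat_lit 5) (nat_lit 251) (nat_lit 5) (nat_lit 244) (nat_lit 5) (nat_lit 487) (nat_lit 457) (nat_lit 256))) (XT.nd (nat_lit 78) (nat_lit 0) (nat_lit 0) (XT.lf (nat_lit 0) (nat_lit 7474020616) (nat_lit 456) (nat_lit 19508791139) (nat_lit 532) (nat_lit 8912256692) (nat_lit 237) (nat_lit 5) (nat_lit 243) (nat_lit 5) (nat_lit 244) (nat_lit 5) (nat_lit 488) (nat_lit 457) (nat_lit 255)) (XT.lf (nat_lit 0) (nat_lit 28320939594) (nat_lit 456) (nat_lit 4373980450) (nat_lit 532) (nat_lit 3815313085) (nat_lit 237) (nat_lit 5) (nat_lit 243) (nat_lit 5) (nat_lit 244) (nat_lit 5) (nat_lit 489) (nat_lit 457) (nat_lit 254)))) (XT.nd (nat_lit 156) (nat_lit 912) (nat_lit 0) (XT.nd (nat_lit 78) (nat_lit 0) (nat_lit 0) (XT.lf (nat_lit 0) (nat_lit 1637107114) (nat_lit 532) (nat_lit 24364777969) (nat_lit 76) (nat_lit 11134637319) (nat_lit 230) (nat_lit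 5) (nat_lit 237) (nat_lit 5) (nat_lit 231) (nat_lit 5) (nat_lit 490) (nat_lit 457) (nat_lit 253)) (XT.lf (nat_lit 0) (nat_lit 7300824939) (nat_lit 532) (nat_lit 3334432770) (nat_lit 76) (nat_lit 27141477285) (nat_lit 230) (nat_lit 5) (nat_lit 237) (nat_lit 5) (nat_lit 231) (nat_lit 5) (nat_lit 491) (nat_lit 457) (nat_lit 252))) (XT.nd (nat_lit 78) (nat_lit 456) (nat_lit 0) (XT.lf (nat_lit 0) (nat_lit 13363445795) (nat_lit 532) (nat_lit 19793828880) (nat_lit 76) (nat_lit 5272009714) (nat_lit 224) (nat_lit 5) (nat_lit 231) (nat_lit 5) (nat_lit 225) (nat_lit 5) (nat_lit 492) (nat_lit 457) (nat_lit 251)) (XT.lf (nat_lit 0) (nat_lit 2166178965) (nat_lit 456) (nat_lit 17599587881) (nat_lit 532) (nat_lit 19330908936) (nat_lit 218) (nat_lit 5) (nat_lit 224) (nat_lit 5) (nat_lit 225) (nat_lit 5) (nat_lit 493) (nat_lit 457) (nat_lit 250)))))) (XT.nd (nat_lit 624) (nat_lit 1748) (nat_lit 0) (XT.nd (nat_lit 312) (nat_lit 760)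 (nat_lit 0) (XT.nd (nat_lit 156) (nat_lit 532) (nat_lit 0) (XT.nd (nat_lit 78) (nat_lit 380) (nat_lit 0) (XT.lf (nat_lit 0) (nat_lit 25187918143) (nat_lit 456) (nat_lit 1369852994) (nat_lit 532) (nat_lit 13220389532) (nat_lit 218) (nat_lit 5) (nat_lit 224) (nat_lit 5) (nat_lit 225) (nat_lit 5) (nat_lit 494) (nat_lit 457) (nat_lit 249)) (XT.lf (nat_lit 0) (nat_lit 8434482246) (nat_lit 380) (nat_lit 25345448813) (nat_lit 456) (nat_lit 6693367333) (nat_lit 213) (nat_lit 5) (nat_lit 218) (nat_lit 5) (nat_lit 219) (nat_lit 5) (nat_lit 495) (nat_lit 457) (nat_lit 248))) (XT.nd (nat_lit 78) (nat_lit 456) (nat_lit 0) (XT.lf (nat_lit 0) (nat_lit 189056495) (nat_lit 456) (nat_lit 8753958642) (nat_lit 76) (nat_lit 32241461779) (nat_lit 212) (nat_lit 5) (nat_lit 218) (nat_lit 5) (nat_lit 213) (nat_lit 5) (nat_lit 496) (nat_lit 457) (nat_lit 247)) (XT.lf (nat_lit 0) (nat_lit 7368486405) (nat_lit 532) (nat_lit 26527003871) (nat_lit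 76) (nat_lit 8012760631) (nat_lit 206) (nat_lit 5) (nat_lit 213) (nat_lit 5) (nat_lit 207) (nat_lit 5) (nat_lit 497) (nat_lit 457) (nat_lit 246)))) (XT.nd (nat_lit 156) (nat_lit 380) (nat_lit 0) (XT.nd (nat_lit 78) (nat_lit 380) (nat_lit 0) (XT.lf (nat_lit 0) (nat_lit 14939022048) (nat_lit 532) (nat_lit 2323315535) (nat_lit 76) (nat_lit 25386128986) (nat_lit 206) (nat_lit 5) (nat_lit 213) (nat_lit 5) (nat_lit 207) (nat_lit 5) (nat_lit 498) (nat_lit 457) (nat_lit 245)) (XT.lf (nat_lit 0) (nat_lit 22957182117) (nat_lit 456) (nat_lit 20351580026) (nat_lit 76) (nat_lit 95511441) (nat_lit 201) (nat_lit 5) (nat_lit 207) (nat_lit 5) (nat_lit 202) (nat_lit 5) (nat_lit 499) (nat_lit 457) (nat_lit 244))) (XT.nd (nat_lit 78) (nat_lit 0) (nat_lit 0) (XT.lf (nat_lit 0) (nat_lit 4978853687) (nat_lit 380) (nat_lit 26477493991) (nat_lit 456) (nat_lit 12719193440) (nat_lit 196) (nat_lit 5) (nat_lit 201) (nat_lit 5) (nat_lit 202)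 (nat_lit 5) (nat_lit 500) (nat_lit 457) (nat_lit 243)) (XT.lf (nat_lit 0) (nat_lit 31483701654) (nat_lit 380) (nat_lit 8930323682) (nat_lit 456) (nat_lit 4549815356) (nat_lit 196) (nat_lit 5) (nat_lit 201) (nat_lit 5) (nat_lit 202) (nat_lit 5) (nat_lit 501) (nat_lit 457) (nat_lit 242))))) (XT.nd (nat_lit 312) (nat_lit 684) (nat_lit 0) (XT.nd (nat_lit 156) (nat_lit 684) (nat_lit 0) (XT.nd (nat_lit 78) (nat_lit 0) (nat_lit 0) (XT.lf (nat_lit 0) (nat_lit 4003944150) (nat_lit 380) (nat_lit 32634228507) (nat_lit 76) (nat_lit 9130060836) (nat_lit 191) (nat_lit 5) (nat_lit 196) (nat_lit 5) (nat_lit 192) (nat_lit 5) (nat_lit 502) (nat_lit 457) (nat_lit 241)) (XT.lf (nat_lit 0) (nat_lit 12946848200) (nat_lit 380) (nat_lit 5907256910) (nat_lit 76) (nat_lit 27734582298) (nat_lit 191) (nat_lit 5) (nat_lit 196) (nat_lit 5) (nat_lit 192) (nat_lit 5) (nat_lit 503) (nat_lit 457) (nat_lit 240))) (XT.nd (nat_lit 78) (nat_lit 304)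 (nat_lit 0) (XT.lf (nat_lit 0) (nat_lit 22049189729) (nat_lit 380) (nat_lit 318944381) (nat_lit 456) (nat_lit 25059318101) (nat_lit 186) (nat_lit 5) (nat_lit 191) (nat_lit 5) (nat_lit 192) (nat_lit 5) (nat_lit 504) (nat_lit 457) (nat_lit 239)) (XT.lf (nat_lit 0) (nat_lit 2541774795) (nat_lit 304) (nat_lit 29793576444) (nat_lit 380) (nat_lit 15948130047) (nat_lit 182) (nat_lit 5) (nat_lit 186) (nat_lit 5) (nat_lit 187) (nat_lit 5) (nat_lit 505) (nat_lit 457) (nat_lit 238)))) (XT.nd (nat_lit 156) (nat_lit 304) (nat_lit 0) (XT.nd (nat_lit 78) (nat_lit 380) (nat_lit 0) (XT.lf (nat_lit 0) (nat_lit 31813832064) (nat_lit 304) (nat_lit 11045345587) (nat_lit 380) (nat_lit 6298285904) (nat_lit 182) (nat_lit 5) (nat_lit 186) (nat_lit 5) (nat_lit 187) (nat_lit 5) (nat_lit 506) (nat_lit 457) (nat_lit 237)) (XT.lf (nat_lit 0) (nat_lit 3765537477) (nat_lit 380) (nat_lit 38029071176) (nat_lit 76) (nat_lit 8256140720) (nat_lit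 177) (nat_lit 5) (nat_lit 182) (nat_lit 5) (nat_lit 178) (nat_lit 5) (nat_lit 507) (nat_lit 457) (nat_lit 236))) (XT.nd (nat_lit 78) (nat_lit 304) (nat_lit 0) (XT.lf (nat_lit 0) (nat_lit 14289166850) (nat_lit 380) (nat_lit 8518127846) (nat_lit 76) (nat_lit 28153133968) (nat_lit 177) (nat_lit 5) (nat_lit 182) (nat_lit 5) (nat_lit 178) (nat_lit 5) (nat_lit 508) (nat_lit 457) (nat_lit 235)) (XT.lf (nat_lit 0) (nat_lit 22311017285) (nat_lit 304) (nat_lit 3030255981) (nat_lit 380) (nat_lit 26549742116) (nat_lit 173) (nat_lit 5) (nat_lit 177) (nat_lit 5) (nat_lit 178) (nat_lit 5) (nat_lit 509) (nat_lit 457) (nat_lit 234))))))))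
noncomputable def xc209 : XT := (XT.nd (nat_lit 2418) (nat_lit 532) (nat_lit 0) (XT.nd (nat_lit 1170) (nat_lit 2280) (nat_lit 0) (XT.nd (nat_lit 546) (nat_lit 1292) (nat_lit 0) (XT.nd (nat_lit 234) (nat_lit 608) (nat_lit 0) (XT.nd (nat_lit 78) (nat_lit 380) (nat_lit 0) (XT.lf (nat_lit 0) (nat_lit 1246995999) (nat_lit 304) (nat_lit 35741804483) (nat_lit 380) (nat_lit 15852803583) (nat_lit 169) (nat_lit 5) (nat_lit 173) (nat_lit 5) (nat_lit 174) (nat_lit 5) (nat_lit 510) (nat_lit 457) (nat_lit 233)) (XT.nd (nat_lit 78) (nat_lit 380) (nat_lit 0) (XT.lf (nat_lit 0) (nat_lit 33572072901) (nat_lit 304) (nat_lit 15740433118) (nat_lit 380) (nat_lit 4498401904) (nat_lit 169) (nat_lit 5) (nat_lit 173) (nat_lit 5) (nat_lit 174) (nat_lit 5) (nat_lit 511) (nat_lit 457) (nat_lit 232)) (XT.lf (nat_lit 0) (nat_lit 7220652806) (nat_lit 380) (nat_lit 42627777101) (nat_lit 76) (nat_lit 4953852122) (nat_lit 164) (nat_lit 5) (nat_lit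 169) (nat_lit 5) (nat_lit 165) (nat_lit 5) (nat_lit 512) (nat_lit 457) (nat_lit 231)))) (XT.nd (nat_lit 156) (nat_lit 304) (nat_lit 0) (XT.nd (nat_lit 78) (nat_lit 304) (nat_lit 0) (XT.lf (nat_lit 0) (nat_lit 19561500066) (nat_lit 380) (nat_lit 10047017223) (nat_lit 76) (nat_lit 26202724962) (nat_lit 164) (nat_lit 5) (nat_lit 169) (nat_lit 5) (nat_lit 165) (nat_lit 5) (nat_lit 513) (nat_lit 457) (nat_lit 230)) (XT.lf (nat_lit 0) (nat_lit 23976643505) (nat_lit 304) (nat_lit 8524846646) (nat_lit 380) (nat_lit 24342113686) (nat_lit 160) (nat_lit 5) (nat_lit 164) (nat_lit 5) (nat_lit 165) (nat_lit 5) (nat_lit 514) (nat_lit 457) (nat_lit 229))) (XT.nd (nat_lit 78) (nat_lit 76) (nat_lit 0) (XT.lf (nat_lit 0) (nat_lit 1216600631) (nat_lit 228) (nat_lit 44852490810) (nat_lit 304) (nat_lit 11830662560) (nat_lit 157) (nat_lit 5) (nat_lit 160) (nat_lit 5) (nat_lit 161) (nat_lit 5) (nat_lit 515) (nat_lit 457) (nat_lit 228))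 (XT.lf (nat_lit 0) (nat_lit 1453566386) (nat_lit 304) (nat_lit 22081480188) (nat_lit 76) (nat_lit 35439696304) (nat_lit 156) (nat_lit 5) (nat_lit 160) (nat_lit 5) (nat_lit 157) (nat_lit 5) (nat_lit 516) (nat_lit 457) (nat_lit 227))))) (XT.nd (nat_lit 312) (nat_lit 532) (nat_lit 0) (XT.nd (nat_lit 156) (nat_lit 456) (nat_lit 0) (XT.nd (nat_lit 78) (nat_lit 0) (nat_lit 0) (XT.lf (nat_lit 0) (nat_lit 13706221497) (nat_lit 304) (nat_lit 1322574407) (nat_lit 380) (nat_lit 45045763780) (nat_lit 152) (nat_lit 5) (nat_lit 156) (nat_lit 5) (nat_lit 157) (nat_lit 5) (nat_lit 517) (nat_lit 457) (nat_lit 226)) (XT.lf (nat_lit 0) (nat_lit 29442200534) (nat_lit 380) (nat_lit 10392255763) (nat_lit 76) (nat_lit 21359987219) (nat_lit 152) (nat_lit 5) (nat_lit 157) (nat_lit 5) (nat_lit 153) (nat_lit 5) (nat_lit 518) (nat_lit 457) (nat_lit 225))) (XT.nd (nat_lit 78) (nat_lit 228) (nat_lit 0) (XT.lf (nat_lit 0) (nat_lit 27178067695)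 (nat_lit 228) (nat_lit 17382848537) (nat_lit 304) (nat_lit 17778820427) (nat_lit 149) (nat_lit 5) (nat_lit 152) (nat_lit 5) (nat_lit 153) (nat_lit 5) (nat_lit 519) (nat_lit 457) (nat_lit 224)) (XT.lf (nat_lit 0) (nat_lit 2563781933) (nat_lit 228) (nat_lit 57753808982) (nat_lit 304) (nat_lit 3196265822) (nat_lit 146) (nat_lit 5) (nat_lit 149) (nat_lit 5) (nat_lit 150) (nat_lit 5) (nat_lit 520) (nat_lit 457) (nat_lit 223)))) (XT.nd (nat_lit 156) (nat_lit 228) (nat_lit 0) (XT.nd (nat_lit 78) (nat_lit 228) (nat_lit 0) (XT.lf (nat_lit 0) (nat_lit 12122307501) (nat_lit 304) (nat_lit 22862358982) (nat_lit 76) (nat_lit 29719246285) (nat_lit 145) (nat_lit 5) (nat_lit 149) (nat_lit 5) (nat_lit 146) (nat_lit 5) (nat_lit 521) (nat_lit 457) (nat_lit 222)) (XT.lf (nat_lit 0) (nat_lit 16659183549) (nat_lit 228) (nat_lit 11335771856) (nat_lit 304) (nat_lit 37929002973) (nat_lit 142) (nat_lit 5) (nat_lit 145) (nat_lit 5) (nat_lit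 146) (nat_lit 5) (nat_lit 522) (nat_lit 457) (nat_lit 221))) (XT.nd (nat_lit 78) (nat_lit 228) (nat_lit 0) (XT.lf (nat_lit 0) (nat_lit 44700746146) (nat_lit 304) (nat_lit 9468367911) (nat_lit 76) (nat_lit 13000782453) (nat_lit 142) (nat_lit 5) (nat_lit 146) (nat_lit 5) (nat_lit 143) (nat_lit 5) (nat_lit 523) (nat_lit 457) (nat_lit 220)) (XT.lf (nat_lit 0) (nat_lit 32032582525) (nat_lit 228) (nat_lit 30293951598) (nat_lit 304) (nat_lit 6114114013) (nat_lit 139) (nat_lit 5) (nat_lit 142) (nat_lit 5) (nat_lit 143) (nat_lit 5) (nat_lit 524) (nat_lit 457) (nat_lit 219)))))) (XT.nd (nat_lit 624) (nat_lit 1140) (nat_lit 0) (XT.nd (nat_lit 312) (nat_lit 608) (nat_lit 0) (XT.nd (nat_lit 156) (nat_lit 228) (nat_lit 0) (XT.nd (nat_lit 78) (nat_lit 0) (nat_lit 0) (XT.lf (nat_lit 0) (nat_lit 5221597487) (nat_lit 228) (nat_lit 5445992329) (nat_lit 304) (nat_lit 59074474953) (nat_lit 135) (nat_lit 5) (nat_lit 138) (nat_lit 5)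 (nat_lit 139) (nat_lit 5) (nat_lit 525) (nat_lit 457) (nat_lit 218)) (XT.lf (nat_lit 0) (nat_lit 28393502166) (nat_lit 304) (nat_lit 22485058188) (nat_lit 76) (nat_lit 20185238172) (nat_lit 135) (nat_lit 5) (nat_lit 139) (nat_lit 5) (nat_lit 136) (nat_lit 5) (nat_lit 526) (nat_lit 457) (nat_lit 217))) (XT.nd (nat_lit 78) (nat_lit 0) (nat_lit 0) (XT.lf (nat_lit 0) (nat_lit 21168429972) (nat_lit 228) (nat_lit 25738890488) (nat_lit 304) (nat_lit 25510180026) (nat_lit 132) (nat_lit 5) (nat_lit 135) (nat_lit 5) (nat_lit 136) (nat_lit 5) (nat_lit 527) (nat_lit 457) (nat_lit 216)) (XT.lf (nat_lit 0) (nat_lit 66206078626) (nat_lit 304) (nat_lit 7218438643) (nat_lit 76) (nat_lit 380410525) (nat_lit 132) (nat_lit 5) (nat_lit 136) (nat_lit 5) (nat_lit 133) (nat_lit 5) (nat_lit 528) (nat_lit 457) (nat_lit 215)))) (XT.nd (nat_lit 156) (nat_lit 152) (nat_lit 0) (XT.nd (nat_lit 78) (nat_lit 228) (nat_lit 0) (XT.lf (nat_lit 0)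 (nat_lit 11269235253) (nat_lit 228) (nat_lit 36695711217) (nat_lit 76) (nat_lit 27246968660) (nat_lit 129) (nat_lit 5) (nat_lit 132) (nat_lit 5) (nat_lit 130) (nat_lit 5) (nat_lit 529) (nat_lit 457) (nat_lit 214)) (XT.lf (nat_lit 0) (nat_lit 9213680495) (nat_lit 228) (nat_lit 21497907151) (nat_lit 304) (nat_lit 45942438757) (nat_lit 126) (nat_lit 5) (nat_lit 129) (nat_lit 5) (nat_lit 130) (nat_lit 5) (nat_lit 530) (nat_lit 457) (nat_lit 213))) (XT.nd (nat_lit 78) (nat_lit 152) (nat_lit 0) (XT.lf (nat_lit 0) (nat_lit 51165614197) (nat_lit 304) (nat_lit 20936864839) (nat_lit 76) (nat_lit 6024069911) (nat_lit 126) (nat_lit 5) (nat_lit 130) (nat_lit 5) (nat_lit 127) (nat_lit 5) (nat_lit 531) (nat_lit 457) (nat_lit 212)) (XT.lf (nat_lit 0) (nat_lit 27279152764) (nat_lit 152) (nat_lit 45427999888) (nat_lit 228) (nat_lit 6921877823) (nat_lit 124) (nat_lit 5) (nat_lit 126) (nat_lit 5) (nat_lit 127) (nat_lit 5) (nat_lit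 532) (nat_lit 457) (nat_lit 211))))) (XT.nd (nat_lit 312) (nat_lit 684) (nat_lit 0) (XT.nd (nat_lit 156) (nat_lit 152) (nat_lit 0) (XT.nd (nat_lit 78) (nat_lit 228) (nat_lit 0) (XT.lf (nat_lit 0) (nat_lit 13662991096) (nat_lit 228) (nat_lit 3935405630) (nat_lit 76) (nat_lit 63567863644) (nat_lit 123) (nat_lit 5) (nat_lit 126) (nat_lit 5) (nat_lit 124) (nat_lit 5) (nat_lit 533) (nat_lit 457) (nat_lit 210)) (XT.lf (nat_lit 0) (nat_lit 35286251569) (nat_lit 304) (nat_lit 36071878686) (nat_lit 76) (nat_lit 11372621891) (nat_lit 120) (nat_lit 5) (nat_lit 124) (nat_lit 5) (nat_lit 121) (nat_lit 5) (nat_lit 534) (nat_lit 457) (nat_lit 209))) (XT.nd (nat_lit 78) (nat_lit 0) (nat_lit 0) (XT.lf (nat_lit 0) (nat_lit 14619324236) (nat_lit 152) (nat_lit 43292651542) (nat_lit 228) (nat_lit 26419589956) (nat_lit 118) (nat_lit 5) (nat_lit 120) (nat_lit 5) (nat_lit 121) (nat_lit 5) (nat_lit 535) (nat_lit 457) (nat_lit 208)) (XT.lf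 (nat_lit 0) (nat_lit 67568738012) (nat_lit 152) (nat_lit 14010864382) (nat_lit 228) (nat_lit 4389907450) (nat_lit 118) (nat_lit 5) (nat_lit 120) (nat_lit 5) (nat_lit 121) (nat_lit 5) (nat_lit 536) (nat_lit 457) (nat_lit 207)))) (XT.nd (nat_lit 156) (nat_lit 228) (nat_lit 0) (XT.nd (nat_lit 78) (nat_lit 152) (nat_lit 0) (XT.lf (nat_lit 0) (nat_lit 18438751159) (nat_lit 304) (nat_lit 52847285606) (nat_lit 76) (nat_lit 16350422103) (nat_lit 114) (nat_lit 5) (nat_lit 118) (nat_lit 5) (nat_lit 115) (nat_lit 5) (nat_lit 537) (nat_lit 457) (nat_lit 206)) (XT.lf (nat_lit 0) (nat_lit 426536071) (nat_lit 152) (nat_lit 41766876877) (nat_lit 228) (nat_lit 47148818230) (nat_lit 112) (nat_lit 5) (nat_lit 114) (nat_lit 5) (nat_lit 115) (nat_lit 5) (nat_lit 538) (nat_lit 457) (nat_lit 205))) (XT.nd (nat_lit 78) (nat_lit 228) (nat_lit 0) (XT.lf (nat_lit 0) (nat_lit 56379974821) (nat_lit 152) (nat_lit 10813310491) (nat_lit 228)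 (nat_lit 23889914253) (nat_lit 112) (nat_lit 5) (nat_lit 114) (nat_lit 5) (nat_lit 115) (nat_lit 5) (nat_lit 539) (nat_lit 457) (nat_lit 204)) (XT.lf (nat_lit 0) (nat_lit 476155918) (nat_lit 228) (nat_lit 71521083088) (nat_lit 76) (nat_lit 20866817725) (nat_lit 109) (nat_lit 5) (nat_lit 112) (nat_lit 5) (nat_lit 110) (nat_lit 5) (nat_lit 540) (nat_lit 457) (nat_lit 203))))))) (XT.nd (nat_lit 56706) (nat_lit 0) (nat_lit 12464) (XT.nd (nat_lit 56082) (nat_lit 0) (nat_lit 15732) (XT.nd (nat_lit 234) (nat_lit 228) (nat_lit 0) (XT.nd (nat_lit 78) (nat_lit 304) (nat_lit 0) (XT.lf (nat_lit 0) (nat_lit 25552954313) (nat_lit 228) (nat_lit 15254838203) (nat_lit 76) (nat_lit 53869653818) (nat_lit 109) (nat_lit 5) (nat_lit 112) (nat_lit 5) (nat_lit 110) (nat_lit 5) (nat_lit 541) (nat_lit 457) (nat_lit 202)) (XT.nd (nat_lit 78) (nat_lit 152) (nat_lit 0) (XT.lf (nat_lit 0) (nat_lit 43547328421) (nat_lit 152) (nat_lit 8252305673)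 (nat_lit 228) (nat_lit 44733076236) (nat_lit 107) (nat_lit 5) (nat_lit 109) (nat_lit 5) (nat_lit 110) (nat_lit 5) (nat_lit 542) (nat_lit 457) (nat_lit 201)) (XT.lf (nat_lit 0) (nat_lit 5855147184) (nat_lit 152) (nat_lit 73432403476) (nat_lit 228) (nat_lit 19142466521) (nat_lit 105) (nat_lit 5) (nat_lit 107) (nat_lit 5) (nat_lit 108) (nat_lit 5) (nat_lit 543) (nat_lit 457) (nat_lit 200)))) (XT.nd (nat_lit 156) (nat_lit 0) (nat_lit 0) (XT.nd (nat_lit 78) (nat_lit 152) (nat_lit 0) (XT.lf (nat_lit 0) (nat_lit 7696086917) (nat_lit 228) (nat_lit 32979355983) (nat_lit 76) (nat_lit 59688088476) (nat_lit 104) (nat_lit 5) (nat_lit 107) (nat_lit 5) (nat_lit 105) (nat_lit 5) (nat_lit 544) (nat_lit 457) (nat_lit 199)) (XT.lf (nat_lit 0) (nat_lit 28774197900) (nat_lit 152) (nat_lit 6456460220) (nat_lit 228) (nat_lit 67110438850) (nat_lit 102) (nat_lit 5) (nat_lit 104) (nat_lit 5) (nat_lit 105) (nat_lit 5) (nat_lit 545) (nat_lit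 457) (nat_lit 198))) (XT.nd (nat_lit 55614) (nat_lit 0) (nat_lit 15732) (XT.lf (nat_lit 0) (nat_lit 64203343785) (nat_lit 228) (nat_lit 11593420209) (nat_lit 76) (nat_lit 28562863241) (nat_lit 102) (nat_lit 5) (nat_lit 105) (nat_lit 5) (nat_lit 103) (nat_lit 5) (nat_lit 546) (nat_lit 457) (nat_lit 197)) (XT.lf (nat_lit 0) (nat_lit 4664808255) (nat_lit 1292) (nat_lit 3327264785) (nat_lit 1292) (nat_lit 3327264785) (nat_lit 309) (nat_lit 3) (nat_lit 326) (nat_lit 3) (nat_lit 326) (nat_lit 5) (nat_lit 458) (nat_lit 458) (nat_lit 284))))) (XT.nd (nat_lit 312) (nat_lit 0) (nat_lit 152) (XT.nd (nat_lit 156) (nat_lit 0) (nat_lit 76) (XT.nd (nat_lit 78) (nat_lit 0) (nat_lit 76) (XT.lf (nat_lit 76) (nat_lit 4665066561) (nat_lit 0) (nat_lit 4977275223) (nat_lit 1292) (nat_lit 13330718739) (nat_lit 310) (nat_lit 5) (nat_lit 309) (nat_lit 3) (nat_lit 326) (nat_lit 5) (nat_lit 459) (nat_lit 458) (nat_lit 283)) (XT.lf (nat_lit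 0) (nat_lit 10088450916) (nat_lit 1216) (nat_lit 6919395594) (nat_lit 1292) (nat_lit 6305910829) (nat_lit 310) (nat_lit 5) (nat_lit 326) (nat_lit 5) (nat_lit 327) (nat_lit 5) (nat_lit 460) (nat_lit 458) (nat_lit 282))) (XT.nd (nat_lit 78) (nat_lit 0) (nat_lit 76) (XT.lf (nat_lit 76) (nat_lit 4853576121) (nat_lit 0) (nat_lit 5785452957) (nat_lit 1292) (nat_lit 13022913857) (nat_lit 311) (nat_lit 5) (nat_lit 310) (nat_lit 5) (nat_lit 327) (nat_lit 5) (nat_lit 461) (nat_lit 458) (nat_lit 281)) (XT.lf (nat_lit 0) (nat_lit 11327473546) (nat_lit 1216) (nat_lit 6955942326) (nat_lit 1292) (nat_lit 5733518193) (nat_lit 311) (nat_lit 5) (nat_lit 327) (nat_lit 5) (nat_lit 328) (nat_lit 5) (nat_lit 462) (nat_lit 458) (nat_lit 280)))) (XT.nd (nat_lit 156) (nat_lit 0) (nat_lit 76) (XT.nd (nat_lit 78) (nat_lit 0) (nat_lit 76) (XT.lf (nat_lit 76) (nat_lit 5295336397) (nat_lit 0) (nat_lit 6844841329) (nat_lit 1292) (nat_lit 12239289435)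 (nat_lit 312) (nat_lit 5) (nat_lit 311) (nat_lit 5) (nat_lit 328) (nat_lit 5) (nat_lit 463) (nat_lit 458) (nat_lit 279)) (XT.lf (nat_lit 0) (nat_lit 13091202535) (nat_lit 1216) (nat_lit 6745069285) (nat_lit 1292) (nat_lit 4913186655) (nat_lit 312) (nat_lit 5) (nat_lit 328) (nat_lit 5) (nat_lit 329) (nat_lit 5) (nat_lit 464) (nat_lit 458) (nat_lit 278))) (XT.nd (nat_lit 78) (nat_lit 0) (nat_lit 76) (XT.lf (nat_lit 76) (nat_lit 6010879587) (nat_lit 0) (nat_lit 8181105433) (nat_lit 1292) (nat_lit 10934928097) (nat_lit 313) (nat_lit 5) (nat_lit 312) (nat_lit 5) (nat_lit 329) (nat_lit 5) (nat_lit 465) (nat_lit 458) (nat_lit 277)) (XT.lf (nat_lit 0) (nat_lit 15427122309) (nat_lit 1216) (nat_lit 6266225229) (nat_lit 1292) (nat_lit 3819304310) (nat_lit 313) (nat_lit 5) (nat_lit 329) (nat_lit 5) (nat_lit 330) (nat_lit 5) (nat_lit 466) (nat_lit 458) (nat_lit 276)))))) (XT.nd (nat_lit 624) (nat_lit 2508) (nat_lit 0) (XT.nd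 (nat_lit 312) (nat_lit 1064) (nat_lit 0) (XT.nd (nat_lit 156) (nat_lit 0) (nat_lit 76) (XT.nd (nat_lit 78) (nat_lit 0) (nat_lit 76) (XT.lf (nat_lit 76) (nat_lit 7022269992) (nat_lit 0) (nat_lit 9821458851) (nat_lit 1292) (nat_lit 9061901818) (nat_lit 314) (nat_lit 5) (nat_lit 313) (nat_lit 5) (nat_lit 330) (nat_lit 5) (nat_lit 467) (nat_lit 458) (nat_lit 275)) (XT.lf (nat_lit 0) (nat_lit 18385885473) (nat_lit 1216) (nat_lit 5497329010) (nat_lit 1292) (nat_lit 2424693163) (nat_lit 314) (nat_lit 5) (nat_lit 330) (nat_lit 5) (nat_lit 331) (nat_lit 5) (nat_lit 468) (nat_lit 458) (nat_lit 274))) (XT.nd (nat_lit 78) (nat_lit 0) (nat_lit 76) (XT.lf (nat_lit 76) (nat_lit 8353187912) (nat_lit 0) (nat_lit 11794788298) (nat_lit 1292) (nat_lit 6569067002) (nat_lit 315) (nat_lit 5) (nat_lit 314) (nat_lit 5) (nat_lit 331) (nat_lit 5) (nat_lit 469) (nat_lit 458) (nat_lit 273)) (XT.lf (nat_lit 0) (nat_lit 22021526209) (nat_lit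 1216) (nat_lit 4414684931) (nat_lit 1292) (nat_lit 700484153) (nat_lit 315) (nat_lit 5) (nat_lit 331) (nat_lit 5) (nat_lit 332) (nat_lit 5) (nat_lit 470) (nat_lit 458) (nat_lit 272)))) (XT.nd (nat_lit 156) (nat_lit 1216) (nat_lit 0) (XT.nd (nat_lit 78) (nat_lit 0) (nat_lit 0) (XT.lf (nat_lit 76) (nat_lit 10029019304) (nat_lit 0) (nat_lit 14131784477) (nat_lit 1292) (nat_lit 3401847857) (nat_lit 316) (nat_lit 5) (nat_lit 315) (nat_lit 5) (nat_lit 332) (nat_lit 5) (nat_lit 471) (nat_lit 458) (nat_lit 271)) (XT.lf (nat_lit 76) (nat_lit 24993696001) (nat_lit 0) (nat_lit 1411558730) (nat_lit 1292) (nat_lit 1594902414) (nat_lit 316) (nat_lit 5) (nat_lit 315) (nat_lit 5) (nat_lit 332) (nat_lit 5) (nat_lit 472) (nat_lit 458) (nat_lit 270))) (XT.nd (nat_lit 78) (nat_lit 0) (nat_lit 0) (XT.lf (nat_lit 0) (nat_lit 488275096) (nat_lit 1292) (nat_lit 16371873958) (nat_lit 1368) (nat_lit 11583745711) (nat_lit 299) (nat_lit 5)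 (nat_lit 316) (nat_lit 5) (nat_lit 317) (nat_lit 5) (nat_lit 473) (nat_lit 458) (nat_lit 269)) (XT.lf (nat_lit 0) (nat_lit 2643094479) (nat_lit 1292) (nat_lit 1268519588) (nat_lit 1368) (nat_lit 24987620934) (nat_lit 299) (nat_lit 5) (nat_lit 316) (nat_lit 5) (nat_lit 317) (nat_lit 5) (nat_lit 474) (nat_lit 458) (nat_lit 268))))) (XT.nd (nat_lit 312) (nat_lit 1140) (nat_lit 0) (XT.nd (nat_lit 156) (nat_lit 608) (nat_lit 0) (XT.nd (nat_lit 78) (nat_lit 836) (nat_lit 0) (XT.lf (nat_lit 0) (nat_lit 5091269370) (nat_lit 1292) (nat_lit 14886711509) (nat_lit 76) (nat_lit 9383393526) (nat_lit 300) (nat_lit 5) (nat_lit 317) (nat_lit 5) (nat_lit 301) (nat_lit 5) (nat_lit 475) (nat_lit 458) (nat_lit 267)) (XT.lf (nat_lit 0) (nat_lit 854065294) (nat_lit 836) (nat_lit 6815440737) (nat_lit 912) (nat_lit 22166173743) (nat_lit 289) (nat_lit 5) (nat_lit 300) (nat_lit 5) (nat_lit 301) (nat_lit 5) (nat_lit 476) (nat_lit 458) (nat_lit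 266))) (XT.nd (nat_lit 78) (nat_lit 608) (nat_lit 0) (XT.lf (nat_lit 0) (nat_lit 10538524714) (nat_lit 912) (nat_lit 13016738702) (nat_lit 76) (nat_lit 6762548112) (nat_lit 289) (nat_lit 5) (nat_lit 301) (nat_lit 5) (nat_lit 290) (nat_lit 5) (nat_lit 477) (nat_lit 458) (nat_lit 265)) (XT.lf (nat_lit 0) (nat_lit 3423529309) (nat_lit 608) (nat_lit 10167378121) (nat_lit 684) (nat_lit 17220581264) (nat_lit 281) (nat_lit 5) (nat_lit 289) (nat_lit 5) (nat_lit 290) (nat_lit 5) (nat_lit 478) (nat_lit 458) (nat_lit 264)))) (XT.nd (nat_lit 156) (nat_lit 532) (nat_lit 0) (XT.nd (nat_lit 78) (nat_lit 608) (nat_lit 0) (XT.lf (nat_lit 0) (nat_lit 16899394132) (nat_lit 684) (nat_lit 10731261360) (nat_lit 76) (nat_lit 3684384964) (nat_lit 281) (nat_lit 5) (nat_lit 290) (nat_lit 5) (nat_lit 282) (nat_lit 5) (nat_lit 479) (nat_lit 458) (nat_lit 263)) (XT.lf (nat_lit 0) (nat_lit 6447424176) (nat_lit 608) (nat_lit 14019412510) (nat_lit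 684) (nat_lit 11362071294) (nat_lit 273) (nat_lit 5) (nat_lit 281) (nat_lit 5) (nat_lit 282) (nat_lit 5) (nat_lit 480) (nat_lit 458) (nat_lit 262))) (XT.nd (nat_lit 78) (nat_lit 532) (nat_lit 0) (XT.lf (nat_lit 0) (nat_lit 24247858305) (nat_lit 684) (nat_lit 7997482536) (nat_lit 76) (nat_lit 109654257) (nat_lit 273) (nat_lit 5) (nat_lit 282) (nat_lit 5) (nat_lit 274) (nat_lit 5) (nat_lit 481) (nat_lit 458) (nat_lit 261)) (XT.lf (nat_lit 0) (nat_lit 9960770169) (nat_lit 532) (nat_lit 18413296027) (nat_lit 608) (nat_lit 4515846199) (nat_lit 266) (nat_lit 5) (nat_lit 273) (nat_lit 5) (nat_lit 274) (nat_lit 5) (nat_lit 482) (nat_lit 458) (nat_lit 260))))))))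
noncomputable def xc210 : XT := (XT.nd (nat_lit 2418) (nat_lit 4484) (nat_lit 0) (XT.nd (nat_lit 1170) (nat_lit 3648) (nat_lit 0) (XT.nd (nat_lit 546) (nat_lit 1900) (nat_lit 0) (XT.nd (nat_lit 234) (nat_lit 1520) (nat_lit 0) (XT.nd (nat_lit 78) (nat_lit 684) (nat_lit 0) (XT.lf (nat_lit 0) (nat_lit 28618905742) (nat_lit 532) (nat_lit 4083168588) (nat_lit 608) (nat_lit 736462688) (nat_lit 266) (nat_lit 5) (nat_lit 273) (nat_lit 5) (nat_lit 274) (nat_lit 5) (nat_lit 483) (nat_lit 458) (nat_lit 259)) (XT.nd (nat_lit 78) (nat_lit 0) (nat_lit 0) (XT.lf (nat_lit 0) (nat_lit 3331586204) (nat_lit 684) (nat_lit 20028308599) (nat_lit 76) (nat_lit 10635709339) (nat_lit 257) (nat_lit 5) (nat_lit 266) (nat_lit 5) (nat_lit 258) (nat_lit 5) (nat_lit 484) (nat_lit 458) (nat_lit 258)) (XT.lf (nat_lit 0) (nat_lit 7593811857) (nat_lit 684) (nat_lit 1202324766) (nat_lit 76) (nat_lit 25770419992) (nat_lit 257) (nat_lit 5) (nat_lit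 266) (nat_lit 5) (nat_lit 258) (nat_lit 5) (nat_lit 485) (nat_lit 458) (nat_lit 257)))) (XT.nd (nat_lit 156) (nat_lit 456) (nat_lit 0) (XT.nd (nat_lit 78) (nat_lit 532) (nat_lit 0) (XT.lf (nat_lit 0) (nat_lit 12221036936) (nat_lit 608) (nat_lit 16663147867) (nat_lit 76) (nat_lit 6263339079) (nat_lit 250) (nat_lit 5) (nat_lit 258) (nat_lit 5) (nat_lit 251) (nat_lit 5) (nat_lit 486) (nat_lit 458) (nat_lit 256)) (XT.lf (nat_lit 0) (nat_lit 3009490870) (nat_lit 532) (nat_lit 14103351600) (nat_lit 608) (nat_lit 18629304983) (nat_lit 243) (nat_lit 5) (nat_lit 250) (nat_lit 5) (nat_lit 251) (nat_lit 5) (nat_lit 487) (nat_lit 458) (nat_lit 255))) (XT.nd (nat_lit 78) (nat_lit 456) (nat_lit 0) (XT.lf (nat_lit 0) (nat_lit 22329634861) (nat_lit 608) (nat_lit 12750952562) (nat_lit 76) (nat_lit 1268675517) (nat_lit 243) (nat_lit 5) (nat_lit 251) (nat_lit 5) (nat_lit 244) (nat_lit 5) (nat_lit 488) (nat_lit 458) (nat_lit 254))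 (XT.lf (nat_lit 0) (nat_lit 7840813662) (nat_lit 456) (nat_lit 20074723978) (nat_lit 532) (nat_lit 9052676239) (nat_lit 237) (nat_lit 5) (nat_lit 243) (nat_lit 5) (nat_lit 244) (nat_lit 5) (nat_lit 489) (nat_lit 458) (nat_lit 253))))) (XT.nd (nat_lit 312) (nat_lit 912) (nat_lit 0) (XT.nd (nat_lit 156) (nat_lit 456) (nat_lit 0) (XT.nd (nat_lit 78) (nat_lit 532) (nat_lit 0) (XT.lf (nat_lit 0) (nat_lit 29308987614) (nat_lit 456) (nat_lit 4486432004) (nat_lit 532) (nat_lit 3806521842) (nat_lit 237) (nat_lit 5) (nat_lit 243) (nat_lit 5) (nat_lit 244) (nat_lit 5) (nat_lit 490) (nat_lit 458) (nat_lit 252)) (XT.lf (nat_lit 0) (nat_lit 1805086447) (nat_lit 532) (nat_lit 24952899543) (nat_lit 76) (nat_lit 11489057521) (nat_lit 230) (nat_lit 5) (nat_lit 237) (nat_lit 5) (nat_lit 231) (nat_lit 5) (nat_lit 491) (nat_lit 458) (nat_lit 251))) (XT.nd (nat_lit 78) (nat_lit 456) (nat_lit 0) (XT.lf (nat_lit 0) (nat_lit 7635253687)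 (nat_lit 532) (nat_lit 3295803845) (nat_lit 76) (nat_lit 27975509062) (nat_lit 230) (nat_lit 5) (nat_lit 237) (nat_lit 5) (nat_lit 231) (nat_lit 5) (nat_lit 492) (nat_lit 458) (nat_lit 250)) (XT.lf (nat_lit 0) (nat_lit 13877941847) (nat_lit 532) (nat_lit 20247162430) (nat_lit 76) (nat_lit 5453642775) (nat_lit 224) (nat_lit 5) (nat_lit 231) (nat_lit 5) (nat_lit 225) (nat_lit 5) (nat_lit 493) (nat_lit 458) (nat_lit 249)))) (XT.nd (nat_lit 156) (nat_lit 456) (nat_lit 0) (XT.nd (nat_lit 78) (nat_lit 0) (nat_lit 0) (XT.lf (nat_lit 0) (nat_lit 2370268382) (nat_lit 456) (nat_lit 18100092777) (nat_lit 532) (nat_lit 19795858407) (nat_lit 218) (nat_lit 5) (nat_lit 224) (nat_lit 5) (nat_lit 225) (nat_lit 5) (nat_lit 494) (nat_lit 458) (nat_lit 248)) (XT.lf (nat_lit 0) (nat_lit 26078608161) (nat_lit 456) (nat_lit 1384266311) (nat_lit 532) (nat_lit 13505372288) (nat_lit 218) (nat_lit 5) (nat_lit 224) (nat_lit 5) (nat_lit 225)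 (nat_lit 5) (nat_lit 495) (nat_lit 458) (nat_lit 247))) (XT.nd (nat_lit 78) (nat_lit 76) (nat_lit 0) (XT.lf (nat_lit 0) (nat_lit 8824217953) (nat_lit 380) (nat_lit 26075887897) (nat_lit 456) (nat_lit 6784180787) (nat_lit 213) (nat_lit 5) (nat_lit 218) (nat_lit 5) (nat_lit 219) (nat_lit 5) (nat_lit 496) (nat_lit 458) (nat_lit 246)) (XT.lf (nat_lit 0) (nat_lit 299428493) (nat_lit 456) (nat_lit 8881767034) (nat_lit 76) (nat_lit 33235667711) (nat_lit 212) (nat_lit 5) (nat_lit 218) (nat_lit 5) (nat_lit 213) (nat_lit 5) (nat_lit 497) (nat_lit 458) (nat_lit 245)))))) (XT.nd (nat_lit 624) (nat_lit 1672) (nat_lit 0) (XT.nd (nat_lit 312) (nat_lit 760) (nat_lit 0) (XT.nd (nat_lit 156) (nat_lit 760) (nat_lit 0) (XT.nd (nat_lit 78) (nat_lit 0) (nat_lit 0) (XT.lf (nat_lit 0) (nat_lit 7692768663) (nat_lit 532) (nat_lit 27186524210) (nat_lit 76) (nat_lit 8283101958) (nat_lit 206) (nat_lit 5) (nat_lit 213) (nat_lit 5) (nat_lit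 207) (nat_lit 5) (nat_lit 498) (nat_lit 458) (nat_lit 244)) (XT.lf (nat_lit 0) (nat_lit 15487413744) (nat_lit 532) (nat_lit 2260694829) (nat_lit 76) (nat_lit 26176798786) (nat_lit 206) (nat_lit 5) (nat_lit 213) (nat_lit 5) (nat_lit 207) (nat_lit 5) (nat_lit 499) (nat_lit 458) (nat_lit 243))) (XT.nd (nat_lit 78) (nat_lit 380) (nat_lit 0) (XT.lf (nat_lit 0) (nat_lit 23744771068) (nat_lit 456) (nat_lit 20828453324) (nat_lit 76) (nat_lit 130204812) (nat_lit 201) (nat_lit 5) (nat_lit 207) (nat_lit 5) (nat_lit 202) (nat_lit 5) (nat_lit 500) (nat_lit 458) (nat_lit 242)) (XT.lf (nat_lit 0) (nat_lit 5260582871) (nat_lit 380) (nat_lit 27236721275) (nat_lit 456) (nat_lit 13000579027) (nat_lit 196) (nat_lit 5) (nat_lit 201) (nat_lit 5) (nat_lit 202) (nat_lit 5) (nat_lit 501) (nat_lit 458) (nat_lit 241)))) (XT.nd (nat_lit 156) (nat_lit 380) (nat_lit 0) (XT.nd (nat_lit 78) (nat_lit 380) (nat_lit 0) (XT.lf (nat_lit 0) (nat_lit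 32556721027) (nat_lit 380) (nat_lit 9164158114) (nat_lit 456) (nat_lit 4589037762) (nat_lit 196) (nat_lit 5) (nat_lit 201) (nat_lit 5) (nat_lit 202) (nat_lit 5) (nat_lit 502) (nat_lit 458) (nat_lit 240)) (XT.lf (nat_lit 0) (nat_lit 4218239123) (nat_lit 380) (nat_lit 33481640118) (nat_lit 76) (nat_lit 9438570286) (nat_lit 191) (nat_lit 5) (nat_lit 196) (nat_lit 5) (nat_lit 192) (nat_lit 5) (nat_lit 503) (nat_lit 458) (nat_lit 239))) (XT.nd (nat_lit 78) (nat_lit 380) (nat_lit 0) (XT.lf (nat_lit 0) (nat_lit 13426687285) (nat_lit 380) (nat_lit 5956692826) (nat_lit 76) (nat_lit 28600219403) (nat_lit 191) (nat_lit 5) (nat_lit 196) (nat_lit 5) (nat_lit 192) (nat_lit 5) (nat_lit 504) (nat_lit 458) (nat_lit 238)) (XT.lf (nat_lit 0) (nat_lit 22837194449) (nat_lit 380) (nat_lit 291970481) (nat_lit 456) (nat_lit 25718405896) (nat_lit 186) (nat_lit 5) (nat_lit 191) (nat_lit 5) (nat_lit 192) (nat_lit 5) (nat_lit 505) (nat_lit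 458) (nat_lit 237))))) (XT.nd (nat_lit 312) (nat_lit 988) (nat_lit 0) (XT.nd (nat_lit 156) (nat_lit 380) (nat_lit 0) (XT.nd (nat_lit 78) (nat_lit 0) (nat_lit 0) (XT.lf (nat_lit 0) (nat_lit 2745647195) (nat_lit 304) (nat_lit 30648698192) (nat_lit 380) (nat_lit 16334967138) (nat_lit 182) (nat_lit 5) (nat_lit 186) (nat_lit 5) (nat_lit 187) (nat_lit 5) (nat_lit 506) (nat_lit 458) (nat_lit 236)) (XT.lf (nat_lit 0) (nat_lit 32892149119) (nat_lit 304) (nat_lit 11339147173) (nat_lit 380) (nat_lit 6398295830) (nat_lit 182) (nat_lit 5) (nat_lit 186) (nat_lit 5) (nat_lit 187) (nat_lit 5) (nat_lit 507) (nat_lit 458) (nat_lit 235))) (XT.nd (nat_lit 78) (nat_lit 0) (nat_lit 0) (XT.lf (nat_lit 0) (nat_lit 3964733334) (nat_lit 380) (nat_lit 39043322657) (nat_lit 76) (nat_lit 8541624220) (nat_lit 177) (nat_lit 5) (nat_lit 182) (nat_lit 5) (nat_lit 178) (nat_lit 5) (nat_lit 508) (nat_lit 458) (nat_lit 234)) (XT.lf (nat_lit 0) (nat_lit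 14801560043) (nat_lit 380) (nat_lit 8650739007) (nat_lit 76) (nat_lit 29034426316) (nat_lit 177) (nat_lit 5) (nat_lit 182) (nat_lit 5) (nat_lit 178) (nat_lit 5) (nat_lit 509) (nat_lit 458) (nat_lit 233)))) (XT.nd (nat_lit 156) (nat_lit 380) (nat_lit 0) (XT.nd (nat_lit 78) (nat_lit 304) (nat_lit 0) (XT.lf (nat_lit 0) (nat_lit 23102075255) (nat_lit 304) (nat_lit 3081886122) (nat_lit 380) (nat_lit 27261306492) (nat_lit 173) (nat_lit 5) (nat_lit 177) (nat_lit 5) (nat_lit 178) (nat_lit 5) (nat_lit 510) (nat_lit 458) (nat_lit 232)) (XT.lf (nat_lit 0) (nat_lit 1407019748) (nat_lit 304) (nat_lit 36773038410) (nat_lit 380) (nat_lit 16244341872) (nat_lit 169) (nat_lit 5) (nat_lit 173) (nat_lit 5) (nat_lit 174) (nat_lit 5) (nat_lit 511) (nat_lit 458) (nat_lit 231))) (XT.nd (nat_lit 78) (nat_lit 380) (nat_lit 0) (XT.lf (nat_lit 0) (nat_lit 34698277679) (nat_lit 304) (nat_lit 16172820668) (nat_lit 380) (nat_lit 4551756079)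 (nat_lit 169) (nat_lit 5) (nat_lit 173) (nat_lit 5) (nat_lit 174) (nat_lit 5) (nat_lit 512) (nat_lit 458) (nat_lit 230)) (XT.lf (nat_lit 0) (nat_lit 7516486615) (nat_lit 380) (nat_lit 43785176090) (nat_lit 76) (nat_lit 5142307381) (nat_lit 164) (nat_lit 5) (nat_lit 169) (nat_lit 5) (nat_lit 165) (nat_lit 5) (nat_lit 513) (nat_lit 458) (nat_lit 229))))))) (XT.nd (nat_lit 1170) (nat_lit 2052) (nat_lit 0) (XT.nd (nat_lit 546) (nat_lit 1292) (nat_lit 0) (XT.nd (nat_lit 234) (nat_lit 608) (nat_lit 0) (XT.nd (nat_lit 78) (nat_lit 532) (nat_lit 0) (XT.lf (nat_lit 0) (nat_lit 20225252082) (nat_lit 380) (nat_lit 10230530338) (nat_lit 76) (nat_lit 27027486027) (nat_lit 164) (nat_lit 5) (nat_lit 169) (nat_lit 5) (nat_lit 165) (nat_lit 5) (nat_lit 514) (nat_lit 458) (nat_lit 228)) (XT.nd (nat_lit 78) (nat_lit 228) (nat_lit 0) (XT.lf (nat_lit 0) (nat_lit 24812684355) (nat_lit 304) (nat_lit 8739639695) (nat_lit 380) (nat_lit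 24994310475) (nat_lit 160) (nat_lit 5) (nat_lit 164) (nat_lit 5) (nat_lit 165) (nat_lit 5) (nat_lit 515) (nat_lit 458) (nat_lit 227)) (XT.lf (nat_lit 0) (nat_lit 1370560968) (nat_lit 228) (nat_lit 46155696271) (nat_lit 304) (nat_lit 12108232949) (nat_lit 157) (nat_lit 5) (nat_lit 160) (nat_lit 5) (nat_lit 161) (nat_lit 5) (nat_lit 516) (nat_lit 458) (nat_lit 226)))) (XT.nd (nat_lit 156) (nat_lit 228) (nat_lit 0) (XT.nd (nat_lit 78) (nat_lit 304) (nat_lit 0) (XT.lf (nat_lit 0) (nat_lit 1570804563) (nat_lit 304) (nat_lit 22628414670) (nat_lit 76) (nat_lit 36542553564) (nat_lit 156) (nat_lit 5) (nat_lit 160) (nat_lit 5) (nat_lit 157) (nat_lit 5) (nat_lit 517) (nat_lit 458) (nat_lit 225)) (XT.lf (nat_lit 0) (nat_lit 14231785615) (nat_lit 304) (nat_lit 1320460221) (nat_lit 380) (nat_lit 46322369726) (nat_lit 152) (nat_lit 5) (nat_lit 156) (nat_lit 5) (nat_lit 157) (nat_lit 5) (nat_lit 518) (nat_lit 458) (nat_lit 224)))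 (XT.nd (nat_lit 78) (nat_lit 228) (nat_lit 0) (XT.lf (nat_lit 0) (nat_lit 30396328471) (nat_lit 380) (nat_lit 10591249978) (nat_lit 76) (nat_lit 22040569280) (nat_lit 152) (nat_lit 5) (nat_lit 157) (nat_lit 5) (nat_lit 153) (nat_lit 5) (nat_lit 519) (nat_lit 458) (nat_lit 223)) (XT.lf (nat_lit 0) (nat_lit 28105077562) (nat_lit 228) (nat_lit 17862537559) (nat_lit 304) (nat_lit 18240214357) (nat_lit 149) (nat_lit 5) (nat_lit 152) (nat_lit 5) (nat_lit 153) (nat_lit 5) (nat_lit 520) (nat_lit 458) (nat_lit 222))))) (XT.nd (nat_lit 312) (nat_lit 760) (nat_lit 0) (XT.nd (nat_lit 156) (nat_lit 228) (nat_lit 0) (XT.nd (nat_lit 78) (nat_lit 76) (nat_lit 0) (XT.lf (nat_lit 0) (nat_lit 2752949311) (nat_lit 228) (nat_lit 59443474767) (nat_lit 304) (nat_lit 3220766149) (nat_lit 146) (nat_lit 5) (nat_lit 149) (nat_lit 5) (nat_lit 150) (nat_lit 5) (nat_lit 521) (nat_lit 458) (nat_lit 221)) (XT.lf (nat_lit 0) (nat_lit 12553932665)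 (nat_lit 304) (nat_lit 23437890032) (nat_lit 76) (nat_lit 30651165901) (nat_lit 145) (nat_lit 5) (nat_lit 149) (nat_lit 5) (nat_lit 146) (nat_lit 5) (nat_lit 522) (nat_lit 458) (nat_lit 220))) (XT.nd (nat_lit 78) (nat_lit 0) (nat_lit 0) (XT.lf (nat_lit 0) (nat_lit 17268217012) (nat_lit 228) (nat_lit 11633613949) (nat_lit 304) (nat_lit 38997832570) (nat_lit 142) (nat_lit 5) (nat_lit 145) (nat_lit 5) (nat_lit 146) (nat_lit 5) (nat_lit 523) (nat_lit 458) (nat_lit 219)) (XT.lf (nat_lit 0) (nat_lit 46107237312) (nat_lit 304) (nat_lit 9644782440) (nat_lit 76) (nat_lit 13431006881) (nat_lit 142) (nat_lit 5) (nat_lit 146) (nat_lit 5) (nat_lit 143) (nat_lit 5) (nat_lit 524) (nat_lit 458) (nat_lit 218)))) (XT.nd (nat_lit 156) (nat_lit 228) (nat_lit 0) (XT.nd (nat_lit 78) (nat_lit 304) (nat_lit 0) (XT.lf (nat_lit 0) (nat_lit 33100141249) (nat_lit 228) (nat_lit 31160775346) (nat_lit 304) (nat_lit 6231010762) (nat_lit 139)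 (nat_lit 5) (nat_lit 142) (nat_lit 5) (nat_lit 143) (nat_lit 5) (nat_lit 525) (nat_lit 458) (nat_lit 217)) (XT.lf (nat_lit 0) (nat_lit 5485069722) (nat_lit 228) (nat_lit 5566903287) (nat_lit 304) (nat_lit 60780420559) (nat_lit 135) (nat_lit 5) (nat_lit 138) (nat_lit 5) (nat_lit 139) (nat_lit 5) (nat_lit 526) (nat_lit 458) (nat_lit 216))) (XT.nd (nat_lit 78) (nat_lit 228) (nat_lit 0) (XT.lf (nat_lit 0) (nat_lit 29308184643) (nat_lit 304) (nat_lit 23054416517) (nat_lit 76) (nat_lit 20831222591) (nat_lit 135) (nat_lit 5) (nat_lit 139) (nat_lit 5) (nat_lit 136) (nat_lit 5) (nat_lit 527) (nat_lit 458) (nat_lit 215)) (XT.lf (nat_lit 0) (nat_lit 21907644979) (nat_lit 228) (nat_lit 26468942396) (nat_lit 304) (nat_lit 26211574370) (nat_lit 132) (nat_lit 5) (nat_lit 135) (nat_lit 5) (nat_lit 136) (nat_lit 5) (nat_lit 528) (nat_lit 458) (nat_lit 214)))))) (XT.nd (nat_lit 624) (nat_lit 988) (nat_lit 0) (XT.nd (nat_lit 312)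 (nat_lit 608) (nat_lit 0) (XT.nd (nat_lit 156) (nat_lit 228) (nat_lit 0) (XT.nd (nat_lit 78) (nat_lit 228) (nat_lit 0) (XT.lf (nat_lit 0) (nat_lit 68252894125) (nat_lit 304) (nat_lit 7332447113) (nat_lit 76) (nat_lit 431913128) (nat_lit 132) (nat_lit 5) (nat_lit 136) (nat_lit 5) (nat_lit 133) (nat_lit 5) (nat_lit 529) (nat_lit 458) (nat_lit 213)) (XT.lf (nat_lit 0) (nat_lit 11667750162) (nat_lit 228) (nat_lit 37693838233) (nat_lit 76) (nat_lit 28104868915) (nat_lit 129) (nat_lit 5) (nat_lit 132) (nat_lit 5) (nat_lit 130) (nat_lit 5) (nat_lit 530) (nat_lit 458) (nat_lit 212))) (XT.nd (nat_lit 78) (nat_lit 0) (nat_lit 0) (XT.lf (nat_lit 0) (nat_lit 9591827932) (nat_lit 228) (nat_lit 22100762826) (nat_lit 304) (nat_lit 47259264694) (nat_lit 126) (nat_lit 5) (nat_lit 129) (nat_lit 5) (nat_lit 130) (nat_lit 5) (nat_lit 531) (nat_lit 458) (nat_lit 211)) (XT.lf (nat_lit 0) (nat_lit 52758893300) (nat_lit 304) (nat_lit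 21464850153) (nat_lit 76) (nat_lit 6244850626) (nat_lit 126) (nat_lit 5) (nat_lit 130) (nat_lit 5) (nat_lit 127) (nat_lit 5) (nat_lit 532) (nat_lit 458) (nat_lit 210)))) (XT.nd (nat_lit 156) (nat_lit 380) (nat_lit 0) (XT.nd (nat_lit 78) (nat_lit 76) (nat_lit 0) (XT.lf (nat_lit 0) (nat_lit 28196666403) (nat_lit 152) (nat_lit 46749266122) (nat_lit 228) (nat_lit 7070239948) (nat_lit 124) (nat_lit 5) (nat_lit 126) (nat_lit 5) (nat_lit 127) (nat_lit 5) (nat_lit 533) (nat_lit 458) (nat_lit 209)) (XT.lf (nat_lit 0) (nat_lit 14129324680) (nat_lit 228) (nat_lit 3956091100) (nat_lit 76) (nat_lit 65514137242) (nat_lit 123) (nat_lit 5) (nat_lit 126) (nat_lit 5) (nat_lit 124) (nat_lit 5) (nat_lit 534) (nat_lit 458) (nat_lit 208))) (XT.nd (nat_lit 78) (nat_lit 152) (nat_lit 0) (XT.lf (nat_lit 0) (nat_lit 36400957026) (nat_lit 304) (nat_lit 37056330617) (nat_lit 76) (nat_lit 11753701739) (nat_lit 120) (nat_lit 5) (nat_lit 124)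 (nat_lit 5) (nat_lit 121) (nat_lit 5) (nat_lit 535) (nat_lit 458) (nat_lit 207)) (XT.lf (nat_lit 0) (nat_lit 15154650507) (nat_lit 152) (nat_lit 44550097939) (nat_lit 228) (nat_lit 27155100119) (nat_lit 118) (nat_lit 5) (nat_lit 120) (nat_lit 5) (nat_lit 121) (nat_lit 5) (nat_lit 536) (nat_lit 458) (nat_lit 206))))) (XT.nd (nat_lit 312) (nat_lit 532) (nat_lit 0) (XT.nd (nat_lit 156) (nat_lit 152) (nat_lit 0) (XT.nd (nat_lit 78) (nat_lit 304) (nat_lit 0) (XT.lf (nat_lit 0) (nat_lit 69689728836) (nat_lit 152) (nat_lit 14391061043) (nat_lit 228) (nat_lit 4466189590) (nat_lit 118) (nat_lit 5) (nat_lit 120) (nat_lit 5) (nat_lit 121) (nat_lit 5) (nat_lit 537) (nat_lit 458) (nat_lit 205)) (XT.lf (nat_lit 0) (nat_lit 19045957836) (nat_lit 304) (nat_lit 54337401320) (nat_lit 76) (nat_lit 16880570564) (nat_lit 114) (nat_lit 5) (nat_lit 118) (nat_lit 5) (nat_lit 115) (nat_lit 5) (nat_lit 538) (nat_lit 458) (nat_lit 204)))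 (XT.nd (nat_lit 78) (nat_lit 0) (nat_lit 0) (XT.lf (nat_lit 0) (nat_lit 533700666) (nat_lit 152) (nat_lit 42978891839) (nat_lit 228) (nat_lit 48508302748) (nat_lit 112) (nat_lit 5) (nat_lit 114) (nat_lit 5) (nat_lit 115) (nat_lit 5) (nat_lit 539) (nat_lit 458) (nat_lit 203)) (XT.lf (nat_lit 0) (nat_lit 58162993981) (nat_lit 152) (nat_lit 11097912384) (nat_lit 228) (nat_lit 24553233012) (nat_lit 112) (nat_lit 5) (nat_lit 114) (nat_lit 5) (nat_lit 115) (nat_lit 5) (nat_lit 540) (nat_lit 458) (nat_lit 202)))) (XT.nd (nat_lit 156) (nat_lit 304) (nat_lit 0) (XT.nd (nat_lit 78) (nat_lit 0) (nat_lit 0) (XT.lf (nat_lit 0) (nat_lit 542520353) (nat_lit 228) (nat_lit 73573793885) (nat_lit 76) (nat_lit 21532100387) (nat_lit 109) (nat_lit 5) (nat_lit 112) (nat_lit 5) (nat_lit 110) (nat_lit 5) (nat_lit 541) (nat_lit 458) (nat_lit 201)) (XT.lf (nat_lit 0) (nat_lit 26370105815) (nat_lit 228) (nat_lit 15622268110) (nat_lit 76)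 (nat_lit 55523877540) (nat_lit 109) (nat_lit 5) (nat_lit 112) (nat_lit 5) (nat_lit 110) (nat_lit 5) (nat_lit 542) (nat_lit 458) (nat_lit 200))) (XT.nd (nat_lit 78) (nat_lit 152) (nat_lit 0) (XT.lf (nat_lit 0) (nat_lit 44943079049) (nat_lit 152) (nat_lit 8460492936) (nat_lit 228) (nat_lit 46023619855) (nat_lit 107) (nat_lit 5) (nat_lit 109) (nat_lit 5) (nat_lit 110) (nat_lit 5) (nat_lit 543) (nat_lit 458) (nat_lit 199)) (XT.lf (nat_lit 0) (nat_lit 6120366826) (nat_lit 152) (nat_lit 75595532893) (nat_lit 228) (nat_lit 19665525006) (nat_lit 105) (nat_lit 5) (nat_lit 107) (nat_lit 5) (nat_lit 108) (nat_lit 5) (nat_lit 544) (nat_lit 458) (nat_lit 198))))))))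
noncomputable def xc211 : XT := (XT.nd (nat_lit 58032) (nat_lit 0) (nat_lit 3800) (XT.nd (nat_lit 56784) (nat_lit 0) (nat_lit 11248) (XT.nd (nat_lit 56160) (nat_lit 0) (nat_lit 15884) (XT.nd (nat_lit 55848) (nat_lit 0) (nat_lit 15732) (XT.nd (nat_lit 78) (nat_lit 152) (nat_lit 0) (XT.lf (nat_lit 0) (nat_lit 7975723031) (nat_lit 228) (nat_lit 33880808622) (nat_lit 76) (nat_lit 61516441840) (nat_lit 104) (nat_lit 5) (nat_lit 107) (nat_lit 5) (nat_lit 105) (nat_lit 5) (nat_lit 545) (nat_lit 458) (nat_lit 197)) (XT.nd (nat_lit 55692) (nat_lit 0) (nat_lit 15732) (XT.lf (nat_lit 0) (nat_lit 29724489838) (nat_lit 152) (nat_lit 6611258458) (nat_lit 228) (nat_lit 69074135286) (nat_lit 102) (nat_lit 5) (nat_lit 104) (nat_lit 5) (nat_lit 105) (nat_lit 5) (nat_lit 546) (nat_lit 458) (nat_lit 196)) (XT.lf (nat_lit 0) (nat_lit 4931460242) (nat_lit 1292) (nat_lit 3361822383) (nat_lit 1292) (nat_lit 3361822383) (nat_lit 309) (nat_lit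 3) (nat_lit 326) (nat_lit 3) (nat_lit 326) (nat_lit 5) (nat_lit 459) (nat_lit 459) (nat_lit 282)))) (XT.nd (nat_lit 156) (nat_lit 0) (nat_lit 76) (XT.nd (nat_lit 78) (nat_lit 0) (nat_lit 76) (XT.lf (nat_lit 76) (nat_lit 4934259634) (nat_lit 0) (nat_lit 5244629193) (nat_lit 1292) (nat_lit 13475922452) (nat_lit 310) (nat_lit 5) (nat_lit 309) (nat_lit 3) (nat_lit 326) (nat_lit 5) (nat_lit 460) (nat_lit 459) (nat_lit 281)) (XT.lf (nat_lit 0) (nat_lit 10630077413) (nat_lit 1216) (nat_lit 6993174774) (nat_lit 1292) (nat_lit 6382726589) (nat_lit 310) (nat_lit 5) (nat_lit 326) (nat_lit 5) (nat_lit 327) (nat_lit 5) (nat_lit 461) (nat_lit 459) (nat_lit 280))) (XT.nd (nat_lit 78) (nat_lit 0) (nat_lit 76) (XT.lf (nat_lit 76) (nat_lit 5131674301) (nat_lit 0) (nat_lit 6059811825) (nat_lit 1292) (nat_lit 13173295062) (nat_lit 311) (nat_lit 5) (nat_lit 310) (nat_lit 5) (nat_lit 327) (nat_lit 5) (nat_lit 462) (nat_lit 459) (nat_lit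 279)) (XT.lf (nat_lit 0) (nat_lit 11892848500) (nat_lit 1216) (nat_lit 7028232404) (nat_lit 1292) (nat_lit 5809573836) (nat_lit 311) (nat_lit 5) (nat_lit 327) (nat_lit 5) (nat_lit 328) (nat_lit 5) (nat_lit 463) (nat_lit 459) (nat_lit 278))))) (XT.nd (nat_lit 312) (nat_lit 0) (nat_lit 152) (XT.nd (nat_lit 156) (nat_lit 0) (nat_lit 76) (XT.nd (nat_lit 78) (nat_lit 0) (nat_lit 76) (XT.lf (nat_lit 76) (nat_lit 5589247541) (nat_lit 0) (nat_lit 7135415018) (nat_lit 1292) (nat_lit 12379560014) (nat_lit 312) (nat_lit 5) (nat_lit 311) (nat_lit 5) (nat_lit 328) (nat_lit 5) (nat_lit 464) (nat_lit 459) (nat_lit 277)) (XT.lf (nat_lit 0) (nat_lit 13697006798) (nat_lit 1216) (nat_lit 6809072894) (nat_lit 1292) (nat_lit 4979450862) (nat_lit 312) (nat_lit 5) (nat_lit 328) (nat_lit 5) (nat_lit 329) (nat_lit 5) (nat_lit 465) (nat_lit 459) (nat_lit 276))) (XT.nd (nat_lit 78) (nat_lit 0) (nat_lit 76) (XT.lf (nat_lit 76) (nat_lit 6328198087)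 (nat_lit 0) (nat_lit 8497725654) (nat_lit 1292) (nat_lit 11048532338) (nat_lit 313) (nat_lit 5) (nat_lit 312) (nat_lit 5) (nat_lit 329) (nat_lit 5) (nat_lit 466) (nat_lit 459) (nat_lit 275)) (XT.lf (nat_lit 0) (nat_lit 16091387315) (nat_lit 1216) (nat_lit 6314463598) (nat_lit 1292) (nat_lit 3866118447) (nat_lit 313) (nat_lit 5) (nat_lit 329) (nat_lit 5) (nat_lit 330) (nat_lit 5) (nat_lit 467) (nat_lit 459) (nat_lit 274)))) (XT.nd (nat_lit 156) (nat_lit 0) (nat_lit 76) (XT.nd (nat_lit 78) (nat_lit 0) (nat_lit 76) (XT.lf (nat_lit 76) (nat_lit 7371316397) (nat_lit 0) (nat_lit 10174638310) (nat_lit 1292) (nat_lit 9130919490) (nat_lit 314) (nat_lit 5) (nat_lit 313) (nat_lit 5) (nat_lit 330) (nat_lit 5) (nat_lit 468) (nat_lit 459) (nat_lit 273)) (XT.lf (nat_lit 0) (nat_lit 19128094384) (nat_lit 1216) (nat_lit 5521601919) (nat_lit 1292) (nat_lit 2441712160) (nat_lit 314) (nat_lit 5) (nat_lit 330) (nat_lit 5) (nat_lit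 331) (nat_lit 5) (nat_lit 469) (nat_lit 459) (nat_lit 272))) (XT.nd (nat_lit 78) (nat_lit 0) (nat_lit 76) (XT.lf (nat_lit 76) (nat_lit 8743051619) (nat_lit 0) (nat_lit 12195782557) (nat_lit 1292) (nat_lit 6574110840) (nat_lit 315) (nat_lit 5) (nat_lit 314) (nat_lit 5) (nat_lit 331) (nat_lit 5) (nat_lit 470) (nat_lit 459) (nat_lit 271)) (XT.lf (nat_lit 0) (nat_lit 22862720965) (nat_lit 1216) (nat_lit 4406027612) (nat_lit 1292) (nat_lit 676614667) (nat_lit 315) (nat_lit 5) (nat_lit 331) (nat_lit 5) (nat_lit 332) (nat_lit 5) (nat_lit 471) (nat_lit 459) (nat_lit 270)))))) (XT.nd (nat_lit 624) (nat_lit 2356) (nat_lit 0) (XT.nd (nat_lit 312) (nat_lit 1368) (nat_lit 0) (XT.nd (nat_lit 156) (nat_lit 1216) (nat_lit 0) (XT.nd (nat_lit 78) (nat_lit 0) (nat_lit 0) (XT.lf (nat_lit 76) (nat_lit 10469604438) (nat_lit 0) (nat_lit 14592656740) (nat_lit 1292) (nat_lit 3321955050) (nat_lit 316) (nat_lit 5) (nat_lit 315) (nat_lit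 5) (nat_lit 332) (nat_lit 5) (nat_lit 472) (nat_lit 459) (nat_lit 269)) (XT.lf (nat_lit 76) (nat_lit 25879152079) (nat_lit 0) (nat_lit 1489748918) (nat_lit 1292) (nat_lit 1466100708) (nat_lit 316) (nat_lit 5) (nat_lit 315) (nat_lit 5) (nat_lit 332) (nat_lit 5) (nat_lit 473) (nat_lit 459) (nat_lit 268))) (XT.nd (nat_lit 78) (nat_lit 0) (nat_lit 0) (XT.lf (nat_lit 0) (nat_lit 672099357) (nat_lit 1292) (nat_lit 16719882557) (nat_lit 1368) (nat_lit 11900139808) (nat_lit 299) (nat_lit 5) (nat_lit 316) (nat_lit 5) (nat_lit 317) (nat_lit 5) (nat_lit 474) (nat_lit 459) (nat_lit 267)) (XT.lf (nat_lit 0) (nat_lit 2886635865) (nat_lit 1292) (nat_lit 1167596904) (nat_lit 1368) (nat_lit 25707037645) (nat_lit 299) (nat_lit 5) (nat_lit 316) (nat_lit 5) (nat_lit 317) (nat_lit 5) (nat_lit 475) (nat_lit 459) (nat_lit 266)))) (XT.nd (nat_lit 156) (nat_lit 608) (nat_lit 0) (XT.nd (nat_lit 78) (nat_lit 836) (nat_lit 0) (XT.lf (nat_lit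 0) (nat_lit 5404572171) (nat_lit 1292) (nat_lit 15190636982) (nat_lit 76) (nat_lit 9642175775) (nat_lit 300) (nat_lit 5) (nat_lit 317) (nat_lit 5) (nat_lit 301) (nat_lit 5) (nat_lit 476) (nat_lit 459) (nat_lit 265)) (XT.lf (nat_lit 0) (nat_lit 1020964342) (nat_lit 836) (nat_lit 7035872989) (nat_lit 912) (nat_lit 22669182086) (nat_lit 289) (nat_lit 5) (nat_lit 300) (nat_lit 5) (nat_lit 301) (nat_lit 5) (nat_lit 477) (nat_lit 459) (nat_lit 264))) (XT.nd (nat_lit 78) (nat_lit 608) (nat_lit 0) (XT.lf (nat_lit 0) (nat_lit 11007197557) (nat_lit 912) (nat_lit 13265336646) (nat_lit 76) (nat_lit 6950223181) (nat_lit 289) (nat_lit 5) (nat_lit 301) (nat_lit 5) (nat_lit 290) (nat_lit 5) (nat_lit 478) (nat_lit 459) (nat_lit 263)) (XT.lf (nat_lit 0) (nat_lit 3666748187) (nat_lit 608) (nat_lit 10481312018) (nat_lit 684) (nat_lit 17583277783) (nat_lit 281) (nat_lit 5) (nat_lit 289) (nat_lit 5) (nat_lit 290) (nat_lit 5) (nat_lit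 479) (nat_lit 459) (nat_lit 262))))) (XT.nd (nat_lit 312) (nat_lit 1216) (nat_lit 0) (XT.nd (nat_lit 156) (nat_lit 532) (nat_lit 0) (XT.nd (nat_lit 78) (nat_lit 608) (nat_lit 0) (XT.lf (nat_lit 0) (nat_lit 17551366130) (nat_lit 684) (nat_lit 10912331202) (nat_lit 76) (nat_lit 3786432398) (nat_lit 281) (nat_lit 5) (nat_lit 290) (nat_lit 5) (nat_lit 282) (nat_lit 5) (nat_lit 480) (nat_lit 459) (nat_lit 261)) (XT.lf (nat_lit 0) (nat_lit 6780333841) (nat_lit 608) (nat_lit 14442615939) (nat_lit 684) (nat_lit 11556550323) (nat_lit 273) (nat_lit 5) (nat_lit 281) (nat_lit 5) (nat_lit 282) (nat_lit 5) (nat_lit 481) (nat_lit 459) (nat_lit 260))) (XT.nd (nat_lit 78) (nat_lit 532) (nat_lit 0) (XT.lf (nat_lit 0) (nat_lit 25113238519) (nat_lit 684) (nat_lit 8097807739) (nat_lit 76) (nat_lit 110448829) (nat_lit 273) (nat_lit 5) (nat_lit 282) (nat_lit 5) (nat_lit 274) (nat_lit 5) (nat_lit 482) (nat_lit 459) (nat_lit 259)) (XT.lf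 (nat_lit 0) (nat_lit 10397823926) (nat_lit 532) (nat_lit 18962719677) (nat_lit 608) (nat_lit 4511997306) (nat_lit 266) (nat_lit 5) (nat_lit 273) (nat_lit 5) (nat_lit 274) (nat_lit 5) (nat_lit 483) (nat_lit 459) (nat_lit 258)))) (XT.nd (nat_lit 156) (nat_lit 532) (nat_lit 0) (XT.nd (nat_lit 78) (nat_lit 684) (nat_lit 0) (XT.lf (nat_lit 0) (nat_lit 29611677431) (nat_lit 532) (nat_lit 4202775073) (nat_lit 608) (nat_lit 623290278) (nat_lit 266) (nat_lit 5) (nat_lit 273) (nat_lit 5) (nat_lit 274) (nat_lit 5) (nat_lit 484) (nat_lit 459) (nat_lit 257)) (XT.lf (nat_lit 0) (nat_lit 3561652620) (nat_lit 684) (nat_lit 20489785083) (nat_lit 76) (nat_lit 10960120754) (nat_lit 257) (nat_lit 5) (nat_lit 266) (nat_lit 5) (nat_lit 258) (nat_lit 5) (nat_lit 485) (nat_lit 459) (nat_lit 256))) (XT.nd (nat_lit 78) (nat_lit 532) (nat_lit 0) (XT.lf (nat_lit 0) (nat_lit 7947955173) (nat_lit 684) (nat_lit 1103081136) (nat_lit 76) (nat_lit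 26548717189) (nat_lit 257) (nat_lit 5) (nat_lit 266) (nat_lit 5) (nat_lit 258) (nat_lit 5) (nat_lit 486) (nat_lit 459) (nat_lit 255)) (XT.lf (nat_lit 0) (nat_lit 12711702084) (nat_lit 608) (nat_lit 17025424352) (nat_lit 76) (nat_lit 6461092485) (nat_lit 250) (nat_lit 5) (nat_lit 258) (nat_lit 5) (nat_lit 251) (nat_lit 5) (nat_lit 487) (nat_lit 459) (nat_lit 254))))))) (XT.nd (nat_lit 1248) (nat_lit 3344) (nat_lit 0) (XT.nd (nat_lit 624) (nat_lit 1672) (nat_lit 0) (XT.nd (nat_lit 312) (nat_lit 1444) (nat_lit 0) (XT.nd (nat_lit 156) (nat_lit 456) (nat_lit 0) (XT.nd (nat_lit 78) (nat_lit 0) (nat_lit 0) (XT.lf (nat_lit 0) (nat_lit 3236044351) (nat_lit 532) (nat_lit 14511914690) (nat_lit 608) (nat_lit 19062791522) (nat_lit 243) (nat_lit 5) (nat_lit 250) (nat_lit 5) (nat_lit 251) (nat_lit 5) (nat_lit 488) (nat_lit 459) (nat_lit 253)) (XT.lf (nat_lit 0) (nat_lit 23117845304) (nat_lit 608) (nat_lit 12997762376) (nat_lit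 76) (nat_lit 1320574405) (nat_lit 243) (nat_lit 5) (nat_lit 251) (nat_lit 5) (nat_lit 244) (nat_lit 5) (nat_lit 489) (nat_lit 459) (nat_lit 252))) (XT.nd (nat_lit 78) (nat_lit 0) (nat_lit 0) (XT.lf (nat_lit 0) (nat_lit 8210426259) (nat_lit 456) (nat_lit 20658744475) (nat_lit 532) (nat_lit 9204595716) (nat_lit 237) (nat_lit 5) (nat_lit 243) (nat_lit 5) (nat_lit 244) (nat_lit 5) (nat_lit 490) (nat_lit 459) (nat_lit 251)) (XT.lf (nat_lit 0) (nat_lit 30318731211) (nat_lit 456) (nat_lit 4603334457) (nat_lit 532) (nat_lit 3804541953) (nat_lit 237) (nat_lit 5) (nat_lit 243) (nat_lit 5) (nat_lit 244) (nat_lit 5) (nat_lit 491) (nat_lit 459) (nat_lit 250)))) (XT.nd (nat_lit 156) (nat_lit 912) (nat_lit 0) (XT.nd (nat_lit 78) (nat_lit 0) (nat_lit 0) (XT.lf (nat_lit 0) (nat_lit 1971281758) (nat_lit 532) (nat_lit 25566863318) (nat_lit 76) (nat_lit 11852940371) (nat_lit 230) (nat_lit 5) (nat_lit 237) (nat_lit 5) (nat_lit 231)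 (nat_lit 5) (nat_lit 492) (nat_lit 459) (nat_lit 249)) (XT.lf (nat_lit 0) (nat_lit 7973090635) (nat_lit 532) (nat_lit 3263975814) (nat_lit 76) (nat_lit 28833425911) (nat_lit 230) (nat_lit 5) (nat_lit 237) (nat_lit 5) (nat_lit 231) (nat_lit 5) (nat_lit 493) (nat_lit 459) (nat_lit 248))) (XT.nd (nat_lit 78) (nat_lit 456) (nat_lit 0) (XT.lf (nat_lit 0) (nat_lit 14401352097) (nat_lit 532) (nat_lit 20722160190) (nat_lit 76) (nat_lit 5639377395) (nat_lit 224) (nat_lit 5) (nat_lit 231) (nat_lit 5) (nat_lit 225) (nat_lit 5) (nat_lit 494) (nat_lit 459) (nat_lit 247)) (XT.lf (nat_lit 0) (nat_lit 2572495340) (nat_lit 456) (nat_lit 18617190441) (nat_lit 532) (nat_lit 20281356557) (nat_lit 218) (nat_lit 5) (nat_lit 224) (nat_lit 5) (nat_lit 225) (nat_lit 5) (nat_lit 495) (nat_lit 459) (nat_lit 246))))) (XT.nd (nat_lit 312) (nat_lit 760) (nat_lit 0) (XT.nd (nat_lit 156) (nat_lit 532) (nat_lit 0) (XT.nd (nat_lit 78) (nat_lit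 380) (nat_lit 0) (XT.lf (nat_lit 0) (nat_lit 26988266315) (nat_lit 456) (nat_lit 1400643699) (nat_lit 532) (nat_lit 13805312484) (nat_lit 218) (nat_lit 5) (nat_lit 224) (nat_lit 5) (nat_lit 225) (nat_lit 5) (nat_lit 496) (nat_lit 459) (nat_lit 245)) (XT.lf (nat_lit 0) (nat_lit 9217798520) (nat_lit 380) (nat_lit 26829957936) (nat_lit 456) (nat_lit 6884032381) (nat_lit 213) (nat_lit 5) (nat_lit 218) (nat_lit 5) (nat_lit 219) (nat_lit 5) (nat_lit 497) (nat_lit 459) (nat_lit 244))) (XT.nd (nat_lit 78) (nat_lit 456) (nat_lit 0) (XT.lf (nat_lit 0) (nat_lit 407101425) (nat_lit 456) (nat_lit 9021148345) (nat_lit 76) (nat_lit 34258152087) (nat_lit 212) (nat_lit 5) (nat_lit 218) (nat_lit 5) (nat_lit 213) (nat_lit 5) (nat_lit 498) (nat_lit 459) (nat_lit 243)) (XT.lf (nat_lit 0) (nat_lit 8020853698) (nat_lit 532) (nat_lit 27873653750) (nat_lit 76) (nat_lit 8559833785) (nat_lit 206) (nat_lit 5) (nat_lit 213) (nat_lit 5) (nat_lit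 207) (nat_lit 5) (nat_lit 499) (nat_lit 459) (nat_lit 242)))) (XT.nd (nat_lit 156) (nat_lit 380) (nat_lit 0) (XT.nd (nat_lit 78) (nat_lit 380) (nat_lit 0) (XT.lf (nat_lit 0) (nat_lit 16046504094) (nat_lit 532) (nat_lit 2203791221) (nat_lit 76) (nat_lit 26989519029) (nat_lit 206) (nat_lit 5) (nat_lit 213) (nat_lit 5) (nat_lit 207) (nat_lit 5) (nat_lit 500) (nat_lit 459) (nat_lit 241)) (XT.lf (nat_lit 0) (nat_lit 24550311945) (nat_lit 456) (nat_lit 21327306260) (nat_lit 76) (nat_lit 164111924) (nat_lit 201) (nat_lit 5) (nat_lit 207) (nat_lit 5) (nat_lit 202) (nat_lit 5) (nat_lit 501) (nat_lit 459) (nat_lit 240))) (XT.nd (nat_lit 78) (nat_lit 0) (nat_lit 0) (XT.lf (nat_lit 0) (nat_lit 5543165720) (nat_lit 380) (nat_lit 28020740119) (nat_lit 456) (nat_lit 13296157510) (nat_lit 196) (nat_lit 5) (nat_lit 201) (nat_lit 5) (nat_lit 202) (nat_lit 5) (nat_lit 502) (nat_lit 459) (nat_lit 239)) (XT.lf (nat_lit 0) (nat_lit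 33654554077) (nat_lit 380) (nat_lit 9406963640) (nat_lit 456) (nat_lit 4635020654) (nat_lit 196) (nat_lit 5) (nat_lit 201) (nat_lit 5) (nat_lit 202) (nat_lit 5) (nat_lit 503) (nat_lit 459) (nat_lit 238)))))) (XT.nd (nat_lit 624) (nat_lit 1596) (nat_lit 0) (XT.nd (nat_lit 312) (nat_lit 684) (nat_lit 0) (XT.nd (nat_lit 156) (nat_lit 684) (nat_lit 0) (XT.nd (nat_lit 78) (nat_lit 0) (nat_lit 0) (XT.lf (nat_lit 0) (nat_lit 4433556819) (nat_lit 380) (nat_lit 34362029330) (nat_lit 76) (nat_lit 9754348401) (nat_lit 191) (nat_lit 5) (nat_lit 196) (nat_lit 5) (nat_lit 192) (nat_lit 5) (nat_lit 504) (nat_lit 459) (nat_lit 237)) (XT.lf (nat_lit 0) (nat_lit 13915672877) (nat_lit 380) (nat_lit 6014947018) (nat_lit 76) (nat_lit 29489896864) (nat_lit 191) (nat_lit 5) (nat_lit 196) (nat_lit 5) (nat_lit 192) (nat_lit 5) (nat_lit 505) (nat_lit 459) (nat_lit 236))) (XT.nd (nat_lit 78) (nat_lit 304) (nat_lit 0) (XT.lf (nat_lit 0) (nat_lit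 23641576026) (nat_lit 380) (nat_lit 266285039) (nat_lit 456) (nat_lit 26402587211) (nat_lit 186) (nat_lit 5) (nat_lit 191) (nat_lit 5) (nat_lit 192) (nat_lit 5) (nat_lit 506) (nat_lit 459) (nat_lit 235)) (XT.lf (nat_lit 0) (nat_lit 2948309905) (nat_lit 304) (nat_lit 31531694302) (nat_lit 380) (nat_lit 16738667947) (nat_lit 182) (nat_lit 5) (nat_lit 186) (nat_lit 5) (nat_lit 187) (nat_lit 5) (nat_lit 507) (nat_lit 459) (nat_lit 234)))) (XT.nd (nat_lit 156) (nat_lit 304) (nat_lit 0) (XT.nd (nat_lit 78) (nat_lit 380) (nat_lit 0) (XT.lf (nat_lit 0) (nat_lit 33995703199) (nat_lit 304) (nat_lit 11643918835) (nat_lit 380) (nat_lit 6506411497) (nat_lit 182) (nat_lit 5) (nat_lit 186) (nat_lit 5) (nat_lit 187) (nat_lit 5) (nat_lit 508) (nat_lit 459) (nat_lit 233)) (XT.lf (nat_lit 0) (nat_lit 4164955128) (nat_lit 380) (nat_lit 40095270226) (nat_lit 76) (nat_lit 8833502392) (nat_lit 177) (nat_lit 5) (nat_lit 182) (nat_lit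 5) (nat_lit 178) (nat_lit 5) (nat_lit 509) (nat_lit 459) (nat_lit 232))) (XT.nd (nat_lit 78) (nat_lit 304) (nat_lit 0) (XT.lf (nat_lit 0) (nat_lit 15324519265) (nat_lit 380) (nat_lit 8794385342) (nat_lit 76) (nat_lit 29940050800) (nat_lit 177) (nat_lit 5) (nat_lit 182) (nat_lit 5) (nat_lit 178) (nat_lit 5) (nat_lit 510) (nat_lit 459) (nat_lit 231)) (XT.lf (nat_lit 0) (nat_lit 23909877311) (nat_lit 304) (nat_lit 3137319858) (nat_lit 380) (nat_lit 27999093007) (nat_lit 173) (nat_lit 5) (nat_lit 177) (nat_lit 5) (nat_lit 178) (nat_lit 5) (nat_lit 511) (nat_lit 459) (nat_lit 230))))) (XT.nd (nat_lit 312) (nat_lit 912) (nat_lit 0) (XT.nd (nat_lit 156) (nat_lit 380) (nat_lit 0) (XT.nd (nat_lit 78) (nat_lit 0) (nat_lit 0) (XT.lf (nat_lit 0) (nat_lit 1564805671) (nat_lit 304) (nat_lit 37837564083) (nat_lit 380) (nat_lit 16652450884) (nat_lit 169) (nat_lit 5) (nat_lit 173) (nat_lit 5) (nat_lit 174) (nat_lit 5) (nat_lit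 512) (nat_lit 459) (nat_lit 229)) (XT.lf (nat_lit 0) (nat_lit 35851435068) (nat_lit 304) (nat_lit 16620465987) (nat_lit 380) (nat_lit 4611394932) (nat_lit 169) (nat_lit 5) (nat_lit 173) (nat_lit 5) (nat_lit 174) (nat_lit 5) (nat_lit 513) (nat_lit 459) (nat_lit 228))) (XT.nd (nat_lit 78) (nat_lit 0) (nat_lit 0) (XT.lf (nat_lit 0) (nat_lit 7816648217) (nat_lit 380) (nat_lit 44984267875) (nat_lit 76) (nat_lit 5334129336) (nat_lit 164) (nat_lit 5) (nat_lit 169) (nat_lit 5) (nat_lit 165) (nat_lit 5) (nat_lit 514) (nat_lit 459) (nat_lit 227)) (XT.lf (nat_lit 0) (nat_lit 20904501881) (nat_lit 380) (nat_lit 10426316639) (nat_lit 76) (nat_lit 27874769572) (nat_lit 164) (nat_lit 5) (nat_lit 169) (nat_lit 5) (nat_lit 165) (nat_lit 5) (nat_lit 515) (nat_lit 459) (nat_lit 226)))) (XT.nd (nat_lit 156) (nat_lit 380) (nat_lit 0) (XT.nd (nat_lit 78) (nat_lit 228) (nat_lit 0) (XT.lf (nat_lit 0) (nat_lit 25667104989) (nat_lit 304)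 (nat_lit 8963227368) (nat_lit 380) (nat_lit 25670554512) (nat_lit 160) (nat_lit 5) (nat_lit 164) (nat_lit 5) (nat_lit 165) (nat_lit 5) (nat_lit 516) (nat_lit 459) (nat_lit 225)) (XT.lf (nat_lit 0) (nat_lit 1522397299) (nat_lit 228) (nat_lit 47500430065) (nat_lit 304) (nat_lit 12398570626) (nat_lit 157) (nat_lit 5) (nat_lit 160) (nat_lit 5) (nat_lit 161) (nat_lit 5) (nat_lit 517) (nat_lit 459) (nat_lit 224))) (XT.nd (nat_lit 78) (nat_lit 304) (nat_lit 0) (XT.lf (nat_lit 0) (nat_lit 1687333154) (nat_lit 304) (nat_lit 23198387929) (nat_lit 76) (nat_lit 37676219530) (nat_lit 156) (nat_lit 5) (nat_lit 160) (nat_lit 5) (nat_lit 157) (nat_lit 5) (nat_lit 518) (nat_lit 459) (nat_lit 223)) (XT.lf (nat_lit 0) (nat_lit 14766550921) (nat_lit 304) (nat_lit 1320681607) (nat_lit 380) (nat_lit 47641565780) (nat_lit 152) (nat_lit 5) (nat_lit 156) (nat_lit 5) (nat_lit 157) (nat_lit 5) (nat_lit 519) (nat_lit 459) (nat_lit 222))))))))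
noncomputable def xc212 : XT := (XT.nd (nat_lit 58110) (nat_lit 0) (nat_lit 9576) (XT.nd (nat_lit 1170) (nat_lit 1520) (nat_lit 0) (XT.nd (nat_lit 546) (nat_lit 1140) (nat_lit 0) (XT.nd (nat_lit 234) (nat_lit 532) (nat_lit 0) (XT.nd (nat_lit 78) (nat_lit 456) (nat_lit 0) (XT.lf (nat_lit 0) (nat_lit 31375012482) (nat_lit 380) (nat_lit 10802687677) (nat_lit 76) (nat_lit 22739285128) (nat_lit 152) (nat_lit 5) (nat_lit 157) (nat_lit 5) (nat_lit 153) (nat_lit 5) (nat_lit 520) (nat_lit 459) (nat_lit 221)) (XT.nd (nat_lit 78) (nat_lit 228) (nat_lit 0) (XT.lf (nat_lit 0) (nat_lit 29053487534) (nat_lit 228) (nat_lit 18359016537) (nat_lit 304) (nat_lit 18719581515) (nat_lit 149) (nat_lit 5) (nat_lit 152) (nat_lit 5) (nat_lit 153) (nat_lit 5) (nat_lit 521) (nat_lit 459) (nat_lit 220)) (XT.lf (nat_lit 0) (nat_lit 2941347877) (nat_lit 228) (nat_lit 61186295944) (nat_lit 304) (nat_lit 3250099428) (nat_lit 146) (nat_lit 5) (nat_lit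 149) (nat_lit 5) (nat_lit 150) (nat_lit 5) (nat_lit 522) (nat_lit 459) (nat_lit 219)))) (XT.nd (nat_lit 156) (nat_lit 228) (nat_lit 0) (XT.nd (nat_lit 78) (nat_lit 228) (nat_lit 0) (XT.lf (nat_lit 0) (nat_lit 12994605636) (nat_lit 304) (nat_lit 24037020965) (nat_lit 76) (nat_lit 31608727297) (nat_lit 145) (nat_lit 5) (nat_lit 149) (nat_lit 5) (nat_lit 146) (nat_lit 5) (nat_lit 523) (nat_lit 459) (nat_lit 218)) (XT.lf (nat_lit 0) (nat_lit 17889249626) (nat_lit 228) (nat_lit 11942815541) (nat_lit 304) (nat_lit 40102690262) (nat_lit 142) (nat_lit 5) (nat_lit 145) (nat_lit 5) (nat_lit 146) (nat_lit 5) (nat_lit 524) (nat_lit 459) (nat_lit 217))) (XT.nd (nat_lit 78) (nat_lit 228) (nat_lit 0) (XT.lf (nat_lit 0) (nat_lit 47552165038) (nat_lit 304) (nat_lit 9832668181) (nat_lit 76) (nat_lit 13871830342) (nat_lit 142) (nat_lit 5) (nat_lit 146) (nat_lit 5) (nat_lit 143) (nat_lit 5) (nat_lit 525) (nat_lit 459) (nat_lit 216))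 (XT.lf (nat_lit 0) (nat_lit 34193608536) (nat_lit 228) (nat_lit 32056014480) (nat_lit 304) (nat_lit 6355233316) (nat_lit 139) (nat_lit 5) (nat_lit 142) (nat_lit 5) (nat_lit 143) (nat_lit 5) (nat_lit 526) (nat_lit 459) (nat_lit 215))))) (XT.nd (nat_lit 312) (nat_lit 608) (nat_lit 0) (XT.nd (nat_lit 156) (nat_lit 228) (nat_lit 0) (XT.nd (nat_lit 78) (nat_lit 0) (nat_lit 0) (XT.lf (nat_lit 0) (nat_lit 5750313972) (nat_lit 228) (nat_lit 5693879457) (nat_lit 304) (nat_lit 62541349772) (nat_lit 135) (nat_lit 5) (nat_lit 138) (nat_lit 5) (nat_lit 139) (nat_lit 5) (nat_lit 527) (nat_lit 459) (nat_lit 214)) (XT.lf (nat_lit 0) (nat_lit 30246698174) (nat_lit 304) (nat_lit 23646894129) (nat_lit 76) (nat_lit 21494265852) (nat_lit 135) (nat_lit 5) (nat_lit 139) (nat_lit 5) (nat_lit 136) (nat_lit 5) (nat_lit 528) (nat_lit 459) (nat_lit 213))) (XT.nd (nat_lit 78) (nat_lit 0) (nat_lit 0) (XT.lf (nat_lit 0) (nat_lit 22663057106)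 (nat_lit 228) (nat_lit 27223313424) (nat_lit 304) (nat_lit 26937679299) (nat_lit 132) (nat_lit 5) (nat_lit 135) (nat_lit 5) (nat_lit 136) (nat_lit 5) (nat_lit 529) (nat_lit 459) (nat_lit 212)) (XT.lf (nat_lit 0) (nat_lit 70357633499) (nat_lit 304) (nat_lit 7455762321) (nat_lit 76) (nat_lit 482659461) (nat_lit 132) (nat_lit 5) (nat_lit 136) (nat_lit 5) (nat_lit 133) (nat_lit 5) (nat_lit 530) (nat_lit 459) (nat_lit 211)))) (XT.nd (nat_lit 156) (nat_lit 152) (nat_lit 0) (XT.nd (nat_lit 78) (nat_lit 228) (nat_lit 0) (XT.lf (nat_lit 0) (nat_lit 12074751138) (nat_lit 228) (nat_lit 38727807004) (nat_lit 76) (nat_lit 28986181817) (nat_lit 129) (nat_lit 5) (nat_lit 132) (nat_lit 5) (nat_lit 130) (nat_lit 5) (nat_lit 531) (nat_lit 459) (nat_lit 210)) (XT.lf (nat_lit 0) (nat_lit 9975479672) (nat_lit 228) (nat_lit 22724119825) (nat_lit 304) (nat_lit 48619122732) (nat_lit 126) (nat_lit 5) (nat_lit 129) (nat_lit 5) (nat_lit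 130) (nat_lit 5) (nat_lit 532) (nat_lit 459) (nat_lit 209))) (XT.nd (nat_lit 78) (nat_lit 152) (nat_lit 0) (XT.lf (nat_lit 0) (nat_lit 54396623505) (nat_lit 304) (nat_lit 22014422360) (nat_lit 76) (nat_lit 6469955234) (nat_lit 126) (nat_lit 5) (nat_lit 130) (nat_lit 5) (nat_lit 127) (nat_lit 5) (nat_lit 533) (nat_lit 459) (nat_lit 208)) (XT.lf (nat_lit 0) (nat_lit 29136014464) (nat_lit 152) (nat_lit 48112556847) (nat_lit 228) (nat_lit 7226456668) (nat_lit 124) (nat_lit 5) (nat_lit 126) (nat_lit 5) (nat_lit 127) (nat_lit 5) (nat_lit 534) (nat_lit 459) (nat_lit 207)))))) (XT.nd (nat_lit 624) (nat_lit 380) (nat_lit 0) (XT.nd (nat_lit 312) (nat_lit 684) (nat_lit 0) (XT.nd (nat_lit 156) (nat_lit 152) (nat_lit 0) (XT.nd (nat_lit 78) (nat_lit 228) (nat_lit 0) (XT.lf (nat_lit 0) (nat_lit 14606408162) (nat_lit 228) (nat_lit 3982986954) (nat_lit 76) (nat_lit 67516546644) (nat_lit 123) (nat_lit 5) (nat_lit 126) (nat_lit 5)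 (nat_lit 124) (nat_lit 5) (nat_lit 535) (nat_lit 459) (nat_lit 206)) (XT.lf (nat_lit 0) (nat_lit 37545882250) (nat_lit 304) (nat_lit 38075924739) (nat_lit 76) (nat_lit 12143923492) (nat_lit 120) (nat_lit 5) (nat_lit 124) (nat_lit 5) (nat_lit 121) (nat_lit 5) (nat_lit 536) (nat_lit 459) (nat_lit 205))) (XT.nd (nat_lit 78) (nat_lit 0) (nat_lit 0) (XT.lf (nat_lit 0) (nat_lit 15700482918) (nat_lit 152) (nat_lit 45847640421) (nat_lit 228) (nat_lit 27915952071) (nat_lit 118) (nat_lit 5) (nat_lit 120) (nat_lit 5) (nat_lit 121) (nat_lit 5) (nat_lit 537) (nat_lit 459) (nat_lit 204)) (XT.lf (nat_lit 0) (nat_lit 71868957493) (nat_lit 152) (nat_lit 14784967188) (nat_lit 228) (nat_lit 4547941247) (nat_lit 118) (nat_lit 5) (nat_lit 120) (nat_lit 5) (nat_lit 121) (nat_lit 5) (nat_lit 538) (nat_lit 459) (nat_lit 203)))) (XT.nd (nat_lit 156) (nat_lit 228) (nat_lit 0) (XT.nd (nat_lit 78) (nat_lit 152) (nat_lit 0) (XT.lf (nat_lit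 0) (nat_lit 19668278358) (nat_lit 304) (nat_lit 55877691278) (nat_lit 76) (nat_lit 17424348221) (nat_lit 114) (nat_lit 5) (nat_lit 118) (nat_lit 5) (nat_lit 115) (nat_lit 5) (nat_lit 539) (nat_lit 459) (nat_lit 202)) (XT.lf (nat_lit 0) (nat_lit 638663061) (nat_lit 152) (nat_lit 44229620320) (nat_lit 228) (nat_lit 49911727881) (nat_lit 112) (nat_lit 5) (nat_lit 114) (nat_lit 5) (nat_lit 115) (nat_lit 5) (nat_lit 540) (nat_lit 459) (nat_lit 201))) (XT.nd (nat_lit 78) (nat_lit 228) (nat_lit 0) (XT.lf (nat_lit 0) (nat_lit 59994244358) (nat_lit 152) (nat_lit 11393336869) (nat_lit 228) (nat_lit 25239515488) (nat_lit 112) (nat_lit 5) (nat_lit 114) (nat_lit 5) (nat_lit 115) (nat_lit 5) (nat_lit 541) (nat_lit 459) (nat_lit 200)) (XT.lf (nat_lit 0) (nat_lit 607886131) (nat_lit 228) (nat_lit 75693420092) (nat_lit 76) (nat_lit 22215086805) (nat_lit 109) (nat_lit 5) (nat_lit 112) (nat_lit 5) (nat_lit 110) (nat_lit 5) (nat_lit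 542) (nat_lit 459) (nat_lit 199))))) (XT.nd (nat_lit 56004) (nat_lit 0) (nat_lit 15580) (XT.nd (nat_lit 156) (nat_lit 228) (nat_lit 0) (XT.nd (nat_lit 78) (nat_lit 152) (nat_lit 0) (XT.lf (nat_lit 0) (nat_lit 27208869346) (nat_lit 228) (nat_lit 16005899639) (nat_lit 76) (nat_lit 57225538920) (nat_lit 109) (nat_lit 5) (nat_lit 112) (nat_lit 5) (nat_lit 110) (nat_lit 5) (nat_lit 543) (nat_lit 459) (nat_lit 198)) (XT.lf (nat_lit 0) (nat_lit 46375574244) (nat_lit 152) (nat_lit 8677186501) (nat_lit 228) (nat_lit 47355833147) (nat_lit 107) (nat_lit 5) (nat_lit 109) (nat_lit 5) (nat_lit 110) (nat_lit 5) (nat_lit 544) (nat_lit 459) (nat_lit 197))) (XT.nd (nat_lit 78) (nat_lit 76) (nat_lit 0) (XT.lf (nat_lit 0) (nat_lit 6388401647) (nat_lit 152) (nat_lit 77825843327) (nat_lit 228) (nat_lit 20207215225) (nat_lit 105) (nat_lit 5) (nat_lit 107) (nat_lit 5) (nat_lit 108) (nat_lit 5) (nat_lit 545) (nat_lit 459) (nat_lit 196))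 (XT.lf (nat_lit 0) (nat_lit 8260949578) (nat_lit 228) (nat_lit 34814352269) (nat_lit 76) (nat_lit 63397481057) (nat_lit 104) (nat_lit 5) (nat_lit 107) (nat_lit 5) (nat_lit 105) (nat_lit 5) (nat_lit 546) (nat_lit 459) (nat_lit 195)))) (XT.nd (nat_lit 156) (nat_lit 0) (nat_lit 76) (XT.nd (nat_lit 78) (nat_lit 0) (nat_lit 0) (XT.lf (nat_lit 0) (nat_lit 5198838246) (nat_lit 1292) (nat_lit 3401162920) (nat_lit 1292) (nat_lit 3401162920) (nat_lit 309) (nat_lit 3) (nat_lit 326) (nat_lit 3) (nat_lit 326) (nat_lit 5) (nat_lit 460) (nat_lit 460) (nat_lit 280)) (XT.lf (nat_lit 76) (nat_lit 5204109533) (nat_lit 0) (nat_lit 5513228050) (nat_lit 1292) (nat_lit 13640104122) (nat_lit 310) (nat_lit 5) (nat_lit 309) (nat_lit 3) (nat_lit 326) (nat_lit 5) (nat_lit 461) (nat_lit 460) (nat_lit 279))) (XT.nd (nat_lit 78) (nat_lit 0) (nat_lit 0) (XT.lf (nat_lit 0) (nat_lit 11174234679) (nat_lit 1216) (nat_lit 7076848152) (nat_lit 1292)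 (nat_lit 6468296836) (nat_lit 310) (nat_lit 5) (nat_lit 326) (nat_lit 5) (nat_lit 327) (nat_lit 5) (nat_lit 462) (nat_lit 460) (nat_lit 278)) (XT.lf (nat_lit 76) (nat_lit 5410509906) (nat_lit 0) (nat_lit 6336615398) (nat_lit 1292) (nat_lit 13341982263) (nat_lit 311) (nat_lit 5) (nat_lit 310) (nat_lit 5) (nat_lit 327) (nat_lit 5) (nat_lit 463) (nat_lit 460) (nat_lit 277))))))) (XT.nd (nat_lit 1170) (nat_lit 4484) (nat_lit 0) (XT.nd (nat_lit 546) (nat_lit 1672) (nat_lit 0) (XT.nd (nat_lit 234) (nat_lit 0) (nat_lit 76) (XT.nd (nat_lit 78) (nat_lit 0) (nat_lit 0) (XT.lf (nat_lit 0) (nat_lit 12462237166) (nat_lit 1216) (nat_lit 7110520425) (nat_lit 1292) (nat_lit 5893419065) (nat_lit 311) (nat_lit 5) (nat_lit 327) (nat_lit 5) (nat_lit 328) (nat_lit 5) (nat_lit 464) (nat_lit 460) (nat_lit 276)) (XT.nd (nat_lit 78) (nat_lit 0) (nat_lit 76) (XT.lf (nat_lit 76) (nat_lit 5884223537) (nat_lit 0) (nat_lit 7429813455) (nat_lit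 1292) (nat_lit 12537064163) (nat_lit 312) (nat_lit 5) (nat_lit 311) (nat_lit 5) (nat_lit 328) (nat_lit 5) (nat_lit 465) (nat_lit 460) (nat_lit 275)) (XT.lf (nat_lit 0) (nat_lit 14308754204) (nat_lit 1216) (nat_lit 6882938379) (nat_lit 1292) (nat_lit 5052360269) (nat_lit 312) (nat_lit 5) (nat_lit 328) (nat_lit 5) (nat_lit 329) (nat_lit 5) (nat_lit 466) (nat_lit 460) (nat_lit 274)))) (XT.nd (nat_lit 156) (nat_lit 0) (nat_lit 76) (XT.nd (nat_lit 78) (nat_lit 0) (nat_lit 76) (XT.lf (nat_lit 76) (nat_lit 6647172234) (nat_lit 0) (nat_lit 8819758053) (nat_lit 1292) (nat_lit 11177854645) (nat_lit 313) (nat_lit 5) (nat_lit 312) (nat_lit 5) (nat_lit 329) (nat_lit 5) (nat_lit 467) (nat_lit 460) (nat_lit 273)) (XT.lf (nat_lit 0) (nat_lit 16764016139) (nat_lit 1216) (nat_lit 6372171248) (nat_lit 1292) (nat_lit 3918226996) (nat_lit 313) (nat_lit 5) (nat_lit 329) (nat_lit 5) (nat_lit 330) (nat_lit 5) (nat_lit 468) (nat_lit 460)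 (nat_lit 272))) (XT.nd (nat_lit 78) (nat_lit 0) (nat_lit 76) (XT.lf (nat_lit 76) (nat_lit 7722890713) (nat_lit 0) (nat_lit 10535052964) (nat_lit 1292) (nat_lit 9213651503) (nat_lit 314) (nat_lit 5) (nat_lit 313) (nat_lit 5) (nat_lit 330) (nat_lit 5) (nat_lit 469) (nat_lit 460) (nat_lit 271)) (XT.lf (nat_lit 0) (nat_lit 19881626487) (nat_lit 1216) (nat_lit 5554676727) (nat_lit 1292) (nat_lit 2462440387) (nat_lit 314) (nat_lit 5) (nat_lit 330) (nat_lit 5) (nat_lit 331) (nat_lit 5) (nat_lit 470) (nat_lit 460) (nat_lit 270))))) (XT.nd (nat_lit 312) (nat_lit 1900) (nat_lit 0) (XT.nd (nat_lit 156) (nat_lit 0) (nat_lit 76) (XT.nd (nat_lit 78) (nat_lit 0) (nat_lit 76) (XT.lf (nat_lit 76) (nat_lit 9136616679) (nat_lit 0) (nat_lit 12606100005) (nat_lit 1292) (nat_lit 6590329196) (nat_lit 315) (nat_lit 5) (nat_lit 314) (nat_lit 5) (nat_lit 331) (nat_lit 5) (nat_lit 471) (nat_lit 460) (nat_lit 269)) (XT.lf (nat_lit 0) (nat_lit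 23718787313) (nat_lit 1216) (nat_lit 4405210168) (nat_lit 1292) (nat_lit 654605622) (nat_lit 315) (nat_lit 5) (nat_lit 331) (nat_lit 5) (nat_lit 332) (nat_lit 5) (nat_lit 472) (nat_lit 460) (nat_lit 268))) (XT.nd (nat_lit 78) (nat_lit 0) (nat_lit 0) (XT.lf (nat_lit 76) (nat_lit 10915386938) (nat_lit 0) (nat_lit 15065235884) (nat_lit 1292) (nat_lit 3250110033) (nat_lit 316) (nat_lit 5) (nat_lit 315) (nat_lit 5) (nat_lit 332) (nat_lit 5) (nat_lit 473) (nat_lit 460) (nat_lit 267)) (XT.lf (nat_lit 76) (nat_lit 26783385251) (nat_lit 0) (nat_lit 1568227252) (nat_lit 1292) (nat_lit 1343575313) (nat_lit 316) (nat_lit 5) (nat_lit 315) (nat_lit 5) (nat_lit 332) (nat_lit 5) (nat_lit 474) (nat_lit 460) (nat_lit 266)))) (XT.nd (nat_lit 156) (nat_lit 760) (nat_lit 0) (XT.nd (nat_lit 78) (nat_lit 0) (nat_lit 0) (XT.lf (nat_lit 0) (nat_lit 851726951) (nat_lit 1292) (nat_lit 17086548673) (nat_lit 1368) (nat_lit 12227812044) (nat_lit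 299) (nat_lit 5) (nat_lit 316) (nat_lit 5) (nat_lit 317) (nat_lit 5) (nat_lit 475) (nat_lit 460) (nat_lit 265)) (XT.lf (nat_lit 0) (nat_lit 3128054954) (nat_lit 1292) (nat_lit 1071624461) (nat_lit 1368) (nat_lit 26449771145) (nat_lit 299) (nat_lit 5) (nat_lit 316) (nat_lit 5) (nat_lit 317) (nat_lit 5) (nat_lit 476) (nat_lit 460) (nat_lit 264))) (XT.nd (nat_lit 78) (nat_lit 836) (nat_lit 0) (XT.lf (nat_lit 0) (nat_lit 5718056983) (nat_lit 1292) (nat_lit 15511870398) (nat_lit 76) (nat_lit 9910025688) (nat_lit 300) (nat_lit 5) (nat_lit 317) (nat_lit 5) (nat_lit 301) (nat_lit 5) (nat_lit 477) (nat_lit 460) (nat_lit 263)) (XT.lf (nat_lit 0) (nat_lit 1184760478) (nat_lit 836) (nat_lit 7262001520) (nat_lit 912) (nat_lit 23196578815) (nat_lit 289) (nat_lit 5) (nat_lit 300) (nat_lit 5) (nat_lit 301) (nat_lit 5) (nat_lit 478) (nat_lit 460) (nat_lit 262)))))) (XT.nd (nat_lit 624) (nat_lit 2052) (nat_lit 0) (XT.nd (nat_lit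 312) (nat_lit 1216) (nat_lit 0) (XT.nd (nat_lit 156) (nat_lit 608) (nat_lit 0) (XT.nd (nat_lit 78) (nat_lit 608) (nat_lit 0) (XT.lf (nat_lit 0) (nat_lit 11481175479) (nat_lit 912) (nat_lit 13529538411) (nat_lit 76) (nat_lit 7144401122) (nat_lit 289) (nat_lit 5) (nat_lit 301) (nat_lit 5) (nat_lit 290) (nat_lit 5) (nat_lit 479) (nat_lit 460) (nat_lit 261)) (XT.lf (nat_lit 0) (nat_lit 3909197611) (nat_lit 608) (nat_lit 10804152315) (nat_lit 684) (nat_lit 17965690888) (nat_lit 281) (nat_lit 5) (nat_lit 289) (nat_lit 5) (nat_lit 290) (nat_lit 5) (nat_lit 480) (nat_lit 460) (nat_lit 260))) (XT.nd (nat_lit 78) (nat_lit 608) (nat_lit 0) (XT.lf (nat_lit 0) (nat_lit 18214574260) (nat_lit 684) (nat_lit 11106919539) (nat_lit 76) (nat_lit 3892028279) (nat_lit 281) (nat_lit 5) (nat_lit 290) (nat_lit 5) (nat_lit 282) (nat_lit 5) (nat_lit 481) (nat_lit 460) (nat_lit 259)) (XT.lf (nat_lit 0) (nat_lit 7115223675) (nat_lit 608) (nat_lit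 14878365012) (nat_lit 684) (nat_lit 11765266713) (nat_lit 273) (nat_lit 5) (nat_lit 281) (nat_lit 5) (nat_lit 282) (nat_lit 5) (nat_lit 482) (nat_lit 460) (nat_lit 258)))) (XT.nd (nat_lit 156) (nat_lit 684) (nat_lit 0) (XT.nd (nat_lit 78) (nat_lit 532) (nat_lit 0) (XT.lf (nat_lit 0) (nat_lit 25996661562) (nat_lit 684) (nat_lit 8209156268) (nat_lit 76) (nat_lit 111410464) (nat_lit 273) (nat_lit 5) (nat_lit 282) (nat_lit 5) (nat_lit 274) (nat_lit 5) (nat_lit 483) (nat_lit 460) (nat_lit 257)) (XT.lf (nat_lit 0) (nat_lit 10840054291) (nat_lit 532) (nat_lit 19528796828) (nat_lit 608) (nat_lit 4516030729) (nat_lit 266) (nat_lit 5) (nat_lit 273) (nat_lit 5) (nat_lit 274) (nat_lit 5) (nat_lit 484) (nat_lit 460) (nat_lit 256))) (XT.nd (nat_lit 78) (nat_lit 684) (nat_lit 0) (XT.lf (nat_lit 0) (nat_lit 30626528382) (nat_lit 532) (nat_lit 4326135568) (nat_lit 608) (nat_lit 514487534) (nat_lit 266) (nat_lit 5) (nat_lit 273)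 (nat_lit 5) (nat_lit 274) (nat_lit 5) (nat_lit 485) (nat_lit 460) (nat_lit 255)) (XT.lf (nat_lit 0) (nat_lit 3791151675) (nat_lit 684) (nat_lit 20973106429) (nat_lit 76) (nat_lit 11293957966) (nat_lit 257) (nat_lit 5) (nat_lit 266) (nat_lit 5) (nat_lit 258) (nat_lit 5) (nat_lit 486) (nat_lit 460) (nat_lit 254))))) (XT.nd (nat_lit 312) (nat_lit 988) (nat_lit 0) (XT.nd (nat_lit 156) (nat_lit 532) (nat_lit 0) (XT.nd (nat_lit 78) (nat_lit 532) (nat_lit 0) (XT.lf (nat_lit 0) (nat_lit 8305470990) (nat_lit 684) (nat_lit 1008627738) (nat_lit 76) (nat_lit 27350065684) (nat_lit 257) (nat_lit 5) (nat_lit 266) (nat_lit 5) (nat_lit 258) (nat_lit 5) (nat_lit 487) (nat_lit 460) (nat_lit 253)) (XT.lf (nat_lit 0) (nat_lit 13209967125) (nat_lit 608) (nat_lit 17406468966) (nat_lit 76) (nat_lit 6664212876) (nat_lit 250) (nat_lit 5) (nat_lit 258) (nat_lit 5) (nat_lit 251) (nat_lit 5) (nat_lit 488) (nat_lit 460) (nat_lit 252))) (XT.nd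 (nat_lit 78) (nat_lit 0) (nat_lit 0) (XT.lf (nat_lit 0) (nat_lit 3461572052) (nat_lit 532) (nat_lit 14933569182) (nat_lit 608) (nat_lit 19516480706) (nat_lit 243) (nat_lit 5) (nat_lit 250) (nat_lit 5) (nat_lit 251) (nat_lit 5) (nat_lit 489) (nat_lit 460) (nat_lit 251)) (XT.lf (nat_lit 0) (nat_lit 23922909929) (nat_lit 608) (nat_lit 13259767296) (nat_lit 76) (nat_lit 1373235865) (nat_lit 243) (nat_lit 5) (nat_lit 251) (nat_lit 5) (nat_lit 244) (nat_lit 5) (nat_lit 490) (nat_lit 460) (nat_lit 250)))) (XT.nd (nat_lit 156) (nat_lit 532) (nat_lit 0) (XT.nd (nat_lit 78) (nat_lit 0) (nat_lit 0) (XT.lf (nat_lit 0) (nat_lit 8583412802) (nat_lit 456) (nat_lit 21261331559) (nat_lit 532) (nat_lit 9367941796) (nat_lit 237) (nat_lit 5) (nat_lit 243) (nat_lit 5) (nat_lit 244) (nat_lit 5) (nat_lit 491) (nat_lit 460) (nat_lit 249)) (XT.lf (nat_lit 0) (nat_lit 31351277376) (nat_lit 456) (nat_lit 4724759491) (nat_lit 532) (nat_lit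 3809171619) (nat_lit 237) (nat_lit 5) (nat_lit 243) (nat_lit 5) (nat_lit 244) (nat_lit 5) (nat_lit 492) (nat_lit 460) (nat_lit 248))) (XT.nd (nat_lit 78) (nat_lit 0) (nat_lit 0) (XT.lf (nat_lit 0) (nat_lit 2136031218) (nat_lit 532) (nat_lit 26206973929) (nat_lit 76) (nat_lit 12226636910) (nat_lit 230) (nat_lit 5) (nat_lit 237) (nat_lit 5) (nat_lit 231) (nat_lit 5) (nat_lit 493) (nat_lit 460) (nat_lit 247)) (XT.lf (nat_lit 0) (nat_lit 8314818313) (nat_lit 532) (nat_lit 3238695779) (nat_lit 76) (nat_lit 29716009589) (nat_lit 230) (nat_lit 5) (nat_lit 237) (nat_lit 5) (nat_lit 231) (nat_lit 5) (nat_lit 494) (nat_lit 460) (nat_lit 246))))))))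
noncomputable def xc213 : XT := (XT.nd (nat_lit 2418) (nat_lit 2812) (nat_lit 0) (XT.nd (nat_lit 1170) (nat_lit 3040) (nat_lit 0) (XT.nd (nat_lit 546) (nat_lit 1824) (nat_lit 0) (XT.nd (nat_lit 234) (nat_lit 912) (nat_lit 0) (XT.nd (nat_lit 78) (nat_lit 456) (nat_lit 0) (XT.lf (nat_lit 0) (nat_lit 14934318284) (nat_lit 532) (nat_lit 21219009166) (nat_lit 76) (nat_lit 5829413969) (nat_lit 224) (nat_lit 5) (nat_lit 231) (nat_lit 5) (nat_lit 225) (nat_lit 5) (nat_lit 495) (nat_lit 460) (nat_lit 245)) (XT.nd (nat_lit 78) (nat_lit 0) (nat_lit 0) (XT.lf (nat_lit 0) (nat_lit 2773262345) (nat_lit 456) (nat_lit 19151288094) (nat_lit 532) (nat_lit 20787640969) (nat_lit 218) (nat_lit 5) (nat_lit 224) (nat_lit 5) (nat_lit 225) (nat_lit 5) (nat_lit 496) (nat_lit 460) (nat_lit 244)) (XT.lf (nat_lit 0) (nat_lit 27917906678) (nat_lit 456) (nat_lit 1418956156) (nat_lit 532) (nat_lit 14120291000) (nat_lit 218) (nat_lit 5) (nat_lit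 224) (nat_lit 5) (nat_lit 225) (nat_lit 5) (nat_lit 497) (nat_lit 460) (nat_lit 243)))) (XT.nd (nat_lit 156) (nat_lit 456) (nat_lit 0) (XT.nd (nat_lit 78) (nat_lit 76) (nat_lit 0) (XT.lf (nat_lit 0) (nat_lit 9615789756) (nat_lit 380) (nat_lit 27608269251) (nat_lit 456) (nat_lit 6992830824) (nat_lit 213) (nat_lit 5) (nat_lit 218) (nat_lit 5) (nat_lit 219) (nat_lit 5) (nat_lit 498) (nat_lit 460) (nat_lit 242)) (XT.lf (nat_lit 0) (nat_lit 512339332) (nat_lit 456) (nat_lit 9172005531) (nat_lit 76) (nat_lit 35309852107) (nat_lit 212) (nat_lit 5) (nat_lit 218) (nat_lit 5) (nat_lit 213) (nat_lit 5) (nat_lit 499) (nat_lit 460) (nat_lit 241))) (XT.nd (nat_lit 78) (nat_lit 0) (nat_lit 0) (XT.lf (nat_lit 0) (nat_lit 8353195753) (nat_lit 532) (nat_lit 28588771661) (nat_lit 76) (nat_lit 8843246545) (nat_lit 206) (nat_lit 5) (nat_lit 213) (nat_lit 5) (nat_lit 207) (nat_lit 5) (nat_lit 500) (nat_lit 460) (nat_lit 240)) (XT.lf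 (nat_lit 0) (nat_lit 16616944308) (nat_lit 532) (nat_lit 2152340199) (nat_lit 76) (nat_lit 27825047073) (nat_lit 206) (nat_lit 5) (nat_lit 213) (nat_lit 5) (nat_lit 207) (nat_lit 5) (nat_lit 501) (nat_lit 460) (nat_lit 239))))) (XT.nd (nat_lit 312) (nat_lit 684) (nat_lit 0) (XT.nd (nat_lit 156) (nat_lit 380) (nat_lit 0) (XT.nd (nat_lit 78) (nat_lit 380) (nat_lit 0) (XT.lf (nat_lit 0) (nat_lit 25374669116) (nat_lit 456) (nat_lit 21848357739) (nat_lit 76) (nat_lit 197314072) (nat_lit 201) (nat_lit 5) (nat_lit 207) (nat_lit 5) (nat_lit 202) (nat_lit 5) (nat_lit 502) (nat_lit 460) (nat_lit 238)) (XT.lf (nat_lit 0) (nat_lit 5827064012) (nat_lit 380) (nat_lit 28830178616) (nat_lit 456) (nat_lit 13606024527) (nat_lit 196) (nat_lit 5) (nat_lit 201) (nat_lit 5) (nat_lit 202) (nat_lit 5) (nat_lit 503) (nat_lit 460) (nat_lit 237))) (XT.nd (nat_lit 78) (nat_lit 380) (nat_lit 0) (XT.lf (nat_lit 0) (nat_lit 34778368680) (nat_lit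 380) (nat_lit 9658897106) (nat_lit 456) (nat_lit 4687646314) (nat_lit 196) (nat_lit 5) (nat_lit 201) (nat_lit 5) (nat_lit 202) (nat_lit 5) (nat_lit 504) (nat_lit 460) (nat_lit 236)) (XT.lf (nat_lit 0) (nat_lit 4650238256) (nat_lit 380) (nat_lit 35275951770) (nat_lit 76) (nat_lit 10077727279) (nat_lit 191) (nat_lit 5) (nat_lit 196) (nat_lit 5) (nat_lit 192) (nat_lit 5) (nat_lit 505) (nat_lit 460) (nat_lit 235)))) (XT.nd (nat_lit 156) (nat_lit 304) (nat_lit 0) (XT.nd (nat_lit 78) (nat_lit 380) (nat_lit 0) (XT.lf (nat_lit 0) (nat_lit 14414380667) (nat_lit 380) (nat_lit 6081862963) (nat_lit 76) (nat_lit 30404446612) (nat_lit 191) (nat_lit 5) (nat_lit 196) (nat_lit 5) (nat_lit 192) (nat_lit 5) (nat_lit 506) (nat_lit 460) (nat_lit 234)) (XT.lf (nat_lit 0) (nat_lit 24463242710) (nat_lit 380) (nat_lit 241806291) (nat_lit 456) (nat_lit 27112309410) (nat_lit 186) (nat_lit 5) (nat_lit 191) (nat_lit 5) (nat_lit 192) (nat_lit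 5) (nat_lit 507) (nat_lit 460) (nat_lit 233))) (XT.nd (nat_lit 78) (nat_lit 0) (nat_lit 0) (XT.lf (nat_lit 0) (nat_lit 3150147170) (nat_lit 304) (nat_lit 32443273525) (nat_lit 380) (nat_lit 17159436521) (nat_lit 182) (nat_lit 5) (nat_lit 186) (nat_lit 5) (nat_lit 187) (nat_lit 5) (nat_lit 508) (nat_lit 460) (nat_lit 232)) (XT.lf (nat_lit 0) (nat_lit 35125659701) (nat_lit 304) (nat_lit 11959865909) (nat_lit 380) (nat_lit 6622583002) (nat_lit 182) (nat_lit 5) (nat_lit 186) (nat_lit 5) (nat_lit 187) (nat_lit 5) (nat_lit 509) (nat_lit 460) (nat_lit 231)))))) (XT.nd (nat_lit 624) (nat_lit 1368) (nat_lit 0) (XT.nd (nat_lit 312) (nat_lit 684) (nat_lit 0) (XT.nd (nat_lit 156) (nat_lit 608) (nat_lit 0) (XT.nd (nat_lit 78) (nat_lit 0) (nat_lit 0) (XT.lf (nat_lit 0) (nat_lit 4366517783) (nat_lit 380) (nat_lit 41185627521) (nat_lit 76) (nat_lit 9132091633) (nat_lit 177) (nat_lit 5) (nat_lit 182) (nat_lit 5) (nat_lit 178) (nat_lit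 5) (nat_lit 510) (nat_lit 460) (nat_lit 230)) (XT.lf (nat_lit 0) (nat_lit 15858637369) (nat_lit 380) (nat_lit 8948992813) (nat_lit 76) (nat_lit 30870858313) (nat_lit 177) (nat_lit 5) (nat_lit 182) (nat_lit 5) (nat_lit 178) (nat_lit 5) (nat_lit 511) (nat_lit 460) (nat_lit 229))) (XT.nd (nat_lit 78) (nat_lit 304) (nat_lit 0) (XT.lf (nat_lit 0) (nat_lit 24735326894) (nat_lit 304) (nat_lit 3196541868) (nat_lit 380) (nat_lit 28763608470) (nat_lit 173) (nat_lit 5) (nat_lit 177) (nat_lit 5) (nat_lit 178) (nat_lit 5) (nat_lit 512) (nat_lit 460) (nat_lit 228)) (XT.lf (nat_lit 0) (nat_lit 1720690675) (nat_lit 304) (nat_lit 38936245083) (nat_lit 380) (nat_lit 17077350790) (nat_lit 169) (nat_lit 5) (nat_lit 173) (nat_lit 5) (nat_lit 174) (nat_lit 5) (nat_lit 513) (nat_lit 460) (nat_lit 227)))) (XT.nd (nat_lit 156) (nat_lit 304) (nat_lit 0) (XT.nd (nat_lit 78) (nat_lit 380) (nat_lit 0) (XT.lf (nat_lit 0) (nat_lit 37032745920)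 (nat_lit 304) (nat_lit 17083695576) (nat_lit 380) (nat_lit 4677238118) (nat_lit 169) (nat_lit 5) (nat_lit 173) (nat_lit 5) (nat_lit 174) (nat_lit 5) (nat_lit 514) (nat_lit 460) (nat_lit 226)) (XT.lf (nat_lit 0) (nat_lit 8121528476) (nat_lit 380) (nat_lit 46225903087) (nat_lit 76) (nat_lit 5529550269) (nat_lit 164) (nat_lit 5) (nat_lit 169) (nat_lit 5) (nat_lit 165) (nat_lit 5) (nat_lit 515) (nat_lit 460) (nat_lit 225))) (XT.nd (nat_lit 78) (nat_lit 304) (nat_lit 0) (XT.lf (nat_lit 0) (nat_lit 21599967823) (nat_lit 380) (nat_lit 10634355823) (nat_lit 76) (nat_lit 28745378730) (nat_lit 164) (nat_lit 5) (nat_lit 169) (nat_lit 5) (nat_lit 165) (nat_lit 5) (nat_lit 516) (nat_lit 460) (nat_lit 224)) (XT.lf (nat_lit 0) (nat_lit 26540841490) (nat_lit 304) (nat_lit 9195738556) (nat_lit 380) (nat_lit 26371309967) (nat_lit 160) (nat_lit 5) (nat_lit 164) (nat_lit 5) (nat_lit 165) (nat_lit 5) (nat_lit 517) (nat_lit 460) (nat_lit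 223))))) (XT.nd (nat_lit 312) (nat_lit 760) (nat_lit 0) (XT.nd (nat_lit 156) (nat_lit 304) (nat_lit 0) (XT.nd (nat_lit 78) (nat_lit 76) (nat_lit 0) (XT.lf (nat_lit 0) (nat_lit 1672432967) (nat_lit 228) (nat_lit 48887798425) (nat_lit 304) (nat_lit 12701803727) (nat_lit 157) (nat_lit 5) (nat_lit 160) (nat_lit 5) (nat_lit 161) (nat_lit 5) (nat_lit 518) (nat_lit 460) (nat_lit 222)) (XT.lf (nat_lit 0) (nat_lit 1803373503) (nat_lit 304) (nat_lit 23791710497) (nat_lit 76) (nat_lit 38841749172) (nat_lit 156) (nat_lit 5) (nat_lit 160) (nat_lit 5) (nat_lit 157) (nat_lit 5) (nat_lit 519) (nat_lit 460) (nat_lit 221))) (XT.nd (nat_lit 78) (nat_lit 0) (nat_lit 0) (XT.lf (nat_lit 0) (nat_lit 15311170352) (nat_lit 304) (nat_lit 1323170921) (nat_lit 380) (nat_lit 49004383272) (nat_lit 152) (nat_lit 5) (nat_lit 156) (nat_lit 5) (nat_lit 157) (nat_lit 5) (nat_lit 520) (nat_lit 460) (nat_lit 220)) (XT.lf (nat_lit 0) (nat_lit 32379222755)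 (nat_lit 380) (nat_lit 11026570551) (nat_lit 76) (nat_lit 23456809868) (nat_lit 152) (nat_lit 5) (nat_lit 157) (nat_lit 5) (nat_lit 153) (nat_lit 5) (nat_lit 521) (nat_lit 460) (nat_lit 219)))) (XT.nd (nat_lit 156) (nat_lit 304) (nat_lit 0) (XT.nd (nat_lit 78) (nat_lit 228) (nat_lit 0) (XT.lf (nat_lit 0) (nat_lit 30024307586) (nat_lit 228) (nat_lit 18872651442) (nat_lit 304) (nat_lit 19217223941) (nat_lit 149) (nat_lit 5) (nat_lit 152) (nat_lit 5) (nat_lit 153) (nat_lit 5) (nat_lit 522) (nat_lit 460) (nat_lit 218)) (XT.lf (nat_lit 0) (nat_lit 3129324467) (nat_lit 228) (nat_lit 62983725650) (nat_lit 304) (nat_lit 3284175410) (nat_lit 146) (nat_lit 5) (nat_lit 149) (nat_lit 5) (nat_lit 150) (nat_lit 5) (nat_lit 523) (nat_lit 460) (nat_lit 217))) (XT.nd (nat_lit 78) (nat_lit 228) (nat_lit 0) (XT.lf (nat_lit 0) (nat_lit 13444821777) (nat_lit 304) (nat_lit 24660096183) (nat_lit 76) (nat_lit 32592832662) (nat_lit 145)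 (nat_lit 5) (nat_lit 149) (nat_lit 5) (nat_lit 146) (nat_lit 5) (nat_lit 524) (nat_lit 460) (nat_lit 216)) (XT.lf (nat_lit 0) (nat_lit 18523001395) (nat_lit 228) (nat_lit 12263578255) (nat_lit 304) (nat_lit 41244429387) (nat_lit 142) (nat_lit 5) (nat_lit 145) (nat_lit 5) (nat_lit 146) (nat_lit 5) (nat_lit 525) (nat_lit 460) (nat_lit 215))))))) (XT.nd (nat_lit 1248) (nat_lit 532) (nat_lit 0) (XT.nd (nat_lit 624) (nat_lit 1064) (nat_lit 0) (XT.nd (nat_lit 312) (nat_lit 684) (nat_lit 0) (XT.nd (nat_lit 156) (nat_lit 304) (nat_lit 0) (XT.nd (nat_lit 78) (nat_lit 228) (nat_lit 0) (XT.lf (nat_lit 0) (nat_lit 49036898154) (nat_lit 304) (nat_lit 10032014583) (nat_lit 76) (nat_lit 14323703279) (nat_lit 142) (nat_lit 5) (nat_lit 146) (nat_lit 5) (nat_lit 143) (nat_lit 5) (nat_lit 526) (nat_lit 460) (nat_lit 214)) (XT.lf (nat_lit 0) (nat_lit 35314112850) (nat_lit 228) (nat_lit 32980383078) (nat_lit 304) (nat_lit 6486782229)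 (nat_lit 139) (nat_lit 5) (nat_lit 142) (nat_lit 5) (nat_lit 143) (nat_lit 5) (nat_lit 527) (nat_lit 460) (nat_lit 213))) (XT.nd (nat_lit 78) (nat_lit 0) (nat_lit 0) (XT.lf (nat_lit 0) (nat_lit 6017735407) (nat_lit 228) (nat_lit 5826962852) (nat_lit 304) (nat_lit 64358693665) (nat_lit 135) (nat_lit 5) (nat_lit 138) (nat_lit 5) (nat_lit 139) (nat_lit 5) (nat_lit 528) (nat_lit 460) (nat_lit 212)) (XT.lf (nat_lit 0) (nat_lit 31209964886) (nat_lit 304) (nat_lit 24262837966) (nat_lit 76) (nat_lit 22175012937) (nat_lit 135) (nat_lit 5) (nat_lit 139) (nat_lit 5) (nat_lit 136) (nat_lit 5) (nat_lit 529) (nat_lit 460) (nat_lit 211)))) (XT.nd (nat_lit 156) (nat_lit 456) (nat_lit 0) (XT.nd (nat_lit 78) (nat_lit 0) (nat_lit 0) (XT.lf (nat_lit 0) (nat_lit 23435495503) (nat_lit 228) (nat_lit 28002594366) (nat_lit 304) (nat_lit 27689025532) (nat_lit 132) (nat_lit 5) (nat_lit 135) (nat_lit 5) (nat_lit 136) (nat_lit 5) (nat_lit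 530) (nat_lit 460) (nat_lit 210)) (XT.lf (nat_lit 0) (nat_lit 72522234264) (nat_lit 304) (nat_lit 7588325561) (nat_lit 76) (nat_lit 532758946) (nat_lit 132) (nat_lit 5) (nat_lit 136) (nat_lit 5) (nat_lit 133) (nat_lit 5) (nat_lit 531) (nat_lit 460) (nat_lit 209))) (XT.nd (nat_lit 78) (nat_lit 228) (nat_lit 0) (XT.lf (nat_lit 0) (nat_lit 12490691921) (nat_lit 228) (nat_lit 39798354217) (nat_lit 76) (nat_lit 29891743173) (nat_lit 129) (nat_lit 5) (nat_lit 132) (nat_lit 5) (nat_lit 130) (nat_lit 5) (nat_lit 532) (nat_lit 460) (nat_lit 208)) (XT.lf (nat_lit 0) (nat_lit 10365136089) (nat_lit 228) (nat_lit 23368454518) (nat_lit 304) (nat_lit 50023101350) (nat_lit 126) (nat_lit 5) (nat_lit 129) (nat_lit 5) (nat_lit 130) (nat_lit 5) (nat_lit 533) (nat_lit 460) (nat_lit 207))))) (XT.nd (nat_lit 312) (nat_lit 608) (nat_lit 0) (XT.nd (nat_lit 156) (nat_lit 304) (nat_lit 0) (XT.nd (nat_lit 78) (nat_lit 152) (nat_lit 0) (XT.lf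 (nat_lit 0) (nat_lit 56080330492) (nat_lit 304) (nat_lit 22585899147) (nat_lit 76) (nat_lit 6699645454) (nat_lit 126) (nat_lit 5) (nat_lit 130) (nat_lit 5) (nat_lit 127) (nat_lit 5) (nat_lit 534) (nat_lit 460) (nat_lit 206)) (XT.lf (nat_lit 0) (nat_lit 30098178666) (nat_lit 152) (nat_lit 49518995802) (nat_lit 228) (nat_lit 7390568231) (nat_lit 124) (nat_lit 5) (nat_lit 126) (nat_lit 5) (nat_lit 127) (nat_lit 5) (nat_lit 535) (nat_lit 460) (nat_lit 205))) (XT.nd (nat_lit 78) (nat_lit 228) (nat_lit 0) (XT.lf (nat_lit 0) (nat_lit 15094750037) (nat_lit 228) (nat_lit 4015958627) (nat_lit 76) (nat_lit 69576905222) (nat_lit 123) (nat_lit 5) (nat_lit 126) (nat_lit 5) (nat_lit 124) (nat_lit 5) (nat_lit 536) (nat_lit 460) (nat_lit 204)) (XT.lf (nat_lit 0) (nat_lit 38722118754) (nat_lit 304) (nat_lit 39131393360) (nat_lit 76) (nat_lit 12543692888) (nat_lit 120) (nat_lit 5) (nat_lit 124) (nat_lit 5) (nat_lit 121) (nat_lit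 5) (nat_lit 537) (nat_lit 460) (nat_lit 203)))) (XT.nd (nat_lit 156) (nat_lit 456) (nat_lit 0) (XT.nd (nat_lit 78) (nat_lit 0) (nat_lit 0) (XT.lf (nat_lit 0) (nat_lit 16257455456) (nat_lit 152) (nat_lit 47186345666) (nat_lit 228) (nat_lit 28702717982) (nat_lit 118) (nat_lit 5) (nat_lit 120) (nat_lit 5) (nat_lit 121) (nat_lit 5) (nat_lit 538) (nat_lit 460) (nat_lit 202)) (XT.lf (nat_lit 0) (nat_lit 74108480636) (nat_lit 152) (nat_lit 15192861867) (nat_lit 228) (nat_lit 4635143901) (nat_lit 118) (nat_lit 5) (nat_lit 120) (nat_lit 5) (nat_lit 121) (nat_lit 5) (nat_lit 539) (nat_lit 460) (nat_lit 201))) (XT.nd (nat_lit 78) (nat_lit 152) (nat_lit 0) (XT.lf (nat_lit 0) (nat_lit 20306344229) (nat_lit 304) (nat_lit 57469346665) (nat_lit 76) (nat_lit 17982294561) (nat_lit 114) (nat_lit 5) (nat_lit 118) (nat_lit 5) (nat_lit 115) (nat_lit 5) (nat_lit 540) (nat_lit 460) (nat_lit 200)) (XT.lf (nat_lit 0) (nat_lit 741668154)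 (nat_lit 152) (nat_lit 45520088651) (nat_lit 228) (nat_lit 51360230674) (nat_lit 112) (nat_lit 5) (nat_lit 114) (nat_lit 5) (nat_lit 115) (nat_lit 5) (nat_lit 541) (nat_lit 460) (nat_lit 199)))))) (XT.nd (nat_lit 56394) (nat_lit 0) (nat_lit 15580) (XT.nd (nat_lit 312) (nat_lit 152) (nat_lit 0) (XT.nd (nat_lit 156) (nat_lit 152) (nat_lit 0) (XT.nd (nat_lit 78) (nat_lit 228) (nat_lit 0) (XT.lf (nat_lit 0) (nat_lit 61875474797) (nat_lit 152) (nat_lit 11699777481) (nat_lit 228) (nat_lit 25949274697) (nat_lit 112) (nat_lit 5) (nat_lit 114) (nat_lit 5) (nat_lit 115) (nat_lit 5) (nat_lit 542) (nat_lit 460) (nat_lit 198)) (XT.lf (nat_lit 0) (nat_lit 672394906) (nat_lit 228) (nat_lit 77881662971) (nat_lit 76) (nat_lit 22916437519) (nat_lit 109) (nat_lit 5) (nat_lit 112) (nat_lit 5) (nat_lit 110) (nat_lit 5) (nat_lit 543) (nat_lit 460) (nat_lit 197))) (XT.nd (nat_lit 78) (nat_lit 152) (nat_lit 0) (XT.lf (nat_lit 0) (nat_lit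 28070059883) (nat_lit 228) (nat_lit 16405921557) (nat_lit 76) (nat_lit 58976186748) (nat_lit 109) (nat_lit 5) (nat_lit 112) (nat_lit 5) (nat_lit 110) (nat_lit 5) (nat_lit 544) (nat_lit 460) (nat_lit 196)) (XT.lf (nat_lit 0) (nat_lit 47846210708) (nat_lit 152) (nat_lit 8902511782) (nat_lit 228) (nat_lit 48730796666) (nat_lit 107) (nat_lit 5) (nat_lit 109) (nat_lit 5) (nat_lit 110) (nat_lit 5) (nat_lit 545) (nat_lit 460) (nat_lit 195)))) (XT.nd (nat_lit 55926) (nat_lit 0) (nat_lit 15504) (XT.nd (nat_lit 55848) (nat_lit 0) (nat_lit 15504) (XT.lf (nat_lit 0) (nat_lit 6659631241) (nat_lit 152) (nat_lit 80125218916) (nat_lit 228) (nat_lit 20767927364) (nat_lit 105) (nat_lit 5) (nat_lit 107) (nat_lit 5) (nat_lit 108) (nat_lit 5) (nat_lit 546) (nat_lit 460) (nat_lit 194)) (XT.lf (nat_lit 0) (nat_lit 5467381579) (nat_lit 1292) (nat_lit 3445214836) (nat_lit 1292) (nat_lit 3445214836) (nat_lit 309) (nat_lit 3) (nat_lit 326)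 (nat_lit 3) (nat_lit 326) (nat_lit 5) (nat_lit 461) (nat_lit 461) (nat_lit 278))) (XT.nd (nat_lit 78) (nat_lit 0) (nat_lit 76) (XT.lf (nat_lit 76) (nat_lit 5475061842) (nat_lit 0) (nat_lit 5783498094) (nat_lit 1292) (nat_lit 13822993735) (nat_lit 310) (nat_lit 5) (nat_lit 309) (nat_lit 3) (nat_lit 326) (nat_lit 5) (nat_lit 462) (nat_lit 461) (nat_lit 277)) (XT.lf (nat_lit 0) (nat_lit 11721786108) (nat_lit 1216) (nat_lit 7170271642) (nat_lit 1292) (nat_lit 6562513946) (nat_lit 310) (nat_lit 5) (nat_lit 326) (nat_lit 5) (nat_lit 327) (nat_lit 5) (nat_lit 463) (nat_lit 461) (nat_lit 276))))) (XT.nd (nat_lit 312) (nat_lit 0) (nat_lit 152) (XT.nd (nat_lit 156) (nat_lit 0) (nat_lit 76) (XT.nd (nat_lit 78) (nat_lit 0) (nat_lit 76) (XT.lf (nat_lit 76) (nat_lit 5690541649) (nat_lit 0) (nat_lit 6616269159) (nat_lit 1292) (nat_lit 13528732776) (nat_lit 311) (nat_lit 5) (nat_lit 310) (nat_lit 5) (nat_lit 327) (nat_lit 5) (nat_lit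 464) (nat_lit 461) (nat_lit 275)) (XT.lf (nat_lit 0) (nat_lit 13036503198) (nat_lit 1216) (nat_lit 7202656896) (nat_lit 1292) (nat_lit 5984971391) (nat_lit 311) (nat_lit 5) (nat_lit 327) (nat_lit 5) (nat_lit 328) (nat_lit 5) (nat_lit 465) (nat_lit 461) (nat_lit 274))) (XT.nd (nat_lit 78) (nat_lit 0) (nat_lit 76) (XT.lf (nat_lit 76) (nat_lit 6180741354) (nat_lit 0) (nat_lit 7728432232) (nat_lit 1292) (nat_lit 12711571176) (nat_lit 312) (nat_lit 5) (nat_lit 311) (nat_lit 5) (nat_lit 328) (nat_lit 5) (nat_lit 466) (nat_lit 461) (nat_lit 273)) (XT.lf (nat_lit 0) (nat_lit 14927325155) (nat_lit 1216) (nat_lit 6966505706) (nat_lit 1292) (nat_lit 5131846885) (nat_lit 312) (nat_lit 5) (nat_lit 328) (nat_lit 5) (nat_lit 329) (nat_lit 5) (nat_lit 467) (nat_lit 461) (nat_lit 272)))) (XT.nd (nat_lit 156) (nat_lit 0) (nat_lit 76) (XT.nd (nat_lit 78) (nat_lit 0) (nat_lit 76) (XT.lf (nat_lit 76) (nat_lit 6968303119) (nat_lit 0)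 (nat_lit 9147599573) (nat_lit 1292) (nat_lit 11322659921) (nat_lit 313) (nat_lit 5) (nat_lit 312) (nat_lit 5) (nat_lit 329) (nat_lit 5) (nat_lit 468) (nat_lit 461) (nat_lit 271)) (XT.lf (nat_lit 0) (nat_lit 17445923527) (nat_lit 1216) (nat_lit 6439171754) (nat_lit 1292) (nat_lit 3975565489) (nat_lit 313) (nat_lit 5) (nat_lit 329) (nat_lit 5) (nat_lit 330) (nat_lit 5) (nat_lit 469) (nat_lit 461) (nat_lit 270))) (XT.nd (nat_lit 78) (nat_lit 0) (nat_lit 76) (XT.lf (nat_lit 76) (nat_lit 8077524766) (nat_lit 0) (nat_lit 10903112759) (nat_lit 1292) (nat_lit 9309840884) (nat_lit 314) (nat_lit 5) (nat_lit 313) (nat_lit 5) (nat_lit 330) (nat_lit 5) (nat_lit 470) (nat_lit 461) (nat_lit 269)) (XT.lf (nat_lit 0) (nat_lit 20647449653) (nat_lit 1216) (nat_lit 5596354026) (nat_lit 1292) (nat_lit 2486805503) (nat_lit 314) (nat_lit 5) (nat_lit 330) (nat_lit 5) (nat_lit 331) (nat_lit 5) (nat_lit 471) (nat_lit 461) (nat_lit 268))))))))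
noncomputable def xc214 : XT := (XT.nd (nat_lit 2418) (nat_lit 5852) (nat_lit 0) (XT.nd (nat_lit 1170) (nat_lit 4560) (nat_lit 0) (XT.nd (nat_lit 546) (nat_lit 2508) (nat_lit 0) (XT.nd (nat_lit 234) (nat_lit 1140) (nat_lit 0) (XT.nd (nat_lit 78) (nat_lit 0) (nat_lit 76) (XT.lf (nat_lit 76) (nat_lit 9534453056) (nat_lit 0) (nat_lit 13026175711) (nat_lit 1292) (nat_lit 6617424529) (nat_lit 315) (nat_lit 5) (nat_lit 314) (nat_lit 5) (nat_lit 331) (nat_lit 5) (nat_lit 472) (nat_lit 461) (nat_lit 267)) (XT.nd (nat_lit 78) (nat_lit 0) (nat_lit 0) (XT.lf (nat_lit 0) (nat_lit 24590766353) (nat_lit 1216) (nat_lit 4412002846) (nat_lit 1292) (nat_lit 634364928) (nat_lit 315) (nat_lit 5) (nat_lit 331) (nat_lit 5) (nat_lit 332) (nat_lit 5) (nat_lit 473) (nat_lit 461) (nat_lit 266)) (XT.lf (nat_lit 76) (nat_lit 11366983118) (nat_lit 0) (nat_lit 15549994773) (nat_lit 1292) (nat_lit 3185954677) (nat_lit 316) (nat_lit 5) (nat_lit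 315) (nat_lit 5) (nat_lit 332) (nat_lit 5) (nat_lit 474) (nat_lit 461) (nat_lit 265)))) (XT.nd (nat_lit 156) (nat_lit 0) (nat_lit 0) (XT.nd (nat_lit 78) (nat_lit 1216) (nat_lit 0) (XT.lf (nat_lit 76) (nat_lit 27707405810) (nat_lit 0) (nat_lit 1647120489) (nat_lit 1292) (nat_lit 1226932421) (nat_lit 316) (nat_lit 5) (nat_lit 315) (nat_lit 5) (nat_lit 332) (nat_lit 5) (nat_lit 475) (nat_lit 461) (nat_lit 264)) (XT.lf (nat_lit 0) (nat_lit 1027589451) (nat_lit 1292) (nat_lit 17471960327) (nat_lit 1368) (nat_lit 12566998221) (nat_lit 299) (nat_lit 5) (nat_lit 316) (nat_lit 5) (nat_lit 317) (nat_lit 5) (nat_lit 476) (nat_lit 461) (nat_lit 263))) (XT.nd (nat_lit 78) (nat_lit 0) (nat_lit 76) (XT.lf (nat_lit 0) (nat_lit 3367829313) (nat_lit 1292) (nat_lit 980292800) (nat_lit 1368) (nat_lit 27216421382) (nat_lit 299) (nat_lit 5) (nat_lit 316) (nat_lit 5) (nat_lit 317) (nat_lit 5) (nat_lit 477) (nat_lit 461) (nat_lit 262))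 (XT.lf (nat_lit 0) (nat_lit 6032258366) (nat_lit 1292) (nat_lit 15850460845) (nat_lit 76) (nat_lit 10187140427) (nat_lit 300) (nat_lit 5) (nat_lit 317) (nat_lit 5) (nat_lit 301) (nat_lit 5) (nat_lit 478) (nat_lit 461) (nat_lit 261))))) (XT.nd (nat_lit 312) (nat_lit 1140) (nat_lit 0) (XT.nd (nat_lit 156) (nat_lit 608) (nat_lit 0) (XT.nd (nat_lit 78) (nat_lit 0) (nat_lit 0) (XT.lf (nat_lit 0) (nat_lit 1345826156) (nat_lit 836) (nat_lit 7494049842) (nat_lit 912) (nat_lit 23748561829) (nat_lit 289) (nat_lit 5) (nat_lit 300) (nat_lit 5) (nat_lit 301) (nat_lit 5) (nat_lit 479) (nat_lit 461) (nat_lit 260)) (XT.lf (nat_lit 0) (nat_lit 11961120213) (nat_lit 912) (nat_lit 13809344504) (nat_lit 76) (nat_lit 7345226931) (nat_lit 289) (nat_lit 5) (nat_lit 301) (nat_lit 5) (nat_lit 290) (nat_lit 5) (nat_lit 480) (nat_lit 461) (nat_lit 259))) (XT.nd (nat_lit 78) (nat_lit 0) (nat_lit 0) (XT.lf (nat_lit 0) (nat_lit 4151317520)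 (nat_lit 608) (nat_lit 11136195573) (nat_lit 684) (nat_lit 18367904872) (nat_lit 281) (nat_lit 5) (nat_lit 289) (nat_lit 5) (nat_lit 290) (nat_lit 5) (nat_lit 481) (nat_lit 461) (nat_lit 258)) (XT.lf (nat_lit 0) (nat_lit 18889833380) (nat_lit 684) (nat_lit 11314967734) (nat_lit 76) (nat_lit 4001251102) (nat_lit 281) (nat_lit 5) (nat_lit 290) (nat_lit 5) (nat_lit 282) (nat_lit 5) (nat_lit 482) (nat_lit 461) (nat_lit 257)))) (XT.nd (nat_lit 156) (nat_lit 532) (nat_lit 0) (XT.nd (nat_lit 78) (nat_lit 0) (nat_lit 0) (XT.lf (nat_lit 0) (nat_lit 7452612724) (nat_lit 608) (nat_lit 15327044735) (nat_lit 684) (nat_lit 11988165217) (nat_lit 273) (nat_lit 5) (nat_lit 281) (nat_lit 5) (nat_lit 282) (nat_lit 5) (nat_lit 483) (nat_lit 461) (nat_lit 256)) (XT.lf (nat_lit 0) (nat_lit 26899123279) (nat_lit 684) (nat_lit 8331398810) (nat_lit 76) (nat_lit 112535953) (nat_lit 273) (nat_lit 5) (nat_lit 282) (nat_lit 5) (nat_lit 274)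 (nat_lit 5) (nat_lit 484) (nat_lit 461) (nat_lit 255))) (XT.nd (nat_lit 78) (nat_lit 0) (nat_lit 0) (XT.lf (nat_lit 0) (nat_lit 11288072064) (nat_lit 532) (nat_lit 20112017279) (nat_lit 608) (nat_lit 4527723834) (nat_lit 266) (nat_lit 5) (nat_lit 273) (nat_lit 5) (nat_lit 274) (nat_lit 5) (nat_lit 485) (nat_lit 461) (nat_lit 254)) (XT.lf (nat_lit 0) (nat_lit 31664563208) (nat_lit 532) (nat_lit 4453353175) (nat_lit 608) (nat_lit 409739813) (nat_lit 266) (nat_lit 5) (nat_lit 273) (nat_lit 5) (nat_lit 274) (nat_lit 5) (nat_lit 486) (nat_lit 461) (nat_lit 253)))))) (XT.nd (nat_lit 624) (nat_lit 1824) (nat_lit 0) (XT.nd (nat_lit 312) (nat_lit 988) (nat_lit 0) (XT.nd (nat_lit 156) (nat_lit 1064) (nat_lit 0) (XT.nd (nat_lit 78) (nat_lit 0) (nat_lit 0) (XT.lf (nat_lit 0) (nat_lit 4020495121) (nat_lit 684) (nat_lit 21478468717) (nat_lit 76) (nat_lit 11637521346) (nat_lit 257) (nat_lit 5) (nat_lit 266) (nat_lit 5) (nat_lit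 258) (nat_lit 5) (nat_lit 487) (nat_lit 461) (nat_lit 252)) (XT.lf (nat_lit 0) (nat_lit 8666876766) (nat_lit 684) (nat_lit 918662391) (nat_lit 76) (nat_lit 28175174102) (nat_lit 257) (nat_lit 5) (nat_lit 266) (nat_lit 5) (nat_lit 258) (nat_lit 5) (nat_lit 488) (nat_lit 461) (nat_lit 251))) (XT.nd (nat_lit 78) (nat_lit 532) (nat_lit 0) (XT.lf (nat_lit 0) (nat_lit 13716468776) (nat_lit 608) (nat_lit 17806391268) (nat_lit 76) (nat_lit 6872893733) (nat_lit 250) (nat_lit 5) (nat_lit 258) (nat_lit 5) (nat_lit 251) (nat_lit 5) (nat_lit 489) (nat_lit 461) (nat_lit 250)) (XT.lf (nat_lit 0) (nat_lit 3686492238) (nat_lit 532) (nat_lit 15368659914) (nat_lit 608) (nat_lit 19990565417) (nat_lit 243) (nat_lit 5) (nat_lit 250) (nat_lit 5) (nat_lit 251) (nat_lit 5) (nat_lit 490) (nat_lit 461) (nat_lit 249)))) (XT.nd (nat_lit 156) (nat_lit 532) (nat_lit 0) (XT.nd (nat_lit 78) (nat_lit 456) (nat_lit 0) (XT.lf (nat_lit 0) (nat_lit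 24745724256) (nat_lit 608) (nat_lit 13536975952) (nat_lit 76) (nat_lit 1426728377) (nat_lit 243) (nat_lit 5) (nat_lit 251) (nat_lit 5) (nat_lit 244) (nat_lit 5) (nat_lit 491) (nat_lit 461) (nat_lit 248)) (XT.lf (nat_lit 0) (nat_lit 8960317350) (nat_lit 456) (nat_lit 21882982186) (nat_lit 532) (nat_lit 9542662970) (nat_lit 237) (nat_lit 5) (nat_lit 243) (nat_lit 5) (nat_lit 244) (nat_lit 5) (nat_lit 492) (nat_lit 461) (nat_lit 247))) (XT.nd (nat_lit 78) (nat_lit 532) (nat_lit 0) (XT.lf (nat_lit 0) (nat_lit 32407740128) (nat_lit 456) (nat_lit 4850784490) (nat_lit 532) (nat_lit 3820226301) (nat_lit 237) (nat_lit 5) (nat_lit 243) (nat_lit 5) (nat_lit 244) (nat_lit 5) (nat_lit 493) (nat_lit 461) (nat_lit 246)) (XT.lf (nat_lit 0) (nat_lit 2299660659) (nat_lit 532) (nat_lit 26873572167) (nat_lit 76) (nat_lit 12610504853) (nat_lit 230) (nat_lit 5) (nat_lit 237) (nat_lit 5) (nat_lit 231) (nat_lit 5) (nat_lit 494) (nat_lit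 461) (nat_lit 245))))) (XT.nd (nat_lit 312) (nat_lit 912) (nat_lit 0) (XT.nd (nat_lit 156) (nat_lit 456) (nat_lit 0) (XT.nd (nat_lit 78) (nat_lit 456) (nat_lit 0) (XT.lf (nat_lit 0) (nat_lit 8660911895) (nat_lit 532) (nat_lit 3219729488) (nat_lit 76) (nat_lit 30624061562) (nat_lit 230) (nat_lit 5) (nat_lit 237) (nat_lit 5) (nat_lit 231) (nat_lit 5) (nat_lit 495) (nat_lit 461) (nat_lit 244)) (XT.lf (nat_lit 0) (nat_lit 15477479912) (nat_lit 532) (nat_lit 21737928550) (nat_lit 76) (nat_lit 6023954464) (nat_lit 224) (nat_lit 5) (nat_lit 231) (nat_lit 5) (nat_lit 225) (nat_lit 5) (nat_lit 496) (nat_lit 461) (nat_lit 243))) (XT.nd (nat_lit 78) (nat_lit 0) (nat_lit 0) (XT.lf (nat_lit 0) (nat_lit 2972957666) (nat_lit 456) (nat_lit 19702810374) (nat_lit 532) (nat_lit 21314978103) (nat_lit 218) (nat_lit 5) (nat_lit 224) (nat_lit 5) (nat_lit 225) (nat_lit 5) (nat_lit 497) (nat_lit 461) (nat_lit 242)) (XT.lf (nat_lit 0) (nat_lit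 28868548199) (nat_lit 456) (nat_lit 1439178858) (nat_lit 532) (nat_lit 14450412259) (nat_lit 218) (nat_lit 5) (nat_lit 224) (nat_lit 5) (nat_lit 225) (nat_lit 5) (nat_lit 498) (nat_lit 461) (nat_lit 241)))) (XT.nd (nat_lit 156) (nat_lit 456) (nat_lit 0) (XT.nd (nat_lit 78) (nat_lit 76) (nat_lit 0) (XT.lf (nat_lit 0) (nat_lit 10018748584) (nat_lit 380) (nat_lit 28411456131) (nat_lit 456) (nat_lit 7110502894) (nat_lit 213) (nat_lit 5) (nat_lit 218) (nat_lit 5) (nat_lit 219) (nat_lit 5) (nat_lit 499) (nat_lit 461) (nat_lit 240)) (XT.lf (nat_lit 0) (nat_lit 615394367) (nat_lit 456) (nat_lit 9334264137) (nat_lit 76) (nat_lit 36391727987) (nat_lit 212) (nat_lit 5) (nat_lit 218) (nat_lit 5) (nat_lit 213) (nat_lit 5) (nat_lit 500) (nat_lit 461) (nat_lit 239))) (XT.nd (nat_lit 78) (nat_lit 0) (nat_lit 0) (XT.lf (nat_lit 0) (nat_lit 8690243170) (nat_lit 532) (nat_lit 29332294268) (nat_lit 76) (nat_lit 9133633721) (nat_lit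 206) (nat_lit 5) (nat_lit 213) (nat_lit 5) (nat_lit 207) (nat_lit 5) (nat_lit 501) (nat_lit 461) (nat_lit 238)) (XT.lf (nat_lit 0) (nat_lit 17199386176) (nat_lit 532) (nat_lit 2106094344) (nat_lit 76) (nat_lit 28684157494) (nat_lit 206) (nat_lit 5) (nat_lit 213) (nat_lit 5) (nat_lit 207) (nat_lit 5) (nat_lit 502) (nat_lit 461) (nat_lit 237))))))) (XT.nd (nat_lit 1170) (nat_lit 2660) (nat_lit 0) (XT.nd (nat_lit 546) (nat_lit 1368) (nat_lit 0) (XT.nd (nat_lit 234) (nat_lit 1064) (nat_lit 0) (XT.nd (nat_lit 78) (nat_lit 380) (nat_lit 0) (XT.lf (nat_lit 0) (nat_lit 26218714178) (nat_lit 456) (nat_lit 22391858514) (nat_lit 76) (nat_lit 229888966) (nat_lit 201) (nat_lit 5) (nat_lit 207) (nat_lit 5) (nat_lit 202) (nat_lit 5) (nat_lit 503) (nat_lit 461) (nat_lit 236)) (XT.nd (nat_lit 78) (nat_lit 0) (nat_lit 0) (XT.lf (nat_lit 0) (nat_lit 6112728341) (nat_lit 380) (nat_lit 29665690340) (nat_lit 456) (nat_lit 13930297534)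 (nat_lit 196) (nat_lit 5) (nat_lit 201) (nat_lit 5) (nat_lit 202) (nat_lit 5) (nat_lit 504) (nat_lit 461) (nat_lit 235)) (XT.lf (nat_lit 0) (nat_lit 35929343439) (nat_lit 380) (nat_lit 9920126511) (nat_lit 456) (nat_lit 4746811889) (nat_lit 196) (nat_lit 5) (nat_lit 201) (nat_lit 5) (nat_lit 202) (nat_lit 5) (nat_lit 505) (nat_lit 461) (nat_lit 234)))) (XT.nd (nat_lit 156) (nat_lit 684) (nat_lit 0) (XT.nd (nat_lit 78) (nat_lit 0) (nat_lit 0) (XT.lf (nat_lit 0) (nat_lit 4868616863) (nat_lit 380) (nat_lit 36224004628) (nat_lit 76) (nat_lit 10409042439) (nat_lit 191) (nat_lit 5) (nat_lit 196) (nat_lit 5) (nat_lit 192) (nat_lit 5) (nat_lit 506) (nat_lit 461) (nat_lit 233)) (XT.lf (nat_lit 0) (nat_lit 14923386320) (nat_lit 380) (nat_lit 6157303614) (nat_lit 76) (nat_lit 31344719176) (nat_lit 191) (nat_lit 5) (nat_lit 196) (nat_lit 5) (nat_lit 192) (nat_lit 5) (nat_lit 507) (nat_lit 461) (nat_lit 232))) (XT.nd (nat_lit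 78) (nat_lit 304) (nat_lit 0) (XT.lf (nat_lit 0) (nat_lit 25303106060) (nat_lit 380) (nat_lit 218456937) (nat_lit 456) (nat_lit 27848050812) (nat_lit 186) (nat_lit 5) (nat_lit 191) (nat_lit 5) (nat_lit 192) (nat_lit 5) (nat_lit 508) (nat_lit 461) (nat_lit 231)) (XT.lf (nat_lit 0) (nat_lit 3351530619) (nat_lit 304) (nat_lit 33384173196) (nat_lit 380) (nat_lit 17597500355) (nat_lit 182) (nat_lit 5) (nat_lit 186) (nat_lit 5) (nat_lit 187) (nat_lit 5) (nat_lit 509) (nat_lit 461) (nat_lit 230))))) (XT.nd (nat_lit 312) (nat_lit 684) (nat_lit 0) (XT.nd (nat_lit 156) (nat_lit 304) (nat_lit 0) (XT.nd (nat_lit 78) (nat_lit 380) (nat_lit 0) (XT.lf (nat_lit 0) (nat_lit 36283195544) (nat_lit 304) (nat_lit 12287206998) (nat_lit 380) (nat_lit 6746775772) (nat_lit 182) (nat_lit 5) (nat_lit 186) (nat_lit 5) (nat_lit 187) (nat_lit 5) (nat_lit 510) (nat_lit 461) (nat_lit 229)) (XT.lf (nat_lit 0) (nat_lit 4569729361) (nat_lit 380)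 (nat_lit 42315153542) (nat_lit 76) (nat_lit 9437710683) (nat_lit 177) (nat_lit 5) (nat_lit 182) (nat_lit 5) (nat_lit 178) (nat_lit 5) (nat_lit 511) (nat_lit 461) (nat_lit 228))) (XT.nd (nat_lit 78) (nat_lit 304) (nat_lit 0) (XT.lf (nat_lit 0) (nat_lit 16404509154) (nat_lit 380) (nat_lit 9114508419) (nat_lit 76) (nat_lit 31827718335) (nat_lit 177) (nat_lit 5) (nat_lit 182) (nat_lit 5) (nat_lit 178) (nat_lit 5) (nat_lit 512) (nat_lit 461) (nat_lit 227)) (XT.lf (nat_lit 0) (nat_lit 25579331526) (nat_lit 304) (nat_lit 3259543804) (nat_lit 380) (nat_lit 29555390955) (nat_lit 173) (nat_lit 5) (nat_lit 177) (nat_lit 5) (nat_lit 178) (nat_lit 5) (nat_lit 513) (nat_lit 461) (nat_lit 226)))) (XT.nd (nat_lit 156) (nat_lit 380) (nat_lit 0) (XT.nd (nat_lit 78) (nat_lit 0) (nat_lit 0) (XT.lf (nat_lit 0) (nat_lit 1874998579) (nat_lit 304) (nat_lit 40069978658) (nat_lit 380) (nat_lit 17519284264) (nat_lit 169) (nat_lit 5) (nat_lit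 173) (nat_lit 5) (nat_lit 174) (nat_lit 5) (nat_lit 514) (nat_lit 461) (nat_lit 225)) (XT.lf (nat_lit 0) (nat_lit 38243424593) (nat_lit 304) (nat_lit 17562853261) (nat_lit 380) (nat_lit 4749218321) (nat_lit 169) (nat_lit 5) (nat_lit 173) (nat_lit 5) (nat_lit 174) (nat_lit 5) (nat_lit 515) (nat_lit 461) (nat_lit 224))) (XT.nd (nat_lit 78) (nat_lit 0) (nat_lit 0) (XT.lf (nat_lit 0) (nat_lit 8431514996) (nat_lit 380) (nat_lit 47510980845) (nat_lit 76) (nat_lit 5728801894) (nat_lit 164) (nat_lit 5) (nat_lit 169) (nat_lit 5) (nat_lit 165) (nat_lit 5) (nat_lit 516) (nat_lit 461) (nat_lit 223)) (XT.lf (nat_lit 0) (nat_lit 22312375271) (nat_lit 380) (nat_lit 10854649279) (nat_lit 76) (nat_lit 29640133410) (nat_lit 164) (nat_lit 5) (nat_lit 169) (nat_lit 5) (nat_lit 165) (nat_lit 5) (nat_lit 517) (nat_lit 461) (nat_lit 222)))))) (XT.nd (nat_lit 624) (nat_lit 1216) (nat_lit 0) (XT.nd (nat_lit 312) (nat_lit 532) (nat_lit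 0) (XT.nd (nat_lit 156) (nat_lit 380) (nat_lit 0) (XT.nd (nat_lit 78) (nat_lit 228) (nat_lit 0) (XT.lf (nat_lit 0) (nat_lit 27434835941) (nat_lit 304) (nat_lit 9437313764) (nat_lit 380) (nat_lit 27097069700) (nat_lit 160) (nat_lit 5) (nat_lit 164) (nat_lit 5) (nat_lit 165) (nat_lit 5) (nat_lit 518) (nat_lit 461) (nat_lit 221)) (XT.lf (nat_lit 0) (nat_lit 1820978798) (nat_lit 228) (nat_lit 50318948787) (nat_lit 304) (nat_lit 13018078860) (nat_lit 157) (nat_lit 5) (nat_lit 160) (nat_lit 5) (nat_lit 161) (nat_lit 5) (nat_lit 519) (nat_lit 461) (nat_lit 220))) (XT.nd (nat_lit 78) (nat_lit 304) (nat_lit 0) (XT.lf (nat_lit 0) (nat_lit 1919139666) (nat_lit 304) (nat_lit 24408724070) (nat_lit 76) (nat_lit 40040221608) (nat_lit 156) (nat_lit 5) (nat_lit 160) (nat_lit 5) (nat_lit 157) (nat_lit 5) (nat_lit 520) (nat_lit 461) (nat_lit 219)) (XT.lf (nat_lit 0) (nat_lit 15866294795) (nat_lit 304) (nat_lit 1327866393) (nat_lit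 380) (nat_lit 50411898612) (nat_lit 152) (nat_lit 5) (nat_lit 156) (nat_lit 5) (nat_lit 157) (nat_lit 5) (nat_lit 521) (nat_lit 461) (nat_lit 218)))) (XT.nd (nat_lit 156) (nat_lit 304) (nat_lit 0) (XT.nd (nat_lit 78) (nat_lit 228) (nat_lit 0) (XT.lf (nat_lit 0) (nat_lit 33409945181) (nat_lit 380) (nat_lit 11262921672) (nat_lit 76) (nat_lit 24193831335) (nat_lit 152) (nat_lit 5) (nat_lit 157) (nat_lit 5) (nat_lit 153) (nat_lit 5) (nat_lit 522) (nat_lit 461) (nat_lit 217)) (XT.lf (nat_lit 0) (nat_lit 31018556867) (nat_lit 228) (nat_lit 19403827130) (nat_lit 304) (nat_lit 19733466344) (nat_lit 149) (nat_lit 5) (nat_lit 152) (nat_lit 5) (nat_lit 153) (nat_lit 5) (nat_lit 523) (nat_lit 461) (nat_lit 216))) (XT.nd (nat_lit 78) (nat_lit 76) (nat_lit 0) (XT.lf (nat_lit 0) (nat_lit 3317215093) (nat_lit 228) (nat_lit 64837268740) (nat_lit 304) (nat_lit 3322914642) (nat_lit 146) (nat_lit 5) (nat_lit 149) (nat_lit 5) (nat_lit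 150) (nat_lit 5) (nat_lit 524) (nat_lit 461) (nat_lit 215)) (XT.lf (nat_lit 0) (nat_lit 13905078460) (nat_lit 304) (nat_lit 25307491290) (nat_lit 76) (nat_lit 33604403622) (nat_lit 145) (nat_lit 5) (nat_lit 149) (nat_lit 5) (nat_lit 146) (nat_lit 5) (nat_lit 525) (nat_lit 461) (nat_lit 214))))) (XT.nd (nat_lit 312) (nat_lit 456) (nat_lit 0) (XT.nd (nat_lit 156) (nat_lit 532) (nat_lit 0) (XT.nd (nat_lit 78) (nat_lit 0) (nat_lit 0) (XT.lf (nat_lit 0) (nat_lit 19170193256) (nat_lit 228) (nat_lit 12596117752) (nat_lit 304) (nat_lit 42423941944) (nat_lit 142) (nat_lit 5) (nat_lit 145) (nat_lit 5) (nat_lit 146) (nat_lit 5) (nat_lit 526) (nat_lit 461) (nat_lit 213)) (XT.lf (nat_lit 0) (nat_lit 50562834173) (nat_lit 304) (nat_lit 10242831139) (nat_lit 76) (nat_lit 14787082043) (nat_lit 142) (nat_lit 5) (nat_lit 146) (nat_lit 5) (nat_lit 143) (nat_lit 5) (nat_lit 527) (nat_lit 461) (nat_lit 212))) (XT.nd (nat_lit 78) (nat_lit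 304) (nat_lit 0) (XT.lf (nat_lit 0) (nat_lit 36462796354) (nat_lit 228) (nat_lit 33934624587) (nat_lit 304) (nat_lit 6625670655) (nat_lit 139) (nat_lit 5) (nat_lit 142) (nat_lit 5) (nat_lit 143) (nat_lit 5) (nat_lit 528) (nat_lit 461) (nat_lit 211)) (XT.lf (nat_lit 0) (nat_lit 6287731148) (nat_lit 228) (nat_lit 5966204776) (nat_lit 304) (nat_lit 66233938780) (nat_lit 135) (nat_lit 5) (nat_lit 138) (nat_lit 5) (nat_lit 139) (nat_lit 5) (nat_lit 529) (nat_lit 461) (nat_lit 210)))) (XT.nd (nat_lit 156) (nat_lit 228) (nat_lit 0) (XT.nd (nat_lit 78) (nat_lit 228) (nat_lit 0) (XT.lf (nat_lit 0) (nat_lit 32198922676) (nat_lit 304) (nat_lit 24902625275) (nat_lit 76) (nat_lit 22874120531) (nat_lit 135) (nat_lit 5) (nat_lit 139) (nat_lit 5) (nat_lit 136) (nat_lit 5) (nat_lit 530) (nat_lit 461) (nat_lit 209)) (XT.lf (nat_lit 0) (nat_lit 24225794494) (nat_lit 228) (nat_lit 28807401709) (nat_lit 304) (nat_lit 28466171794) (nat_lit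 132) (nat_lit 5) (nat_lit 135) (nat_lit 5) (nat_lit 136) (nat_lit 5) (nat_lit 531) (nat_lit 461) (nat_lit 208))) (XT.nd (nat_lit 78) (nat_lit 228) (nat_lit 0) (XT.lf (nat_lit 0) (nat_lit 74748680592) (nat_lit 304) (nat_lit 7730095765) (nat_lit 76) (nat_lit 582316698) (nat_lit 132) (nat_lit 5) (nat_lit 136) (nat_lit 5) (nat_lit 133) (nat_lit 5) (nat_lit 532) (nat_lit 461) (nat_lit 207)) (XT.lf (nat_lit 0) (nat_lit 12916028427) (nat_lit 228) (nat_lit 40906258093) (nat_lit 76) (nat_lit 30822406206) (nat_lit 129) (nat_lit 5) (nat_lit 132) (nat_lit 5) (nat_lit 130) (nat_lit 5) (nat_lit 533) (nat_lit 461) (nat_lit 206))))))))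
noncomputable def xc215 : XT := (XT.nd (nat_lit 58344) (nat_lit 0) (nat_lit 5168) (XT.nd (nat_lit 57096) (nat_lit 0) (nat_lit 13680) (XT.nd (nat_lit 546) (nat_lit 684) (nat_lit 0) (XT.nd (nat_lit 234) (nat_lit 456) (nat_lit 0) (XT.nd (nat_lit 78) (nat_lit 152) (nat_lit 0) (XT.lf (nat_lit 0) (nat_lit 10761293327) (nat_lit 228) (nat_lit 24034265527) (nat_lit 304) (nat_lit 51472333307) (nat_lit 126) (nat_lit 5) (nat_lit 129) (nat_lit 5) (nat_lit 130) (nat_lit 5) (nat_lit 534) (nat_lit 461) (nat_lit 205)) (XT.nd (nat_lit 78) (nat_lit 152) (nat_lit 0) (XT.lf (nat_lit 0) (nat_lit 57811574681) (nat_lit 304) (nat_lit 23179626669) (nat_lit 76) (nat_lit 6934183279) (nat_lit 126) (nat_lit 5) (nat_lit 130) (nat_lit 5) (nat_lit 127) (nat_lit 5) (nat_lit 535) (nat_lit 461) (nat_lit 204)) (XT.lf (nat_lit 0) (nat_lit 31084151425) (nat_lit 152) (nat_lit 50969748304) (nat_lit 228) (nat_lit 7562627311) (nat_lit 124) (nat_lit 5) (nat_lit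 126) (nat_lit 5) (nat_lit 127) (nat_lit 5) (nat_lit 536) (nat_lit 461) (nat_lit 203)))) (XT.nd (nat_lit 156) (nat_lit 152) (nat_lit 0) (XT.nd (nat_lit 78) (nat_lit 228) (nat_lit 0) (XT.lf (nat_lit 0) (nat_lit 15594863374) (nat_lit 228) (nat_lit 4054885933) (nat_lit 76) (nat_lit 71697073325) (nat_lit 123) (nat_lit 5) (nat_lit 126) (nat_lit 5) (nat_lit 124) (nat_lit 5) (nat_lit 537) (nat_lit 461) (nat_lit 202)) (XT.lf (nat_lit 0) (nat_lit 39930780183) (nat_lit 304) (nat_lit 40223509239) (nat_lit 76) (nat_lit 12953420295) (nat_lit 120) (nat_lit 5) (nat_lit 124) (nat_lit 5) (nat_lit 121) (nat_lit 5) (nat_lit 538) (nat_lit 461) (nat_lit 201))) (XT.nd (nat_lit 78) (nat_lit 0) (nat_lit 0) (XT.lf (nat_lit 0) (nat_lit 16826202827) (nat_lit 152) (nat_lit 48567320175) (nat_lit 228) (nat_lit 29515997984) (nat_lit 118) (nat_lit 5) (nat_lit 120) (nat_lit 5) (nat_lit 121) (nat_lit 5) (nat_lit 539) (nat_lit 461) (nat_lit 200))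 (XT.lf (nat_lit 0) (nat_lit 76410398849) (nat_lit 152) (nat_lit 15615040090) (nat_lit 228) (nat_lit 4727788958) (nat_lit 118) (nat_lit 5) (nat_lit 120) (nat_lit 5) (nat_lit 121) (nat_lit 5) (nat_lit 540) (nat_lit 461) (nat_lit 199))))) (XT.nd (nat_lit 312) (nat_lit 0) (nat_lit 0) (XT.nd (nat_lit 156) (nat_lit 228) (nat_lit 0) (XT.nd (nat_lit 78) (nat_lit 152) (nat_lit 0) (XT.lf (nat_lit 0) (nat_lit 20960795674) (nat_lit 304) (nat_lit 59113612424) (nat_lit 76) (nat_lit 18554957754) (nat_lit 114) (nat_lit 5) (nat_lit 118) (nat_lit 5) (nat_lit 115) (nat_lit 5) (nat_lit 541) (nat_lit 461) (nat_lit 198)) (XT.lf (nat_lit 0) (nat_lit 842950343) (nat_lit 152) (nat_lit 46851361705) (nat_lit 228) (nat_lit 52854992686) (nat_lit 112) (nat_lit 5) (nat_lit 114) (nat_lit 5) (nat_lit 115) (nat_lit 5) (nat_lit 542) (nat_lit 461) (nat_lit 197))) (XT.nd (nat_lit 78) (nat_lit 228) (nat_lit 0) (XT.lf (nat_lit 0) (nat_lit 63808469278)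 (nat_lit 152) (nat_lit 12017441091) (nat_lit 228) (nat_lit 26683049144) (nat_lit 112) (nat_lit 5) (nat_lit 114) (nat_lit 5) (nat_lit 115) (nat_lit 5) (nat_lit 543) (nat_lit 461) (nat_lit 196)) (XT.lf (nat_lit 0) (nat_lit 736182731) (nat_lit 228) (nat_lit 80140292403) (nat_lit 76) (nat_lit 23636825461) (nat_lit 109) (nat_lit 5) (nat_lit 112) (nat_lit 5) (nat_lit 110) (nat_lit 5) (nat_lit 544) (nat_lit 461) (nat_lit 195)))) (XT.nd (nat_lit 56082) (nat_lit 0) (nat_lit 15200) (XT.nd (nat_lit 56004) (nat_lit 0) (nat_lit 15200) (XT.lf (nat_lit 0) (nat_lit 28954507289) (nat_lit 228) (nat_lit 16822545361) (nat_lit 76) (nat_lit 60777409066) (nat_lit 109) (nat_lit 5) (nat_lit 112) (nat_lit 5) (nat_lit 110) (nat_lit 5) (nat_lit 545) (nat_lit 461) (nat_lit 194)) (XT.lf (nat_lit 0) (nat_lit 5737518763) (nat_lit 1292) (nat_lit 3493916769) (nat_lit 1292) (nat_lit 3493916769) (nat_lit 309) (nat_lit 3) (nat_lit 326) (nat_lit 3)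 (nat_lit 326) (nat_lit 5) (nat_lit 462) (nat_lit 462) (nat_lit 276))) (XT.nd (nat_lit 78) (nat_lit 0) (nat_lit 76) (XT.lf (nat_lit 76) (nat_lit 5747551064) (nat_lit 0) (nat_lit 6055856088) (nat_lit 1292) (nat_lit 14024361358) (nat_lit 310) (nat_lit 5) (nat_lit 309) (nat_lit 3) (nat_lit 326) (nat_lit 5) (nat_lit 463) (nat_lit 462) (nat_lit 275)) (XT.lf (nat_lit 0) (nat_lit 12273575790) (nat_lit 1216) (nat_lit 7273322147) (nat_lit 1292) (nat_lit 6665288323) (nat_lit 310) (nat_lit 5) (nat_lit 326) (nat_lit 5) (nat_lit 327) (nat_lit 5) (nat_lit 464) (nat_lit 462) (nat_lit 274)))))) (XT.nd (nat_lit 624) (nat_lit 1596) (nat_lit 0) (XT.nd (nat_lit 312) (nat_lit 0) (nat_lit 152) (XT.nd (nat_lit 156) (nat_lit 0) (nat_lit 76) (XT.nd (nat_lit 78) (nat_lit 0) (nat_lit 76) (XT.lf (nat_lit 76) (nat_lit 5972216938) (nat_lit 0) (nat_lit 6899171694) (nat_lit 1292) (nat_lit 13733342091) (nat_lit 311) (nat_lit 5) (nat_lit 310) (nat_lit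 5) (nat_lit 327) (nat_lit 5) (nat_lit 465) (nat_lit 462) (nat_lit 273)) (XT.lf (nat_lit 0) (nat_lit 13616493494) (nat_lit 1216) (nat_lit 7304513640) (nat_lit 1292) (nat_lit 6084164000) (nat_lit 311) (nat_lit 5) (nat_lit 327) (nat_lit 5) (nat_lit 328) (nat_lit 5) (nat_lit 466) (nat_lit 462) (nat_lit 272))) (XT.nd (nat_lit 78) (nat_lit 0) (nat_lit 76) (XT.lf (nat_lit 76) (nat_lit 6479266724) (nat_lit 0) (nat_lit 8031662683) (nat_lit 1292) (nat_lit 12902886346) (nat_lit 312) (nat_lit 5) (nat_lit 311) (nat_lit 5) (nat_lit 328) (nat_lit 5) (nat_lit 467) (nat_lit 462) (nat_lit 271)) (XT.lf (nat_lit 0) (nat_lit 15553586162) (nat_lit 1216) (nat_lit 7059636212) (nat_lit 1292) (nat_lit 5217856027) (nat_lit 312) (nat_lit 5) (nat_lit 328) (nat_lit 5) (nat_lit 329) (nat_lit 5) (nat_lit 468) (nat_lit 462) (nat_lit 270)))) (XT.nd (nat_lit 156) (nat_lit 0) (nat_lit 76) (XT.nd (nat_lit 78) (nat_lit 0) (nat_lit 76) (XT.lf (nat_lit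 76) (nat_lit 7292080950) (nat_lit 0) (nat_lit 9481645600) (nat_lit 1292) (nat_lit 11482746577) (nat_lit 313) (nat_lit 5) (nat_lit 312) (nat_lit 5) (nat_lit 329) (nat_lit 5) (nat_lit 469) (nat_lit 462) (nat_lit 269)) (XT.lf (nat_lit 0) (nat_lit 18138013555) (nat_lit 1216) (nat_lit 6515309832) (nat_lit 1292) (nat_lit 4038080339) (nat_lit 313) (nat_lit 5) (nat_lit 329) (nat_lit 5) (nat_lit 330) (nat_lit 5) (nat_lit 470) (nat_lit 462) (nat_lit 268))) (XT.nd (nat_lit 78) (nat_lit 0) (nat_lit 76) (XT.lf (nat_lit 76) (nat_lit 8435740161) (nat_lit 0) (nat_lit 11279228863) (nat_lit 1292) (nat_lit 9419261321) (nat_lit 314) (nat_lit 5) (nat_lit 313) (nat_lit 5) (nat_lit 330) (nat_lit 5) (nat_lit 471) (nat_lit 462) (nat_lit 267)) (XT.lf (nat_lit 0) (nat_lit 21426524732) (nat_lit 1216) (nat_lit 5646455031) (nat_lit 1292) (nat_lit 2514743540) (nat_lit 314) (nat_lit 5) (nat_lit 330) (nat_lit 5) (nat_lit 331) (nat_lit 5) (nat_lit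 472) (nat_lit 462) (nat_lit 266))))) (XT.nd (nat_lit 312) (nat_lit 1900) (nat_lit 0) (XT.nd (nat_lit 156) (nat_lit 0) (nat_lit 76) (XT.nd (nat_lit 78) (nat_lit 0) (nat_lit 76) (XT.lf (nat_lit 76) (nat_lit 9937121463) (nat_lit 0) (nat_lit 13456448875) (nat_lit 1292) (nat_lit 6655126694) (nat_lit 315) (nat_lit 5) (nat_lit 314) (nat_lit 5) (nat_lit 331) (nat_lit 5) (nat_lit 473) (nat_lit 462) (nat_lit 265)) (XT.lf (nat_lit 0) (nat_lit 25479696263) (nat_lit 1216) (nat_lit 4426195689) (nat_lit 1292) (nat_lit 615806224) (nat_lit 315) (nat_lit 5) (nat_lit 331) (nat_lit 5) (nat_lit 332) (nat_lit 5) (nat_lit 474) (nat_lit 462) (nat_lit 264))) (XT.nd (nat_lit 78) (nat_lit 0) (nat_lit 0) (XT.lf (nat_lit 76) (nat_lit 11825001352) (nat_lit 0) (nat_lit 16047413470) (nat_lit 1292) (nat_lit 3129154529) (nat_lit 316) (nat_lit 5) (nat_lit 315) (nat_lit 5) (nat_lit 332) (nat_lit 5) (nat_lit 475) (nat_lit 462) (nat_lit 263)) (XT.lf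 (nat_lit 76) (nat_lit 28652228703) (nat_lit 0) (nat_lit 1726552409) (nat_lit 1292) (nat_lit 1115799822) (nat_lit 316) (nat_lit 5) (nat_lit 315) (nat_lit 5) (nat_lit 332) (nat_lit 5) (nat_lit 476) (nat_lit 462) (nat_lit 262)))) (XT.nd (nat_lit 156) (nat_lit 760) (nat_lit 0) (XT.nd (nat_lit 78) (nat_lit 0) (nat_lit 0) (XT.lf (nat_lit 0) (nat_lit 1200099378) (nat_lit 1292) (nat_lit 17876235258) (nat_lit 1368) (nat_lit 12917947102) (nat_lit 299) (nat_lit 5) (nat_lit 316) (nat_lit 5) (nat_lit 317) (nat_lit 5) (nat_lit 477) (nat_lit 462) (nat_lit 261)) (XT.lf (nat_lit 0) (nat_lit 3606419769) (nat_lit 1292) (nat_lit 893309469) (nat_lit 1368) (nat_lit 28007612019) (nat_lit 299) (nat_lit 5) (nat_lit 316) (nat_lit 5) (nat_lit 317) (nat_lit 5) (nat_lit 478) (nat_lit 462) (nat_lit 260))) (XT.nd (nat_lit 78) (nat_lit 836) (nat_lit 0) (XT.lf (nat_lit 0) (nat_lit 6347696541) (nat_lit 1292) (nat_lit 16206485874) (nat_lit 76) (nat_lit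 10473727369) (nat_lit 300) (nat_lit 5) (nat_lit 317) (nat_lit 5) (nat_lit 301) (nat_lit 5) (nat_lit 479) (nat_lit 462) (nat_lit 259)) (XT.lf (nat_lit 0) (nat_lit 1504518279) (nat_lit 836) (nat_lit 7732245148) (nat_lit 912) (nat_lit 24325365606) (nat_lit 289) (nat_lit 5) (nat_lit 300) (nat_lit 5) (nat_lit 301) (nat_lit 5) (nat_lit 480) (nat_lit 462) (nat_lit 258))))))) (XT.nd (nat_lit 1248) (nat_lit 4028) (nat_lit 0) (XT.nd (nat_lit 624) (nat_lit 2052) (nat_lit 0) (XT.nd (nat_lit 312) (nat_lit 1216) (nat_lit 0) (XT.nd (nat_lit 156) (nat_lit 608) (nat_lit 0) (XT.nd (nat_lit 78) (nat_lit 608) (nat_lit 0) (XT.lf (nat_lit 0) (nat_lit 12447684491) (nat_lit 912) (nat_lit 14104782292) (nat_lit 76) (nat_lit 7552852827) (nat_lit 289) (nat_lit 5) (nat_lit 301) (nat_lit 5) (nat_lit 290) (nat_lit 5) (nat_lit 481) (nat_lit 462) (nat_lit 257)) (XT.lf (nat_lit 0) (nat_lit 4393534470) (nat_lit 608) (nat_lit 11477745563) (nat_lit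 684) (nat_lit 18790035672) (nat_lit 281) (nat_lit 5) (nat_lit 289) (nat_lit 5) (nat_lit 290) (nat_lit 5) (nat_lit 482) (nat_lit 462) (nat_lit 256))) (XT.nd (nat_lit 78) (nat_lit 608) (nat_lit 0) (XT.lf (nat_lit 0) (nat_lit 19577955370) (nat_lit 684) (nat_lit 11536442035) (nat_lit 76) (nat_lit 4114183323) (nat_lit 281) (nat_lit 5) (nat_lit 290) (nat_lit 5) (nat_lit 282) (nat_lit 5) (nat_lit 483) (nat_lit 462) (nat_lit 255)) (XT.lf (nat_lit 0) (nat_lit 7793009222) (nat_lit 608) (nat_lit 15789051169) (nat_lit 684) (nat_lit 12225216624) (nat_lit 273) (nat_lit 5) (nat_lit 281) (nat_lit 5) (nat_lit 282) (nat_lit 5) (nat_lit 484) (nat_lit 462) (nat_lit 254)))) (XT.nd (nat_lit 156) (nat_lit 684) (nat_lit 0) (XT.nd (nat_lit 78) (nat_lit 532) (nat_lit 0) (XT.lf (nat_lit 0) (nat_lit 27821623295) (nat_lit 684) (nat_lit 8464428582) (nat_lit 76) (nat_lit 113822461) (nat_lit 273) (nat_lit 5) (nat_lit 282) (nat_lit 5) (nat_lit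 274) (nat_lit 5) (nat_lit 485) (nat_lit 462) (nat_lit 253)) (XT.lf (nat_lit 0) (nat_lit 11742480221) (nat_lit 532) (nat_lit 20712886089) (nat_lit 608) (nat_lit 4546873658) (nat_lit 266) (nat_lit 5) (nat_lit 273) (nat_lit 5) (nat_lit 274) (nat_lit 5) (nat_lit 486) (nat_lit 462) (nat_lit 252))) (XT.nd (nat_lit 78) (nat_lit 684) (nat_lit 0) (XT.lf (nat_lit 0) (nat_lit 32726894275) (nat_lit 532) (nat_lit 4584534636) (nat_lit 608) (nat_lit 308748618) (nat_lit 266) (nat_lit 5) (nat_lit 273) (nat_lit 5) (nat_lit 274) (nat_lit 5) (nat_lit 487) (nat_lit 462) (nat_lit 251)) (XT.lf (nat_lit 0) (nat_lit 4250082446) (nat_lit 684) (nat_lit 22006100275) (nat_lit 76) (nat_lit 11991119265) (nat_lit 257) (nat_lit 5) (nat_lit 266) (nat_lit 5) (nat_lit 258) (nat_lit 5) (nat_lit 488) (nat_lit 462) (nat_lit 250))))) (XT.nd (nat_lit 312) (nat_lit 988) (nat_lit 0) (XT.nd (nat_lit 156) (nat_lit 532) (nat_lit 0) (XT.nd (nat_lit 78) (nat_lit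 532) (nat_lit 0) (XT.lf (nat_lit 0) (nat_lit 9032681585) (nat_lit 684) (nat_lit 832899443) (nat_lit 76) (nat_lit 29024771343) (nat_lit 257) (nat_lit 5) (nat_lit 266) (nat_lit 5) (nat_lit 258) (nat_lit 5) (nat_lit 489) (nat_lit 462) (nat_lit 249)) (XT.lf (nat_lit 0) (nat_lit 14231839395) (nat_lit 608) (nat_lit 18225330139) (nat_lit 76) (nat_lit 7087332472) (nat_lit 250) (nat_lit 5) (nat_lit 258) (nat_lit 5) (nat_lit 251) (nat_lit 5) (nat_lit 490) (nat_lit 462) (nat_lit 248))) (XT.nd (nat_lit 78) (nat_lit 0) (nat_lit 0) (XT.lf (nat_lit 0) (nat_lit 3911209942) (nat_lit 532) (nat_lit 15817544818) (nat_lit 608) (nat_lit 20485268042) (nat_lit 243) (nat_lit 5) (nat_lit 250) (nat_lit 5) (nat_lit 251) (nat_lit 5) (nat_lit 491) (nat_lit 462) (nat_lit 247)) (XT.lf (nat_lit 0) (nat_lit 25587188291) (nat_lit 608) (nat_lit 13829422903) (nat_lit 76) (nat_lit 1481119856) (nat_lit 243) (nat_lit 5) (nat_lit 251) (nat_lit 5) (nat_lit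 244) (nat_lit 5) (nat_lit 492) (nat_lit 462) (nat_lit 246)))) (XT.nd (nat_lit 156) (nat_lit 532) (nat_lit 0) (XT.nd (nat_lit 78) (nat_lit 0) (nat_lit 0) (XT.lf (nat_lit 0) (nat_lit 9341674861) (nat_lit 456) (nat_lit 22524211665) (nat_lit 532) (nat_lit 9728728814) (nat_lit 237) (nat_lit 5) (nat_lit 243) (nat_lit 5) (nat_lit 244) (nat_lit 5) (nat_lit 493) (nat_lit 462) (nat_lit 245)) (XT.lf (nat_lit 0) (nat_lit 33489242226) (nat_lit 456) (nat_lit 4981492503) (nat_lit 532) (nat_lit 3837537901) (nat_lit 237) (nat_lit 5) (nat_lit 243) (nat_lit 5) (nat_lit 244) (nat_lit 5) (nat_lit 494) (nat_lit 462) (nat_lit 244))) (XT.nd (nat_lit 78) (nat_lit 0) (nat_lit 0) (XT.lf (nat_lit 0) (nat_lit 2462484491) (nat_lit 532) (nat_lit 27567034512) (nat_lit 76) (nat_lit 13004909013) (nat_lit 230) (nat_lit 5) (nat_lit 237) (nat_lit 5) (nat_lit 231) (nat_lit 5) (nat_lit 495) (nat_lit 462) (nat_lit 243)) (XT.lf (nat_lit 0) (nat_lit 9011840235)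 (nat_lit 532) (nat_lit 3206860382) (nat_lit 76) (nat_lit 31558403811) (nat_lit 230) (nat_lit 5) (nat_lit 237) (nat_lit 5) (nat_lit 231) (nat_lit 5) (nat_lit 496) (nat_lit 462) (nat_lit 242)))))) (XT.nd (nat_lit 624) (nat_lit 1824) (nat_lit 0) (XT.nd (nat_lit 312) (nat_lit 912) (nat_lit 0) (XT.nd (nat_lit 156) (nat_lit 380) (nat_lit 0) (XT.nd (nat_lit 78) (nat_lit 456) (nat_lit 0) (XT.lf (nat_lit 0) (nat_lit 16031475419) (nat_lit 532) (nat_lit 22279169159) (nat_lit 76) (nat_lit 6223202719) (nat_lit 224) (nat_lit 5) (nat_lit 231) (nat_lit 5) (nat_lit 225) (nat_lit 5) (nat_lit 497) (nat_lit 462) (nat_lit 241)) (XT.lf (nat_lit 0) (nat_lit 3171956416) (nat_lit 456) (nat_lit 20272199556) (nat_lit 532) (nat_lit 21863662910) (nat_lit 218) (nat_lit 5) (nat_lit 224) (nat_lit 5) (nat_lit 225) (nat_lit 5) (nat_lit 498) (nat_lit 462) (nat_lit 240))) (XT.nd (nat_lit 78) (nat_lit 380) (nat_lit 0) (XT.lf (nat_lit 0) (nat_lit 29841216315)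 (nat_lit 456) (nat_lit 1461290991) (nat_lit 532) (nat_lit 14795803718) (nat_lit 218) (nat_lit 5) (nat_lit 224) (nat_lit 5) (nat_lit 225) (nat_lit 5) (nat_lit 499) (nat_lit 462) (nat_lit 239)) (XT.lf (nat_lit 0) (nat_lit 10427224261) (nat_lit 380) (nat_lit 29240177234) (nat_lit 456) (nat_lit 7236992781) (nat_lit 213) (nat_lit 5) (nat_lit 218) (nat_lit 5) (nat_lit 219) (nat_lit 5) (nat_lit 500) (nat_lit 462) (nat_lit 238)))) (XT.nd (nat_lit 156) (nat_lit 380) (nat_lit 0) (XT.nd (nat_lit 78) (nat_lit 456) (nat_lit 0) (XT.lf (nat_lit 0) (nat_lit 716507585) (nat_lit 456) (nat_lit 9507871512) (nat_lit 76) (nat_lit 37504763940) (nat_lit 212) (nat_lit 5) (nat_lit 218) (nat_lit 5) (nat_lit 213) (nat_lit 5) (nat_lit 501) (nat_lit 462) (nat_lit 237)) (XT.lf (nat_lit 0) (nat_lit 9032439338) (nat_lit 532) (nat_lit 30104674688) (nat_lit 76) (nat_lit 9431292256) (nat_lit 206) (nat_lit 5) (nat_lit 213) (nat_lit 5) (nat_lit 207)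 (nat_lit 5) (nat_lit 502) (nat_lit 462) (nat_lit 236))) (XT.nd (nat_lit 78) (nat_lit 380) (nat_lit 0) (XT.lf (nat_lit 0) (nat_lit 17794483172) (nat_lit 532) (nat_lit 2064822409) (nat_lit 76) (nat_lit 29567642921) (nat_lit 206) (nat_lit 5) (nat_lit 213) (nat_lit 5) (nat_lit 207) (nat_lit 5) (nat_lit 503) (nat_lit 462) (nat_lit 235)) (XT.lf (nat_lit 0) (nat_lit 27083327248) (nat_lit 456) (nat_lit 22958090698) (nat_lit 76) (nat_lit 261910974) (nat_lit 201) (nat_lit 5) (nat_lit 207) (nat_lit 5) (nat_lit 202) (nat_lit 5) (nat_lit 504) (nat_lit 462) (nat_lit 234))))) (XT.nd (nat_lit 312) (nat_lit 1064) (nat_lit 0) (XT.nd (nat_lit 156) (nat_lit 380) (nat_lit 0) (XT.nd (nat_lit 78) (nat_lit 0) (nat_lit 0) (XT.lf (nat_lit 0) (nat_lit 6400599218) (nat_lit 380) (nat_lit 30527954731) (nat_lit 456) (nat_lit 14269115378) (nat_lit 196) (nat_lit 5) (nat_lit 201) (nat_lit 5) (nat_lit 202) (nat_lit 5) (nat_lit 505) (nat_lit 462)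 (nat_lit 233)) (XT.lf (nat_lit 0) (nat_lit 37108669399) (nat_lit 380) (nat_lit 10190830967) (nat_lit 456) (nat_lit 4812428788) (nat_lit 196) (nat_lit 5) (nat_lit 201) (nat_lit 5) (nat_lit 202) (nat_lit 5) (nat_lit 506) (nat_lit 462) (nat_lit 232))) (XT.nd (nat_lit 78) (nat_lit 0) (nat_lit 0) (XT.lf (nat_lit 0) (nat_lit 5089019284) (nat_lit 380) (nat_lit 37206826478) (nat_lit 76) (nat_lit 10748633291) (nat_lit 191) (nat_lit 5) (nat_lit 196) (nat_lit 5) (nat_lit 192) (nat_lit 5) (nat_lit 507) (nat_lit 462) (nat_lit 231)) (XT.lf (nat_lit 0) (nat_lit 15443266469) (nat_lit 380) (nat_lit 6241150597) (nat_lit 76) (nat_lit 32311584614) (nat_lit 191) (nat_lit 5) (nat_lit 196) (nat_lit 5) (nat_lit 192) (nat_lit 5) (nat_lit 508) (nat_lit 462) (nat_lit 230)))) (XT.nd (nat_lit 156) (nat_lit 380) (nat_lit 0) (XT.nd (nat_lit 78) (nat_lit 304) (nat_lit 0) (XT.lf (nat_lit 0) (nat_lit 26162082425) (nat_lit 380) (nat_lit 196163871)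 (nat_lit 456) (nat_lit 28610320615) (nat_lit 186) (nat_lit 5) (nat_lit 191) (nat_lit 5) (nat_lit 192) (nat_lit 5) (nat_lit 509) (nat_lit 462) (nat_lit 229)) (XT.lf (nat_lit 0) (nat_lit 3552820278) (nat_lit 304) (nat_lit 34355159666) (nat_lit 380) (nat_lit 18053110103) (nat_lit 182) (nat_lit 5) (nat_lit 186) (nat_lit 5) (nat_lit 187) (nat_lit 5) (nat_lit 510) (nat_lit 462) (nat_lit 228))) (XT.nd (nat_lit 78) (nat_lit 380) (nat_lit 0) (XT.lf (nat_lit 0) (nat_lit 37469500867) (nat_lit 304) (nat_lit 12626173959) (nat_lit 380) (nat_lit 6878970053) (nat_lit 182) (nat_lit 5) (nat_lit 186) (nat_lit 5) (nat_lit 187) (nat_lit 5) (nat_lit 511) (nat_lit 462) (nat_lit 227)) (XT.lf (nat_lit 0) (nat_lit 4774891789) (nat_lit 380) (nat_lit 43484652635) (nat_lit 76) (nat_lit 9750681103) (nat_lit 177) (nat_lit 5) (nat_lit 182) (nat_lit 5) (nat_lit 178) (nat_lit 5) (nat_lit 512) (nat_lit 462) (nat_lit 226))))))))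
noncomputable def xc216 : XT := (XT.nd (nat_lit 2418) (nat_lit 228) (nat_lit 0) (XT.nd (nat_lit 1170) (nat_lit 2280) (nat_lit 0) (XT.nd (nat_lit 546) (nat_lit 1368) (nat_lit 0) (XT.nd (nat_lit 234) (nat_lit 684) (nat_lit 0) (XT.nd (nat_lit 78) (nat_lit 608) (nat_lit 0) (XT.lf (nat_lit 0) (nat_lit 16962732339) (nat_lit 380) (nat_lit 9290899483) (nat_lit 76) (nat_lit 32811519885) (nat_lit 177) (nat_lit 5) (nat_lit 182) (nat_lit 5) (nat_lit 178) (nat_lit 5) (nat_lit 513) (nat_lit 462) (nat_lit 225)) (XT.nd (nat_lit 78) (nat_lit 304) (nat_lit 0) (XT.lf (nat_lit 0) (nat_lit 26442804246) (nat_lit 304) (nat_lit 3326324066) (nat_lit 380) (nat_lit 30375009825) (nat_lit 173) (nat_lit 5) (nat_lit 177) (nat_lit 5) (nat_lit 178) (nat_lit 5) (nat_lit 514) (nat_lit 462) (nat_lit 224)) (XT.lf (nat_lit 0) (nat_lit 2028041057) (nat_lit 304) (nat_lit 41239696287) (nat_lit 380) (nat_lit 17978516247) (nat_lit 169) (nat_lit 5) (nat_lit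 173) (nat_lit 5) (nat_lit 174) (nat_lit 5) (nat_lit 515) (nat_lit 462) (nat_lit 223)))) (XT.nd (nat_lit 156) (nat_lit 304) (nat_lit 0) (XT.nd (nat_lit 78) (nat_lit 380) (nat_lit 0) (XT.lf (nat_lit 0) (nat_lit 39484700651) (nat_lit 304) (nat_lit 18058300286) (nat_lit 380) (nat_lit 4827280749) (nat_lit 169) (nat_lit 5) (nat_lit 173) (nat_lit 5) (nat_lit 174) (nat_lit 5) (nat_lit 516) (nat_lit 462) (nat_lit 222)) (XT.lf (nat_lit 0) (nat_lit 8746992886) (nat_lit 380) (nat_lit 48840448893) (nat_lit 76) (nat_lit 5932115774) (nat_lit 164) (nat_lit 5) (nat_lit 169) (nat_lit 5) (nat_lit 165) (nat_lit 5) (nat_lit 517) (nat_lit 462) (nat_lit 221))) (XT.nd (nat_lit 78) (nat_lit 304) (nat_lit 0) (XT.lf (nat_lit 0) (nat_lit 23042457636) (nat_lit 380) (nat_lit 11087219460) (nat_lit 76) (nat_lit 30559871221) (nat_lit 164) (nat_lit 5) (nat_lit 169) (nat_lit 5) (nat_lit 165) (nat_lit 5) (nat_lit 518) (nat_lit 462) (nat_lit 220))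 (XT.lf (nat_lit 0) (nat_lit 28350037873) (nat_lit 304) (nat_lit 9688105013) (nat_lit 380) (nat_lit 27848355280) (nat_lit 160) (nat_lit 5) (nat_lit 164) (nat_lit 5) (nat_lit 165) (nat_lit 5) (nat_lit 519) (nat_lit 462) (nat_lit 219))))) (XT.nd (nat_lit 312) (nat_lit 760) (nat_lit 0) (XT.nd (nat_lit 156) (nat_lit 304) (nat_lit 0) (XT.nd (nat_lit 78) (nat_lit 76) (nat_lit 0) (XT.lf (nat_lit 0) (nat_lit 1968334002) (nat_lit 228) (nat_lit 51795070562) (nat_lit 304) (nat_lit 13347560826) (nat_lit 157) (nat_lit 5) (nat_lit 160) (nat_lit 5) (nat_lit 161) (nat_lit 5) (nat_lit 520) (nat_lit 462) (nat_lit 218)) (XT.lf (nat_lit 0) (nat_lit 2034838994) (nat_lit 304) (nat_lit 25049801192) (nat_lit 76) (nat_lit 41272741255) (nat_lit 156) (nat_lit 5) (nat_lit 160) (nat_lit 5) (nat_lit 157) (nat_lit 5) (nat_lit 521) (nat_lit 462) (nat_lit 217))) (XT.nd (nat_lit 78) (nat_lit 0) (nat_lit 0) (XT.lf (nat_lit 0) (nat_lit 16432574273)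 (nat_lit 304) (nat_lit 1334711853) (nat_lit 380) (nat_lit 51865233836) (nat_lit 152) (nat_lit 5) (nat_lit 156) (nat_lit 5) (nat_lit 157) (nat_lit 5) (nat_lit 522) (nat_lit 462) (nat_lit 216)) (XT.lf (nat_lit 0) (nat_lit 34468182591) (nat_lit 380) (nat_lit 11511784913) (nat_lit 76) (nat_lit 24951050904) (nat_lit 152) (nat_lit 5) (nat_lit 157) (nat_lit 5) (nat_lit 153) (nat_lit 5) (nat_lit 523) (nat_lit 462) (nat_lit 215)))) (XT.nd (nat_lit 156) (nat_lit 304) (nat_lit 0) (XT.nd (nat_lit 78) (nat_lit 228) (nat_lit 0) (XT.lf (nat_lit 0) (nat_lit 32037265194) (nat_lit 228) (nat_lit 19952947452) (nat_lit 304) (nat_lit 20268656013) (nat_lit 149) (nat_lit 5) (nat_lit 152) (nat_lit 5) (nat_lit 153) (nat_lit 5) (nat_lit 524) (nat_lit 462) (nat_lit 214)) (XT.lf (nat_lit 0) (nat_lit 3505345827) (nat_lit 228) (nat_lit 66748482871) (nat_lit 304) (nat_lit 3366248012) (nat_lit 146) (nat_lit 5) (nat_lit 149) (nat_lit 5) (nat_lit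 150) (nat_lit 5) (nat_lit 525) (nat_lit 462) (nat_lit 213))) (XT.nd (nat_lit 78) (nat_lit 228) (nat_lit 0) (XT.lf (nat_lit 0) (nat_lit 14375875860) (nat_lit 304) (nat_lit 25979612836) (nat_lit 76) (nat_lit 34644382258) (nat_lit 145) (nat_lit 5) (nat_lit 149) (nat_lit 5) (nat_lit 146) (nat_lit 5) (nat_lit 526) (nat_lit 462) (nat_lit 212)) (XT.lf (nat_lit 0) (nat_lit 19831548294) (nat_lit 228) (nat_lit 12940663694) (nat_lit 304) (nat_lit 43642159000) (nat_lit 142) (nat_lit 5) (nat_lit 145) (nat_lit 5) (nat_lit 146) (nat_lit 5) (nat_lit 527) (nat_lit 462) (nat_lit 211)))))) (XT.nd (nat_lit 624) (nat_lit 1064) (nat_lit 0) (XT.nd (nat_lit 312) (nat_lit 684) (nat_lit 0) (XT.nd (nat_lit 156) (nat_lit 304) (nat_lit 0) (XT.nd (nat_lit 78) (nat_lit 228) (nat_lit 0) (XT.lf (nat_lit 0) (nat_lit 52131400859) (nat_lit 304) (nat_lit 10465146820) (nat_lit 76) (nat_lit 15262429508) (nat_lit 142) (nat_lit 5) (nat_lit 146) (nat_lit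 5) (nat_lit 143) (nat_lit 5) (nat_lit 528) (nat_lit 462) (nat_lit 210)) (XT.lf (nat_lit 0) (nat_lit 37640816466) (nat_lit 228) (nat_lit 34919512241) (nat_lit 304) (nat_lit 6771924005) (nat_lit 139) (nat_lit 5) (nat_lit 142) (nat_lit 5) (nat_lit 143) (nat_lit 5) (nat_lit 529) (nat_lit 462) (nat_lit 209))) (XT.nd (nat_lit 78) (nat_lit 0) (nat_lit 0) (XT.lf (nat_lit 0) (nat_lit 6560691179) (nat_lit 228) (nat_lit 6111665647) (nat_lit 304) (nat_lit 68168628077) (nat_lit 135) (nat_lit 5) (nat_lit 138) (nat_lit 5) (nat_lit 139) (nat_lit 5) (nat_lit 530) (nat_lit 462) (nat_lit 208)) (XT.lf (nat_lit 0) (nat_lit 33214526366) (nat_lit 304) (nat_lit 25566663379) (nat_lit 76) (nat_lit 23592257811) (nat_lit 135) (nat_lit 5) (nat_lit 139) (nat_lit 5) (nat_lit 136) (nat_lit 5) (nat_lit 531) (nat_lit 462) (nat_lit 207)))) (XT.nd (nat_lit 156) (nat_lit 456) (nat_lit 0) (XT.nd (nat_lit 78) (nat_lit 0) (nat_lit 0) (XT.lf (nat_lit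 0) (nat_lit 25034794858) (nat_lit 228) (nat_lit 29638377943) (nat_lit 304) (nat_lit 29269704969) (nat_lit 132) (nat_lit 5) (nat_lit 135) (nat_lit 5) (nat_lit 136) (nat_lit 5) (nat_lit 532) (nat_lit 462) (nat_lit 206)) (XT.lf (nat_lit 0) (nat_lit 77039005371) (nat_lit 304) (nat_lit 7881048913) (nat_lit 76) (nat_lit 631433841) (nat_lit 132) (nat_lit 5) (nat_lit 136) (nat_lit 5) (nat_lit 133) (nat_lit 5) (nat_lit 533) (nat_lit 462) (nat_lit 205))) (XT.nd (nat_lit 78) (nat_lit 228) (nat_lit 0) (XT.lf (nat_lit 0) (nat_lit 13351219478) (nat_lit 228) (nat_lit 42052338520) (nat_lit 76) (nat_lit 31779042515) (nat_lit 129) (nat_lit 5) (nat_lit 132) (nat_lit 5) (nat_lit 130) (nat_lit 5) (nat_lit 534) (nat_lit 462) (nat_lit 204)) (XT.lf (nat_lit 0) (nat_lit 11164444272) (nat_lit 228) (nat_lit 24722073938) (nat_lit 304) (nat_lit 52967996300) (nat_lit 126) (nat_lit 5) (nat_lit 129) (nat_lit 5) (nat_lit 130) (nat_lit 5) (nat_lit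 535) (nat_lit 462) (nat_lit 203))))) (XT.nd (nat_lit 312) (nat_lit 608) (nat_lit 0) (XT.nd (nat_lit 156) (nat_lit 304) (nat_lit 0) (XT.nd (nat_lit 78) (nat_lit 152) (nat_lit 0) (XT.lf (nat_lit 0) (nat_lit 59591952909) (nat_lit 304) (nat_lit 23795979318) (nat_lit 76) (nat_lit 7173831420) (nat_lit 126) (nat_lit 5) (nat_lit 130) (nat_lit 5) (nat_lit 127) (nat_lit 5) (nat_lit 536) (nat_lit 462) (nat_lit 202)) (XT.lf (nat_lit 0) (nat_lit 32094937254) (nat_lit 152) (nat_lit 52466022041) (nat_lit 228) (nat_lit 7742698734) (nat_lit 124) (nat_lit 5) (nat_lit 126) (nat_lit 5) (nat_lit 127) (nat_lit 5) (nat_lit 537) (nat_lit 462) (nat_lit 201))) (XT.nd (nat_lit 78) (nat_lit 228) (nat_lit 0) (XT.lf (nat_lit 0) (nat_lit 16107266572) (nat_lit 228) (nat_lit 4099662446) (nat_lit 76) (nat_lit 73878960119) (nat_lit 123) (nat_lit 5) (nat_lit 126) (nat_lit 5) (nat_lit 124) (nat_lit 5) (nat_lit 538) (nat_lit 462) (nat_lit 200)) (XT.lf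 (nat_lit 0) (nat_lit 41173003585) (nat_lit 304) (nat_lit 41353085737) (nat_lit 76) (nat_lit 13373521273) (nat_lit 120) (nat_lit 5) (nat_lit 124) (nat_lit 5) (nat_lit 121) (nat_lit 5) (nat_lit 539) (nat_lit 462) (nat_lit 199)))) (XT.nd (nat_lit 156) (nat_lit 456) (nat_lit 0) (XT.nd (nat_lit 78) (nat_lit 0) (nat_lit 0) (XT.lf (nat_lit 0) (nat_lit 17407361527) (nat_lit 152) (nat_lit 49991711011) (nat_lit 228) (nat_lit 30356420390) (nat_lit 118) (nat_lit 5) (nat_lit 120) (nat_lit 5) (nat_lit 121) (nat_lit 5) (nat_lit 540) (nat_lit 462) (nat_lit 198)) (XT.lf (nat_lit 0) (nat_lit 78776858984) (nat_lit 152) (nat_lit 16051812876) (nat_lit 228) (nat_lit 4825877449) (nat_lit 118) (nat_lit 5) (nat_lit 120) (nat_lit 5) (nat_lit 121) (nat_lit 5) (nat_lit 541) (nat_lit 462) (nat_lit 197))) (XT.nd (nat_lit 78) (nat_lit 152) (nat_lit 0) (XT.lf (nat_lit 0) (nat_lit 21632282488) (nat_lit 304) (nat_lit 60811787843) (nat_lit 76) (nat_lit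 19142895351) (nat_lit 114) (nat_lit 5) (nat_lit 118) (nat_lit 5) (nat_lit 115) (nat_lit 5) (nat_lit 542) (nat_lit 462) (nat_lit 196)) (XT.lf (nat_lit 0) (nat_lit 942734229) (nat_lit 152) (nat_lit 48224543610) (nat_lit 228) (nat_lit 54397240724) (nat_lit 112) (nat_lit 5) (nat_lit 114) (nat_lit 5) (nat_lit 115) (nat_lit 5) (nat_lit 543) (nat_lit 462) (nat_lit 195))))))) (XT.nd (nat_lit 57174) (nat_lit 0) (nat_lit 10716) (XT.nd (nat_lit 56550) (nat_lit 0) (nat_lit 15352) (XT.nd (nat_lit 56238) (nat_lit 0) (nat_lit 15200) (XT.nd (nat_lit 78) (nat_lit 228) (nat_lit 0) (XT.lf (nat_lit 0) (nat_lit 65795048964) (nat_lit 152) (nat_lit 12346547872) (nat_lit 228) (nat_lit 27441403004) (nat_lit 112) (nat_lit 5) (nat_lit 114) (nat_lit 5) (nat_lit 115) (nat_lit 5) (nat_lit 544) (nat_lit 462) (nat_lit 194)) (XT.nd (nat_lit 56082) (nat_lit 0) (nat_lit 15200) (XT.lf (nat_lit 0) (nat_lit 799380455) (nat_lit 228) (nat_lit 82471147931)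 (nat_lit 76) (nat_lit 24376936744) (nat_lit 109) (nat_lit 5) (nat_lit 112) (nat_lit 5) (nat_lit 110) (nat_lit 5) (nat_lit 545) (nat_lit 462) (nat_lit 193)) (XT.lf (nat_lit 0) (nat_lit 6009668586) (nat_lit 1292) (nat_lit 3547217153) (nat_lit 1292) (nat_lit 3547217153) (nat_lit 309) (nat_lit 3) (nat_lit 326) (nat_lit 3) (nat_lit 326) (nat_lit 5) (nat_lit 463) (nat_lit 463) (nat_lit 274)))) (XT.nd (nat_lit 156) (nat_lit 0) (nat_lit 76) (XT.nd (nat_lit 78) (nat_lit 0) (nat_lit 76) (XT.lf (nat_lit 76) (nat_lit 6022001695) (nat_lit 0) (nat_lit 6330710253) (nat_lit 1292) (nat_lit 14244015576) (nat_lit 310) (nat_lit 5) (nat_lit 309) (nat_lit 3) (nat_lit 326) (nat_lit 5) (nat_lit 464) (nat_lit 463) (nat_lit 273)) (XT.lf (nat_lit 0) (nat_lit 12830430533) (nat_lit 1216) (nat_lit 7385896735) (nat_lit 1292) (nat_lit 6776547716) (nat_lit 310) (nat_lit 5) (nat_lit 326) (nat_lit 5) (nat_lit 327) (nat_lit 5) (nat_lit 465) (nat_lit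 463) (nat_lit 272))) (XT.nd (nat_lit 78) (nat_lit 0) (nat_lit 76) (XT.lf (nat_lit 76) (nat_lit 6255972983) (nat_lit 0) (nat_lit 7185715568) (nat_lit 1292) (nat_lit 13955642413) (nat_lit 311) (nat_lit 5) (nat_lit 310) (nat_lit 5) (nat_lit 327) (nat_lit 5) (nat_lit 466) (nat_lit 463) (nat_lit 271)) (XT.lf (nat_lit 0) (nat_lit 14203040141) (nat_lit 1216) (nat_lit 7415982951) (nat_lit 1292) (nat_lit 6190945181) (nat_lit 311) (nat_lit 5) (nat_lit 327) (nat_lit 5) (nat_lit 328) (nat_lit 5) (nat_lit 467) (nat_lit 463) (nat_lit 270))))) (XT.nd (nat_lit 312) (nat_lit 0) (nat_lit 152) (XT.nd (nat_lit 156) (nat_lit 0) (nat_lit 76) (XT.nd (nat_lit 78) (nat_lit 0) (nat_lit 76) (XT.lf (nat_lit 76) (nat_lit 6780255274) (nat_lit 0) (nat_lit 8339892688) (nat_lit 1292) (nat_lit 13110849583) (nat_lit 312) (nat_lit 5) (nat_lit 311) (nat_lit 5) (nat_lit 328) (nat_lit 5) (nat_lit 468) (nat_lit 463) (nat_lit 269)) (XT.lf (nat_lit 0)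 (nat_lit 16188391742) (nat_lit 1216) (nat_lit 7162211739) (nat_lit 1292) (nat_lit 5310345837) (nat_lit 312) (nat_lit 5) (nat_lit 328) (nat_lit 5) (nat_lit 329) (nat_lit 5) (nat_lit 469) (nat_lit 463) (nat_lit 268))) (XT.nd (nat_lit 78) (nat_lit 0) (nat_lit 76) (XT.lf (nat_lit 76) (nat_lit 7618986217) (nat_lit 0) (nat_lit 9822290689) (nat_lit 1292) (nat_lit 11657945214) (nat_lit 313) (nat_lit 5) (nat_lit 312) (nat_lit 5) (nat_lit 329) (nat_lit 5) (nat_lit 470) (nat_lit 463) (nat_lit 267)) (XT.lf (nat_lit 0) (nat_lit 18841181507) (nat_lit 1216) (nat_lit 6600450460) (nat_lit 1292) (nat_lit 4105728439) (nat_lit 313) (nat_lit 5) (nat_lit 329) (nat_lit 5) (nat_lit 330) (nat_lit 5) (nat_lit 471) (nat_lit 463) (nat_lit 266)))) (XT.nd (nat_lit 156) (nat_lit 0) (nat_lit 76) (XT.nd (nat_lit 78) (nat_lit 0) (nat_lit 76) (XT.lf (nat_lit 76) (nat_lit 8798049478) (nat_lit 0) (nat_lit 11663814346) (nat_lit 1292) (nat_lit 9541715879)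 (nat_lit 314) (nat_lit 5) (nat_lit 313) (nat_lit 5) (nat_lit 330) (nat_lit 5) (nat_lit 472) (nat_lit 463) (nat_lit 265)) (XT.lf (nat_lit 0) (nat_lit 22219807409) (nat_lit 1216) (nat_lit 5704820672) (nat_lit 1292) (nat_lit 2546198545) (nat_lit 314) (nat_lit 5) (nat_lit 330) (nat_lit 5) (nat_lit 331) (nat_lit 5) (nat_lit 473) (nat_lit 463) (nat_lit 264))) (XT.nd (nat_lit 78) (nat_lit 0) (nat_lit 76) (XT.lf (nat_lit 76) (nat_lit 10345174606) (nat_lit 0) (nat_lit 13897363468) (nat_lit 1292) (nat_lit 6703191683) (nat_lit 315) (nat_lit 5) (nat_lit 314) (nat_lit 5) (nat_lit 331) (nat_lit 5) (nat_lit 474) (nat_lit 463) (nat_lit 263)) (XT.lf (nat_lit 0) (nat_lit 26386614174) (nat_lit 1216) (nat_lit 4447597601) (nat_lit 1292) (nat_lit 598848558) (nat_lit 315) (nat_lit 5) (nat_lit 331) (nat_lit 5) (nat_lit 332) (nat_lit 5) (nat_lit 475) (nat_lit 463) (nat_lit 262)))))) (XT.nd (nat_lit 624) (nat_lit 2356) (nat_lit 0) (XT.nd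 (nat_lit 312) (nat_lit 1368) (nat_lit 0) (XT.nd (nat_lit 156) (nat_lit 1216) (nat_lit 0) (XT.nd (nat_lit 78) (nat_lit 0) (nat_lit 0) (XT.lf (nat_lit 76) (nat_lit 12290043352) (nat_lit 0) (nat_lit 16557979860) (nat_lit 1292) (nat_lit 3079397543) (nat_lit 316) (nat_lit 5) (nat_lit 315) (nat_lit 5) (nat_lit 332) (nat_lit 5) (nat_lit 476) (nat_lit 463) (nat_lit 261)) (XT.lf (nat_lit 76) (nat_lit 29618875136) (nat_lit 0) (nat_lit 1806644112) (nat_lit 1292) (nat_lit 1009825639) (nat_lit 316) (nat_lit 5) (nat_lit 315) (nat_lit 5) (nat_lit 332) (nat_lit 5) (nat_lit 477) (nat_lit 463) (nat_lit 260))) (XT.nd (nat_lit 78) (nat_lit 0) (nat_lit 0) (XT.lf (nat_lit 0) (nat_lit 1369651462) (nat_lit 1292) (nat_lit 18299520263) (nat_lit 1368) (nat_lit 13280920462) (nat_lit 299) (nat_lit 5) (nat_lit 316) (nat_lit 5) (nat_lit 317) (nat_lit 5) (nat_lit 478) (nat_lit 463) (nat_lit 259)) (XT.lf (nat_lit 0) (nat_lit 3844271685) (nat_lit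 1292) (nat_lit 810398022) (nat_lit 1368) (nat_lit 28823990813) (nat_lit 299) (nat_lit 5) (nat_lit 316) (nat_lit 5) (nat_lit 317) (nat_lit 5) (nat_lit 479) (nat_lit 463) (nat_lit 258)))) (XT.nd (nat_lit 156) (nat_lit 608) (nat_lit 0) (XT.nd (nat_lit 78) (nat_lit 836) (nat_lit 0) (XT.lf (nat_lit 0) (nat_lit 6664878709) (nat_lit 1292) (nat_lit 16580050799) (nat_lit 76) (nat_lit 10770004162) (nat_lit 300) (nat_lit 5) (nat_lit 317) (nat_lit 5) (nat_lit 301) (nat_lit 5) (nat_lit 480) (nat_lit 463) (nat_lit 257)) (XT.lf (nat_lit 0) (nat_lit 1661179266) (nat_lit 836) (nat_lit 7976818602) (nat_lit 912) (nat_lit 24927260538) (nat_lit 289) (nat_lit 5) (nat_lit 300) (nat_lit 5) (nat_lit 301) (nat_lit 5) (nat_lit 481) (nat_lit 463) (nat_lit 256))) (XT.nd (nat_lit 78) (nat_lit 608) (nat_lit 0) (XT.lf (nat_lit 0) (nat_lit 12941513434) (nat_lit 912) (nat_lit 14415905261) (nat_lit 76) (nat_lit 7767438306) (nat_lit 289) (nat_lit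 5) (nat_lit 301) (nat_lit 5) (nat_lit 290) (nat_lit 5) (nat_lit 482) (nat_lit 463) (nat_lit 255)) (XT.lf (nat_lit 0) (nat_lit 4636262763) (nat_lit 608) (nat_lit 11829113582) (nat_lit 684) (nat_lit 19232230148) (nat_lit 281) (nat_lit 5) (nat_lit 289) (nat_lit 5) (nat_lit 290) (nat_lit 5) (nat_lit 483) (nat_lit 463) (nat_lit 254))))) (XT.nd (nat_lit 312) (nat_lit 1216) (nat_lit 0) (XT.nd (nat_lit 156) (nat_lit 532) (nat_lit 0) (XT.nd (nat_lit 78) (nat_lit 608) (nat_lit 0) (XT.lf (nat_lit 0) (nat_lit 20279750613) (nat_lit 684) (nat_lit 11771332797) (nat_lit 76) (nat_lit 4230911385) (nat_lit 281) (nat_lit 5) (nat_lit 290) (nat_lit 5) (nat_lit 282) (nat_lit 5) (nat_lit 484) (nat_lit 463) (nat_lit 253)) (XT.lf (nat_lit 0) (nat_lit 8136911777) (nat_lit 608) (nat_lit 16264791788) (nat_lit 684) (nat_lit 12476416944) (nat_lit 273) (nat_lit 5) (nat_lit 281) (nat_lit 5) (nat_lit 282) (nat_lit 5) (nat_lit 485) (nat_lit 463)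 (nat_lit 252))) (XT.nd (nat_lit 78) (nat_lit 532) (nat_lit 0) (XT.lf (nat_lit 0) (nat_lit 28765166628) (nat_lit 684) (nat_lit 8608160484) (nat_lit 76) (nat_lit 115267515) (nat_lit 273) (nat_lit 5) (nat_lit 282) (nat_lit 5) (nat_lit 274) (nat_lit 5) (nat_lit 486) (nat_lit 463) (nat_lit 251)) (XT.lf (nat_lit 0) (nat_lit 12203875181) (nat_lit 532) (nat_lit 21331923998) (nat_lit 608) (nat_lit 4573295995) (nat_lit 266) (nat_lit 5) (nat_lit 273) (nat_lit 5) (nat_lit 274) (nat_lit 5) (nat_lit 487) (nat_lit 463) (nat_lit 250)))) (XT.nd (nat_lit 156) (nat_lit 532) (nat_lit 0) (XT.nd (nat_lit 78) (nat_lit 684) (nat_lit 0) (XT.lf (nat_lit 0) (nat_lit 33814643388) (nat_lit 532) (nat_lit 4719790409) (nat_lit 608) (nat_lit 211230618) (nat_lit 266) (nat_lit 5) (nat_lit 273) (nat_lit 5) (nat_lit 274) (nat_lit 5) (nat_lit 488) (nat_lit 463) (nat_lit 249)) (XT.lf (nat_lit 0) (nat_lit 4480301925) (nat_lit 684) (nat_lit 22556261128)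 (nat_lit 76) (nat_lit 12355068395) (nat_lit 257) (nat_lit 5) (nat_lit 266) (nat_lit 5) (nat_lit 258) (nat_lit 5) (nat_lit 489) (nat_lit 463) (nat_lit 248))) (XT.nd (nat_lit 78) (nat_lit 532) (nat_lit 0) (XT.lf (nat_lit 0) (nat_lit 9403387281) (nat_lit 684) (nat_lit 751068801) (nat_lit 76) (nat_lit 29899607252) (nat_lit 257) (nat_lit 5) (nat_lit 266) (nat_lit 5) (nat_lit 258) (nat_lit 5) (nat_lit 490) (nat_lit 463) (nat_lit 247)) (XT.lf (nat_lit 0) (nat_lit 14756708194) (nat_lit 608) (nat_lit 18663453163) (nat_lit 76) (nat_lit 7307730680) (nat_lit 250) (nat_lit 5) (nat_lit 258) (nat_lit 5) (nat_lit 251) (nat_lit 5) (nat_lit 491) (nat_lit 463) (nat_lit 246))))))))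
noncomputable def xc217 : XT := (XT.nd (nat_lit 2418) (nat_lit 3344) (nat_lit 0) (XT.nd (nat_lit 1170) (nat_lit 3040) (nat_lit 0) (XT.nd (nat_lit 546) (nat_lit 2128) (nat_lit 0) (XT.nd (nat_lit 234) (nat_lit 988) (nat_lit 0) (XT.nd (nat_lit 78) (nat_lit 456) (nat_lit 0) (XT.lf (nat_lit 0) (nat_lit 4136118053) (nat_lit 532) (nat_lit 16280595159) (nat_lit 608) (nat_lit 21000839998) (nat_lit 243) (nat_lit 5) (nat_lit 250) (nat_lit 5) (nat_lit 251) (nat_lit 5) (nat_lit 492) (nat_lit 463) (nat_lit 245)) (XT.nd (nat_lit 78) (nat_lit 456) (nat_lit 0) (XT.lf (nat_lit 0) (nat_lit 26448207944) (nat_lit 608) (nat_lit 14137167945) (nat_lit 76) (nat_lit 1536477787) (nat_lit 243) (nat_lit 5) (nat_lit 251) (nat_lit 5) (nat_lit 244) (nat_lit 5) (nat_lit 493) (nat_lit 463) (nat_lit 244)) (XT.lf (nat_lit 0) (nat_lit 9728012383) (nat_lit 456) (nat_lit 23185554013) (nat_lit 532) (nat_lit 9926129329) (nat_lit 237) (nat_lit 5) (nat_lit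 243) (nat_lit 5) (nat_lit 244) (nat_lit 5) (nat_lit 494) (nat_lit 463) (nat_lit 243)))) (XT.nd (nat_lit 156) (nat_lit 456) (nat_lit 0) (XT.nd (nat_lit 78) (nat_lit 532) (nat_lit 0) (XT.lf (nat_lit 0) (nat_lit 34596916848) (nat_lit 456) (nat_lit 5116972228) (nat_lit 532) (nat_lit 3860953990) (nat_lit 237) (nat_lit 5) (nat_lit 243) (nat_lit 5) (nat_lit 244) (nat_lit 5) (nat_lit 495) (nat_lit 463) (nat_lit 242)) (XT.lf (nat_lit 0) (nat_lit 2624806582) (nat_lit 532) (nat_lit 28287772741) (nat_lit 76) (nat_lit 13410221723) (nat_lit 230) (nat_lit 5) (nat_lit 237) (nat_lit 5) (nat_lit 231) (nat_lit 5) (nat_lit 496) (nat_lit 463) (nat_lit 241))) (XT.nd (nat_lit 78) (nat_lit 456) (nat_lit 0) (XT.lf (nat_lit 0) (nat_lit 9368066856) (nat_lit 532) (nat_lit 3199888711) (nat_lit 76) (nat_lit 32519879653) (nat_lit 230) (nat_lit 5) (nat_lit 237) (nat_lit 5) (nat_lit 231) (nat_lit 5) (nat_lit 497) (nat_lit 463) (nat_lit 240)) (XT.lf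 (nat_lit 0) (nat_lit 16596943302) (nat_lit 532) (nat_lit 22843012941) (nat_lit 76) (nat_lit 6427364745) (nat_lit 224) (nat_lit 5) (nat_lit 231) (nat_lit 5) (nat_lit 225) (nat_lit 5) (nat_lit 498) (nat_lit 463) (nat_lit 239))))) (XT.nd (nat_lit 312) (nat_lit 1216) (nat_lit 0) (XT.nd (nat_lit 156) (nat_lit 456) (nat_lit 0) (XT.nd (nat_lit 78) (nat_lit 0) (nat_lit 0) (XT.lf (nat_lit 0) (nat_lit 3370621584) (nat_lit 456) (nat_lit 20859915803) (nat_lit 532) (nat_lit 22434018518) (nat_lit 218) (nat_lit 5) (nat_lit 224) (nat_lit 5) (nat_lit 225) (nat_lit 5) (nat_lit 499) (nat_lit 463) (nat_lit 238)) (XT.lf (nat_lit 0) (nat_lit 30836944529) (nat_lit 456) (nat_lit 1485275604) (nat_lit 532) (nat_lit 15156615422) (nat_lit 218) (nat_lit 5) (nat_lit 224) (nat_lit 5) (nat_lit 225) (nat_lit 5) (nat_lit 500) (nat_lit 463) (nat_lit 237))) (XT.nd (nat_lit 78) (nat_lit 76) (nat_lit 0) (XT.lf (nat_lit 0) (nat_lit 10841759549) (nat_lit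 380) (nat_lit 30095116002) (nat_lit 456) (nat_lit 7372261486) (nat_lit 213) (nat_lit 5) (nat_lit 218) (nat_lit 5) (nat_lit 219) (nat_lit 5) (nat_lit 501) (nat_lit 463) (nat_lit 236)) (XT.lf (nat_lit 0) (nat_lit 815909671) (nat_lit 456) (nat_lit 9692796084) (nat_lit 76) (nat_lit 38649969177) (nat_lit 212) (nat_lit 5) (nat_lit 218) (nat_lit 5) (nat_lit 213) (nat_lit 5) (nat_lit 502) (nat_lit 463) (nat_lit 235)))) (XT.nd (nat_lit 156) (nat_lit 760) (nat_lit 0) (XT.nd (nat_lit 78) (nat_lit 0) (nat_lit 0) (XT.lf (nat_lit 0) (nat_lit 9380223596) (nat_lit 532) (nat_lit 30906402534) (nat_lit 76) (nat_lit 9736522967) (nat_lit 206) (nat_lit 5) (nat_lit 213) (nat_lit 5) (nat_lit 207) (nat_lit 5) (nat_lit 503) (nat_lit 463) (nat_lit 234)) (XT.lf (nat_lit 0) (nat_lit 18402891529) (nat_lit 532) (nat_lit 2028308446) (nat_lit 76) (nat_lit 30476314872) (nat_lit 206) (nat_lit 5) (nat_lit 213) (nat_lit 5) (nat_lit 207) (nat_lit 5)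 (nat_lit 504) (nat_lit 463) (nat_lit 233))) (XT.nd (nat_lit 78) (nat_lit 380) (nat_lit 0) (XT.lf (nat_lit 0) (nat_lit 27969398225) (nat_lit 456) (nat_lit 23547367331) (nat_lit 76) (nat_lit 293451345) (nat_lit 201) (nat_lit 5) (nat_lit 207) (nat_lit 5) (nat_lit 202) (nat_lit 5) (nat_lit 505) (nat_lit 463) (nat_lit 232)) (XT.lf (nat_lit 0) (nat_lit 6691108123) (nat_lit 380) (nat_lit 31417677510) (nat_lit 456) (nat_lit 14622637910) (nat_lit 196) (nat_lit 5) (nat_lit 201) (nat_lit 5) (nat_lit 202) (nat_lit 5) (nat_lit 506) (nat_lit 463) (nat_lit 231)))))) (XT.nd (nat_lit 624) (nat_lit 1596) (nat_lit 0) (XT.nd (nat_lit 312) (nat_lit 684) (nat_lit 0) (XT.nd (nat_lit 156) (nat_lit 380) (nat_lit 0) (XT.nd (nat_lit 78) (nat_lit 380) (nat_lit 0) (XT.lf (nat_lit 0) (nat_lit 38317551742) (nat_lit 380) (nat_lit 10471200689) (nat_lit 456) (nat_lit 4884422108) (nat_lit 196) (nat_lit 5) (nat_lit 201) (nat_lit 5) (nat_lit 202)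 (nat_lit 5) (nat_lit 507) (nat_lit 463) (nat_lit 230)) (XT.lf (nat_lit 0) (nat_lit 5311766134) (nat_lit 380) (nat_lit 38225097170) (nat_lit 76) (nat_lit 11096843613) (nat_lit 191) (nat_lit 5) (nat_lit 196) (nat_lit 5) (nat_lit 192) (nat_lit 5) (nat_lit 508) (nat_lit 463) (nat_lit 229))) (XT.nd (nat_lit 78) (nat_lit 380) (nat_lit 0) (XT.lf (nat_lit 0) (nat_lit 15974599677) (nat_lit 380) (nat_lit 6333303462) (nat_lit 76) (nat_lit 33305933437) (nat_lit 191) (nat_lit 5) (nat_lit 196) (nat_lit 5) (nat_lit 192) (nat_lit 5) (nat_lit 509) (nat_lit 463) (nat_lit 228)) (XT.lf (nat_lit 0) (nat_lit 27041094377) (nat_lit 380) (nat_lit 174857936) (nat_lit 456) (nat_lit 29399658868) (nat_lit 186) (nat_lit 5) (nat_lit 191) (nat_lit 5) (nat_lit 192) (nat_lit 5) (nat_lit 510) (nat_lit 463) (nat_lit 227)))) (XT.nd (nat_lit 156) (nat_lit 380) (nat_lit 0) (XT.nd (nat_lit 78) (nat_lit 0) (nat_lit 0) (XT.lf (nat_lit 0) (nat_lit 3754365524)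 (nat_lit 304) (nat_lit 35357028777) (nat_lit 380) (nat_lit 18526539336) (nat_lit 182) (nat_lit 5) (nat_lit 186) (nat_lit 5) (nat_lit 187) (nat_lit 5) (nat_lit 511) (nat_lit 463) (nat_lit 226)) (XT.lf (nat_lit 0) (nat_lit 38685780687) (nat_lit 304) (nat_lit 12977011917) (nat_lit 380) (nat_lit 7019160446) (nat_lit 182) (nat_lit 5) (nat_lit 186) (nat_lit 5) (nat_lit 187) (nat_lit 5) (nat_lit 512) (nat_lit 463) (nat_lit 225))) (XT.nd (nat_lit 78) (nat_lit 0) (nat_lit 0) (XT.lf (nat_lit 0) (nat_lit 4982301563) (nat_lit 380) (nat_lit 44694974556) (nat_lit 76) (nat_lit 10071327749) (nat_lit 177) (nat_lit 5) (nat_lit 182) (nat_lit 5) (nat_lit 178) (nat_lit 5) (nat_lit 513) (nat_lit 463) (nat_lit 224)) (XT.lf (nat_lit 0) (nat_lit 17533908503) (nat_lit 380) (nat_lit 9478153013) (nat_lit 76) (nat_lit 33823172485) (nat_lit 177) (nat_lit 5) (nat_lit 182) (nat_lit 5) (nat_lit 178) (nat_lit 5) (nat_lit 514) (nat_lit 463) (nat_lit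 223))))) (XT.nd (nat_lit 312) (nat_lit 608) (nat_lit 0) (XT.nd (nat_lit 156) (nat_lit 380) (nat_lit 0) (XT.nd (nat_lit 78) (nat_lit 304) (nat_lit 0) (XT.lf (nat_lit 0) (nat_lit 27326665029) (nat_lit 304) (nat_lit 3396887610) (nat_lit 380) (nat_lit 31223065795) (nat_lit 173) (nat_lit 5) (nat_lit 177) (nat_lit 5) (nat_lit 178) (nat_lit 5) (nat_lit 515) (nat_lit 463) (nat_lit 222)) (XT.lf (nat_lit 0) (nat_lit 2180118522) (nat_lit 304) (nat_lit 42446364289) (nat_lit 380) (nat_lit 18455333752) (nat_lit 169) (nat_lit 5) (nat_lit 173) (nat_lit 5) (nat_lit 174) (nat_lit 5) (nat_lit 516) (nat_lit 463) (nat_lit 221))) (XT.nd (nat_lit 78) (nat_lit 380) (nat_lit 0) (XT.lf (nat_lit 0) (nat_lit 40757820538) (nat_lit 304) (nat_lit 18570415424) (nat_lit 380) (nat_lit 4911382684) (nat_lit 169) (nat_lit 5) (nat_lit 173) (nat_lit 5) (nat_lit 174) (nat_lit 5) (nat_lit 517) (nat_lit 463) (nat_lit 220)) (XT.lf (nat_lit 0) (nat_lit 9068345494)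 (nat_lit 380) (nat_lit 50215303818) (nat_lit 76) (nat_lit 6139723722) (nat_lit 164) (nat_lit 5) (nat_lit 169) (nat_lit 5) (nat_lit 165) (nat_lit 5) (nat_lit 518) (nat_lit 463) (nat_lit 219)))) (XT.nd (nat_lit 156) (nat_lit 304) (nat_lit 0) (XT.nd (nat_lit 78) (nat_lit 304) (nat_lit 0) (XT.lf (nat_lit 0) (nat_lit 23790957407) (nat_lit 380) (nat_lit 11332109304) (nat_lit 76) (nat_lit 31505448401) (nat_lit 164) (nat_lit 5) (nat_lit 169) (nat_lit 5) (nat_lit 165) (nat_lit 5) (nat_lit 519) (nat_lit 463) (nat_lit 218)) (XT.lf (nat_lit 0) (nat_lit 29287405683) (nat_lit 304) (nat_lit 9948275769) (nat_lit 380) (nat_lit 28625717041) (nat_lit 160) (nat_lit 5) (nat_lit 164) (nat_lit 5) (nat_lit 165) (nat_lit 5) (nat_lit 520) (nat_lit 463) (nat_lit 217))) (XT.nd (nat_lit 78) (nat_lit 76) (nat_lit 0) (XT.lf (nat_lit 0) (nat_lit 2114787018) (nat_lit 228) (nat_lit 53317395968) (nat_lit 304) (nat_lit 13690432368) (nat_lit 157)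 (nat_lit 5) (nat_lit 160) (nat_lit 5) (nat_lit 161) (nat_lit 5) (nat_lit 521) (nat_lit 463) (nat_lit 216)) (XT.lf (nat_lit 0) (nat_lit 2150672680) (nat_lit 304) (nat_lit 25715344997) (nat_lit 76) (nat_lit 42540438998) (nat_lit 156) (nat_lit 5) (nat_lit 160) (nat_lit 5) (nat_lit 157) (nat_lit 5) (nat_lit 522) (nat_lit 463) (nat_lit 215))))))) (XT.nd (nat_lit 1248) (nat_lit 912) (nat_lit 0) (XT.nd (nat_lit 624) (nat_lit 1140) (nat_lit 0) (XT.nd (nat_lit 312) (nat_lit 532) (nat_lit 0) (XT.nd (nat_lit 156) (nat_lit 456) (nat_lit 0) (XT.nd (nat_lit 78) (nat_lit 0) (nat_lit 0) (XT.lf (nat_lit 0) (nat_lit 17010659082) (nat_lit 304) (nat_lit 1343656468) (nat_lit 380) (nat_lit 53365557205) (nat_lit 152) (nat_lit 5) (nat_lit 156) (nat_lit 5) (nat_lit 157) (nat_lit 5) (nat_lit 523) (nat_lit 463) (nat_lit 214)) (XT.lf (nat_lit 0) (nat_lit 35554955993) (nat_lit 380) (nat_lit 11773224417) (nat_lit 76) (nat_lit 25729184307) (nat_lit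 152) (nat_lit 5) (nat_lit 157) (nat_lit 5) (nat_lit 153) (nat_lit 5) (nat_lit 524) (nat_lit 463) (nat_lit 213))) (XT.nd (nat_lit 78) (nat_lit 228) (nat_lit 0) (XT.lf (nat_lit 0) (nat_lit 33081474507) (nat_lit 228) (nat_lit 20520435403) (nat_lit 304) (nat_lit 20823162745) (nat_lit 149) (nat_lit 5) (nat_lit 152) (nat_lit 5) (nat_lit 153) (nat_lit 5) (nat_lit 525) (nat_lit 463) (nat_lit 212)) (XT.lf (nat_lit 0) (nat_lit 3694033661) (nat_lit 228) (nat_lit 68718979652) (nat_lit 304) (nat_lit 3414116338) (nat_lit 146) (nat_lit 5) (nat_lit 149) (nat_lit 5) (nat_lit 150) (nat_lit 5) (nat_lit 526) (nat_lit 463) (nat_lit 211)))) (XT.nd (nat_lit 156) (nat_lit 228) (nat_lit 0) (XT.nd (nat_lit 78) (nat_lit 228) (nat_lit 0) (XT.lf (nat_lit 0) (nat_lit 14857717737) (nat_lit 304) (nat_lit 26676898107) (nat_lit 76) (nat_lit 35713732132) (nat_lit 145) (nat_lit 5) (nat_lit 149) (nat_lit 5) (nat_lit 146) (nat_lit 5) (nat_lit 527)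 (nat_lit 463) (nat_lit 210)) (XT.lf (nat_lit 0) (nat_lit 20507792924) (nat_lit 228) (nat_lit 13297459728) (nat_lit 304) (nat_lit 44900051160) (nat_lit 142) (nat_lit 5) (nat_lit 145) (nat_lit 5) (nat_lit 146) (nat_lit 5) (nat_lit 528) (nat_lit 463) (nat_lit 209))) (XT.nd (nat_lit 78) (nat_lit 228) (nat_lit 0) (XT.lf (nat_lit 0) (nat_lit 53744057807) (nat_lit 304) (nat_lit 10699009553) (nat_lit 76) (nat_lit 15750215679) (nat_lit 142) (nat_lit 5) (nat_lit 146) (nat_lit 5) (nat_lit 143) (nat_lit 5) (nat_lit 529) (nat_lit 463) (nat_lit 208)) (XT.lf (nat_lit 0) (nat_lit 38849347418) (nat_lit 228) (nat_lit 35935849533) (nat_lit 304) (nat_lit 6925579634) (nat_lit 139) (nat_lit 5) (nat_lit 142) (nat_lit 5) (nat_lit 143) (nat_lit 5) (nat_lit 530) (nat_lit 463) (nat_lit 207))))) (XT.nd (nat_lit 312) (nat_lit 608) (nat_lit 0) (XT.nd (nat_lit 156) (nat_lit 228) (nat_lit 0) (XT.nd (nat_lit 78) (nat_lit 0) (nat_lit 0) (XT.lf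 (nat_lit 0) (nat_lit 6836999234) (nat_lit 228) (nat_lit 6263414832) (nat_lit 304) (nat_lit 70164361943) (nat_lit 135) (nat_lit 5) (nat_lit 138) (nat_lit 5) (nat_lit 139) (nat_lit 5) (nat_lit 531) (nat_lit 463) (nat_lit 206)) (XT.lf (nat_lit 0) (nat_lit 34257748857) (nat_lit 304) (nat_lit 26255389500) (nat_lit 76) (nat_lit 24330107234) (nat_lit 135) (nat_lit 5) (nat_lit 139) (nat_lit 5) (nat_lit 136) (nat_lit 5) (nat_lit 532) (nat_lit 463) (nat_lit 205))) (XT.nd (nat_lit 78) (nat_lit 0) (nat_lit 0) (XT.lf (nat_lit 0) (nat_lit 25863345095) (nat_lit 228) (nat_lit 30496191910) (nat_lit 304) (nat_lit 30100240289) (nat_lit 132) (nat_lit 5) (nat_lit 135) (nat_lit 5) (nat_lit 136) (nat_lit 5) (nat_lit 533) (nat_lit 463) (nat_lit 204)) (XT.lf (nat_lit 0) (nat_lit 79395292283) (nat_lit 304) (nat_lit 8041177500) (nat_lit 76) (nat_lit 680207795) (nat_lit 132) (nat_lit 5) (nat_lit 136) (nat_lit 5) (nat_lit 133) (nat_lit 5)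 (nat_lit 534) (nat_lit 463) (nat_lit 203)))) (XT.nd (nat_lit 156) (nat_lit 152) (nat_lit 0) (XT.nd (nat_lit 78) (nat_lit 228) (nat_lit 0) (XT.lf (nat_lit 0) (nat_lit 13796727500) (nat_lit 228) (nat_lit 43237457253) (nat_lit 76) (nat_lit 32762543042) (nat_lit 129) (nat_lit 5) (nat_lit 132) (nat_lit 5) (nat_lit 130) (nat_lit 5) (nat_lit 535) (nat_lit 463) (nat_lit 202)) (XT.lf (nat_lit 0) (nat_lit 11575079500) (nat_lit 228) (nat_lit 25432423539) (nat_lit 304) (nat_lit 54511313683) (nat_lit 126) (nat_lit 5) (nat_lit 129) (nat_lit 5) (nat_lit 130) (nat_lit 5) (nat_lit 536) (nat_lit 463) (nat_lit 201))) (XT.nd (nat_lit 78) (nat_lit 152) (nat_lit 0) (XT.lf (nat_lit 0) (nat_lit 61423100116) (nat_lit 304) (nat_lit 24435359545) (nat_lit 76) (nat_lit 7418853736) (nat_lit 126) (nat_lit 5) (nat_lit 130) (nat_lit 5) (nat_lit 127) (nat_lit 5) (nat_lit 537) (nat_lit 463) (nat_lit 200)) (XT.lf (nat_lit 0) (nat_lit 33131554140)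 (nat_lit 152) (nat_lit 54009067918) (nat_lit 228) (nat_lit 7930859236) (nat_lit 124) (nat_lit 5) (nat_lit 126) (nat_lit 5) (nat_lit 127) (nat_lit 5) (nat_lit 538) (nat_lit 463) (nat_lit 199)))))) (XT.nd (nat_lit 56706) (nat_lit 0) (nat_lit 14972) (XT.nd (nat_lit 312) (nat_lit 456) (nat_lit 0) (XT.nd (nat_lit 156) (nat_lit 152) (nat_lit 0) (XT.nd (nat_lit 78) (nat_lit 228) (nat_lit 0) (XT.lf (nat_lit 0) (nat_lit 16632484095) (nat_lit 228) (nat_lit 4150194910) (nat_lit 76) (nat_lit 76124525448) (nat_lit 123) (nat_lit 5) (nat_lit 126) (nat_lit 5) (nat_lit 124) (nat_lit 5) (nat_lit 539) (nat_lit 463) (nat_lit 198)) (XT.lf (nat_lit 0) (nat_lit 42449950688) (nat_lit 304) (nat_lit 42520977037) (nat_lit 76) (nat_lit 13804417145) (nat_lit 120) (nat_lit 5) (nat_lit 124) (nat_lit 5) (nat_lit 121) (nat_lit 5) (nat_lit 540) (nat_lit 463) (nat_lit 197))) (XT.nd (nat_lit 78) (nat_lit 0) (nat_lit 0) (XT.lf (nat_lit 0) (nat_lit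 18001570887) (nat_lit 152) (nat_lit 51460706597) (nat_lit 228) (nat_lit 31224641955) (nat_lit 118) (nat_lit 5) (nat_lit 120) (nat_lit 5) (nat_lit 121) (nat_lit 5) (nat_lit 541) (nat_lit 463) (nat_lit 196)) (XT.lf (nat_lit 0) (nat_lit 81210056515) (nat_lit 152) (nat_lit 16503507317) (nat_lit 228) (nat_lit 4929419746) (nat_lit 118) (nat_lit 5) (nat_lit 120) (nat_lit 5) (nat_lit 121) (nat_lit 5) (nat_lit 542) (nat_lit 463) (nat_lit 195)))) (XT.nd (nat_lit 156) (nat_lit 0) (nat_lit 0) (XT.nd (nat_lit 78) (nat_lit 152) (nat_lit 0) (XT.lf (nat_lit 0) (nat_lit 22321464880) (nat_lit 304) (nat_lit 62565227204) (nat_lit 76) (nat_lit 19746674967) (nat_lit 114) (nat_lit 5) (nat_lit 118) (nat_lit 5) (nat_lit 115) (nat_lit 5) (nat_lit 543) (nat_lit 463) (nat_lit 194)) (XT.lf (nat_lit 0) (nat_lit 1041235292) (nat_lit 152) (nat_lit 49640778508) (nat_lit 228) (nat_lit 55988247641) (nat_lit 112) (nat_lit 5) (nat_lit 114) (nat_lit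 5) (nat_lit 115) (nat_lit 5) (nat_lit 544) (nat_lit 463) (nat_lit 193))) (XT.nd (nat_lit 56160) (nat_lit 0) (nat_lit 14972) (XT.lf (nat_lit 0) (nat_lit 67837074255) (nat_lit 152) (nat_lit 12687331288) (nat_lit 228) (nat_lit 28224926352) (nat_lit 112) (nat_lit 5) (nat_lit 114) (nat_lit 5) (nat_lit 115) (nat_lit 5) (nat_lit 545) (nat_lit 463) (nat_lit 192)) (XT.lf (nat_lit 0) (nat_lit 6284241101) (nat_lit 1292) (nat_lit 3605073841) (nat_lit 1292) (nat_lit 3605073841) (nat_lit 309) (nat_lit 3) (nat_lit 326) (nat_lit 3) (nat_lit 326) (nat_lit 5) (nat_lit 464) (nat_lit 464) (nat_lit 272))))) (XT.nd (nat_lit 312) (nat_lit 0) (nat_lit 152) (XT.nd (nat_lit 156) (nat_lit 0) (nat_lit 76) (XT.nd (nat_lit 78) (nat_lit 0) (nat_lit 76) (XT.lf (nat_lit 76) (nat_lit 6298829245) (nat_lit 0) (nat_lit 6608461217) (nat_lit 1292) (nat_lit 14481802041) (nat_lit 310) (nat_lit 5) (nat_lit 309) (nat_lit 3) (nat_lit 326) (nat_lit 5) (nat_lit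 465) (nat_lit 464) (nat_lit 271)) (XT.lf (nat_lit 0) (nat_lit 13393161781) (nat_lit 1216) (nat_lit 7507911871) (nat_lit 1292) (nat_lit 6896236591) (nat_lit 310) (nat_lit 5) (nat_lit 326) (nat_lit 5) (nat_lit 327) (nat_lit 5) (nat_lit 466) (nat_lit 464) (nat_lit 270))) (XT.nd (nat_lit 78) (nat_lit 0) (nat_lit 76) (XT.lf (nat_lit 76) (nat_lit 6542237842) (nat_lit 0) (nat_lit 7476288189) (nat_lit 1292) (nat_lit 14195501296) (nat_lit 311) (nat_lit 5) (nat_lit 310) (nat_lit 5) (nat_lit 327) (nat_lit 5) (nat_lit 467) (nat_lit 464) (nat_lit 269)) (XT.lf (nat_lit 0) (nat_lit 14796962284) (nat_lit 1216) (nat_lit 7536976816) (nat_lit 1292) (nat_lit 6305277797) (nat_lit 311) (nat_lit 5) (nat_lit 327) (nat_lit 5) (nat_lit 328) (nat_lit 5) (nat_lit 468) (nat_lit 464) (nat_lit 268)))) (XT.nd (nat_lit 156) (nat_lit 0) (nat_lit 76) (XT.nd (nat_lit 78) (nat_lit 0) (nat_lit 76) (XT.lf (nat_lit 76) (nat_lit 7084153598) (nat_lit 0)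 (nat_lit 8653507438) (nat_lit 1292) (nat_lit 13335334131) (nat_lit 312) (nat_lit 5) (nat_lit 311) (nat_lit 5) (nat_lit 328) (nat_lit 5) (nat_lit 469) (nat_lit 464) (nat_lit 267)) (XT.lf (nat_lit 0) (nat_lit 16832586236) (nat_lit 1216) (nat_lit 7274133837) (nat_lit 1292) (nat_lit 5409286837) (nat_lit 312) (nat_lit 5) (nat_lit 328) (nat_lit 5) (nat_lit 329) (nat_lit 5) (nat_lit 470) (nat_lit 464) (nat_lit 266))) (XT.nd (nat_lit 78) (nat_lit 0) (nat_lit 76) (XT.lf (nat_lit 76) (nat_lit 7949490800) (nat_lit 0) (nat_lit 10169929266) (nat_lit 1292) (nat_lit 11848117390) (nat_lit 313) (nat_lit 5) (nat_lit 312) (nat_lit 5) (nat_lit 329) (nat_lit 5) (nat_lit 471) (nat_lit 464) (nat_lit 265)) (XT.lf (nat_lit 0) (nat_lit 19556315665) (nat_lit 1216) (nat_lit 6694478049) (nat_lit 1292) (nat_lit 4178476774) (nat_lit 313) (nat_lit 5) (nat_lit 329) (nat_lit 5) (nat_lit 330) (nat_lit 5) (nat_lit 472) (nat_lit 464) (nat_lit 264))))))))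
noncomputable def xc218 : XT := (XT.nd (nat_lit 2418) (nat_lit 6080) (nat_lit 0) (XT.nd (nat_lit 1170) (nat_lit 4636) (nat_lit 0) (XT.nd (nat_lit 546) (nat_lit 1976) (nat_lit 0) (XT.nd (nat_lit 234) (nat_lit 1064) (nat_lit 0) (XT.nd (nat_lit 78) (nat_lit 0) (nat_lit 76) (XT.lf (nat_lit 76) (nat_lit 9164957417) (nat_lit 0) (nat_lit 12057284830) (nat_lit 1292) (nat_lit 9677035805) (nat_lit 314) (nat_lit 5) (nat_lit 313) (nat_lit 5) (nat_lit 330) (nat_lit 5) (nat_lit 473) (nat_lit 464) (nat_lit 263)) (XT.nd (nat_lit 78) (nat_lit 0) (nat_lit 0) (XT.lf (nat_lit 0) (nat_lit 23028250001) (nat_lit 1216) (nat_lit 5771310744) (nat_lit 1292) (nat_lit 2581122251) (nat_lit 314) (nat_lit 5) (nat_lit 330) (nat_lit 5) (nat_lit 331) (nat_lit 5) (nat_lit 474) (nat_lit 464) (nat_lit 262)) (XT.lf (nat_lit 76) (nat_lit 10759158367) (nat_lit 0) (nat_lit 14349368854) (nat_lit 1292) (nat_lit 6761400440) (nat_lit 315) (nat_lit 5) (nat_lit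 314) (nat_lit 5) (nat_lit 331) (nat_lit 5) (nat_lit 475) (nat_lit 464) (nat_lit 261)))) (XT.nd (nat_lit 156) (nat_lit 1216) (nat_lit 0) (XT.nd (nat_lit 78) (nat_lit 0) (nat_lit 0) (XT.lf (nat_lit 0) (nat_lit 27312557988) (nat_lit 1216) (nat_lit 4476035465) (nat_lit 1292) (nat_lit 583416095) (nat_lit 315) (nat_lit 5) (nat_lit 331) (nat_lit 5) (nat_lit 332) (nat_lit 5) (nat_lit 476) (nat_lit 464) (nat_lit 260)) (XT.lf (nat_lit 76) (nat_lit 12762705402) (nat_lit 0) (nat_lit 17082190257) (nat_lit 1292) (nat_lit 3036392889) (nat_lit 316) (nat_lit 5) (nat_lit 315) (nat_lit 5) (nat_lit 332) (nat_lit 5) (nat_lit 477) (nat_lit 464) (nat_lit 259))) (XT.nd (nat_lit 78) (nat_lit 1216) (nat_lit 0) (XT.lf (nat_lit 76) (nat_lit 30608374157) (nat_lit 0) (nat_lit 1887514311) (nat_lit 1292) (nat_lit 908677127) (nat_lit 316) (nat_lit 5) (nat_lit 315) (nat_lit 5) (nat_lit 332) (nat_lit 5) (nat_lit 478) (nat_lit 464) (nat_lit 258))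 (XT.lf (nat_lit 0) (nat_lit 1536623844) (nat_lit 1292) (nat_lit 18741990598) (nat_lit 1368) (nat_lit 13656193157) (nat_lit 299) (nat_lit 5) (nat_lit 316) (nat_lit 5) (nat_lit 317) (nat_lit 5) (nat_lit 479) (nat_lit 464) (nat_lit 257))))) (XT.nd (nat_lit 312) (nat_lit 1216) (nat_lit 0) (XT.nd (nat_lit 156) (nat_lit 760) (nat_lit 0) (XT.nd (nat_lit 78) (nat_lit 0) (nat_lit 76) (XT.lf (nat_lit 0) (nat_lit 4081816183) (nat_lit 1292) (nat_lit 731297077) (nat_lit 1368) (nat_lit 29666230033) (nat_lit 299) (nat_lit 5) (nat_lit 316) (nat_lit 5) (nat_lit 317) (nat_lit 5) (nat_lit 480) (nat_lit 464) (nat_lit 256)) (XT.lf (nat_lit 0) (nat_lit 6984300301) (nat_lit 1292) (nat_lit 16971288075) (nat_lit 76) (nat_lit 11076198804) (nat_lit 300) (nat_lit 5) (nat_lit 317) (nat_lit 5) (nat_lit 301) (nat_lit 5) (nat_lit 481) (nat_lit 464) (nat_lit 255))) (XT.nd (nat_lit 78) (nat_lit 0) (nat_lit 0) (XT.lf (nat_lit 0) (nat_lit 1816138066)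 (nat_lit 836) (nat_lit 8228005618) (nat_lit 912) (nat_lit 25554552352) (nat_lit 289) (nat_lit 5) (nat_lit 300) (nat_lit 5) (nat_lit 301) (nat_lit 5) (nat_lit 482) (nat_lit 464) (nat_lit 254)) (XT.lf (nat_lit 0) (nat_lit 13443245884) (nat_lit 912) (nat_lit 14742792355) (nat_lit 76) (nat_lit 7989150204) (nat_lit 289) (nat_lit 5) (nat_lit 301) (nat_lit 5) (nat_lit 290) (nat_lit 5) (nat_lit 483) (nat_lit 464) (nat_lit 253)))) (XT.nd (nat_lit 156) (nat_lit 608) (nat_lit 0) (XT.nd (nat_lit 78) (nat_lit 0) (nat_lit 0) (XT.lf (nat_lit 0) (nat_lit 4879905514) (nat_lit 608) (nat_lit 12190618766) (nat_lit 684) (nat_lit 19694665433) (nat_lit 281) (nat_lit 5) (nat_lit 289) (nat_lit 5) (nat_lit 290) (nat_lit 5) (nat_lit 484) (nat_lit 464) (nat_lit 252)) (XT.lf (nat_lit 0) (nat_lit 20996029439) (nat_lit 684) (nat_lit 12019653761) (nat_lit 76) (nat_lit 4351525749) (nat_lit 281) (nat_lit 5) (nat_lit 290) (nat_lit 5) (nat_lit 282)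 (nat_lit 5) (nat_lit 485) (nat_lit 464) (nat_lit 251))) (XT.nd (nat_lit 78) (nat_lit 0) (nat_lit 0) (XT.lf (nat_lit 0) (nat_lit 8484810513) (nat_lit 608) (nat_lit 16754685852) (nat_lit 684) (nat_lit 12741786671) (nat_lit 273) (nat_lit 5) (nat_lit 281) (nat_lit 5) (nat_lit 282) (nat_lit 5) (nat_lit 486) (nat_lit 464) (nat_lit 250)) (XT.lf (nat_lit 0) (nat_lit 29730765263) (nat_lit 684) (nat_lit 8762530330) (nat_lit 76) (nat_lit 116868984) (nat_lit 273) (nat_lit 5) (nat_lit 282) (nat_lit 5) (nat_lit 274) (nat_lit 5) (nat_lit 487) (nat_lit 464) (nat_lit 249)))))) (XT.nd (nat_lit 624) (nat_lit 1900) (nat_lit 0) (XT.nd (nat_lit 312) (nat_lit 1520) (nat_lit 0) (XT.nd (nat_lit 156) (nat_lit 684) (nat_lit 0) (XT.nd (nat_lit 78) (nat_lit 0) (nat_lit 0) (XT.lf (nat_lit 0) (nat_lit 12672848024) (nat_lit 532) (nat_lit 21969667867) (nat_lit 608) (nat_lit 4606824527) (nat_lit 266) (nat_lit 5) (nat_lit 273) (nat_lit 5) (nat_lit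 274) (nat_lit 5) (nat_lit 488) (nat_lit 464) (nat_lit 248)) (XT.lf (nat_lit 0) (nat_lit 34928943454) (nat_lit 532) (nat_lit 4859234752) (nat_lit 608) (nat_lit 116916713) (nat_lit 266) (nat_lit 5) (nat_lit 273) (nat_lit 5) (nat_lit 274) (nat_lit 5) (nat_lit 489) (nat_lit 464) (nat_lit 247))) (XT.nd (nat_lit 78) (nat_lit 0) (nat_lit 0) (XT.lf (nat_lit 0) (nat_lit 4711531612) (nat_lit 684) (nat_lit 23129242529) (nat_lit 76) (nat_lit 12729694008) (nat_lit 257) (nat_lit 5) (nat_lit 266) (nat_lit 5) (nat_lit 258) (nat_lit 5) (nat_lit 490) (nat_lit 464) (nat_lit 246)) (XT.lf (nat_lit 0) (nat_lit 9779489510) (nat_lit 684) (nat_lit 672915007) (nat_lit 76) (nat_lit 30800453296) (nat_lit 257) (nat_lit 5) (nat_lit 266) (nat_lit 5) (nat_lit 258) (nat_lit 5) (nat_lit 491) (nat_lit 464) (nat_lit 245)))) (XT.nd (nat_lit 156) (nat_lit 456) (nat_lit 0) (XT.nd (nat_lit 78) (nat_lit 532) (nat_lit 0) (XT.lf (nat_lit 0) (nat_lit 15291702414)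 (nat_lit 608) (nat_lit 19120956078) (nat_lit 76) (nat_lit 7534294331) (nat_lit 250) (nat_lit 5) (nat_lit 258) (nat_lit 5) (nat_lit 251) (nat_lit 5) (nat_lit 492) (nat_lit 464) (nat_lit 244)) (XT.lf (nat_lit 0) (nat_lit 4361598346) (nat_lit 532) (nat_lit 16758195780) (nat_lit 608) (nat_lit 21537561320) (nat_lit 243) (nat_lit 5) (nat_lit 250) (nat_lit 5) (nat_lit 251) (nat_lit 5) (nat_lit 493) (nat_lit 464) (nat_lit 243))) (XT.nd (nat_lit 78) (nat_lit 456) (nat_lit 0) (XT.lf (nat_lit 0) (nat_lit 27329696414) (nat_lit 608) (nat_lit 14460295478) (nat_lit 76) (nat_lit 1592869355) (nat_lit 243) (nat_lit 5) (nat_lit 251) (nat_lit 5) (nat_lit 244) (nat_lit 5) (nat_lit 494) (nat_lit 464) (nat_lit 242)) (XT.lf (nat_lit 0) (nat_lit 10119850187) (nat_lit 456) (nat_lit 23867562333) (nat_lit 532) (nat_lit 10134874328) (nat_lit 237) (nat_lit 5) (nat_lit 243) (nat_lit 5) (nat_lit 244) (nat_lit 5) (nat_lit 495) (nat_lit 464) (nat_lit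 241))))) (XT.nd (nat_lit 312) (nat_lit 912) (nat_lit 0) (XT.nd (nat_lit 156) (nat_lit 456) (nat_lit 0) (XT.nd (nat_lit 78) (nat_lit 532) (nat_lit 0) (XT.lf (nat_lit 0) (nat_lit 35731909239) (nat_lit 456) (nat_lit 5257317997) (nat_lit 532) (nat_lit 3890337095) (nat_lit 237) (nat_lit 5) (nat_lit 243) (nat_lit 5) (nat_lit 244) (nat_lit 5) (nat_lit 496) (nat_lit 464) (nat_lit 240)) (XT.lf (nat_lit 0) (nat_lit 2786921084) (nat_lit 532) (nat_lit 29036233611) (nat_lit 76) (nat_lit 13826823256) (nat_lit 230) (nat_lit 5) (nat_lit 237) (nat_lit 5) (nat_lit 231) (nat_lit 5) (nat_lit 497) (nat_lit 464) (nat_lit 239))) (XT.nd (nat_lit 78) (nat_lit 456) (nat_lit 0) (XT.lf (nat_lit 0) (nat_lit 9730050905) (nat_lit 532) (nat_lit 3198630701) (nat_lit 76) (nat_lit 33509354568) (nat_lit 230) (nat_lit 5) (nat_lit 237) (nat_lit 5) (nat_lit 231) (nat_lit 5) (nat_lit 498) (nat_lit 464) (nat_lit 238)) (XT.lf (nat_lit 0) (nat_lit 17174523221)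 (nat_lit 532) (nat_lit 23429772561) (nat_lit 76) (nat_lit 6636649016) (nat_lit 224) (nat_lit 5) (nat_lit 231) (nat_lit 5) (nat_lit 225) (nat_lit 5) (nat_lit 499) (nat_lit 464) (nat_lit 237)))) (XT.nd (nat_lit 156) (nat_lit 456) (nat_lit 0) (XT.nd (nat_lit 78) (nat_lit 0) (nat_lit 0) (XT.lf (nat_lit 0) (nat_lit 3569305013) (nat_lit 456) (nat_lit 21466437435) (nat_lit 532) (nat_lit 23026395959) (nat_lit 218) (nat_lit 5) (nat_lit 224) (nat_lit 5) (nat_lit 225) (nat_lit 5) (nat_lit 500) (nat_lit 464) (nat_lit 236)) (XT.lf (nat_lit 0) (nat_lit 31856775953) (nat_lit 456) (nat_lit 1511119463) (nat_lit 532) (nat_lit 15533019599) (nat_lit 218) (nat_lit 5) (nat_lit 224) (nat_lit 5) (nat_lit 225) (nat_lit 5) (nat_lit 501) (nat_lit 464) (nat_lit 235))) (XT.nd (nat_lit 78) (nat_lit 76) (nat_lit 0) (XT.lf (nat_lit 0) (nat_lit 11262891834) (nat_lit 380) (nat_lit 30976981124) (nat_lit 456) (nat_lit 7516286265) (nat_lit 213) (nat_lit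 5) (nat_lit 218) (nat_lit 5) (nat_lit 219) (nat_lit 5) (nat_lit 502) (nat_lit 464) (nat_lit 234)) (XT.lf (nat_lit 0) (nat_lit 913821647) (nat_lit 456) (nat_lit 9889026688) (nat_lit 76) (nat_lit 39828378911) (nat_lit 212) (nat_lit 5) (nat_lit 218) (nat_lit 5) (nat_lit 213) (nat_lit 5) (nat_lit 503) (nat_lit 464) (nat_lit 233))))))) (XT.nd (nat_lit 1170) (nat_lit 2812) (nat_lit 0) (XT.nd (nat_lit 546) (nat_lit 1672) (nat_lit 0) (XT.nd (nat_lit 234) (nat_lit 760) (nat_lit 0) (XT.nd (nat_lit 78) (nat_lit 380) (nat_lit 0) (XT.lf (nat_lit 0) (nat_lit 9734032112) (nat_lit 532) (nat_lit 31738003703) (nat_lit 76) (nat_lit 10049630951) (nat_lit 206) (nat_lit 5) (nat_lit 213) (nat_lit 5) (nat_lit 207) (nat_lit 5) (nat_lit 504) (nat_lit 464) (nat_lit 232)) (XT.nd (nat_lit 78) (nat_lit 380) (nat_lit 0) (XT.lf (nat_lit 0) (nat_lit 19025271292) (nat_lit 532) (nat_lit 1996350993) (nat_lit 76) (nat_lit 31411004605) (nat_lit 206)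 (nat_lit 5) (nat_lit 213) (nat_lit 5) (nat_lit 207) (nat_lit 5) (nat_lit 505) (nat_lit 464) (nat_lit 231)) (XT.lf (nat_lit 0) (nat_lit 28877828047) (nat_lit 456) (nat_lit 24160032025) (nat_lit 76) (nat_lit 324578423) (nat_lit 201) (nat_lit 5) (nat_lit 207) (nat_lit 5) (nat_lit 202) (nat_lit 5) (nat_lit 506) (nat_lit 464) (nat_lit 230)))) (XT.nd (nat_lit 156) (nat_lit 380) (nat_lit 0) (XT.nd (nat_lit 78) (nat_lit 0) (nat_lit 0) (XT.lf (nat_lit 0) (nat_lit 6984678514) (nat_lit 380) (nat_lit 32335591129) (nat_lit 456) (nat_lit 14991045645) (nat_lit 196) (nat_lit 5) (nat_lit 201) (nat_lit 5) (nat_lit 202) (nat_lit 5) (nat_lit 507) (nat_lit 464) (nat_lit 229)) (XT.lf (nat_lit 0) (nat_lit 39557211447) (nat_lit 380) (nat_lit 10761436995) (nat_lit 456) (nat_lit 4962730109) (nat_lit 196) (nat_lit 5) (nat_lit 201) (nat_lit 5) (nat_lit 202) (nat_lit 5) (nat_lit 508) (nat_lit 464) (nat_lit 228))) (XT.nd (nat_lit 78) (nat_lit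 0) (nat_lit 0) (XT.lf (nat_lit 0) (nat_lit 5537172723) (nat_lit 380) (nat_lit 39279537801) (nat_lit 76) (nat_lit 11454022013) (nat_lit 191) (nat_lit 5) (nat_lit 196) (nat_lit 5) (nat_lit 192) (nat_lit 5) (nat_lit 509) (nat_lit 464) (nat_lit 227)) (XT.lf (nat_lit 0) (nat_lit 16517967382) (nat_lit 380) (nat_lit 6433678988) (nat_lit 76) (nat_lit 34328677549) (nat_lit 191) (nat_lit 5) (nat_lit 196) (nat_lit 5) (nat_lit 192) (nat_lit 5) (nat_lit 510) (nat_lit 464) (nat_lit 226))))) (XT.nd (nat_lit 312) (nat_lit 608) (nat_lit 0) (XT.nd (nat_lit 156) (nat_lit 380) (nat_lit 0) (XT.nd (nat_lit 78) (nat_lit 304) (nat_lit 0) (XT.lf (nat_lit 0) (nat_lit 27941072123) (nat_lit 380) (nat_lit 154473688) (nat_lit 456) (nat_lit 30216636507) (nat_lit 186) (nat_lit 5) (nat_lit 191) (nat_lit 5) (nat_lit 192) (nat_lit 5) (nat_lit 511) (nat_lit 464) (nat_lit 225)) (XT.lf (nat_lit 0) (nat_lit 3956505998) (nat_lit 304) (nat_lit 36390606378)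 (nat_lit 380) (nat_lit 19018084343) (nat_lit 182) (nat_lit 5) (nat_lit 186) (nat_lit 5) (nat_lit 187) (nat_lit 5) (nat_lit 512) (nat_lit 464) (nat_lit 224))) (XT.nd (nat_lit 78) (nat_lit 380) (nat_lit 0) (XT.lf (nat_lit 0) (nat_lit 39933256543) (nat_lit 304) (nat_lit 13339979301) (nat_lit 380) (nat_lit 7167355479) (nat_lit 182) (nat_lit 5) (nat_lit 186) (nat_lit 5) (nat_lit 187) (nat_lit 5) (nat_lit 513) (nat_lit 464) (nat_lit 223)) (XT.lf (nat_lit 0) (nat_lit 5192250410) (nat_lit 380) (nat_lit 45947014613) (nat_lit 76) (nat_lit 10399979235) (nat_lit 177) (nat_lit 5) (nat_lit 182) (nat_lit 5) (nat_lit 178) (nat_lit 5) (nat_lit 514) (nat_lit 464) (nat_lit 222)))) (XT.nd (nat_lit 156) (nat_lit 304) (nat_lit 0) (XT.nd (nat_lit 78) (nat_lit 304) (nat_lit 0) (XT.lf (nat_lit 0) (nat_lit 18118644011) (nat_lit 380) (nat_lit 9676275099) (nat_lit 76) (nat_lit 34863607129) (nat_lit 177) (nat_lit 5) (nat_lit 182) (nat_lit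 5) (nat_lit 178) (nat_lit 5) (nat_lit 515) (nat_lit 464) (nat_lit 221)) (XT.lf (nat_lit 0) (nat_lit 28231842166) (nat_lit 304) (nat_lit 3471245763) (nat_lit 380) (nat_lit 32100191057) (nat_lit 173) (nat_lit 5) (nat_lit 177) (nat_lit 5) (nat_lit 178) (nat_lit 5) (nat_lit 516) (nat_lit 464) (nat_lit 220))) (XT.nd (nat_lit 78) (nat_lit 0) (nat_lit 0) (XT.lf (nat_lit 0) (nat_lit 2331520978) (nat_lit 304) (nat_lit 43690984470) (nat_lit 380) (nat_lit 18950045719) (nat_lit 169) (nat_lit 5) (nat_lit 173) (nat_lit 5) (nat_lit 174) (nat_lit 5) (nat_lit 517) (nat_lit 464) (nat_lit 219)) (XT.lf (nat_lit 0) (nat_lit 42064049232) (nat_lit 304) (nat_lit 19099595122) (nat_lit 380) (nat_lit 5001493052) (nat_lit 169) (nat_lit 5) (nat_lit 173) (nat_lit 5) (nat_lit 174) (nat_lit 5) (nat_lit 518) (nat_lit 464) (nat_lit 218)))))) (XT.nd (nat_lit 624) (nat_lit 1292) (nat_lit 0) (XT.nd (nat_lit 312) (nat_lit 608) (nat_lit 0) (XT.nd (nat_lit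 156) (nat_lit 532) (nat_lit 0) (XT.nd (nat_lit 78) (nat_lit 0) (nat_lit 0) (XT.lf (nat_lit 0) (nat_lit 9395955122) (nat_lit 380) (nat_lit 51636591341) (nat_lit 76) (nat_lit 6351858195) (nat_lit 164) (nat_lit 5) (nat_lit 169) (nat_lit 5) (nat_lit 165) (nat_lit 5) (nat_lit 519) (nat_lit 464) (nat_lit 217)) (XT.lf (nat_lit 0) (nat_lit 24558627161) (nat_lit 380) (nat_lit 11589381717) (nat_lit 76) (nat_lit 32477740747) (nat_lit 164) (nat_lit 5) (nat_lit 169) (nat_lit 5) (nat_lit 165) (nat_lit 5) (nat_lit 520) (nat_lit 464) (nat_lit 216))) (XT.nd (nat_lit 78) (nat_lit 228) (nat_lit 0) (XT.lf (nat_lit 0) (nat_lit 30247908024) (nat_lit 304) (nat_lit 10218000887) (nat_lit 380) (nat_lit 29429734195) (nat_lit 160) (nat_lit 5) (nat_lit 164) (nat_lit 5) (nat_lit 165) (nat_lit 5) (nat_lit 521) (nat_lit 464) (nat_lit 215)) (XT.lf (nat_lit 0) (nat_lit 2260616336) (nat_lit 228) (nat_lit 54887200898) (nat_lit 304) (nat_lit 14046893964)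 (nat_lit 157) (nat_lit 5) (nat_lit 160) (nat_lit 5) (nat_lit 161) (nat_lit 5) (nat_lit 522) (nat_lit 464) (nat_lit 214)))) (XT.nd (nat_lit 156) (nat_lit 228) (nat_lit 0) (XT.nd (nat_lit 78) (nat_lit 304) (nat_lit 0) (XT.lf (nat_lit 0) (nat_lit 2266836293) (nat_lit 304) (nat_lit 26405789011) (nat_lit 76) (nat_lit 43844473362) (nat_lit 156) (nat_lit 5) (nat_lit 160) (nat_lit 5) (nat_lit 157) (nat_lit 5) (nat_lit 523) (nat_lit 464) (nat_lit 213)) (XT.lf (nat_lit 0) (nat_lit 17601200913) (nat_lit 304) (nat_lit 1354654501) (nat_lit 380) (nat_lit 54914083875) (nat_lit 152) (nat_lit 5) (nat_lit 156) (nat_lit 5) (nat_lit 157) (nat_lit 5) (nat_lit 524) (nat_lit 464) (nat_lit 212))) (XT.nd (nat_lit 78) (nat_lit 228) (nat_lit 0) (XT.lf (nat_lit 0) (nat_lit 36671305799) (nat_lit 380) (nat_lit 12047324115) (nat_lit 76) (nat_lit 26528962442) (nat_lit 152) (nat_lit 5) (nat_lit 157) (nat_lit 5) (nat_lit 153) (nat_lit 5) (nat_lit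 525) (nat_lit 464) (nat_lit 211)) (XT.lf (nat_lit 0) (nat_lit 34152240315) (nat_lit 228) (nat_lit 21106733287) (nat_lit 304) (nat_lit 21397378838) (nat_lit 149) (nat_lit 5) (nat_lit 152) (nat_lit 5) (nat_lit 153) (nat_lit 5) (nat_lit 526) (nat_lit 464) (nat_lit 210))))) (XT.nd (nat_lit 312) (nat_lit 760) (nat_lit 0) (XT.nd (nat_lit 156) (nat_lit 228) (nat_lit 0) (XT.nd (nat_lit 78) (nat_lit 76) (nat_lit 0) (XT.lf (nat_lit 0) (nat_lit 3883587312) (nat_lit 228) (nat_lit 70750425838) (nat_lit 304) (nat_lit 3466469969) (nat_lit 146) (nat_lit 5) (nat_lit 149) (nat_lit 5) (nat_lit 150) (nat_lit 5) (nat_lit 527) (nat_lit 464) (nat_lit 209)) (XT.lf (nat_lit 0) (nat_lit 15351112198) (nat_lit 304) (nat_lit 27399814992) (nat_lit 76) (nat_lit 36813439322) (nat_lit 145) (nat_lit 5) (nat_lit 149) (nat_lit 5) (nat_lit 146) (nat_lit 5) (nat_lit 528) (nat_lit 464) (nat_lit 208))) (XT.nd (nat_lit 78) (nat_lit 0) (nat_lit 0) (XT.lf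 (nat_lit 0) (nat_lit 21199658045) (nat_lit 228) (nat_lit 13666763503) (nat_lit 304) (nat_lit 46198629083) (nat_lit 142) (nat_lit 5) (nat_lit 145) (nat_lit 5) (nat_lit 146) (nat_lit 5) (nat_lit 529) (nat_lit 464) (nat_lit 207)) (XT.lf (nat_lit 0) (nat_lit 55402298028) (nat_lit 304) (nat_lit 10944485759) (nat_lit 76) (nat_lit 16250918289) (nat_lit 142) (nat_lit 5) (nat_lit 146) (nat_lit 5) (nat_lit 143) (nat_lit 5) (nat_lit 530) (nat_lit 464) (nat_lit 206)))) (XT.nd (nat_lit 156) (nat_lit 228) (nat_lit 0) (XT.nd (nat_lit 78) (nat_lit 304) (nat_lit 0) (XT.lf (nat_lit 0) (nat_lit 40089581784) (nat_lit 228) (nat_lit 36984470712) (nat_lit 304) (nat_lit 7086686553) (nat_lit 139) (nat_lit 5) (nat_lit 142) (nat_lit 5) (nat_lit 143) (nat_lit 5) (nat_lit 531) (nat_lit 464) (nat_lit 205)) (XT.lf (nat_lit 0) (nat_lit 7117033633) (nat_lit 228) (nat_lit 6421530506) (nat_lit 304) (nat_lit 72222799281) (nat_lit 135) (nat_lit 5)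 (nat_lit 138) (nat_lit 5) (nat_lit 139) (nat_lit 5) (nat_lit 532) (nat_lit 464) (nat_lit 204))) (XT.nd (nat_lit 78) (nat_lit 228) (nat_lit 0) (XT.lf (nat_lit 0) (nat_lit 35329582275) (nat_lit 304) (nat_lit 26969270639) (nat_lit 76) (nat_lit 25088365328) (nat_lit 135) (nat_lit 5) (nat_lit 139) (nat_lit 5) (nat_lit 136) (nat_lit 5) (nat_lit 533) (nat_lit 464) (nat_lit 203)) (XT.lf (nat_lit 0) (nat_lit 26712302655) (nat_lit 228) (nat_lit 31381539190) (nat_lit 304) (nat_lit 30958421568) (nat_lit 132) (nat_lit 5) (nat_lit 135) (nat_lit 5) (nat_lit 136) (nat_lit 5) (nat_lit 534) (nat_lit 464) (nat_lit 202))))))))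
noncomputable def xc219 : XT := (XT.nd (nat_lit 58578) (nat_lit 0) (nat_lit 4940) (XT.nd (nat_lit 57330) (nat_lit 0) (nat_lit 13452) (XT.nd (nat_lit 546) (nat_lit 608) (nat_lit 0) (XT.nd (nat_lit 234) (nat_lit 456) (nat_lit 0) (XT.nd (nat_lit 78) (nat_lit 456) (nat_lit 0) (XT.lf (nat_lit 0) (nat_lit 81819677916) (nat_lit 304) (nat_lit 8210490043) (nat_lit 76) (nat_lit 728732549) (nat_lit 132) (nat_lit 5) (nat_lit 136) (nat_lit 5) (nat_lit 133) (nat_lit 5) (nat_lit 535) (nat_lit 464) (nat_lit 201)) (XT.nd (nat_lit 78) (nat_lit 228) (nat_lit 0) (XT.lf (nat_lit 0) (nat_lit 14253019218) (nat_lit 228) (nat_lit 44462518171) (nat_lit 76) (nat_lit 33773819043) (nat_lit 129) (nat_lit 5) (nat_lit 132) (nat_lit 5) (nat_lit 130) (nat_lit 5) (nat_lit 536) (nat_lit 464) (nat_lit 200)) (XT.lf (nat_lit 0) (nat_lit 11993688186) (nat_lit 228) (nat_lit 26165881101) (nat_lit 304) (nat_lit 56103555246) (nat_lit 126) (nat_lit 5) (nat_lit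 129) (nat_lit 5) (nat_lit 130) (nat_lit 5) (nat_lit 537) (nat_lit 464) (nat_lit 199)))) (XT.nd (nat_lit 156) (nat_lit 304) (nat_lit 0) (XT.nd (nat_lit 78) (nat_lit 152) (nat_lit 0) (XT.lf (nat_lit 0) (nat_lit 63306691055) (nat_lit 304) (nat_lit 25098197735) (nat_lit 76) (nat_lit 7669515657) (nat_lit 126) (nat_lit 5) (nat_lit 130) (nat_lit 5) (nat_lit 127) (nat_lit 5) (nat_lit 538) (nat_lit 464) (nat_lit 198)) (XT.lf (nat_lit 0) (nat_lit 34195034904) (nat_lit 152) (nat_lit 55600180954) (nat_lit 228) (nat_lit 8127197247) (nat_lit 124) (nat_lit 5) (nat_lit 126) (nat_lit 5) (nat_lit 127) (nat_lit 5) (nat_lit 539) (nat_lit 464) (nat_lit 197))) (XT.nd (nat_lit 78) (nat_lit 228) (nat_lit 0) (XT.lf (nat_lit 0) (nat_lit 17171047198) (nat_lit 228) (nat_lit 4206402700) (nat_lit 76) (nat_lit 78435781737) (nat_lit 123) (nat_lit 5) (nat_lit 126) (nat_lit 5) (nat_lit 124) (nat_lit 5) (nat_lit 540) (nat_lit 464) (nat_lit 196))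 (XT.lf (nat_lit 0) (nat_lit 43762809182) (nat_lit 304) (nat_lit 43728078427) (nat_lit 76) (nat_lit 14246535552) (nat_lit 120) (nat_lit 5) (nat_lit 124) (nat_lit 5) (nat_lit 121) (nat_lit 5) (nat_lit 541) (nat_lit 464) (nat_lit 195))))) (XT.nd (nat_lit 56472) (nat_lit 0) (nat_lit 14972) (XT.nd (nat_lit 156) (nat_lit 456) (nat_lit 0) (XT.nd (nat_lit 78) (nat_lit 0) (nat_lit 0) (XT.lf (nat_lit 0) (nat_lit 18609474093) (nat_lit 152) (nat_lit 52975537556) (nat_lit 228) (nat_lit 32121348179) (nat_lit 118) (nat_lit 5) (nat_lit 120) (nat_lit 5) (nat_lit 121) (nat_lit 5) (nat_lit 542) (nat_lit 464) (nat_lit 194)) (XT.lf (nat_lit 0) (nat_lit 83712237899) (nat_lit 152) (nat_lit 16970466673) (nat_lit 228) (nat_lit 5038435314) (nat_lit 118) (nat_lit 5) (nat_lit 120) (nat_lit 5) (nat_lit 121) (nat_lit 5) (nat_lit 543) (nat_lit 464) (nat_lit 193))) (XT.nd (nat_lit 78) (nat_lit 152) (nat_lit 0) (XT.lf (nat_lit 0) (nat_lit 23029014300)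 (nat_lit 304) (nat_lit 64375340516) (nat_lit 76) (nat_lit 20366874967) (nat_lit 114) (nat_lit 5) (nat_lit 118) (nat_lit 5) (nat_lit 115) (nat_lit 5) (nat_lit 544) (nat_lit 464) (nat_lit 192)) (XT.lf (nat_lit 0) (nat_lit 1138660527) (nat_lit 152) (nat_lit 51101251359) (nat_lit 228) (nat_lit 57629333185) (nat_lit 112) (nat_lit 5) (nat_lit 114) (nat_lit 5) (nat_lit 115) (nat_lit 5) (nat_lit 545) (nat_lit 464) (nat_lit 191)))) (XT.nd (nat_lit 156) (nat_lit 0) (nat_lit 76) (XT.nd (nat_lit 78) (nat_lit 0) (nat_lit 0) (XT.lf (nat_lit 0) (nat_lit 6561638594) (nat_lit 1292) (nat_lit 3667453763) (nat_lit 1292) (nat_lit 3667453763) (nat_lit 309) (nat_lit 3) (nat_lit 326) (nat_lit 3) (nat_lit 326) (nat_lit 5) (nat_lit 465) (nat_lit 465) (nat_lit 270)) (XT.lf (nat_lit 76) (nat_lit 6578441213) (nat_lit 0) (nat_lit 6889502928) (nat_lit 1292) (nat_lit 14737602127) (nat_lit 310) (nat_lit 5) (nat_lit 309) (nat_lit 3) (nat_lit 326)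 (nat_lit 5) (nat_lit 466) (nat_lit 465) (nat_lit 269))) (XT.nd (nat_lit 78) (nat_lit 0) (nat_lit 0) (XT.lf (nat_lit 0) (nat_lit 13962567467) (nat_lit 1216) (nat_lit 7639302715) (nat_lit 1292) (nat_lit 7024315548) (nat_lit 310) (nat_lit 5) (nat_lit 326) (nat_lit 5) (nat_lit 327) (nat_lit 5) (nat_lit 467) (nat_lit 465) (nat_lit 268)) (XT.lf (nat_lit 76) (nat_lit 6831431427) (nat_lit 0) (nat_lit 7771272616) (nat_lit 1292) (nat_lit 14452820394) (nat_lit 311) (nat_lit 5) (nat_lit 310) (nat_lit 5) (nat_lit 327) (nat_lit 5) (nat_lit 468) (nat_lit 465) (nat_lit 267)))))) (XT.nd (nat_lit 624) (nat_lit 1672) (nat_lit 0) (XT.nd (nat_lit 312) (nat_lit 0) (nat_lit 152) (XT.nd (nat_lit 156) (nat_lit 0) (nat_lit 76) (XT.nd (nat_lit 78) (nat_lit 0) (nat_lit 0) (XT.lf (nat_lit 0) (nat_lit 15399067908) (nat_lit 1216) (nat_lit 7667426187) (nat_lit 1292) (nat_lit 6427138799) (nat_lit 311) (nat_lit 5) (nat_lit 327) (nat_lit 5) (nat_lit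 328) (nat_lit 5) (nat_lit 469) (nat_lit 465) (nat_lit 266)) (XT.lf (nat_lit 76) (nat_lit 7391400297) (nat_lit 0) (nat_lit 8972890181) (nat_lit 1292) (nat_lit 13576245375) (nat_lit 312) (nat_lit 5) (nat_lit 311) (nat_lit 5) (nat_lit 328) (nat_lit 5) (nat_lit 470) (nat_lit 465) (nat_lit 265))) (XT.nd (nat_lit 78) (nat_lit 0) (nat_lit 0) (XT.lf (nat_lit 0) (nat_lit 17487005563) (nat_lit 1216) (nat_lit 7395323019) (nat_lit 1292) (nat_lit 5514661515) (nat_lit 312) (nat_lit 5) (nat_lit 328) (nat_lit 5) (nat_lit 329) (nat_lit 5) (nat_lit 471) (nat_lit 465) (nat_lit 264)) (XT.lf (nat_lit 76) (nat_lit 8284059036) (nat_lit 0) (nat_lit 10524956314) (nat_lit 1292) (nat_lit 12053154483) (nat_lit 313) (nat_lit 5) (nat_lit 312) (nat_lit 5) (nat_lit 329) (nat_lit 5) (nat_lit 472) (nat_lit 465) (nat_lit 263)))) (XT.nd (nat_lit 156) (nat_lit 0) (nat_lit 76) (XT.nd (nat_lit 78) (nat_lit 0) (nat_lit 0) (XT.lf (nat_lit 0) (nat_lit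 20284299049) (nat_lit 1216) (nat_lit 6797295683) (nat_lit 1292) (nat_lit 4256302076) (nat_lit 313) (nat_lit 5) (nat_lit 329) (nat_lit 5) (nat_lit 330) (nat_lit 5) (nat_lit 473) (nat_lit 465) (nat_lit 262)) (XT.lf (nat_lit 76) (nat_lit 9536961898) (nat_lit 0) (nat_lit 12460059132) (nat_lit 1292) (nat_lit 9825079418) (nat_lit 314) (nat_lit 5) (nat_lit 313) (nat_lit 5) (nat_lit 330) (nat_lit 5) (nat_lit 474) (nat_lit 465) (nat_lit 261))) (XT.nd (nat_lit 78) (nat_lit 0) (nat_lit 0) (XT.lf (nat_lit 0) (nat_lit 23852803194) (nat_lit 1216) (nat_lit 5845803118) (nat_lit 1292) (nat_lit 2619473771) (nat_lit 314) (nat_lit 5) (nat_lit 330) (nat_lit 5) (nat_lit 331) (nat_lit 5) (nat_lit 475) (nat_lit 465) (nat_lit 260)) (XT.lf (nat_lit 76) (nat_lit 11179612940) (nat_lit 0) (nat_lit 14812920408) (nat_lit 1292) (nat_lit 6829557757) (nat_lit 315) (nat_lit 5) (nat_lit 314) (nat_lit 5) (nat_lit 331) (nat_lit 5) (nat_lit 476) (nat_lit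 465) (nat_lit 259))))) (XT.nd (nat_lit 312) (nat_lit 760) (nat_lit 0) (XT.nd (nat_lit 156) (nat_lit 1216) (nat_lit 0) (XT.nd (nat_lit 78) (nat_lit 0) (nat_lit 0) (XT.lf (nat_lit 0) (nat_lit 28258568142) (nat_lit 1216) (nat_lit 4511353324) (nat_lit 1292) (nat_lit 569437836) (nat_lit 315) (nat_lit 5) (nat_lit 331) (nat_lit 5) (nat_lit 332) (nat_lit 5) (nat_lit 477) (nat_lit 465) (nat_lit 258)) (XT.lf (nat_lit 76) (nat_lit 13243579541) (nat_lit 0) (nat_lit 17620550018) (nat_lit 1292) (nat_lit 2999869840) (nat_lit 316) (nat_lit 5) (nat_lit 315) (nat_lit 5) (nat_lit 332) (nat_lit 5) (nat_lit 478) (nat_lit 465) (nat_lit 257))) (XT.nd (nat_lit 78) (nat_lit 1216) (nat_lit 0) (XT.lf (nat_lit 76) (nat_lit 31621764194) (nat_lit 0) (nat_lit 1969279598) (nat_lit 1292) (nat_lit 812039542) (nat_lit 316) (nat_lit 5) (nat_lit 315) (nat_lit 5) (nat_lit 332) (nat_lit 5) (nat_lit 479) (nat_lit 465) (nat_lit 256)) (XT.lf (nat_lit 0)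 (nat_lit 1701379208) (nat_lit 1292) (nat_lit 19203849455) (nat_lit 1368) (nat_lit 14044053220) (nat_lit 299) (nat_lit 5) (nat_lit 316) (nat_lit 5) (nat_lit 317) (nat_lit 5) (nat_lit 480) (nat_lit 465) (nat_lit 255)))) (XT.nd (nat_lit 156) (nat_lit 760) (nat_lit 0) (XT.nd (nat_lit 78) (nat_lit 0) (nat_lit 76) (XT.lf (nat_lit 0) (nat_lit 4319471298) (nat_lit 1292) (nat_lit 655759425) (nat_lit 1368) (nat_lit 30535026904) (nat_lit 299) (nat_lit 5) (nat_lit 316) (nat_lit 5) (nat_lit 317) (nat_lit 5) (nat_lit 481) (nat_lit 465) (nat_lit 254)) (XT.lf (nat_lit 0) (nat_lit 7306446174) (nat_lit 1292) (nat_lit 17380356731) (nat_lit 76) (nat_lit 11392549728) (nat_lit 300) (nat_lit 5) (nat_lit 317) (nat_lit 5) (nat_lit 301) (nat_lit 5) (nat_lit 482) (nat_lit 465) (nat_lit 253))) (XT.nd (nat_lit 78) (nat_lit 0) (nat_lit 0) (XT.lf (nat_lit 0) (nat_lit 1969711116) (nat_lit 836) (nat_lit 8486046142) (nat_lit 912) (nat_lit 26207581606)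 (nat_lit 289) (nat_lit 5) (nat_lit 300) (nat_lit 5) (nat_lit 301) (nat_lit 5) (nat_lit 483) (nat_lit 465) (nat_lit 252)) (XT.lf (nat_lit 0) (nat_lit 13953515687) (nat_lit 912) (nat_lit 15085547363) (nat_lit 76) (nat_lit 8218162772) (nat_lit 289) (nat_lit 5) (nat_lit 301) (nat_lit 5) (nat_lit 290) (nat_lit 5) (nat_lit 484) (nat_lit 465) (nat_lit 251))))))) (XT.nd (nat_lit 1248) (nat_lit 3572) (nat_lit 0) (XT.nd (nat_lit 624) (nat_lit 2508) (nat_lit 0) (XT.nd (nat_lit 312) (nat_lit 1216) (nat_lit 0) (XT.nd (nat_lit 156) (nat_lit 608) (nat_lit 0) (XT.nd (nat_lit 78) (nat_lit 0) (nat_lit 0) (XT.lf (nat_lit 0) (nat_lit 5124855670) (nat_lit 608) (nat_lit 12562588415) (nat_lit 684) (nat_lit 20177548360) (nat_lit 281) (nat_lit 5) (nat_lit 289) (nat_lit 5) (nat_lit 290) (nat_lit 5) (nat_lit 485) (nat_lit 465) (nat_lit 250)) (XT.lf (nat_lit 0) (nat_lit 21727603513) (nat_lit 684) (nat_lit 12281441394) (nat_lit 76) (nat_lit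 4476120935) (nat_lit 281) (nat_lit 5) (nat_lit 290) (nat_lit 5) (nat_lit 282) (nat_lit 5) (nat_lit 486) (nat_lit 465) (nat_lit 249))) (XT.nd (nat_lit 78) (nat_lit 0) (nat_lit 0) (XT.lf (nat_lit 0) (nat_lit 8837188161) (nat_lit 608) (nat_lit 17259164782) (nat_lit 684) (nat_lit 13021370104) (nat_lit 273) (nat_lit 5) (nat_lit 281) (nat_lit 5) (nat_lit 282) (nat_lit 5) (nat_lit 487) (nat_lit 465) (nat_lit 248)) (XT.lf (nat_lit 0) (nat_lit 30719439693) (nat_lit 684) (nat_lit 8927494118) (nat_lit 76) (nat_lit 118625071) (nat_lit 273) (nat_lit 5) (nat_lit 282) (nat_lit 5) (nat_lit 274) (nat_lit 5) (nat_lit 488) (nat_lit 465) (nat_lit 247)))) (XT.nd (nat_lit 156) (nat_lit 684) (nat_lit 0) (XT.nd (nat_lit 78) (nat_lit 0) (nat_lit 0) (XT.lf (nat_lit 0) (nat_lit 13149985663) (nat_lit 532) (nat_lit 22626671136) (nat_lit 608) (nat_lit 4647310016) (nat_lit 266) (nat_lit 5) (nat_lit 273) (nat_lit 5) (nat_lit 274) (nat_lit 5)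 (nat_lit 489) (nat_lit 465) (nat_lit 246)) (XT.lf (nat_lit 0) (nat_lit 36070940105) (nat_lit 532) (nat_lit 5002985807) (nat_lit 608) (nat_lit 25551160) (nat_lit 266) (nat_lit 5) (nat_lit 273) (nat_lit 5) (nat_lit 274) (nat_lit 5) (nat_lit 490) (nat_lit 465) (nat_lit 245))) (XT.nd (nat_lit 78) (nat_lit 0) (nat_lit 0) (XT.lf (nat_lit 0) (nat_lit 4944140290) (nat_lit 684) (nat_lit 23725366545) (nat_lit 76) (nat_lit 13115330292) (nat_lit 257) (nat_lit 5) (nat_lit 266) (nat_lit 5) (nat_lit 258) (nat_lit 5) (nat_lit 491) (nat_lit 465) (nat_lit 244)) (XT.lf (nat_lit 0) (nat_lit 10161478787) (nat_lit 684) (nat_lit 598196380) (nat_lit 76) (nat_lit 31728103267) (nat_lit 257) (nat_lit 5) (nat_lit 266) (nat_lit 5) (nat_lit 258) (nat_lit 5) (nat_lit 492) (nat_lit 465) (nat_lit 243))))) (XT.nd (nat_lit 312) (nat_lit 988) (nat_lit 0) (XT.nd (nat_lit 156) (nat_lit 456) (nat_lit 0) (XT.nd (nat_lit 78) (nat_lit 532) (nat_lit 0)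 (XT.lf (nat_lit 0) (nat_lit 15837448466) (nat_lit 608) (nat_lit 19598062299) (nat_lit 76) (nat_lit 7767234020) (nat_lit 250) (nat_lit 5) (nat_lit 258) (nat_lit 5) (nat_lit 251) (nat_lit 5) (nat_lit 493) (nat_lit 465) (nat_lit 242)) (XT.lf (nat_lit 0) (nat_lit 4588022460) (nat_lit 532) (nat_lit 17250745372) (nat_lit 608) (nat_lit 22095740305) (nat_lit 243) (nat_lit 5) (nat_lit 250) (nat_lit 5) (nat_lit 251) (nat_lit 5) (nat_lit 494) (nat_lit 465) (nat_lit 241))) (XT.nd (nat_lit 78) (nat_lit 456) (nat_lit 0) (XT.lf (nat_lit 0) (nat_lit 28232575554) (nat_lit 608) (nat_lit 14798913932) (nat_lit 76) (nat_lit 1650361566) (nat_lit 243) (nat_lit 5) (nat_lit 251) (nat_lit 5) (nat_lit 244) (nat_lit 5) (nat_lit 495) (nat_lit 465) (nat_lit 240)) (XT.lf (nat_lit 0) (nat_lit 10517702863) (nat_lit 456) (nat_lit 24570809204) (nat_lit 532) (nat_lit 10354992873) (nat_lit 237) (nat_lit 5) (nat_lit 243) (nat_lit 5) (nat_lit 244) (nat_lit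 5) (nat_lit 496) (nat_lit 465) (nat_lit 239)))) (XT.nd (nat_lit 156) (nat_lit 456) (nat_lit 0) (XT.nd (nat_lit 78) (nat_lit 532) (nat_lit 0) (XT.lf (nat_lit 0) (nat_lit 36895378332) (nat_lit 456) (nat_lit 5402629771) (nat_lit 532) (nat_lit 3925564018) (nat_lit 237) (nat_lit 5) (nat_lit 243) (nat_lit 5) (nat_lit 244) (nat_lit 5) (nat_lit 497) (nat_lit 465) (nat_lit 238)) (XT.lf (nat_lit 0) (nat_lit 2949113224) (nat_lit 532) (nat_lit 29812898607) (nat_lit 76) (nat_lit 14255102250) (nat_lit 230) (nat_lit 5) (nat_lit 237) (nat_lit 5) (nat_lit 231) (nat_lit 5) (nat_lit 498) (nat_lit 465) (nat_lit 237))) (XT.nd (nat_lit 78) (nat_lit 456) (nat_lit 0) (XT.lf (nat_lit 0) (nat_lit 10098248071) (nat_lit 532) (nat_lit 3202917765) (nat_lit 76) (nat_lit 34527717046) (nat_lit 230) (nat_lit 5) (nat_lit 237) (nat_lit 5) (nat_lit 231) (nat_lit 5) (nat_lit 499) (nat_lit 465) (nat_lit 236)) (XT.lf (nat_lit 0) (nat_lit 17764857060)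 (nat_lit 532) (nat_lit 24039791039) (nat_lit 76) (nat_lit 6851266753) (nat_lit 224) (nat_lit 5) (nat_lit 231) (nat_lit 5) (nat_lit 225) (nat_lit 5) (nat_lit 500) (nat_lit 465) (nat_lit 235)))))) (XT.nd (nat_lit 624) (nat_lit 1444) (nat_lit 0) (XT.nd (nat_lit 312) (nat_lit 1216) (nat_lit 0) (XT.nd (nat_lit 156) (nat_lit 456) (nat_lit 0) (XT.nd (nat_lit 78) (nat_lit 0) (nat_lit 0) (XT.lf (nat_lit 0) (nat_lit 3768348326) (nat_lit 456) (nat_lit 22092261229) (nat_lit 532) (nat_lit 23641173968) (nat_lit 218) (nat_lit 5) (nat_lit 224) (nat_lit 5) (nat_lit 225) (nat_lit 5) (nat_lit 501) (nat_lit 465) (nat_lit 234)) (XT.lf (nat_lit 0) (nat_lit 32901764826) (nat_lit 456) (nat_lit 1538812921) (nat_lit 532) (nat_lit 15925210314) (nat_lit 218) (nat_lit 5) (nat_lit 224) (nat_lit 5) (nat_lit 225) (nat_lit 5) (nat_lit 502) (nat_lit 465) (nat_lit 233))) (XT.nd (nat_lit 78) (nat_lit 76) (nat_lit 0) (XT.lf (nat_lit 0) (nat_lit 11691154213)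 (nat_lit 380) (nat_lit 31886507018) (nat_lit 456) (nat_lit 7669060114) (nat_lit 213) (nat_lit 5) (nat_lit 218) (nat_lit 5) (nat_lit 219) (nat_lit 5) (nat_lit 503) (nat_lit 465) (nat_lit 232)) (XT.lf (nat_lit 0) (nat_lit 1010455531) (nat_lit 456) (nat_lit 10096571955) (nat_lit 76) (nat_lit 41041055389) (nat_lit 212) (nat_lit 5) (nat_lit 218) (nat_lit 5) (nat_lit 213) (nat_lit 5) (nat_lit 504) (nat_lit 465) (nat_lit 231)))) (XT.nd (nat_lit 156) (nat_lit 760) (nat_lit 0) (XT.nd (nat_lit 78) (nat_lit 0) (nat_lit 0) (XT.lf (nat_lit 0) (nat_lit 10094298723) (nat_lit 532) (nat_lit 32600040215) (nat_lit 76) (nat_lit 10370925983) (nat_lit 206) (nat_lit 5) (nat_lit 213) (nat_lit 5) (nat_lit 207) (nat_lit 5) (nat_lit 505) (nat_lit 465) (nat_lit 230)) (XT.lf (nat_lit 0) (nat_lit 19662287341) (nat_lit 532) (nat_lit 1968762301) (nat_lit 76) (nat_lit 32372563970) (nat_lit 206) (nat_lit 5) (nat_lit 213) (nat_lit 5) (nat_lit 207)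 (nat_lit 5) (nat_lit 506) (nat_lit 465) (nat_lit 229))) (XT.nd (nat_lit 78) (nat_lit 380) (nat_lit 0) (XT.lf (nat_lit 0) (nat_lit 29809529911) (nat_lit 456) (nat_lit 24796458656) (nat_lit 76) (nat_lit 355357852) (nat_lit 201) (nat_lit 5) (nat_lit 207) (nat_lit 5) (nat_lit 202) (nat_lit 5) (nat_lit 507) (nat_lit 465) (nat_lit 228)) (XT.lf (nat_lit 0) (nat_lit 7281726785) (nat_lit 380) (nat_lit 33282455257) (nat_lit 456) (nat_lit 15374539479) (nat_lit 196) (nat_lit 5) (nat_lit 201) (nat_lit 5) (nat_lit 202) (nat_lit 5) (nat_lit 508) (nat_lit 465) (nat_lit 227))))) (XT.nd (nat_lit 312) (nat_lit 684) (nat_lit 0) (XT.nd (nat_lit 156) (nat_lit 380) (nat_lit 0) (XT.nd (nat_lit 78) (nat_lit 380) (nat_lit 0) (XT.lf (nat_lit 0) (nat_lit 40828886931) (nat_lit 380) (nat_lit 11061752332) (nat_lit 456) (nat_lit 5047303725) (nat_lit 196) (nat_lit 5) (nat_lit 201) (nat_lit 5) (nat_lit 202) (nat_lit 5) (nat_lit 509) (nat_lit 465)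 (nat_lit 226)) (XT.lf (nat_lit 0) (nat_lit 5765549764) (nat_lit 380) (nat_lit 40370910753) (nat_lit 76) (nat_lit 11820522390) (nat_lit 191) (nat_lit 5) (nat_lit 196) (nat_lit 5) (nat_lit 192) (nat_lit 5) (nat_lit 510) (nat_lit 465) (nat_lit 225))) (XT.nd (nat_lit 78) (nat_lit 380) (nat_lit 0) (XT.lf (nat_lit 0) (nat_lit 17073954810) (nat_lit 380) (nat_lit 6542210541) (nat_lit 76) (nat_lit 35380751193) (nat_lit 191) (nat_lit 5) (nat_lit 196) (nat_lit 5) (nat_lit 192) (nat_lit 5) (nat_lit 511) (nat_lit 465) (nat_lit 224)) (XT.lf (nat_lit 0) (nat_lit 28862954880) (nat_lit 380) (nat_lit 134949180) (nat_lit 456) (nat_lit 31061855437) (nat_lit 186) (nat_lit 5) (nat_lit 191) (nat_lit 5) (nat_lit 192) (nat_lit 5) (nat_lit 512) (nat_lit 465) (nat_lit 223)))) (XT.nd (nat_lit 156) (nat_lit 380) (nat_lit 0) (XT.nd (nat_lit 78) (nat_lit 0) (nat_lit 0) (XT.lf (nat_lit 0) (nat_lit 4159572475) (nat_lit 304) (nat_lit 37456748866)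 (nat_lit 380) (nat_lit 19528063979) (nat_lit 182) (nat_lit 5) (nat_lit 186) (nat_lit 5) (nat_lit 187) (nat_lit 5) (nat_lit 513) (nat_lit 465) (nat_lit 222)) (XT.lf (nat_lit 0) (nat_lit 41213168119) (nat_lit 304) (nat_lit 13715347901) (nat_lit 380) (nat_lit 7323577217) (nat_lit 182) (nat_lit 5) (nat_lit 186) (nat_lit 5) (nat_lit 187) (nat_lit 5) (nat_lit 514) (nat_lit 465) (nat_lit 221))) (XT.nd (nat_lit 78) (nat_lit 0) (nat_lit 0) (XT.lf (nat_lit 0) (nat_lit 5405025934) (nat_lit 380) (nat_lit 47241713882) (nat_lit 76) (nat_lit 10736968388) (nat_lit 177) (nat_lit 5) (nat_lit 182) (nat_lit 5) (nat_lit 178) (nat_lit 5) (nat_lit 515) (nat_lit 465) (nat_lit 220)) (XT.lf (nat_lit 0) (nat_lit 18717550916) (nat_lit 380) (nat_lit 9885290372) (nat_lit 76) (nat_lit 35933777261) (nat_lit 177) (nat_lit 5) (nat_lit 182) (nat_lit 5) (nat_lit 178) (nat_lit 5) (nat_lit 516) (nat_lit 465) (nat_lit 219))))))))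
noncomputable def xc220 : XT := (XT.nd (nat_lit 58656) (nat_lit 0) (nat_lit 9348) (XT.nd (nat_lit 1170) (nat_lit 2128) (nat_lit 0) (XT.nd (nat_lit 546) (nat_lit 1140) (nat_lit 0) (XT.nd (nat_lit 234) (nat_lit 912) (nat_lit 0) (XT.nd (nat_lit 78) (nat_lit 304) (nat_lit 0) (XT.lf (nat_lit 0) (nat_lit 29159273617) (nat_lit 304) (nat_lit 3549416055) (nat_lit 380) (nat_lit 33007049450) (nat_lit 173) (nat_lit 5) (nat_lit 177) (nat_lit 5) (nat_lit 178) (nat_lit 5) (nat_lit 517) (nat_lit 465) (nat_lit 218)) (XT.nd (nat_lit 78) (nat_lit 0) (nat_lit 0) (XT.lf (nat_lit 0) (nat_lit 2482528819) (nat_lit 304) (nat_lit 44974594815) (nat_lit 380) (nat_lit 19462982903) (nat_lit 169) (nat_lit 5) (nat_lit 173) (nat_lit 5) (nat_lit 174) (nat_lit 5) (nat_lit 518) (nat_lit 465) (nat_lit 217)) (XT.lf (nat_lit 0) (nat_lit 43404671885) (nat_lit 304) (nat_lit 19646253665) (nat_lit 380) (nat_lit 5097592031) (nat_lit 169) (nat_lit 5) (nat_lit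 173) (nat_lit 5) (nat_lit 174) (nat_lit 5) (nat_lit 519) (nat_lit 465) (nat_lit 216)))) (XT.nd (nat_lit 156) (nat_lit 532) (nat_lit 0) (XT.nd (nat_lit 78) (nat_lit 0) (nat_lit 0) (XT.lf (nat_lit 0) (nat_lit 9730203710) (nat_lit 380) (nat_lit 53105406687) (nat_lit 76) (nat_lit 6568752672) (nat_lit 164) (nat_lit 5) (nat_lit 169) (nat_lit 5) (nat_lit 165) (nat_lit 5) (nat_lit 520) (nat_lit 465) (nat_lit 215)) (XT.lf (nat_lit 0) (nat_lit 25346230572) (nat_lit 380) (nat_lit 11859119097) (nat_lit 76) (nat_lit 33477644553) (nat_lit 164) (nat_lit 5) (nat_lit 169) (nat_lit 5) (nat_lit 165) (nat_lit 5) (nat_lit 521) (nat_lit 465) (nat_lit 214))) (XT.nd (nat_lit 78) (nat_lit 228) (nat_lit 0) (XT.lf (nat_lit 0) (nat_lit 31232525179) (nat_lit 304) (nat_lit 10497466586) (nat_lit 380) (nat_lit 30261014988) (nat_lit 160) (nat_lit 5) (nat_lit 164) (nat_lit 5) (nat_lit 165) (nat_lit 5) (nat_lit 522) (nat_lit 465) (nat_lit 213))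 (XT.lf (nat_lit 0) (nat_lit 2406091257) (nat_lit 228) (nat_lit 56505805851) (nat_lit 304) (nat_lit 14417163659) (nat_lit 157) (nat_lit 5) (nat_lit 160) (nat_lit 5) (nat_lit 161) (nat_lit 5) (nat_lit 523) (nat_lit 465) (nat_lit 212))))) (XT.nd (nat_lit 312) (nat_lit 532) (nat_lit 0) (XT.nd (nat_lit 156) (nat_lit 228) (nat_lit 0) (XT.nd (nat_lit 78) (nat_lit 304) (nat_lit 0) (XT.lf (nat_lit 0) (nat_lit 2383520269) (nat_lit 304) (nat_lit 27121597014) (nat_lit 76) (nat_lit 45186031707) (nat_lit 156) (nat_lit 5) (nat_lit 160) (nat_lit 5) (nat_lit 157) (nat_lit 5) (nat_lit 524) (nat_lit 465) (nat_lit 211)) (XT.lf (nat_lit 0) (nat_lit 18204853924) (nat_lit 304) (nat_lit 1367665085) (nat_lit 380) (nat_lit 56512076618) (nat_lit 152) (nat_lit 5) (nat_lit 156) (nat_lit 5) (nat_lit 157) (nat_lit 5) (nat_lit 525) (nat_lit 465) (nat_lit 210))) (XT.nd (nat_lit 78) (nat_lit 228) (nat_lit 0) (XT.lf (nat_lit 0) (nat_lit 37818293050)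 (nat_lit 380) (nat_lit 12334187298) (nat_lit 76) (nat_lit 27351132198) (nat_lit 152) (nat_lit 5) (nat_lit 157) (nat_lit 5) (nat_lit 153) (nat_lit 5) (nat_lit 526) (nat_lit 465) (nat_lit 209)) (XT.lf (nat_lit 0) (nat_lit 35250633119) (nat_lit 228) (nat_lit 21712302918) (nat_lit 304) (nat_lit 21991719103) (nat_lit 149) (nat_lit 5) (nat_lit 152) (nat_lit 5) (nat_lit 153) (nat_lit 5) (nat_lit 527) (nat_lit 465) (nat_lit 208)))) (XT.nd (nat_lit 156) (nat_lit 228) (nat_lit 0) (XT.nd (nat_lit 78) (nat_lit 76) (nat_lit 0) (XT.lf (nat_lit 0) (nat_lit 4074307996) (nat_lit 228) (nat_lit 72844544605) (nat_lit 304) (nat_lit 3523268422) (nat_lit 146) (nat_lit 5) (nat_lit 149) (nat_lit 5) (nat_lit 150) (nat_lit 5) (nat_lit 528) (nat_lit 465) (nat_lit 207)) (XT.lf (nat_lit 0) (nat_lit 15856572446) (nat_lit 304) (nat_lit 28148861888) (nat_lit 76) (nat_lit 37944513467) (nat_lit 145) (nat_lit 5) (nat_lit 149) (nat_lit 5) (nat_lit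 146) (nat_lit 5) (nat_lit 529) (nat_lit 465) (nat_lit 206))) (XT.nd (nat_lit 78) (nat_lit 0) (nat_lit 0) (XT.lf (nat_lit 0) (nat_lit 21907880167) (nat_lit 228) (nat_lit 14048846700) (nat_lit 304) (nat_lit 47538944057) (nat_lit 142) (nat_lit 5) (nat_lit 145) (nat_lit 5) (nat_lit 146) (nat_lit 5) (nat_lit 530) (nat_lit 465) (nat_lit 205)) (XT.lf (nat_lit 0) (nat_lit 57107649546) (nat_lit 304) (nat_lit 11201659919) (nat_lit 76) (nat_lit 16765023404) (nat_lit 142) (nat_lit 5) (nat_lit 146) (nat_lit 5) (nat_lit 143) (nat_lit 5) (nat_lit 531) (nat_lit 465) (nat_lit 204)))))) (XT.nd (nat_lit 624) (nat_lit 912) (nat_lit 0) (XT.nd (nat_lit 312) (nat_lit 456) (nat_lit 0) (XT.nd (nat_lit 156) (nat_lit 228) (nat_lit 0) (XT.nd (nat_lit 78) (nat_lit 304) (nat_lit 0) (XT.lf (nat_lit 0) (nat_lit 41362731999) (nat_lit 228) (nat_lit 38066241323) (nat_lit 304) (nat_lit 7255305183) (nat_lit 139) (nat_lit 5) (nat_lit 142) (nat_lit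 5) (nat_lit 143) (nat_lit 5) (nat_lit 532) (nat_lit 465) (nat_lit 203)) (XT.lf (nat_lit 0) (nat_lit 7401168096) (nat_lit 228) (nat_lit 6586099534) (nat_lit 304) (nat_lit 74345658658) (nat_lit 135) (nat_lit 5) (nat_lit 138) (nat_lit 5) (nat_lit 139) (nat_lit 5) (nat_lit 533) (nat_lit 465) (nat_lit 202))) (XT.nd (nat_lit 78) (nat_lit 228) (nat_lit 0) (XT.lf (nat_lit 0) (nat_lit 36431039120) (nat_lit 304) (nat_lit 27708803518) (nat_lit 76) (nat_lit 25867743478) (nat_lit 135) (nat_lit 5) (nat_lit 139) (nat_lit 5) (nat_lit 136) (nat_lit 5) (nat_lit 534) (nat_lit 465) (nat_lit 201)) (XT.lf (nat_lit 0) (nat_lit 27582535159) (nat_lit 228) (nat_lit 32295142517) (nat_lit 304) (nat_lit 31844921477) (nat_lit 132) (nat_lit 5) (nat_lit 135) (nat_lit 5) (nat_lit 136) (nat_lit 5) (nat_lit 535) (nat_lit 465) (nat_lit 200)))) (XT.nd (nat_lit 156) (nat_lit 228) (nat_lit 0) (XT.nd (nat_lit 78) (nat_lit 228) (nat_lit 0) (XT.lf (nat_lit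 0) (nat_lit 84314353902) (nat_lit 304) (nat_lit 8389010624) (nat_lit 76) (nat_lit 777098927) (nat_lit 132) (nat_lit 5) (nat_lit 136) (nat_lit 5) (nat_lit 133) (nat_lit 5) (nat_lit 536) (nat_lit 465) (nat_lit 199)) (XT.lf (nat_lit 0) (nat_lit 14720566335) (nat_lit 228) (nat_lit 45728467617) (nat_lit 76) (nat_lit 34813803064) (nat_lit 129) (nat_lit 5) (nat_lit 132) (nat_lit 5) (nat_lit 130) (nat_lit 5) (nat_lit 537) (nat_lit 465) (nat_lit 198))) (XT.nd (nat_lit 78) (nat_lit 0) (nat_lit 0) (XT.lf (nat_lit 0) (nat_lit 12420758989) (nat_lit 228) (nat_lit 26923036679) (nat_lit 304) (nat_lit 57746038048) (nat_lit 126) (nat_lit 5) (nat_lit 129) (nat_lit 5) (nat_lit 130) (nat_lit 5) (nat_lit 538) (nat_lit 465) (nat_lit 197)) (XT.lf (nat_lit 0) (nat_lit 65244442014) (nat_lit 304) (nat_lit 25784952135) (nat_lit 76) (nat_lit 7926084592) (nat_lit 126) (nat_lit 5) (nat_lit 130) (nat_lit 5) (nat_lit 127) (nat_lit 5) (nat_lit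 539) (nat_lit 465) (nat_lit 196))))) (XT.nd (nat_lit 312) (nat_lit 304) (nat_lit 0) (XT.nd (nat_lit 156) (nat_lit 380) (nat_lit 0) (XT.nd (nat_lit 78) (nat_lit 76) (nat_lit 0) (XT.lf (nat_lit 0) (nat_lit 35286428547) (nat_lit 152) (nat_lit 57240701228) (nat_lit 228) (nat_lit 8331812707) (nat_lit 124) (nat_lit 5) (nat_lit 126) (nat_lit 5) (nat_lit 127) (nat_lit 5) (nat_lit 540) (nat_lit 465) (nat_lit 195)) (XT.lf (nat_lit 0) (nat_lit 17723494649) (nat_lit 228) (nat_lit 4268217311) (nat_lit 76) (nat_lit 80814795923) (nat_lit 123) (nat_lit 5) (nat_lit 126) (nat_lit 5) (nat_lit 124) (nat_lit 5) (nat_lit 541) (nat_lit 465) (nat_lit 194))) (XT.nd (nat_lit 78) (nat_lit 152) (nat_lit 0) (XT.lf (nat_lit 0) (nat_lit 45112794007) (nat_lit 304) (nat_lit 44975326641) (nat_lit 76) (nat_lit 14700311007) (nat_lit 120) (nat_lit 5) (nat_lit 124) (nat_lit 5) (nat_lit 121) (nat_lit 5) (nat_lit 542) (nat_lit 465) (nat_lit 193)) (XT.lf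 (nat_lit 0) (nat_lit 19231719178) (nat_lit 152) (nat_lit 54537477602) (nat_lit 228) (nat_lit 33047253649) (nat_lit 118) (nat_lit 5) (nat_lit 120) (nat_lit 5) (nat_lit 121) (nat_lit 5) (nat_lit 543) (nat_lit 465) (nat_lit 192)))) (XT.nd (nat_lit 56394) (nat_lit 0) (nat_lit 14820) (XT.nd (nat_lit 78) (nat_lit 304) (nat_lit 0) (XT.lf (nat_lit 0) (nat_lit 86285702961) (nat_lit 152) (nat_lit 17453050498) (nat_lit 228) (nat_lit 5152952475) (nat_lit 118) (nat_lit 5) (nat_lit 120) (nat_lit 5) (nat_lit 121) (nat_lit 5) (nat_lit 544) (nat_lit 465) (nat_lit 191)) (XT.lf (nat_lit 0) (nat_lit 23755614274) (nat_lit 304) (nat_lit 66243594317) (nat_lit 76) (nat_lit 21004085147) (nat_lit 114) (nat_lit 5) (nat_lit 118) (nat_lit 5) (nat_lit 115) (nat_lit 5) (nat_lit 545) (nat_lit 465) (nat_lit 190))) (XT.nd (nat_lit 78) (nat_lit 0) (nat_lit 0) (XT.lf (nat_lit 0) (nat_lit 6842256494) (nat_lit 1292) (nat_lit 3734332600) (nat_lit 1292)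 (nat_lit 3734332600) (nat_lit 309) (nat_lit 3) (nat_lit 326) (nat_lit 3) (nat_lit 326) (nat_lit 5) (nat_lit 466) (nat_lit 466) (nat_lit 268)) (XT.lf (nat_lit 76) (nat_lit 6861238026) (nat_lit 0) (nat_lit 7174223528) (nat_lit 1292) (nat_lit 15011331685) (nat_lit 310) (nat_lit 5) (nat_lit 309) (nat_lit 3) (nat_lit 326) (nat_lit 5) (nat_lit 467) (nat_lit 466) (nat_lit 267))))))) (XT.nd (nat_lit 1170) (nat_lit 4712) (nat_lit 0) (XT.nd (nat_lit 546) (nat_lit 836) (nat_lit 0) (XT.nd (nat_lit 234) (nat_lit 0) (nat_lit 76) (XT.nd (nat_lit 78) (nat_lit 0) (nat_lit 0) (XT.lf (nat_lit 0) (nat_lit 14539433777) (nat_lit 1216) (nat_lit 7780022457) (nat_lit 1292) (nat_lit 7160760784) (nat_lit 310) (nat_lit 5) (nat_lit 326) (nat_lit 5) (nat_lit 327) (nat_lit 5) (nat_lit 468) (nat_lit 466) (nat_lit 266)) (XT.nd (nat_lit 78) (nat_lit 0) (nat_lit 76) (XT.lf (nat_lit 76) (nat_lit 7123966460) (nat_lit 0) (nat_lit 8071048348) (nat_lit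 1292) (nat_lit 14727534291) (nat_lit 311) (nat_lit 5) (nat_lit 310) (nat_lit 5) (nat_lit 327) (nat_lit 5) (nat_lit 469) (nat_lit 466) (nat_lit 265)) (XT.lf (nat_lit 0) (nat_lit 16010155560) (nat_lit 1216) (nat_lit 7807280311) (nat_lit 1292) (nat_lit 6556518774) (nat_lit 311) (nat_lit 5) (nat_lit 327) (nat_lit 5) (nat_lit 328) (nat_lit 5) (nat_lit 470) (nat_lit 466) (nat_lit 264)))) (XT.nd (nat_lit 156) (nat_lit 0) (nat_lit 76) (XT.nd (nat_lit 78) (nat_lit 0) (nat_lit 76) (XT.lf (nat_lit 76) (nat_lit 7702426962) (nat_lit 0) (nat_lit 9298422931) (nat_lit 1292) (nat_lit 13833519748) (nat_lit 312) (nat_lit 5) (nat_lit 311) (nat_lit 5) (nat_lit 328) (nat_lit 5) (nat_lit 471) (nat_lit 466) (nat_lit 263)) (XT.lf (nat_lit 0) (nat_lit 18152478902) (nat_lit 1216) (nat_lit 7525718072) (nat_lit 1292) (nat_lit 5626463952) (nat_lit 312) (nat_lit 5) (nat_lit 328) (nat_lit 5) (nat_lit 329) (nat_lit 5) (nat_lit 472) (nat_lit 466)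 (nat_lit 262))) (XT.nd (nat_lit 78) (nat_lit 0) (nat_lit 76) (XT.lf (nat_lit 76) (nat_lit 8623148732) (nat_lit 0) (nat_lit 10887768034) (nat_lit 1292) (nat_lit 12272976634) (nat_lit 313) (nat_lit 5) (nat_lit 312) (nat_lit 5) (nat_lit 329) (nat_lit 5) (nat_lit 473) (nat_lit 466) (nat_lit 261)) (XT.lf (nat_lit 0) (nat_lit 21026011086) (nat_lit 1216) (nat_lit 6908824407) (nat_lit 1292) (nat_lit 4339190495) (nat_lit 313) (nat_lit 5) (nat_lit 329) (nat_lit 5) (nat_lit 330) (nat_lit 5) (nat_lit 474) (nat_lit 466) (nat_lit 260))))) (XT.nd (nat_lit 312) (nat_lit 1064) (nat_lit 0) (XT.nd (nat_lit 156) (nat_lit 0) (nat_lit 76) (XT.nd (nat_lit 78) (nat_lit 0) (nat_lit 76) (XT.lf (nat_lit 76) (nat_lit 9914555117) (nat_lit 0) (nat_lit 12872559895) (nat_lit 1292) (nat_lit 9985731073) (nat_lit 314) (nat_lit 5) (nat_lit 313) (nat_lit 5) (nat_lit 330) (nat_lit 5) (nat_lit 475) (nat_lit 466) (nat_lit 259)) (XT.lf (nat_lit 0) (nat_lit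 24694417728) (nat_lit 1216) (nat_lit 5928193001) (nat_lit 1292) (nat_lit 2661219312) (nat_lit 314) (nat_lit 5) (nat_lit 330) (nat_lit 5) (nat_lit 331) (nat_lit 5) (nat_lit 476) (nat_lit 466) (nat_lit 258))) (XT.nd (nat_lit 78) (nat_lit 0) (nat_lit 76) (XT.lf (nat_lit 76) (nat_lit 11607073929) (nat_lit 0) (nat_lit 15288480128) (nat_lit 1292) (nat_lit 6907491246) (nat_lit 315) (nat_lit 5) (nat_lit 314) (nat_lit 5) (nat_lit 331) (nat_lit 5) (nat_lit 477) (nat_lit 466) (nat_lit 257)) (XT.lf (nat_lit 0) (nat_lit 29225689325) (nat_lit 1216) (nat_lit 4553411612) (nat_lit 1292) (nat_lit 556847352) (nat_lit 315) (nat_lit 5) (nat_lit 331) (nat_lit 5) (nat_lit 332) (nat_lit 5) (nat_lit 478) (nat_lit 466) (nat_lit 256)))) (XT.nd (nat_lit 156) (nat_lit 1216) (nat_lit 0) (XT.nd (nat_lit 78) (nat_lit 0) (nat_lit 0) (XT.lf (nat_lit 76) (nat_lit 13733254707) (nat_lit 0) (nat_lit 18173574147) (nat_lit 1292) (nat_lit 2969576712)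 (nat_lit 316) (nat_lit 5) (nat_lit 315) (nat_lit 5) (nat_lit 332) (nat_lit 5) (nat_lit 479) (nat_lit 466) (nat_lit 255)) (XT.lf (nat_lit 76) (nat_lit 32660094576) (nat_lit 0) (nat_lit 2052054713) (nat_lit 1292) (nat_lit 719615075) (nat_lit 316) (nat_lit 5) (nat_lit 315) (nat_lit 5) (nat_lit 332) (nat_lit 5) (nat_lit 480) (nat_lit 466) (nat_lit 254))) (XT.nd (nat_lit 78) (nat_lit 0) (nat_lit 0) (XT.lf (nat_lit 0) (nat_lit 1864265856) (nat_lit 1292) (nat_lit 19685327499) (nat_lit 1368) (nat_lit 14444801971) (nat_lit 299) (nat_lit 5) (nat_lit 316) (nat_lit 5) (nat_lit 317) (nat_lit 5) (nat_lit 481) (nat_lit 466) (nat_lit 253)) (XT.lf (nat_lit 0) (nat_lit 4557643079) (nat_lit 1292) (nat_lit 583551198) (nat_lit 1368) (nat_lit 31431104074) (nat_lit 299) (nat_lit 5) (nat_lit 316) (nat_lit 5) (nat_lit 317) (nat_lit 5) (nat_lit 482) (nat_lit 466) (nat_lit 252)))))) (XT.nd (nat_lit 624) (nat_lit 2204) (nat_lit 0) (XT.nd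 (nat_lit 312) (nat_lit 1140) (nat_lit 0) (XT.nd (nat_lit 156) (nat_lit 608) (nat_lit 0) (XT.nd (nat_lit 78) (nat_lit 836) (nat_lit 0) (XT.lf (nat_lit 0) (nat_lit 7631791754) (nat_lit 1292) (nat_lit 17807441874) (nat_lit 76) (nat_lit 11719305917) (nat_lit 300) (nat_lit 5) (nat_lit 317) (nat_lit 5) (nat_lit 301) (nat_lit 5) (nat_lit 483) (nat_lit 466) (nat_lit 251)) (XT.lf (nat_lit 0) (nat_lit 2122203249) (nat_lit 836) (nat_lit 8751184936) (nat_lit 912) (nat_lit 26886723262) (nat_lit 289) (nat_lit 5) (nat_lit 300) (nat_lit 5) (nat_lit 301) (nat_lit 5) (nat_lit 484) (nat_lit 466) (nat_lit 250))) (XT.nd (nat_lit 78) (nat_lit 608) (nat_lit 0) (XT.lf (nat_lit 0) (nat_lit 14472952929) (nat_lit 912) (nat_lit 15444298379) (nat_lit 76) (nat_lit 8454657755) (nat_lit 289) (nat_lit 5) (nat_lit 301) (nat_lit 5) (nat_lit 290) (nat_lit 5) (nat_lit 485) (nat_lit 466) (nat_lit 249)) (XT.lf (nat_lit 0) (nat_lit 5371496986) (nat_lit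 608) (nat_lit 12945358315) (nat_lit 684) (nat_lit 20681114951) (nat_lit 281) (nat_lit 5) (nat_lit 289) (nat_lit 5) (nat_lit 290) (nat_lit 5) (nat_lit 486) (nat_lit 466) (nat_lit 248)))) (XT.nd (nat_lit 156) (nat_lit 532) (nat_lit 0) (XT.nd (nat_lit 78) (nat_lit 608) (nat_lit 0) (XT.lf (nat_lit 0) (nat_lit 22475287204) (nat_lit 684) (nat_lit 12556754294) (nat_lit 76) (nat_lit 4604795564) (nat_lit 281) (nat_lit 5) (nat_lit 290) (nat_lit 5) (nat_lit 282) (nat_lit 5) (nat_lit 487) (nat_lit 466) (nat_lit 247)) (XT.lf (nat_lit 0) (nat_lit 9194521105) (nat_lit 608) (nat_lit 17778672551) (nat_lit 684) (nat_lit 13315234726) (nat_lit 273) (nat_lit 5) (nat_lit 281) (nat_lit 5) (nat_lit 282) (nat_lit 5) (nat_lit 488) (nat_lit 466) (nat_lit 246))) (XT.nd (nat_lit 78) (nat_lit 532) (nat_lit 0) (XT.lf (nat_lit 0) (nat_lit 31732220425) (nat_lit 684) (nat_lit 9103027377) (nat_lit 76) (nat_lit 120534297) (nat_lit 273) (nat_lit 5)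 (nat_lit 282) (nat_lit 5) (nat_lit 274) (nat_lit 5) (nat_lit 489) (nat_lit 466) (nat_lit 245)) (XT.lf (nat_lit 0) (nat_lit 13635871978) (nat_lit 532) (nat_lit 23303504293) (nat_lit 608) (nat_lit 4694619555) (nat_lit 266) (nat_lit 5) (nat_lit 273) (nat_lit 5) (nat_lit 274) (nat_lit 5) (nat_lit 490) (nat_lit 466) (nat_lit 244))))) (XT.nd (nat_lit 312) (nat_lit 988) (nat_lit 0) (XT.nd (nat_lit 156) (nat_lit 532) (nat_lit 0) (XT.nd (nat_lit 78) (nat_lit 608) (nat_lit 0) (XT.lf (nat_lit 0) (nat_lit 61877769) (nat_lit 608) (nat_lit 5088663081) (nat_lit 76) (nat_lit 37179290691) (nat_lit 265) (nat_lit 5) (nat_lit 273) (nat_lit 5) (nat_lit 266) (nat_lit 5) (nat_lit 491) (nat_lit 466) (nat_lit 243)) (XT.lf (nat_lit 0) (nat_lit 5178488374) (nat_lit 684) (nat_lit 24344985719) (nat_lit 76) (nat_lit 13512320658) (nat_lit 257) (nat_lit 5) (nat_lit 266) (nat_lit 5) (nat_lit 258) (nat_lit 5) (nat_lit 492) (nat_lit 466) (nat_lit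 242))) (XT.nd (nat_lit 78) (nat_lit 532) (nat_lit 0) (XT.lf (nat_lit 0) (nat_lit 10549841476) (nat_lit 684) (nat_lit 526684192) (nat_lit 76) (nat_lit 32683373995) (nat_lit 257) (nat_lit 5) (nat_lit 266) (nat_lit 5) (nat_lit 258) (nat_lit 5) (nat_lit 493) (nat_lit 466) (nat_lit 241)) (XT.lf (nat_lit 0) (nat_lit 16394573032) (nat_lit 608) (nat_lit 20095022490) (nat_lit 76) (nat_lit 8006765188) (nat_lit 250) (nat_lit 5) (nat_lit 258) (nat_lit 5) (nat_lit 251) (nat_lit 5) (nat_lit 494) (nat_lit 466) (nat_lit 240)))) (XT.nd (nat_lit 156) (nat_lit 456) (nat_lit 0) (XT.nd (nat_lit 78) (nat_lit 0) (nat_lit 0) (XT.lf (nat_lit 0) (nat_lit 4815752834) (nat_lit 532) (nat_lit 17758656761) (nat_lit 608) (nat_lit 22675713227) (nat_lit 243) (nat_lit 5) (nat_lit 250) (nat_lit 5) (nat_lit 251) (nat_lit 5) (nat_lit 495) (nat_lit 466) (nat_lit 239)) (XT.lf (nat_lit 0) (nat_lit 29157777203) (nat_lit 608) (nat_lit 15153155259) (nat_lit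 76) (nat_lit 1709021373) (nat_lit 243) (nat_lit 5) (nat_lit 251) (nat_lit 5) (nat_lit 244) (nat_lit 5) (nat_lit 496) (nat_lit 466) (nat_lit 238))) (XT.nd (nat_lit 78) (nat_lit 0) (nat_lit 0) (XT.lf (nat_lit 0) (nat_lit 10922080372) (nat_lit 456) (nat_lit 25295887106) (nat_lit 532) (nat_lit 10586532767) (nat_lit 237) (nat_lit 5) (nat_lit 243) (nat_lit 5) (nat_lit 244) (nat_lit 5) (nat_lit 497) (nat_lit 466) (nat_lit 237)) (XT.lf (nat_lit 0) (nat_lit 38088498346) (nat_lit 456) (nat_lit 5553013154) (nat_lit 532) (nat_lit 3966525218) (nat_lit 237) (nat_lit 5) (nat_lit 243) (nat_lit 5) (nat_lit 244) (nat_lit 5) (nat_lit 498) (nat_lit 466) (nat_lit 236))))))))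
noncomputable def xc221 : XT := (XT.nd (nat_lit 2418) (nat_lit 2128) (nat_lit 0) (XT.nd (nat_lit 1170) (nat_lit 3040) (nat_lit 0) (XT.nd (nat_lit 546) (nat_lit 1976) (nat_lit 0) (XT.nd (nat_lit 234) (nat_lit 912) (nat_lit 0) (XT.nd (nat_lit 78) (nat_lit 456) (nat_lit 0) (XT.lf (nat_lit 0) (nat_lit 3111660057) (nat_lit 532) (nat_lit 30618283763) (nat_lit 76) (nat_lit 14695456134) (nat_lit 230) (nat_lit 5) (nat_lit 237) (nat_lit 5) (nat_lit 231) (nat_lit 5) (nat_lit 499) (nat_lit 466) (nat_lit 235)) (XT.nd (nat_lit 78) (nat_lit 456) (nat_lit 0) (XT.lf (nat_lit 0) (nat_lit 10473111470) (nat_lit 532) (nat_lit 3212595782) (nat_lit 76) (nat_lit 35575879448) (nat_lit 230) (nat_lit 5) (nat_lit 237) (nat_lit 5) (nat_lit 231) (nat_lit 5) (nat_lit 500) (nat_lit 466) (nat_lit 234)) (XT.lf (nat_lit 0) (nat_lit 18368589973) (nat_lit 532) (nat_lit 24673441458) (nat_lit 76) (nat_lit 7071432210) (nat_lit 224) (nat_lit 5) (nat_lit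 231) (nat_lit 5) (nat_lit 225) (nat_lit 5) (nat_lit 501) (nat_lit 466) (nat_lit 233)))) (XT.nd (nat_lit 156) (nat_lit 456) (nat_lit 0) (XT.nd (nat_lit 78) (nat_lit 0) (nat_lit 0) (XT.lf (nat_lit 0) (nat_lit 3968083820) (nat_lit 456) (nat_lit 22737902730) (nat_lit 532) (nat_lit 24278758825) (nat_lit 218) (nat_lit 5) (nat_lit 224) (nat_lit 5) (nat_lit 225) (nat_lit 5) (nat_lit 502) (nat_lit 466) (nat_lit 232)) (XT.lf (nat_lit 0) (nat_lit 33972978008) (nat_lit 456) (nat_lit 1568349799) (nat_lit 532) (nat_lit 16333403165) (nat_lit 218) (nat_lit 5) (nat_lit 224) (nat_lit 5) (nat_lit 225) (nat_lit 5) (nat_lit 503) (nat_lit 466) (nat_lit 231))) (XT.nd (nat_lit 78) (nat_lit 76) (nat_lit 0) (XT.lf (nat_lit 0) (nat_lit 12127076532) (nat_lit 380) (nat_lit 32824454344) (nat_lit 456) (nat_lit 7830591303) (nat_lit 213) (nat_lit 5) (nat_lit 218) (nat_lit 5) (nat_lit 219) (nat_lit 5) (nat_lit 504) (nat_lit 466) (nat_lit 230))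 (XT.lf (nat_lit 0) (nat_lit 1106014965) (nat_lit 456) (nat_lit 10315459750) (nat_lit 76) (nat_lit 42289088926) (nat_lit 212) (nat_lit 5) (nat_lit 218) (nat_lit 5) (nat_lit 213) (nat_lit 5) (nat_lit 505) (nat_lit 466) (nat_lit 229))))) (XT.nd (nat_lit 312) (nat_lit 760) (nat_lit 0) (XT.nd (nat_lit 156) (nat_lit 760) (nat_lit 0) (XT.nd (nat_lit 78) (nat_lit 0) (nat_lit 0) (XT.lf (nat_lit 0) (nat_lit 10461455753) (nat_lit 532) (nat_lit 33493110139) (nat_lit 76) (nat_lit 10700722915) (nat_lit 206) (nat_lit 5) (nat_lit 213) (nat_lit 5) (nat_lit 207) (nat_lit 5) (nat_lit 506) (nat_lit 466) (nat_lit 228)) (XT.lf (nat_lit 0) (nat_lit 20314610397) (nat_lit 532) (nat_lit 1945367614) (nat_lit 76) (nat_lit 33361866280) (nat_lit 206) (nat_lit 5) (nat_lit 213) (nat_lit 5) (nat_lit 207) (nat_lit 5) (nat_lit 507) (nat_lit 466) (nat_lit 227))) (XT.nd (nat_lit 78) (nat_lit 380) (nat_lit 0) (XT.lf (nat_lit 0) (nat_lit 30765430497)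 (nat_lit 456) (nat_lit 25457051133) (nat_lit 76) (nat_lit 385852762) (nat_lit 201) (nat_lit 5) (nat_lit 207) (nat_lit 5) (nat_lit 202) (nat_lit 5) (nat_lit 508) (nat_lit 466) (nat_lit 226)) (XT.lf (nat_lit 0) (nat_lit 7582663191) (nat_lit 380) (nat_lit 34259057290) (nat_lit 456) (nat_lit 15773340433) (nat_lit 196) (nat_lit 5) (nat_lit 201) (nat_lit 5) (nat_lit 202) (nat_lit 5) (nat_lit 509) (nat_lit 466) (nat_lit 225)))) (XT.nd (nat_lit 156) (nat_lit 380) (nat_lit 0) (XT.nd (nat_lit 78) (nat_lit 380) (nat_lit 0) (XT.lf (nat_lit 0) (nat_lit 42133835678) (nat_lit 380) (nat_lit 11372370315) (nat_lit 456) (nat_lit 5138106109) (nat_lit 196) (nat_lit 5) (nat_lit 201) (nat_lit 5) (nat_lit 202) (nat_lit 5) (nat_lit 510) (nat_lit 466) (nat_lit 224)) (XT.lf (nat_lit 0) (nat_lit 5997204030) (nat_lit 380) (nat_lit 41500019807) (nat_lit 76) (nat_lit 12196704390) (nat_lit 191) (nat_lit 5) (nat_lit 196) (nat_lit 5) (nat_lit 192)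 (nat_lit 5) (nat_lit 511) (nat_lit 466) (nat_lit 223))) (XT.nd (nat_lit 78) (nat_lit 380) (nat_lit 0) (XT.lf (nat_lit 0) (nat_lit 17643151875) (nat_lit 380) (nat_lit 6658847470) (nat_lit 76) (nat_lit 36463111911) (nat_lit 191) (nat_lit 5) (nat_lit 196) (nat_lit 5) (nat_lit 192) (nat_lit 5) (nat_lit 512) (nat_lit 466) (nat_lit 222)) (XT.lf (nat_lit 0) (nat_lit 29807692234) (nat_lit 380) (nat_lit 116225745) (nat_lit 456) (nat_lit 31935948668) (nat_lit 186) (nat_lit 5) (nat_lit 191) (nat_lit 5) (nat_lit 192) (nat_lit 5) (nat_lit 513) (nat_lit 466) (nat_lit 221)))))) (XT.nd (nat_lit 624) (nat_lit 1368) (nat_lit 0) (XT.nd (nat_lit 312) (nat_lit 988) (nat_lit 0) (XT.nd (nat_lit 156) (nat_lit 380) (nat_lit 0) (XT.nd (nat_lit 78) (nat_lit 0) (nat_lit 0) (XT.lf (nat_lit 0) (nat_lit 4363887688) (nat_lit 304) (nat_lit 38556343780) (nat_lit 380) (nat_lit 20056819563) (nat_lit 182) (nat_lit 5) (nat_lit 186) (nat_lit 5) (nat_lit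 187) (nat_lit 5) (nat_lit 514) (nat_lit 466) (nat_lit 220)) (XT.lf (nat_lit 0) (nat_lit 42526774851) (nat_lit 304) (nat_lit 14103402947) (nat_lit 380) (nat_lit 7487860907) (nat_lit 182) (nat_lit 5) (nat_lit 186) (nat_lit 5) (nat_lit 187) (nat_lit 5) (nat_lit 515) (nat_lit 466) (nat_lit 219))) (XT.nd (nat_lit 78) (nat_lit 0) (nat_lit 0) (XT.lf (nat_lit 0) (nat_lit 5620912231) (nat_lit 380) (nat_lit 48580059493) (nat_lit 76) (nat_lit 11082632700) (nat_lit 177) (nat_lit 5) (nat_lit 182) (nat_lit 5) (nat_lit 178) (nat_lit 5) (nat_lit 516) (nat_lit 466) (nat_lit 218)) (XT.lf (nat_lit 0) (nat_lit 19331247850) (nat_lit 380) (nat_lit 10105241505) (nat_lit 76) (nat_lit 37034659764) (nat_lit 177) (nat_lit 5) (nat_lit 182) (nat_lit 5) (nat_lit 178) (nat_lit 5) (nat_lit 517) (nat_lit 466) (nat_lit 217)))) (XT.nd (nat_lit 156) (nat_lit 380) (nat_lit 0) (XT.nd (nat_lit 78) (nat_lit 304) (nat_lit 0) (XT.lf (nat_lit 0) (nat_lit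 30109908349) (nat_lit 304) (nat_lit 3631422073) (nat_lit 380) (nat_lit 33944336682) (nat_lit 173) (nat_lit 5) (nat_lit 177) (nat_lit 5) (nat_lit 178) (nat_lit 5) (nat_lit 518) (nat_lit 466) (nat_lit 216)) (XT.lf (nat_lit 0) (nat_lit 2633413592) (nat_lit 304) (nat_lit 46298270223) (nat_lit 380) (nat_lit 19994497815) (nat_lit 169) (nat_lit 5) (nat_lit 173) (nat_lit 5) (nat_lit 174) (nat_lit 5) (nat_lit 519) (nat_lit 466) (nat_lit 215))) (XT.nd (nat_lit 78) (nat_lit 380) (nat_lit 0) (XT.lf (nat_lit 0) (nat_lit 44780995449) (nat_lit 304) (nat_lit 20210823375) (nat_lit 380) (nat_lit 5199670689) (nat_lit 169) (nat_lit 5) (nat_lit 173) (nat_lit 5) (nat_lit 174) (nat_lit 5) (nat_lit 520) (nat_lit 466) (nat_lit 214)) (XT.lf (nat_lit 0) (nat_lit 10071473507) (nat_lit 380) (nat_lit 54622895032) (nat_lit 76) (nat_lit 6790642033) (nat_lit 164) (nat_lit 5) (nat_lit 169) (nat_lit 5) (nat_lit 165) (nat_lit 5) (nat_lit 521) (nat_lit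 466) (nat_lit 213))))) (XT.nd (nat_lit 312) (nat_lit 760) (nat_lit 0) (XT.nd (nat_lit 156) (nat_lit 304) (nat_lit 0) (XT.nd (nat_lit 78) (nat_lit 304) (nat_lit 0) (XT.lf (nat_lit 0) (nat_lit 26154543398) (nat_lit 380) (nat_lit 12141422907) (nat_lit 76) (nat_lit 34506077561) (nat_lit 164) (nat_lit 5) (nat_lit 169) (nat_lit 5) (nat_lit 165) (nat_lit 5) (nat_lit 522) (nat_lit 466) (nat_lit 212)) (XT.lf (nat_lit 0) (nat_lit 32242250406) (nat_lit 304) (nat_lit 10786870432) (nat_lit 380) (nat_lit 31120196900) (nat_lit 160) (nat_lit 5) (nat_lit 164) (nat_lit 5) (nat_lit 165) (nat_lit 5) (nat_lit 523) (nat_lit 466) (nat_lit 211))) (XT.nd (nat_lit 78) (nat_lit 76) (nat_lit 0) (XT.lf (nat_lit 0) (nat_lit 2551472628) (nat_lit 228) (nat_lit 58174576902) (nat_lit 304) (nat_lit 14801476926) (nat_lit 157) (nat_lit 5) (nat_lit 160) (nat_lit 5) (nat_lit 161) (nat_lit 5) (nat_lit 524) (nat_lit 466) (nat_lit 210)) (XT.lf (nat_lit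 0) (nat_lit 2500910398) (nat_lit 304) (nat_lit 27863262960) (nat_lit 76) (nat_lit 46566331428) (nat_lit 156) (nat_lit 5) (nat_lit 160) (nat_lit 5) (nat_lit 157) (nat_lit 5) (nat_lit 525) (nat_lit 466) (nat_lit 209)))) (XT.nd (nat_lit 156) (nat_lit 456) (nat_lit 0) (XT.nd (nat_lit 78) (nat_lit 0) (nat_lit 0) (XT.lf (nat_lit 0) (nat_lit 18822275801) (nat_lit 304) (nat_lit 1382652007) (nat_lit 380) (nat_lit 58160846614) (nat_lit 152) (nat_lit 5) (nat_lit 156) (nat_lit 5) (nat_lit 157) (nat_lit 5) (nat_lit 526) (nat_lit 466) (nat_lit 208)) (XT.lf (nat_lit 0) (nat_lit 38997000648) (nat_lit 380) (nat_lit 12633936226) (nat_lit 76) (nat_lit 28196457268) (nat_lit 152) (nat_lit 5) (nat_lit 157) (nat_lit 5) (nat_lit 153) (nat_lit 5) (nat_lit 527) (nat_lit 466) (nat_lit 207))) (XT.nd (nat_lit 78) (nat_lit 228) (nat_lit 0) (XT.lf (nat_lit 0) (nat_lit 36377739816) (nat_lit 228) (nat_lit 22337625849) (nat_lit 304) (nat_lit 22606620925)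 (nat_lit 149) (nat_lit 5) (nat_lit 152) (nat_lit 5) (nat_lit 153) (nat_lit 5) (nat_lit 528) (nat_lit 466) (nat_lit 206)) (XT.lf (nat_lit 0) (nat_lit 4266490168) (nat_lit 228) (nat_lit 75003116868) (nat_lit 304) (nat_lit 3584480053) (nat_lit 146) (nat_lit 5) (nat_lit 149) (nat_lit 5) (nat_lit 150) (nat_lit 5) (nat_lit 529) (nat_lit 466) (nat_lit 205))))))) (XT.nd (nat_lit 57642) (nat_lit 0) (nat_lit 13756) (XT.nd (nat_lit 624) (nat_lit 1064) (nat_lit 0) (XT.nd (nat_lit 312) (nat_lit 532) (nat_lit 0) (XT.nd (nat_lit 156) (nat_lit 228) (nat_lit 0) (XT.nd (nat_lit 78) (nat_lit 228) (nat_lit 0) (XT.lf (nat_lit 0) (nat_lit 16374617514) (nat_lit 304) (nat_lit 28924567680) (nat_lit 76) (nat_lit 39107988813) (nat_lit 145) (nat_lit 5) (nat_lit 149) (nat_lit 5) (nat_lit 146) (nat_lit 5) (nat_lit 530) (nat_lit 466) (nat_lit 204)) (XT.lf (nat_lit 0) (nat_lit 22633202519) (nat_lit 228) (nat_lit 14443995099) (nat_lit 304) (nat_lit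 48922088627) (nat_lit 142) (nat_lit 5) (nat_lit 145) (nat_lit 5) (nat_lit 146) (nat_lit 5) (nat_lit 531) (nat_lit 466) (nat_lit 203))) (XT.nd (nat_lit 78) (nat_lit 228) (nat_lit 0) (XT.lf (nat_lit 0) (nat_lit 58861677013) (nat_lit 304) (nat_lit 11470634203) (nat_lit 76) (nat_lit 17293026012) (nat_lit 142) (nat_lit 5) (nat_lit 146) (nat_lit 5) (nat_lit 143) (nat_lit 5) (nat_lit 532) (nat_lit 466) (nat_lit 202)) (XT.lf (nat_lit 0) (nat_lit 42670031869) (nat_lit 228) (nat_lit 39182058792) (nat_lit 304) (nat_lit 7431507115) (nat_lit 139) (nat_lit 5) (nat_lit 142) (nat_lit 5) (nat_lit 143) (nat_lit 5) (nat_lit 533) (nat_lit 466) (nat_lit 201)))) (XT.nd (nat_lit 156) (nat_lit 228) (nat_lit 0) (XT.nd (nat_lit 78) (nat_lit 0) (nat_lit 0) (XT.lf (nat_lit 0) (nat_lit 7689772518) (nat_lit 228) (nat_lit 6757217360) (nat_lit 304) (nat_lit 76534719527) (nat_lit 135) (nat_lit 5) (nat_lit 138) (nat_lit 5) (nat_lit 139) (nat_lit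 5) (nat_lit 534) (nat_lit 466) (nat_lit 200)) (XT.lf (nat_lit 0) (nat_lit 37563153418) (nat_lit 304) (nat_lit 28474514564) (nat_lit 76) (nat_lit 26668968724) (nat_lit 135) (nat_lit 5) (nat_lit 139) (nat_lit 5) (nat_lit 136) (nat_lit 5) (nat_lit 535) (nat_lit 466) (nat_lit 199))) (XT.nd (nat_lit 78) (nat_lit 0) (nat_lit 0) (XT.lf (nat_lit 0) (nat_lit 28474921595) (nat_lit 228) (nat_lit 33237752237) (nat_lit 304) (nat_lit 32760441863) (nat_lit 132) (nat_lit 5) (nat_lit 135) (nat_lit 5) (nat_lit 136) (nat_lit 5) (nat_lit 536) (nat_lit 466) (nat_lit 198)) (XT.lf (nat_lit 0) (nat_lit 86881569088) (nat_lit 304) (nat_lit 8576778482) (nat_lit 76) (nat_lit 825394836) (nat_lit 132) (nat_lit 5) (nat_lit 136) (nat_lit 5) (nat_lit 133) (nat_lit 5) (nat_lit 537) (nat_lit 466) (nat_lit 197))))) (XT.nd (nat_lit 312) (nat_lit 456) (nat_lit 0) (XT.nd (nat_lit 156) (nat_lit 152) (nat_lit 0) (XT.nd (nat_lit 78) (nat_lit 228) (nat_lit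 0) (XT.lf (nat_lit 0) (nat_lit 15199846196) (nat_lit 228) (nat_lit 47036294782) (nat_lit 76) (nat_lit 35883449929) (nat_lit 129) (nat_lit 5) (nat_lit 132) (nat_lit 5) (nat_lit 130) (nat_lit 5) (nat_lit 538) (nat_lit 466) (nat_lit 196)) (XT.lf (nat_lit 0) (nat_lit 12856780908) (nat_lit 228) (nat_lit 27704503956) (nat_lit 304) (nat_lit 59440127311) (nat_lit 126) (nat_lit 5) (nat_lit 129) (nat_lit 5) (nat_lit 130) (nat_lit 5) (nat_lit 539) (nat_lit 466) (nat_lit 195))) (XT.nd (nat_lit 78) (nat_lit 152) (nat_lit 0) (XT.lf (nat_lit 0) (nat_lit 67238112561) (nat_lit 304) (nat_lit 26496108832) (nat_lit 76) (nat_lit 8188830336) (nat_lit 126) (nat_lit 5) (nat_lit 130) (nat_lit 5) (nat_lit 127) (nat_lit 5) (nat_lit 540) (nat_lit 466) (nat_lit 194)) (XT.lf (nat_lit 0) (nat_lit 36406801585) (nat_lit 152) (nat_lit 58932014870) (nat_lit 228) (nat_lit 8544816897) (nat_lit 124) (nat_lit 5) (nat_lit 126) (nat_lit 5) (nat_lit 127)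 (nat_lit 5) (nat_lit 541) (nat_lit 466) (nat_lit 193)))) (XT.nd (nat_lit 156) (nat_lit 152) (nat_lit 0) (XT.nd (nat_lit 78) (nat_lit 228) (nat_lit 0) (XT.lf (nat_lit 0) (nat_lit 18290373430) (nat_lit 228) (nat_lit 4335581891) (nat_lit 76) (nat_lit 83263691431) (nat_lit 123) (nat_lit 5) (nat_lit 126) (nat_lit 5) (nat_lit 124) (nat_lit 5) (nat_lit 542) (nat_lit 466) (nat_lit 192)) (XT.lf (nat_lit 0) (nat_lit 46501148653) (nat_lit 304) (nat_lit 46263700270) (nat_lit 76) (nat_lit 15166185441) (nat_lit 120) (nat_lit 5) (nat_lit 124) (nat_lit 5) (nat_lit 121) (nat_lit 5) (nat_lit 543) (nat_lit 466) (nat_lit 191))) (XT.nd (nat_lit 56472) (nat_lit 0) (nat_lit 14516) (XT.lf (nat_lit 0) (nat_lit 19868960001) (nat_lit 152) (nat_lit 56147844479) (nat_lit 228) (nat_lit 34003102425) (nat_lit 118) (nat_lit 5) (nat_lit 120) (nat_lit 5) (nat_lit 121) (nat_lit 5) (nat_lit 544) (nat_lit 466) (nat_lit 190)) (XT.lf (nat_lit 0) (nat_lit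 7126484263) (nat_lit 1292) (nat_lit 3805694488) (nat_lit 1292) (nat_lit 3805694488) (nat_lit 309) (nat_lit 3) (nat_lit 326) (nat_lit 3) (nat_lit 326) (nat_lit 5) (nat_lit 467) (nat_lit 467) (nat_lit 266)))))) (XT.nd (nat_lit 624) (nat_lit 760) (nat_lit 0) (XT.nd (nat_lit 312) (nat_lit 0) (nat_lit 152) (XT.nd (nat_lit 156) (nat_lit 0) (nat_lit 76) (XT.nd (nat_lit 78) (nat_lit 0) (nat_lit 76) (XT.lf (nat_lit 76) (nat_lit 7147613933) (nat_lit 0) (nat_lit 7463006188) (nat_lit 1292) (nat_lit 15302939893) (nat_lit 310) (nat_lit 5) (nat_lit 309) (nat_lit 3) (nat_lit 326) (nat_lit 5) (nat_lit 468) (nat_lit 467) (nat_lit 265)) (XT.lf (nat_lit 0) (nat_lit 15124536844) (nat_lit 1216) (nat_lit 7930041720) (nat_lit 1292) (nat_lit 7305563595) (nat_lit 310) (nat_lit 5) (nat_lit 326) (nat_lit 5) (nat_lit 327) (nat_lit 5) (nat_lit 469) (nat_lit 467) (nat_lit 264))) (XT.nd (nat_lit 78) (nat_lit 0) (nat_lit 76) (XT.lf (nat_lit 76)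 (nat_lit 7420249400) (nat_lit 0) (nat_lit 8375992084) (nat_lit 1292) (nat_lit 15019609435) (nat_lit 311) (nat_lit 5) (nat_lit 310) (nat_lit 5) (nat_lit 327) (nat_lit 5) (nat_lit 470) (nat_lit 467) (nat_lit 263)) (XT.lf (nat_lit 0) (nat_lit 16631015996) (nat_lit 1216) (nat_lit 7956506109) (nat_lit 1292) (nat_lit 6693421530) (nat_lit 311) (nat_lit 5) (nat_lit 327) (nat_lit 5) (nat_lit 328) (nat_lit 5) (nat_lit 471) (nat_lit 467) (nat_lit 262)))) (XT.nd (nat_lit 156) (nat_lit 0) (nat_lit 76) (XT.nd (nat_lit 78) (nat_lit 0) (nat_lit 76) (XT.lf (nat_lit 76) (nat_lit 8017659121) (nat_lit 0) (nat_lit 9630487170) (nat_lit 1292) (nat_lit 14107123712) (nat_lit 312) (nat_lit 5) (nat_lit 311) (nat_lit 5) (nat_lit 328) (nat_lit 5) (nat_lit 472) (nat_lit 467) (nat_lit 261)) (XT.lf (nat_lit 0) (nat_lit 18829830319) (nat_lit 1216) (nat_lit 7665275422) (nat_lit 1292) (nat_lit 5744699469) (nat_lit 312) (nat_lit 5) (nat_lit 328)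 (nat_lit 5) (nat_lit 329) (nat_lit 5) (nat_lit 473) (nat_lit 467) (nat_lit 260))) (XT.nd (nat_lit 78) (nat_lit 0) (nat_lit 76) (XT.lf (nat_lit 76) (nat_lit 8967212149) (nat_lit 0) (nat_lit 11258762496) (nat_lit 1292) (nat_lit 12507531769) (nat_lit 313) (nat_lit 5) (nat_lit 312) (nat_lit 5) (nat_lit 329) (nat_lit 5) (nat_lit 474) (nat_lit 467) (nat_lit 259)) (XT.lf (nat_lit 0) (nat_lit 21782329231) (nat_lit 1216) (nat_lit 7029002564) (nat_lit 1292) (nat_lit 4427137307) (nat_lit 313) (nat_lit 5) (nat_lit 329) (nat_lit 5) (nat_lit 330) (nat_lit 5) (nat_lit 475) (nat_lit 467) (nat_lit 258))))) (XT.nd (nat_lit 312) (nat_lit 1064) (nat_lit 0) (XT.nd (nat_lit 156) (nat_lit 0) (nat_lit 76) (XT.nd (nat_lit 78) (nat_lit 0) (nat_lit 76) (XT.lf (nat_lit 76) (nat_lit 10298224555) (nat_lit 0) (nat_lit 13295214201) (nat_lit 1292) (nat_lit 10158900208) (nat_lit 314) (nat_lit 5) (nat_lit 313) (nat_lit 5) (nat_lit 330) (nat_lit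 5) (nat_lit 476) (nat_lit 467) (nat_lit 257)) (XT.lf (nat_lit 0) (nat_lit 25554046037) (nat_lit 1216) (nat_lit 6018392255) (nat_lit 1292) (nat_lit 2706331910) (nat_lit 314) (nat_lit 5) (nat_lit 330) (nat_lit 5) (nat_lit 331) (nat_lit 5) (nat_lit 477) (nat_lit 467) (nat_lit 256))) (XT.nd (nat_lit 78) (nat_lit 0) (nat_lit 76) (XT.lf (nat_lit 76) (nat_lit 12042073403) (nat_lit 0) (nat_lit 15776517232) (nat_lit 1292) (nat_lit 6995050375) (nat_lit 315) (nat_lit 5) (nat_lit 314) (nat_lit 5) (nat_lit 331) (nat_lit 5) (nat_lit 478) (nat_lit 467) (nat_lit 255)) (XT.lf (nat_lit 0) (nat_lit 30214972153) (nat_lit 1216) (nat_lit 4602086434) (nat_lit 1292) (nat_lit 545582541) (nat_lit 315) (nat_lit 5) (nat_lit 331) (nat_lit 5) (nat_lit 332) (nat_lit 5) (nat_lit 479) (nat_lit 467) (nat_lit 254)))) (XT.nd (nat_lit 156) (nat_lit 1216) (nat_lit 0) (XT.nd (nat_lit 78) (nat_lit 0) (nat_lit 0) (XT.lf (nat_lit 76) (nat_lit 14232317840)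 (nat_lit 0) (nat_lit 18741787903) (nat_lit 1292) (nat_lit 2945279884) (nat_lit 316) (nat_lit 5) (nat_lit 315) (nat_lit 5) (nat_lit 332) (nat_lit 5) (nat_lit 480) (nat_lit 467) (nat_lit 253)) (XT.lf (nat_lit 76) (nat_lit 33724427017) (nat_lit 0) (nat_lit 2135952792) (nat_lit 1292) (nat_lit 631121848) (nat_lit 316) (nat_lit 5) (nat_lit 315) (nat_lit 5) (nat_lit 332) (nat_lit 5) (nat_lit 481) (nat_lit 467) (nat_lit 252))) (XT.nd (nat_lit 78) (nat_lit 0) (nat_lit 0) (XT.lf (nat_lit 0) (nat_lit 2025618726) (nat_lit 1292) (nat_lit 20186682459) (nat_lit 1368) (nat_lit 14858754150) (nat_lit 299) (nat_lit 5) (nat_lit 316) (nat_lit 5) (nat_lit 317) (nat_lit 5) (nat_lit 482) (nat_lit 467) (nat_lit 251)) (XT.lf (nat_lit 0) (nat_lit 4796726639) (nat_lit 1292) (nat_lit 514451070) (nat_lit 1368) (nat_lit 32355210129) (nat_lit 299) (nat_lit 5) (nat_lit 316) (nat_lit 5) (nat_lit 317) (nat_lit 5) (nat_lit 483) (nat_lit 467) (nat_lit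 250))))))))
noncomputable def xc222 : XT := (XT.nd (nat_lit 2418) (nat_lit 5016) (nat_lit 0) (XT.nd (nat_lit 1170) (nat_lit 3876) (nat_lit 0) (XT.nd (nat_lit 546) (nat_lit 2736) (nat_lit 0) (XT.nd (nat_lit 234) (nat_lit 1216) (nat_lit 0) (XT.nd (nat_lit 78) (nat_lit 836) (nat_lit 0) (XT.lf (nat_lit 0) (nat_lit 7960804131) (nat_lit 1292) (nat_lit 18252754243) (nat_lit 76) (nat_lit 12056727018) (nat_lit 300) (nat_lit 5) (nat_lit 317) (nat_lit 5) (nat_lit 301) (nat_lit 5) (nat_lit 484) (nat_lit 467) (nat_lit 249)) (XT.nd (nat_lit 78) (nat_lit 0) (nat_lit 0) (XT.lf (nat_lit 0) (nat_lit 2273908558) (nat_lit 836) (nat_lit 9023671856) (nat_lit 912) (nat_lit 27592386330) (nat_lit 289) (nat_lit 5) (nat_lit 300) (nat_lit 5) (nat_lit 301) (nat_lit 5) (nat_lit 485) (nat_lit 467) (nat_lit 248)) (XT.lf (nat_lit 0) (nat_lit 15002185132) (nat_lit 912) (nat_lit 15819197314) (nat_lit 76) (nat_lit 8698824494) (nat_lit 289) (nat_lit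 5) (nat_lit 301) (nat_lit 5) (nat_lit 290) (nat_lit 5) (nat_lit 486) (nat_lit 467) (nat_lit 247)))) (XT.nd (nat_lit 156) (nat_lit 608) (nat_lit 0) (XT.nd (nat_lit 78) (nat_lit 0) (nat_lit 0) (XT.lf (nat_lit 0) (nat_lit 5620204951) (nat_lit 608) (nat_lit 13339273073) (nat_lit 684) (nat_lit 21205629972) (nat_lit 281) (nat_lit 5) (nat_lit 289) (nat_lit 5) (nat_lit 290) (nat_lit 5) (nat_lit 487) (nat_lit 467) (nat_lit 246)) (XT.lf (nat_lit 0) (nat_lit 23239898904) (nat_lit 684) (nat_lit 12845672643) (nat_lit 76) (nat_lit 4737652411) (nat_lit 281) (nat_lit 5) (nat_lit 290) (nat_lit 5) (nat_lit 282) (nat_lit 5) (nat_lit 488) (nat_lit 467) (nat_lit 245))) (XT.nd (nat_lit 78) (nat_lit 0) (nat_lit 0) (XT.lf (nat_lit 0) (nat_lit 9557280388) (nat_lit 608) (nat_lit 18313666082) (nat_lit 684) (nat_lit 13623470654) (nat_lit 273) (nat_lit 5) (nat_lit 281) (nat_lit 5) (nat_lit 282) (nat_lit 5) (nat_lit 489) (nat_lit 467) (nat_lit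 244)) (XT.lf (nat_lit 0) (nat_lit 32770149468) (nat_lit 684) (nat_lit 9289124547) (nat_lit 76) (nat_lit 122595490) (nat_lit 273) (nat_lit 5) (nat_lit 282) (nat_lit 5) (nat_lit 274) (nat_lit 5) (nat_lit 490) (nat_lit 467) (nat_lit 243))))) (XT.nd (nat_lit 312) (nat_lit 1520) (nat_lit 0) (XT.nd (nat_lit 156) (nat_lit 608) (nat_lit 0) (XT.nd (nat_lit 78) (nat_lit 76) (nat_lit 0) (XT.lf (nat_lit 0) (nat_lit 14131088910) (nat_lit 532) (nat_lit 24000755357) (nat_lit 608) (nat_lit 4748635857) (nat_lit 266) (nat_lit 5) (nat_lit 273) (nat_lit 5) (nat_lit 274) (nat_lit 5) (nat_lit 491) (nat_lit 467) (nat_lit 242)) (XT.lf (nat_lit 0) (nat_lit 146382713) (nat_lit 608) (nat_lit 5156039711) (nat_lit 76) (nat_lit 38294818030) (nat_lit 265) (nat_lit 5) (nat_lit 273) (nat_lit 5) (nat_lit 266) (nat_lit 5) (nat_lit 492) (nat_lit 467) (nat_lit 241))) (XT.nd (nat_lit 78) (nat_lit 0) (nat_lit 0) (XT.lf (nat_lit 0) (nat_lit 5414928778)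 (nat_lit 684) (nat_lit 24988482786) (nat_lit 76) (nat_lit 13921018074) (nat_lit 257) (nat_lit 5) (nat_lit 266) (nat_lit 5) (nat_lit 258) (nat_lit 5) (nat_lit 493) (nat_lit 467) (nat_lit 240)) (XT.lf (nat_lit 0) (nat_lit 10945060752) (nat_lit 684) (nat_lit 458161897) (nat_lit 76) (nat_lit 33667106084) (nat_lit 257) (nat_lit 5) (nat_lit 266) (nat_lit 5) (nat_lit 258) (nat_lit 5) (nat_lit 494) (nat_lit 467) (nat_lit 239)))) (XT.nd (nat_lit 156) (nat_lit 456) (nat_lit 0) (XT.nd (nat_lit 78) (nat_lit 532) (nat_lit 0) (XT.lf (nat_lit 0) (nat_lit 16963704136) (nat_lit 608) (nat_lit 20612114208) (nat_lit 76) (nat_lit 8253108353) (nat_lit 250) (nat_lit 5) (nat_lit 258) (nat_lit 5) (nat_lit 251) (nat_lit 5) (nat_lit 495) (nat_lit 467) (nat_lit 238)) (XT.lf (nat_lit 0) (nat_lit 5045143602) (nat_lit 532) (nat_lit 18282357200) (nat_lit 608) (nat_lit 23277844094) (nat_lit 243) (nat_lit 5) (nat_lit 250) (nat_lit 5) (nat_lit 251)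 (nat_lit 5) (nat_lit 496) (nat_lit 467) (nat_lit 237))) (XT.nd (nat_lit 78) (nat_lit 456) (nat_lit 0) (XT.lf (nat_lit 0) (nat_lit 30106244502) (nat_lit 608) (nat_lit 15523174471) (nat_lit 76) (nat_lit 1768915785) (nat_lit 243) (nat_lit 5) (nat_lit 251) (nat_lit 5) (nat_lit 244) (nat_lit 5) (nat_lit 497) (nat_lit 467) (nat_lit 236)) (XT.lf (nat_lit 0) (nat_lit 11333489059) (nat_lit 456) (nat_lit 26043408856) (nat_lit 532) (nat_lit 10829560089) (nat_lit 237) (nat_lit 5) (nat_lit 243) (nat_lit 5) (nat_lit 244) (nat_lit 5) (nat_lit 498) (nat_lit 467) (nat_lit 235)))))) (XT.nd (nat_lit 624) (nat_lit 1976) (nat_lit 0) (XT.nd (nat_lit 312) (nat_lit 912) (nat_lit 0) (XT.nd (nat_lit 156) (nat_lit 456) (nat_lit 0) (XT.nd (nat_lit 78) (nat_lit 532) (nat_lit 0) (XT.lf (nat_lit 0) (nat_lit 39312460359) (nat_lit 456) (nat_lit 5708579410) (nat_lit 532) (nat_lit 4013124216) (nat_lit 237) (nat_lit 5) (nat_lit 243) (nat_lit 5) (nat_lit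 244) (nat_lit 5) (nat_lit 499) (nat_lit 467) (nat_lit 234)) (XT.lf (nat_lit 0) (nat_lit 3274831176) (nat_lit 532) (nat_lit 31452939541) (nat_lit 76) (nat_lit 15148291556) (nat_lit 230) (nat_lit 5) (nat_lit 237) (nat_lit 5) (nat_lit 231) (nat_lit 5) (nat_lit 500) (nat_lit 467) (nat_lit 233))) (XT.nd (nat_lit 78) (nat_lit 456) (nat_lit 0) (XT.lf (nat_lit 0) (nat_lit 10855092502) (nat_lit 532) (nat_lit 3227524398) (nat_lit 76) (nat_lit 36654778878) (nat_lit 230) (nat_lit 5) (nat_lit 237) (nat_lit 5) (nat_lit 231) (nat_lit 5) (nat_lit 501) (nat_lit 467) (nat_lit 232)) (XT.lf (nat_lit 0) (nat_lit 18986371399) (nat_lit 532) (nat_lit 25331126734) (nat_lit 76) (nat_lit 7297362954) (nat_lit 224) (nat_lit 5) (nat_lit 231) (nat_lit 5) (nat_lit 225) (nat_lit 5) (nat_lit 502) (nat_lit 467) (nat_lit 231)))) (XT.nd (nat_lit 156) (nat_lit 456) (nat_lit 0) (XT.nd (nat_lit 78) (nat_lit 0) (nat_lit 0) (XT.lf (nat_lit 0) (nat_lit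 4168835302) (nat_lit 456) (nat_lit 23403896598) (nat_lit 532) (nat_lit 24939584251) (nat_lit 218) (nat_lit 5) (nat_lit 224) (nat_lit 5) (nat_lit 225) (nat_lit 5) (nat_lit 503) (nat_lit 467) (nat_lit 230)) (XT.lf (nat_lit 0) (nat_lit 35071496443) (nat_lit 456) (nat_lit 1599727269) (nat_lit 532) (nat_lit 16757835028) (nat_lit 218) (nat_lit 5) (nat_lit 224) (nat_lit 5) (nat_lit 225) (nat_lit 5) (nat_lit 504) (nat_lit 467) (nat_lit 229))) (XT.nd (nat_lit 78) (nat_lit 76) (nat_lit 0) (XT.lf (nat_lit 0) (nat_lit 12571186398) (nat_lit 380) (nat_lit 33791610556) (nat_lit 456) (nat_lit 8000902939) (nat_lit 213) (nat_lit 5) (nat_lit 218) (nat_lit 5) (nat_lit 219) (nat_lit 5) (nat_lit 505) (nat_lit 467) (nat_lit 228)) (XT.lf (nat_lit 0) (nat_lit 1200695807) (nat_lit 456) (nat_lit 10545736660) (nat_lit 76) (nat_lit 43573598974) (nat_lit 212) (nat_lit 5) (nat_lit 218) (nat_lit 5) (nat_lit 213) (nat_lit 5) (nat_lit 506) (nat_lit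 467) (nat_lit 227))))) (XT.nd (nat_lit 312) (nat_lit 760) (nat_lit 0) (XT.nd (nat_lit 156) (nat_lit 760) (nat_lit 0) (XT.nd (nat_lit 78) (nat_lit 0) (nat_lit 0) (XT.lf (nat_lit 0) (nat_lit 10835934800) (nat_lit 532) (nat_lit 34417847563) (nat_lit 76) (nat_lit 11039342069) (nat_lit 206) (nat_lit 5) (nat_lit 213) (nat_lit 5) (nat_lit 207) (nat_lit 5) (nat_lit 507) (nat_lit 467) (nat_lit 226)) (XT.lf (nat_lit 0) (nat_lit 20982918004) (nat_lit 532) (nat_lit 1926004487) (nat_lit 76) (nat_lit 34379807187) (nat_lit 206) (nat_lit 5) (nat_lit 213) (nat_lit 5) (nat_lit 207) (nat_lit 5) (nat_lit 508) (nat_lit 467) (nat_lit 225))) (XT.nd (nat_lit 78) (nat_lit 380) (nat_lit 0) (XT.lf (nat_lit 0) (nat_lit 31746471165) (nat_lit 456) (nat_lit 26142243220) (nat_lit 76) (nat_lit 416123956) (nat_lit 201) (nat_lit 5) (nat_lit 207) (nat_lit 5) (nat_lit 202) (nat_lit 5) (nat_lit 509) (nat_lit 467) (nat_lit 224)) (XT.lf (nat_lit 0) (nat_lit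 7887892736) (nat_lit 380) (nat_lit 35266212906) (nat_lit 456) (nat_lit 16187689454) (nat_lit 196) (nat_lit 5) (nat_lit 201) (nat_lit 5) (nat_lit 202) (nat_lit 5) (nat_lit 510) (nat_lit 467) (nat_lit 223)))) (XT.nd (nat_lit 156) (nat_lit 380) (nat_lit 0) (XT.nd (nat_lit 78) (nat_lit 380) (nat_lit 0) (XT.lf (nat_lit 0) (nat_lit 43473335844) (nat_lit 380) (nat_lit 11693525790) (nat_lit 456) (nat_lit 5235112212) (nat_lit 196) (nat_lit 5) (nat_lit 201) (nat_lit 5) (nat_lit 202) (nat_lit 5) (nat_lit 511) (nat_lit 467) (nat_lit 222)) (XT.lf (nat_lit 0) (nat_lit 6232439006) (nat_lit 380) (nat_lit 42667710316) (nat_lit 76) (nat_lit 12582933854) (nat_lit 191) (nat_lit 5) (nat_lit 196) (nat_lit 5) (nat_lit 192) (nat_lit 5) (nat_lit 512) (nat_lit 467) (nat_lit 221))) (XT.nd (nat_lit 78) (nat_lit 380) (nat_lit 0) (XT.lf (nat_lit 0) (nat_lit 18226154057) (nat_lit 380) (nat_lit 6783554559) (nat_lit 76) (nat_lit 37576741514) (nat_lit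 191) (nat_lit 5) (nat_lit 196) (nat_lit 5) (nat_lit 192) (nat_lit 5) (nat_lit 513) (nat_lit 467) (nat_lit 220)) (XT.lf (nat_lit 0) (nat_lit 30776245470) (nat_lit 380) (nat_lit 98247808) (nat_lit 456) (nat_lit 32839580495) (nat_lit 186) (nat_lit 5) (nat_lit 191) (nat_lit 5) (nat_lit 192) (nat_lit 5) (nat_lit 514) (nat_lit 467) (nat_lit 219))))))) (XT.nd (nat_lit 1170) (nat_lit 2204) (nat_lit 0) (XT.nd (nat_lit 546) (nat_lit 1520) (nat_lit 0) (XT.nd (nat_lit 234) (nat_lit 608) (nat_lit 0) (XT.nd (nat_lit 78) (nat_lit 380) (nat_lit 0) (XT.lf (nat_lit 0) (nat_lit 4569767123) (nat_lit 304) (nat_lit 39690310413) (nat_lit 380) (nat_lit 20604714803) (nat_lit 182) (nat_lit 5) (nat_lit 186) (nat_lit 5) (nat_lit 187) (nat_lit 5) (nat_lit 515) (nat_lit 467) (nat_lit 218)) (XT.nd (nat_lit 78) (nat_lit 380) (nat_lit 0) (XT.lf (nat_lit 0) (nat_lit 43875357519) (nat_lit 304) (nat_lit 14504443210) (nat_lit 380) (nat_lit 7660254650)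 (nat_lit 182) (nat_lit 5) (nat_lit 186) (nat_lit 5) (nat_lit 187) (nat_lit 5) (nat_lit 516) (nat_lit 467) (nat_lit 217)) (XT.lf (nat_lit 0) (nat_lit 5840190479) (nat_lit 380) (nat_lit 49963084989) (nat_lit 76) (nat_lit 11437314774) (nat_lit 177) (nat_lit 5) (nat_lit 182) (nat_lit 5) (nat_lit 178) (nat_lit 5) (nat_lit 517) (nat_lit 467) (nat_lit 216)))) (XT.nd (nat_lit 156) (nat_lit 304) (nat_lit 0) (XT.nd (nat_lit 78) (nat_lit 304) (nat_lit 0) (XT.lf (nat_lit 0) (nat_lit 19960360898) (nat_lit 380) (nat_lit 10336188761) (nat_lit 76) (nat_lit 38167255957) (nat_lit 177) (nat_lit 5) (nat_lit 182) (nat_lit 5) (nat_lit 178) (nat_lit 5) (nat_lit 518) (nat_lit 467) (nat_lit 215)) (XT.lf (nat_lit 0) (nat_lit 31084707648) (nat_lit 304) (nat_lit 3717293321) (nat_lit 380) (nat_lit 34912780599) (nat_lit 173) (nat_lit 5) (nat_lit 177) (nat_lit 5) (nat_lit 178) (nat_lit 5) (nat_lit 519) (nat_lit 467) (nat_lit 214))) (XT.nd (nat_lit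 78) (nat_lit 0) (nat_lit 0) (XT.lf (nat_lit 0) (nat_lit 2784438725) (nat_lit 304) (nat_lit 47663123281) (nat_lit 380) (nat_lit 20544964689) (nat_lit 169) (nat_lit 5) (nat_lit 173) (nat_lit 5) (nat_lit 174) (nat_lit 5) (nat_lit 520) (nat_lit 467) (nat_lit 213)) (XT.lf (nat_lit 0) (nat_lit 46194350288) (nat_lit 304) (nat_lit 20793754825) (nat_lit 380) (nat_lit 5307730654) (nat_lit 169) (nat_lit 5) (nat_lit 173) (nat_lit 5) (nat_lit 174) (nat_lit 5) (nat_lit 521) (nat_lit 467) (nat_lit 212))))) (XT.nd (nat_lit 312) (nat_lit 608) (nat_lit 0) (XT.nd (nat_lit 156) (nat_lit 532) (nat_lit 0) (XT.nd (nat_lit 78) (nat_lit 0) (nat_lit 0) (XT.lf (nat_lit 0) (nat_lit 10420147720) (nat_lit 380) (nat_lit 56190252015) (nat_lit 76) (nat_lit 7017762916) (nat_lit 164) (nat_lit 5) (nat_lit 169) (nat_lit 5) (nat_lit 165) (nat_lit 5) (nat_lit 522) (nat_lit 467) (nat_lit 211)) (XT.lf (nat_lit 0) (nat_lit 26984354465) (nat_lit 380) (nat_lit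 12436413295) (nat_lit 76) (nat_lit 35563979909) (nat_lit 164) (nat_lit 5) (nat_lit 169) (nat_lit 5) (nat_lit 165) (nat_lit 5) (nat_lit 523) (nat_lit 467) (nat_lit 210))) (XT.nd (nat_lit 78) (nat_lit 228) (nat_lit 0) (XT.lf (nat_lit 0) (nat_lit 33278091272) (nat_lit 304) (nat_lit 11086421356) (nat_lit 380) (nat_lit 32007946895) (nat_lit 160) (nat_lit 5) (nat_lit 164) (nat_lit 5) (nat_lit 165) (nat_lit 5) (nat_lit 524) (nat_lit 467) (nat_lit 209)) (XT.lf (nat_lit 0) (nat_lit 2697013540) (nat_lit 228) (nat_lit 59894926732) (nat_lit 304) (nat_lit 15200086561) (nat_lit 157) (nat_lit 5) (nat_lit 160) (nat_lit 5) (nat_lit 161) (nat_lit 5) (nat_lit 525) (nat_lit 467) (nat_lit 208)))) (XT.nd (nat_lit 156) (nat_lit 228) (nat_lit 0) (XT.nd (nat_lit 78) (nat_lit 304) (nat_lit 0) (XT.lf (nat_lit 0) (nat_lit 2619188271) (nat_lit 304) (nat_lit 28631310943) (nat_lit 76) (nat_lit 47986621183) (nat_lit 156) (nat_lit 5) (nat_lit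 160) (nat_lit 5) (nat_lit 157) (nat_lit 5) (nat_lit 526) (nat_lit 467) (nat_lit 207)) (XT.lf (nat_lit 0) (nat_lit 19454128786) (nat_lit 304) (nat_lit 1399583513) (nat_lit 380) (nat_lit 59861754300) (nat_lit 152) (nat_lit 5) (nat_lit 156) (nat_lit 5) (nat_lit 157) (nat_lit 5) (nat_lit 527) (nat_lit 467) (nat_lit 206))) (XT.nd (nat_lit 78) (nat_lit 228) (nat_lit 0) (XT.lf (nat_lit 0) (nat_lit 40208534578) (nat_lit 380) (nat_lit 12946711792) (nat_lit 76) (nat_lit 29065718979) (nat_lit 152) (nat_lit 5) (nat_lit 157) (nat_lit 5) (nat_lit 153) (nat_lit 5) (nat_lit 528) (nat_lit 467) (nat_lit 205)) (XT.lf (nat_lit 0) (nat_lit 37534665095) (nat_lit 228) (nat_lit 22983203625) (nat_lit 304) (nat_lit 23242544362) (nat_lit 149) (nat_lit 5) (nat_lit 152) (nat_lit 5) (nat_lit 153) (nat_lit 5) (nat_lit 529) (nat_lit 467) (nat_lit 204)))))) (XT.nd (nat_lit 624) (nat_lit 912) (nat_lit 0) (XT.nd (nat_lit 312) (nat_lit 760) (nat_lit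 0) (XT.nd (nat_lit 156) (nat_lit 228) (nat_lit 0) (XT.nd (nat_lit 78) (nat_lit 76) (nat_lit 0) (XT.lf (nat_lit 0) (nat_lit 4460422221) (nat_lit 228) (nat_lit 77227982666) (nat_lit 304) (nat_lit 3650081735) (nat_lit 146) (nat_lit 5) (nat_lit 149) (nat_lit 5) (nat_lit 150) (nat_lit 5) (nat_lit 530) (nat_lit 467) (nat_lit 203)) (XT.lf (nat_lit 0) (nat_lit 16905772992) (nat_lit 304) (nat_lit 29727491754) (nat_lit 76) (nat_lit 40304925284) (nat_lit 145) (nat_lit 5) (nat_lit 149) (nat_lit 5) (nat_lit 146) (nat_lit 5) (nat_lit 531) (nat_lit 467) (nat_lit 202))) (XT.nd (nat_lit 78) (nat_lit 0) (nat_lit 0) (XT.lf (nat_lit 0) (nat_lit 23376376130) (nat_lit 228) (nat_lit 14852508654) (nat_lit 304) (nat_lit 50349197273) (nat_lit 142) (nat_lit 5) (nat_lit 145) (nat_lit 5) (nat_lit 146) (nat_lit 5) (nat_lit 532) (nat_lit 467) (nat_lit 201)) (XT.lf (nat_lit 0) (nat_lit 60665983333) (nat_lit 304) (nat_lit 11751528125) (nat_lit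 76) (nat_lit 17835430616) (nat_lit 142) (nat_lit 5) (nat_lit 146) (nat_lit 5) (nat_lit 143) (nat_lit 5) (nat_lit 533) (nat_lit 467) (nat_lit 200)))) (XT.nd (nat_lit 156) (nat_lit 228) (nat_lit 0) (XT.nd (nat_lit 78) (nat_lit 304) (nat_lit 0) (XT.lf (nat_lit 0) (nat_lit 44012738076) (nat_lit 228) (nat_lit 40332853036) (nat_lit 304) (nat_lit 7615374920) (nat_lit 139) (nat_lit 5) (nat_lit 142) (nat_lit 5) (nat_lit 143) (nat_lit 5) (nat_lit 534) (nat_lit 467) (nat_lit 199)) (XT.lf (nat_lit 0) (nat_lit 7983213717) (nat_lit 228) (nat_lit 6934987930) (nat_lit 304) (nat_lit 78791823521) (nat_lit 135) (nat_lit 5) (nat_lit 138) (nat_lit 5) (nat_lit 139) (nat_lit 5) (nat_lit 535) (nat_lit 467) (nat_lit 198))) (XT.nd (nat_lit 78) (nat_lit 228) (nat_lit 0) (XT.lf (nat_lit 0) (nat_lit 38726981874) (nat_lit 304) (nat_lit 29266959956) (nat_lit 76) (nat_lit 27492784548) (nat_lit 135) (nat_lit 5) (nat_lit 139) (nat_lit 5) (nat_lit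 136) (nat_lit 5) (nat_lit 536) (nat_lit 467) (nat_lit 197)) (XT.lf (nat_lit 0) (nat_lit 29390353504) (nat_lit 228) (nat_lit 34210146794) (nat_lit 304) (nat_lit 33705714109) (nat_lit 132) (nat_lit 5) (nat_lit 135) (nat_lit 5) (nat_lit 136) (nat_lit 5) (nat_lit 537) (nat_lit 467) (nat_lit 196))))) (XT.nd (nat_lit 312) (nat_lit 456) (nat_lit 0) (XT.nd (nat_lit 156) (nat_lit 228) (nat_lit 0) (XT.nd (nat_lit 78) (nat_lit 228) (nat_lit 0) (XT.lf (nat_lit 0) (nat_lit 89523631740) (nat_lit 304) (nat_lit 8773847639) (nat_lit 76) (nat_lit 873705500) (nat_lit 132) (nat_lit 5) (nat_lit 136) (nat_lit 5) (nat_lit 133) (nat_lit 5) (nat_lit 538) (nat_lit 467) (nat_lit 195)) (XT.lf (nat_lit 0) (nat_lit 15691342450) (nat_lit 228) (nat_lit 48387032166) (nat_lit 76) (nat_lit 36983737737) (nat_lit 129) (nat_lit 5) (nat_lit 132) (nat_lit 5) (nat_lit 130) (nat_lit 5) (nat_lit 539) (nat_lit 467) (nat_lit 194))) (XT.nd (nat_lit 78) (nat_lit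 0) (nat_lit 0) (XT.lf (nat_lit 0) (nat_lit 13302244114) (nat_lit 228) (nat_lit 28510920606) (nat_lit 304) (nat_lit 61187237362) (nat_lit 126) (nat_lit 5) (nat_lit 129) (nat_lit 5) (nat_lit 130) (nat_lit 5) (nat_lit 540) (nat_lit 467) (nat_lit 193)) (XT.lf (nat_lit 0) (nat_lit 69289507315) (nat_lit 304) (nat_lit 27232181778) (nat_lit 76) (nat_lit 8458025462) (nat_lit 126) (nat_lit 5) (nat_lit 130) (nat_lit 5) (nat_lit 127) (nat_lit 5) (nat_lit 541) (nat_lit 467) (nat_lit 192)))) (XT.nd (nat_lit 156) (nat_lit 228) (nat_lit 0) (XT.nd (nat_lit 78) (nat_lit 76) (nat_lit 0) (XT.lf (nat_lit 0) (nat_lit 37557239380) (nat_lit 152) (nat_lit 60675555112) (nat_lit 228) (nat_lit 8766332306) (nat_lit 124) (nat_lit 5) (nat_lit 126) (nat_lit 5) (nat_lit 127) (nat_lit 5) (nat_lit 542) (nat_lit 467) (nat_lit 191)) (XT.lf (nat_lit 0) (nat_lit 18872239446) (nat_lit 228) (nat_lit 4408450800) (nat_lit 76) (nat_lit 85784650181) (nat_lit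 123) (nat_lit 5) (nat_lit 126) (nat_lit 5) (nat_lit 124) (nat_lit 5) (nat_lit 543) (nat_lit 467) (nat_lit 190))) (XT.nd (nat_lit 56550) (nat_lit 0) (nat_lit 14364) (XT.lf (nat_lit 0) (nat_lit 47929146471) (nat_lit 304) (nat_lit 47594220222) (nat_lit 76) (nat_lit 15644608749) (nat_lit 120) (nat_lit 5) (nat_lit 124) (nat_lit 5) (nat_lit 121) (nat_lit 5) (nat_lit 544) (nat_lit 467) (nat_lit 189)) (XT.lf (nat_lit 0) (nat_lit 7414706234) (nat_lit 1292) (nat_lit 3881531747) (nat_lit 1292) (nat_lit 3881531747) (nat_lit 309) (nat_lit 3) (nat_lit 326) (nat_lit 3) (nat_lit 326) (nat_lit 5) (nat_lit 468) (nat_lit 468) (nat_lit 264))))))))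
noncomputable def xc223 : XT := (XT.nd (nat_lit 2418) (nat_lit 6916) (nat_lit 0) (XT.nd (nat_lit 1170) (nat_lit 4712) (nat_lit 0) (XT.nd (nat_lit 546) (nat_lit 760) (nat_lit 0) (XT.nd (nat_lit 234) (nat_lit 0) (nat_lit 152) (XT.nd (nat_lit 78) (nat_lit 0) (nat_lit 76) (XT.lf (nat_lit 76) (nat_lit 7437957863) (nat_lit 0) (nat_lit 7756229915) (nat_lit 1292) (nat_lit 15612408198) (nat_lit 310) (nat_lit 5) (nat_lit 309) (nat_lit 3) (nat_lit 326) (nat_lit 5) (nat_lit 469) (nat_lit 468) (nat_lit 263)) (XT.nd (nat_lit 78) (nat_lit 0) (nat_lit 0) (XT.lf (nat_lit 0) (nat_lit 15718644383) (nat_lit 1216) (nat_lit 8089347995) (nat_lit 1292) (nat_lit 7458729926) (nat_lit 310) (nat_lit 5) (nat_lit 326) (nat_lit 5) (nat_lit 327) (nat_lit 5) (nat_lit 470) (nat_lit 468) (nat_lit 262)) (XT.lf (nat_lit 76) (nat_lit 7720681320) (nat_lit 0) (nat_lit 8686478450) (nat_lit 1292) (nat_lit 15329043145) (nat_lit 311) (nat_lit 5) (nat_lit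 310) (nat_lit 5) (nat_lit 327) (nat_lit 5) (nat_lit 471) (nat_lit 468) (nat_lit 261)))) (XT.nd (nat_lit 156) (nat_lit 0) (nat_lit 76) (XT.nd (nat_lit 78) (nat_lit 0) (nat_lit 0) (XT.lf (nat_lit 0) (nat_lit 17262433768) (nat_lit 1216) (nat_lit 8115087604) (nat_lit 1292) (nat_lit 6837863720) (nat_lit 311) (nat_lit 5) (nat_lit 327) (nat_lit 5) (nat_lit 328) (nat_lit 5) (nat_lit 472) (nat_lit 468) (nat_lit 260)) (XT.lf (nat_lit 76) (nat_lit 8337517155) (nat_lit 0) (nat_lit 9969464517) (nat_lit 1292) (nat_lit 14397052826) (nat_lit 312) (nat_lit 5) (nat_lit 311) (nat_lit 5) (nat_lit 328) (nat_lit 5) (nat_lit 473) (nat_lit 468) (nat_lit 259))) (XT.nd (nat_lit 78) (nat_lit 0) (nat_lit 0) (XT.lf (nat_lit 0) (nat_lit 19519880333) (nat_lit 1216) (nat_lit 7813968540) (nat_lit 1292) (nat_lit 5869384310) (nat_lit 312) (nat_lit 5) (nat_lit 328) (nat_lit 5) (nat_lit 329) (nat_lit 5) (nat_lit 474) (nat_lit 468) (nat_lit 258)) (XT.lf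 (nat_lit 76) (nat_lit 9316696941) (nat_lit 0) (nat_lit 11638340265) (nat_lit 1292) (nat_lit 12756794706) (nat_lit 313) (nat_lit 5) (nat_lit 312) (nat_lit 5) (nat_lit 329) (nat_lit 5) (nat_lit 475) (nat_lit 468) (nat_lit 257))))) (XT.nd (nat_lit 312) (nat_lit 1064) (nat_lit 0) (XT.nd (nat_lit 156) (nat_lit 0) (nat_lit 76) (XT.nd (nat_lit 78) (nat_lit 0) (nat_lit 0) (XT.lf (nat_lit 0) (nat_lit 22554130537) (nat_lit 1216) (nat_lit 7157785192) (nat_lit 1292) (nat_lit 4520146636) (nat_lit 313) (nat_lit 5) (nat_lit 329) (nat_lit 5) (nat_lit 330) (nat_lit 5) (nat_lit 476) (nat_lit 468) (nat_lit 256)) (XT.lf (nat_lit 76) (nat_lit 10688453962) (nat_lit 0) (nat_lit 13728454178) (nat_lit 1292) (nat_lit 10344520455) (nat_lit 314) (nat_lit 5) (nat_lit 313) (nat_lit 5) (nat_lit 330) (nat_lit 5) (nat_lit 477) (nat_lit 468) (nat_lit 255))) (XT.nd (nat_lit 78) (nat_lit 0) (nat_lit 0) (XT.lf (nat_lit 0) (nat_lit 26432643831) (nat_lit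 1216) (nat_lit 6116328757) (nat_lit 1292) (nat_lit 2754791184) (nat_lit 314) (nat_lit 5) (nat_lit 330) (nat_lit 5) (nat_lit 331) (nat_lit 5) (nat_lit 478) (nat_lit 468) (nat_lit 254)) (XT.lf (nat_lit 76) (nat_lit 12485140918) (nat_lit 0) (nat_lit 16277508763) (nat_lit 1292) (nat_lit 7092105574) (nat_lit 315) (nat_lit 5) (nat_lit 314) (nat_lit 5) (nat_lit 331) (nat_lit 5) (nat_lit 479) (nat_lit 468) (nat_lit 253)))) (XT.nd (nat_lit 156) (nat_lit 1216) (nat_lit 0) (XT.nd (nat_lit 78) (nat_lit 0) (nat_lit 0) (XT.lf (nat_lit 0) (nat_lit 31227474809) (nat_lit 1216) (nat_lit 4657268901) (nat_lit 1292) (nat_lit 535585391) (nat_lit 315) (nat_lit 5) (nat_lit 331) (nat_lit 5) (nat_lit 332) (nat_lit 5) (nat_lit 480) (nat_lit 468) (nat_lit 252)) (XT.lf (nat_lit 76) (nat_lit 14741354951) (nat_lit 0) (nat_lit 19325727402) (nat_lit 1292) (nat_lit 2926762865) (nat_lit 316) (nat_lit 5) (nat_lit 315) (nat_lit 5) (nat_lit 332) (nat_lit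 5) (nat_lit 481) (nat_lit 468) (nat_lit 251))) (XT.nd (nat_lit 78) (nat_lit 1216) (nat_lit 0) (XT.lf (nat_lit 76) (nat_lit 34815837085) (nat_lit 0) (nat_lit 2221085611) (nat_lit 1292) (nat_lit 546292964) (nat_lit 316) (nat_lit 5) (nat_lit 315) (nat_lit 5) (nat_lit 332) (nat_lit 5) (nat_lit 482) (nat_lit 468) (nat_lit 250)) (XT.lf (nat_lit 0) (nat_lit 2185760363) (nat_lit 1292) (nat_lit 20708198793) (nat_lit 1368) (nat_lit 15286238068) (nat_lit 299) (nat_lit 5) (nat_lit 316) (nat_lit 5) (nat_lit 317) (nat_lit 5) (nat_lit 483) (nat_lit 468) (nat_lit 249)))))) (XT.nd (nat_lit 624) (nat_lit 2736) (nat_lit 0) (XT.nd (nat_lit 312) (nat_lit 1216) (nat_lit 0) (XT.nd (nat_lit 156) (nat_lit 760) (nat_lit 0) (XT.nd (nat_lit 78) (nat_lit 0) (nat_lit 76) (XT.lf (nat_lit 0) (nat_lit 5037107151) (nat_lit 1292) (nat_lit 448249514) (nat_lit 1368) (nat_lit 33308120115) (nat_lit 299) (nat_lit 5) (nat_lit 316) (nat_lit 5) (nat_lit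 317) (nat_lit 5) (nat_lit 484) (nat_lit 468) (nat_lit 248)) (XT.lf (nat_lit 0) (nat_lit 8293943105) (nat_lit 1292) (nat_lit 18716529833) (nat_lit 76) (nat_lit 12405083483) (nat_lit 300) (nat_lit 5) (nat_lit 317) (nat_lit 5) (nat_lit 301) (nat_lit 5) (nat_lit 485) (nat_lit 468) (nat_lit 247))) (XT.nd (nat_lit 78) (nat_lit 0) (nat_lit 0) (XT.lf (nat_lit 0) (nat_lit 2425111215) (nat_lit 836) (nat_lit 9303762133) (nat_lit 912) (nat_lit 28325013580) (nat_lit 289) (nat_lit 5) (nat_lit 300) (nat_lit 5) (nat_lit 301) (nat_lit 5) (nat_lit 486) (nat_lit 468) (nat_lit 246)) (XT.lf (nat_lit 0) (nat_lit 15541838409) (nat_lit 912) (nat_lit 16210419461) (nat_lit 76) (nat_lit 8950860023) (nat_lit 289) (nat_lit 5) (nat_lit 301) (nat_lit 5) (nat_lit 290) (nat_lit 5) (nat_lit 487) (nat_lit 468) (nat_lit 245)))) (XT.nd (nat_lit 156) (nat_lit 608) (nat_lit 0) (XT.nd (nat_lit 78) (nat_lit 0) (nat_lit 0) (XT.lf (nat_lit 0) (nat_lit 5871347677)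 (nat_lit 608) (nat_lit 13744686452) (nat_lit 684) (nat_lit 21751386553) (nat_lit 281) (nat_lit 5) (nat_lit 289) (nat_lit 5) (nat_lit 290) (nat_lit 5) (nat_lit 488) (nat_lit 468) (nat_lit 244)) (XT.lf (nat_lit 0) (nat_lit 24022262318) (nat_lit 684) (nat_lit 13148297720) (nat_lit 76) (nat_lit 4874798461) (nat_lit 281) (nat_lit 5) (nat_lit 290) (nat_lit 5) (nat_lit 282) (nat_lit 5) (nat_lit 489) (nat_lit 468) (nat_lit 243))) (XT.nd (nat_lit 78) (nat_lit 0) (nat_lit 0) (XT.lf (nat_lit 0) (nat_lit 9925932675) (nat_lit 608) (nat_lit 18864615657) (nat_lit 684) (nat_lit 13946190124) (nat_lit 273) (nat_lit 5) (nat_lit 281) (nat_lit 5) (nat_lit 282) (nat_lit 5) (nat_lit 490) (nat_lit 468) (nat_lit 242)) (XT.lf (nat_lit 0) (nat_lit 33834281787) (nat_lit 684) (nat_lit 9485798424) (nat_lit 76) (nat_lit 124807772) (nat_lit 273) (nat_lit 5) (nat_lit 282) (nat_lit 5) (nat_lit 274) (nat_lit 5) (nat_lit 491) (nat_lit 468) (nat_lit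 241))))) (XT.nd (nat_lit 312) (nat_lit 1520) (nat_lit 0) (XT.nd (nat_lit 156) (nat_lit 608) (nat_lit 0) (XT.nd (nat_lit 78) (nat_lit 76) (nat_lit 0) (XT.lf (nat_lit 0) (nat_lit 14636217517) (nat_lit 532) (nat_lit 24719030383) (nat_lit 608) (nat_lit 4809256602) (nat_lit 266) (nat_lit 5) (nat_lit 273) (nat_lit 5) (nat_lit 274) (nat_lit 5) (nat_lit 492) (nat_lit 468) (nat_lit 240)) (XT.lf (nat_lit 0) (nat_lit 228678437) (nat_lit 608) (nat_lit 5230333247) (nat_lit 76) (nat_lit 39443802657) (nat_lit 265) (nat_lit 5) (nat_lit 273) (nat_lit 5) (nat_lit 266) (nat_lit 5) (nat_lit 493) (nat_lit 468) (nat_lit 239))) (XT.nd (nat_lit 78) (nat_lit 0) (nat_lit 0) (XT.lf (nat_lit 0) (nat_lit 5653807740) (nat_lit 684) (nat_lit 25656270453) (nat_lit 76) (nat_lit 14341785382) (nat_lit 257) (nat_lit 5) (nat_lit 266) (nat_lit 5) (nat_lit 258) (nat_lit 5) (nat_lit 494) (nat_lit 468) (nat_lit 238)) (XT.lf (nat_lit 0) (nat_lit 11347617525)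 (nat_lit 684) (nat_lit 392424408) (nat_lit 76) (nat_lit 34680164671) (nat_lit 257) (nat_lit 5) (nat_lit 266) (nat_lit 5) (nat_lit 258) (nat_lit 5) (nat_lit 495) (nat_lit 468) (nat_lit 237)))) (XT.nd (nat_lit 156) (nat_lit 456) (nat_lit 0) (XT.nd (nat_lit 78) (nat_lit 532) (nat_lit 0) (XT.lf (nat_lit 0) (nat_lit 17545472187) (nat_lit 608) (nat_lit 21149641592) (nat_lit 76) (nat_lit 8506489340) (nat_lit 250) (nat_lit 5) (nat_lit 258) (nat_lit 5) (nat_lit 251) (nat_lit 5) (nat_lit 496) (nat_lit 468) (nat_lit 236)) (XT.lf (nat_lit 0) (nat_lit 5276541442) (nat_lit 532) (nat_lit 18822288691) (nat_lit 608) (nat_lit 23902524474) (nat_lit 243) (nat_lit 5) (nat_lit 250) (nat_lit 5) (nat_lit 251) (nat_lit 5) (nat_lit 497) (nat_lit 468) (nat_lit 235))) (XT.nd (nat_lit 78) (nat_lit 456) (nat_lit 0) (XT.lf (nat_lit 0) (nat_lit 31078933188) (nat_lit 608) (nat_lit 15909149235) (nat_lit 76) (nat_lit 1830111990) (nat_lit 243) (nat_lit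 5) (nat_lit 251) (nat_lit 5) (nat_lit 244) (nat_lit 5) (nat_lit 498) (nat_lit 468) (nat_lit 234)) (XT.lf (nat_lit 0) (nat_lit 11752432627) (nat_lit 456) (nat_lit 26814008074) (nat_lit 532) (nat_lit 11084158776) (nat_lit 237) (nat_lit 5) (nat_lit 243) (nat_lit 5) (nat_lit 244) (nat_lit 5) (nat_lit 499) (nat_lit 468) (nat_lit 233))))))) (XT.nd (nat_lit 1248) (nat_lit 3040) (nat_lit 0) (XT.nd (nat_lit 624) (nat_lit 1976) (nat_lit 0) (XT.nd (nat_lit 312) (nat_lit 912) (nat_lit 0) (XT.nd (nat_lit 156) (nat_lit 456) (nat_lit 0) (XT.nd (nat_lit 78) (nat_lit 532) (nat_lit 0) (XT.lf (nat_lit 0) (nat_lit 40568473875) (nat_lit 456) (nat_lit 5869445484) (nat_lit 532) (nat_lit 4065277054) (nat_lit 237) (nat_lit 5) (nat_lit 243) (nat_lit 5) (nat_lit 244) (nat_lit 5) (nat_lit 500) (nat_lit 468) (nat_lit 232)) (XT.lf (nat_lit 0) (nat_lit 3438889400) (nat_lit 532) (nat_lit 32317450779) (nat_lit 76) (nat_lit 15614024814) (nat_lit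 230) (nat_lit 5) (nat_lit 237) (nat_lit 5) (nat_lit 231) (nat_lit 5) (nat_lit 501) (nat_lit 468) (nat_lit 231))) (XT.nd (nat_lit 78) (nat_lit 456) (nat_lit 0) (XT.lf (nat_lit 0) (nat_lit 11244641673) (nat_lit 532) (nat_lit 3247576394) (nat_lit 76) (nat_lit 37765378080) (nat_lit 230) (nat_lit 5) (nat_lit 237) (nat_lit 5) (nat_lit 231) (nat_lit 5) (nat_lit 502) (nat_lit 468) (nat_lit 230)) (XT.lf (nat_lit 0) (nat_lit 19618856053) (nat_lit 532) (nat_lit 26013279438) (nat_lit 76) (nat_lit 7529280147) (nat_lit 224) (nat_lit 5) (nat_lit 231) (nat_lit 5) (nat_lit 225) (nat_lit 5) (nat_lit 503) (nat_lit 468) (nat_lit 229)))) (XT.nd (nat_lit 156) (nat_lit 456) (nat_lit 0) (XT.nd (nat_lit 78) (nat_lit 0) (nat_lit 0) (XT.lf (nat_lit 0) (nat_lit 4370918900) (nat_lit 456) (nat_lit 24090796969) (nat_lit 532) (nat_lit 25624111360) (nat_lit 218) (nat_lit 5) (nat_lit 224) (nat_lit 5) (nat_lit 225) (nat_lit 5) (nat_lit 504) (nat_lit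 468) (nat_lit 228)) (XT.lf (nat_lit 0) (nat_lit 36198416617) (nat_lit 456) (nat_lit 1632945760) (nat_lit 532) (nat_lit 17198763847) (nat_lit 218) (nat_lit 5) (nat_lit 224) (nat_lit 5) (nat_lit 225) (nat_lit 5) (nat_lit 505) (nat_lit 468) (nat_lit 227))) (XT.nd (nat_lit 78) (nat_lit 76) (nat_lit 0) (XT.lf (nat_lit 0) (nat_lit 13024010152) (nat_lit 380) (nat_lit 34788790469) (nat_lit 456) (nat_lit 8180032579) (nat_lit 213) (nat_lit 5) (nat_lit 218) (nat_lit 5) (nat_lit 219) (nat_lit 5) (nat_lit 506) (nat_lit 468) (nat_lit 226)) (XT.lf (nat_lit 0) (nat_lit 1294686701) (nat_lit 456) (nat_lit 10787467528) (nat_lit 76) (nat_lit 44895735192) (nat_lit 212) (nat_lit 5) (nat_lit 218) (nat_lit 5) (nat_lit 213) (nat_lit 5) (nat_lit 507) (nat_lit 468) (nat_lit 225))))) (XT.nd (nat_lit 312) (nat_lit 760) (nat_lit 0) (XT.nd (nat_lit 156) (nat_lit 760) (nat_lit 0) (XT.nd (nat_lit 78) (nat_lit 0) (nat_lit 0) (XT.lf (nat_lit 0)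 (nat_lit 11218167500) (nat_lit 532) (nat_lit 35374922644) (nat_lit 76) (nat_lit 11387109631) (nat_lit 206) (nat_lit 5) (nat_lit 213) (nat_lit 5) (nat_lit 207) (nat_lit 5) (nat_lit 508) (nat_lit 468) (nat_lit 224)) (XT.lf (nat_lit 0) (nat_lit 21667895501) (nat_lit 532) (nat_lit 1910522150) (nat_lit 76) (nat_lit 35427305577) (nat_lit 206) (nat_lit 5) (nat_lit 213) (nat_lit 5) (nat_lit 207) (nat_lit 5) (nat_lit 509) (nat_lit 468) (nat_lit 223))) (XT.nd (nat_lit 78) (nat_lit 380) (nat_lit 0) (XT.lf (nat_lit 0) (nat_lit 32753609153) (nat_lit 456) (nat_lit 26852498406) (nat_lit 76) (nat_lit 446230082) (nat_lit 201) (nat_lit 5) (nat_lit 207) (nat_lit 5) (nat_lit 202) (nat_lit 5) (nat_lit 510) (nat_lit 468) (nat_lit 222)) (XT.lf (nat_lit 0) (nat_lit 8197816019) (nat_lit 380) (nat_lit 36304766638) (nat_lit 456) (nat_lit 16617847244) (nat_lit 196) (nat_lit 5) (nat_lit 201) (nat_lit 5) (nat_lit 202) (nat_lit 5) (nat_lit 511)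 (nat_lit 468) (nat_lit 221)))) (XT.nd (nat_lit 156) (nat_lit 380) (nat_lit 0) (XT.nd (nat_lit 78) (nat_lit 380) (nat_lit 0) (XT.lf (nat_lit 0) (nat_lit 44848687862) (nat_lit 380) (nat_lit 12025464908) (nat_lit 456) (nat_lit 5338308400) (nat_lit 196) (nat_lit 5) (nat_lit 201) (nat_lit 5) (nat_lit 202) (nat_lit 5) (nat_lit 512) (nat_lit 468) (nat_lit 220)) (XT.lf (nat_lit 0) (nat_lit 6471555503) (nat_lit 380) (nat_lit 43874869456) (nat_lit 76) (nat_lit 12979583272) (nat_lit 191) (nat_lit 5) (nat_lit 196) (nat_lit 5) (nat_lit 192) (nat_lit 5) (nat_lit 513) (nat_lit 468) (nat_lit 219))) (XT.nd (nat_lit 78) (nat_lit 380) (nat_lit 0) (XT.lf (nat_lit 0) (nat_lit 18823563268) (nat_lit 380) (nat_lit 6916311517) (nat_lit 76) (nat_lit 38722647063) (nat_lit 191) (nat_lit 5) (nat_lit 196) (nat_lit 5) (nat_lit 192) (nat_lit 5) (nat_lit 514) (nat_lit 468) (nat_lit 218)) (XT.lf (nat_lit 0) (nat_lit 31769588889) (nat_lit 380) (nat_lit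 80962695) (nat_lit 456) (nat_lit 33773446736) (nat_lit 186) (nat_lit 5) (nat_lit 191) (nat_lit 5) (nat_lit 192) (nat_lit 5) (nat_lit 515) (nat_lit 468) (nat_lit 217)))))) (XT.nd (nat_lit 624) (nat_lit 1368) (nat_lit 0) (XT.nd (nat_lit 312) (nat_lit 988) (nat_lit 0) (XT.nd (nat_lit 156) (nat_lit 380) (nat_lit 0) (XT.nd (nat_lit 78) (nat_lit 0) (nat_lit 0) (XT.lf (nat_lit 0) (nat_lit 4777519769) (nat_lit 304) (nat_lit 40859600477) (nat_lit 380) (nat_lit 21172135778) (nat_lit 182) (nat_lit 5) (nat_lit 186) (nat_lit 5) (nat_lit 187) (nat_lit 5) (nat_lit 516) (nat_lit 468) (nat_lit 216)) (XT.lf (nat_lit 0) (nat_lit 45260219829) (nat_lit 304) (nat_lit 14918781119) (nat_lit 380) (nat_lit 7840819115) (nat_lit 182) (nat_lit 5) (nat_lit 186) (nat_lit 5) (nat_lit 187) (nat_lit 5) (nat_lit 517) (nat_lit 468) (nat_lit 215))) (XT.nd (nat_lit 78) (nat_lit 0) (nat_lit 0) (XT.lf (nat_lit 0) (nat_lit 6063139506) (nat_lit 380) (nat_lit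 51391870752) (nat_lit 76) (nat_lit 11801362761) (nat_lit 177) (nat_lit 5) (nat_lit 182) (nat_lit 5) (nat_lit 178) (nat_lit 5) (nat_lit 518) (nat_lit 468) (nat_lit 214)) (XT.lf (nat_lit 0) (nat_lit 20605524455) (nat_lit 380) (nat_lit 10578209583) (nat_lit 76) (nat_lit 39332592611) (nat_lit 177) (nat_lit 5) (nat_lit 182) (nat_lit 5) (nat_lit 178) (nat_lit 5) (nat_lit 519) (nat_lit 468) (nat_lit 213)))) (XT.nd (nat_lit 156) (nat_lit 380) (nat_lit 0) (XT.nd (nat_lit 78) (nat_lit 304) (nat_lit 0) (XT.lf (nat_lit 0) (nat_lit 32084646416) (nat_lit 304) (nat_lit 3807065099) (nat_lit 380) (nat_lit 35913141505) (nat_lit 173) (nat_lit 5) (nat_lit 177) (nat_lit 5) (nat_lit 178) (nat_lit 5) (nat_lit 520) (nat_lit 468) (nat_lit 212)) (XT.lf (nat_lit 0) (nat_lit 2935860213) (nat_lit 304) (nat_lit 49070305085) (nat_lit 380) (nat_lit 21114779498) (nat_lit 169) (nat_lit 5) (nat_lit 173) (nat_lit 5) (nat_lit 174) (nat_lit 5) (nat_lit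 521) (nat_lit 468) (nat_lit 211))) (XT.nd (nat_lit 78) (nat_lit 380) (nat_lit 0) (XT.lf (nat_lit 0) (nat_lit 47646091793) (nat_lit 304) (nat_lit 21395517088) (nat_lit 380) (nat_lit 5421783805) (nat_lit 169) (nat_lit 5) (nat_lit 173) (nat_lit 5) (nat_lit 174) (nat_lit 5) (nat_lit 522) (nat_lit 468) (nat_lit 210)) (XT.lf (nat_lit 0) (nat_lit 10776611147) (nat_lit 380) (nat_lit 57808724335) (nat_lit 76) (nat_lit 7250354077) (nat_lit 164) (nat_lit 5) (nat_lit 169) (nat_lit 5) (nat_lit 165) (nat_lit 5) (nat_lit 523) (nat_lit 468) (nat_lit 209))))) (XT.nd (nat_lit 312) (nat_lit 760) (nat_lit 0) (XT.nd (nat_lit 156) (nat_lit 304) (nat_lit 0) (XT.nd (nat_lit 78) (nat_lit 304) (nat_lit 0) (XT.lf (nat_lit 0) (nat_lit 27836466647) (nat_lit 380) (nat_lit 12744228761) (nat_lit 76) (nat_lit 36652315105) (nat_lit 164) (nat_lit 5) (nat_lit 169) (nat_lit 5) (nat_lit 165) (nat_lit 5) (nat_lit 524) (nat_lit 468) (nat_lit 208)) (XT.lf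 (nat_lit 0) (nat_lit 34341070974) (nat_lit 304) (nat_lit 11396339673) (nat_lit 380) (nat_lit 32924961707) (nat_lit 160) (nat_lit 5) (nat_lit 164) (nat_lit 5) (nat_lit 165) (nat_lit 5) (nat_lit 525) (nat_lit 468) (nat_lit 207))) (XT.nd (nat_lit 78) (nat_lit 76) (nat_lit 0) (XT.lf (nat_lit 0) (nat_lit 2842959984) (nat_lit 228) (nat_lit 61668315701) (nat_lit 304) (nat_lit 15613262622) (nat_lit 157) (nat_lit 5) (nat_lit 160) (nat_lit 5) (nat_lit 161) (nat_lit 5) (nat_lit 526) (nat_lit 468) (nat_lit 206)) (XT.lf (nat_lit 0) (nat_lit 2738531721) (nat_lit 304) (nat_lit 29426295227) (nat_lit 76) (nat_lit 49448182127) (nat_lit 156) (nat_lit 5) (nat_lit 160) (nat_lit 5) (nat_lit 157) (nat_lit 5) (nat_lit 527) (nat_lit 468) (nat_lit 205)))) (XT.nd (nat_lit 156) (nat_lit 456) (nat_lit 0) (XT.nd (nat_lit 78) (nat_lit 0) (nat_lit 0) (XT.lf (nat_lit 0) (nat_lit 20101080683) (nat_lit 304) (nat_lit 1418432123) (nat_lit 380) (nat_lit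 61616210272) (nat_lit 152) (nat_lit 5) (nat_lit 156) (nat_lit 5) (nat_lit 157) (nat_lit 5) (nat_lit 528) (nat_lit 468) (nat_lit 204)) (XT.lf (nat_lit 0) (nat_lit 41454025143) (nat_lit 380) (nat_lit 13272673216) (nat_lit 76) (nat_lit 29959717123) (nat_lit 152) (nat_lit 5) (nat_lit 157) (nat_lit 5) (nat_lit 153) (nat_lit 5) (nat_lit 529) (nat_lit 468) (nat_lit 203))) (XT.nd (nat_lit 78) (nat_lit 228) (nat_lit 0) (XT.lf (nat_lit 0) (nat_lit 38722532821) (nat_lit 228) (nat_lit 23649558061) (nat_lit 304) (nat_lit 23899972270) (nat_lit 149) (nat_lit 5) (nat_lit 152) (nat_lit 5) (nat_lit 153) (nat_lit 5) (nat_lit 530) (nat_lit 468) (nat_lit 202)) (XT.lf (nat_lit 0) (nat_lit 4656387162) (nat_lit 228) (nat_lit 79521042611) (nat_lit 304) (nat_lit 3720058577) (nat_lit 146) (nat_lit 5) (nat_lit 149) (nat_lit 5) (nat_lit 150) (nat_lit 5) (nat_lit 531) (nat_lit 468) (nat_lit 201))))))))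
noncomputable def xc224 : XT := (XT.nd (nat_lit 58968) (nat_lit 0) (nat_lit 4484) (XT.nd (nat_lit 57720) (nat_lit 0) (nat_lit 13376) (XT.nd (nat_lit 546) (nat_lit 684) (nat_lit 0) (XT.nd (nat_lit 234) (nat_lit 760) (nat_lit 0) (XT.nd (nat_lit 78) (nat_lit 228) (nat_lit 0) (XT.lf (nat_lit 0) (nat_lit 17450571738) (nat_lit 304) (nat_lit 30558224080) (nat_lit 76) (nat_lit 41536409556) (nat_lit 145) (nat_lit 5) (nat_lit 149) (nat_lit 5) (nat_lit 146) (nat_lit 5) (nat_lit 532) (nat_lit 468) (nat_lit 200)) (XT.nd (nat_lit 78) (nat_lit 0) (nat_lit 0) (XT.lf (nat_lit 0) (nat_lit 24138160895) (nat_lit 228) (nat_lit 15274701598) (nat_lit 304) (nat_lit 51821447145) (nat_lit 142) (nat_lit 5) (nat_lit 145) (nat_lit 5) (nat_lit 146) (nat_lit 5) (nat_lit 533) (nat_lit 468) (nat_lit 199)) (XT.lf (nat_lit 0) (nat_lit 62522211310) (nat_lit 304) (nat_lit 12044478244) (nat_lit 76) (nat_lit 18392751827) (nat_lit 142) (nat_lit 5) (nat_lit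 146) (nat_lit 5) (nat_lit 143) (nat_lit 5) (nat_lit 534) (nat_lit 468) (nat_lit 198)))) (XT.nd (nat_lit 156) (nat_lit 228) (nat_lit 0) (XT.nd (nat_lit 78) (nat_lit 304) (nat_lit 0) (XT.lf (nat_lit 0) (nat_lit 45392131672) (nat_lit 228) (nat_lit 41519587125) (nat_lit 304) (nat_lit 7807001963) (nat_lit 139) (nat_lit 5) (nat_lit 142) (nat_lit 5) (nat_lit 143) (nat_lit 5) (nat_lit 535) (nat_lit 468) (nat_lit 197)) (XT.lf (nat_lit 0) (nat_lit 8281856160) (nat_lit 228) (nat_lit 7119523616) (nat_lit 304) (nat_lit 81118875813) (nat_lit 135) (nat_lit 5) (nat_lit 138) (nat_lit 5) (nat_lit 139) (nat_lit 5) (nat_lit 536) (nat_lit 468) (nat_lit 196))) (XT.nd (nat_lit 78) (nat_lit 228) (nat_lit 0) (XT.lf (nat_lit 0) (nat_lit 39923605029) (nat_lit 304) (nat_lit 30086725711) (nat_lit 76) (nat_lit 28339951686) (nat_lit 135) (nat_lit 5) (nat_lit 139) (nat_lit 5) (nat_lit 136) (nat_lit 5) (nat_lit 537) (nat_lit 468) (nat_lit 195))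 (XT.lf (nat_lit 0) (nat_lit 30329736143) (nat_lit 228) (nat_lit 35213133251) (nat_lit 304) (nat_lit 34681499529) (nat_lit 132) (nat_lit 5) (nat_lit 135) (nat_lit 5) (nat_lit 136) (nat_lit 5) (nat_lit 538) (nat_lit 468) (nat_lit 194))))) (XT.nd (nat_lit 312) (nat_lit 228) (nat_lit 0) (XT.nd (nat_lit 156) (nat_lit 228) (nat_lit 0) (XT.nd (nat_lit 78) (nat_lit 228) (nat_lit 0) (XT.lf (nat_lit 0) (nat_lit 92242911792) (nat_lit 304) (nat_lit 8980286559) (nat_lit 76) (nat_lit 922113684) (nat_lit 132) (nat_lit 5) (nat_lit 136) (nat_lit 5) (nat_lit 133) (nat_lit 5) (nat_lit 539) (nat_lit 468) (nat_lit 193)) (XT.lf (nat_lit 0) (nat_lit 16195545696) (nat_lit 228) (nat_lit 49781756092) (nat_lit 76) (nat_lit 38115668861) (nat_lit 129) (nat_lit 5) (nat_lit 132) (nat_lit 5) (nat_lit 130) (nat_lit 5) (nat_lit 540) (nat_lit 468) (nat_lit 192))) (XT.nd (nat_lit 78) (nat_lit 0) (nat_lit 0) (XT.lf (nat_lit 0) (nat_lit 13757640760)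 (nat_lit 228) (nat_lit 29342948696) (nat_lit 304) (nat_lit 62988832644) (nat_lit 126) (nat_lit 5) (nat_lit 129) (nat_lit 5) (nat_lit 130) (nat_lit 5) (nat_lit 541) (nat_lit 468) (nat_lit 191)) (XT.lf (nat_lit 0) (nat_lit 71400477743) (nat_lit 304) (nat_lit 27993712865) (nat_lit 76) (nat_lit 8733945712) (nat_lit 126) (nat_lit 5) (nat_lit 130) (nat_lit 5) (nat_lit 127) (nat_lit 5) (nat_lit 542) (nat_lit 468) (nat_lit 190)))) (XT.nd (nat_lit 56706) (nat_lit 0) (nat_lit 14136) (XT.nd (nat_lit 78) (nat_lit 76) (nat_lit 0) (XT.lf (nat_lit 0) (nat_lit 38738847453) (nat_lit 152) (nat_lit 62472803381) (nat_lit 228) (nat_lit 8996492509) (nat_lit 124) (nat_lit 5) (nat_lit 126) (nat_lit 5) (nat_lit 127) (nat_lit 5) (nat_lit 543) (nat_lit 468) (nat_lit 189)) (XT.lf (nat_lit 0) (nat_lit 19469658220) (nat_lit 228) (nat_lit 4486789206) (nat_lit 76) (nat_lit 88379914643) (nat_lit 123) (nat_lit 5) (nat_lit 126) (nat_lit 5) (nat_lit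 124) (nat_lit 5) (nat_lit 544) (nat_lit 468) (nat_lit 188))) (XT.nd (nat_lit 78) (nat_lit 0) (nat_lit 0) (XT.lf (nat_lit 0) (nat_lit 7707302424) (nat_lit 1292) (nat_lit 3961844629) (nat_lit 1292) (nat_lit 3961844629) (nat_lit 309) (nat_lit 3) (nat_lit 326) (nat_lit 3) (nat_lit 326) (nat_lit 5) (nat_lit 469) (nat_lit 469) (nat_lit 262)) (XT.lf (nat_lit 76) (nat_lit 7732654249) (nat_lit 0) (nat_lit 8054270325) (nat_lit 1292) (nat_lit 15939749347) (nat_lit 310) (nat_lit 5) (nat_lit 309) (nat_lit 3) (nat_lit 326) (nat_lit 5) (nat_lit 470) (nat_lit 469) (nat_lit 261)))))) (XT.nd (nat_lit 624) (nat_lit 836) (nat_lit 0) (XT.nd (nat_lit 312) (nat_lit 0) (nat_lit 152) (XT.nd (nat_lit 156) (nat_lit 0) (nat_lit 76) (XT.nd (nat_lit 78) (nat_lit 0) (nat_lit 0) (XT.lf (nat_lit 0) (nat_lit 16322517253) (nat_lit 1216) (nat_lit 8257945131) (nat_lit 1292) (nat_lit 7620279949) (nat_lit 310) (nat_lit 5) (nat_lit 326) (nat_lit 5) (nat_lit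 327) (nat_lit 5) (nat_lit 471) (nat_lit 469) (nat_lit 260)) (XT.lf (nat_lit 76) (nat_lit 8025658757) (nat_lit 0) (nat_lit 9002880705) (nat_lit 1292) (nat_lit 15655862718) (nat_lit 311) (nat_lit 5) (nat_lit 310) (nat_lit 5) (nat_lit 327) (nat_lit 5) (nat_lit 472) (nat_lit 469) (nat_lit 259))) (XT.nd (nat_lit 78) (nat_lit 0) (nat_lit 0) (XT.lf (nat_lit 0) (nat_lit 17905188761) (nat_lit 1216) (nat_lit 8283025397) (nat_lit 1292) (nat_lit 6989874497) (nat_lit 311) (nat_lit 5) (nat_lit 327) (nat_lit 5) (nat_lit 328) (nat_lit 5) (nat_lit 473) (nat_lit 469) (nat_lit 258)) (XT.lf (nat_lit 76) (nat_lit 8662417163) (nat_lit 0) (nat_lit 10315737378) (nat_lit 1292) (nat_lit 14703330895) (nat_lit 312) (nat_lit 5) (nat_lit 311) (nat_lit 5) (nat_lit 328) (nat_lit 5) (nat_lit 474) (nat_lit 469) (nat_lit 257)))) (XT.nd (nat_lit 156) (nat_lit 0) (nat_lit 76) (XT.nd (nat_lit 78) (nat_lit 0) (nat_lit 0) (XT.lf (nat_lit 0) (nat_lit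 20223447433) (nat_lit 1216) (nat_lit 7971787402) (nat_lit 1292) (nat_lit 6000545355) (nat_lit 312) (nat_lit 5) (nat_lit 328) (nat_lit 5) (nat_lit 329) (nat_lit 5) (nat_lit 475) (nat_lit 469) (nat_lit 256)) (XT.lf (nat_lit 76) (nat_lit 9672047061) (nat_lit 0) (nat_lit 12026905021) (nat_lit 1292) (nat_lit 13020766324) (nat_lit 313) (nat_lit 5) (nat_lit 312) (nat_lit 5) (nat_lit 329) (nat_lit 5) (nat_lit 476) (nat_lit 469) (nat_lit 255))) (XT.nd (nat_lit 78) (nat_lit 0) (nat_lit 0) (XT.lf (nat_lit 0) (nat_lit 23342293174) (nat_lit 1216) (nat_lit 7295143454) (nat_lit 1292) (nat_lit 4618231202) (nat_lit 313) (nat_lit 5) (nat_lit 329) (nat_lit 5) (nat_lit 330) (nat_lit 5) (nat_lit 477) (nat_lit 469) (nat_lit 254)) (XT.lf (nat_lit 76) (nat_lit 11085724293) (nat_lit 0) (nat_lit 14172717598) (nat_lit 1292) (nat_lit 10542548821) (nat_lit 314) (nat_lit 5) (nat_lit 313) (nat_lit 5) (nat_lit 330) (nat_lit 5) (nat_lit 478) (nat_lit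 469) (nat_lit 253))))) (XT.nd (nat_lit 312) (nat_lit 1140) (nat_lit 0) (XT.nd (nat_lit 156) (nat_lit 0) (nat_lit 76) (XT.nd (nat_lit 78) (nat_lit 0) (nat_lit 0) (XT.lf (nat_lit 0) (nat_lit 27331171654) (nat_lit 1216) (nat_lit 6221945807) (nat_lit 1292) (nat_lit 2806583111) (nat_lit 314) (nat_lit 5) (nat_lit 330) (nat_lit 5) (nat_lit 331) (nat_lit 5) (nat_lit 479) (nat_lit 469) (nat_lit 252)) (XT.lf (nat_lit 76) (nat_lit 12936804499) (nat_lit 0) (nat_lit 16791940175) (nat_lit 1292) (nat_lit 7198547398) (nat_lit 315) (nat_lit 5) (nat_lit 314) (nat_lit 5) (nat_lit 331) (nat_lit 5) (nat_lit 480) (nat_lit 469) (nat_lit 251))) (XT.nd (nat_lit 78) (nat_lit 0) (nat_lit 0) (XT.lf (nat_lit 0) (nat_lit 32264264639) (nat_lit 1216) (nat_lit 4718864501) (nat_lit 1292) (nat_lit 526801765) (nat_lit 315) (nat_lit 5) (nat_lit 331) (nat_lit 5) (nat_lit 332) (nat_lit 5) (nat_lit 481) (nat_lit 469) (nat_lit 250)) (XT.lf (nat_lit 76)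 (nat_lit 15260952161) (nat_lit 0) (nat_lit 19925940229) (nat_lit 1292) (nat_lit 2913825420) (nat_lit 316) (nat_lit 5) (nat_lit 315) (nat_lit 5) (nat_lit 332) (nat_lit 5) (nat_lit 482) (nat_lit 469) (nat_lit 249)))) (XT.nd (nat_lit 156) (nat_lit 0) (nat_lit 0) (XT.nd (nat_lit 78) (nat_lit 1216) (nat_lit 0) (XT.lf (nat_lit 76) (nat_lit 35935415655) (nat_lit 0) (nat_lit 2307563815) (nat_lit 1292) (nat_lit 464875607) (nat_lit 316) (nat_lit 5) (nat_lit 315) (nat_lit 5) (nat_lit 332) (nat_lit 5) (nat_lit 483) (nat_lit 469) (nat_lit 248)) (XT.lf (nat_lit 0) (nat_lit 2345001828) (nat_lit 1292) (nat_lit 21250187391) (nat_lit 1368) (nat_lit 15727595776) (nat_lit 299) (nat_lit 5) (nat_lit 316) (nat_lit 5) (nat_lit 317) (nat_lit 5) (nat_lit 484) (nat_lit 469) (nat_lit 247))) (XT.nd (nat_lit 78) (nat_lit 0) (nat_lit 76) (XT.lf (nat_lit 0) (nat_lit 5279160807) (nat_lit 1292) (nat_lit 384748100) (nat_lit 1368) (nat_lit 34290636113)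 (nat_lit 299) (nat_lit 5) (nat_lit 316) (nat_lit 5) (nat_lit 317) (nat_lit 5) (nat_lit 485) (nat_lit 469) (nat_lit 246)) (XT.lf (nat_lit 0) (nat_lit 8631662190) (nat_lit 1292) (nat_lit 19199029556) (nat_lit 76) (nat_lit 12764656720) (nat_lit 300) (nat_lit 5) (nat_lit 317) (nat_lit 5) (nat_lit 301) (nat_lit 5) (nat_lit 486) (nat_lit 469) (nat_lit 245))))))) (XT.nd (nat_lit 1170) (nat_lit 4180) (nat_lit 0) (XT.nd (nat_lit 546) (nat_lit 2204) (nat_lit 0) (XT.nd (nat_lit 234) (nat_lit 1140) (nat_lit 0) (XT.nd (nat_lit 78) (nat_lit 608) (nat_lit 0) (XT.lf (nat_lit 0) (nat_lit 2576086250) (nat_lit 836) (nat_lit 9591716662) (nat_lit 912) (nat_lit 29085081323) (nat_lit 289) (nat_lit 5) (nat_lit 300) (nat_lit 5) (nat_lit 301) (nat_lit 5) (nat_lit 487) (nat_lit 469) (nat_lit 244)) (XT.nd (nat_lit 78) (nat_lit 608) (nat_lit 0) (XT.lf (nat_lit 0) (nat_lit 16092538583) (nat_lit 912) (nat_lit 16618163121) (nat_lit 76) (nat_lit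 9210969191) (nat_lit 289) (nat_lit 5) (nat_lit 301) (nat_lit 5) (nat_lit 290) (nat_lit 5) (nat_lit 488) (nat_lit 469) (nat_lit 243)) (XT.lf (nat_lit 0) (nat_lit 6125286749) (nat_lit 608) (nat_lit 14161961710) (nat_lit 684) (nat_lit 22318705869) (nat_lit 281) (nat_lit 5) (nat_lit 289) (nat_lit 5) (nat_lit 290) (nat_lit 5) (nat_lit 489) (nat_lit 469) (nat_lit 242)))) (XT.nd (nat_lit 156) (nat_lit 532) (nat_lit 0) (XT.nd (nat_lit 78) (nat_lit 608) (nat_lit 0) (XT.lf (nat_lit 0) (nat_lit 24823207731) (nat_lit 684) (nat_lit 13464751456) (nat_lit 76) (nat_lit 5016344967) (nat_lit 281) (nat_lit 5) (nat_lit 290) (nat_lit 5) (nat_lit 282) (nat_lit 5) (nat_lit 490) (nat_lit 469) (nat_lit 241)) (XT.lf (nat_lit 0) (nat_lit 10300941192) (nat_lit 608) (nat_lit 19432005341) (nat_lit 684) (nat_lit 14283527049) (nat_lit 273) (nat_lit 5) (nat_lit 281) (nat_lit 5) (nat_lit 282) (nat_lit 5) (nat_lit 491) (nat_lit 469) (nat_lit 240)))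 (XT.nd (nat_lit 78) (nat_lit 532) (nat_lit 0) (XT.lf (nat_lit 0) (nat_lit 34925686746) (nat_lit 684) (nat_lit 9693079644) (nat_lit 76) (nat_lit 127170553) (nat_lit 273) (nat_lit 5) (nat_lit 282) (nat_lit 5) (nat_lit 274) (nat_lit 5) (nat_lit 492) (nat_lit 469) (nat_lit 239)) (XT.lf (nat_lit 0) (nat_lit 15151839004) (nat_lit 532) (nat_lit 25458953982) (nat_lit 608) (nat_lit 4876393825) (nat_lit 266) (nat_lit 5) (nat_lit 273) (nat_lit 5) (nat_lit 274) (nat_lit 5) (nat_lit 493) (nat_lit 469) (nat_lit 238))))) (XT.nd (nat_lit 312) (nat_lit 988) (nat_lit 0) (XT.nd (nat_lit 156) (nat_lit 532) (nat_lit 0) (XT.nd (nat_lit 78) (nat_lit 608) (nat_lit 0) (XT.lf (nat_lit 0) (nat_lit 308971010) (nat_lit 608) (nat_lit 5311470170) (nat_lit 76) (nat_lit 40627248782) (nat_lit 265) (nat_lit 5) (nat_lit 273) (nat_lit 5) (nat_lit 266) (nat_lit 5) (nat_lit 494) (nat_lit 469) (nat_lit 237)) (XT.lf (nat_lit 0) (nat_lit 5895465614) (nat_lit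 684) (nat_lit 26348791241) (nat_lit 76) (nat_lit 14774995647) (nat_lit 257) (nat_lit 5) (nat_lit 266) (nat_lit 5) (nat_lit 258) (nat_lit 5) (nat_lit 495) (nat_lit 469) (nat_lit 236))) (XT.nd (nat_lit 78) (nat_lit 532) (nat_lit 0) (XT.lf (nat_lit 0) (nat_lit 11757991334) (nat_lit 684) (nat_lit 329277407) (nat_lit 76) (nat_lit 35723440196) (nat_lit 257) (nat_lit 5) (nat_lit 266) (nat_lit 5) (nat_lit 258) (nat_lit 5) (nat_lit 496) (nat_lit 469) (nat_lit 235)) (XT.lf (nat_lit 0) (nat_lit 18140510993) (nat_lit 608) (nat_lit 21707935117) (nat_lit 76) (nat_lit 8767139516) (nat_lit 250) (nat_lit 5) (nat_lit 258) (nat_lit 5) (nat_lit 251) (nat_lit 5) (nat_lit 497) (nat_lit 469) (nat_lit 234)))) (XT.nd (nat_lit 156) (nat_lit 456) (nat_lit 0) (XT.nd (nat_lit 78) (nat_lit 0) (nat_lit 0) (XT.lf (nat_lit 0) (nat_lit 5510286390) (nat_lit 532) (nat_lit 19378908314) (nat_lit 608) (nat_lit 24550173360) (nat_lit 243) (nat_lit 5)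 (nat_lit 250) (nat_lit 5) (nat_lit 251) (nat_lit 5) (nat_lit 498) (nat_lit 469) (nat_lit 233)) (XT.lf (nat_lit 0) (nat_lit 32076812873) (nat_lit 608) (nat_lit 16311279523) (nat_lit 76) (nat_lit 1892677459) (nat_lit 243) (nat_lit 5) (nat_lit 251) (nat_lit 5) (nat_lit 244) (nat_lit 5) (nat_lit 499) (nat_lit 469) (nat_lit 232))) (XT.nd (nat_lit 78) (nat_lit 0) (nat_lit 0) (XT.lf (nat_lit 0) (nat_lit 12179413086) (nat_lit 456) (nat_lit 27608339667) (nat_lit 532) (nat_lit 11350430250) (nat_lit 237) (nat_lit 5) (nat_lit 243) (nat_lit 5) (nat_lit 244) (nat_lit 5) (nat_lit 500) (nat_lit 469) (nat_lit 231)) (XT.lf (nat_lit 0) (nat_lit 41857768364) (nat_lit 456) (nat_lit 6035734043) (nat_lit 532) (nat_lit 4122911783) (nat_lit 237) (nat_lit 5) (nat_lit 243) (nat_lit 5) (nat_lit 244) (nat_lit 5) (nat_lit 501) (nat_lit 469) (nat_lit 230)))))) (XT.nd (nat_lit 624) (nat_lit 1824) (nat_lit 0) (XT.nd (nat_lit 312) (nat_lit 912)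 (nat_lit 0) (XT.nd (nat_lit 156) (nat_lit 912) (nat_lit 0) (XT.nd (nat_lit 78) (nat_lit 0) (nat_lit 0) (XT.lf (nat_lit 0) (nat_lit 3604091418) (nat_lit 532) (nat_lit 33212436695) (nat_lit 76) (nat_lit 16093082292) (nat_lit 230) (nat_lit 5) (nat_lit 237) (nat_lit 5) (nat_lit 231) (nat_lit 5) (nat_lit 502) (nat_lit 469) (nat_lit 229)) (XT.lf (nat_lit 0) (nat_lit 11642209405) (nat_lit 532) (nat_lit 3272637076) (nat_lit 76) (nat_lit 38908666349) (nat_lit 230) (nat_lit 5) (nat_lit 237) (nat_lit 5) (nat_lit 231) (nat_lit 5) (nat_lit 503) (nat_lit 469) (nat_lit 228))) (XT.nd (nat_lit 78) (nat_lit 456) (nat_lit 0) (XT.lf (nat_lit 0) (nat_lit 20266704902) (nat_lit 532) (nat_lit 26720361676) (nat_lit 76) (nat_lit 7767408813) (nat_lit 224) (nat_lit 5) (nat_lit 231) (nat_lit 5) (nat_lit 225) (nat_lit 5) (nat_lit 504) (nat_lit 469) (nat_lit 227)) (XT.lf (nat_lit 0) (nat_lit 4574643826) (nat_lit 456) (nat_lit 24799177842) (nat_lit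 532) (nat_lit 26332828650) (nat_lit 218) (nat_lit 5) (nat_lit 224) (nat_lit 5) (nat_lit 225) (nat_lit 5) (nat_lit 505) (nat_lit 469) (nat_lit 226)))) (XT.nd (nat_lit 156) (nat_lit 532) (nat_lit 0) (XT.nd (nat_lit 78) (nat_lit 380) (nat_lit 0) (XT.lf (nat_lit 0) (nat_lit 37354851989) (nat_lit 456) (nat_lit 1668008855) (nat_lit 532) (nat_lit 17656468461) (nat_lit 218) (nat_lit 5) (nat_lit 224) (nat_lit 5) (nat_lit 225) (nat_lit 5) (nat_lit 506) (nat_lit 469) (nat_lit 225)) (XT.lf (nat_lit 0) (nat_lit 13486073808) (nat_lit 380) (nat_lit 35816836874) (nat_lit 456) (nat_lit 8368031870) (nat_lit 213) (nat_lit 5) (nat_lit 218) (nat_lit 5) (nat_lit 219) (nat_lit 5) (nat_lit 507) (nat_lit 469) (nat_lit 224))) (XT.nd (nat_lit 78) (nat_lit 456) (nat_lit 0) (XT.lf (nat_lit 0) (nat_lit 1388169605) (nat_lit 456) (nat_lit 11040735034) (nat_lit 76) (nat_lit 46256678554) (nat_lit 212) (nat_lit 5) (nat_lit 218) (nat_lit 5) (nat_lit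 213) (nat_lit 5) (nat_lit 508) (nat_lit 469) (nat_lit 223)) (XT.lf (nat_lit 0) (nat_lit 11608586270) (nat_lit 532) (nat_lit 36365041711) (nat_lit 76) (nat_lit 11744358041) (nat_lit 206) (nat_lit 5) (nat_lit 213) (nat_lit 5) (nat_lit 207) (nat_lit 5) (nat_lit 509) (nat_lit 469) (nat_lit 222))))) (XT.nd (nat_lit 312) (nat_lit 1064) (nat_lit 0) (XT.nd (nat_lit 156) (nat_lit 380) (nat_lit 0) (XT.nd (nat_lit 78) (nat_lit 380) (nat_lit 0) (XT.lf (nat_lit 0) (nat_lit 22370236973) (nat_lit 532) (nat_lit 1898780909) (nat_lit 76) (nat_lit 36505304473) (nat_lit 206) (nat_lit 5) (nat_lit 213) (nat_lit 5) (nat_lit 207) (nat_lit 5) (nat_lit 510) (nat_lit 469) (nat_lit 221)) (XT.lf (nat_lit 0) (nat_lit 33787818759) (nat_lit 456) (nat_lit 27588309846) (nat_lit 76) (nat_lit 476227793) (nat_lit 201) (nat_lit 5) (nat_lit 207) (nat_lit 5) (nat_lit 202) (nat_lit 5) (nat_lit 511) (nat_lit 469) (nat_lit 220))) (XT.nd (nat_lit 78) (nat_lit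 0) (nat_lit 0) (XT.lf (nat_lit 0) (nat_lit 8512830055) (nat_lit 380) (nat_lit 37375592496) (nat_lit 456) (nat_lit 17064094139) (nat_lit 196) (nat_lit 5) (nat_lit 201) (nat_lit 5) (nat_lit 202) (nat_lit 5) (nat_lit 512) (nat_lit 469) (nat_lit 219)) (XT.lf (nat_lit 0) (nat_lit 46261216028) (nat_lit 380) (nat_lit 12368445224) (nat_lit 456) (nat_lit 5447692097) (nat_lit 196) (nat_lit 5) (nat_lit 201) (nat_lit 5) (nat_lit 202) (nat_lit 5) (nat_lit 513) (nat_lit 469) (nat_lit 218)))) (XT.nd (nat_lit 156) (nat_lit 684) (nat_lit 0) (XT.nd (nat_lit 78) (nat_lit 0) (nat_lit 0) (XT.lf (nat_lit 0) (nat_lit 6714852254) (nat_lit 380) (nat_lit 45122426531) (nat_lit 76) (nat_lit 13387032230) (nat_lit 191) (nat_lit 5) (nat_lit 196) (nat_lit 5) (nat_lit 192) (nat_lit 5) (nat_lit 514) (nat_lit 469) (nat_lit 217)) (XT.lf (nat_lit 0) (nat_lit 19435988696) (nat_lit 380) (nat_lit 7057112504) (nat_lit 76) (nat_lit 39901861873) (nat_lit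 191) (nat_lit 5) (nat_lit 196) (nat_lit 5) (nat_lit 192) (nat_lit 5) (nat_lit 515) (nat_lit 469) (nat_lit 216))) (XT.nd (nat_lit 78) (nat_lit 304) (nat_lit 0) (XT.lf (nat_lit 0) (nat_lit 32788711106) (nat_lit 380) (nat_lit 64320460) (nat_lit 456) (nat_lit 34738275010) (nat_lit 186) (nat_lit 5) (nat_lit 191) (nat_lit 5) (nat_lit 192) (nat_lit 5) (nat_lit 516) (nat_lit 469) (nat_lit 215)) (XT.lf (nat_lit 0) (nat_lit 4987448843) (nat_lit 304) (nat_lit 42065198795) (nat_lit 380) (nat_lit 21759490944) (nat_lit 182) (nat_lit 5) (nat_lit 186) (nat_lit 5) (nat_lit 187) (nat_lit 5) (nat_lit 517) (nat_lit 469) (nat_lit 214))))))))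
noncomputable def xc225 : XT := (XT.nd (nat_lit 59046) (nat_lit 0) (nat_lit 8056) (XT.nd (nat_lit 1170) (nat_lit 1672) (nat_lit 0) (XT.nd (nat_lit 546) (nat_lit 1368) (nat_lit 0) (XT.nd (nat_lit 234) (nat_lit 988) (nat_lit 0) (XT.nd (nat_lit 78) (nat_lit 380) (nat_lit 0) (XT.lf (nat_lit 0) (nat_lit 46682689997) (nat_lit 304) (nat_lit 15346742907) (nat_lit 380) (nat_lit 8029627274) (nat_lit 182) (nat_lit 5) (nat_lit 186) (nat_lit 5) (nat_lit 187) (nat_lit 5) (nat_lit 518) (nat_lit 469) (nat_lit 213)) (XT.nd (nat_lit 78) (nat_lit 0) (nat_lit 0) (XT.lf (nat_lit 0) (nat_lit 6290036342) (nat_lit 380) (nat_lit 52867544505) (nat_lit 76) (nat_lit 12175130804) (nat_lit 177) (nat_lit 5) (nat_lit 182) (nat_lit 5) (nat_lit 178) (nat_lit 5) (nat_lit 519) (nat_lit 469) (nat_lit 212)) (XT.lf (nat_lit 0) (nat_lit 21267382083) (nat_lit 380) (nat_lit 10831398229) (nat_lit 76) (nat_lit 40531722972) (nat_lit 177) (nat_lit 5) (nat_lit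 182) (nat_lit 5) (nat_lit 178) (nat_lit 5) (nat_lit 520) (nat_lit 469) (nat_lit 211)))) (XT.nd (nat_lit 156) (nat_lit 380) (nat_lit 0) (XT.nd (nat_lit 78) (nat_lit 304) (nat_lit 0) (XT.lf (nat_lit 0) (nat_lit 33110714453) (nat_lit 304) (nat_lit 3900778399) (nat_lit 380) (nat_lit 36946212522) (nat_lit 173) (nat_lit 5) (nat_lit 177) (nat_lit 5) (nat_lit 178) (nat_lit 5) (nat_lit 521) (nat_lit 469) (nat_lit 210)) (XT.lf (nat_lit 0) (nat_lit 3087927278) (nat_lit 304) (nat_lit 50521006099) (nat_lit 380) (nat_lit 21704360001) (nat_lit 169) (nat_lit 5) (nat_lit 173) (nat_lit 5) (nat_lit 174) (nat_lit 5) (nat_lit 522) (nat_lit 469) (nat_lit 209))) (XT.nd (nat_lit 78) (nat_lit 380) (nat_lit 0) (XT.lf (nat_lit 0) (nat_lit 49137601982) (nat_lit 304) (nat_lit 22016598000) (nat_lit 380) (nat_lit 5541851997) (nat_lit 169) (nat_lit 5) (nat_lit 173) (nat_lit 5) (nat_lit 174) (nat_lit 5) (nat_lit 523) (nat_lit 469) (nat_lit 208))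 (XT.lf (nat_lit 0) (nat_lit 11141250791) (nat_lit 380) (nat_lit 59479610401) (nat_lit 76) (nat_lit 7488656737) (nat_lit 164) (nat_lit 5) (nat_lit 169) (nat_lit 5) (nat_lit 165) (nat_lit 5) (nat_lit 524) (nat_lit 469) (nat_lit 207))))) (XT.nd (nat_lit 312) (nat_lit 760) (nat_lit 0) (XT.nd (nat_lit 156) (nat_lit 304) (nat_lit 0) (XT.nd (nat_lit 78) (nat_lit 304) (nat_lit 0) (XT.lf (nat_lit 0) (nat_lit 28711697841) (nat_lit 380) (nat_lit 13065025854) (nat_lit 76) (nat_lit 37772071003) (nat_lit 164) (nat_lit 5) (nat_lit 169) (nat_lit 5) (nat_lit 165) (nat_lit 5) (nat_lit 525) (nat_lit 469) (nat_lit 206)) (XT.lf (nat_lit 0) (nat_lit 35432229640) (nat_lit 304) (nat_lit 11716857138) (nat_lit 380) (nat_lit 33871968174) (nat_lit 160) (nat_lit 5) (nat_lit 164) (nat_lit 5) (nat_lit 165) (nat_lit 5) (nat_lit 526) (nat_lit 469) (nat_lit 205))) (XT.nd (nat_lit 78) (nat_lit 76) (nat_lit 0) (XT.lf (nat_lit 0) (nat_lit 2989551487)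 (nat_lit 228) (nat_lit 63496252971) (nat_lit 304) (nat_lit 16041292383) (nat_lit 157) (nat_lit 5) (nat_lit 160) (nat_lit 5) (nat_lit 161) (nat_lit 5) (nat_lit 527) (nat_lit 469) (nat_lit 204)) (XT.lf (nat_lit 0) (nat_lit 2859115236) (nat_lit 304) (nat_lit 30248800321) (nat_lit 76) (nat_lit 50952329172) (nat_lit 156) (nat_lit 5) (nat_lit 160) (nat_lit 5) (nat_lit 157) (nat_lit 5) (nat_lit 528) (nat_lit 469) (nat_lit 203)))) (XT.nd (nat_lit 156) (nat_lit 456) (nat_lit 0) (XT.nd (nat_lit 78) (nat_lit 0) (nat_lit 0) (XT.lf (nat_lit 0) (nat_lit 20763805849) (nat_lit 304) (nat_lit 1439174459) (nat_lit 380) (nat_lit 63425676260) (nat_lit 152) (nat_lit 5) (nat_lit 156) (nat_lit 5) (nat_lit 157) (nat_lit 5) (nat_lit 529) (nat_lit 469) (nat_lit 202)) (XT.lf (nat_lit 0) (nat_lit 42734628202) (nat_lit 380) (nat_lit 13611997791) (nat_lit 76) (nat_lit 30879270797) (nat_lit 152) (nat_lit 5) (nat_lit 157) (nat_lit 5) (nat_lit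 153) (nat_lit 5) (nat_lit 530) (nat_lit 469) (nat_lit 201))) (XT.nd (nat_lit 78) (nat_lit 228) (nat_lit 0) (XT.lf (nat_lit 0) (nat_lit 39942487412) (nat_lit 228) (nat_lit 24337231557) (nat_lit 304) (nat_lit 24579410478) (nat_lit 149) (nat_lit 5) (nat_lit 152) (nat_lit 5) (nat_lit 153) (nat_lit 5) (nat_lit 531) (nat_lit 469) (nat_lit 200)) (XT.lf (nat_lit 0) (nat_lit 4854663256) (nat_lit 228) (nat_lit 81884259397) (nat_lit 304) (nat_lit 3794403657) (nat_lit 146) (nat_lit 5) (nat_lit 149) (nat_lit 5) (nat_lit 150) (nat_lit 5) (nat_lit 532) (nat_lit 469) (nat_lit 199)))))) (XT.nd (nat_lit 624) (nat_lit 608) (nat_lit 0) (XT.nd (nat_lit 312) (nat_lit 532) (nat_lit 0) (XT.nd (nat_lit 156) (nat_lit 228) (nat_lit 0) (XT.nd (nat_lit 78) (nat_lit 228) (nat_lit 0) (XT.lf (nat_lit 0) (nat_lit 18009554585) (nat_lit 304) (nat_lit 31417385330) (nat_lit 76) (nat_lit 42803556149) (nat_lit 145) (nat_lit 5) (nat_lit 149) (nat_lit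 5) (nat_lit 146) (nat_lit 5) (nat_lit 533) (nat_lit 469) (nat_lit 198)) (XT.lf (nat_lit 0) (nat_lit 24919326631) (nat_lit 228) (nat_lit 15710902571) (nat_lit 304) (nat_lit 53340058844) (nat_lit 142) (nat_lit 5) (nat_lit 145) (nat_lit 5) (nat_lit 146) (nat_lit 5) (nat_lit 534) (nat_lit 469) (nat_lit 197))) (XT.nd (nat_lit 78) (nat_lit 228) (nat_lit 0) (XT.lf (nat_lit 0) (nat_lit 64432045316) (nat_lit 304) (nat_lit 12349637904) (nat_lit 76) (nat_lit 18965514959) (nat_lit 142) (nat_lit 5) (nat_lit 146) (nat_lit 5) (nat_lit 143) (nat_lit 5) (nat_lit 535) (nat_lit 469) (nat_lit 196)) (XT.lf (nat_lit 0) (nat_lit 46809519576) (nat_lit 228) (nat_lit 42743257968) (nat_lit 304) (nat_lit 8006492250) (nat_lit 139) (nat_lit 5) (nat_lit 142) (nat_lit 5) (nat_lit 143) (nat_lit 5) (nat_lit 536) (nat_lit 469) (nat_lit 195)))) (XT.nd (nat_lit 156) (nat_lit 228) (nat_lit 0) (XT.nd (nat_lit 78) (nat_lit 0) (nat_lit 0) (XT.lf (nat_lit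 0) (nat_lit 8586062651) (nat_lit 228) (nat_lit 7310945170) (nat_lit 304) (nat_lit 83517846542) (nat_lit 135) (nat_lit 5) (nat_lit 138) (nat_lit 5) (nat_lit 139) (nat_lit 5) (nat_lit 537) (nat_lit 469) (nat_lit 194)) (XT.lf (nat_lit 0) (nat_lit 41154128430) (nat_lit 304) (nat_lit 30934427827) (nat_lit 76) (nat_lit 29211248928) (nat_lit 135) (nat_lit 5) (nat_lit 139) (nat_lit 5) (nat_lit 136) (nat_lit 5) (nat_lit 538) (nat_lit 469) (nat_lit 193))) (XT.nd (nat_lit 78) (nat_lit 0) (nat_lit 0) (XT.lf (nat_lit 0) (nat_lit 31293989650) (nat_lit 228) (nat_lit 36247547846) (nat_lit 304) (nat_lit 35688589814) (nat_lit 132) (nat_lit 5) (nat_lit 135) (nat_lit 5) (nat_lit 136) (nat_lit 5) (nat_lit 539) (nat_lit 469) (nat_lit 192)) (XT.lf (nat_lit 0) (nat_lit 95041843128) (nat_lit 304) (nat_lit 9196177851) (nat_lit 76) (nat_lit 970699915) (nat_lit 132) (nat_lit 5) (nat_lit 136) (nat_lit 5) (nat_lit 133) (nat_lit 5) (nat_lit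 540) (nat_lit 469) (nat_lit 191))))) (XT.nd (nat_lit 56940) (nat_lit 0) (nat_lit 14060) (XT.nd (nat_lit 156) (nat_lit 152) (nat_lit 0) (XT.nd (nat_lit 78) (nat_lit 228) (nat_lit 0) (XT.lf (nat_lit 0) (nat_lit 16712954128) (nat_lit 228) (nat_lit 51221587284) (nat_lit 76) (nat_lit 39280270978) (nat_lit 129) (nat_lit 5) (nat_lit 132) (nat_lit 5) (nat_lit 130) (nat_lit 5) (nat_lit 541) (nat_lit 469) (nat_lit 190)) (XT.lf (nat_lit 0) (nat_lit 14223465772) (nat_lit 228) (nat_lit 30201275118) (nat_lit 304) (nat_lit 64846428777) (nat_lit 126) (nat_lit 5) (nat_lit 129) (nat_lit 5) (nat_lit 130) (nat_lit 5) (nat_lit 542) (nat_lit 469) (nat_lit 189))) (XT.nd (nat_lit 78) (nat_lit 152) (nat_lit 0) (XT.lf (nat_lit 0) (nat_lit 73572923981) (nat_lit 304) (nat_lit 28781272044) (nat_lit 76) (nat_lit 9016870375) (nat_lit 126) (nat_lit 5) (nat_lit 130) (nat_lit 5) (nat_lit 127) (nat_lit 5) (nat_lit 543) (nat_lit 469) (nat_lit 188))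 (XT.lf (nat_lit 0) (nat_lit 39952752807) (nat_lit 152) (nat_lit 64325290447) (nat_lit 228) (nat_lit 9235442081) (nat_lit 124) (nat_lit 5) (nat_lit 126) (nat_lit 5) (nat_lit 127) (nat_lit 5) (nat_lit 544) (nat_lit 469) (nat_lit 187)))) (XT.nd (nat_lit 156) (nat_lit 0) (nat_lit 76) (XT.nd (nat_lit 78) (nat_lit 0) (nat_lit 0) (XT.lf (nat_lit 0) (nat_lit 8004649316) (nat_lit 1292) (nat_lit 4046641083) (nat_lit 1292) (nat_lit 4046641083) (nat_lit 309) (nat_lit 3) (nat_lit 326) (nat_lit 3) (nat_lit 326) (nat_lit 5) (nat_lit 470) (nat_lit 470) (nat_lit 260)) (XT.lf (nat_lit 76) (nat_lit 8032083825) (nat_lit 0) (nat_lit 8357500389) (nat_lit 1292) (nat_lit 16285006491) (nat_lit 310) (nat_lit 5) (nat_lit 309) (nat_lit 3) (nat_lit 326) (nat_lit 5) (nat_lit 471) (nat_lit 470) (nat_lit 259))) (XT.nd (nat_lit 78) (nat_lit 0) (nat_lit 0) (XT.lf (nat_lit 0) (nat_lit 16936910972) (nat_lit 1216) (nat_lit 8435852865) (nat_lit 1292)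 (nat_lit 7790247690) (nat_lit 310) (nat_lit 5) (nat_lit 326) (nat_lit 5) (nat_lit 327) (nat_lit 5) (nat_lit 472) (nat_lit 470) (nat_lit 258)) (XT.lf (nat_lit 76) (nat_lit 8335574524) (nat_lit 0) (nat_lit 9325571427) (nat_lit 1292) (nat_lit 16000124590) (nat_lit 311) (nat_lit 5) (nat_lit 310) (nat_lit 5) (nat_lit 327) (nat_lit 5) (nat_lit 473) (nat_lit 470) (nat_lit 257))))))) (XT.nd (nat_lit 1170) (nat_lit 4484) (nat_lit 0) (XT.nd (nat_lit 546) (nat_lit 1672) (nat_lit 0) (XT.nd (nat_lit 234) (nat_lit 0) (nat_lit 76) (XT.nd (nat_lit 78) (nat_lit 0) (nat_lit 0) (XT.lf (nat_lit 0) (nat_lit 18560057667) (nat_lit 1216) (nat_lit 8460336185) (nat_lit 1292) (nat_lit 7149495197) (nat_lit 311) (nat_lit 5) (nat_lit 327) (nat_lit 5) (nat_lit 328) (nat_lit 5) (nat_lit 474) (nat_lit 470) (nat_lit 256)) (XT.nd (nat_lit 78) (nat_lit 0) (nat_lit 76) (XT.lf (nat_lit 76) (nat_lit 8992771809) (nat_lit 0) (nat_lit 10669689587) (nat_lit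 1292) (nat_lit 15026009184) (nat_lit 312) (nat_lit 5) (nat_lit 311) (nat_lit 5) (nat_lit 328) (nat_lit 5) (nat_lit 475) (nat_lit 470) (nat_lit 255)) (XT.lf (nat_lit 0) (nat_lit 20941349545) (nat_lit 1216) (nat_lit 8138737996) (nat_lit 1292) (nat_lit 6138219850) (nat_lit 312) (nat_lit 5) (nat_lit 328) (nat_lit 5) (nat_lit 329) (nat_lit 5) (nat_lit 476) (nat_lit 470) (nat_lit 254)))) (XT.nd (nat_lit 156) (nat_lit 0) (nat_lit 76) (XT.nd (nat_lit 78) (nat_lit 0) (nat_lit 76) (XT.lf (nat_lit 76) (nat_lit 10033703629) (nat_lit 0) (nat_lit 12424864163) (nat_lit 1292) (nat_lit 13299472805) (nat_lit 313) (nat_lit 5) (nat_lit 312) (nat_lit 5) (nat_lit 329) (nat_lit 5) (nat_lit 477) (nat_lit 470) (nat_lit 253)) (XT.lf (nat_lit 0) (nat_lit 24147697911) (nat_lit 1216) (nat_lit 7441064123) (nat_lit 1292) (nat_lit 4721412097) (nat_lit 313) (nat_lit 5) (nat_lit 329) (nat_lit 5) (nat_lit 330) (nat_lit 5) (nat_lit 478) (nat_lit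 470) (nat_lit 252))) (XT.nd (nat_lit 78) (nat_lit 0) (nat_lit 76) (XT.lf (nat_lit 76) (nat_lit 11490514622) (nat_lit 0) (nat_lit 14628448465) (nat_lit 1292) (nat_lit 10752964933) (nat_lit 314) (nat_lit 5) (nat_lit 313) (nat_lit 5) (nat_lit 330) (nat_lit 5) (nat_lit 479) (nat_lit 470) (nat_lit 251)) (XT.lf (nat_lit 0) (nat_lit 28250596396) (nat_lit 1216) (nat_lit 6335201587) (nat_lit 1292) (nat_lit 2861699816) (nat_lit 314) (nat_lit 5) (nat_lit 330) (nat_lit 5) (nat_lit 331) (nat_lit 5) (nat_lit 480) (nat_lit 470) (nat_lit 250))))) (XT.nd (nat_lit 312) (nat_lit 1900) (nat_lit 0) (XT.nd (nat_lit 156) (nat_lit 0) (nat_lit 76) (XT.nd (nat_lit 78) (nat_lit 0) (nat_lit 76) (XT.lf (nat_lit 76) (nat_lit 13397591595) (nat_lit 0) (nat_lit 17320305930) (nat_lit 1292) (nat_lit 7314285758) (nat_lit 315) (nat_lit 5) (nat_lit 314) (nat_lit 5) (nat_lit 331) (nat_lit 5) (nat_lit 481) (nat_lit 470) (nat_lit 249)) (XT.lf (nat_lit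 0) (nat_lit 33326419732) (nat_lit 1216) (nat_lit 4786792517) (nat_lit 1292) (nat_lit 519181189) (nat_lit 315) (nat_lit 5) (nat_lit 331) (nat_lit 5) (nat_lit 332) (nat_lit 5) (nat_lit 482) (nat_lit 470) (nat_lit 248))) (XT.nd (nat_lit 78) (nat_lit 0) (nat_lit 0) (XT.lf (nat_lit 76) (nat_lit 15791696704) (nat_lit 0) (nat_lit 20542986044) (nat_lit 1292) (nat_lit 2906282760) (nat_lit 316) (nat_lit 5) (nat_lit 315) (nat_lit 5) (nat_lit 332) (nat_lit 5) (nat_lit 483) (nat_lit 470) (nat_lit 247)) (XT.lf (nat_lit 76) (nat_lit 37084270337) (nat_lit 0) (nat_lit 2395497144) (nat_lit 1292) (nat_lit 386630202) (nat_lit 316) (nat_lit 5) (nat_lit 315) (nat_lit 5) (nat_lit 332) (nat_lit 5) (nat_lit 484) (nat_lit 470) (nat_lit 246)))) (XT.nd (nat_lit 156) (nat_lit 760) (nat_lit 0) (XT.nd (nat_lit 78) (nat_lit 0) (nat_lit 0) (XT.lf (nat_lit 0) (nat_lit 2503643573) (nat_lit 1292) (nat_lit 21812985343) (nat_lit 1368) (nat_lit 16183183255)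 (nat_lit 299) (nat_lit 5) (nat_lit 316) (nat_lit 5) (nat_lit 317) (nat_lit 5) (nat_lit 485) (nat_lit 470) (nat_lit 245)) (XT.lf (nat_lit 0) (nat_lit 5523255718) (nat_lit 1292) (nat_lit 323758826) (nat_lit 1368) (nat_lit 35303587823) (nat_lit 299) (nat_lit 5) (nat_lit 316) (nat_lit 5) (nat_lit 317) (nat_lit 5) (nat_lit 486) (nat_lit 470) (nat_lit 244))) (XT.nd (nat_lit 78) (nat_lit 836) (nat_lit 0) (XT.lf (nat_lit 0) (nat_lit 8974409578) (nat_lit 1292) (nat_lit 19700538975) (nat_lit 76) (nat_lit 13135739256) (nat_lit 300) (nat_lit 5) (nat_lit 317) (nat_lit 5) (nat_lit 301) (nat_lit 5) (nat_lit 487) (nat_lit 470) (nat_lit 243)) (XT.lf (nat_lit 0) (nat_lit 2727100291) (nat_lit 836) (nat_lit 9887802278) (nat_lit 912) (nat_lit 29873099249) (nat_lit 289) (nat_lit 5) (nat_lit 300) (nat_lit 5) (nat_lit 301) (nat_lit 5) (nat_lit 488) (nat_lit 470) (nat_lit 242)))))) (XT.nd (nat_lit 624) (nat_lit 2052) (nat_lit 0) (XT.nd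 (nat_lit 312) (nat_lit 1216) (nat_lit 0) (XT.nd (nat_lit 156) (nat_lit 608) (nat_lit 0) (XT.nd (nat_lit 78) (nat_lit 608) (nat_lit 0) (XT.lf (nat_lit 0) (nat_lit 16654912272) (nat_lit 912) (nat_lit 17042649268) (nat_lit 76) (nat_lit 9479364783) (nat_lit 289) (nat_lit 5) (nat_lit 301) (nat_lit 5) (nat_lit 290) (nat_lit 5) (nat_lit 489) (nat_lit 470) (nat_lit 241)) (XT.lf (nat_lit 0) (nat_lit 6382378032) (nat_lit 608) (nat_lit 14591471956) (nat_lit 684) (nat_lit 22907936872) (nat_lit 281) (nat_lit 5) (nat_lit 289) (nat_lit 5) (nat_lit 290) (nat_lit 5) (nat_lit 490) (nat_lit 470) (nat_lit 240))) (XT.nd (nat_lit 78) (nat_lit 608) (nat_lit 0) (XT.lf (nat_lit 0) (nat_lit 25643573248) (nat_lit 684) (nat_lit 13795176048) (nat_lit 76) (nat_lit 5162407520) (nat_lit 281) (nat_lit 5) (nat_lit 290) (nat_lit 5) (nat_lit 282) (nat_lit 5) (nat_lit 491) (nat_lit 470) (nat_lit 239)) (XT.lf (nat_lit 0) (nat_lit 10682766616) (nat_lit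 608) (nat_lit 20016333410) (nat_lit 684) (nat_lit 14635636614) (nat_lit 273) (nat_lit 5) (nat_lit 281) (nat_lit 5) (nat_lit 282) (nat_lit 5) (nat_lit 492) (nat_lit 470) (nat_lit 238)))) (XT.nd (nat_lit 156) (nat_lit 684) (nat_lit 0) (XT.nd (nat_lit 78) (nat_lit 532) (nat_lit 0) (XT.lf (nat_lit 0) (nat_lit 36045449529) (nat_lit 684) (nat_lit 9911016220) (nat_lit 76) (nat_lit 129683519) (nat_lit 273) (nat_lit 5) (nat_lit 282) (nat_lit 5) (nat_lit 274) (nat_lit 5) (nat_lit 493) (nat_lit 470) (nat_lit 237)) (XT.lf (nat_lit 0) (nat_lit 15678535715) (nat_lit 532) (nat_lit 26221169851) (nat_lit 608) (nat_lit 4949973343) (nat_lit 266) (nat_lit 5) (nat_lit 273) (nat_lit 5) (nat_lit 274) (nat_lit 5) (nat_lit 494) (nat_lit 470) (nat_lit 236))) (XT.nd (nat_lit 78) (nat_lit 608) (nat_lit 0) (XT.lf (nat_lit 0) (nat_lit 387457051) (nat_lit 608) (nat_lit 5399390885) (nat_lit 76) (nat_lit 41846190711) (nat_lit 265) (nat_lit 5)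 (nat_lit 273) (nat_lit 5) (nat_lit 266) (nat_lit 5) (nat_lit 495) (nat_lit 470) (nat_lit 235)) (XT.lf (nat_lit 0) (nat_lit 6140237624) (nat_lit 684) (nat_lit 27066517373) (nat_lit 76) (nat_lit 15221032493) (nat_lit 257) (nat_lit 5) (nat_lit 266) (nat_lit 5) (nat_lit 258) (nat_lit 5) (nat_lit 496) (nat_lit 470) (nat_lit 234))))) (XT.nd (nat_lit 312) (nat_lit 988) (nat_lit 0) (XT.nd (nat_lit 156) (nat_lit 532) (nat_lit 0) (XT.nd (nat_lit 78) (nat_lit 532) (nat_lit 0) (XT.lf (nat_lit 0) (nat_lit 12176661211) (nat_lit 684) (nat_lit 268536695) (nat_lit 76) (nat_lit 36797849204) (nat_lit 257) (nat_lit 5) (nat_lit 266) (nat_lit 5) (nat_lit 258) (nat_lit 5) (nat_lit 497) (nat_lit 470) (nat_lit 233)) (XT.lf (nat_lit 0) (nat_lit 18749458758) (nat_lit 608) (nat_lit 22287351394) (nat_lit 76) (nat_lit 9035296030) (nat_lit 250) (nat_lit 5) (nat_lit 258) (nat_lit 5) (nat_lit 251) (nat_lit 5) (nat_lit 498) (nat_lit 470) (nat_lit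 232))) (XT.nd (nat_lit 78) (nat_lit 0) (nat_lit 0) (XT.lf (nat_lit 0) (nat_lit 5746712623) (nat_lit 532) (nat_lit 19952688573) (nat_lit 608) (nat_lit 25221237097) (nat_lit 243) (nat_lit 5) (nat_lit 250) (nat_lit 5) (nat_lit 251) (nat_lit 5) (nat_lit 499) (nat_lit 470) (nat_lit 231)) (XT.lf (nat_lit 0) (nat_lit 33100868309) (nat_lit 608) (nat_lit 16729787304) (nat_lit 76) (nat_lit 1956680056) (nat_lit 243) (nat_lit 5) (nat_lit 251) (nat_lit 5) (nat_lit 244) (nat_lit 5) (nat_lit 500) (nat_lit 470) (nat_lit 230)))) (XT.nd (nat_lit 156) (nat_lit 532) (nat_lit 0) (XT.nd (nat_lit 78) (nat_lit 0) (nat_lit 0) (XT.lf (nat_lit 0) (nat_lit 12614931666) (nat_lit 456) (nat_lit 28427080338) (nat_lit 532) (nat_lit 11628493078) (nat_lit 237) (nat_lit 5) (nat_lit 243) (nat_lit 5) (nat_lit 244) (nat_lit 5) (nat_lit 501) (nat_lit 470) (nat_lit 229)) (XT.lf (nat_lit 0) (nat_lit 43181594801) (nat_lit 456) (nat_lit 6207573522) (nat_lit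 532) (nat_lit 4185967992) (nat_lit 237) (nat_lit 5) (nat_lit 243) (nat_lit 5) (nat_lit 244) (nat_lit 5) (nat_lit 502) (nat_lit 470) (nat_lit 228))) (XT.nd (nat_lit 78) (nat_lit 0) (nat_lit 0) (XT.lf (nat_lit 0) (nat_lit 3770688415) (nat_lit 532) (nat_lit 34138550951) (nat_lit 76) (nat_lit 16585900903) (nat_lit 230) (nat_lit 5) (nat_lit 237) (nat_lit 5) (nat_lit 231) (nat_lit 5) (nat_lit 503) (nat_lit 470) (nat_lit 227)) (XT.lf (nat_lit 0) (nat_lit 12048246808) (nat_lit 532) (nat_lit 3302603718) (nat_lit 76) (nat_lit 40085660458) (nat_lit 230) (nat_lit 5) (nat_lit 237) (nat_lit 5) (nat_lit 231) (nat_lit 5) (nat_lit 504) (nat_lit 470) (nat_lit 226))))))))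
noncomputable def xc226 : XT := (XT.nd (nat_lit 2418) (nat_lit 1216) (nat_lit 0) (XT.nd (nat_lit 1170) (nat_lit 3040) (nat_lit 0) (XT.nd (nat_lit 546) (nat_lit 1824) (nat_lit 0) (XT.nd (nat_lit 234) (nat_lit 912) (nat_lit 0) (XT.nd (nat_lit 78) (nat_lit 456) (nat_lit 0) (XT.lf (nat_lit 0) (nat_lit 20930586120) (nat_lit 532) (nat_lit 27452865028) (nat_lit 76) (nat_lit 8011978125) (nat_lit 224) (nat_lit 5) (nat_lit 231) (nat_lit 5) (nat_lit 225) (nat_lit 5) (nat_lit 505) (nat_lit 470) (nat_lit 225)) (XT.nd (nat_lit 78) (nat_lit 0) (nat_lit 0) (XT.lf (nat_lit 0) (nat_lit 4780313115) (nat_lit 456) (nat_lit 25529633489) (nat_lit 532) (nat_lit 27066252052) (nat_lit 218) (nat_lit 5) (nat_lit 224) (nat_lit 5) (nat_lit 225) (nat_lit 5) (nat_lit 506) (nat_lit 470) (nat_lit 224)) (XT.lf (nat_lit 0) (nat_lit 38541934416) (nat_lit 456) (nat_lit 1704923210) (nat_lit 532) (nat_lit 18131248478) (nat_lit 218) (nat_lit 5) (nat_lit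 224) (nat_lit 5) (nat_lit 225) (nat_lit 5) (nat_lit 507) (nat_lit 470) (nat_lit 223)))) (XT.nd (nat_lit 156) (nat_lit 456) (nat_lit 0) (XT.nd (nat_lit 78) (nat_lit 76) (nat_lit 0) (XT.lf (nat_lit 0) (nat_lit 13957903973) (nat_lit 380) (nat_lit 36876621168) (nat_lit 456) (nat_lit 8564966232) (nat_lit 213) (nat_lit 5) (nat_lit 218) (nat_lit 5) (nat_lit 219) (nat_lit 5) (nat_lit 508) (nat_lit 470) (nat_lit 222)) (XT.lf (nat_lit 0) (nat_lit 1481320304) (nat_lit 456) (nat_lit 11305639318) (nat_lit 76) (nat_lit 47657642467) (nat_lit 212) (nat_lit 5) (nat_lit 218) (nat_lit 5) (nat_lit 213) (nat_lit 5) (nat_lit 509) (nat_lit 470) (nat_lit 221))) (XT.nd (nat_lit 78) (nat_lit 0) (nat_lit 0) (XT.lf (nat_lit 0) (nat_lit 12007625029) (nat_lit 532) (nat_lit 37388947423) (nat_lit 76) (nat_lit 12111426383) (nat_lit 206) (nat_lit 5) (nat_lit 213) (nat_lit 5) (nat_lit 207) (nat_lit 5) (nat_lit 510) (nat_lit 470) (nat_lit 220)) (XT.lf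 (nat_lit 0) (nat_lit 23090646190) (nat_lit 532) (nat_lit 1890651580) (nat_lit 76) (nat_lit 37614771958) (nat_lit 206) (nat_lit 5) (nat_lit 213) (nat_lit 5) (nat_lit 207) (nat_lit 5) (nat_lit 511) (nat_lit 470) (nat_lit 219))))) (XT.nd (nat_lit 312) (nat_lit 684) (nat_lit 0) (XT.nd (nat_lit 156) (nat_lit 380) (nat_lit 0) (XT.nd (nat_lit 78) (nat_lit 380) (nat_lit 0) (XT.lf (nat_lit 0) (nat_lit 34850092526) (nat_lit 456) (nat_lit 28350200341) (nat_lit 76) (nat_lit 506171907) (nat_lit 201) (nat_lit 5) (nat_lit 207) (nat_lit 5) (nat_lit 202) (nat_lit 5) (nat_lit 512) (nat_lit 470) (nat_lit 218)) (XT.lf (nat_lit 0) (nat_lit 8833329064) (nat_lit 380) (nat_lit 38479594609) (nat_lit 456) (nat_lit 17526730016) (nat_lit 196) (nat_lit 5) (nat_lit 201) (nat_lit 5) (nat_lit 202) (nat_lit 5) (nat_lit 513) (nat_lit 470) (nat_lit 217))) (XT.nd (nat_lit 78) (nat_lit 380) (nat_lit 0) (XT.lf (nat_lit 0) (nat_lit 47712270089) (nat_lit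 380) (nat_lit 12722735801) (nat_lit 456) (nat_lit 5563271455) (nat_lit 196) (nat_lit 5) (nat_lit 201) (nat_lit 5) (nat_lit 202) (nat_lit 5) (nat_lit 514) (nat_lit 470) (nat_lit 216)) (XT.lf (nat_lit 0) (nat_lit 6962626492) (nat_lit 380) (nat_lit 46411353348) (nat_lit 76) (nat_lit 13805667856) (nat_lit 191) (nat_lit 5) (nat_lit 196) (nat_lit 5) (nat_lit 192) (nat_lit 5) (nat_lit 515) (nat_lit 470) (nat_lit 215)))) (XT.nd (nat_lit 156) (nat_lit 304) (nat_lit 0) (XT.nd (nat_lit 78) (nat_lit 380) (nat_lit 0) (XT.lf (nat_lit 0) (nat_lit 20064047648) (nat_lit 380) (nat_lit 7205965705) (nat_lit 76) (nat_lit 41115446523) (nat_lit 191) (nat_lit 5) (nat_lit 196) (nat_lit 5) (nat_lit 192) (nat_lit 5) (nat_lit 516) (nat_lit 470) (nat_lit 214)) (XT.lf (nat_lit 0) (nat_lit 33834616337) (nat_lit 380) (nat_lit 48273718) (nat_lit 456) (nat_lit 35734825063) (nat_lit 186) (nat_lit 5) (nat_lit 191) (nat_lit 5) (nat_lit 192) (nat_lit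 5) (nat_lit 517) (nat_lit 470) (nat_lit 213))) (XT.nd (nat_lit 78) (nat_lit 0) (nat_lit 0) (XT.lf (nat_lit 0) (nat_lit 5199852477) (nat_lit 304) (nat_lit 43308124035) (nat_lit 380) (nat_lit 22367211191) (nat_lit 182) (nat_lit 5) (nat_lit 186) (nat_lit 5) (nat_lit 187) (nat_lit 5) (nat_lit 518) (nat_lit 470) (nat_lit 212)) (XT.lf (nat_lit 0) (nat_lit 48144122317) (nat_lit 304) (nat_lit 15788668762) (nat_lit 380) (nat_lit 8226764169) (nat_lit 182) (nat_lit 5) (nat_lit 186) (nat_lit 5) (nat_lit 187) (nat_lit 5) (nat_lit 519) (nat_lit 470) (nat_lit 211)))))) (XT.nd (nat_lit 624) (nat_lit 1368) (nat_lit 0) (XT.nd (nat_lit 312) (nat_lit 684) (nat_lit 0) (XT.nd (nat_lit 156) (nat_lit 608) (nat_lit 0) (XT.nd (nat_lit 78) (nat_lit 0) (nat_lit 0) (XT.lf (nat_lit 0) (nat_lit 6521156747) (nat_lit 380) (nat_lit 54391281868) (nat_lit 76) (nat_lit 12558979468) (nat_lit 177) (nat_lit 5) (nat_lit 182) (nat_lit 5) (nat_lit 178)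 (nat_lit 5) (nat_lit 520) (nat_lit 470) (nat_lit 210)) (XT.lf (nat_lit 0) (nat_lit 21946587347) (nat_lit 380) (nat_lit 11095865447) (nat_lit 76) (nat_lit 41765727807) (nat_lit 177) (nat_lit 5) (nat_lit 182) (nat_lit 5) (nat_lit 178) (nat_lit 5) (nat_lit 521) (nat_lit 470) (nat_lit 209))) (XT.nd (nat_lit 78) (nat_lit 304) (nat_lit 0) (XT.lf (nat_lit 0) (nat_lit 34163917726) (nat_lit 304) (nat_lit 3998479804) (nat_lit 380) (nat_lit 38012820005) (nat_lit 173) (nat_lit 5) (nat_lit 177) (nat_lit 5) (nat_lit 178) (nat_lit 5) (nat_lit 522) (nat_lit 470) (nat_lit 208)) (XT.lf (nat_lit 0) (nat_lit 3240882994) (nat_lit 304) (nat_lit 52016457058) (nat_lit 380) (nat_lit 22314145827) (nat_lit 169) (nat_lit 5) (nat_lit 173) (nat_lit 5) (nat_lit 174) (nat_lit 5) (nat_lit 523) (nat_lit 470) (nat_lit 207)))) (XT.nd (nat_lit 156) (nat_lit 304) (nat_lit 0) (XT.nd (nat_lit 78) (nat_lit 380) (nat_lit 0) (XT.lf (nat_lit 0) (nat_lit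 50670291108) (nat_lit 304) (nat_lit 22657504460) (nat_lit 380) (nat_lit 5667966806) (nat_lit 169) (nat_lit 5) (nat_lit 173) (nat_lit 5) (nat_lit 174) (nat_lit 5) (nat_lit 524) (nat_lit 470) (nat_lit 206)) (XT.lf (nat_lit 0) (nat_lit 11514456464) (nat_lit 380) (nat_lit 61204261073) (nat_lit 76) (nat_lit 7732914929) (nat_lit 164) (nat_lit 5) (nat_lit 169) (nat_lit 5) (nat_lit 165) (nat_lit 5) (nat_lit 525) (nat_lit 470) (nat_lit 205))) (XT.nd (nat_lit 78) (nat_lit 304) (nat_lit 0) (XT.lf (nat_lit 0) (nat_lit 29610881931) (nat_lit 380) (nat_lit 13398978920) (nat_lit 76) (nat_lit 38924260794) (nat_lit 164) (nat_lit 5) (nat_lit 169) (nat_lit 5) (nat_lit 165) (nat_lit 5) (nat_lit 526) (nat_lit 470) (nat_lit 204)) (XT.lf (nat_lit 0) (nat_lit 36552625634) (nat_lit 304) (nat_lit 12048217010) (nat_lit 380) (nat_lit 34849723615) (nat_lit 160) (nat_lit 5) (nat_lit 164) (nat_lit 5) (nat_lit 165) (nat_lit 5) (nat_lit 527) (nat_lit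 470) (nat_lit 203))))) (XT.nd (nat_lit 312) (nat_lit 760) (nat_lit 0) (XT.nd (nat_lit 156) (nat_lit 304) (nat_lit 0) (XT.nd (nat_lit 78) (nat_lit 76) (nat_lit 0) (XT.lf (nat_lit 0) (nat_lit 3137021709) (nat_lit 228) (nat_lit 65380297690) (nat_lit 304) (nat_lit 16484480332) (nat_lit 157) (nat_lit 5) (nat_lit 160) (nat_lit 5) (nat_lit 161) (nat_lit 5) (nat_lit 528) (nat_lit 470) (nat_lit 202)) (XT.lf (nat_lit 0) (nat_lit 2981110357) (nat_lit 304) (nat_lit 31099441103) (nat_lit 76) (nat_lit 52500412273) (nat_lit 156) (nat_lit 5) (nat_lit 160) (nat_lit 5) (nat_lit 157) (nat_lit 5) (nat_lit 529) (nat_lit 470) (nat_lit 201))) (XT.nd (nat_lit 78) (nat_lit 0) (nat_lit 0) (XT.lf (nat_lit 0) (nat_lit 21442986162) (nat_lit 304) (nat_lit 1461791084) (nat_lit 380) (nat_lit 65291666154) (nat_lit 152) (nat_lit 5) (nat_lit 156) (nat_lit 5) (nat_lit 157) (nat_lit 5) (nat_lit 530) (nat_lit 470) (nat_lit 200)) (XT.lf (nat_lit 0)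 (nat_lit 44051526418) (nat_lit 380) (nat_lit 13964880656) (nat_lit 76) (nat_lit 31825219247) (nat_lit 152) (nat_lit 5) (nat_lit 157) (nat_lit 5) (nat_lit 153) (nat_lit 5) (nat_lit 531) (nat_lit 470) (nat_lit 199)))) (XT.nd (nat_lit 156) (nat_lit 304) (nat_lit 0) (XT.nd (nat_lit 78) (nat_lit 228) (nat_lit 0) (XT.lf (nat_lit 0) (nat_lit 41195695210) (nat_lit 228) (nat_lit 25046787427) (nat_lit 304) (nat_lit 25281387985) (nat_lit 149) (nat_lit 5) (nat_lit 152) (nat_lit 5) (nat_lit 153) (nat_lit 5) (nat_lit 532) (nat_lit 470) (nat_lit 198)) (XT.lf (nat_lit 0) (nat_lit 5055524644) (nat_lit 228) (nat_lit 84319659371) (nat_lit 304) (nat_lit 3873117774) (nat_lit 146) (nat_lit 5) (nat_lit 149) (nat_lit 5) (nat_lit 150) (nat_lit 5) (nat_lit 533) (nat_lit 470) (nat_lit 197))) (XT.nd (nat_lit 78) (nat_lit 228) (nat_lit 0) (XT.lf (nat_lit 0) (nat_lit 18583271042) (nat_lit 304) (nat_lit 32305627060) (nat_lit 76) (nat_lit 44107508536)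 (nat_lit 145) (nat_lit 5) (nat_lit 149) (nat_lit 5) (nat_lit 146) (nat_lit 5) (nat_lit 534) (nat_lit 470) (nat_lit 196)) (XT.lf (nat_lit 0) (nat_lit 25720654105) (nat_lit 228) (nat_lit 16161454764) (nat_lit 304) (nat_lit 54906297263) (nat_lit 142) (nat_lit 5) (nat_lit 145) (nat_lit 5) (nat_lit 146) (nat_lit 5) (nat_lit 535) (nat_lit 470) (nat_lit 195))))))) (XT.nd (nat_lit 58032) (nat_lit 0) (nat_lit 11172) (XT.nd (nat_lit 57408) (nat_lit 0) (nat_lit 13908) (XT.nd (nat_lit 234) (nat_lit 684) (nat_lit 0) (XT.nd (nat_lit 78) (nat_lit 532) (nat_lit 0) (XT.lf (nat_lit 0) (nat_lit 66397212978) (nat_lit 304) (nat_lit 12667177012) (nat_lit 76) (nat_lit 19554256613) (nat_lit 142) (nat_lit 5) (nat_lit 146) (nat_lit 5) (nat_lit 143) (nat_lit 5) (nat_lit 536) (nat_lit 470) (nat_lit 194)) (XT.nd (nat_lit 78) (nat_lit 304) (nat_lit 0) (XT.lf (nat_lit 0) (nat_lit 48266236075) (nat_lit 228) (nat_lit 44004897048) (nat_lit 304)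 (nat_lit 8213960303) (nat_lit 139) (nat_lit 5) (nat_lit 142) (nat_lit 5) (nat_lit 143) (nat_lit 5) (nat_lit 537) (nat_lit 470) (nat_lit 193)) (XT.lf (nat_lit 0) (nat_lit 8896195013) (nat_lit 228) (nat_lit 7509381684) (nat_lit 304) (nat_lit 85990772318) (nat_lit 135) (nat_lit 5) (nat_lit 138) (nat_lit 5) (nat_lit 139) (nat_lit 5) (nat_lit 538) (nat_lit 470) (nat_lit 192)))) (XT.nd (nat_lit 234) (nat_lit 456) (nat_lit 0) (XT.nd (nat_lit 78) (nat_lit 228) (nat_lit 0) (XT.lf (nat_lit 0) (nat_lit 42419683803) (nat_lit 304) (nat_lit 31810712472) (nat_lit 76) (nat_lit 30107473936) (nat_lit 135) (nat_lit 5) (nat_lit 139) (nat_lit 5) (nat_lit 136) (nat_lit 5) (nat_lit 539) (nat_lit 470) (nat_lit 191)) (XT.lf (nat_lit 0) (nat_lit 32284050195) (nat_lit 228) (nat_lit 37314256588) (nat_lit 304) (nat_lit 36727807503) (nat_lit 132) (nat_lit 5) (nat_lit 135) (nat_lit 5) (nat_lit 136) (nat_lit 5) (nat_lit 540) (nat_lit 470) (nat_lit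 190))) (XT.nd (nat_lit 78) (nat_lit 228) (nat_lit 0) (XT.lf (nat_lit 0) (nat_lit 17244074170) (nat_lit 228) (nat_lit 52707691506) (nat_lit 76) (nat_lit 40478598092) (nat_lit 129) (nat_lit 5) (nat_lit 132) (nat_lit 5) (nat_lit 130) (nat_lit 5) (nat_lit 542) (nat_lit 470) (nat_lit 188)) (XT.lf (nat_lit 0) (nat_lit 14700217619) (nat_lit 228) (nat_lit 31086612043) (nat_lit 304) (nat_lit 66761593677) (nat_lit 126) (nat_lit 5) (nat_lit 129) (nat_lit 5) (nat_lit 130) (nat_lit 5) (nat_lit 543) (nat_lit 470) (nat_lit 187))))) (XT.nd (nat_lit 312) (nat_lit 0) (nat_lit 152) (XT.nd (nat_lit 156) (nat_lit 0) (nat_lit 76) (XT.nd (nat_lit 78) (nat_lit 0) (nat_lit 0) (XT.lf (nat_lit 0) (nat_lit 8307120607) (nat_lit 1292) (nat_lit 4135936550) (nat_lit 1292) (nat_lit 4135936550) (nat_lit 309) (nat_lit 3) (nat_lit 326) (nat_lit 3) (nat_lit 326) (nat_lit 5) (nat_lit 471) (nat_lit 471) (nat_lit 258)) (XT.lf (nat_lit 76) (nat_lit 8336624386)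 (nat_lit 0) (nat_lit 8666291150) (nat_lit 1292) (nat_lit 16648252383) (nat_lit 310) (nat_lit 5) (nat_lit 309) (nat_lit 3) (nat_lit 326) (nat_lit 5) (nat_lit 472) (nat_lit 471) (nat_lit 257))) (XT.nd (nat_lit 78) (nat_lit 0) (nat_lit 0) (XT.lf (nat_lit 0) (nat_lit 17562577167) (nat_lit 1216) (nat_lit 8623106396) (nat_lit 1292) (nat_lit 7968680676) (nat_lit 310) (nat_lit 5) (nat_lit 326) (nat_lit 5) (nat_lit 327) (nat_lit 5) (nat_lit 473) (nat_lit 471) (nat_lit 256)) (XT.lf (nat_lit 76) (nat_lit 8650818502) (nat_lit 0) (nat_lit 9654923168) (nat_lit 1292) (nat_lit 16361913596) (nat_lit 311) (nat_lit 5) (nat_lit 310) (nat_lit 5) (nat_lit 327) (nat_lit 5) (nat_lit 474) (nat_lit 471) (nat_lit 255)))) (XT.nd (nat_lit 156) (nat_lit 0) (nat_lit 76) (XT.nd (nat_lit 78) (nat_lit 0) (nat_lit 0) (XT.lf (nat_lit 0) (nat_lit 19227815419) (nat_lit 1216) (nat_lit 8647052318) (nat_lit 1292) (nat_lit 7316779059) (nat_lit 311) (nat_lit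 5) (nat_lit 327) (nat_lit 5) (nat_lit 328) (nat_lit 5) (nat_lit 475) (nat_lit 471) (nat_lit 254)) (XT.lf (nat_lit 76) (nat_lit 9328991132) (nat_lit 0) (nat_lit 11031707024) (nat_lit 1292) (nat_lit 15365165707) (nat_lit 312) (nat_lit 5) (nat_lit 311) (nat_lit 5) (nat_lit 328) (nat_lit 5) (nat_lit 476) (nat_lit 471) (nat_lit 253))) (XT.nd (nat_lit 78) (nat_lit 0) (nat_lit 0) (XT.lf (nat_lit 0) (nat_lit 21674405461) (nat_lit 1216) (nat_lit 8314841856) (nat_lit 1292) (nat_lit 6282455176) (nat_lit 312) (nat_lit 5) (nat_lit 328) (nat_lit 5) (nat_lit 329) (nat_lit 5) (nat_lit 477) (nat_lit 471) (nat_lit 252)) (XT.lf (nat_lit 76) (nat_lit 10402105779) (nat_lit 0) (nat_lit 12832629403) (nat_lit 1292) (nat_lit 13592964947) (nat_lit 313) (nat_lit 5) (nat_lit 312) (nat_lit 5) (nat_lit 329) (nat_lit 5) (nat_lit 478) (nat_lit 471) (nat_lit 251)))))) (XT.nd (nat_lit 624) (nat_lit 1976) (nat_lit 0) (XT.nd (nat_lit 312) (nat_lit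 1064) (nat_lit 0) (XT.nd (nat_lit 156) (nat_lit 0) (nat_lit 76) (XT.nd (nat_lit 78) (nat_lit 0) (nat_lit 0) (XT.lf (nat_lit 0) (nat_lit 24971229556) (nat_lit 1216) (nat_lit 7595549100) (nat_lit 1292) (nat_lit 4829718574) (nat_lit 313) (nat_lit 5) (nat_lit 329) (nat_lit 5) (nat_lit 330) (nat_lit 5) (nat_lit 479) (nat_lit 471) (nat_lit 250)) (XT.lf (nat_lit 76) (nat_lit 11903303017) (nat_lit 0) (nat_lit 15096097601) (nat_lit 1292) (nat_lit 10975770345) (nat_lit 314) (nat_lit 5) (nat_lit 313) (nat_lit 5) (nat_lit 330) (nat_lit 5) (nat_lit 480) (nat_lit 471) (nat_lit 249))) (XT.nd (nat_lit 78) (nat_lit 0) (nat_lit 0) (XT.lf (nat_lit 0) (nat_lit 29191892771) (nat_lit 1216) (nat_lit 6456068650) (nat_lit 1292) (nat_lit 2920139379) (nat_lit 314) (nat_lit 5) (nat_lit 330) (nat_lit 5) (nat_lit 331) (nat_lit 5) (nat_lit 481) (nat_lit 471) (nat_lit 248)) (XT.lf (nat_lit 76) (nat_lit 13868030004) (nat_lit 0) (nat_lit 17863110083)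 (nat_lit 1292) (nat_lit 7439249194) (nat_lit 315) (nat_lit 5) (nat_lit 314) (nat_lit 5) (nat_lit 331) (nat_lit 5) (nat_lit 482) (nat_lit 471) (nat_lit 247)))) (XT.nd (nat_lit 156) (nat_lit 1216) (nat_lit 0) (XT.nd (nat_lit 78) (nat_lit 0) (nat_lit 0) (XT.lf (nat_lit 0) (nat_lit 34415030452) (nat_lit 1216) (nat_lit 4860985492) (nat_lit 1292) (nat_lit 512676665) (nat_lit 315) (nat_lit 5) (nat_lit 331) (nat_lit 5) (nat_lit 332) (nat_lit 5) (nat_lit 483) (nat_lit 471) (nat_lit 246)) (XT.lf (nat_lit 76) (nat_lit 16334177908) (nat_lit 0) (nat_lit 21177437193) (nat_lit 1292) (nat_lit 2903964764) (nat_lit 316) (nat_lit 5) (nat_lit 315) (nat_lit 5) (nat_lit 332) (nat_lit 5) (nat_lit 484) (nat_lit 471) (nat_lit 245))) (XT.nd (nat_lit 78) (nat_lit 1216) (nat_lit 0) (XT.lf (nat_lit 76) (nat_lit 38263526896) (nat_lit 0) (nat_lit 2484994649) (nat_lit 1292) (nat_lit 311329614) (nat_lit 316) (nat_lit 5) (nat_lit 315) (nat_lit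 5) (nat_lit 332) (nat_lit 5) (nat_lit 485) (nat_lit 471) (nat_lit 244)) (XT.lf (nat_lit 0) (nat_lit 2661976266) (nat_lit 1292) (nat_lit 22396955760) (nat_lit 1368) (nat_lit 16653370624) (nat_lit 299) (nat_lit 5) (nat_lit 316) (nat_lit 5) (nat_lit 317) (nat_lit 5) (nat_lit 486) (nat_lit 471) (nat_lit 243))))) (XT.nd (nat_lit 312) (nat_lit 1216) (nat_lit 0) (XT.nd (nat_lit 156) (nat_lit 760) (nat_lit 0) (XT.nd (nat_lit 78) (nat_lit 0) (nat_lit 76) (XT.lf (nat_lit 0) (nat_lit 5769752793) (nat_lit 1292) (nat_lit 265103490) (nat_lit 1368) (nat_lit 36347833196) (nat_lit 299) (nat_lit 5) (nat_lit 316) (nat_lit 5) (nat_lit 317) (nat_lit 5) (nat_lit 487) (nat_lit 471) (nat_lit 242)) (XT.lf (nat_lit 0) (nat_lit 9322629068) (nat_lit 1292) (nat_lit 20221368070) (nat_lit 76) (nat_lit 13518634917) (nat_lit 300) (nat_lit 5) (nat_lit 317) (nat_lit 5) (nat_lit 301) (nat_lit 5) (nat_lit 488) (nat_lit 471) (nat_lit 241))) (XT.nd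 (nat_lit 78) (nat_lit 0) (nat_lit 0) (XT.lf (nat_lit 0) (nat_lit 2878412266) (nat_lit 836) (nat_lit 10192292051) (nat_lit 912) (nat_lit 30689610340) (nat_lit 289) (nat_lit 5) (nat_lit 300) (nat_lit 5) (nat_lit 301) (nat_lit 5) (nat_lit 489) (nat_lit 471) (nat_lit 240)) (XT.lf (nat_lit 0) (nat_lit 17229587947) (nat_lit 912) (nat_lit 17484121274) (nat_lit 76) (nat_lit 9756267657) (nat_lit 289) (nat_lit 5) (nat_lit 301) (nat_lit 5) (nat_lit 290) (nat_lit 5) (nat_lit 490) (nat_lit 471) (nat_lit 239)))) (XT.nd (nat_lit 156) (nat_lit 608) (nat_lit 0) (XT.nd (nat_lit 78) (nat_lit 0) (nat_lit 0) (XT.lf (nat_lit 0) (nat_lit 6642972457) (nat_lit 608) (nat_lit 15033600500) (nat_lit 684) (nat_lit 23519456085) (nat_lit 281) (nat_lit 5) (nat_lit 289) (nat_lit 5) (nat_lit 290) (nat_lit 5) (nat_lit 491) (nat_lit 471) (nat_lit 238)) (XT.lf (nat_lit 0) (nat_lit 26484206004) (nat_lit 684) (nat_lit 14139733609) (nat_lit 76) (nat_lit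 5313106124) (nat_lit 281) (nat_lit 5) (nat_lit 290) (nat_lit 5) (nat_lit 282) (nat_lit 5) (nat_lit 492) (nat_lit 471) (nat_lit 237))) (XT.nd (nat_lit 78) (nat_lit 0) (nat_lit 0) (XT.lf (nat_lit 0) (nat_lit 11071867945) (nat_lit 608) (nat_lit 20618112797) (nat_lit 684) (nat_lit 15002694922) (nat_lit 273) (nat_lit 5) (nat_lit 281) (nat_lit 5) (nat_lit 282) (nat_lit 5) (nat_lit 493) (nat_lit 471) (nat_lit 236)) (XT.lf (nat_lit 0) (nat_lit 37194672551) (nat_lit 684) (nat_lit 10139673114) (nat_lit 76) (nat_lit 132346622) (nat_lit 273) (nat_lit 5) (nat_lit 282) (nat_lit 5) (nat_lit 274) (nat_lit 5) (nat_lit 494) (nat_lit 471) (nat_lit 235))))))))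
noncomputable def xc227 : XT := (XT.nd (nat_lit 2418) (nat_lit 3040) (nat_lit 0) (XT.nd (nat_lit 1170) (nat_lit 3344) (nat_lit 0) (XT.nd (nat_lit 546) (nat_lit 2280) (nat_lit 0) (XT.nd (nat_lit 234) (nat_lit 1064) (nat_lit 0) (XT.nd (nat_lit 78) (nat_lit 684) (nat_lit 0) (XT.lf (nat_lit 0) (nat_lit 16216892107) (nat_lit 532) (nat_lit 27006341331) (nat_lit 608) (nat_lit 5029934230) (nat_lit 266) (nat_lit 5) (nat_lit 273) (nat_lit 5) (nat_lit 274) (nat_lit 5) (nat_lit 495) (nat_lit 471) (nat_lit 234)) (XT.nd (nat_lit 78) (nat_lit 608) (nat_lit 0) (XT.lf (nat_lit 0) (nat_lit 464324339) (nat_lit 608) (nat_lit 5494049216) (nat_lit 76) (nat_lit 43101693753) (nat_lit 265) (nat_lit 5) (nat_lit 273) (nat_lit 5) (nat_lit 266) (nat_lit 5) (nat_lit 496) (nat_lit 471) (nat_lit 233)) (XT.lf (nat_lit 0) (nat_lit 6388454594) (nat_lit 684) (nat_lit 27809950725) (nat_lit 76) (nat_lit 15680290460) (nat_lit 257) (nat_lit 5) (nat_lit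 266) (nat_lit 5) (nat_lit 258) (nat_lit 5) (nat_lit 497) (nat_lit 471) (nat_lit 232)))) (XT.nd (nat_lit 156) (nat_lit 532) (nat_lit 0) (XT.nd (nat_lit 78) (nat_lit 532) (nat_lit 0) (XT.lf (nat_lit 0) (nat_lit 12604106526) (nat_lit 684) (nat_lit 210027582) (nat_lit 76) (nat_lit 37904335159) (nat_lit 257) (nat_lit 5) (nat_lit 266) (nat_lit 5) (nat_lit 258) (nat_lit 5) (nat_lit 498) (nat_lit 471) (nat_lit 231)) (XT.lf (nat_lit 0) (nat_lit 19372959049) (nat_lit 608) (nat_lit 22888273024) (nat_lit 76) (nat_lit 9311202049) (nat_lit 250) (nat_lit 5) (nat_lit 258) (nat_lit 5) (nat_lit 251) (nat_lit 5) (nat_lit 499) (nat_lit 471) (nat_lit 230))) (XT.nd (nat_lit 78) (nat_lit 0) (nat_lit 0) (XT.lf (nat_lit 0) (nat_lit 5986149200) (nat_lit 532) (nat_lit 20544117764) (nat_lit 608) (nat_lit 25916189355) (nat_lit 243) (nat_lit 5) (nat_lit 250) (nat_lit 5) (nat_lit 251) (nat_lit 5) (nat_lit 500) (nat_lit 471) (nat_lit 229)) (XT.lf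 (nat_lit 0) (nat_lit 34152100646) (nat_lit 608) (nat_lit 17164916285) (nat_lit 76) (nat_lit 2022188143) (nat_lit 243) (nat_lit 5) (nat_lit 251) (nat_lit 5) (nat_lit 244) (nat_lit 5) (nat_lit 501) (nat_lit 471) (nat_lit 228))))) (XT.nd (nat_lit 312) (nat_lit 1292) (nat_lit 0) (XT.nd (nat_lit 156) (nat_lit 532) (nat_lit 0) (XT.nd (nat_lit 78) (nat_lit 0) (nat_lit 0) (XT.lf (nat_lit 0) (nat_lit 13059489699) (nat_lit 456) (nat_lit 29270929114) (nat_lit 532) (nat_lit 11918482680) (nat_lit 237) (nat_lit 5) (nat_lit 243) (nat_lit 5) (nat_lit 244) (nat_lit 5) (nat_lit 502) (nat_lit 471) (nat_lit 227)) (XT.lf (nat_lit 0) (nat_lit 44541227191) (nat_lit 456) (nat_lit 6385098170) (nat_lit 532) (nat_lit 4254396362) (nat_lit 237) (nat_lit 5) (nat_lit 243) (nat_lit 5) (nat_lit 244) (nat_lit 5) (nat_lit 503) (nat_lit 471) (nat_lit 226))) (XT.nd (nat_lit 78) (nat_lit 0) (nat_lit 0) (XT.lf (nat_lit 0) (nat_lit 3938926661) (nat_lit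 532) (nat_lit 35096481780) (nat_lit 76) (nat_lit 17092928530) (nat_lit 230) (nat_lit 5) (nat_lit 237) (nat_lit 5) (nat_lit 231) (nat_lit 5) (nat_lit 504) (nat_lit 471) (nat_lit 225)) (XT.lf (nat_lit 0) (nat_lit 12463206438) (nat_lit 532) (nat_lit 3337385034) (nat_lit 76) (nat_lit 41297405611) (nat_lit 230) (nat_lit 5) (nat_lit 237) (nat_lit 5) (nat_lit 231) (nat_lit 5) (nat_lit 505) (nat_lit 471) (nat_lit 224)))) (XT.nd (nat_lit 156) (nat_lit 380) (nat_lit 0) (XT.nd (nat_lit 78) (nat_lit 456) (nat_lit 0) (XT.lf (nat_lit 0) (nat_lit 21611176029) (nat_lit 532) (nat_lit 28211310533) (nat_lit 76) (nat_lit 8263221669) (nat_lit 224) (nat_lit 5) (nat_lit 231) (nat_lit 5) (nat_lit 225) (nat_lit 5) (nat_lit 506) (nat_lit 471) (nat_lit 223)) (XT.lf (nat_lit 0) (nat_lit 4988224322) (nat_lit 456) (nat_lit 26282778892) (nat_lit 532) (nat_lit 27824925015) (nat_lit 218) (nat_lit 5) (nat_lit 224) (nat_lit 5) (nat_lit 225) (nat_lit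 5) (nat_lit 507) (nat_lit 471) (nat_lit 222))) (XT.nd (nat_lit 78) (nat_lit 380) (nat_lit 0) (XT.lf (nat_lit 0) (nat_lit 39760815569) (nat_lit 456) (nat_lit 1743698477) (nat_lit 532) (nat_lit 18623424186) (nat_lit 218) (nat_lit 5) (nat_lit 224) (nat_lit 5) (nat_lit 225) (nat_lit 5) (nat_lit 508) (nat_lit 471) (nat_lit 221)) (XT.lf (nat_lit 0) (nat_lit 14440028736) (nat_lit 380) (nat_lit 37969044026) (nat_lit 456) (nat_lit 8770914564) (nat_lit 213) (nat_lit 5) (nat_lit 218) (nat_lit 5) (nat_lit 219) (nat_lit 5) (nat_lit 509) (nat_lit 471) (nat_lit 220)))))) (XT.nd (nat_lit 624) (nat_lit 1672) (nat_lit 0) (XT.nd (nat_lit 312) (nat_lit 760) (nat_lit 0) (XT.nd (nat_lit 156) (nat_lit 380) (nat_lit 0) (XT.nd (nat_lit 78) (nat_lit 456) (nat_lit 0) (XT.lf (nat_lit 0) (nat_lit 1574308892) (nat_lit 456) (nat_lit 11582297641) (nat_lit 76) (nat_lit 49099873914) (nat_lit 212) (nat_lit 5) (nat_lit 218) (nat_lit 5) (nat_lit 213)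 (nat_lit 5) (nat_lit 510) (nat_lit 471) (nat_lit 219)) (XT.lf (nat_lit 0) (nat_lit 12415719904) (nat_lit 532) (nat_lit 38447418995) (nat_lit 76) (nat_lit 12488660777) (nat_lit 206) (nat_lit 5) (nat_lit 213) (nat_lit 5) (nat_lit 207) (nat_lit 5) (nat_lit 511) (nat_lit 471) (nat_lit 218))) (XT.nd (nat_lit 78) (nat_lit 380) (nat_lit 0) (XT.lf (nat_lit 0) (nat_lit 23829837541) (nat_lit 532) (nat_lit 1886014961) (nat_lit 76) (nat_lit 38756702110) (nat_lit 206) (nat_lit 5) (nat_lit 213) (nat_lit 5) (nat_lit 207) (nat_lit 5) (nat_lit 512) (nat_lit 471) (nat_lit 217)) (XT.lf (nat_lit 0) (nat_lit 35941442417) (nat_lit 456) (nat_lit 29138722374) (nat_lit 76) (nat_lit 536115553) (nat_lit 201) (nat_lit 5) (nat_lit 207) (nat_lit 5) (nat_lit 202) (nat_lit 5) (nat_lit 513) (nat_lit 471) (nat_lit 216)))) (XT.nd (nat_lit 156) (nat_lit 380) (nat_lit 0) (XT.nd (nat_lit 78) (nat_lit 0) (nat_lit 0) (XT.lf (nat_lit 0) (nat_lit 9159705227)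 (nat_lit 380) (nat_lit 39617707904) (nat_lit 456) (nat_lit 18006074242) (nat_lit 196) (nat_lit 5) (nat_lit 201) (nat_lit 5) (nat_lit 202) (nat_lit 5) (nat_lit 514) (nat_lit 471) (nat_lit 215)) (XT.lf (nat_lit 0) (nat_lit 49203226824) (nat_lit 380) (nat_lit 13088617349) (nat_lit 456) (nat_lit 5685065059) (nat_lit 196) (nat_lit 5) (nat_lit 201) (nat_lit 5) (nat_lit 202) (nat_lit 5) (nat_lit 515) (nat_lit 471) (nat_lit 214))) (XT.nd (nat_lit 78) (nat_lit 0) (nat_lit 0) (XT.lf (nat_lit 0) (nat_lit 7215174502) (nat_lit 380) (nat_lit 47742664653) (nat_lit 76) (nat_lit 14235885264) (nat_lit 191) (nat_lit 5) (nat_lit 196) (nat_lit 5) (nat_lit 192) (nat_lit 5) (nat_lit 516) (nat_lit 471) (nat_lit 213)) (XT.lf (nat_lit 0) (nat_lit 20708366374) (nat_lit 380) (nat_lit 7362892934) (nat_lit 76) (nat_lit 42364489893) (nat_lit 191) (nat_lit 5) (nat_lit 196) (nat_lit 5) (nat_lit 192) (nat_lit 5) (nat_lit 517) (nat_lit 471) (nat_lit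 212))))) (XT.nd (nat_lit 312) (nat_lit 608) (nat_lit 0) (XT.nd (nat_lit 156) (nat_lit 380) (nat_lit 0) (XT.nd (nat_lit 78) (nat_lit 304) (nat_lit 0) (XT.lf (nat_lit 0) (nat_lit 34908325670) (nat_lit 380) (nat_lit 32777490) (nat_lit 456) (nat_lit 36763889140) (nat_lit 186) (nat_lit 5) (nat_lit 191) (nat_lit 5) (nat_lit 192) (nat_lit 5) (nat_lit 518) (nat_lit 471) (nat_lit 211)) (XT.lf (nat_lit 0) (nat_lit 5415024381) (nat_lit 304) (nat_lit 44589429472) (nat_lit 380) (nat_lit 22995749932) (nat_lit 182) (nat_lit 5) (nat_lit 186) (nat_lit 5) (nat_lit 187) (nat_lit 5) (nat_lit 519) (nat_lit 471) (nat_lit 210))) (XT.nd (nat_lit 78) (nat_lit 380) (nat_lit 0) (XT.lf (nat_lit 0) (nat_lit 49645898734) (nat_lit 304) (nat_lit 16244913016) (nat_lit 380) (nat_lit 8432326711) (nat_lit 182) (nat_lit 5) (nat_lit 186) (nat_lit 5) (nat_lit 187) (nat_lit 5) (nat_lit 520) (nat_lit 471) (nat_lit 209)) (XT.lf (nat_lit 0) (nat_lit 6756775722)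 (nat_lit 380) (nat_lit 55964306995) (nat_lit 76) (nat_lit 12953276179) (nat_lit 177) (nat_lit 5) (nat_lit 182) (nat_lit 5) (nat_lit 178) (nat_lit 5) (nat_lit 521) (nat_lit 471) (nat_lit 208)))) (XT.nd (nat_lit 156) (nat_lit 304) (nat_lit 0) (XT.nd (nat_lit 78) (nat_lit 304) (nat_lit 0) (XT.lf (nat_lit 0) (nat_lit 22643804649) (nat_lit 380) (nat_lit 11371738177) (nat_lit 76) (nat_lit 43035716463) (nat_lit 177) (nat_lit 5) (nat_lit 182) (nat_lit 5) (nat_lit 178) (nat_lit 5) (nat_lit 522) (nat_lit 471) (nat_lit 207)) (XT.lf (nat_lit 0) (nat_lit 35245279636) (nat_lit 304) (nat_lit 4100221411) (nat_lit 380) (nat_lit 39113823991) (nat_lit 173) (nat_lit 5) (nat_lit 177) (nat_lit 5) (nat_lit 178) (nat_lit 5) (nat_lit 523) (nat_lit 471) (nat_lit 206))) (XT.nd (nat_lit 78) (nat_lit 0) (nat_lit 0) (XT.lf (nat_lit 0) (nat_lit 3394964889) (nat_lit 304) (nat_lit 53557929916) (nat_lit 380) (nat_lit 22944598599) (nat_lit 169)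 (nat_lit 5) (nat_lit 173) (nat_lit 5) (nat_lit 174) (nat_lit 5) (nat_lit 524) (nat_lit 471) (nat_lit 205)) (XT.lf (nat_lit 0) (nat_lit 52245599263) (nat_lit 304) (nat_lit 23318762746) (nat_lit 380) (nat_lit 5800169302) (nat_lit 169) (nat_lit 5) (nat_lit 173) (nat_lit 5) (nat_lit 174) (nat_lit 5) (nat_lit 525) (nat_lit 471) (nat_lit 204))))))) (XT.nd (nat_lit 1326) (nat_lit 228) (nat_lit 0) (XT.nd (nat_lit 624) (nat_lit 1292) (nat_lit 0) (XT.nd (nat_lit 312) (nat_lit 608) (nat_lit 0) (XT.nd (nat_lit 156) (nat_lit 532) (nat_lit 0) (XT.nd (nat_lit 78) (nat_lit 0) (nat_lit 0) (XT.lf (nat_lit 0) (nat_lit 11896621377) (nat_lit 380) (nat_lit 62984080449) (nat_lit 76) (nat_lit 7983375834) (nat_lit 164) (nat_lit 5) (nat_lit 169) (nat_lit 5) (nat_lit 165) (nat_lit 5) (nat_lit 526) (nat_lit 471) (nat_lit 203)) (XT.lf (nat_lit 0) (nat_lit 30534869765) (nat_lit 380) (nat_lit 13746279884) (nat_lit 76) (nat_lit 40109924012) (nat_lit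 164) (nat_lit 5) (nat_lit 169) (nat_lit 5) (nat_lit 165) (nat_lit 5) (nat_lit 527) (nat_lit 471) (nat_lit 202))) (XT.nd (nat_lit 78) (nat_lit 228) (nat_lit 0) (XT.lf (nat_lit 0) (nat_lit 37703336842) (nat_lit 304) (nat_lit 12390674131) (nat_lit 380) (nat_lit 35859016243) (nat_lit 160) (nat_lit 5) (nat_lit 164) (nat_lit 5) (nat_lit 165) (nat_lit 5) (nat_lit 528) (nat_lit 471) (nat_lit 201)) (XT.lf (nat_lit 0) (nat_lit 3285599018) (nat_lit 228) (nat_lit 67322060216) (nat_lit 304) (nat_lit 16943148192) (nat_lit 157) (nat_lit 5) (nat_lit 160) (nat_lit 5) (nat_lit 161) (nat_lit 5) (nat_lit 529) (nat_lit 471) (nat_lit 200)))) (XT.nd (nat_lit 156) (nat_lit 228) (nat_lit 0) (XT.nd (nat_lit 78) (nat_lit 304) (nat_lit 0) (XT.lf (nat_lit 0) (nat_lit 3104686060) (nat_lit 304) (nat_lit 31978862994) (nat_lit 76) (nat_lit 54093817728) (nat_lit 156) (nat_lit 5) (nat_lit 160) (nat_lit 5) (nat_lit 157) (nat_lit 5) (nat_lit 530)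 (nat_lit 471) (nat_lit 199)) (XT.lf (nat_lit 0) (nat_lit 22139311978) (nat_lit 304) (nat_lit 1486266355) (nat_lit 380) (nat_lit 67215747091) (nat_lit 152) (nat_lit 5) (nat_lit 156) (nat_lit 5) (nat_lit 157) (nat_lit 5) (nat_lit 531) (nat_lit 471) (nat_lit 198))) (XT.nd (nat_lit 78) (nat_lit 228) (nat_lit 0) (XT.lf (nat_lit 0) (nat_lit 45405930509) (nat_lit 380) (nat_lit 14331534618) (nat_lit 76) (nat_lit 32798422734) (nat_lit 152) (nat_lit 5) (nat_lit 157) (nat_lit 5) (nat_lit 153) (nat_lit 5) (nat_lit 532) (nat_lit 471) (nat_lit 197)) (XT.lf (nat_lit 0) (nat_lit 42483345853) (nat_lit 228) (nat_lit 25778810264) (nat_lit 304) (nat_lit 26006457198) (nat_lit 149) (nat_lit 5) (nat_lit 152) (nat_lit 5) (nat_lit 153) (nat_lit 5) (nat_lit 533) (nat_lit 471) (nat_lit 196))))) (XT.nd (nat_lit 312) (nat_lit 760) (nat_lit 0) (XT.nd (nat_lit 156) (nat_lit 228) (nat_lit 0) (XT.nd (nat_lit 78) (nat_lit 76) (nat_lit 0) (XT.lf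 (nat_lit 0) (nat_lit 5259241934) (nat_lit 228) (nat_lit 86829334166) (nat_lit 304) (nat_lit 3956209231) (nat_lit 146) (nat_lit 5) (nat_lit 149) (nat_lit 5) (nat_lit 150) (nat_lit 5) (nat_lit 534) (nat_lit 471) (nat_lit 195)) (XT.lf (nat_lit 0) (nat_lit 19172279984) (nat_lit 304) (nat_lit 33223631925) (nat_lit 76) (nat_lit 45449440270) (nat_lit 145) (nat_lit 5) (nat_lit 149) (nat_lit 5) (nat_lit 146) (nat_lit 5) (nat_lit 535) (nat_lit 471) (nat_lit 194))) (XT.nd (nat_lit 78) (nat_lit 0) (nat_lit 0) (XT.lf (nat_lit 0) (nat_lit 26542936067) (nat_lit 228) (nat_lit 16626716086) (nat_lit 304) (nat_lit 56521472469) (nat_lit 142) (nat_lit 5) (nat_lit 145) (nat_lit 5) (nat_lit 146) (nat_lit 5) (nat_lit 536) (nat_lit 471) (nat_lit 193)) (XT.lf (nat_lit 0) (nat_lit 68419486897) (nat_lit 304) (nat_lit 12997281841) (nat_lit 76) (nat_lit 20159525281) (nat_lit 142) (nat_lit 5) (nat_lit 146) (nat_lit 5) (nat_lit 143) (nat_lit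 5) (nat_lit 537) (nat_lit 471) (nat_lit 192)))) (XT.nd (nat_lit 156) (nat_lit 228) (nat_lit 0) (XT.nd (nat_lit 78) (nat_lit 304) (nat_lit 0) (XT.lf (nat_lit 0) (nat_lit 49763644320) (nat_lit 228) (nat_lit 45305571192) (nat_lit 304) (nat_lit 8429531045) (nat_lit 139) (nat_lit 5) (nat_lit 142) (nat_lit 5) (nat_lit 143) (nat_lit 5) (nat_lit 538) (nat_lit 471) (nat_lit 191)) (XT.lf (nat_lit 0) (nat_lit 9212614733) (nat_lit 228) (nat_lit 7714970570) (nat_lit 304) (nat_lit 88539757794) (nat_lit 135) (nat_lit 5) (nat_lit 138) (nat_lit 5) (nat_lit 139) (nat_lit 5) (nat_lit 539) (nat_lit 471) (nat_lit 190))) (XT.nd (nat_lit 156) (nat_lit 228) (nat_lit 0) (XT.lf (nat_lit 0) (nat_lit 43721430242) (nat_lit 304) (nat_lit 32716256213) (nat_lit 76) (nat_lit 31029444068) (nat_lit 135) (nat_lit 5) (nat_lit 139) (nat_lit 5) (nat_lit 136) (nat_lit 5) (nat_lit 540) (nat_lit 471) (nat_lit 189)) (XT.lf (nat_lit 0) (nat_lit 100888728953)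 (nat_lit 304) (nat_lit 9656717102) (nat_lit 76) (nat_lit 1068718611) (nat_lit 132) (nat_lit 5) (nat_lit 136) (nat_lit 5) (nat_lit 133) (nat_lit 5) (nat_lit 542) (nat_lit 471) (nat_lit 187)))))) (XT.nd (nat_lit 57486) (nat_lit 0) (nat_lit 13908) (XT.nd (nat_lit 57174) (nat_lit 0) (nat_lit 13756) (XT.nd (nat_lit 57018) (nat_lit 0) (nat_lit 13680) (XT.nd (nat_lit 56940) (nat_lit 0) (nat_lit 13680) (XT.lf (nat_lit 0) (nat_lit 17789421109) (nat_lit 228) (nat_lit 54241280251) (nat_lit 76) (nat_lit 41711731588) (nat_lit 129) (nat_lit 5) (nat_lit 132) (nat_lit 5) (nat_lit 130) (nat_lit 5) (nat_lit 543) (nat_lit 471) (nat_lit 186)) (XT.lf (nat_lit 0) (nat_lit 8615087936) (nat_lit 1292) (nat_lit 4229753768) (nat_lit 1292) (nat_lit 4229753768) (nat_lit 309) (nat_lit 3) (nat_lit 326) (nat_lit 3) (nat_lit 326) (nat_lit 5) (nat_lit 472) (nat_lit 472) (nat_lit 256))) (XT.nd (nat_lit 78) (nat_lit 0) (nat_lit 76) (XT.lf (nat_lit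 76) (nat_lit 8646651523) (nat_lit 0) (nat_lit 8981012423) (nat_lit 1292) (nat_lit 17029588630) (nat_lit 310) (nat_lit 5) (nat_lit 309) (nat_lit 3) (nat_lit 326) (nat_lit 5) (nat_lit 473) (nat_lit 472) (nat_lit 255)) (XT.lf (nat_lit 0) (nat_lit 18200264987) (nat_lit 1216) (nat_lit 8819755987) (nat_lit 1292) (nat_lit 8155639632) (nat_lit 310) (nat_lit 5) (nat_lit 326) (nat_lit 5) (nat_lit 327) (nat_lit 5) (nat_lit 474) (nat_lit 472) (nat_lit 254)))) (XT.nd (nat_lit 156) (nat_lit 0) (nat_lit 76) (XT.nd (nat_lit 78) (nat_lit 0) (nat_lit 76) (XT.lf (nat_lit 76) (nat_lit 8971778387) (nat_lit 0) (nat_lit 9991309102) (nat_lit 1292) (nat_lit 16741342281) (nat_lit 311) (nat_lit 5) (nat_lit 310) (nat_lit 5) (nat_lit 327) (nat_lit 5) (nat_lit 475) (nat_lit 472) (nat_lit 253)) (XT.lf (nat_lit 0) (nat_lit 19909236574) (nat_lit 1216) (nat_lit 8843221402) (nat_lit 1292) (nat_lit 7491790967) (nat_lit 311) (nat_lit 5) (nat_lit 327)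 (nat_lit 5) (nat_lit 328) (nat_lit 5) (nat_lit 476) (nat_lit 472) (nat_lit 252))) (XT.nd (nat_lit 78) (nat_lit 0) (nat_lit 76) (XT.lf (nat_lit 76) (nat_lit 9671483327) (nat_lit 0) (nat_lit 11402178217) (nat_lit 1292) (nat_lit 15720904587) (nat_lit 312) (nat_lit 5) (nat_lit 311) (nat_lit 5) (nat_lit 328) (nat_lit 5) (nat_lit 477) (nat_lit 472) (nat_lit 251)) (XT.lf (nat_lit 0) (nat_lit 22423436220) (nat_lit 1216) (nat_lit 8500135655) (nat_lit 1292) (nat_lit 6433308632) (nat_lit 312) (nat_lit 5) (nat_lit 328) (nat_lit 5) (nat_lit 329) (nat_lit 5) (nat_lit 478) (nat_lit 472) (nat_lit 250))))) (XT.nd (nat_lit 312) (nat_lit 0) (nat_lit 152) (XT.nd (nat_lit 156) (nat_lit 0) (nat_lit 76) (XT.nd (nat_lit 78) (nat_lit 0) (nat_lit 76) (XT.lf (nat_lit 76) (nat_lit 10777691473) (nat_lit 0) (nat_lit 13250617348) (nat_lit 1292) (nat_lit 13901317527) (nat_lit 313) (nat_lit 5) (nat_lit 312) (nat_lit 5) (nat_lit 329) (nat_lit 5)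 (nat_lit 479) (nat_lit 472) (nat_lit 249)) (XT.lf (nat_lit 0) (nat_lit 25813778366) (nat_lit 1216) (nat_lit 7758614983) (nat_lit 1292) (nat_lit 4943187862) (nat_lit 313) (nat_lit 5) (nat_lit 329) (nat_lit 5) (nat_lit 330) (nat_lit 5) (nat_lit 480) (nat_lit 472) (nat_lit 248))) (XT.nd (nat_lit 78) (nat_lit 0) (nat_lit 76) (XT.lf (nat_lit 76) (nat_lit 12324567398) (nat_lit 0) (nat_lit 15576123222) (nat_lit 1292) (nat_lit 11210987904) (nat_lit 314) (nat_lit 5) (nat_lit 313) (nat_lit 5) (nat_lit 330) (nat_lit 5) (nat_lit 481) (nat_lit 472) (nat_lit 247)) (XT.lf (nat_lit 0) (nat_lit 30156044768) (nat_lit 1216) (nat_lit 6584533455) (nat_lit 1292) (nat_lit 2981905657) (nat_lit 314) (nat_lit 5) (nat_lit 330) (nat_lit 5) (nat_lit 331) (nat_lit 5) (nat_lit 482) (nat_lit 472) (nat_lit 246)))) (XT.nd (nat_lit 156) (nat_lit 0) (nat_lit 76) (XT.nd (nat_lit 78) (nat_lit 0) (nat_lit 76) (XT.lf (nat_lit 76) (nat_lit 14348648774)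 (nat_lit 0) (nat_lit 18420866875) (nat_lit 1292) (nat_lit 7573384220) (nat_lit 315) (nat_lit 5) (nat_lit 314) (nat_lit 5) (nat_lit 331) (nat_lit 5) (nat_lit 483) (nat_lit 472) (nat_lit 245)) (XT.lf (nat_lit 0) (nat_lit 35531200971) (nat_lit 1216) (nat_lit 4941388720) (nat_lit 1292) (nat_lit 507244486) (nat_lit 315) (nat_lit 5) (nat_lit 331) (nat_lit 5) (nat_lit 332) (nat_lit 5) (nat_lit 484) (nat_lit 472) (nat_lit 244))) (XT.nd (nat_lit 78) (nat_lit 0) (nat_lit 0) (XT.lf (nat_lit 76) (nat_lit 16888988147) (nat_lit 0) (nat_lit 21829879329) (nat_lit 1292) (nat_lit 2906715266) (nat_lit 316) (nat_lit 5) (nat_lit 315) (nat_lit 5) (nat_lit 332) (nat_lit 5) (nat_lit 485) (nat_lit 472) (nat_lit 243)) (XT.lf (nat_lit 76) (nat_lit 39474330666) (nat_lit 0) (nat_lit 2576164896) (nat_lit 1292) (nat_lit 238758396) (nat_lit 316) (nat_lit 5) (nat_lit 315) (nat_lit 5) (nat_lit 332) (nat_lit 5) (nat_lit 486) (nat_lit 472) (nat_lit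 242))))))))
noncomputable def xc228 : XT := (XT.nd (nat_lit 2418) (nat_lit 4484) (nat_lit 0) (XT.nd (nat_lit 1170) (nat_lit 3952) (nat_lit 0) (XT.nd (nat_lit 546) (nat_lit 2888) (nat_lit 0) (XT.nd (nat_lit 234) (nat_lit 1368) (nat_lit 0) (XT.nd (nat_lit 78) (nat_lit 0) (nat_lit 0) (XT.lf (nat_lit 0) (nat_lit 2820281577) (nat_lit 1292) (nat_lit 23002487636) (nat_lit 1368) (nat_lit 17138542362) (nat_lit 299) (nat_lit 5) (nat_lit 316) (nat_lit 5) (nat_lit 317) (nat_lit 5) (nat_lit 487) (nat_lit 472) (nat_lit 241)) (XT.nd (nat_lit 78) (nat_lit 0) (nat_lit 76) (XT.lf (nat_lit 0) (nat_lit 6019006565) (nat_lit 1292) (nat_lit 208613103) (nat_lit 1368) (nat_lit 37424259086) (nat_lit 299) (nat_lit 5) (nat_lit 316) (nat_lit 5) (nat_lit 317) (nat_lit 5) (nat_lit 488) (nat_lit 472) (nat_lit 240)) (XT.lf (nat_lit 0) (nat_lit 9676760954) (nat_lit 1292) (nat_lit 20761851062) (nat_lit 76) (nat_lit 13913659026) (nat_lit 300) (nat_lit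 5) (nat_lit 317) (nat_lit 5) (nat_lit 301) (nat_lit 5) (nat_lit 489) (nat_lit 472) (nat_lit 239)))) (XT.nd (nat_lit 156) (nat_lit 608) (nat_lit 0) (XT.nd (nat_lit 78) (nat_lit 0) (nat_lit 0) (XT.lf (nat_lit 0) (nat_lit 3030274075) (nat_lit 836) (nat_lit 10505465567) (nat_lit 912) (nat_lit 31535190830) (nat_lit 289) (nat_lit 5) (nat_lit 300) (nat_lit 5) (nat_lit 301) (nat_lit 5) (nat_lit 490) (nat_lit 472) (nat_lit 238)) (XT.lf (nat_lit 0) (nat_lit 17817196962) (nat_lit 912) (nat_lit 17942844675) (nat_lit 76) (nat_lit 10041906890) (nat_lit 289) (nat_lit 5) (nat_lit 301) (nat_lit 5) (nat_lit 290) (nat_lit 5) (nat_lit 491) (nat_lit 472) (nat_lit 237))) (XT.nd (nat_lit 78) (nat_lit 0) (nat_lit 0) (XT.lf (nat_lit 0) (nat_lit 6907416768) (nat_lit 608) (nat_lit 15488741219) (nat_lit 684) (nat_lit 24153667449) (nat_lit 281) (nat_lit 5) (nat_lit 289) (nat_lit 5) (nat_lit 290) (nat_lit 5) (nat_lit 492) (nat_lit 472) (nat_lit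 236)) (XT.lf (nat_lit 0) (nat_lit 27345963364) (nat_lit 684) (nat_lit 14498605869) (nat_lit 76) (nat_lit 5468565269) (nat_lit 281) (nat_lit 5) (nat_lit 290) (nat_lit 5) (nat_lit 282) (nat_lit 5) (nat_lit 493) (nat_lit 472) (nat_lit 235))))) (XT.nd (nat_lit 312) (nat_lit 1672) (nat_lit 0) (XT.nd (nat_lit 156) (nat_lit 608) (nat_lit 0) (XT.nd (nat_lit 78) (nat_lit 0) (nat_lit 0) (XT.lf (nat_lit 0) (nat_lit 11468703342) (nat_lit 608) (nat_lit 21237871550) (nat_lit 684) (nat_lit 15384898694) (nat_lit 273) (nat_lit 5) (nat_lit 281) (nat_lit 5) (nat_lit 282) (nat_lit 5) (nat_lit 494) (nat_lit 472) (nat_lit 234)) (XT.lf (nat_lit 0) (nat_lit 38374476849) (nat_lit 684) (nat_lit 10379131861) (nat_lit 76) (nat_lit 135160076) (nat_lit 273) (nat_lit 5) (nat_lit 282) (nat_lit 5) (nat_lit 274) (nat_lit 5) (nat_lit 495) (nat_lit 472) (nat_lit 233))) (XT.nd (nat_lit 78) (nat_lit 76) (nat_lit 0) (XT.lf (nat_lit 0) (nat_lit 16767495695)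 (nat_lit 532) (nat_lit 27815151972) (nat_lit 608) (nat_lit 5116228324) (nat_lit 266) (nat_lit 5) (nat_lit 273) (nat_lit 5) (nat_lit 274) (nat_lit 5) (nat_lit 496) (nat_lit 472) (nat_lit 232)) (XT.lf (nat_lit 0) (nat_lit 539752398) (nat_lit 608) (nat_lit 5595411936) (nat_lit 76) (nat_lit 44394855152) (nat_lit 265) (nat_lit 5) (nat_lit 273) (nat_lit 5) (nat_lit 266) (nat_lit 5) (nat_lit 497) (nat_lit 472) (nat_lit 231)))) (XT.nd (nat_lit 156) (nat_lit 1064) (nat_lit 0) (XT.nd (nat_lit 78) (nat_lit 0) (nat_lit 0) (XT.lf (nat_lit 0) (nat_lit 6640443648) (nat_lit 684) (nat_lit 28579622826) (nat_lit 76) (nat_lit 16153175366) (nat_lit 257) (nat_lit 5) (nat_lit 266) (nat_lit 5) (nat_lit 258) (nat_lit 5) (nat_lit 498) (nat_lit 472) (nat_lit 230)) (XT.lf (nat_lit 0) (nat_lit 13040807794) (nat_lit 684) (nat_lit 153584312) (nat_lit 76) (nat_lit 39043869284) (nat_lit 257) (nat_lit 5) (nat_lit 266) (nat_lit 5) (nat_lit 258)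 (nat_lit 5) (nat_lit 499) (nat_lit 472) (nat_lit 229))) (XT.nd (nat_lit 78) (nat_lit 532) (nat_lit 0) (XT.lf (nat_lit 0) (nat_lit 20011661751) (nat_lit 608) (nat_lit 23511108496) (nat_lit 76) (nat_lit 9595107002) (nat_lit 250) (nat_lit 5) (nat_lit 258) (nat_lit 5) (nat_lit 251) (nat_lit 5) (nat_lit 500) (nat_lit 472) (nat_lit 228)) (XT.lf (nat_lit 0) (nat_lit 6228920779) (nat_lit 532) (nat_lit 21153700354) (nat_lit 608) (nat_lit 26635531143) (nat_lit 243) (nat_lit 5) (nat_lit 250) (nat_lit 5) (nat_lit 251) (nat_lit 5) (nat_lit 501) (nat_lit 472) (nat_lit 227)))))) (XT.nd (nat_lit 624) (nat_lit 2052) (nat_lit 0) (XT.nd (nat_lit 312) (nat_lit 912) (nat_lit 0) (XT.nd (nat_lit 156) (nat_lit 532) (nat_lit 0) (XT.nd (nat_lit 78) (nat_lit 456) (nat_lit 0) (XT.lf (nat_lit 0) (nat_lit 35231528673) (nat_lit 608) (nat_lit 17616931699) (nat_lit 76) (nat_lit 2089270683) (nat_lit 243) (nat_lit 5) (nat_lit 251) (nat_lit 5) (nat_lit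 244) (nat_lit 5) (nat_lit 502) (nat_lit 472) (nat_lit 226)) (XT.lf (nat_lit 0) (nat_lit 13513589484) (nat_lit 456) (nat_lit 30140607902) (nat_lit 532) (nat_lit 12220551074) (nat_lit 237) (nat_lit 5) (nat_lit 243) (nat_lit 5) (nat_lit 244) (nat_lit 5) (nat_lit 503) (nat_lit 472) (nat_lit 225))) (XT.nd (nat_lit 78) (nat_lit 532) (nat_lit 0) (XT.lf (nat_lit 0) (nat_lit 45937964098) (nat_lit 456) (nat_lit 6568448120) (nat_lit 532) (nat_lit 4328158265) (nat_lit 237) (nat_lit 5) (nat_lit 243) (nat_lit 5) (nat_lit 244) (nat_lit 5) (nat_lit 504) (nat_lit 472) (nat_lit 224)) (XT.lf (nat_lit 0) (nat_lit 4109048078) (nat_lit 532) (nat_lit 36086952160) (nat_lit 76) (nat_lit 17614624483) (nat_lit 230) (nat_lit 5) (nat_lit 237) (nat_lit 5) (nat_lit 231) (nat_lit 5) (nat_lit 505) (nat_lit 472) (nat_lit 223)))) (XT.nd (nat_lit 156) (nat_lit 456) (nat_lit 0) (XT.nd (nat_lit 78) (nat_lit 456) (nat_lit 0) (XT.lf (nat_lit 0) (nat_lit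 12887543037) (nat_lit 532) (nat_lit 3376900688) (nat_lit 76) (nat_lit 42544976418) (nat_lit 230) (nat_lit 5) (nat_lit 237) (nat_lit 5) (nat_lit 231) (nat_lit 5) (nat_lit 506) (nat_lit 472) (nat_lit 222)) (XT.lf (nat_lit 0) (nat_lit 22309160029) (nat_lit 532) (nat_lit 28996248731) (nat_lit 76) (nat_lit 8521377721) (nat_lit 224) (nat_lit 5) (nat_lit 231) (nat_lit 5) (nat_lit 225) (nat_lit 5) (nat_lit 507) (nat_lit 472) (nat_lit 221))) (XT.nd (nat_lit 78) (nat_lit 0) (nat_lit 0) (XT.lf (nat_lit 0) (nat_lit 5198670198) (nat_lit 456) (nat_lit 27059250192) (nat_lit 532) (nat_lit 28609418643) (nat_lit 218) (nat_lit 5) (nat_lit 224) (nat_lit 5) (nat_lit 225) (nat_lit 5) (nat_lit 508) (nat_lit 472) (nat_lit 220)) (XT.lf (nat_lit 0) (nat_lit 41012668333) (nat_lit 456) (nat_lit 1784347231) (nat_lit 532) (nat_lit 19133336501) (nat_lit 218) (nat_lit 5) (nat_lit 224) (nat_lit 5) (nat_lit 225) (nat_lit 5) (nat_lit 509) (nat_lit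 472) (nat_lit 219))))) (XT.nd (nat_lit 312) (nat_lit 1140) (nat_lit 0) (XT.nd (nat_lit 156) (nat_lit 456) (nat_lit 0) (XT.nd (nat_lit 78) (nat_lit 76) (nat_lit 0) (XT.lf (nat_lit 0) (nat_lit 14932978532) (nat_lit 380) (nat_lit 39095036096) (nat_lit 456) (nat_lit 8985968993) (nat_lit 213) (nat_lit 5) (nat_lit 218) (nat_lit 5) (nat_lit 219) (nat_lit 5) (nat_lit 510) (nat_lit 472) (nat_lit 218)) (XT.lf (nat_lit 0) (nat_lit 1667300227) (nat_lit 456) (nat_lit 11870844093) (nat_lit 76) (nat_lit 50584654629) (nat_lit 212) (nat_lit 5) (nat_lit 218) (nat_lit 5) (nat_lit 213) (nat_lit 5) (nat_lit 511) (nat_lit 472) (nat_lit 217))) (XT.nd (nat_lit 78) (nat_lit 0) (nat_lit 0) (XT.lf (nat_lit 0) (nat_lit 12833309914) (nat_lit 532) (nat_lit 39541272471) (nat_lit 76) (nat_lit 12876414768) (nat_lit 206) (nat_lit 5) (nat_lit 213) (nat_lit 5) (nat_lit 207) (nat_lit 5) (nat_lit 512) (nat_lit 472) (nat_lit 216)) (XT.lf (nat_lit 0)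 (nat_lit 24588536952) (nat_lit 532) (nat_lit 1884761339) (nat_lit 76) (nat_lit 39932115957) (nat_lit 206) (nat_lit 5) (nat_lit 213) (nat_lit 5) (nat_lit 207) (nat_lit 5) (nat_lit 513) (nat_lit 472) (nat_lit 215)))) (XT.nd (nat_lit 156) (nat_lit 380) (nat_lit 0) (XT.nd (nat_lit 78) (nat_lit 380) (nat_lit 0) (XT.lf (nat_lit 0) (nat_lit 37062900992) (nat_lit 456) (nat_lit 29954458202) (nat_lit 76) (nat_lit 566110311) (nat_lit 201) (nat_lit 5) (nat_lit 207) (nat_lit 5) (nat_lit 202) (nat_lit 5) (nat_lit 514) (nat_lit 472) (nat_lit 214)) (XT.lf (nat_lit 0) (nat_lit 9492349425) (nat_lit 380) (nat_lit 40790898824) (nat_lit 456) (nat_lit 18502465654) (nat_lit 196) (nat_lit 5) (nat_lit 201) (nat_lit 5) (nat_lit 202) (nat_lit 5) (nat_lit 515) (nat_lit 472) (nat_lit 213))) (XT.nd (nat_lit 78) (nat_lit 380) (nat_lit 0) (XT.lf (nat_lit 0) (nat_lit 50735491629) (nat_lit 380) (nat_lit 13466382357) (nat_lit 456) (nat_lit 5813101658)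 (nat_lit 196) (nat_lit 5) (nat_lit 201) (nat_lit 5) (nat_lit 202) (nat_lit 5) (nat_lit 516) (nat_lit 472) (nat_lit 212)) (XT.lf (nat_lit 0) (nat_lit 7472792160) (nat_lit 380) (nat_lit 49117418629) (nat_lit 76) (nat_lit 14678088011) (nat_lit 191) (nat_lit 5) (nat_lit 196) (nat_lit 5) (nat_lit 192) (nat_lit 5) (nat_lit 517) (nat_lit 472) (nat_lit 211))))))) (XT.nd (nat_lit 1170) (nat_lit 1520) (nat_lit 0) (XT.nd (nat_lit 546) (nat_lit 1596) (nat_lit 0) (XT.nd (nat_lit 234) (nat_lit 684) (nat_lit 0) (XT.nd (nat_lit 78) (nat_lit 684) (nat_lit 0) (XT.lf (nat_lit 0) (nat_lit 21369580883) (nat_lit 380) (nat_lit 7527929272) (nat_lit 76) (nat_lit 43650110210) (nat_lit 191) (nat_lit 5) (nat_lit 196) (nat_lit 5) (nat_lit 192) (nat_lit 5) (nat_lit 518) (nat_lit 472) (nat_lit 210)) (XT.nd (nat_lit 78) (nat_lit 304) (nat_lit 0) (XT.lf (nat_lit 0) (nat_lit 36010878337) (nat_lit 380) (nat_lit 17789055) (nat_lit 456) (nat_lit 37826292406)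 (nat_lit 186) (nat_lit 5) (nat_lit 191) (nat_lit 5) (nat_lit 192) (nat_lit 5) (nat_lit 519) (nat_lit 472) (nat_lit 209)) (XT.lf (nat_lit 0) (nat_lit 5633254479) (nat_lit 304) (nat_lit 45910203804) (nat_lit 380) (nat_lit 23645583223) (nat_lit 182) (nat_lit 5) (nat_lit 186) (nat_lit 5) (nat_lit 187) (nat_lit 5) (nat_lit 520) (nat_lit 472) (nat_lit 208)))) (XT.nd (nat_lit 156) (nat_lit 304) (nat_lit 0) (XT.nd (nat_lit 78) (nat_lit 380) (nat_lit 0) (XT.lf (nat_lit 0) (nat_lit 51189430421) (nat_lit 304) (nat_lit 16715844336) (nat_lit 380) (nat_lit 8646423495) (nat_lit 182) (nat_lit 5) (nat_lit 186) (nat_lit 5) (nat_lit 187) (nat_lit 5) (nat_lit 521) (nat_lit 472) (nat_lit 207)) (XT.lf (nat_lit 0) (nat_lit 6997168006) (nat_lit 380) (nat_lit 57587893260) (nat_lit 76) (nat_lit 13358395650) (nat_lit 177) (nat_lit 5) (nat_lit 182) (nat_lit 5) (nat_lit 178) (nat_lit 5) (nat_lit 522) (nat_lit 472) (nat_lit 206))) (XT.nd (nat_lit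 78) (nat_lit 304) (nat_lit 0) (XT.lf (nat_lit 0) (nat_lit 23359710063) (nat_lit 380) (nat_lit 11659159309) (nat_lit 76) (nat_lit 44342827943) (nat_lit 177) (nat_lit 5) (nat_lit 182) (nat_lit 5) (nat_lit 178) (nat_lit 5) (nat_lit 523) (nat_lit 472) (nat_lit 205)) (XT.lf (nat_lit 0) (nat_lit 36355842264) (nat_lit 304) (nat_lit 4206060754) (nat_lit 380) (nat_lit 40250118706) (nat_lit 173) (nat_lit 5) (nat_lit 177) (nat_lit 5) (nat_lit 178) (nat_lit 5) (nat_lit 524) (nat_lit 472) (nat_lit 204))))) (XT.nd (nat_lit 312) (nat_lit 912) (nat_lit 0) (XT.nd (nat_lit 156) (nat_lit 380) (nat_lit 0) (XT.nd (nat_lit 78) (nat_lit 0) (nat_lit 0) (XT.lf (nat_lit 0) (nat_lit 3550405507) (nat_lit 304) (nat_lit 55146738835) (nat_lit 380) (nat_lit 23596202084) (nat_lit 169) (nat_lit 5) (nat_lit 173) (nat_lit 5) (nat_lit 174) (nat_lit 5) (nat_lit 525) (nat_lit 472) (nat_lit 203)) (XT.lf (nat_lit 0) (nat_lit 53864997990) (nat_lit 304)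 (nat_lit 24000918853) (nat_lit 380) (nat_lit 5938509844) (nat_lit 169) (nat_lit 5) (nat_lit 173) (nat_lit 5) (nat_lit 174) (nat_lit 5) (nat_lit 526) (nat_lit 472) (nat_lit 202))) (XT.nd (nat_lit 78) (nat_lit 0) (nat_lit 0) (XT.lf (nat_lit 0) (nat_lit 12288142714) (nat_lit 380) (nat_lit 64820526742) (nat_lit 76) (nat_lit 8240290113) (nat_lit 164) (nat_lit 5) (nat_lit 169) (nat_lit 5) (nat_lit 165) (nat_lit 5) (nat_lit 527) (nat_lit 472) (nat_lit 201)) (XT.lf (nat_lit 0) (nat_lit 31484530126) (nat_lit 380) (nat_lit 14107138067) (nat_lit 76) (nat_lit 41330127562) (nat_lit 164) (nat_lit 5) (nat_lit 169) (nat_lit 5) (nat_lit 165) (nat_lit 5) (nat_lit 528) (nat_lit 472) (nat_lit 200)))) (XT.nd (nat_lit 156) (nat_lit 380) (nat_lit 0) (XT.nd (nat_lit 78) (nat_lit 228) (nat_lit 0) (XT.lf (nat_lit 0) (nat_lit 38885461963) (nat_lit 304) (nat_lit 12744495034) (nat_lit 380) (nat_lit 36900665626) (nat_lit 160) (nat_lit 5) (nat_lit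 164) (nat_lit 5) (nat_lit 165) (nat_lit 5) (nat_lit 529) (nat_lit 472) (nat_lit 199)) (XT.lf (nat_lit 0) (nat_lit 3435507038) (nat_lit 228) (nat_lit 69323203403) (nat_lit 304) (nat_lit 17417634975) (nat_lit 157) (nat_lit 5) (nat_lit 160) (nat_lit 5) (nat_lit 161) (nat_lit 5) (nat_lit 530) (nat_lit 472) (nat_lit 198))) (XT.nd (nat_lit 78) (nat_lit 304) (nat_lit 0) (XT.lf (nat_lit 0) (nat_lit 3230009121) (nat_lit 304) (nat_lit 32887742182) (nat_lit 76) (nat_lit 55733969508) (nat_lit 156) (nat_lit 5) (nat_lit 160) (nat_lit 5) (nat_lit 157) (nat_lit 5) (nat_lit 531) (nat_lit 472) (nat_lit 197)) (XT.lf (nat_lit 0) (nat_lit 22853483072) (nat_lit 304) (nat_lit 1512588288) (nat_lit 380) (nat_lit 69199540600) (nat_lit 152) (nat_lit 5) (nat_lit 156) (nat_lit 5) (nat_lit 157) (nat_lit 5) (nat_lit 532) (nat_lit 472) (nat_lit 196)))))) (XT.nd (nat_lit 702) (nat_lit 228) (nat_lit 0) (XT.nd (nat_lit 312) (nat_lit 760) (nat_lit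 0) (XT.nd (nat_lit 156) (nat_lit 304) (nat_lit 0) (XT.nd (nat_lit 78) (nat_lit 228) (nat_lit 0) (XT.lf (nat_lit 0) (nat_lit 46799080523) (nat_lit 380) (nat_lit 14712190000) (nat_lit 76) (nat_lit 33799763398) (nat_lit 152) (nat_lit 5) (nat_lit 157) (nat_lit 5) (nat_lit 153) (nat_lit 5) (nat_lit 533) (nat_lit 472) (nat_lit 195)) (XT.lf (nat_lit 0) (nat_lit 43806653643) (nat_lit 228) (nat_lit 26533906322) (nat_lit 304) (nat_lit 26755194202) (nat_lit 149) (nat_lit 5) (nat_lit 152) (nat_lit 5) (nat_lit 153) (nat_lit 5) (nat_lit 534) (nat_lit 472) (nat_lit 194))) (XT.nd (nat_lit 78) (nat_lit 76) (nat_lit 0) (XT.lf (nat_lit 0) (nat_lit 5466082771) (nat_lit 228) (nat_lit 89415442407) (nat_lit 304) (nat_lit 4043693627) (nat_lit 146) (nat_lit 5) (nat_lit 149) (nat_lit 5) (nat_lit 150) (nat_lit 5) (nat_lit 535) (nat_lit 472) (nat_lit 193)) (XT.lf (nat_lit 0) (nat_lit 19777150345) (nat_lit 304) (nat_lit 34172113957) (nat_lit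 76) (nat_lit 46830556128) (nat_lit 145) (nat_lit 5) (nat_lit 149) (nat_lit 5) (nat_lit 146) (nat_lit 5) (nat_lit 536) (nat_lit 472) (nat_lit 192)))) (XT.nd (nat_lit 156) (nat_lit 532) (nat_lit 0) (XT.nd (nat_lit 78) (nat_lit 0) (nat_lit 0) (XT.lf (nat_lit 0) (nat_lit 27386978262) (nat_lit 228) (nat_lit 17107059353) (nat_lit 304) (nat_lit 58186940649) (nat_lit 142) (nat_lit 5) (nat_lit 145) (nat_lit 5) (nat_lit 146) (nat_lit 5) (nat_lit 537) (nat_lit 472) (nat_lit 191)) (XT.lf (nat_lit 0) (nat_lit 70500686386) (nat_lit 304) (nat_lit 13340154880) (nat_lit 76) (nat_lit 20781881942) (nat_lit 142) (nat_lit 5) (nat_lit 146) (nat_lit 5) (nat_lit 143) (nat_lit 5) (nat_lit 538) (nat_lit 472) (nat_lit 190))) (XT.nd (nat_lit 78) (nat_lit 304) (nat_lit 0) (XT.lf (nat_lit 0) (nat_lit 51303137836) (nat_lit 228) (nat_lit 46646383377) (nat_lit 304) (nat_lit 8653339715) (nat_lit 139) (nat_lit 5) (nat_lit 142) (nat_lit 5) (nat_lit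 143) (nat_lit 5) (nat_lit 539) (nat_lit 472) (nat_lit 189)) (XT.lf (nat_lit 0) (nat_lit 9535683598) (nat_lit 228) (nat_lit 7927857557) (nat_lit 304) (nat_lit 91166977303) (nat_lit 135) (nat_lit 5) (nat_lit 138) (nat_lit 5) (nat_lit 139) (nat_lit 5) (nat_lit 540) (nat_lit 472) (nat_lit 188))))) (XT.nd (nat_lit 57252) (nat_lit 0) (nat_lit 13528) (XT.nd (nat_lit 57096) (nat_lit 0) (nat_lit 13452) (XT.nd (nat_lit 78) (nat_lit 0) (nat_lit 0) (XT.lf (nat_lit 0) (nat_lit 34345424090) (nat_lit 228) (nat_lit 39548173145) (nat_lit 304) (nat_lit 38906072665) (nat_lit 132) (nat_lit 5) (nat_lit 135) (nat_lit 5) (nat_lit 136) (nat_lit 5) (nat_lit 542) (nat_lit 472) (nat_lit 186)) (XT.lf (nat_lit 0) (nat_lit 103941892158) (nat_lit 304) (nat_lit 9901598715) (nat_lit 76) (nat_lit 1118302702) (nat_lit 132) (nat_lit 5) (nat_lit 136) (nat_lit 5) (nat_lit 133) (nat_lit 5) (nat_lit 543) (nat_lit 472) (nat_lit 185))) (XT.nd (nat_lit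 78) (nat_lit 0) (nat_lit 0) (XT.lf (nat_lit 0) (nat_lit 8928921582) (nat_lit 1292) (nat_lit 4328122601) (nat_lit 1292) (nat_lit 4328122601) (nat_lit 309) (nat_lit 3) (nat_lit 326) (nat_lit 3) (nat_lit 326) (nat_lit 5) (nat_lit 473) (nat_lit 473) (nat_lit 254)) (XT.lf (nat_lit 76) (nat_lit 8962539339) (nat_lit 0) (nat_lit 9302033462) (nat_lit 1292) (nat_lit 17429145038) (nat_lit 310) (nat_lit 5) (nat_lit 309) (nat_lit 3) (nat_lit 326) (nat_lit 5) (nat_lit 474) (nat_lit 473) (nat_lit 253)))) (XT.nd (nat_lit 156) (nat_lit 0) (nat_lit 76) (XT.nd (nat_lit 78) (nat_lit 0) (nat_lit 0) (XT.lf (nat_lit 0) (nat_lit 18850722467) (nat_lit 1216) (nat_lit 9025866622) (nat_lit 1292) (nat_lit 8351198193) (nat_lit 310) (nat_lit 5) (nat_lit 326) (nat_lit 5) (nat_lit 327) (nat_lit 5) (nat_lit 475) (nat_lit 473) (nat_lit 252)) (XT.lf (nat_lit 76) (nat_lit 9298840429) (nat_lit 0) (nat_lit 10335103648) (nat_lit 1292) (nat_lit 17138550291)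 (nat_lit 311) (nat_lit 5) (nat_lit 310) (nat_lit 5) (nat_lit 327) (nat_lit 5) (nat_lit 476) (nat_lit 473) (nat_lit 251))) (XT.nd (nat_lit 78) (nat_lit 0) (nat_lit 0) (XT.lf (nat_lit 0) (nat_lit 20605096659) (nat_lit 1216) (nat_lit 9048905936) (nat_lit 1292) (nat_lit 7674607224) (nat_lit 311) (nat_lit 5) (nat_lit 327) (nat_lit 5) (nat_lit 328) (nat_lit 5) (nat_lit 477) (nat_lit 473) (nat_lit 250)) (XT.lf (nat_lit 76) (nat_lit 10020655503) (nat_lit 0) (nat_lit 11781494937) (nat_lit 1292) (nat_lit 16093355467) (nat_lit 312) (nat_lit 5) (nat_lit 311) (nat_lit 5) (nat_lit 328) (nat_lit 5) (nat_lit 478) (nat_lit 473) (nat_lit 249))))))))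
noncomputable def xc229 : XT := (XT.nd (nat_lit 2418) (nat_lit 6308) (nat_lit 0) (XT.nd (nat_lit 1170) (nat_lit 4788) (nat_lit 0) (XT.nd (nat_lit 546) (nat_lit 2356) (nat_lit 0) (XT.nd (nat_lit 234) (nat_lit 0) (nat_lit 76) (XT.nd (nat_lit 78) (nat_lit 0) (nat_lit 0) (XT.lf (nat_lit 0) (nat_lit 23189266458) (nat_lit 1216) (nat_lit 8694670825) (nat_lit 1292) (nat_lit 6590847245) (nat_lit 312) (nat_lit 5) (nat_lit 328) (nat_lit 5) (nat_lit 329) (nat_lit 5) (nat_lit 479) (nat_lit 473) (nat_lit 248)) (XT.nd (nat_lit 78) (nat_lit 0) (nat_lit 76) (XT.lf (nat_lit 76) (nat_lit 11160898285) (nat_lit 0) (nat_lit 13679250077) (nat_lit 1292) (nat_lit 14224628739) (nat_lit 313) (nat_lit 5) (nat_lit 312) (nat_lit 5) (nat_lit 329) (nat_lit 5) (nat_lit 480) (nat_lit 473) (nat_lit 247)) (XT.lf (nat_lit 0) (nat_lit 26676241413) (nat_lit 1216) (nat_lit 7930292661) (nat_lit 1292) (nat_lit 5061864995) (nat_lit 313) (nat_lit 5) (nat_lit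 329) (nat_lit 5) (nat_lit 330) (nat_lit 5) (nat_lit 481) (nat_lit 473) (nat_lit 246)))) (XT.nd (nat_lit 156) (nat_lit 0) (nat_lit 76) (XT.nd (nat_lit 78) (nat_lit 0) (nat_lit 76) (XT.lf (nat_lit 76) (nat_lit 12754786360) (nat_lit 0) (nat_lit 16068991509) (nat_lit 1292) (nat_lit 11458661162) (nat_lit 314) (nat_lit 5) (nat_lit 313) (nat_lit 5) (nat_lit 330) (nat_lit 5) (nat_lit 482) (nat_lit 473) (nat_lit 245)) (XT.lf (nat_lit 0) (nat_lit 31144047079) (nat_lit 1216) (nat_lit 6720595942) (nat_lit 1292) (nat_lit 3047008124) (nat_lit 314) (nat_lit 5) (nat_lit 330) (nat_lit 5) (nat_lit 331) (nat_lit 5) (nat_lit 483) (nat_lit 473) (nat_lit 244))) (XT.nd (nat_lit 78) (nat_lit 0) (nat_lit 76) (XT.lf (nat_lit 76) (nat_lit 14839979072) (nat_lit 0) (nat_lit 18994101316) (nat_lit 1292) (nat_lit 7716654696) (nat_lit 315) (nat_lit 5) (nat_lit 314) (nat_lit 5) (nat_lit 331) (nat_lit 5) (nat_lit 484) (nat_lit 473) (nat_lit 243))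 (XT.lf (nat_lit 0) (nat_lit 36676050757) (nat_lit 1216) (nat_lit 5027959784) (nat_lit 1292) (nat_lit 502844063) (nat_lit 315) (nat_lit 5) (nat_lit 331) (nat_lit 5) (nat_lit 332) (nat_lit 5) (nat_lit 485) (nat_lit 473) (nat_lit 242))))) (XT.nd (nat_lit 312) (nat_lit 1368) (nat_lit 0) (XT.nd (nat_lit 156) (nat_lit 1216) (nat_lit 0) (XT.nd (nat_lit 78) (nat_lit 0) (nat_lit 0) (XT.lf (nat_lit 76) (nat_lit 17456723775) (nat_lit 0) (nat_lit 22500912027) (nat_lit 1292) (nat_lit 2914391377) (nat_lit 316) (nat_lit 5) (nat_lit 315) (nat_lit 5) (nat_lit 332) (nat_lit 5) (nat_lit 486) (nat_lit 473) (nat_lit 241)) (XT.lf (nat_lit 76) (nat_lit 40717847949) (nat_lit 0) (nat_lit 2669116171) (nat_lit 1292) (nat_lit 168712073) (nat_lit 316) (nat_lit 5) (nat_lit 315) (nat_lit 5) (nat_lit 332) (nat_lit 5) (nat_lit 487) (nat_lit 473) (nat_lit 240))) (XT.nd (nat_lit 78) (nat_lit 0) (nat_lit 0) (XT.lf (nat_lit 0) (nat_lit 2978832924)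 (nat_lit 1292) (nat_lit 23629995768) (nat_lit 1368) (nat_lit 17639097559) (nat_lit 299) (nat_lit 5) (nat_lit 316) (nat_lit 5) (nat_lit 317) (nat_lit 5) (nat_lit 488) (nat_lit 473) (nat_lit 239)) (XT.lf (nat_lit 0) (nat_lit 6271365985) (nat_lit 1292) (nat_lit 154127324) (nat_lit 1368) (nat_lit 38533781932) (nat_lit 299) (nat_lit 5) (nat_lit 316) (nat_lit 5) (nat_lit 317) (nat_lit 5) (nat_lit 489) (nat_lit 473) (nat_lit 238)))) (XT.nd (nat_lit 156) (nat_lit 608) (nat_lit 0) (XT.nd (nat_lit 78) (nat_lit 836) (nat_lit 0) (XT.lf (nat_lit 0) (nat_lit 10037242888) (nat_lit 1292) (nat_lit 21322346287) (nat_lit 76) (nat_lit 14321138607) (nat_lit 300) (nat_lit 5) (nat_lit 317) (nat_lit 5) (nat_lit 301) (nat_lit 5) (nat_lit 490) (nat_lit 473) (nat_lit 237)) (XT.lf (nat_lit 0) (nat_lit 3182931229) (nat_lit 836) (nat_lit 10827609226) (nat_lit 912) (nat_lit 32410450231) (nat_lit 289) (nat_lit 5) (nat_lit 300) (nat_lit 5) (nat_lit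 301) (nat_lit 5) (nat_lit 491) (nat_lit 473) (nat_lit 236))) (XT.nd (nat_lit 78) (nat_lit 608) (nat_lit 0) (XT.lf (nat_lit 0) (nat_lit 18418374550) (nat_lit 912) (nat_lit 18419106981) (nat_lit 76) (nat_lit 10336519929) (nat_lit 289) (nat_lit 5) (nat_lit 301) (nat_lit 5) (nat_lit 290) (nat_lit 5) (nat_lit 492) (nat_lit 473) (nat_lit 235)) (XT.lf (nat_lit 0) (nat_lit 7176054236) (nat_lit 608) (nat_lit 15957298926) (nat_lit 684) (nat_lit 24811002217) (nat_lit 281) (nat_lit 5) (nat_lit 289) (nat_lit 5) (nat_lit 290) (nat_lit 5) (nat_lit 493) (nat_lit 473) (nat_lit 234)))))) (XT.nd (nat_lit 624) (nat_lit 2432) (nat_lit 0) (XT.nd (nat_lit 312) (nat_lit 1216) (nat_lit 0) (XT.nd (nat_lit 156) (nat_lit 532) (nat_lit 0) (XT.nd (nat_lit 78) (nat_lit 608) (nat_lit 0) (XT.lf (nat_lit 0) (nat_lit 28229714099) (nat_lit 684) (nat_lit 14871993918) (nat_lit 76) (nat_lit 5628914018) (nat_lit 281) (nat_lit 5) (nat_lit 290) (nat_lit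 5) (nat_lit 282) (nat_lit 5) (nat_lit 494) (nat_lit 473) (nat_lit 233)) (XT.lf (nat_lit 0) (nat_lit 11873730941) (nat_lit 608) (nat_lit 21876153298) (nat_lit 684) (nat_lit 15782465000) (nat_lit 273) (nat_lit 5) (nat_lit 281) (nat_lit 5) (nat_lit 282) (nat_lit 5) (nat_lit 495) (nat_lit 473) (nat_lit 232))) (XT.nd (nat_lit 78) (nat_lit 532) (nat_lit 0) (XT.lf (nat_lit 0) (nat_lit 39586003473) (nat_lit 684) (nat_lit 10629490220) (nat_lit 76) (nat_lit 138124348) (nat_lit 273) (nat_lit 5) (nat_lit 282) (nat_lit 5) (nat_lit 274) (nat_lit 5) (nat_lit 496) (nat_lit 473) (nat_lit 231)) (XT.lf (nat_lit 0) (nat_lit 17330937971) (nat_lit 532) (nat_lit 28648306127) (nat_lit 608) (nat_lit 5208819770) (nat_lit 266) (nat_lit 5) (nat_lit 273) (nat_lit 5) (nat_lit 274) (nat_lit 5) (nat_lit 497) (nat_lit 473) (nat_lit 230)))) (XT.nd (nat_lit 156) (nat_lit 532) (nat_lit 0) (XT.nd (nat_lit 78) (nat_lit 608) (nat_lit 0) (XT.lf (nat_lit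 0) (nat_lit 613913042) (nat_lit 608) (nat_lit 5703458329) (nat_lit 76) (nat_lit 45726805044) (nat_lit 265) (nat_lit 5) (nat_lit 273) (nat_lit 5) (nat_lit 266) (nat_lit 5) (nat_lit 498) (nat_lit 473) (nat_lit 229)) (XT.lf (nat_lit 0) (nat_lit 6896528873) (nat_lit 684) (nat_lit 29376094911) (nat_lit 76) (nat_lit 16640104676) (nat_lit 257) (nat_lit 5) (nat_lit 266) (nat_lit 5) (nat_lit 258) (nat_lit 5) (nat_lit 499) (nat_lit 473) (nat_lit 228))) (XT.nd (nat_lit 78) (nat_lit 532) (nat_lit 0) (XT.lf (nat_lit 0) (nat_lit 13487247480) (nat_lit 684) (nat_lit 99049512) (nat_lit 76) (nat_lit 40217451429) (nat_lit 257) (nat_lit 5) (nat_lit 266) (nat_lit 5) (nat_lit 258) (nat_lit 5) (nat_lit 500) (nat_lit 473) (nat_lit 227)) (XT.lf (nat_lit 0) (nat_lit 20666223999) (nat_lit 608) (nat_lit 24156292144) (nat_lit 76) (nat_lit 9887266831) (nat_lit 250) (nat_lit 5) (nat_lit 258) (nat_lit 5) (nat_lit 251) (nat_lit 5) (nat_lit 501)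 (nat_lit 473) (nat_lit 226))))) (XT.nd (nat_lit 312) (nat_lit 1444) (nat_lit 0) (XT.nd (nat_lit 156) (nat_lit 456) (nat_lit 0) (XT.nd (nat_lit 78) (nat_lit 0) (nat_lit 0) (XT.lf (nat_lit 0) (nat_lit 6475348307) (nat_lit 532) (nat_lit 21781957379) (nat_lit 608) (nat_lit 27379790882) (nat_lit 243) (nat_lit 5) (nat_lit 250) (nat_lit 5) (nat_lit 251) (nat_lit 5) (nat_lit 502) (nat_lit 473) (nat_lit 225)) (XT.lf (nat_lit 0) (nat_lit 36340190066) (nat_lit 608) (nat_lit 18086120134) (nat_lit 76) (nat_lit 2157997343) (nat_lit 243) (nat_lit 5) (nat_lit 251) (nat_lit 5) (nat_lit 244) (nat_lit 5) (nat_lit 503) (nat_lit 473) (nat_lit 224))) (XT.nd (nat_lit 78) (nat_lit 0) (nat_lit 0) (XT.lf (nat_lit 0) (nat_lit 13977735121) (nat_lit 456) (nat_lit 31036862067) (nat_lit 532) (nat_lit 12534866647) (nat_lit 237) (nat_lit 5) (nat_lit 243) (nat_lit 5) (nat_lit 244) (nat_lit 5) (nat_lit 504) (nat_lit 473) (nat_lit 223)) (XT.lf (nat_lit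 0) (nat_lit 47373130160) (nat_lit 456) (nat_lit 6757769454) (nat_lit 532) (nat_lit 4407225383) (nat_lit 237) (nat_lit 5) (nat_lit 243) (nat_lit 5) (nat_lit 244) (nat_lit 5) (nat_lit 505) (nat_lit 473) (nat_lit 222)))) (XT.nd (nat_lit 156) (nat_lit 912) (nat_lit 0) (XT.nd (nat_lit 78) (nat_lit 0) (nat_lit 0) (XT.lf (nat_lit 0) (nat_lit 4281290788) (nat_lit 532) (nat_lit 37110720049) (nat_lit 76) (nat_lit 18151459954) (nat_lit 230) (nat_lit 5) (nat_lit 237) (nat_lit 5) (nat_lit 231) (nat_lit 5) (nat_lit 506) (nat_lit 473) (nat_lit 221)) (XT.lf (nat_lit 0) (nat_lit 13321714248) (nat_lit 532) (nat_lit 3421080839) (nat_lit 76) (nat_lit 43829477881) (nat_lit 230) (nat_lit 5) (nat_lit 237) (nat_lit 5) (nat_lit 231) (nat_lit 5) (nat_lit 507) (nat_lit 473) (nat_lit 220))) (XT.nd (nat_lit 78) (nat_lit 456) (nat_lit 0) (XT.lf (nat_lit 0) (nat_lit 23025233510) (nat_lit 532) (nat_lit 29808259751) (nat_lit 76) (nat_lit 8786689523)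 (nat_lit 224) (nat_lit 5) (nat_lit 231) (nat_lit 5) (nat_lit 225) (nat_lit 5) (nat_lit 508) (nat_lit 473) (nat_lit 219)) (XT.lf (nat_lit 0) (nat_lit 5411939330) (nat_lit 456) (nat_lit 27859705172) (nat_lit 532) (nat_lit 29420331872) (nat_lit 218) (nat_lit 5) (nat_lit 224) (nat_lit 5) (nat_lit 225) (nat_lit 5) (nat_lit 509) (nat_lit 473) (nat_lit 218))))))) (XT.nd (nat_lit 1248) (nat_lit 2888) (nat_lit 0) (XT.nd (nat_lit 624) (nat_lit 1748) (nat_lit 0) (XT.nd (nat_lit 312) (nat_lit 760) (nat_lit 0) (XT.nd (nat_lit 156) (nat_lit 532) (nat_lit 0) (XT.nd (nat_lit 78) (nat_lit 380) (nat_lit 0) (XT.lf (nat_lit 0) (nat_lit 42298688214) (nat_lit 456) (nat_lit 1826884904) (nat_lit 532) (nat_lit 19661346955) (nat_lit 218) (nat_lit 5) (nat_lit 224) (nat_lit 5) (nat_lit 225) (nat_lit 5) (nat_lit 510) (nat_lit 473) (nat_lit 217)) (XT.lf (nat_lit 0) (nat_lit 15437286988) (nat_lit 380) (nat_lit 40255558731) (nat_lit 456) (nat_lit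 9210234642) (nat_lit 213) (nat_lit 5) (nat_lit 218) (nat_lit 5) (nat_lit 219) (nat_lit 5) (nat_lit 511) (nat_lit 473) (nat_lit 216))) (XT.nd (nat_lit 78) (nat_lit 456) (nat_lit 0) (XT.lf (nat_lit 0) (nat_lit 1760454373) (nat_lit 456) (nat_lit 12171429330) (nat_lit 76) (nat_lit 52113302288) (nat_lit 212) (nat_lit 5) (nat_lit 218) (nat_lit 5) (nat_lit 213) (nat_lit 5) (nat_lit 512) (nat_lit 473) (nat_lit 215)) (XT.lf (nat_lit 0) (nat_lit 13260837643) (nat_lit 532) (nat_lit 40671361062) (nat_lit 76) (nat_lit 13275049720) (nat_lit 206) (nat_lit 5) (nat_lit 213) (nat_lit 5) (nat_lit 207) (nat_lit 5) (nat_lit 513) (nat_lit 473) (nat_lit 214)))) (XT.nd (nat_lit 156) (nat_lit 380) (nat_lit 0) (XT.nd (nat_lit 78) (nat_lit 380) (nat_lit 0) (XT.lf (nat_lit 0) (nat_lit 25367482800) (nat_lit 532) (nat_lit 1886790020) (nat_lit 76) (nat_lit 41142062454) (nat_lit 206) (nat_lit 5) (nat_lit 213) (nat_lit 5) (nat_lit 207) (nat_lit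 5) (nat_lit 514) (nat_lit 473) (nat_lit 213)) (XT.lf (nat_lit 0) (nat_lit 38215522589) (nat_lit 456) (nat_lit 30798019987) (nat_lit 76) (nat_lit 596206346) (nat_lit 201) (nat_lit 5) (nat_lit 207) (nat_lit 5) (nat_lit 202) (nat_lit 5) (nat_lit 515) (nat_lit 473) (nat_lit 212))) (XT.nd (nat_lit 78) (nat_lit 0) (nat_lit 0) (XT.lf (nat_lit 0) (nat_lit 9831651947) (nat_lit 380) (nat_lit 42000166069) (nat_lit 456) (nat_lit 19016262582) (nat_lit 196) (nat_lit 5) (nat_lit 201) (nat_lit 5) (nat_lit 202) (nat_lit 5) (nat_lit 516) (nat_lit 473) (nat_lit 211)) (XT.lf (nat_lit 0) (nat_lit 52310500106) (nat_lit 380) (nat_lit 13856335265) (nat_lit 456) (nat_lit 5947419909) (nat_lit 196) (nat_lit 5) (nat_lit 201) (nat_lit 5) (nat_lit 202) (nat_lit 5) (nat_lit 517) (nat_lit 473) (nat_lit 210))))) (XT.nd (nat_lit 312) (nat_lit 684) (nat_lit 0) (XT.nd (nat_lit 156) (nat_lit 684) (nat_lit 0) (XT.nd (nat_lit 78) (nat_lit 0) (nat_lit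 0) (XT.lf (nat_lit 0) (nat_lit 7735775457) (nat_lit 380) (nat_lit 50536717450) (nat_lit 76) (nat_lit 15132688534) (nat_lit 191) (nat_lit 5) (nat_lit 196) (nat_lit 5) (nat_lit 192) (nat_lit 5) (nat_lit 518) (nat_lit 473) (nat_lit 209)) (XT.lf (nat_lit 0) (nat_lit 22048337758) (nat_lit 380) (nat_lit 7701122744) (nat_lit 76) (nat_lit 44973456121) (nat_lit 191) (nat_lit 5) (nat_lit 196) (nat_lit 5) (nat_lit 192) (nat_lit 5) (nat_lit 519) (nat_lit 473) (nat_lit 208))) (XT.nd (nat_lit 78) (nat_lit 304) (nat_lit 0) (XT.lf (nat_lit 0) (nat_lit 37143332971) (nat_lit 380) (nat_lit 3267811) (nat_lit 456) (nat_lit 38922893405) (nat_lit 186) (nat_lit 5) (nat_lit 191) (nat_lit 5) (nat_lit 192) (nat_lit 5) (nat_lit 520) (nat_lit 473) (nat_lit 207)) (XT.lf (nat_lit 0) (nat_lit 5854829516) (nat_lit 304) (nat_lit 47271571986) (nat_lit 380) (nat_lit 24317209926) (nat_lit 182) (nat_lit 5) (nat_lit 186) (nat_lit 5) (nat_lit 187) (nat_lit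 5) (nat_lit 521) (nat_lit 473) (nat_lit 206)))) (XT.nd (nat_lit 156) (nat_lit 304) (nat_lit 0) (XT.nd (nat_lit 78) (nat_lit 380) (nat_lit 0) (XT.lf (nat_lit 0) (nat_lit 52776159355) (nat_lit 304) (nat_lit 17201845946) (nat_lit 380) (nat_lit 8869174653) (nat_lit 182) (nat_lit 5) (nat_lit 186) (nat_lit 5) (nat_lit 187) (nat_lit 5) (nat_lit 522) (nat_lit 473) (nat_lit 205)) (XT.lf (nat_lit 0) (nat_lit 7242608555) (nat_lit 380) (nat_lit 59263364025) (nat_lit 76) (nat_lit 13774720322) (nat_lit 177) (nat_lit 5) (nat_lit 182) (nat_lit 5) (nat_lit 178) (nat_lit 5) (nat_lit 523) (nat_lit 473) (nat_lit 204))) (XT.nd (nat_lit 78) (nat_lit 304) (nat_lit 0) (XT.lf (nat_lit 0) (nat_lit 24094992149) (nat_lit 380) (nat_lit 11958287454) (nat_lit 76) (nat_lit 45688232007) (nat_lit 177) (nat_lit 5) (nat_lit 182) (nat_lit 5) (nat_lit 178) (nat_lit 5) (nat_lit 524) (nat_lit 473) (nat_lit 203)) (XT.lf (nat_lit 0) (nat_lit 37496667630)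 (nat_lit 304) (nat_lit 4316060750) (nat_lit 380) (nat_lit 41422633102) (nat_lit 173) (nat_lit 5) (nat_lit 177) (nat_lit 5) (nat_lit 178) (nat_lit 5) (nat_lit 525) (nat_lit 473) (nat_lit 202)))))) (XT.nd (nat_lit 624) (nat_lit 1292) (nat_lit 0) (XT.nd (nat_lit 312) (nat_lit 912) (nat_lit 0) (XT.nd (nat_lit 156) (nat_lit 380) (nat_lit 0) (XT.nd (nat_lit 78) (nat_lit 0) (nat_lit 0) (XT.lf (nat_lit 0) (nat_lit 3707432962) (nat_lit 304) (nat_lit 56784241218) (nat_lit 380) (nat_lit 24269462382) (nat_lit 169) (nat_lit 5) (nat_lit 173) (nat_lit 5) (nat_lit 174) (nat_lit 5) (nat_lit 526) (nat_lit 473) (nat_lit 201)) (XT.lf (nat_lit 0) (nat_lit 55529991901) (nat_lit 304) (nat_lit 24704538863) (nat_lit 380) (nat_lit 6083047893) (nat_lit 169) (nat_lit 5) (nat_lit 173) (nat_lit 5) (nat_lit 174) (nat_lit 5) (nat_lit 527) (nat_lit 473) (nat_lit 200))) (XT.nd (nat_lit 78) (nat_lit 0) (nat_lit 0) (XT.lf (nat_lit 0) (nat_lit 12689422207)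 (nat_lit 380) (nat_lit 66715113211) (nat_lit 76) (nat_lit 8503912244) (nat_lit 164) (nat_lit 5) (nat_lit 169) (nat_lit 5) (nat_lit 165) (nat_lit 5) (nat_lit 528) (nat_lit 473) (nat_lit 199)) (XT.lf (nat_lit 0) (nat_lit 32460750701) (nat_lit 380) (nat_lit 14481780040) (nat_lit 76) (nat_lit 42585966755) (nat_lit 164) (nat_lit 5) (nat_lit 169) (nat_lit 5) (nat_lit 165) (nat_lit 5) (nat_lit 529) (nat_lit 473) (nat_lit 198)))) (XT.nd (nat_lit 156) (nat_lit 380) (nat_lit 0) (XT.nd (nat_lit 78) (nat_lit 228) (nat_lit 0) (XT.lf (nat_lit 0) (nat_lit 40100121793) (nat_lit 304) (nat_lit 13109958059) (nat_lit 380) (nat_lit 37975523180) (nat_lit 160) (nat_lit 5) (nat_lit 164) (nat_lit 5) (nat_lit 165) (nat_lit 5) (nat_lit 530) (nat_lit 473) (nat_lit 197)) (XT.lf (nat_lit 0) (nat_lit 3586965169) (nat_lit 228) (nat_lit 71385443929) (nat_lit 304) (nat_lit 17908297060) (nat_lit 157) (nat_lit 5) (nat_lit 160) (nat_lit 5) (nat_lit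 161) (nat_lit 5) (nat_lit 531) (nat_lit 473) (nat_lit 196))) (XT.nd (nat_lit 78) (nat_lit 304) (nat_lit 0) (XT.lf (nat_lit 0) (nat_lit 3357244468) (nat_lit 304) (nat_lit 33826785888) (nat_lit 76) (nat_lit 57422330613) (nat_lit 156) (nat_lit 5) (nat_lit 160) (nat_lit 5) (nat_lit 157) (nat_lit 5) (nat_lit 532) (nat_lit 473) (nat_lit 195)) (XT.lf (nat_lit 0) (nat_lit 23586209569) (nat_lit 304) (nat_lit 1540748426) (nat_lit 380) (nat_lit 71244723818) (nat_lit 152) (nat_lit 5) (nat_lit 156) (nat_lit 5) (nat_lit 157) (nat_lit 5) (nat_lit 533) (nat_lit 473) (nat_lit 194))))) (XT.nd (nat_lit 312) (nat_lit 760) (nat_lit 0) (XT.nd (nat_lit 156) (nat_lit 304) (nat_lit 0) (XT.nd (nat_lit 78) (nat_lit 228) (nat_lit 0) (XT.lf (nat_lit 0) (nat_lit 48232247112) (nat_lit 380) (nat_lit 15107094528) (nat_lit 76) (nat_lit 34830146140) (nat_lit 152) (nat_lit 5) (nat_lit 157) (nat_lit 5) (nat_lit 153) (nat_lit 5) (nat_lit 534) (nat_lit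 473) (nat_lit 193)) (XT.lf (nat_lit 0) (nat_lit 45166858923) (nat_lit 228) (nat_lit 27312703934) (nat_lit 304) (nat_lit 27528199059) (nat_lit 149) (nat_lit 5) (nat_lit 152) (nat_lit 5) (nat_lit 153) (nat_lit 5) (nat_lit 535) (nat_lit 473) (nat_lit 192))) (XT.nd (nat_lit 78) (nat_lit 76) (nat_lit 0) (XT.lf (nat_lit 0) (nat_lit 5676312383) (nat_lit 228) (nat_lit 92080211472) (nat_lit 304) (nat_lit 4135593670) (nat_lit 146) (nat_lit 5) (nat_lit 149) (nat_lit 5) (nat_lit 150) (nat_lit 5) (nat_lit 536) (nat_lit 473) (nat_lit 191)) (XT.lf (nat_lit 0) (nat_lit 20398461803) (nat_lit 304) (nat_lit 35151818872) (nat_lit 76) (nat_lit 48252093275) (nat_lit 145) (nat_lit 5) (nat_lit 149) (nat_lit 5) (nat_lit 146) (nat_lit 5) (nat_lit 537) (nat_lit 473) (nat_lit 190)))) (XT.nd (nat_lit 156) (nat_lit 532) (nat_lit 0) (XT.nd (nat_lit 78) (nat_lit 0) (nat_lit 0) (XT.lf (nat_lit 0) (nat_lit 28253600442) (nat_lit 228) (nat_lit 17602872495)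 (nat_lit 304) (nat_lit 59904105100) (nat_lit 142) (nat_lit 5) (nat_lit 145) (nat_lit 5) (nat_lit 146) (nat_lit 5) (nat_lit 538) (nat_lit 473) (nat_lit 189)) (XT.lf (nat_lit 0) (nat_lit 72642679249) (nat_lit 304) (nat_lit 13696014711) (nat_lit 76) (nat_lit 21421900661) (nat_lit 142) (nat_lit 5) (nat_lit 146) (nat_lit 5) (nat_lit 143) (nat_lit 5) (nat_lit 539) (nat_lit 473) (nat_lit 188))) (XT.nd (nat_lit 78) (nat_lit 304) (nat_lit 0) (XT.lf (nat_lit 0) (nat_lit 52886142034) (nat_lit 228) (nat_lit 48028473577) (nat_lit 304) (nat_lit 8885531798) (nat_lit 139) (nat_lit 5) (nat_lit 142) (nat_lit 5) (nat_lit 143) (nat_lit 5) (nat_lit 540) (nat_lit 473) (nat_lit 187)) (XT.lf (nat_lit 0) (nat_lit 9865764307) (nat_lit 228) (nat_lit 8148196696) (nat_lit 304) (nat_lit 93874676579) (nat_lit 135) (nat_lit 5) (nat_lit 138) (nat_lit 5) (nat_lit 139) (nat_lit 5) (nat_lit 541) (nat_lit 473) (nat_lit 186))))))))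
noncomputable def xc230 : XT := (XT.nd (nat_lit 59436) (nat_lit 0) (nat_lit 1824) (XT.nd (nat_lit 58188) (nat_lit 0) (nat_lit 8968) (XT.nd (nat_lit 57564) (nat_lit 0) (nat_lit 13604) (XT.nd (nat_lit 57252) (nat_lit 0) (nat_lit 13452) (XT.nd (nat_lit 78) (nat_lit 228) (nat_lit 0) (XT.lf (nat_lit 0) (nat_lit 46438276728) (nat_lit 304) (nat_lit 34617980998) (nat_lit 76) (nat_lit 32953992630) (nat_lit 135) (nat_lit 5) (nat_lit 139) (nat_lit 5) (nat_lit 136) (nat_lit 5) (nat_lit 542) (nat_lit 473) (nat_lit 185)) (XT.nd (nat_lit 57096) (nat_lit 0) (nat_lit 13452) (XT.lf (nat_lit 0) (nat_lit 35418700222) (nat_lit 228) (nat_lit 40717267596) (nat_lit 304) (nat_lit 40046924336) (nat_lit 132) (nat_lit 5) (nat_lit 135) (nat_lit 5) (nat_lit 136) (nat_lit 5) (nat_lit 543) (nat_lit 473) (nat_lit 184)) (XT.lf (nat_lit 0) (nat_lit 9248991140) (nat_lit 1292) (nat_lit 4431079881) (nat_lit 1292) (nat_lit 4431079881) (nat_lit 309)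 (nat_lit 3) (nat_lit 326) (nat_lit 3) (nat_lit 326) (nat_lit 5) (nat_lit 474) (nat_lit 474) (nat_lit 252)))) (XT.nd (nat_lit 156) (nat_lit 0) (nat_lit 76) (XT.nd (nat_lit 78) (nat_lit 0) (nat_lit 76) (XT.lf (nat_lit 76) (nat_lit 9284661131) (nat_lit 0) (nat_lit 9629723617) (nat_lit 1292) (nat_lit 17847079008) (nat_lit 310) (nat_lit 5) (nat_lit 309) (nat_lit 3) (nat_lit 326) (nat_lit 5) (nat_lit 475) (nat_lit 474) (nat_lit 251)) (XT.lf (nat_lit 0) (nat_lit 19514697840) (nat_lit 1216) (nat_lit 9241517686) (nat_lit 1292) (nat_lit 8555442662) (nat_lit 310) (nat_lit 5) (nat_lit 326) (nat_lit 5) (nat_lit 327) (nat_lit 5) (nat_lit 476) (nat_lit 474) (nat_lit 250))) (XT.nd (nat_lit 78) (nat_lit 0) (nat_lit 76) (XT.lf (nat_lit 76) (nat_lit 9632390137) (nat_lit 0) (nat_lit 10686683078) (nat_lit 1292) (nat_lit 17553703823) (nat_lit 311) (nat_lit 5) (nat_lit 310) (nat_lit 5) (nat_lit 327) (nat_lit 5) (nat_lit 477) (nat_lit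 474) (nat_lit 249)) (XT.lf (nat_lit 0) (nat_lit 21316173480) (nat_lit 1216) (nat_lit 9264182985) (nat_lit 1292) (nat_lit 7865315351) (nat_lit 311) (nat_lit 5) (nat_lit 327) (nat_lit 5) (nat_lit 328) (nat_lit 5) (nat_lit 478) (nat_lit 474) (nat_lit 248))))) (XT.nd (nat_lit 312) (nat_lit 0) (nat_lit 152) (XT.nd (nat_lit 156) (nat_lit 0) (nat_lit 76) (XT.nd (nat_lit 78) (nat_lit 0) (nat_lit 76) (XT.lf (nat_lit 76) (nat_lit 10376914413) (nat_lit 0) (nat_lit 12170052778) (nat_lit 1292) (nat_lit 16482672996) (nat_lit 312) (nat_lit 5) (nat_lit 311) (nat_lit 5) (nat_lit 328) (nat_lit 5) (nat_lit 479) (nat_lit 474) (nat_lit 247)) (XT.lf (nat_lit 0) (nat_lit 23972725724) (nat_lit 1216) (nat_lit 8898513212) (nat_lit 1292) (nat_lit 6755147603) (nat_lit 312) (nat_lit 5) (nat_lit 328) (nat_lit 5) (nat_lit 329) (nat_lit 5) (nat_lit 480) (nat_lit 474) (nat_lit 246))) (XT.nd (nat_lit 78) (nat_lit 0) (nat_lit 76) (XT.lf (nat_lit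 76) (nat_lit 11552164170) (nat_lit 0) (nat_lit 14118955704) (nat_lit 1292) (nat_lit 14563019677) (nat_lit 313) (nat_lit 5) (nat_lit 312) (nat_lit 5) (nat_lit 329) (nat_lit 5) (nat_lit 481) (nat_lit 474) (nat_lit 245)) (XT.lf (nat_lit 0) (nat_lit 27559523938) (nat_lit 1216) (nat_lit 8110626955) (nat_lit 1292) (nat_lit 5185802666) (nat_lit 313) (nat_lit 5) (nat_lit 329) (nat_lit 5) (nat_lit 330) (nat_lit 5) (nat_lit 482) (nat_lit 474) (nat_lit 244)))) (XT.nd (nat_lit 156) (nat_lit 0) (nat_lit 76) (XT.nd (nat_lit 78) (nat_lit 0) (nat_lit 76) (XT.lf (nat_lit 76) (nat_lit 13194439980) (nat_lit 0) (nat_lit 16575177185) (nat_lit 1292) (nat_lit 11718853857) (nat_lit 314) (nat_lit 5) (nat_lit 313) (nat_lit 5) (nat_lit 330) (nat_lit 5) (nat_lit 483) (nat_lit 474) (nat_lit 243)) (XT.lf (nat_lit 0) (nat_lit 32156906494) (nat_lit 1216) (nat_lit 6864269134) (nat_lit 1292) (nat_lit 3115461725) (nat_lit 314) (nat_lit 5) (nat_lit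 330) (nat_lit 5) (nat_lit 331) (nat_lit 5) (nat_lit 484) (nat_lit 474) (nat_lit 242))) (XT.nd (nat_lit 78) (nat_lit 0) (nat_lit 76) (XT.lf (nat_lit 76) (nat_lit 15342555045) (nat_lit 0) (nat_lit 19583349783) (nat_lit 1292) (nat_lit 7869041273) (nat_lit 315) (nat_lit 5) (nat_lit 314) (nat_lit 5) (nat_lit 331) (nat_lit 5) (nat_lit 485) (nat_lit 474) (nat_lit 241)) (XT.lf (nat_lit 0) (nat_lit 37850716065) (nat_lit 1216) (nat_lit 5120668124) (nat_lit 1292) (nat_lit 499437767) (nat_lit 315) (nat_lit 5) (nat_lit 331) (nat_lit 5) (nat_lit 332) (nat_lit 5) (nat_lit 486) (nat_lit 474) (nat_lit 240)))))) (XT.nd (nat_lit 624) (nat_lit 2356) (nat_lit 0) (XT.nd (nat_lit 312) (nat_lit 1368) (nat_lit 0) (XT.nd (nat_lit 156) (nat_lit 1216) (nat_lit 0) (XT.nd (nat_lit 78) (nat_lit 0) (nat_lit 0) (XT.lf (nat_lit 76) (nat_lit 18037986035) (nat_lit 0) (nat_lit 23191149415) (nat_lit 1292) (nat_lit 2926862852) (nat_lit 316) (nat_lit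 5) (nat_lit 315) (nat_lit 5) (nat_lit 332) (nat_lit 5) (nat_lit 487) (nat_lit 474) (nat_lit 239)) (XT.lf (nat_lit 76) (nat_lit 41995267414) (nat_lit 0) (nat_lit 2763956673) (nat_lit 1292) (nat_lit 100996477) (nat_lit 316) (nat_lit 5) (nat_lit 315) (nat_lit 5) (nat_lit 332) (nat_lit 5) (nat_lit 488) (nat_lit 474) (nat_lit 238))) (XT.nd (nat_lit 78) (nat_lit 0) (nat_lit 0) (XT.lf (nat_lit 0) (nat_lit 3137896187) (nat_lit 1292) (nat_lit 24279920717) (nat_lit 1368) (nat_lit 18155450168) (nat_lit 299) (nat_lit 5) (nat_lit 316) (nat_lit 5) (nat_lit 317) (nat_lit 5) (nat_lit 489) (nat_lit 474) (nat_lit 237)) (XT.lf (nat_lit 0) (nat_lit 6527175193) (nat_lit 1292) (nat_lit 101493936) (nat_lit 1368) (nat_lit 39677348480) (nat_lit 299) (nat_lit 5) (nat_lit 316) (nat_lit 5) (nat_lit 317) (nat_lit 5) (nat_lit 490) (nat_lit 474) (nat_lit 236)))) (XT.nd (nat_lit 156) (nat_lit 608) (nat_lit 0) (XT.nd (nat_lit 78) (nat_lit 836)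 (nat_lit 0) (XT.lf (nat_lit 0) (nat_lit 10404510713) (nat_lit 1292) (nat_lit 21903236106) (nat_lit 76) (nat_lit 14741412609) (nat_lit 300) (nat_lit 5) (nat_lit 317) (nat_lit 5) (nat_lit 301) (nat_lit 5) (nat_lit 491) (nat_lit 474) (nat_lit 235)) (XT.lf (nat_lit 0) (nat_lit 3336623456) (nat_lit 836) (nat_lit 11159016531) (nat_lit 912) (nat_lit 33316031413) (nat_lit 289) (nat_lit 5) (nat_lit 300) (nat_lit 5) (nat_lit 301) (nat_lit 5) (nat_lit 492) (nat_lit 474) (nat_lit 234))) (XT.nd (nat_lit 78) (nat_lit 608) (nat_lit 0) (XT.lf (nat_lit 0) (nat_lit 19033760813) (nat_lit 912) (nat_lit 18913217532) (nat_lit 76) (nat_lit 10640352761) (nat_lit 289) (nat_lit 5) (nat_lit 301) (nat_lit 5) (nat_lit 290) (nat_lit 5) (nat_lit 493) (nat_lit 474) (nat_lit 233)) (XT.lf (nat_lit 0) (nat_lit 7449225359) (nat_lit 608) (nat_lit 16439689748) (nat_lit 684) (nat_lit 25491918903) (nat_lit 281) (nat_lit 5) (nat_lit 289) (nat_lit 5) (nat_lit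 290) (nat_lit 5) (nat_lit 494) (nat_lit 474) (nat_lit 232))))) (XT.nd (nat_lit 312) (nat_lit 1216) (nat_lit 0) (XT.nd (nat_lit 156) (nat_lit 532) (nat_lit 0) (XT.nd (nat_lit 78) (nat_lit 608) (nat_lit 0) (XT.lf (nat_lit 0) (nat_lit 29136339554) (nat_lit 684) (nat_lit 15260117985) (nat_lit 76) (nat_lit 5794286096) (nat_lit 281) (nat_lit 5) (nat_lit 290) (nat_lit 5) (nat_lit 282) (nat_lit 5) (nat_lit 495) (nat_lit 474) (nat_lit 231)) (XT.lf (nat_lit 0) (nat_lit 12287409642) (nat_lit 608) (nat_lit 22533517737) (nat_lit 684) (nat_lit 16195631047) (nat_lit 273) (nat_lit 5) (nat_lit 281) (nat_lit 5) (nat_lit 282) (nat_lit 5) (nat_lit 496) (nat_lit 474) (nat_lit 230))) (XT.nd (nat_lit 78) (nat_lit 532) (nat_lit 0) (XT.lf (nat_lit 0) (nat_lit 40830414870) (nat_lit 684) (nat_lit 10890861875) (nat_lit 76) (nat_lit 141240148) (nat_lit 273) (nat_lit 5) (nat_lit 282) (nat_lit 5) (nat_lit 274) (nat_lit 5) (nat_lit 497) (nat_lit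 474) (nat_lit 229)) (XT.lf (nat_lit 0) (nat_lit 17907815308) (nat_lit 532) (nat_lit 29506529556) (nat_lit 608) (nat_lit 5307684604) (nat_lit 266) (nat_lit 5) (nat_lit 273) (nat_lit 5) (nat_lit 274) (nat_lit 5) (nat_lit 498) (nat_lit 474) (nat_lit 228)))) (XT.nd (nat_lit 156) (nat_lit 532) (nat_lit 0) (XT.nd (nat_lit 78) (nat_lit 608) (nat_lit 0) (XT.lf (nat_lit 0) (nat_lit 686970902) (nat_lit 608) (nat_lit 5818179796) (nat_lit 76) (nat_lit 47098707449) (nat_lit 265) (nat_lit 5) (nat_lit 273) (nat_lit 5) (nat_lit 266) (nat_lit 5) (nat_lit 499) (nat_lit 474) (nat_lit 227)) (XT.lf (nat_lit 0) (nat_lit 7157031974) (nat_lit 684) (nat_lit 30199958021) (nat_lit 76) (nat_lit 17141507881) (nat_lit 257) (nat_lit 5) (nat_lit 266) (nat_lit 5) (nat_lit 258) (nat_lit 5) (nat_lit 500) (nat_lit 474) (nat_lit 226))) (XT.nd (nat_lit 78) (nat_lit 532) (nat_lit 0) (XT.lf (nat_lit 0) (nat_lit 13943910764) (nat_lit 684) (nat_lit 46273680)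 (nat_lit 76) (nat_lit 41426110957) (nat_lit 257) (nat_lit 5) (nat_lit 266) (nat_lit 5) (nat_lit 258) (nat_lit 5) (nat_lit 501) (nat_lit 474) (nat_lit 225)) (XT.lf (nat_lit 0) (nat_lit 21337311101) (nat_lit 608) (nat_lit 24824284135) (nat_lit 76) (nat_lit 10187944238) (nat_lit 250) (nat_lit 5) (nat_lit 258) (nat_lit 5) (nat_lit 251) (nat_lit 5) (nat_lit 502) (nat_lit 474) (nat_lit 224))))))) (XT.nd (nat_lit 1170) (nat_lit 3040) (nat_lit 0) (XT.nd (nat_lit 546) (nat_lit 2128) (nat_lit 0) (XT.nd (nat_lit 234) (nat_lit 988) (nat_lit 0) (XT.nd (nat_lit 78) (nat_lit 456) (nat_lit 0) (XT.lf (nat_lit 0) (nat_lit 6725749679) (nat_lit 532) (nat_lit 22429426860) (nat_lit 608) (nat_lit 28149524513) (nat_lit 243) (nat_lit 5) (nat_lit 250) (nat_lit 5) (nat_lit 251) (nat_lit 5) (nat_lit 503) (nat_lit 474) (nat_lit 223)) (XT.nd (nat_lit 78) (nat_lit 456) (nat_lit 0) (XT.lf (nat_lit 0) (nat_lit 37479142617) (nat_lit 608) (nat_lit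 18572789404) (nat_lit 76) (nat_lit 2228438592) (nat_lit 243) (nat_lit 5) (nat_lit 251) (nat_lit 5) (nat_lit 244) (nat_lit 5) (nat_lit 504) (nat_lit 474) (nat_lit 222)) (XT.lf (nat_lit 0) (nat_lit 14452433328) (nat_lit 456) (nat_lit 31960461026) (nat_lit 532) (nat_lit 12861613977) (nat_lit 237) (nat_lit 5) (nat_lit 243) (nat_lit 5) (nat_lit 244) (nat_lit 5) (nat_lit 505) (nat_lit 474) (nat_lit 221)))) (XT.nd (nat_lit 156) (nat_lit 456) (nat_lit 0) (XT.nd (nat_lit 78) (nat_lit 532) (nat_lit 0) (XT.lf (nat_lit 0) (nat_lit 48848077612) (nat_lit 456) (nat_lit 6953214283) (nat_lit 532) (nat_lit 4491579359) (nat_lit 237) (nat_lit 5) (nat_lit 243) (nat_lit 5) (nat_lit 244) (nat_lit 5) (nat_lit 506) (nat_lit 474) (nat_lit 220)) (XT.lf (nat_lit 0) (nat_lit 4455889628) (nat_lit 532) (nat_lit 38168578670) (nat_lit 76) (nat_lit 18703918482) (nat_lit 230) (nat_lit 5) (nat_lit 237) (nat_lit 5) (nat_lit 231) (nat_lit 5) (nat_lit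 507) (nat_lit 474) (nat_lit 219))) (XT.nd (nat_lit 78) (nat_lit 456) (nat_lit 0) (XT.lf (nat_lit 0) (nat_lit 13766181322) (nat_lit 532) (nat_lit 3469865710) (nat_lit 76) (nat_lit 45152046421) (nat_lit 230) (nat_lit 5) (nat_lit 237) (nat_lit 5) (nat_lit 231) (nat_lit 5) (nat_lit 508) (nat_lit 474) (nat_lit 218)) (XT.lf (nat_lit 0) (nat_lit 23760102759) (nat_lit 532) (nat_lit 30647953446) (nat_lit 76) (nat_lit 9059405554) (nat_lit 224) (nat_lit 5) (nat_lit 231) (nat_lit 5) (nat_lit 225) (nat_lit 5) (nat_lit 509) (nat_lit 474) (nat_lit 217))))) (XT.nd (nat_lit 312) (nat_lit 1216) (nat_lit 0) (XT.nd (nat_lit 156) (nat_lit 456) (nat_lit 0) (XT.nd (nat_lit 78) (nat_lit 0) (nat_lit 0) (XT.lf (nat_lit 0) (nat_lit 5628316763) (nat_lit 456) (nat_lit 28684823761) (nat_lit 532) (nat_lit 30258291691) (nat_lit 218) (nat_lit 5) (nat_lit 224) (nat_lit 5) (nat_lit 225) (nat_lit 5) (nat_lit 510) (nat_lit 474) (nat_lit 216)) (XT.lf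 (nat_lit 0) (nat_lit 43620094737) (nat_lit 456) (nat_lit 1871329737) (nat_lit 532) (nat_lit 20207837716) (nat_lit 218) (nat_lit 5) (nat_lit 224) (nat_lit 5) (nat_lit 225) (nat_lit 5) (nat_lit 511) (nat_lit 474) (nat_lit 215))) (XT.nd (nat_lit 78) (nat_lit 76) (nat_lit 0) (XT.lf (nat_lit 0) (nat_lit 15953491751) (nat_lit 380) (nat_lit 41451604748) (nat_lit 456) (nat_lit 9443829436) (nat_lit 213) (nat_lit 5) (nat_lit 218) (nat_lit 5) (nat_lit 219) (nat_lit 5) (nat_lit 512) (nat_lit 474) (nat_lit 214)) (XT.lf (nat_lit 0) (nat_lit 1853927009) (nat_lit 456) (nat_lit 12484220352) (nat_lit 76) (nat_lit 53687171730) (nat_lit 212) (nat_lit 5) (nat_lit 218) (nat_lit 5) (nat_lit 213) (nat_lit 5) (nat_lit 513) (nat_lit 474) (nat_lit 213)))) (XT.nd (nat_lit 156) (nat_lit 760) (nat_lit 0) (XT.nd (nat_lit 78) (nat_lit 0) (nat_lit 0) (XT.lf (nat_lit 0) (nat_lit 13698749898) (nat_lit 532) (nat_lit 41838575526) (nat_lit 76) (nat_lit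 13684935210) (nat_lit 206) (nat_lit 5) (nat_lit 213) (nat_lit 5) (nat_lit 207) (nat_lit 5) (nat_lit 514) (nat_lit 474) (nat_lit 212)) (XT.lf (nat_lit 0) (nat_lit 26167426823) (nat_lit 532) (nat_lit 1892008898) (nat_lit 76) (nat_lit 42387619472) (nat_lit 206) (nat_lit 5) (nat_lit 213) (nat_lit 5) (nat_lit 207) (nat_lit 5) (nat_lit 515) (nat_lit 474) (nat_lit 211))) (XT.nd (nat_lit 78) (nat_lit 380) (nat_lit 0) (XT.lf (nat_lit 0) (nat_lit 39400384504) (nat_lit 456) (nat_lit 31670049982) (nat_lit 76) (nat_lit 626452538) (nat_lit 201) (nat_lit 5) (nat_lit 207) (nat_lit 5) (nat_lit 202) (nat_lit 5) (nat_lit 516) (nat_lit 474) (nat_lit 210)) (XT.lf (nat_lit 0) (nat_lit 10178003183) (nat_lit 380) (nat_lit 43246541378) (nat_lit 456) (nat_lit 19547842888) (nat_lit 196) (nat_lit 5) (nat_lit 201) (nat_lit 5) (nat_lit 202) (nat_lit 5) (nat_lit 517) (nat_lit 474) (nat_lit 209)))))) (XT.nd (nat_lit 624) (nat_lit 1596) (nat_lit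 0) (XT.nd (nat_lit 312) (nat_lit 684) (nat_lit 0) (XT.nd (nat_lit 156) (nat_lit 380) (nat_lit 0) (XT.nd (nat_lit 78) (nat_lit 380) (nat_lit 0) (XT.lf (nat_lit 0) (nat_lit 53929719650) (nat_lit 380) (nat_lit 14258792630) (nat_lit 456) (nat_lit 6088068165) (nat_lit 196) (nat_lit 5) (nat_lit 201) (nat_lit 5) (nat_lit 202) (nat_lit 5) (nat_lit 518) (nat_lit 474) (nat_lit 208)) (XT.lf (nat_lit 0) (nat_lit 8004421001) (nat_lit 380) (nat_lit 52001707900) (nat_lit 76) (nat_lit 15600108613) (nat_lit 191) (nat_lit 5) (nat_lit 196) (nat_lit 5) (nat_lit 192) (nat_lit 5) (nat_lit 519) (nat_lit 474) (nat_lit 207))) (XT.nd (nat_lit 78) (nat_lit 380) (nat_lit 0) (XT.lf (nat_lit 0) (nat_lit 22745294959) (nat_lit 380) (nat_lit 7882534025) (nat_lit 76) (nat_lit 46335707788) (nat_lit 191) (nat_lit 5) (nat_lit 196) (nat_lit 5) (nat_lit 192) (nat_lit 5) (nat_lit 520) (nat_lit 474) (nat_lit 206)) (XT.lf (nat_lit 0) (nat_lit 38296048068)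 (nat_lit 456) (nat_lit 40043863769) (nat_lit 76) (nat_lit 10613623) (nat_lit 186) (nat_lit 5) (nat_lit 192) (nat_lit 5) (nat_lit 187) (nat_lit 5) (nat_lit 521) (nat_lit 474) (nat_lit 205)))) (XT.nd (nat_lit 156) (nat_lit 380) (nat_lit 0) (XT.nd (nat_lit 78) (nat_lit 0) (nat_lit 0) (XT.lf (nat_lit 0) (nat_lit 6080033646) (nat_lit 304) (nat_lit 48674696116) (nat_lit 380) (nat_lit 25011151907) (nat_lit 182) (nat_lit 5) (nat_lit 186) (nat_lit 5) (nat_lit 187) (nat_lit 5) (nat_lit 522) (nat_lit 474) (nat_lit 204)) (XT.lf (nat_lit 0) (nat_lit 54407559907) (nat_lit 304) (nat_lit 17703315858) (nat_lit 380) (nat_lit 9100711721) (nat_lit 182) (nat_lit 5) (nat_lit 186) (nat_lit 5) (nat_lit 187) (nat_lit 5) (nat_lit 523) (nat_lit 474) (nat_lit 203))) (XT.nd (nat_lit 78) (nat_lit 0) (nat_lit 0) (XT.lf (nat_lit 0) (nat_lit 7493373010) (nat_lit 380) (nat_lit 60992093456) (nat_lit 76) (nat_lit 14202640791) (nat_lit 177) (nat_lit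 5) (nat_lit 182) (nat_lit 5) (nat_lit 178) (nat_lit 5) (nat_lit 524) (nat_lit 474) (nat_lit 202)) (XT.lf (nat_lit 0) (nat_lit 24850352787) (nat_lit 380) (nat_lit 12269296767) (nat_lit 76) (nat_lit 47073130287) (nat_lit 177) (nat_lit 5) (nat_lit 182) (nat_lit 5) (nat_lit 178) (nat_lit 5) (nat_lit 525) (nat_lit 474) (nat_lit 201))))) (XT.nd (nat_lit 312) (nat_lit 608) (nat_lit 0) (XT.nd (nat_lit 156) (nat_lit 380) (nat_lit 0) (XT.nd (nat_lit 78) (nat_lit 304) (nat_lit 0) (XT.lf (nat_lit 0) (nat_lit 38668838937) (nat_lit 304) (nat_lit 4430289650) (nat_lit 380) (nat_lit 42632331451) (nat_lit 173) (nat_lit 5) (nat_lit 177) (nat_lit 5) (nat_lit 178) (nat_lit 5) (nat_lit 526) (nat_lit 474) (nat_lit 200)) (XT.lf (nat_lit 0) (nat_lit 3866271457) (nat_lit 304) (nat_lit 58471838789) (nat_lit 380) (nat_lit 24964908150) (nat_lit 169) (nat_lit 5) (nat_lit 173) (nat_lit 5) (nat_lit 174) (nat_lit 5) (nat_lit 527) (nat_lit 474)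 (nat_lit 199))) (XT.nd (nat_lit 78) (nat_lit 380) (nat_lit 0) (XT.lf (nat_lit 0) (nat_lit 57242120304) (nat_lit 304) (nat_lit 25430209334) (nat_lit 380) (nat_lit 6233851850) (nat_lit 169) (nat_lit 5) (nat_lit 173) (nat_lit 5) (nat_lit 174) (nat_lit 5) (nat_lit 528) (nat_lit 474) (nat_lit 198)) (XT.lf (nat_lit 0) (nat_lit 13100866690) (nat_lit 380) (nat_lit 68669409162) (nat_lit 76) (nat_lit 8774500840) (nat_lit 164) (nat_lit 5) (nat_lit 169) (nat_lit 5) (nat_lit 165) (nat_lit 5) (nat_lit 529) (nat_lit 474) (nat_lit 197)))) (XT.nd (nat_lit 156) (nat_lit 304) (nat_lit 0) (XT.nd (nat_lit 78) (nat_lit 304) (nat_lit 0) (XT.lf (nat_lit 0) (nat_lit 33464439064) (nat_lit 380) (nat_lit 14870449514) (nat_lit 76) (nat_lit 43878566368) (nat_lit 164) (nat_lit 5) (nat_lit 169) (nat_lit 5) (nat_lit 165) (nat_lit 5) (nat_lit 530) (nat_lit 474) (nat_lit 196)) (XT.lf (nat_lit 0) (nat_lit 41348460512) (nat_lit 304) (nat_lit 13487353487)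 (nat_lit 380) (nat_lit 39084472716) (nat_lit 160) (nat_lit 5) (nat_lit 164) (nat_lit 5) (nat_lit 165) (nat_lit 5) (nat_lit 531) (nat_lit 474) (nat_lit 195))) (XT.nd (nat_lit 78) (nat_lit 76) (nat_lit 0) (XT.lf (nat_lit 0) (nat_lit 3740189092) (nat_lit 228) (nat_lit 73510553693) (nat_lit 304) (nat_lit 18415508301) (nat_lit 157) (nat_lit 5) (nat_lit 160) (nat_lit 5) (nat_lit 161) (nat_lit 5) (nat_lit 532) (nat_lit 474) (nat_lit 194)) (XT.lf (nat_lit 0) (nat_lit 3486555518) (nat_lit 304) (nat_lit 34796732684) (nat_lit 76) (nat_lit 59160404452) (nat_lit 156) (nat_lit 5) (nat_lit 160) (nat_lit 5) (nat_lit 157) (nat_lit 5) (nat_lit 533) (nat_lit 474) (nat_lit 193))))))))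
noncomputable def xc231 : XT := (XT.nd (nat_lit 59670) (nat_lit 0) (nat_lit 2584) (XT.nd (nat_lit 58422) (nat_lit 0) (nat_lit 10488) (XT.nd (nat_lit 624) (nat_lit 304) (nat_lit 0) (XT.nd (nat_lit 234) (nat_lit 760) (nat_lit 0) (XT.nd (nat_lit 78) (nat_lit 228) (nat_lit 0) (XT.lf (nat_lit 0) (nat_lit 24338212864) (nat_lit 304) (nat_lit 1570741723) (nat_lit 380) (nat_lit 73353030750) (nat_lit 152) (nat_lit 5) (nat_lit 156) (nat_lit 5) (nat_lit 157) (nat_lit 5) (nat_lit 534) (nat_lit 474) (nat_lit 192)) (XT.nd (nat_lit 78) (nat_lit 228) (nat_lit 0) (XT.lf (nat_lit 0) (nat_lit 49706732833) (nat_lit 380) (nat_lit 15516513254) (nat_lit 76) (nat_lit 35890499521) (nat_lit 152) (nat_lit 5) (nat_lit 157) (nat_lit 5) (nat_lit 153) (nat_lit 5) (nat_lit 535) (nat_lit 474) (nat_lit 191)) (XT.lf (nat_lit 0) (nat_lit 46565229446) (nat_lit 228) (nat_lit 28115853948) (nat_lit 304) (nat_lit 28326096149) (nat_lit 149) (nat_lit 5)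 (nat_lit 152) (nat_lit 5) (nat_lit 153) (nat_lit 5) (nat_lit 536) (nat_lit 474) (nat_lit 190)))) (XT.nd (nat_lit 156) (nat_lit 456) (nat_lit 0) (XT.nd (nat_lit 78) (nat_lit 76) (nat_lit 0) (XT.lf (nat_lit 0) (nat_lit 5890194109) (nat_lit 228) (nat_lit 94825939329) (nat_lit 304) (nat_lit 4231939013) (nat_lit 146) (nat_lit 5) (nat_lit 149) (nat_lit 5) (nat_lit 150) (nat_lit 5) (nat_lit 537) (nat_lit 474) (nat_lit 189)) (XT.lf (nat_lit 0) (nat_lit 21036805465) (nat_lit 304) (nat_lit 36163524439) (nat_lit 76) (nat_lit 49715322454) (nat_lit 145) (nat_lit 5) (nat_lit 149) (nat_lit 5) (nat_lit 146) (nat_lit 5) (nat_lit 538) (nat_lit 474) (nat_lit 188))) (XT.nd (nat_lit 156) (nat_lit 228) (nat_lit 0) (XT.lf (nat_lit 0) (nat_lit 29143637366) (nat_lit 228) (nat_lit 18114558784) (nat_lit 304) (nat_lit 61674417273) (nat_lit 142) (nat_lit 5) (nat_lit 145) (nat_lit 5) (nat_lit 146) (nat_lit 5) (nat_lit 539) (nat_lit 474) (nat_lit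 187)) (XT.lf (nat_lit 0) (nat_lit 54514115741) (nat_lit 228) (nat_lit 49453019648) (nat_lit 304) (nat_lit 9126262982) (nat_lit 139) (nat_lit 5) (nat_lit 142) (nat_lit 5) (nat_lit 143) (nat_lit 5) (nat_lit 541) (nat_lit 474) (nat_lit 185))))) (XT.nd (nat_lit 57486) (nat_lit 0) (nat_lit 13300) (XT.nd (nat_lit 57330) (nat_lit 0) (nat_lit 13224) (XT.nd (nat_lit 57252) (nat_lit 0) (nat_lit 13224) (XT.lf (nat_lit 0) (nat_lit 10203221072) (nat_lit 228) (nat_lit 8376150384) (nat_lit 304) (nat_lit 96665174541) (nat_lit 135) (nat_lit 5) (nat_lit 138) (nat_lit 5) (nat_lit 139) (nat_lit 5) (nat_lit 542) (nat_lit 474) (nat_lit 184)) (XT.lf (nat_lit 0) (nat_lit 9575666182) (nat_lit 1292) (nat_lit 4538669268) (nat_lit 1292) (nat_lit 4538669268) (nat_lit 309) (nat_lit 3) (nat_lit 326) (nat_lit 3) (nat_lit 326) (nat_lit 5) (nat_lit 475) (nat_lit 475) (nat_lit 250))) (XT.nd (nat_lit 78) (nat_lit 0) (nat_lit 76) (XT.lf (nat_lit 76)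 (nat_lit 9613390062) (nat_lit 0) (nat_lit 9964452964) (nat_lit 1292) (nat_lit 18283575004) (nat_lit 310) (nat_lit 5) (nat_lit 309) (nat_lit 3) (nat_lit 326) (nat_lit 5) (nat_lit 476) (nat_lit 475) (nat_lit 249)) (XT.lf (nat_lit 0) (nat_lit 20192940829) (nat_lit 1216) (nat_lit 9466802677) (nat_lit 1292) (nat_lit 8768471785) (nat_lit 310) (nat_lit 5) (nat_lit 326) (nat_lit 5) (nat_lit 327) (nat_lit 5) (nat_lit 477) (nat_lit 475) (nat_lit 248)))) (XT.nd (nat_lit 156) (nat_lit 0) (nat_lit 76) (XT.nd (nat_lit 78) (nat_lit 0) (nat_lit 76) (XT.lf (nat_lit 76) (nat_lit 9972812963) (nat_lit 0) (nat_lit 11046426110) (nat_lit 1292) (nat_lit 17986995137) (nat_lit 311) (nat_lit 5) (nat_lit 310) (nat_lit 5) (nat_lit 327) (nat_lit 5) (nat_lit 478) (nat_lit 475) (nat_lit 247)) (XT.lf (nat_lit 0) (nat_lit 22043248393) (nat_lit 1216) (nat_lit 9489143889) (nat_lit 1292) (nat_lit 8064013910) (nat_lit 311) (nat_lit 5) (nat_lit 327)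 (nat_lit 5) (nat_lit 328) (nat_lit 5) (nat_lit 479) (nat_lit 475) (nat_lit 246))) (XT.nd (nat_lit 78) (nat_lit 0) (nat_lit 76) (XT.lf (nat_lit 76) (nat_lit 10740667171) (nat_lit 0) (nat_lit 12568251724) (nat_lit 1292) (nat_lit 16889036366) (nat_lit 312) (nat_lit 5) (nat_lit 311) (nat_lit 5) (nat_lit 328) (nat_lit 5) (nat_lit 480) (nat_lit 475) (nat_lit 245)) (XT.lf (nat_lit 0) (nat_lit 24774649763) (nat_lit 1216) (nat_lit 9111742774) (nat_lit 1292) (nat_lit 6926295707) (nat_lit 312) (nat_lit 5) (nat_lit 328) (nat_lit 5) (nat_lit 329) (nat_lit 5) (nat_lit 481) (nat_lit 475) (nat_lit 244)))))) (XT.nd (nat_lit 624) (nat_lit 2964) (nat_lit 0) (XT.nd (nat_lit 312) (nat_lit 0) (nat_lit 152) (XT.nd (nat_lit 156) (nat_lit 0) (nat_lit 76) (XT.nd (nat_lit 78) (nat_lit 0) (nat_lit 76) (XT.lf (nat_lit 76) (nat_lit 11951928205) (nat_lit 0) (nat_lit 14570168946) (nat_lit 1292) (nat_lit 14916633874) (nat_lit 313) (nat_lit 5)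 (nat_lit 312) (nat_lit 5) (nat_lit 329) (nat_lit 5) (nat_lit 482) (nat_lit 475) (nat_lit 243)) (XT.lf (nat_lit 0) (nat_lit 28464540671) (nat_lit 1216) (nat_lit 8299676290) (nat_lit 1292) (nat_lit 5315061090) (nat_lit 313) (nat_lit 5) (nat_lit 329) (nat_lit 5) (nat_lit 330) (nat_lit 5) (nat_lit 483) (nat_lit 475) (nat_lit 242))) (XT.nd (nat_lit 78) (nat_lit 0) (nat_lit 76) (XT.lf (nat_lit 76) (nat_lit 13644010600) (nat_lit 0) (nat_lit 17095164079) (nat_lit 1292) (nat_lit 11991649429) (nat_lit 314) (nat_lit 5) (nat_lit 313) (nat_lit 5) (nat_lit 330) (nat_lit 5) (nat_lit 484) (nat_lit 475) (nat_lit 241)) (XT.lf (nat_lit 0) (nat_lit 33195643289) (nat_lit 1216) (nat_lit 7015578785) (nat_lit 1292) (nat_lit 3187286739) (nat_lit 314) (nat_lit 5) (nat_lit 330) (nat_lit 5) (nat_lit 331) (nat_lit 5) (nat_lit 485) (nat_lit 475) (nat_lit 240)))) (XT.nd (nat_lit 156) (nat_lit 0) (nat_lit 76) (XT.nd (nat_lit 78) (nat_lit 0) (nat_lit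 76) (XT.lf (nat_lit 76) (nat_lit 15856914645) (nat_lit 0) (nat_lit 20189160604) (nat_lit 1292) (nat_lit 8030540861) (nat_lit 315) (nat_lit 5) (nat_lit 314) (nat_lit 5) (nat_lit 331) (nat_lit 5) (nat_lit 486) (nat_lit 475) (nat_lit 239)) (XT.lf (nat_lit 0) (nat_lit 39056351398) (nat_lit 1216) (nat_lit 5219494641) (nat_lit 1292) (nat_lit 496990776) (nat_lit 315) (nat_lit 5) (nat_lit 331) (nat_lit 5) (nat_lit 332) (nat_lit 5) (nat_lit 487) (nat_lit 475) (nat_lit 238))) (XT.nd (nat_lit 78) (nat_lit 0) (nat_lit 0) (XT.lf (nat_lit 76) (nat_lit 18633381952) (nat_lit 0) (nat_lit 23901220807) (nat_lit 1292) (nat_lit 2944011497) (nat_lit 316) (nat_lit 5) (nat_lit 315) (nat_lit 5) (nat_lit 332) (nat_lit 5) (nat_lit 488) (nat_lit 475) (nat_lit 237)) (XT.lf (nat_lit 76) (nat_lit 43307801490) (nat_lit 0) (nat_lit 2860794703) (nat_lit 1292) (nat_lit 35427108) (nat_lit 316) (nat_lit 5) (nat_lit 315) (nat_lit 5) (nat_lit 332) (nat_lit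 5) (nat_lit 489) (nat_lit 475) (nat_lit 236))))) (XT.nd (nat_lit 312) (nat_lit 1216) (nat_lit 0) (XT.nd (nat_lit 156) (nat_lit 760) (nat_lit 0) (XT.nd (nat_lit 78) (nat_lit 0) (nat_lit 0) (XT.lf (nat_lit 0) (nat_lit 3297730382) (nat_lit 1292) (nat_lit 24952728816) (nat_lit 1368) (nat_lit 18688029295) (nat_lit 299) (nat_lit 5) (nat_lit 316) (nat_lit 5) (nat_lit 317) (nat_lit 5) (nat_lit 490) (nat_lit 475) (nat_lit 235)) (XT.lf (nat_lit 0) (nat_lit 6786774244) (nat_lit 1292) (nat_lit 50568344) (nat_lit 1368) (nat_lit 40855936528) (nat_lit 299) (nat_lit 5) (nat_lit 316) (nat_lit 5) (nat_lit 317) (nat_lit 5) (nat_lit 491) (nat_lit 475) (nat_lit 234))) (XT.nd (nat_lit 78) (nat_lit 836) (nat_lit 0) (XT.lf (nat_lit 0) (nat_lit 10778999262) (nat_lit 1292) (nat_lit 22504926864) (nat_lit 76) (nat_lit 15174832142) (nat_lit 300) (nat_lit 5) (nat_lit 317) (nat_lit 5) (nat_lit 301) (nat_lit 5) (nat_lit 492) (nat_lit 475) (nat_lit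 233)) (XT.lf (nat_lit 0) (nat_lit 3491585285) (nat_lit 836) (nat_lit 11499988393) (nat_lit 912) (nat_lit 34252610738) (nat_lit 289) (nat_lit 5) (nat_lit 300) (nat_lit 5) (nat_lit 301) (nat_lit 5) (nat_lit 493) (nat_lit 475) (nat_lit 232)))) (XT.nd (nat_lit 156) (nat_lit 608) (nat_lit 0) (XT.nd (nat_lit 78) (nat_lit 608) (nat_lit 0) (XT.lf (nat_lit 0) (nat_lit 19664001676) (nat_lit 912) (nat_lit 19425507395) (nat_lit 76) (nat_lit 10953660087) (nat_lit 289) (nat_lit 5) (nat_lit 301) (nat_lit 5) (nat_lit 290) (nat_lit 5) (nat_lit 494) (nat_lit 475) (nat_lit 231)) (XT.lf (nat_lit 0) (nat_lit 7727268521) (nat_lit 608) (nat_lit 16936341515) (nat_lit 684) (nat_lit 26196903277) (nat_lit 281) (nat_lit 5) (nat_lit 289) (nat_lit 5) (nat_lit 290) (nat_lit 5) (nat_lit 495) (nat_lit 475) (nat_lit 230))) (XT.nd (nat_lit 78) (nat_lit 608) (nat_lit 0) (XT.lf (nat_lit 0) (nat_lit 30066734795) (nat_lit 684) (nat_lit 15663217264)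 (nat_lit 76) (nat_lit 5964819983) (nat_lit 281) (nat_lit 5) (nat_lit 290) (nat_lit 5) (nat_lit 282) (nat_lit 5) (nat_lit 496) (nat_lit 475) (nat_lit 229)) (XT.lf (nat_lit 0) (nat_lit 12710199875) (nat_lit 608) (nat_lit 23210541121) (nat_lit 684) (nat_lit 16624653996) (nat_lit 273) (nat_lit 5) (nat_lit 281) (nat_lit 5) (nat_lit 282) (nat_lit 5) (nat_lit 497) (nat_lit 475) (nat_lit 228))))))) (XT.nd (nat_lit 1248) (nat_lit 3344) (nat_lit 0) (XT.nd (nat_lit 624) (nat_lit 2280) (nat_lit 0) (XT.nd (nat_lit 312) (nat_lit 1064) (nat_lit 0) (XT.nd (nat_lit 156) (nat_lit 684) (nat_lit 0) (XT.nd (nat_lit 78) (nat_lit 532) (nat_lit 0) (XT.lf (nat_lit 0) (nat_lit 42108896260) (nat_lit 684) (nat_lit 11163376164) (nat_lit 76) (nat_lit 144508430) (nat_lit 273) (nat_lit 5) (nat_lit 282) (nat_lit 5) (nat_lit 274) (nat_lit 5) (nat_lit 498) (nat_lit 475) (nat_lit 227)) (XT.lf (nat_lit 0) (nat_lit 18498729849) (nat_lit 532) (nat_lit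 30390570050) (nat_lit 608) (nat_lit 5412810365) (nat_lit 266) (nat_lit 5) (nat_lit 273) (nat_lit 5) (nat_lit 274) (nat_lit 5) (nat_lit 499) (nat_lit 475) (nat_lit 226))) (XT.nd (nat_lit 78) (nat_lit 608) (nat_lit 0) (XT.lf (nat_lit 0) (nat_lit 759083911) (nat_lit 608) (nat_lit 5939579479) (nat_lit 76) (nat_lit 48511761287) (nat_lit 265) (nat_lit 5) (nat_lit 273) (nat_lit 5) (nat_lit 266) (nat_lit 5) (nat_lit 500) (nat_lit 475) (nat_lit 225)) (XT.lf (nat_lit 0) (nat_lit 7422272894) (nat_lit 684) (nat_lit 31051833152) (nat_lit 76) (nat_lit 17657826889) (nat_lit 257) (nat_lit 5) (nat_lit 266) (nat_lit 5) (nat_lit 258) (nat_lit 5) (nat_lit 501) (nat_lit 475) (nat_lit 224)))) (XT.nd (nat_lit 156) (nat_lit 532) (nat_lit 0) (XT.nd (nat_lit 78) (nat_lit 0) (nat_lit 0) (XT.lf (nat_lit 0) (nat_lit 4982530) (nat_lit 532) (nat_lit 14406351666) (nat_lit 608) (nat_lit 42665973021) (nat_lit 250) (nat_lit 5) (nat_lit 257) (nat_lit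 5) (nat_lit 258) (nat_lit 5) (nat_lit 502) (nat_lit 475) (nat_lit 223)) (XT.lf (nat_lit 0) (nat_lit 22025597445) (nat_lit 608) (nat_lit 25515570512) (nat_lit 76) (nat_lit 10497408940) (nat_lit 250) (nat_lit 5) (nat_lit 258) (nat_lit 5) (nat_lit 251) (nat_lit 5) (nat_lit 503) (nat_lit 475) (nat_lit 222))) (XT.nd (nat_lit 78) (nat_lit 0) (nat_lit 0) (XT.lf (nat_lit 0) (nat_lit 6980440374) (nat_lit 532) (nat_lit 23096664233) (nat_lit 608) (nat_lit 28945315654) (nat_lit 243) (nat_lit 5) (nat_lit 250) (nat_lit 5) (nat_lit 251) (nat_lit 5) (nat_lit 504) (nat_lit 475) (nat_lit 221)) (XT.lf (nat_lit 0) (nat_lit 38649465476) (nat_lit 608) (nat_lit 19077268464) (nat_lit 76) (nat_lit 2300665799) (nat_lit 243) (nat_lit 5) (nat_lit 251) (nat_lit 5) (nat_lit 244) (nat_lit 5) (nat_lit 505) (nat_lit 475) (nat_lit 220))))) (XT.nd (nat_lit 312) (nat_lit 1292) (nat_lit 0) (XT.nd (nat_lit 156) (nat_lit 532) (nat_lit 0) (XT.nd (nat_lit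 78) (nat_lit 0) (nat_lit 0) (XT.lf (nat_lit 0) (nat_lit 14938194238) (nat_lit 456) (nat_lit 32912198882) (nat_lit 532) (nat_lit 13200993672) (nat_lit 237) (nat_lit 5) (nat_lit 243) (nat_lit 5) (nat_lit 244) (nat_lit 5) (nat_lit 506) (nat_lit 475) (nat_lit 219)) (XT.lf (nat_lit 0) (nat_lit 50364187814) (nat_lit 456) (nat_lit 7154940833) (nat_lit 532) (nat_lit 4581211473) (nat_lit 237) (nat_lit 5) (nat_lit 243) (nat_lit 5) (nat_lit 244) (nat_lit 5) (nat_lit 507) (nat_lit 475) (nat_lit 218))) (XT.nd (nat_lit 78) (nat_lit 0) (nat_lit 0) (XT.lf (nat_lit 0) (nat_lit 4633076653) (nat_lit 532) (nat_lit 39261356851) (nat_lit 76) (nat_lit 19272496427) (nat_lit 230) (nat_lit 5) (nat_lit 237) (nat_lit 5) (nat_lit 231) (nat_lit 5) (nat_lit 508) (nat_lit 475) (nat_lit 217)) (XT.lf (nat_lit 0) (nat_lit 14221409807) (nat_lit 532) (nat_lit 3523205197) (nat_lit 76) (nat_lit 46513850912) (nat_lit 230) (nat_lit 5) (nat_lit 237) (nat_lit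 5) (nat_lit 231) (nat_lit 5) (nat_lit 509) (nat_lit 475) (nat_lit 216)))) (XT.nd (nat_lit 156) (nat_lit 380) (nat_lit 0) (XT.nd (nat_lit 78) (nat_lit 456) (nat_lit 0) (XT.lf (nat_lit 0) (nat_lit 24514485862) (nat_lit 532) (nat_lit 31515969581) (nat_lit 76) (nat_lit 9339779809) (nat_lit 224) (nat_lit 5) (nat_lit 231) (nat_lit 5) (nat_lit 225) (nat_lit 5) (nat_lit 510) (nat_lit 475) (nat_lit 215)) (XT.lf (nat_lit 0) (nat_lit 5848084593) (nat_lit 456) (nat_lit 29535308557) (nat_lit 532) (nat_lit 31123953405) (nat_lit 218) (nat_lit 5) (nat_lit 224) (nat_lit 5) (nat_lit 225) (nat_lit 5) (nat_lit 511) (nat_lit 475) (nat_lit 214))) (XT.nd (nat_lit 78) (nat_lit 380) (nat_lit 0) (XT.lf (nat_lit 0) (nat_lit 44978132849) (nat_lit 456) (nat_lit 1917702719) (nat_lit 532) (nat_lit 20773211647) (nat_lit 218) (nat_lit 5) (nat_lit 224) (nat_lit 5) (nat_lit 225) (nat_lit 5) (nat_lit 512) (nat_lit 475) (nat_lit 213)) (XT.lf (nat_lit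 0) (nat_lit 16482135295) (nat_lit 380) (nat_lit 42684199224) (nat_lit 456) (nat_lit 9686883932) (nat_lit 213) (nat_lit 5) (nat_lit 218) (nat_lit 5) (nat_lit 219) (nat_lit 5) (nat_lit 513) (nat_lit 475) (nat_lit 212)))))) (XT.nd (nat_lit 624) (nat_lit 1672) (nat_lit 0) (XT.nd (nat_lit 312) (nat_lit 760) (nat_lit 0) (XT.nd (nat_lit 156) (nat_lit 380) (nat_lit 0) (XT.nd (nat_lit 78) (nat_lit 456) (nat_lit 0) (XT.lf (nat_lit 0) (nat_lit 1947869832) (nat_lit 456) (nat_lit 12809400315) (nat_lit 76) (nat_lit 55307656213) (nat_lit 212) (nat_lit 5) (nat_lit 218) (nat_lit 5) (nat_lit 213) (nat_lit 5) (nat_lit 514) (nat_lit 475) (nat_lit 211)) (XT.lf (nat_lit 0) (nat_lit 14147498356) (nat_lit 532) (nat_lit 43043844614) (nat_lit 76) (nat_lit 14106449425) (nat_lit 206) (nat_lit 5) (nat_lit 213) (nat_lit 5) (nat_lit 207) (nat_lit 5) (nat_lit 515) (nat_lit 475) (nat_lit 210))) (XT.nd (nat_lit 78) (nat_lit 380) (nat_lit 0) (XT.lf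 (nat_lit 0) (nat_lit 26989135027) (nat_lit 532) (nat_lit 1900334040) (nat_lit 76) (nat_lit 43669894813) (nat_lit 206) (nat_lit 5) (nat_lit 213) (nat_lit 5) (nat_lit 207) (nat_lit 5) (nat_lit 516) (nat_lit 475) (nat_lit 209)) (XT.lf (nat_lit 0) (nat_lit 40618588175) (nat_lit 456) (nat_lit 32571220758) (nat_lit 76) (nat_lit 656896601) (nat_lit 201) (nat_lit 5) (nat_lit 207) (nat_lit 5) (nat_lit 202) (nat_lit 5) (nat_lit 517) (nat_lit 475) (nat_lit 208)))) (XT.nd (nat_lit 156) (nat_lit 380) (nat_lit 0) (XT.nd (nat_lit 78) (nat_lit 0) (nat_lit 0) (XT.lf (nat_lit 0) (nat_lit 10531794289) (nat_lit 380) (nat_lit 44531090345) (nat_lit 456) (nat_lit 20097604057) (nat_lit 196) (nat_lit 5) (nat_lit 201) (nat_lit 5) (nat_lit 202) (nat_lit 5) (nat_lit 518) (nat_lit 475) (nat_lit 207)) (XT.lf (nat_lit 0) (nat_lit 55594651056) (nat_lit 380) (nat_lit 14674083327) (nat_lit 456) (nat_lit 6235104271) (nat_lit 196) (nat_lit 5) (nat_lit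 201) (nat_lit 5) (nat_lit 202) (nat_lit 5) (nat_lit 519) (nat_lit 475) (nat_lit 206))) (XT.nd (nat_lit 78) (nat_lit 0) (nat_lit 0) (XT.lf (nat_lit 0) (nat_lit 8279026513) (nat_lit 380) (nat_lit 53513582048) (nat_lit 76) (nat_lit 16080779816) (nat_lit 191) (nat_lit 5) (nat_lit 196) (nat_lit 5) (nat_lit 192) (nat_lit 5) (nat_lit 520) (nat_lit 475) (nat_lit 205)) (XT.lf (nat_lit 0) (nat_lit 23461122625) (nat_lit 380) (nat_lit 8072236173) (nat_lit 76) (nat_lit 47738077997) (nat_lit 191) (nat_lit 5) (nat_lit 196) (nat_lit 5) (nat_lit 192) (nat_lit 5) (nat_lit 521) (nat_lit 475) (nat_lit 204))))) (XT.nd (nat_lit 312) (nat_lit 608) (nat_lit 0) (XT.nd (nat_lit 156) (nat_lit 380) (nat_lit 0) (XT.nd (nat_lit 78) (nat_lit 304) (nat_lit 0) (XT.lf (nat_lit 0) (nat_lit 39477997297) (nat_lit 456) (nat_lit 41198002823) (nat_lit 76) (nat_lit 24047113) (nat_lit 186) (nat_lit 5) (nat_lit 192) (nat_lit 5) (nat_lit 187) (nat_lit 5)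 (nat_lit 522) (nat_lit 475) (nat_lit 203)) (XT.lf (nat_lit 0) (nat_lit 6309148996) (nat_lit 304) (nat_lit 50120776353) (nat_lit 380) (nat_lit 25727954259) (nat_lit 182) (nat_lit 5) (nat_lit 186) (nat_lit 5) (nat_lit 187) (nat_lit 5) (nat_lit 523) (nat_lit 475) (nat_lit 202))) (XT.nd (nat_lit 78) (nat_lit 380) (nat_lit 0) (XT.lf (nat_lit 0) (nat_lit 56085140434) (nat_lit 304) (nat_lit 18220667134) (nat_lit 380) (nat_lit 9341177533) (nat_lit 182) (nat_lit 5) (nat_lit 186) (nat_lit 5) (nat_lit 187) (nat_lit 5) (nat_lit 524) (nat_lit 475) (nat_lit 201)) (XT.lf (nat_lit 0) (nat_lit 7749738154) (nat_lit 380) (nat_lit 62775507415) (nat_lit 76) (nat_lit 14642556248) (nat_lit 177) (nat_lit 5) (nat_lit 182) (nat_lit 5) (nat_lit 178) (nat_lit 5) (nat_lit 525) (nat_lit 475) (nat_lit 200)))) (XT.nd (nat_lit 156) (nat_lit 304) (nat_lit 0) (XT.nd (nat_lit 78) (nat_lit 304) (nat_lit 0) (XT.lf (nat_lit 0) (nat_lit 25626507986)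 (nat_lit 380) (nat_lit 12592376792) (nat_lit 76) (nat_lit 48498757432) (nat_lit 177) (nat_lit 5) (nat_lit 182) (nat_lit 5) (nat_lit 178) (nat_lit 5) (nat_lit 526) (nat_lit 475) (nat_lit 199)) (XT.lf (nat_lit 0) (nat_lit 39873461818) (nat_lit 304) (nat_lit 4548820996) (nat_lit 380) (nat_lit 43880213974) (nat_lit 173) (nat_lit 5) (nat_lit 177) (nat_lit 5) (nat_lit 178) (nat_lit 5) (nat_lit 527) (nat_lit 475) (nat_lit 198))) (XT.nd (nat_lit 78) (nat_lit 0) (nat_lit 0) (XT.lf (nat_lit 0) (nat_lit 4027141782) (nat_lit 304) (nat_lit 60210978715) (nat_lit 380) (nat_lit 25683090851) (nat_lit 169) (nat_lit 5) (nat_lit 173) (nat_lit 5) (nat_lit 174) (nat_lit 5) (nat_lit 528) (nat_lit 475) (nat_lit 197)) (XT.lf (nat_lit 0) (nat_lit 59002958846) (nat_lit 304) (nat_lit 26178537713) (nat_lit 380) (nat_lit 6390998917) (nat_lit 169) (nat_lit 5) (nat_lit 173) (nat_lit 5) (nat_lit 174) (nat_lit 5) (nat_lit 529) (nat_lit 475) (nat_lit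 196))))))))
noncomputable def xc232 : XT := (XT.nd (nat_lit 59748) (nat_lit 0) (nat_lit 3268) (XT.nd (nat_lit 58500) (nat_lit 0) (nat_lit 11400) (XT.nd (nat_lit 546) (nat_lit 988) (nat_lit 0) (XT.nd (nat_lit 234) (nat_lit 608) (nat_lit 0) (XT.nd (nat_lit 78) (nat_lit 304) (nat_lit 0) (XT.lf (nat_lit 0) (nat_lit 13522888653) (nat_lit 380) (nat_lit 70685041022) (nat_lit 76) (nat_lit 9052318982) (nat_lit 164) (nat_lit 5) (nat_lit 169) (nat_lit 5) (nat_lit 165) (nat_lit 5) (nat_lit 530) (nat_lit 475) (nat_lit 195)) (XT.nd (nat_lit 78) (nat_lit 304) (nat_lit 0) (XT.lf (nat_lit 0) (nat_lit 34496523656) (nat_lit 380) (nat_lit 15273407256) (nat_lit 76) (nat_lit 45209081725) (nat_lit 164) (nat_lit 5) (nat_lit 169) (nat_lit 5) (nat_lit 165) (nat_lit 5) (nat_lit 531) (nat_lit 475) (nat_lit 194)) (XT.lf (nat_lit 0) (nat_lit 42631646975) (nat_lit 304) (nat_lit 13876983692) (nat_lit 380) (nat_lit 40228431009) (nat_lit 160) (nat_lit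 5) (nat_lit 164) (nat_lit 5) (nat_lit 165) (nat_lit 5) (nat_lit 532) (nat_lit 475) (nat_lit 193)))) (XT.nd (nat_lit 156) (nat_lit 304) (nat_lit 0) (XT.nd (nat_lit 78) (nat_lit 76) (nat_lit 0) (XT.lf (nat_lit 0) (nat_lit 3895391248) (nat_lit 228) (nat_lit 75700361251) (nat_lit 304) (nat_lit 18939660164) (nat_lit 157) (nat_lit 5) (nat_lit 160) (nat_lit 5) (nat_lit 161) (nat_lit 5) (nat_lit 533) (nat_lit 475) (nat_lit 192)) (XT.lf (nat_lit 0) (nat_lit 3618104504) (nat_lit 304) (nat_lit 35798352846) (nat_lit 76) (nat_lit 60949736258) (nat_lit 156) (nat_lit 5) (nat_lit 160) (nat_lit 5) (nat_lit 157) (nat_lit 5) (nat_lit 534) (nat_lit 475) (nat_lit 191))) (XT.nd (nat_lit 78) (nat_lit 0) (nat_lit 0) (XT.lf (nat_lit 0) (nat_lit 25110226541) (nat_lit 304) (nat_lit 1602566439) (nat_lit 380) (nat_lit 75526253605) (nat_lit 152) (nat_lit 5) (nat_lit 156) (nat_lit 5) (nat_lit 157) (nat_lit 5) (nat_lit 535) (nat_lit 475) (nat_lit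 190)) (XT.lf (nat_lit 0) (nat_lit 51223873463) (nat_lit 380) (nat_lit 15940728503) (nat_lit 76) (nat_lit 36981776668) (nat_lit 152) (nat_lit 5) (nat_lit 157) (nat_lit 5) (nat_lit 153) (nat_lit 5) (nat_lit 536) (nat_lit 475) (nat_lit 189))))) (XT.nd (nat_lit 390) (nat_lit 228) (nat_lit 0) (XT.nd (nat_lit 156) (nat_lit 304) (nat_lit 0) (XT.nd (nat_lit 78) (nat_lit 228) (nat_lit 0) (XT.lf (nat_lit 0) (nat_lit 48003061771) (nat_lit 228) (nat_lit 28944030195) (nat_lit 304) (nat_lit 29149534532) (nat_lit 149) (nat_lit 5) (nat_lit 152) (nat_lit 5) (nat_lit 153) (nat_lit 5) (nat_lit 537) (nat_lit 475) (nat_lit 188)) (XT.lf (nat_lit 0) (nat_lit 6107989908) (nat_lit 228) (nat_lit 97654996435) (nat_lit 304) (nat_lit 4332766099) (nat_lit 146) (nat_lit 5) (nat_lit 149) (nat_lit 5) (nat_lit 150) (nat_lit 5) (nat_lit 538) (nat_lit 475) (nat_lit 187))) (XT.nd (nat_lit 156) (nat_lit 228) (nat_lit 0) (XT.lf (nat_lit 0) (nat_lit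 21692784554) (nat_lit 304) (nat_lit 37208040881) (nat_lit 76) (nat_lit 51221549195) (nat_lit 145) (nat_lit 5) (nat_lit 149) (nat_lit 5) (nat_lit 146) (nat_lit 5) (nat_lit 539) (nat_lit 475) (nat_lit 186)) (XT.lf (nat_lit 0) (nat_lit 77116769601) (nat_lit 304) (nat_lit 14447648992) (nat_lit 76) (nat_lit 22757289630) (nat_lit 142) (nat_lit 5) (nat_lit 146) (nat_lit 5) (nat_lit 143) (nat_lit 5) (nat_lit 541) (nat_lit 475) (nat_lit 184)))) (XT.nd (nat_lit 57408) (nat_lit 0) (nat_lit 12920) (XT.nd (nat_lit 57330) (nat_lit 0) (nat_lit 12920) (XT.lf (nat_lit 0) (nat_lit 56188552736) (nat_lit 228) (nat_lit 50921238255) (nat_lit 304) (nat_lit 9375699122) (nat_lit 139) (nat_lit 5) (nat_lit 142) (nat_lit 5) (nat_lit 143) (nat_lit 5) (nat_lit 542) (nat_lit 475) (nat_lit 183)) (XT.lf (nat_lit 0) (nat_lit 9909316890) (nat_lit 1292) (nat_lit 4650941130) (nat_lit 1292) (nat_lit 4650941130) (nat_lit 309) (nat_lit 3) (nat_lit 326)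 (nat_lit 3) (nat_lit 326) (nat_lit 5) (nat_lit 476) (nat_lit 476) (nat_lit 248))) (XT.nd (nat_lit 78) (nat_lit 0) (nat_lit 76) (XT.lf (nat_lit 76) (nat_lit 9949099800) (nat_lit 0) (nat_lit 10306592924) (nat_lit 1292) (nat_lit 18738844084) (nat_lit 310) (nat_lit 5) (nat_lit 309) (nat_lit 3) (nat_lit 326) (nat_lit 5) (nat_lit 477) (nat_lit 476) (nat_lit 247)) (XT.lf (nat_lit 0) (nat_lit 20886203891) (nat_lit 1216) (nat_lit 9701828966) (nat_lit 1292) (nat_lit 8990396561) (nat_lit 310) (nat_lit 5) (nat_lit 326) (nat_lit 5) (nat_lit 327) (nat_lit 5) (nat_lit 478) (nat_lit 476) (nat_lit 246)))))) (XT.nd (nat_lit 624) (nat_lit 1596) (nat_lit 0) (XT.nd (nat_lit 312) (nat_lit 0) (nat_lit 152) (XT.nd (nat_lit 156) (nat_lit 0) (nat_lit 76) (XT.nd (nat_lit 78) (nat_lit 0) (nat_lit 76) (XT.lf (nat_lit 76) (nat_lit 10320494969) (nat_lit 0) (nat_lit 11414714491) (nat_lit 1292) (nat_lit 18438642128) (nat_lit 311) (nat_lit 5) (nat_lit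 310) (nat_lit 5) (nat_lit 327) (nat_lit 5) (nat_lit 479) (nat_lit 476) (nat_lit 245)) (XT.lf (nat_lit 0) (nat_lit 22787107545) (nat_lit 1216) (nat_lit 9723894004) (nat_lit 1292) (nat_lit 8270812355) (nat_lit 311) (nat_lit 5) (nat_lit 327) (nat_lit 5) (nat_lit 328) (nat_lit 5) (nat_lit 480) (nat_lit 476) (nat_lit 244))) (XT.nd (nat_lit 78) (nat_lit 0) (nat_lit 76) (XT.lf (nat_lit 76) (nat_lit 11112321935) (nat_lit 0) (nat_lit 12976496715) (nat_lit 1292) (nat_lit 17312648902) (nat_lit 312) (nat_lit 5) (nat_lit 311) (nat_lit 5) (nat_lit 328) (nat_lit 5) (nat_lit 481) (nat_lit 476) (nat_lit 243)) (XT.lf (nat_lit 0) (nat_lit 25595881780) (nat_lit 1216) (nat_lit 9334453305) (nat_lit 1292) (nat_lit 7104386845) (nat_lit 312) (nat_lit 5) (nat_lit 328) (nat_lit 5) (nat_lit 329) (nat_lit 5) (nat_lit 482) (nat_lit 476) (nat_lit 242)))) (XT.nd (nat_lit 156) (nat_lit 0) (nat_lit 76) (XT.nd (nat_lit 78) (nat_lit 0) (nat_lit 76)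 (XT.lf (nat_lit 76) (nat_lit 12360631315) (nat_lit 0) (nat_lit 15033331674) (nat_lit 1292) (nat_lit 15285636903) (nat_lit 313) (nat_lit 5) (nat_lit 312) (nat_lit 5) (nat_lit 329) (nat_lit 5) (nat_lit 483) (nat_lit 476) (nat_lit 241)) (XT.lf (nat_lit 0) (nat_lit 29392217125) (nat_lit 1216) (nat_lit 8497512394) (nat_lit 1292) (nat_lit 5449707893) (nat_lit 313) (nat_lit 5) (nat_lit 329) (nat_lit 5) (nat_lit 330) (nat_lit 5) (nat_lit 484) (nat_lit 476) (nat_lit 240))) (XT.nd (nat_lit 78) (nat_lit 0) (nat_lit 76) (XT.lf (nat_lit 76) (nat_lit 14103983591) (nat_lit 0) (nat_lit 17629445693) (nat_lit 1292) (nat_lit 12277150590) (nat_lit 314) (nat_lit 5) (nat_lit 313) (nat_lit 5) (nat_lit 330) (nat_lit 5) (nat_lit 485) (nat_lit 476) (nat_lit 239)) (XT.lf (nat_lit 0) (nat_lit 34261292586) (nat_lit 1216) (nat_lit 7174563045) (nat_lit 1292) (nat_lit 3262508662) (nat_lit 314) (nat_lit 5) (nat_lit 330) (nat_lit 5) (nat_lit 331)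 (nat_lit 5) (nat_lit 486) (nat_lit 476) (nat_lit 238))))) (XT.nd (nat_lit 312) (nat_lit 684) (nat_lit 0) (XT.nd (nat_lit 156) (nat_lit 1216) (nat_lit 0) (XT.nd (nat_lit 78) (nat_lit 0) (nat_lit 76) (XT.lf (nat_lit 76) (nat_lit 16383600451) (nat_lit 0) (nat_lit 20812094662) (nat_lit 1292) (nat_lit 8201166154) (nat_lit 315) (nat_lit 5) (nat_lit 314) (nat_lit 5) (nat_lit 331) (nat_lit 5) (nat_lit 487) (nat_lit 476) (nat_lit 237)) (XT.lf (nat_lit 0) (nat_lit 40294130969) (nat_lit 1216) (nat_lit 5324431326) (nat_lit 1292) (nat_lit 495470936) (nat_lit 315) (nat_lit 5) (nat_lit 331) (nat_lit 5) (nat_lit 332) (nat_lit 5) (nat_lit 488) (nat_lit 476) (nat_lit 236))) (XT.nd (nat_lit 78) (nat_lit 1292) (nat_lit 0) (XT.lf (nat_lit 76) (nat_lit 19243525210) (nat_lit 0) (nat_lit 24631771343) (nat_lit 1292) (nat_lit 2965730616) (nat_lit 316) (nat_lit 5) (nat_lit 315) (nat_lit 5) (nat_lit 332) (nat_lit 5) (nat_lit 489) (nat_lit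 476) (nat_lit 235)) (XT.lf (nat_lit 0) (nat_lit 27621735) (nat_lit 1292) (nat_lit 2931838187) (nat_lit 1368) (nat_lit 44628787107) (nat_lit 298) (nat_lit 5) (nat_lit 315) (nat_lit 5) (nat_lit 316) (nat_lit 5) (nat_lit 490) (nat_lit 476) (nat_lit 234)))) (XT.nd (nat_lit 156) (nat_lit 760) (nat_lit 0) (XT.nd (nat_lit 78) (nat_lit 0) (nat_lit 0) (XT.lf (nat_lit 0) (nat_lit 3458588309) (nat_lit 1292) (nat_lit 25648912225) (nat_lit 1368) (nat_lit 19237279488) (nat_lit 299) (nat_lit 5) (nat_lit 316) (nat_lit 5) (nat_lit 317) (nat_lit 5) (nat_lit 491) (nat_lit 476) (nat_lit 233)) (XT.lf (nat_lit 0) (nat_lit 7050499816) (nat_lit 1292) (nat_lit 1213107) (nat_lit 1368) (nat_lit 42070555705) (nat_lit 299) (nat_lit 5) (nat_lit 316) (nat_lit 5) (nat_lit 317) (nat_lit 5) (nat_lit 492) (nat_lit 476) (nat_lit 232))) (XT.nd (nat_lit 78) (nat_lit 836) (nat_lit 0) (XT.lf (nat_lit 0) (nat_lit 11161143136) (nat_lit 1292) (nat_lit 23127848895)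 (nat_lit 76) (nat_lit 15621760729) (nat_lit 300) (nat_lit 5) (nat_lit 317) (nat_lit 5) (nat_lit 301) (nat_lit 5) (nat_lit 493) (nat_lit 476) (nat_lit 231)) (XT.lf (nat_lit 0) (nat_lit 3648046602) (nat_lit 836) (nat_lit 11850833426) (nat_lit 912) (nat_lit 35220898254) (nat_lit 289) (nat_lit 5) (nat_lit 300) (nat_lit 5) (nat_lit 301) (nat_lit 5) (nat_lit 494) (nat_lit 476) (nat_lit 230))))))) (XT.nd (nat_lit 1170) (nat_lit 3648) (nat_lit 0) (XT.nd (nat_lit 546) (nat_lit 2660) (nat_lit 0) (XT.nd (nat_lit 234) (nat_lit 1216) (nat_lit 0) (XT.nd (nat_lit 78) (nat_lit 608) (nat_lit 0) (XT.lf (nat_lit 0) (nat_lit 20309749833) (nat_lit 912) (nat_lit 19956329302) (nat_lit 76) (nat_lit 11276705504) (nat_lit 289) (nat_lit 5) (nat_lit 301) (nat_lit 5) (nat_lit 290) (nat_lit 5) (nat_lit 495) (nat_lit 476) (nat_lit 229)) (XT.nd (nat_lit 78) (nat_lit 0) (nat_lit 0) (XT.lf (nat_lit 0) (nat_lit 8010520643) (nat_lit 608) (nat_lit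 17447694155) (nat_lit 684) (nat_lit 26926468408) (nat_lit 281) (nat_lit 5) (nat_lit 289) (nat_lit 5) (nat_lit 290) (nat_lit 5) (nat_lit 496) (nat_lit 476) (nat_lit 228)) (XT.lf (nat_lit 0) (nat_lit 31021809753) (nat_lit 684) (nat_lit 16081549770) (nat_lit 76) (nat_lit 6140659016) (nat_lit 281) (nat_lit 5) (nat_lit 290) (nat_lit 5) (nat_lit 282) (nat_lit 5) (nat_lit 497) (nat_lit 476) (nat_lit 227)))) (XT.nd (nat_lit 156) (nat_lit 608) (nat_lit 0) (XT.nd (nat_lit 78) (nat_lit 0) (nat_lit 0) (XT.lf (nat_lit 0) (nat_lit 13142564354) (nat_lit 608) (nat_lit 23907816778) (nat_lit 684) (nat_lit 17069810825) (nat_lit 273) (nat_lit 5) (nat_lit 281) (nat_lit 5) (nat_lit 282) (nat_lit 5) (nat_lit 498) (nat_lit 476) (nat_lit 226)) (XT.lf (nat_lit 0) (nat_lit 43422657016) (nat_lit 684) (nat_lit 11447177847) (nat_lit 76) (nat_lit 147930380) (nat_lit 273) (nat_lit 5) (nat_lit 282) (nat_lit 5) (nat_lit 274) (nat_lit 5) (nat_lit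 499) (nat_lit 476) (nat_lit 225))) (XT.nd (nat_lit 78) (nat_lit 76) (nat_lit 0) (XT.lf (nat_lit 0) (nat_lit 19104290370) (nat_lit 532) (nat_lit 31301198084) (nat_lit 608) (nat_lit 5524195734) (nat_lit 266) (nat_lit 5) (nat_lit 273) (nat_lit 5) (nat_lit 274) (nat_lit 5) (nat_lit 500) (nat_lit 476) (nat_lit 224)) (XT.lf (nat_lit 0) (nat_lit 830403776) (nat_lit 608) (nat_lit 6067671935) (nat_lit 76) (nat_lit 49967201423) (nat_lit 265) (nat_lit 5) (nat_lit 273) (nat_lit 5) (nat_lit 266) (nat_lit 5) (nat_lit 501) (nat_lit 476) (nat_lit 223))))) (XT.nd (nat_lit 312) (nat_lit 988) (nat_lit 0) (XT.nd (nat_lit 156) (nat_lit 532) (nat_lit 0) (XT.nd (nat_lit 78) (nat_lit 532) (nat_lit 0) (XT.lf (nat_lit 0) (nat_lit 7692570414) (nat_lit 684) (nat_lit 31932371453) (nat_lit 76) (nat_lit 18189516425) (nat_lit 257) (nat_lit 5) (nat_lit 266) (nat_lit 5) (nat_lit 258) (nat_lit 5) (nat_lit 502) (nat_lit 476) (nat_lit 222)) (XT.lf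 (nat_lit 0) (nat_lit 55648535) (nat_lit 532) (nat_lit 14834753354) (nat_lit 608) (nat_lit 43897819073) (nat_lit 250) (nat_lit 5) (nat_lit 257) (nat_lit 5) (nat_lit 258) (nat_lit 5) (nat_lit 503) (nat_lit 476) (nat_lit 221))) (XT.nd (nat_lit 78) (nat_lit 532) (nat_lit 0) (XT.lf (nat_lit 0) (nat_lit 22731767396) (nat_lit 608) (nat_lit 26230663279) (nat_lit 76) (nat_lit 10815937934) (nat_lit 250) (nat_lit 5) (nat_lit 258) (nat_lit 5) (nat_lit 251) (nat_lit 5) (nat_lit 504) (nat_lit 476) (nat_lit 220)) (XT.lf (nat_lit 0) (nat_lit 7239734068) (nat_lit 532) (nat_lit 23784242797) (nat_lit 608) (nat_lit 29767775798) (nat_lit 243) (nat_lit 5) (nat_lit 250) (nat_lit 5) (nat_lit 251) (nat_lit 5) (nat_lit 505) (nat_lit 476) (nat_lit 219)))) (XT.nd (nat_lit 156) (nat_lit 532) (nat_lit 0) (XT.nd (nat_lit 78) (nat_lit 456) (nat_lit 0) (XT.lf (nat_lit 0) (nat_lit 39852260385) (nat_lit 608) (nat_lit 19599907357) (nat_lit 76) (nat_lit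 2374751330) (nat_lit 243) (nat_lit 5) (nat_lit 251) (nat_lit 5) (nat_lit 244) (nat_lit 5) (nat_lit 506) (nat_lit 476) (nat_lit 218)) (XT.lf (nat_lit 0) (nat_lit 15435532176) (nat_lit 456) (nat_lit 33892895063) (nat_lit 532) (nat_lit 13553222253) (nat_lit 237) (nat_lit 5) (nat_lit 243) (nat_lit 5) (nat_lit 244) (nat_lit 5) (nat_lit 507) (nat_lit 476) (nat_lit 217))) (XT.nd (nat_lit 78) (nat_lit 532) (nat_lit 0) (XT.lf (nat_lit 0) (nat_lit 51922872779) (nat_lit 456) (nat_lit 7363113538) (nat_lit 532) (nat_lit 4676122352) (nat_lit 237) (nat_lit 5) (nat_lit 243) (nat_lit 5) (nat_lit 244) (nat_lit 5) (nat_lit 508) (nat_lit 476) (nat_lit 216)) (XT.lf (nat_lit 0) (nat_lit 4813081618) (nat_lit 532) (nat_lit 40389919417) (nat_lit 76) (nat_lit 19857703454) (nat_lit 230) (nat_lit 5) (nat_lit 237) (nat_lit 5) (nat_lit 231) (nat_lit 5) (nat_lit 509) (nat_lit 476) (nat_lit 215)))))) (XT.nd (nat_lit 624) (nat_lit 1824) (nat_lit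 0) (XT.nd (nat_lit 312) (nat_lit 912) (nat_lit 0) (XT.nd (nat_lit 156) (nat_lit 456) (nat_lit 0) (XT.nd (nat_lit 78) (nat_lit 456) (nat_lit 0) (XT.lf (nat_lit 0) (nat_lit 14687870223) (nat_lit 532) (nat_lit 3581058499) (nat_lit 76) (nat_lit 47916093754) (nat_lit 230) (nat_lit 5) (nat_lit 237) (nat_lit 5) (nat_lit 231) (nat_lit 5) (nat_lit 510) (nat_lit 476) (nat_lit 214)) (XT.lf (nat_lit 0) (nat_lit 25289113596) (nat_lit 532) (nat_lit 32412978059) (nat_lit 76) (nat_lit 9628072070) (nat_lit 224) (nat_lit 5) (nat_lit 231) (nat_lit 5) (nat_lit 225) (nat_lit 5) (nat_lit 511) (nat_lit 476) (nat_lit 213))) (XT.nd (nat_lit 78) (nat_lit 0) (nat_lit 0) (XT.lf (nat_lit 0) (nat_lit 6071522538) (nat_lit 456) (nat_lit 30411885377) (nat_lit 532) (nat_lit 32018000939) (nat_lit 218) (nat_lit 5) (nat_lit 224) (nat_lit 5) (nat_lit 225) (nat_lit 5) (nat_lit 512) (nat_lit 476) (nat_lit 212)) (XT.lf (nat_lit 0) (nat_lit 46374074317)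 (nat_lit 456) (nat_lit 1966027551) (nat_lit 532) (nat_lit 21357892396) (nat_lit 218) (nat_lit 5) (nat_lit 224) (nat_lit 5) (nat_lit 225) (nat_lit 5) (nat_lit 513) (nat_lit 476) (nat_lit 211)))) (XT.nd (nat_lit 156) (nat_lit 456) (nat_lit 0) (XT.nd (nat_lit 78) (nat_lit 76) (nat_lit 0) (XT.lf (nat_lit 0) (nat_lit 17023765714) (nat_lit 380) (nat_lit 43954400319) (nat_lit 456) (nat_lit 9939541173) (nat_lit 213) (nat_lit 5) (nat_lit 218) (nat_lit 5) (nat_lit 219) (nat_lit 5) (nat_lit 514) (nat_lit 476) (nat_lit 210)) (XT.lf (nat_lit 0) (nat_lit 2042430926) (nat_lit 456) (nat_lit 13147168377) (nat_lit 76) (nat_lit 56976188691) (nat_lit 212) (nat_lit 5) (nat_lit 218) (nat_lit 5) (nat_lit 213) (nat_lit 5) (nat_lit 515) (nat_lit 476) (nat_lit 209))) (XT.nd (nat_lit 78) (nat_lit 0) (nat_lit 0) (XT.lf (nat_lit 0) (nat_lit 14607540198) (nat_lit 532) (nat_lit 44288135560) (nat_lit 76) (nat_lit 14539979565) (nat_lit 206) (nat_lit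 5) (nat_lit 213) (nat_lit 5) (nat_lit 207) (nat_lit 5) (nat_lit 516) (nat_lit 476) (nat_lit 208)) (XT.lf (nat_lit 0) (nat_lit 27833388584) (nat_lit 532) (nat_lit 1911689312) (nat_lit 76) (nat_lit 44990027246) (nat_lit 206) (nat_lit 5) (nat_lit 213) (nat_lit 5) (nat_lit 207) (nat_lit 5) (nat_lit 517) (nat_lit 476) (nat_lit 207))))) (XT.nd (nat_lit 312) (nat_lit 684) (nat_lit 0) (XT.nd (nat_lit 156) (nat_lit 380) (nat_lit 0) (XT.nd (nat_lit 78) (nat_lit 380) (nat_lit 0) (XT.lf (nat_lit 0) (nat_lit 41871260379) (nat_lit 456) (nat_lit 33502235480) (nat_lit 76) (nat_lit 687585201) (nat_lit 201) (nat_lit 5) (nat_lit 207) (nat_lit 5) (nat_lit 202) (nat_lit 5) (nat_lit 518) (nat_lit 476) (nat_lit 206)) (XT.lf (nat_lit 0) (nat_lit 10893417842) (nat_lit 380) (nat_lit 45854913267) (nat_lit 456) (nat_lit 20665963306) (nat_lit 196) (nat_lit 5) (nat_lit 201) (nat_lit 5) (nat_lit 202) (nat_lit 5) (nat_lit 519) (nat_lit 476) (nat_lit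 205))) (XT.nd (nat_lit 78) (nat_lit 380) (nat_lit 0) (XT.lf (nat_lit 0) (nat_lit 57306830126) (nat_lit 380) (nat_lit 15102548752) (nat_lit 456) (nat_lit 6388595386) (nat_lit 196) (nat_lit 5) (nat_lit 201) (nat_lit 5) (nat_lit 202) (nat_lit 5) (nat_lit 520) (nat_lit 476) (nat_lit 204)) (XT.lf (nat_lit 0) (nat_lit 8559891305) (nat_lit 380) (nat_lit 55073577983) (nat_lit 76) (nat_lit 16575143963) (nat_lit 191) (nat_lit 5) (nat_lit 196) (nat_lit 5) (nat_lit 192) (nat_lit 5) (nat_lit 521) (nat_lit 476) (nat_lit 203)))) (XT.nd (nat_lit 156) (nat_lit 304) (nat_lit 0) (XT.nd (nat_lit 78) (nat_lit 380) (nat_lit 0) (XT.lf (nat_lit 0) (nat_lit 24196503874) (nat_lit 380) (nat_lit 8270314397) (nat_lit 76) (nat_lit 49181813301) (nat_lit 191) (nat_lit 5) (nat_lit 196) (nat_lit 5) (nat_lit 192) (nat_lit 5) (nat_lit 522) (nat_lit 476) (nat_lit 202)) (XT.lf (nat_lit 0) (nat_lit 40693506778) (nat_lit 456) (nat_lit 42389474193) (nat_lit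 76) (nat_lit 37130748) (nat_lit 186) (nat_lit 5) (nat_lit 192) (nat_lit 5) (nat_lit 187) (nat_lit 5) (nat_lit 523) (nat_lit 476) (nat_lit 201))) (XT.nd (nat_lit 78) (nat_lit 0) (nat_lit 0) (XT.lf (nat_lit 0) (nat_lit 6542456213) (nat_lit 304) (nat_lit 51611051876) (nat_lit 380) (nat_lit 26468185566) (nat_lit 182) (nat_lit 5) (nat_lit 186) (nat_lit 5) (nat_lit 187) (nat_lit 5) (nat_lit 524) (nat_lit 476) (nat_lit 200)) (XT.lf (nat_lit 0) (nat_lit 57810444887) (nat_lit 304) (nat_lit 18754328150) (nat_lit 380) (nat_lit 9590726141) (nat_lit 182) (nat_lit 5) (nat_lit 186) (nat_lit 5) (nat_lit 187) (nat_lit 5) (nat_lit 525) (nat_lit 476) (nat_lit 199))))))))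
noncomputable def xc233 : XT := (XT.nd (nat_lit 59826) (nat_lit 0) (nat_lit 3724) (XT.nd (nat_lit 1248) (nat_lit 0) (nat_lit 0) (XT.nd (nat_lit 546) (nat_lit 1672) (nat_lit 0) (XT.nd (nat_lit 234) (nat_lit 684) (nat_lit 0) (XT.nd (nat_lit 78) (nat_lit 304) (nat_lit 0) (XT.lf (nat_lit 0) (nat_lit 8011982353) (nat_lit 380) (nat_lit 64615084407) (nat_lit 76) (nat_lit 15094874912) (nat_lit 177) (nat_lit 5) (nat_lit 182) (nat_lit 5) (nat_lit 178) (nat_lit 5) (nat_lit 526) (nat_lit 476) (nat_lit 198)) (XT.nd (nat_lit 78) (nat_lit 304) (nat_lit 0) (XT.lf (nat_lit 0) (nat_lit 26424188715) (nat_lit 380) (nat_lit 12927732337) (nat_lit 76) (nat_lit 49966382268) (nat_lit 177) (nat_lit 5) (nat_lit 182) (nat_lit 5) (nat_lit 178) (nat_lit 5) (nat_lit 527) (nat_lit 476) (nat_lit 197)) (XT.lf (nat_lit 0) (nat_lit 41111665590) (nat_lit 304) (nat_lit 4671733602) (nat_lit 380) (nat_lit 45167317518) (nat_lit 173) (nat_lit 5) (nat_lit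 177) (nat_lit 5) (nat_lit 178) (nat_lit 5) (nat_lit 528) (nat_lit 476) (nat_lit 196)))) (XT.nd (nat_lit 156) (nat_lit 380) (nat_lit 0) (XT.nd (nat_lit 78) (nat_lit 0) (nat_lit 0) (XT.lf (nat_lit 0) (nat_lit 4190261796) (nat_lit 304) (nat_lit 62003154775) (nat_lit 380) (nat_lit 26424585044) (nat_lit 169) (nat_lit 5) (nat_lit 173) (nat_lit 5) (nat_lit 174) (nat_lit 5) (nat_lit 529) (nat_lit 476) (nat_lit 195)) (XT.lf (nat_lit 0) (nat_lit 60814121166) (nat_lit 304) (nat_lit 26950152775) (nat_lit 380) (nat_lit 6554574970) (nat_lit 169) (nat_lit 5) (nat_lit 173) (nat_lit 5) (nat_lit 174) (nat_lit 5) (nat_lit 530) (nat_lit 476) (nat_lit 194))) (XT.nd (nat_lit 78) (nat_lit 0) (nat_lit 0) (XT.lf (nat_lit 0) (nat_lit 13955906789) (nat_lit 380) (nat_lit 72763693473) (nat_lit 76) (nat_lit 9337634538) (nat_lit 164) (nat_lit 5) (nat_lit 169) (nat_lit 5) (nat_lit 165) (nat_lit 5) (nat_lit 531) (nat_lit 476) (nat_lit 193)) (XT.lf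 (nat_lit 0) (nat_lit 35557954779) (nat_lit 380) (nat_lit 15690931047) (nat_lit 76) (nat_lit 46578699795) (nat_lit 164) (nat_lit 5) (nat_lit 169) (nat_lit 5) (nat_lit 165) (nat_lit 5) (nat_lit 532) (nat_lit 476) (nat_lit 192))))) (XT.nd (nat_lit 312) (nat_lit 760) (nat_lit 0) (XT.nd (nat_lit 156) (nat_lit 380) (nat_lit 0) (XT.nd (nat_lit 78) (nat_lit 228) (nat_lit 0) (XT.lf (nat_lit 0) (nat_lit 43950876002) (nat_lit 304) (nat_lit 14279163314) (nat_lit 380) (nat_lit 41408348424) (nat_lit 160) (nat_lit 5) (nat_lit 164) (nat_lit 5) (nat_lit 165) (nat_lit 5) (nat_lit 533) (nat_lit 476) (nat_lit 191)) (XT.lf (nat_lit 0) (nat_lit 4052781294) (nat_lit 228) (nat_lit 77956753319) (nat_lit 304) (nat_lit 19481161888) (nat_lit 157) (nat_lit 5) (nat_lit 160) (nat_lit 5) (nat_lit 161) (nat_lit 5) (nat_lit 534) (nat_lit 476) (nat_lit 190))) (XT.nd (nat_lit 78) (nat_lit 304) (nat_lit 0) (XT.lf (nat_lit 0) (nat_lit 3752052785) (nat_lit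 304) (nat_lit 36832448763) (nat_lit 76) (nat_lit 62791914530) (nat_lit 156) (nat_lit 5) (nat_lit 160) (nat_lit 5) (nat_lit 157) (nat_lit 5) (nat_lit 535) (nat_lit 476) (nat_lit 189)) (XT.lf (nat_lit 0) (nat_lit 25902997274) (nat_lit 304) (nat_lit 1636224037) (nat_lit 380) (nat_lit 77766244185) (nat_lit 152) (nat_lit 5) (nat_lit 156) (nat_lit 5) (nat_lit 157) (nat_lit 5) (nat_lit 536) (nat_lit 476) (nat_lit 188)))) (XT.nd (nat_lit 156) (nat_lit 532) (nat_lit 0) (XT.nd (nat_lit 78) (nat_lit 228) (nat_lit 0) (XT.lf (nat_lit 0) (nat_lit 52785039327) (nat_lit 380) (nat_lit 16380039858) (nat_lit 76) (nat_lit 38104956201) (nat_lit 152) (nat_lit 5) (nat_lit 157) (nat_lit 5) (nat_lit 153) (nat_lit 5) (nat_lit 537) (nat_lit 476) (nat_lit 187)) (XT.lf (nat_lit 0) (nat_lit 49481682649) (nat_lit 228) (nat_lit 29797929976) (nat_lit 304) (nat_lit 29999188348) (nat_lit 149) (nat_lit 5) (nat_lit 152) (nat_lit 5) (nat_lit 153) (nat_lit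 5) (nat_lit 538) (nat_lit 476) (nat_lit 186))) (XT.nd (nat_lit 156) (nat_lit 304) (nat_lit 0) (XT.lf (nat_lit 0) (nat_lit 6329960847) (nat_lit 228) (nat_lit 100569827709) (nat_lit 304) (nat_lit 4438118028) (nat_lit 146) (nat_lit 5) (nat_lit 149) (nat_lit 5) (nat_lit 150) (nat_lit 5) (nat_lit 539) (nat_lit 476) (nat_lit 185)) (XT.lf (nat_lit 0) (nat_lit 30997375537) (nat_lit 228) (nat_lit 19187242109) (nat_lit 304) (nat_lit 65380537999) (nat_lit 142) (nat_lit 5) (nat_lit 145) (nat_lit 5) (nat_lit 146) (nat_lit 5) (nat_lit 541) (nat_lit 476) (nat_lit 183)))))) (XT.nd (nat_lit 57954) (nat_lit 0) (nat_lit 11856) (XT.nd (nat_lit 57642) (nat_lit 0) (nat_lit 12768) (XT.nd (nat_lit 57486) (nat_lit 0) (nat_lit 12692) (XT.nd (nat_lit 57408) (nat_lit 0) (nat_lit 12692) (XT.lf (nat_lit 0) (nat_lit 79452861541) (nat_lit 304) (nat_lit 14843940376) (nat_lit 76) (nat_lit 23453878952) (nat_lit 142) (nat_lit 5) (nat_lit 146) (nat_lit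 5) (nat_lit 143) (nat_lit 5) (nat_lit 542) (nat_lit 476) (nat_lit 182)) (XT.lf (nat_lit 0) (nat_lit 10250314675) (nat_lit 1292) (nat_lit 4767952428) (nat_lit 1292) (nat_lit 4767952428) (nat_lit 309) (nat_lit 3) (nat_lit 326) (nat_lit 3) (nat_lit 326) (nat_lit 5) (nat_lit 477) (nat_lit 477) (nat_lit 246))) (XT.nd (nat_lit 78) (nat_lit 0) (nat_lit 76) (XT.lf (nat_lit 76) (nat_lit 10292165156) (nat_lit 0) (nat_lit 10656516860) (nat_lit 1292) (nat_lit 19213123489) (nat_lit 310) (nat_lit 5) (nat_lit 309) (nat_lit 3) (nat_lit 326) (nat_lit 5) (nat_lit 478) (nat_lit 477) (nat_lit 245)) (XT.lf (nat_lit 0) (nat_lit 21595243431) (nat_lit 1216) (nat_lit 9946717570) (nat_lit 1292) (nat_lit 9221340074) (nat_lit 310) (nat_lit 5) (nat_lit 326) (nat_lit 5) (nat_lit 327) (nat_lit 5) (nat_lit 479) (nat_lit 477) (nat_lit 244)))) (XT.nd (nat_lit 156) (nat_lit 0) (nat_lit 76) (XT.nd (nat_lit 78) (nat_lit 0) (nat_lit 76) (XT.lf (nat_lit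 76) (nat_lit 10675823473) (nat_lit 0) (nat_lit 11791933566) (nat_lit 1292) (nat_lit 18908887958) (nat_lit 311) (nat_lit 5) (nat_lit 310) (nat_lit 5) (nat_lit 327) (nat_lit 5) (nat_lit 480) (nat_lit 477) (nat_lit 243)) (XT.lf (nat_lit 0) (nat_lit 23548543092) (nat_lit 1216) (nat_lit 9968552475) (nat_lit 1292) (nat_lit 8485830898) (nat_lit 311) (nat_lit 5) (nat_lit 327) (nat_lit 5) (nat_lit 328) (nat_lit 5) (nat_lit 481) (nat_lit 477) (nat_lit 242))) (XT.nd (nat_lit 78) (nat_lit 0) (nat_lit 76) (XT.lf (nat_lit 76) (nat_lit 11492288585) (nat_lit 0) (nat_lit 13395198195) (nat_lit 1292) (nat_lit 17753737716) (nat_lit 312) (nat_lit 5) (nat_lit 311) (nat_lit 5) (nat_lit 328) (nat_lit 5) (nat_lit 482) (nat_lit 477) (nat_lit 241)) (XT.lf (nat_lit 0) (nat_lit 26437273666) (nat_lit 1216) (nat_lit 9566752197) (nat_lit 1292) (nat_lit 7289525490) (nat_lit 312) (nat_lit 5) (nat_lit 328) (nat_lit 5) (nat_lit 329) (nat_lit 5) (nat_lit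 483) (nat_lit 477) (nat_lit 240))))) (XT.nd (nat_lit 312) (nat_lit 1064) (nat_lit 0) (XT.nd (nat_lit 156) (nat_lit 0) (nat_lit 76) (XT.nd (nat_lit 78) (nat_lit 0) (nat_lit 76) (XT.lf (nat_lit 76) (nat_lit 12778716976) (nat_lit 0) (nat_lit 15508893467) (nat_lit 1292) (nat_lit 15670216014) (nat_lit 313) (nat_lit 5) (nat_lit 312) (nat_lit 5) (nat_lit 329) (nat_lit 5) (nat_lit 484) (nat_lit 477) (nat_lit 239)) (XT.lf (nat_lit 0) (nat_lit 30343490882) (nat_lit 1216) (nat_lit 8704220041) (nat_lit 1292) (nat_lit 5589818010) (nat_lit 313) (nat_lit 5) (nat_lit 329) (nat_lit 5) (nat_lit 330) (nat_lit 5) (nat_lit 485) (nat_lit 477) (nat_lit 238))) (XT.nd (nat_lit 78) (nat_lit 0) (nat_lit 76) (XT.lf (nat_lit 76) (nat_lit 14574848101) (nat_lit 0) (nat_lit 18178525776) (nat_lit 1292) (nat_lit 12575478944) (nat_lit 314) (nat_lit 5) (nat_lit 313) (nat_lit 5) (nat_lit 330) (nat_lit 5) (nat_lit 486) (nat_lit 477) (nat_lit 237))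 (XT.lf (nat_lit 0) (nat_lit 35354905705) (nat_lit 1216) (nat_lit 7341272175) (nat_lit 1292) (nat_lit 3341158095) (nat_lit 314) (nat_lit 5) (nat_lit 330) (nat_lit 5) (nat_lit 331) (nat_lit 5) (nat_lit 487) (nat_lit 477) (nat_lit 236)))) (XT.nd (nat_lit 156) (nat_lit 1216) (nat_lit 0) (XT.nd (nat_lit 78) (nat_lit 0) (nat_lit 76) (XT.lf (nat_lit 76) (nat_lit 16923160464) (nat_lit 0) (nat_lit 21452725991) (nat_lit 1292) (nat_lit 8380945192) (nat_lit 315) (nat_lit 5) (nat_lit 314) (nat_lit 5) (nat_lit 331) (nat_lit 5) (nat_lit 488) (nat_lit 477) (nat_lit 235)) (XT.lf (nat_lit 0) (nat_lit 41565250147) (nat_lit 1216) (nat_lit 5435480926) (nat_lit 1292) (nat_lit 494848625) (nat_lit 315) (nat_lit 5) (nat_lit 331) (nat_lit 5) (nat_lit 332) (nat_lit 5) (nat_lit 489) (nat_lit 477) (nat_lit 234))) (XT.nd (nat_lit 78) (nat_lit 1292) (nat_lit 0) (XT.lf (nat_lit 76) (nat_lit 19869037018) (nat_lit 0) (nat_lit 25383462642) (nat_lit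 1292) (nat_lit 2991924491) (nat_lit 316) (nat_lit 5) (nat_lit 315) (nat_lit 5) (nat_lit 332) (nat_lit 5) (nat_lit 490) (nat_lit 477) (nat_lit 233)) (XT.lf (nat_lit 0) (nat_lit 88210598) (nat_lit 1292) (nat_lit 2971796804) (nat_lit 1368) (nat_lit 45954089040) (nat_lit 298) (nat_lit 5) (nat_lit 315) (nat_lit 5) (nat_lit 316) (nat_lit 5) (nat_lit 491) (nat_lit 477) (nat_lit 232))))))) (XT.nd (nat_lit 1170) (nat_lit 3952) (nat_lit 0) (XT.nd (nat_lit 546) (nat_lit 2888) (nat_lit 0) (XT.nd (nat_lit 234) (nat_lit 1368) (nat_lit 0) (XT.nd (nat_lit 78) (nat_lit 0) (nat_lit 0) (XT.lf (nat_lit 0) (nat_lit 3620717166) (nat_lit 1292) (nat_lit 26368989021) (nat_lit 1368) (nat_lit 19803661059) (nat_lit 299) (nat_lit 5) (nat_lit 316) (nat_lit 5) (nat_lit 317) (nat_lit 5) (nat_lit 492) (nat_lit 477) (nat_lit 231)) (XT.nd (nat_lit 78) (nat_lit 0) (nat_lit 76) (XT.lf (nat_lit 76) (nat_lit 47631981) (nat_lit 0) (nat_lit 7271511774)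 (nat_lit 1368) (nat_lit 43275074172) (nat_lit 300) (nat_lit 5) (nat_lit 299) (nat_lit 5) (nat_lit 317) (nat_lit 5) (nat_lit 493) (nat_lit 477) (nat_lit 230)) (XT.lf (nat_lit 0) (nat_lit 11551377464) (nat_lit 1292) (nat_lit 23772456559) (nat_lit 76) (nat_lit 16082574567) (nat_lit 300) (nat_lit 5) (nat_lit 317) (nat_lit 5) (nat_lit 301) (nat_lit 5) (nat_lit 494) (nat_lit 477) (nat_lit 229)))) (XT.nd (nat_lit 156) (nat_lit 608) (nat_lit 0) (XT.nd (nat_lit 78) (nat_lit 0) (nat_lit 0) (XT.lf (nat_lit 0) (nat_lit 3806233176) (nat_lit 836) (nat_lit 12211868262) (nat_lit 912) (nat_lit 36221637929) (nat_lit 289) (nat_lit 5) (nat_lit 300) (nat_lit 5) (nat_lit 301) (nat_lit 5) (nat_lit 495) (nat_lit 477) (nat_lit 228)) (XT.lf (nat_lit 0) (nat_lit 20971665674) (nat_lit 912) (nat_lit 20506057625) (nat_lit 76) (nat_lit 11609761702) (nat_lit 289) (nat_lit 5) (nat_lit 301) (nat_lit 5) (nat_lit 290) (nat_lit 5) (nat_lit 496) (nat_lit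 477) (nat_lit 227))) (XT.nd (nat_lit 78) (nat_lit 0) (nat_lit 0) (XT.lf (nat_lit 0) (nat_lit 8299317804) (nat_lit 608) (nat_lit 17974200100) (nat_lit 684) (nat_lit 27681154753) (nat_lit 281) (nat_lit 5) (nat_lit 289) (nat_lit 5) (nat_lit 290) (nat_lit 5) (nat_lit 497) (nat_lit 477) (nat_lit 226)) (XT.lf (nat_lit 0) (nat_lit 32002490357) (nat_lit 684) (nat_lit 16515392236) (nat_lit 76) (nat_lit 6321951492) (nat_lit 281) (nat_lit 5) (nat_lit 290) (nat_lit 5) (nat_lit 282) (nat_lit 5) (nat_lit 498) (nat_lit 477) (nat_lit 225))))) (XT.nd (nat_lit 312) (nat_lit 1672) (nat_lit 0) (XT.nd (nat_lit 156) (nat_lit 608) (nat_lit 0) (XT.nd (nat_lit 78) (nat_lit 0) (nat_lit 0) (XT.lf (nat_lit 0) (nat_lit 13584968802) (nat_lit 608) (nat_lit 24625955630) (nat_lit 684) (nat_lit 17531398231) (nat_lit 273) (nat_lit 5) (nat_lit 281) (nat_lit 5) (nat_lit 282) (nat_lit 5) (nat_lit 499) (nat_lit 477) (nat_lit 224)) (XT.lf (nat_lit 0)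 (nat_lit 44772932039) (nat_lit 684) (nat_lit 11742426907) (nat_lit 76) (nat_lit 151507416) (nat_lit 273) (nat_lit 5) (nat_lit 282) (nat_lit 5) (nat_lit 274) (nat_lit 5) (nat_lit 500) (nat_lit 477) (nat_lit 223))) (XT.nd (nat_lit 78) (nat_lit 76) (nat_lit 0) (XT.lf (nat_lit 0) (nat_lit 19725113138) (nat_lit 532) (nat_lit 32239207475) (nat_lit 608) (nat_lit 5641850212) (nat_lit 266) (nat_lit 5) (nat_lit 273) (nat_lit 5) (nat_lit 274) (nat_lit 5) (nat_lit 501) (nat_lit 477) (nat_lit 222)) (XT.lf (nat_lit 0) (nat_lit 901076422) (nat_lit 608) (nat_lit 6202482818) (nat_lit 76) (nat_lit 51466299752) (nat_lit 265) (nat_lit 5) (nat_lit 273) (nat_lit 5) (nat_lit 266) (nat_lit 5) (nat_lit 502) (nat_lit 477) (nat_lit 221)))) (XT.nd (nat_lit 156) (nat_lit 532) (nat_lit 0) (XT.nd (nat_lit 78) (nat_lit 532) (nat_lit 0) (XT.lf (nat_lit 0) (nat_lit 7968242742) (nat_lit 684) (nat_lit 32842254471) (nat_lit 76) (nat_lit 18737044438)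 (nat_lit 257) (nat_lit 5) (nat_lit 266) (nat_lit 5) (nat_lit 258) (nat_lit 5) (nat_lit 503) (nat_lit 477) (nat_lit 220)) (XT.lf (nat_lit 0) (nat_lit 104934666) (nat_lit 532) (nat_lit 15276224589) (nat_lit 608) (nat_lit 45169383546) (nat_lit 250) (nat_lit 5) (nat_lit 257) (nat_lit 5) (nat_lit 258) (nat_lit 5) (nat_lit 504) (nat_lit 477) (nat_lit 219))) (XT.nd (nat_lit 78) (nat_lit 532) (nat_lit 0) (XT.lf (nat_lit 0) (nat_lit 23456516184) (nat_lit 608) (nat_lit 26970100522) (nat_lit 76) (nat_lit 11143815757) (nat_lit 250) (nat_lit 5) (nat_lit 258) (nat_lit 5) (nat_lit 251) (nat_lit 5) (nat_lit 505) (nat_lit 477) (nat_lit 218)) (XT.lf (nat_lit 0) (nat_lit 7503943229) (nat_lit 532) (nat_lit 24492754187) (nat_lit 608) (nat_lit 30617544556) (nat_lit 243) (nat_lit 5) (nat_lit 250) (nat_lit 5) (nat_lit 251) (nat_lit 5) (nat_lit 506) (nat_lit 477) (nat_lit 217)))))) (XT.nd (nat_lit 624) (nat_lit 2052) (nat_lit 0) (XT.nd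 (nat_lit 312) (nat_lit 912) (nat_lit 0) (XT.nd (nat_lit 156) (nat_lit 532) (nat_lit 0) (XT.nd (nat_lit 78) (nat_lit 456) (nat_lit 0) (XT.lf (nat_lit 0) (nat_lit 41088652915) (nat_lit 608) (nat_lit 20141077204) (nat_lit 76) (nat_lit 2450768643) (nat_lit 243) (nat_lit 5) (nat_lit 251) (nat_lit 5) (nat_lit 244) (nat_lit 5) (nat_lit 507) (nat_lit 477) (nat_lit 216)) (XT.lf (nat_lit 0) (nat_lit 15944966423) (nat_lit 456) (nat_lit 34903395002) (nat_lit 532) (nat_lit 13918532061) (nat_lit 237) (nat_lit 5) (nat_lit 243) (nat_lit 5) (nat_lit 244) (nat_lit 5) (nat_lit 508) (nat_lit 477) (nat_lit 215))) (XT.nd (nat_lit 78) (nat_lit 532) (nat_lit 0) (XT.lf (nat_lit 0) (nat_lit 53525576712) (nat_lit 456) (nat_lit 7577903145) (nat_lit 532) (nat_lit 4776321693) (nat_lit 237) (nat_lit 5) (nat_lit 243) (nat_lit 5) (nat_lit 244) (nat_lit 5) (nat_lit 509) (nat_lit 477) (nat_lit 214)) (XT.lf (nat_lit 0) (nat_lit 4996132438) (nat_lit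 532) (nat_lit 41555167626) (nat_lit 76) (nat_lit 20460063019) (nat_lit 230) (nat_lit 5) (nat_lit 237) (nat_lit 5) (nat_lit 231) (nat_lit 5) (nat_lit 510) (nat_lit 477) (nat_lit 213)))) (XT.nd (nat_lit 156) (nat_lit 456) (nat_lit 0) (XT.nd (nat_lit 78) (nat_lit 456) (nat_lit 0) (XT.lf (nat_lit 0) (nat_lit 15166038729) (nat_lit 532) (nat_lit 3643393775) (nat_lit 76) (nat_lit 49360011966) (nat_lit 230) (nat_lit 5) (nat_lit 237) (nat_lit 5) (nat_lit 231) (nat_lit 5) (nat_lit 511) (nat_lit 477) (nat_lit 212)) (XT.lf (nat_lit 0) (nat_lit 26084730313) (nat_lit 532) (nat_lit 33339679203) (nat_lit 76) (nat_lit 9924548190) (nat_lit 224) (nat_lit 5) (nat_lit 231) (nat_lit 5) (nat_lit 225) (nat_lit 5) (nat_lit 512) (nat_lit 477) (nat_lit 211))) (XT.nd (nat_lit 78) (nat_lit 0) (nat_lit 0) (XT.lf (nat_lit 0) (nat_lit 6298908489) (nat_lit 456) (nat_lit 31315303832) (nat_lit 532) (nat_lit 32941147180) (nat_lit 218) (nat_lit 5)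 (nat_lit 224) (nat_lit 5) (nat_lit 225) (nat_lit 5) (nat_lit 513) (nat_lit 477) (nat_lit 210)) (XT.lf (nat_lit 0) (nat_lit 47809219143) (nat_lit 456) (nat_lit 2016330605) (nat_lit 532) (nat_lit 21962324521) (nat_lit 218) (nat_lit 5) (nat_lit 224) (nat_lit 5) (nat_lit 225) (nat_lit 5) (nat_lit 514) (nat_lit 477) (nat_lit 209))))) (XT.nd (nat_lit 312) (nat_lit 1140) (nat_lit 0) (XT.nd (nat_lit 156) (nat_lit 456) (nat_lit 0) (XT.nd (nat_lit 78) (nat_lit 76) (nat_lit 0) (XT.lf (nat_lit 0) (nat_lit 17578937503) (nat_lit 380) (nat_lit 45263300138) (nat_lit 456) (nat_lit 10201956576) (nat_lit 213) (nat_lit 5) (nat_lit 218) (nat_lit 5) (nat_lit 219) (nat_lit 5) (nat_lit 515) (nat_lit 477) (nat_lit 208)) (XT.lf (nat_lit 0) (nat_lit 2137755131) (nat_lit 456) (nat_lit 13497739571) (nat_lit 76) (nat_lit 58694243124) (nat_lit 212) (nat_lit 5) (nat_lit 218) (nat_lit 5) (nat_lit 213) (nat_lit 5) (nat_lit 516) (nat_lit 477) (nat_lit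 207))) (XT.nd (nat_lit 78) (nat_lit 0) (nat_lit 0) (XT.lf (nat_lit 0) (nat_lit 15079338741) (nat_lit 532) (nat_lit 45572454627) (nat_lit 76) (nat_lit 14985922243) (nat_lit 206) (nat_lit 5) (nat_lit 213) (nat_lit 5) (nat_lit 207) (nat_lit 5) (nat_lit 517) (nat_lit 477) (nat_lit 206)) (XT.lf (nat_lit 0) (nat_lit 28700984743) (nat_lit 532) (nat_lit 1926006011) (nat_lit 76) (nat_lit 46349187569) (nat_lit 206) (nat_lit 5) (nat_lit 213) (nat_lit 5) (nat_lit 207) (nat_lit 5) (nat_lit 518) (nat_lit 477) (nat_lit 205)))) (XT.nd (nat_lit 156) (nat_lit 380) (nat_lit 0) (XT.nd (nat_lit 78) (nat_lit 380) (nat_lit 0) (XT.lf (nat_lit 0) (nat_lit 43159554434) (nat_lit 456) (nat_lit 34463828231) (nat_lit 76) (nat_lit 718564064) (nat_lit 201) (nat_lit 5) (nat_lit 207) (nat_lit 5) (nat_lit 202) (nat_lit 5) (nat_lit 519) (nat_lit 477) (nat_lit 204)) (XT.lf (nat_lit 0) (nat_lit 11263268473) (nat_lit 380) (nat_lit 47219146028) (nat_lit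 456) (nat_lit 21253357726) (nat_lit 196) (nat_lit 5) (nat_lit 201) (nat_lit 5) (nat_lit 202) (nat_lit 5) (nat_lit 520) (nat_lit 477) (nat_lit 203))) (XT.nd (nat_lit 78) (nat_lit 380) (nat_lit 0) (XT.lf (nat_lit 0) (nat_lit 59067829297) (nat_lit 380) (nat_lit 15544543043) (nat_lit 456) (nat_lit 6548617832) (nat_lit 196) (nat_lit 5) (nat_lit 201) (nat_lit 5) (nat_lit 202) (nat_lit 5) (nat_lit 521) (nat_lit 477) (nat_lit 202)) (XT.lf (nat_lit 0) (nat_lit 8847316753) (nat_lit 380) (nat_lit 56682980602) (nat_lit 76) (nat_lit 17083653587) (nat_lit 191) (nat_lit 5) (nat_lit 196) (nat_lit 5) (nat_lit 192) (nat_lit 5) (nat_lit 522) (nat_lit 477) (nat_lit 201))))))))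
noncomputable def xc234 : XT := (XT.nd (nat_lit 59904) (nat_lit 0) (nat_lit 4484) (XT.nd (nat_lit 1170) (nat_lit 760) (nat_lit 0) (XT.nd (nat_lit 546) (nat_lit 1596) (nat_lit 0) (XT.nd (nat_lit 234) (nat_lit 684) (nat_lit 0) (XT.nd (nat_lit 78) (nat_lit 684) (nat_lit 0) (XT.lf (nat_lit 0) (nat_lit 24952135600) (nat_lit 380) (nat_lit 8476865849) (nat_lit 76) (nat_lit 50668195180) (nat_lit 191) (nat_lit 5) (nat_lit 196) (nat_lit 5) (nat_lit 192) (nat_lit 5) (nat_lit 523) (nat_lit 477) (nat_lit 200)) (XT.nd (nat_lit 78) (nat_lit 304) (nat_lit 0) (XT.lf (nat_lit 0) (nat_lit 41943692282) (nat_lit 456) (nat_lit 43619242390) (nat_lit 76) (nat_lit 49897251) (nat_lit 186) (nat_lit 5) (nat_lit 192) (nat_lit 5) (nat_lit 187) (nat_lit 5) (nat_lit 524) (nat_lit 477) (nat_lit 199)) (XT.lf (nat_lit 0) (nat_lit 6780234987) (nat_lit 304) (nat_lit 53146801882) (nat_lit 380) (nat_lit 27232438203) (nat_lit 182) (nat_lit 5) (nat_lit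 186) (nat_lit 5) (nat_lit 187) (nat_lit 5) (nat_lit 525) (nat_lit 477) (nat_lit 198)))) (XT.nd (nat_lit 156) (nat_lit 304) (nat_lit 0) (XT.nd (nat_lit 78) (nat_lit 380) (nat_lit 0) (XT.lf (nat_lit 0) (nat_lit 59585054435) (nat_lit 304) (nat_lit 19304742897) (nat_lit 380) (nat_lit 9849522750) (nat_lit 182) (nat_lit 5) (nat_lit 186) (nat_lit 5) (nat_lit 187) (nat_lit 5) (nat_lit 526) (nat_lit 477) (nat_lit 197)) (XT.lf (nat_lit 0) (nat_lit 8280385988) (nat_lit 380) (nat_lit 66512356591) (nat_lit 76) (nat_lit 15560014474) (nat_lit 177) (nat_lit 5) (nat_lit 182) (nat_lit 5) (nat_lit 178) (nat_lit 5) (nat_lit 527) (nat_lit 477) (nat_lit 196))) (XT.nd (nat_lit 78) (nat_lit 304) (nat_lit 0) (XT.lf (nat_lit 0) (nat_lit 27244141720) (nat_lit 380) (nat_lit 13275583387) (nat_lit 76) (nat_lit 51477308992) (nat_lit 177) (nat_lit 5) (nat_lit 182) (nat_lit 5) (nat_lit 178) (nat_lit 5) (nat_lit 528) (nat_lit 477) (nat_lit 195))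 (XT.lf (nat_lit 0) (nat_lit 42384604509) (nat_lit 304) (nat_lit 4799111527) (nat_lit 380) (nat_lit 46494716274) (nat_lit 173) (nat_lit 5) (nat_lit 177) (nat_lit 5) (nat_lit 178) (nat_lit 5) (nat_lit 529) (nat_lit 477) (nat_lit 194))))) (XT.nd (nat_lit 312) (nat_lit 912) (nat_lit 0) (XT.nd (nat_lit 156) (nat_lit 380) (nat_lit 0) (XT.nd (nat_lit 78) (nat_lit 0) (nat_lit 0) (XT.lf (nat_lit 0) (nat_lit 4355846886) (nat_lit 304) (nat_lit 63849908574) (nat_lit 380) (nat_lit 27189988697) (nat_lit 169) (nat_lit 5) (nat_lit 173) (nat_lit 5) (nat_lit 174) (nat_lit 5) (nat_lit 530) (nat_lit 477) (nat_lit 193)) (XT.lf (nat_lit 0) (nat_lit 62677260564) (nat_lit 304) (nat_lit 27745705083) (nat_lit 380) (nat_lit 6724674454) (nat_lit 169) (nat_lit 5) (nat_lit 173) (nat_lit 5) (nat_lit 174) (nat_lit 5) (nat_lit 531) (nat_lit 477) (nat_lit 192))) (XT.nd (nat_lit 78) (nat_lit 0) (nat_lit 0) (XT.lf (nat_lit 0) (nat_lit 14400346530)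 (nat_lit 380) (nat_lit 74907110659) (nat_lit 76) (nat_lit 9630720485) (nat_lit 164) (nat_lit 5) (nat_lit 169) (nat_lit 5) (nat_lit 165) (nat_lit 5) (nat_lit 532) (nat_lit 477) (nat_lit 191)) (XT.lf (nat_lit 0) (nat_lit 36649705595) (nat_lit 380) (nat_lit 16123315660) (nat_lit 76) (nat_lit 47988640314) (nat_lit 164) (nat_lit 5) (nat_lit 169) (nat_lit 5) (nat_lit 165) (nat_lit 5) (nat_lit 533) (nat_lit 477) (nat_lit 190)))) (XT.nd (nat_lit 156) (nat_lit 380) (nat_lit 0) (XT.nd (nat_lit 78) (nat_lit 228) (nat_lit 0) (XT.lf (nat_lit 0) (nat_lit 45307369686) (nat_lit 304) (nat_lit 14694219438) (nat_lit 380) (nat_lit 42625209570) (nat_lit 160) (nat_lit 5) (nat_lit 164) (nat_lit 5) (nat_lit 165) (nat_lit 5) (nat_lit 534) (nat_lit 477) (nat_lit 189)) (XT.lf (nat_lit 0) (nat_lit 4212566551) (nat_lit 228) (nat_lit 80281676326) (nat_lit 304) (nat_lit 20040440668) (nat_lit 157) (nat_lit 5) (nat_lit 160) (nat_lit 5) (nat_lit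 161) (nat_lit 5) (nat_lit 535) (nat_lit 477) (nat_lit 188))) (XT.nd (nat_lit 78) (nat_lit 304) (nat_lit 0) (XT.lf (nat_lit 0) (nat_lit 3888561156) (nat_lit 304) (nat_lit 37899855378) (nat_lit 76) (nat_lit 64688572507) (nat_lit 156) (nat_lit 5) (nat_lit 160) (nat_lit 5) (nat_lit 157) (nat_lit 5) (nat_lit 536) (nat_lit 477) (nat_lit 187)) (XT.lf (nat_lit 0) (nat_lit 26717285737) (nat_lit 304) (nat_lit 1671719096) (nat_lit 380) (nat_lit 80074915338) (nat_lit 152) (nat_lit 5) (nat_lit 156) (nat_lit 5) (nat_lit 157) (nat_lit 5) (nat_lit 537) (nat_lit 477) (nat_lit 186)))))) (XT.nd (nat_lit 58110) (nat_lit 0) (nat_lit 12844) (XT.nd (nat_lit 57798) (nat_lit 0) (nat_lit 12692) (XT.nd (nat_lit 234) (nat_lit 532) (nat_lit 0) (XT.nd (nat_lit 78) (nat_lit 228) (nat_lit 0) (XT.lf (nat_lit 0) (nat_lit 54391636657) (nat_lit 380) (nat_lit 16834764176) (nat_lit 76) (nat_lit 39261043178) (nat_lit 152) (nat_lit 5) (nat_lit 157) (nat_lit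 5) (nat_lit 153) (nat_lit 5) (nat_lit 538) (nat_lit 477) (nat_lit 185)) (XT.lf (nat_lit 0) (nat_lit 51002450429) (nat_lit 228) (nat_lit 30678274581) (nat_lit 304) (nat_lit 30875757250) (nat_lit 149) (nat_lit 5) (nat_lit 152) (nat_lit 5) (nat_lit 153) (nat_lit 5) (nat_lit 539) (nat_lit 477) (nat_lit 184))) (XT.nd (nat_lit 78) (nat_lit 228) (nat_lit 0) (XT.lf (nat_lit 0) (nat_lit 23060126595) (nat_lit 304) (nat_lit 39398912304) (nat_lit 76) (nat_lit 54368398846) (nat_lit 145) (nat_lit 5) (nat_lit 149) (nat_lit 5) (nat_lit 146) (nat_lit 5) (nat_lit 541) (nat_lit 477) (nat_lit 182)) (XT.lf (nat_lit 0) (nat_lit 31962830348) (nat_lit 228) (nat_lit 19749124727) (nat_lit 304) (nat_lit 67319500365) (nat_lit 142) (nat_lit 5) (nat_lit 145) (nat_lit 5) (nat_lit 146) (nat_lit 5) (nat_lit 542) (nat_lit 477) (nat_lit 181)))) (XT.nd (nat_lit 156) (nat_lit 0) (nat_lit 76) (XT.nd (nat_lit 78) (nat_lit 0) (nat_lit 0) (XT.lf (nat_lit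 0) (nat_lit 10599032786) (nat_lit 1292) (nat_lit 4889766630) (nat_lit 1292) (nat_lit 4889766630) (nat_lit 309) (nat_lit 3) (nat_lit 326) (nat_lit 3) (nat_lit 326) (nat_lit 5) (nat_lit 478) (nat_lit 478) (nat_lit 244)) (XT.lf (nat_lit 76) (nat_lit 10642962689) (nat_lit 0) (nat_lit 11014600667) (nat_lit 1292) (nat_lit 19706676288) (nat_lit 310) (nat_lit 5) (nat_lit 309) (nat_lit 3) (nat_lit 326) (nat_lit 5) (nat_lit 479) (nat_lit 478) (nat_lit 243))) (XT.nd (nat_lit 78) (nat_lit 0) (nat_lit 0) (XT.lf (nat_lit 0) (nat_lit 22320820993) (nat_lit 1216) (nat_lit 10201602964) (nat_lit 1292) (nat_lit 9461437357) (nat_lit 310) (nat_lit 5) (nat_lit 326) (nat_lit 5) (nat_lit 327) (nat_lit 5) (nat_lit 480) (nat_lit 478) (nat_lit 242)) (XT.lf (nat_lit 76) (nat_lit 11039187682) (nat_lit 0) (nat_lit 12178472833) (nat_lit 1292) (nat_lit 19398000732) (nat_lit 311) (nat_lit 5) (nat_lit 310) (nat_lit 5) (nat_lit 327) (nat_lit 5) (nat_lit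 481) (nat_lit 478) (nat_lit 241))))) (XT.nd (nat_lit 312) (nat_lit 0) (nat_lit 152) (XT.nd (nat_lit 156) (nat_lit 0) (nat_lit 76) (XT.nd (nat_lit 78) (nat_lit 0) (nat_lit 0) (XT.lf (nat_lit 0) (nat_lit 24328354387) (nat_lit 1216) (nat_lit 10223252043) (nat_lit 1292) (nat_lit 8709200407) (nat_lit 311) (nat_lit 5) (nat_lit 327) (nat_lit 5) (nat_lit 328) (nat_lit 5) (nat_lit 482) (nat_lit 478) (nat_lit 240)) (XT.lf (nat_lit 76) (nat_lit 11880979377) (nat_lit 0) (nat_lit 13824772661) (nat_lit 1292) (nat_lit 18212553398) (nat_lit 312) (nat_lit 5) (nat_lit 311) (nat_lit 5) (nat_lit 328) (nat_lit 5) (nat_lit 483) (nat_lit 478) (nat_lit 239))) (XT.nd (nat_lit 78) (nat_lit 0) (nat_lit 0) (XT.lf (nat_lit 0) (nat_lit 27299687223) (nat_lit 1216) (nat_lit 9808760222) (nat_lit 1292) (nat_lit 7481825204) (nat_lit 312) (nat_lit 5) (nat_lit 328) (nat_lit 5) (nat_lit 329) (nat_lit 5) (nat_lit 484) (nat_lit 478) (nat_lit 238)) (XT.lf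 (nat_lit 76) (nat_lit 13206631902) (nat_lit 0) (nat_lit 15997312164) (nat_lit 1292) (nat_lit 16070579827) (nat_lit 313) (nat_lit 5) (nat_lit 312) (nat_lit 5) (nat_lit 329) (nat_lit 5) (nat_lit 485) (nat_lit 478) (nat_lit 237)))) (XT.nd (nat_lit 156) (nat_lit 0) (nat_lit 76) (XT.nd (nat_lit 78) (nat_lit 0) (nat_lit 0) (XT.lf (nat_lit 0) (nat_lit 31319312851) (nat_lit 1216) (nat_lit 8919896812) (nat_lit 1292) (nat_lit 5735473603) (nat_lit 313) (nat_lit 5) (nat_lit 329) (nat_lit 5) (nat_lit 330) (nat_lit 5) (nat_lit 486) (nat_lit 478) (nat_lit 236)) (XT.lf (nat_lit 76) (nat_lit 15057097788) (nat_lit 0) (nat_lit 18742918888) (nat_lit 1292) (nat_lit 12886774640) (nat_lit 314) (nat_lit 5) (nat_lit 313) (nat_lit 5) (nat_lit 330) (nat_lit 5) (nat_lit 487) (nat_lit 478) (nat_lit 235))) (XT.nd (nat_lit 78) (nat_lit 0) (nat_lit 0) (XT.lf (nat_lit 0) (nat_lit 36477551501) (nat_lit 1216) (nat_lit 7515768270) (nat_lit 1292)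 (nat_lit 3423270652) (nat_lit 314) (nat_lit 5) (nat_lit 330) (nat_lit 5) (nat_lit 331) (nat_lit 5) (nat_lit 488) (nat_lit 478) (nat_lit 234)) (XT.lf (nat_lit 76) (nat_lit 17476148897) (nat_lit 0) (nat_lit 22111642382) (nat_lit 1292) (nat_lit 8569920965) (nat_lit 315) (nat_lit 5) (nat_lit 314) (nat_lit 5) (nat_lit 331) (nat_lit 5) (nat_lit 489) (nat_lit 478) (nat_lit 233))))))) (XT.nd (nat_lit 1170) (nat_lit 4256) (nat_lit 0) (XT.nd (nat_lit 546) (nat_lit 2432) (nat_lit 0) (XT.nd (nat_lit 234) (nat_lit 684) (nat_lit 0) (XT.nd (nat_lit 78) (nat_lit 1292) (nat_lit 0) (XT.lf (nat_lit 0) (nat_lit 42870926898) (nat_lit 1216) (nat_lit 5552656638) (nat_lit 1292) (nat_lit 495096630) (nat_lit 315) (nat_lit 5) (nat_lit 331) (nat_lit 5) (nat_lit 332) (nat_lit 5) (nat_lit 490) (nat_lit 478) (nat_lit 232)) (XT.nd (nat_lit 78) (nat_lit 1292) (nat_lit 0) (XT.lf (nat_lit 76) (nat_lit 20510546956) (nat_lit 0) (nat_lit 26156973457)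 (nat_lit 1292) (nat_lit 3022507899) (nat_lit 316) (nat_lit 5) (nat_lit 315) (nat_lit 5) (nat_lit 332) (nat_lit 5) (nat_lit 491) (nat_lit 478) (nat_lit 231)) (XT.lf (nat_lit 0) (nat_lit 147186647) (nat_lit 1292) (nat_lit 3015709377) (nat_lit 1368) (nat_lit 47319928526) (nat_lit 298) (nat_lit 5) (nat_lit 315) (nat_lit 5) (nat_lit 316) (nat_lit 5) (nat_lit 492) (nat_lit 478) (nat_lit 230)))) (XT.nd (nat_lit 156) (nat_lit 760) (nat_lit 0) (XT.nd (nat_lit 78) (nat_lit 0) (nat_lit 0) (XT.lf (nat_lit 0) (nat_lit 3784359144) (nat_lit 1292) (nat_lit 27113503342) (nat_lit 1368) (nat_lit 20387650414) (nat_lit 299) (nat_lit 5) (nat_lit 316) (nat_lit 5) (nat_lit 317) (nat_lit 5) (nat_lit 493) (nat_lit 478) (nat_lit 229)) (XT.lf (nat_lit 76) (nat_lit 95159865) (nat_lit 0) (nat_lit 7497419258) (nat_lit 1368) (nat_lit 44517844898) (nat_lit 300) (nat_lit 5) (nat_lit 299) (nat_lit 5) (nat_lit 317) (nat_lit 5) (nat_lit 494) (nat_lit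 478) (nat_lit 228))) (XT.nd (nat_lit 78) (nat_lit 836) (nat_lit 0) (XT.lf (nat_lit 0) (nat_lit 11950138634) (nat_lit 1292) (nat_lit 24439228331) (nat_lit 76) (nat_lit 16557662810) (nat_lit 300) (nat_lit 5) (nat_lit 317) (nat_lit 5) (nat_lit 301) (nat_lit 5) (nat_lit 495) (nat_lit 478) (nat_lit 227)) (XT.lf (nat_lit 0) (nat_lit 3966367176) (nat_lit 836) (nat_lit 12583417856) (nat_lit 912) (nat_lit 37255607953) (nat_lit 289) (nat_lit 5) (nat_lit 300) (nat_lit 5) (nat_lit 301) (nat_lit 5) (nat_lit 496) (nat_lit 478) (nat_lit 226))))) (XT.nd (nat_lit 312) (nat_lit 1216) (nat_lit 0) (XT.nd (nat_lit 156) (nat_lit 608) (nat_lit 0) (XT.nd (nat_lit 78) (nat_lit 608) (nat_lit 0) (XT.lf (nat_lit 0) (nat_lit 21650418194) (nat_lit 912) (nat_lit 21075088391) (nat_lit 76) (nat_lit 11953110668) (nat_lit 289) (nat_lit 5) (nat_lit 301) (nat_lit 5) (nat_lit 290) (nat_lit 5) (nat_lit 497) (nat_lit 478) (nat_lit 225)) (XT.lf (nat_lit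 0) (nat_lit 8593995840) (nat_lit 608) (nat_lit 18516324698) (nat_lit 684) (nat_lit 28461530287) (nat_lit 281) (nat_lit 5) (nat_lit 289) (nat_lit 5) (nat_lit 290) (nat_lit 5) (nat_lit 498) (nat_lit 478) (nat_lit 224))) (XT.nd (nat_lit 78) (nat_lit 608) (nat_lit 0) (XT.lf (nat_lit 0) (nat_lit 33009719665) (nat_lit 684) (nat_lit 16965040046) (nat_lit 76) (nat_lit 6508850781) (nat_lit 281) (nat_lit 5) (nat_lit 290) (nat_lit 5) (nat_lit 282) (nat_lit 5) (nat_lit 499) (nat_lit 478) (nat_lit 223)) (XT.lf (nat_lit 0) (nat_lit 14037882667) (nat_lit 608) (nat_lit 25365586735) (nat_lit 684) (nat_lit 18009732562) (nat_lit 273) (nat_lit 5) (nat_lit 281) (nat_lit 5) (nat_lit 282) (nat_lit 5) (nat_lit 500) (nat_lit 478) (nat_lit 222)))) (XT.nd (nat_lit 156) (nat_lit 684) (nat_lit 0) (XT.nd (nat_lit 78) (nat_lit 532) (nat_lit 0) (XT.lf (nat_lit 0) (nat_lit 46160983148) (nat_lit 684) (nat_lit 12049298380) (nat_lit 76) (nat_lit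 155241181) (nat_lit 273) (nat_lit 5) (nat_lit 282) (nat_lit 5) (nat_lit 274) (nat_lit 5) (nat_lit 501) (nat_lit 478) (nat_lit 221)) (XT.lf (nat_lit 0) (nat_lit 20361822755) (nat_lit 532) (nat_lit 33205416077) (nat_lit 608) (nat_lit 5765793819) (nat_lit 266) (nat_lit 5) (nat_lit 273) (nat_lit 5) (nat_lit 274) (nat_lit 5) (nat_lit 502) (nat_lit 478) (nat_lit 220))) (XT.nd (nat_lit 78) (nat_lit 608) (nat_lit 0) (XT.lf (nat_lit 0) (nat_lit 971242405) (nat_lit 608) (nat_lit 6344048607) (nat_lit 76) (nat_lit 53010366307) (nat_lit 265) (nat_lit 5) (nat_lit 273) (nat_lit 5) (nat_lit 266) (nat_lit 5) (nat_lit 503) (nat_lit 478) (nat_lit 219)) (XT.lf (nat_lit 0) (nat_lit 8249608071) (nat_lit 684) (nat_lit 33782194434) (nat_lit 76) (nat_lit 19300892522) (nat_lit 257) (nat_lit 5) (nat_lit 266) (nat_lit 5) (nat_lit 258) (nat_lit 5) (nat_lit 504) (nat_lit 478) (nat_lit 218)))))) (XT.nd (nat_lit 624) (nat_lit 2204) (nat_lit 0)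 (XT.nd (nat_lit 312) (nat_lit 988) (nat_lit 0) (XT.nd (nat_lit 156) (nat_lit 532) (nat_lit 0) (XT.nd (nat_lit 78) (nat_lit 0) (nat_lit 0) (XT.lf (nat_lit 0) (nat_lit 152965988) (nat_lit 532) (nat_lit 15731144972) (nat_lit 608) (nat_lit 46481699383) (nat_lit 250) (nat_lit 5) (nat_lit 257) (nat_lit 5) (nat_lit 258) (nat_lit 5) (nat_lit 505) (nat_lit 478) (nat_lit 217)) (XT.lf (nat_lit 0) (nat_lit 24200550783) (nat_lit 608) (nat_lit 27734446581) (nat_lit 76) (nat_lit 11481334759) (nat_lit 250) (nat_lit 5) (nat_lit 258) (nat_lit 5) (nat_lit 251) (nat_lit 5) (nat_lit 506) (nat_lit 478) (nat_lit 216))) (XT.nd (nat_lit 78) (nat_lit 0) (nat_lit 0) (XT.lf (nat_lit 0) (nat_lit 7773379689) (nat_lit 532) (nat_lit 25222808851) (nat_lit 608) (nat_lit 31495289936) (nat_lit 243) (nat_lit 5) (nat_lit 250) (nat_lit 5) (nat_lit 251) (nat_lit 5) (nat_lit 507) (nat_lit 478) (nat_lit 215)) (XT.lf (nat_lit 0) (nat_lit 42359793715) (nat_lit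 608) (nat_lit 20701170229) (nat_lit 76) (nat_lit 2528792384) (nat_lit 243) (nat_lit 5) (nat_lit 251) (nat_lit 5) (nat_lit 244) (nat_lit 5) (nat_lit 508) (nat_lit 478) (nat_lit 214)))) (XT.nd (nat_lit 156) (nat_lit 532) (nat_lit 0) (XT.nd (nat_lit 78) (nat_lit 0) (nat_lit 0) (XT.lf (nat_lit 0) (nat_lit 16467021969) (nat_lit 456) (nat_lit 35944570834) (nat_lit 532) (nat_lit 14297171198) (nat_lit 237) (nat_lit 5) (nat_lit 243) (nat_lit 5) (nat_lit 244) (nat_lit 5) (nat_lit 509) (nat_lit 478) (nat_lit 213)) (XT.lf (nat_lit 0) (nat_lit 55173777560) (nat_lit 456) (nat_lit 7799486824) (nat_lit 532) (nat_lit 4881828018) (nat_lit 237) (nat_lit 5) (nat_lit 243) (nat_lit 5) (nat_lit 244) (nat_lit 5) (nat_lit 510) (nat_lit 478) (nat_lit 212))) (XT.nd (nat_lit 78) (nat_lit 0) (nat_lit 0) (XT.lf (nat_lit 0) (nat_lit 5182455633) (nat_lit 532) (nat_lit 42758039666) (nat_lit 76) (nat_lit 21080112870) (nat_lit 230) (nat_lit 5) (nat_lit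 237) (nat_lit 5) (nat_lit 231) (nat_lit 5) (nat_lit 511) (nat_lit 478) (nat_lit 211)) (XT.lf (nat_lit 0) (nat_lit 15656397776) (nat_lit 532) (nat_lit 3710187832) (nat_lit 76) (nat_lit 50846878305) (nat_lit 230) (nat_lit 5) (nat_lit 237) (nat_lit 5) (nat_lit 231) (nat_lit 5) (nat_lit 512) (nat_lit 478) (nat_lit 210))))) (XT.nd (nat_lit 312) (nat_lit 912) (nat_lit 0) (XT.nd (nat_lit 156) (nat_lit 380) (nat_lit 0) (XT.nd (nat_lit 78) (nat_lit 456) (nat_lit 0) (XT.lf (nat_lit 0) (nat_lit 26902094835) (nat_lit 532) (nat_lit 34296804071) (nat_lit 76) (nat_lit 10229480374) (nat_lit 224) (nat_lit 5) (nat_lit 231) (nat_lit 5) (nat_lit 225) (nat_lit 5) (nat_lit 513) (nat_lit 478) (nat_lit 209)) (XT.lf (nat_lit 0) (nat_lit 6530519041) (nat_lit 456) (nat_lit 32246337925) (nat_lit 532) (nat_lit 33894134365) (nat_lit 218) (nat_lit 5) (nat_lit 224) (nat_lit 5) (nat_lit 225) (nat_lit 5) (nat_lit 514) (nat_lit 478) (nat_lit 208)))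 (XT.nd (nat_lit 78) (nat_lit 380) (nat_lit 0) (XT.lf (nat_lit 0) (nat_lit 49284896977) (nat_lit 456) (nat_lit 2068640890) (nat_lit 532) (nat_lit 22586973644) (nat_lit 218) (nat_lit 5) (nat_lit 224) (nat_lit 5) (nat_lit 225) (nat_lit 5) (nat_lit 515) (nat_lit 478) (nat_lit 207)) (XT.lf (nat_lit 0) (nat_lit 18148212328) (nat_lit 380) (nat_lit 46612025619) (nat_lit 456) (nat_lit 10474297832) (nat_lit 213) (nat_lit 5) (nat_lit 218) (nat_lit 5) (nat_lit 219) (nat_lit 5) (nat_lit 516) (nat_lit 478) (nat_lit 206)))) (XT.nd (nat_lit 156) (nat_lit 380) (nat_lit 0) (XT.nd (nat_lit 78) (nat_lit 456) (nat_lit 0) (XT.lf (nat_lit 0) (nat_lit 2233984379) (nat_lit 456) (nat_lit 13861344718) (nat_lit 76) (nat_lit 60463335828) (nat_lit 212) (nat_lit 5) (nat_lit 218) (nat_lit 5) (nat_lit 213) (nat_lit 5) (nat_lit 517) (nat_lit 478) (nat_lit 205)) (XT.lf (nat_lit 0) (nat_lit 15563364050) (nat_lit 532) (nat_lit 46897847702) (nat_lit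 76) (nat_lit 15444683896) (nat_lit 206) (nat_lit 5) (nat_lit 213) (nat_lit 5) (nat_lit 207) (nat_lit 5) (nat_lit 518) (nat_lit 478) (nat_lit 204))) (XT.nd (nat_lit 78) (nat_lit 380) (nat_lit 0) (XT.lf (nat_lit 0) (nat_lit 29592737729) (nat_lit 532) (nat_lit 1943222537) (nat_lit 76) (nat_lit 47748579687) (nat_lit 206) (nat_lit 5) (nat_lit 213) (nat_lit 5) (nat_lit 207) (nat_lit 5) (nat_lit 519) (nat_lit 478) (nat_lit 203)) (XT.lf (nat_lit 0) (nat_lit 44484651411) (nat_lit 456) (nat_lit 35456764367) (nat_lit 76) (nat_lit 749878085) (nat_lit 201) (nat_lit 5) (nat_lit 207) (nat_lit 5) (nat_lit 202) (nat_lit 5) (nat_lit 520) (nat_lit 478) (nat_lit 202))))))))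
noncomputable def xc235 : XT := (XT.nd (nat_lit 60138) (nat_lit 0) (nat_lit 3800) (XT.nd (nat_lit 1170) (nat_lit 1064) (nat_lit 0) (XT.nd (nat_lit 546) (nat_lit 1672) (nat_lit 0) (XT.nd (nat_lit 234) (nat_lit 684) (nat_lit 0) (XT.nd (nat_lit 78) (nat_lit 380) (nat_lit 0) (XT.lf (nat_lit 0) (nat_lit 11641743486) (nat_lit 380) (nat_lit 48624961019) (nat_lit 456) (nat_lit 21860244462) (nat_lit 196) (nat_lit 5) (nat_lit 201) (nat_lit 5) (nat_lit 202) (nat_lit 5) (nat_lit 521) (nat_lit 478) (nat_lit 201)) (XT.nd (nat_lit 78) (nat_lit 380) (nat_lit 0) (XT.lf (nat_lit 0) (nat_lit 60879259282) (nat_lit 380) (nat_lit 16000433324) (nat_lit 456) (nat_lit 6715256953) (nat_lit 196) (nat_lit 5) (nat_lit 201) (nat_lit 5) (nat_lit 202) (nat_lit 5) (nat_lit 522) (nat_lit 478) (nat_lit 200)) (XT.lf (nat_lit 0) (nat_lit 9141606751) (nat_lit 380) (nat_lit 58343122467) (nat_lit 76) (nat_lit 17606772399) (nat_lit 191) (nat_lit 5) (nat_lit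 196) (nat_lit 5) (nat_lit 192) (nat_lit 5) (nat_lit 523) (nat_lit 478) (nat_lit 199)))) (XT.nd (nat_lit 156) (nat_lit 304) (nat_lit 0) (XT.nd (nat_lit 78) (nat_lit 380) (nat_lit 0) (XT.lf (nat_lit 0) (nat_lit 25728729276) (nat_lit 380) (nat_lit 8691999442) (nat_lit 76) (nat_lit 52198541234) (nat_lit 191) (nat_lit 5) (nat_lit 196) (nat_lit 5) (nat_lit 192) (nat_lit 5) (nat_lit 524) (nat_lit 478) (nat_lit 198)) (XT.lf (nat_lit 0) (nat_lit 43229696802) (nat_lit 456) (nat_lit 44888309784) (nat_lit 76) (nat_lit 62377842) (nat_lit 186) (nat_lit 5) (nat_lit 192) (nat_lit 5) (nat_lit 187) (nat_lit 5) (nat_lit 525) (nat_lit 478) (nat_lit 197))) (XT.nd (nat_lit 78) (nat_lit 0) (nat_lit 0) (XT.lf (nat_lit 0) (nat_lit 7022764562) (nat_lit 304) (nat_lit 54729346620) (nat_lit 380) (nat_lit 28021328655) (nat_lit 182) (nat_lit 5) (nat_lit 186) (nat_lit 5) (nat_lit 187) (nat_lit 5) (nat_lit 526) (nat_lit 478) (nat_lit 196)) (XT.lf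 (nat_lit 0) (nat_lit 61410589102) (nat_lit 304) (nat_lit 19872371282) (nat_lit 380) (nat_lit 10117743680) (nat_lit 182) (nat_lit 5) (nat_lit 186) (nat_lit 5) (nat_lit 187) (nat_lit 5) (nat_lit 527) (nat_lit 478) (nat_lit 195))))) (XT.nd (nat_lit 312) (nat_lit 684) (nat_lit 0) (XT.nd (nat_lit 156) (nat_lit 608) (nat_lit 0) (XT.nd (nat_lit 78) (nat_lit 0) (nat_lit 0) (XT.lf (nat_lit 0) (nat_lit 8555231882) (nat_lit 380) (nat_lit 68468910861) (nat_lit 76) (nat_lit 16038402535) (nat_lit 177) (nat_lit 5) (nat_lit 182) (nat_lit 5) (nat_lit 178) (nat_lit 5) (nat_lit 528) (nat_lit 478) (nat_lit 194)) (XT.lf (nat_lit 0) (nat_lit 28087130355) (nat_lit 380) (nat_lit 13636165036) (nat_lit 76) (nat_lit 53032878386) (nat_lit 177) (nat_lit 5) (nat_lit 182) (nat_lit 5) (nat_lit 178) (nat_lit 5) (nat_lit 529) (nat_lit 478) (nat_lit 193))) (XT.nd (nat_lit 78) (nat_lit 304) (nat_lit 0) (XT.lf (nat_lit 0) (nat_lit 43693459027) (nat_lit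 304) (nat_lit 4931044074) (nat_lit 380) (nat_lit 47863522537) (nat_lit 173) (nat_lit 5) (nat_lit 177) (nat_lit 5) (nat_lit 178) (nat_lit 5) (nat_lit 530) (nat_lit 478) (nat_lit 192)) (XT.lf (nat_lit 0) (nat_lit 4524110413) (nat_lit 304) (nat_lit 65752830806) (nat_lit 380) (nat_lit 27979923538) (nat_lit 169) (nat_lit 5) (nat_lit 173) (nat_lit 5) (nat_lit 174) (nat_lit 5) (nat_lit 531) (nat_lit 478) (nat_lit 191)))) (XT.nd (nat_lit 156) (nat_lit 304) (nat_lit 0) (XT.nd (nat_lit 78) (nat_lit 380) (nat_lit 0) (XT.lf (nat_lit 0) (nat_lit 64594071702) (nat_lit 304) (nat_lit 28565867473) (nat_lit 380) (nat_lit 6901400298) (nat_lit 169) (nat_lit 5) (nat_lit 173) (nat_lit 5) (nat_lit 174) (nat_lit 5) (nat_lit 532) (nat_lit 478) (nat_lit 190)) (XT.lf (nat_lit 0) (nat_lit 14856640588) (nat_lit 380) (nat_lit 77117097456) (nat_lit 76) (nat_lit 9931855231) (nat_lit 164) (nat_lit 5) (nat_lit 169) (nat_lit 5) (nat_lit 165) (nat_lit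 5) (nat_lit 533) (nat_lit 478) (nat_lit 189))) (XT.nd (nat_lit 78) (nat_lit 304) (nat_lit 0) (XT.lf (nat_lit 0) (nat_lit 37772773134) (nat_lit 380) (nat_lit 16570872875) (nat_lit 76) (nat_lit 49440156932) (nat_lit 164) (nat_lit 5) (nat_lit 169) (nat_lit 5) (nat_lit 165) (nat_lit 5) (nat_lit 534) (nat_lit 478) (nat_lit 188)) (XT.lf (nat_lit 0) (nat_lit 46702378696) (nat_lit 304) (nat_lit 15122491798) (nat_lit 380) (nat_lit 43880034000) (nat_lit 160) (nat_lit 5) (nat_lit 164) (nat_lit 5) (nat_lit 165) (nat_lit 5) (nat_lit 535) (nat_lit 478) (nat_lit 187)))))) (XT.nd (nat_lit 58344) (nat_lit 0) (nat_lit 12540) (XT.nd (nat_lit 58032) (nat_lit 0) (nat_lit 12388) (XT.nd (nat_lit 156) (nat_lit 760) (nat_lit 0) (XT.nd (nat_lit 78) (nat_lit 76) (nat_lit 0) (XT.lf (nat_lit 0) (nat_lit 4374952425) (nat_lit 228) (nat_lit 82677138029) (nat_lit 304) (nat_lit 20617941873) (nat_lit 157) (nat_lit 5) (nat_lit 160) (nat_lit 5) (nat_lit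 161) (nat_lit 5) (nat_lit 536) (nat_lit 478) (nat_lit 186)) (XT.lf (nat_lit 0) (nat_lit 4027790134) (nat_lit 304) (nat_lit 39001440682) (nat_lit 76) (nat_lit 66641389679) (nat_lit 156) (nat_lit 5) (nat_lit 160) (nat_lit 5) (nat_lit 157) (nat_lit 5) (nat_lit 537) (nat_lit 478) (nat_lit 185))) (XT.nd (nat_lit 234) (nat_lit 456) (nat_lit 0) (XT.lf (nat_lit 0) (nat_lit 27553867506) (nat_lit 304) (nat_lit 1709059224) (nat_lit 380) (nat_lit 82454242473) (nat_lit 152) (nat_lit 5) (nat_lit 156) (nat_lit 5) (nat_lit 157) (nat_lit 5) (nat_lit 538) (nat_lit 478) (nat_lit 184)) (XT.lf (nat_lit 0) (nat_lit 6787470818) (nat_lit 228) (nat_lit 106666977055) (nat_lit 304) (nat_lit 4662601401) (nat_lit 146) (nat_lit 5) (nat_lit 149) (nat_lit 5) (nat_lit 150) (nat_lit 5) (nat_lit 541) (nat_lit 478) (nat_lit 181)))) (XT.nd (nat_lit 156) (nat_lit 0) (nat_lit 76) (XT.nd (nat_lit 78) (nat_lit 0) (nat_lit 0) (XT.lf (nat_lit 0) (nat_lit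 10955846894) (nat_lit 1292) (nat_lit 5016453624) (nat_lit 1292) (nat_lit 5016453624) (nat_lit 309) (nat_lit 3) (nat_lit 326) (nat_lit 3) (nat_lit 326) (nat_lit 5) (nat_lit 479) (nat_lit 479) (nat_lit 242)) (XT.lf (nat_lit 76) (nat_lit 11001871306) (nat_lit 0) (nat_lit 11381223342) (nat_lit 1292) (nat_lit 20219791077) (nat_lit 310) (nat_lit 5) (nat_lit 309) (nat_lit 3) (nat_lit 326) (nat_lit 5) (nat_lit 480) (nat_lit 479) (nat_lit 241))) (XT.nd (nat_lit 78) (nat_lit 0) (nat_lit 0) (XT.lf (nat_lit 0) (nat_lit 23063704421) (nat_lit 1216) (nat_lit 10466632924) (nat_lit 1292) (nat_lit 9710835272) (nat_lit 310) (nat_lit 5) (nat_lit 326) (nat_lit 5) (nat_lit 327) (nat_lit 5) (nat_lit 481) (nat_lit 479) (nat_lit 240)) (XT.lf (nat_lit 76) (nat_lit 11410979303) (nat_lit 0) (nat_lit 12574726501) (nat_lit 1292) (nat_lit 19906273242) (nat_lit 311) (nat_lit 5) (nat_lit 310) (nat_lit 5) (nat_lit 327) (nat_lit 5) (nat_lit 482)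 (nat_lit 479) (nat_lit 239))))) (XT.nd (nat_lit 312) (nat_lit 0) (nat_lit 152) (XT.nd (nat_lit 156) (nat_lit 0) (nat_lit 76) (XT.nd (nat_lit 78) (nat_lit 0) (nat_lit 0) (XT.lf (nat_lit 0) (nat_lit 25127349143) (nat_lit 1216) (nat_lit 10488138871) (nat_lit 1292) (nat_lit 8941062320) (nat_lit 311) (nat_lit 5) (nat_lit 327) (nat_lit 5) (nat_lit 328) (nat_lit 5) (nat_lit 483) (nat_lit 479) (nat_lit 238)) (XT.lf (nat_lit 76) (nat_lit 12278809582) (nat_lit 0) (nat_lit 14265643205) (nat_lit 1292) (nat_lit 18689369768) (nat_lit 312) (nat_lit 5) (nat_lit 311) (nat_lit 5) (nat_lit 328) (nat_lit 5) (nat_lit 484) (nat_lit 479) (nat_lit 237))) (XT.nd (nat_lit 78) (nat_lit 0) (nat_lit 0) (XT.lf (nat_lit 0) (nat_lit 28183995350) (nat_lit 1216) (nat_lit 10060611359) (nat_lit 1292) (nat_lit 7681408576) (nat_lit 312) (nat_lit 5) (nat_lit 328) (nat_lit 5) (nat_lit 329) (nat_lit 5) (nat_lit 485) (nat_lit 479) (nat_lit 236)) (XT.lf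 (nat_lit 76) (nat_lit 13644826729) (nat_lit 0) (nat_lit 16499054408) (nat_lit 1292) (nat_lit 16486958068) (nat_lit 313) (nat_lit 5) (nat_lit 312) (nat_lit 5) (nat_lit 329) (nat_lit 5) (nat_lit 486) (nat_lit 479) (nat_lit 235)))) (XT.nd (nat_lit 156) (nat_lit 0) (nat_lit 76) (XT.nd (nat_lit 78) (nat_lit 0) (nat_lit 0) (XT.lf (nat_lit 0) (nat_lit 32320648522) (nat_lit 1216) (nat_lit 9144652892) (nat_lit 1292) (nat_lit 5886763989) (nat_lit 313) (nat_lit 5) (nat_lit 329) (nat_lit 5) (nat_lit 330) (nat_lit 5) (nat_lit 487) (nat_lit 479) (nat_lit 234)) (XT.lf (nat_lit 76) (nat_lit 15551231537) (nat_lit 0) (nat_lit 19323150972) (nat_lit 1292) (nat_lit 13211196079) (nat_lit 314) (nat_lit 5) (nat_lit 313) (nat_lit 5) (nat_lit 330) (nat_lit 5) (nat_lit 488) (nat_lit 479) (nat_lit 233))) (XT.nd (nat_lit 78) (nat_lit 0) (nat_lit 0) (XT.lf (nat_lit 0) (nat_lit 37630317696) (nat_lit 1216) (nat_lit 7698125030) (nat_lit 1292)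 (nat_lit 3508886873) (nat_lit 314) (nat_lit 5) (nat_lit 330) (nat_lit 5) (nat_lit 331) (nat_lit 5) (nat_lit 489) (nat_lit 479) (nat_lit 232)) (XT.lf (nat_lit 76) (nat_lit 18043126943) (nat_lit 0) (nat_lit 22789445996) (nat_lit 1292) (nat_lit 8768151044) (nat_lit 315) (nat_lit 5) (nat_lit 314) (nat_lit 5) (nat_lit 331) (nat_lit 5) (nat_lit 490) (nat_lit 479) (nat_lit 231))))))) (XT.nd (nat_lit 1248) (nat_lit 4104) (nat_lit 0) (XT.nd (nat_lit 624) (nat_lit 2964) (nat_lit 0) (XT.nd (nat_lit 312) (nat_lit 684) (nat_lit 0) (XT.nd (nat_lit 156) (nat_lit 1292) (nat_lit 0) (XT.nd (nat_lit 78) (nat_lit 0) (nat_lit 0) (XT.lf (nat_lit 0) (nat_lit 44212403226) (nat_lit 1216) (nat_lit 5675981821) (nat_lit 1292) (nat_lit 496190028) (nat_lit 315) (nat_lit 5) (nat_lit 331) (nat_lit 5) (nat_lit 332) (nat_lit 5) (nat_lit 491) (nat_lit 479) (nat_lit 230)) (XT.lf (nat_lit 76) (nat_lit 21168693817) (nat_lit 0) (nat_lit 26953000350)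 (nat_lit 1292) (nat_lit 3057405658) (nat_lit 316) (nat_lit 5) (nat_lit 315) (nat_lit 5) (nat_lit 332) (nat_lit 5) (nat_lit 492) (nat_lit 479) (nat_lit 229))) (XT.nd (nat_lit 78) (nat_lit 0) (nat_lit 76) (XT.lf (nat_lit 0) (nat_lit 204698420) (nat_lit 1292) (nat_lit 3063536365) (nat_lit 1368) (nat_lit 48727477005) (nat_lit 298) (nat_lit 5) (nat_lit 315) (nat_lit 5) (nat_lit 316) (nat_lit 5) (nat_lit 493) (nat_lit 479) (nat_lit 228)) (XT.lf (nat_lit 0) (nat_lit 3949751980) (nat_lit 1292) (nat_lit 27883025560) (nat_lit 1368) (nat_lit 20989740407) (nat_lit 299) (nat_lit 5) (nat_lit 316) (nat_lit 5) (nat_lit 317) (nat_lit 5) (nat_lit 494) (nat_lit 479) (nat_lit 227)))) (XT.nd (nat_lit 156) (nat_lit 760) (nat_lit 0) (XT.nd (nat_lit 78) (nat_lit 0) (nat_lit 76) (XT.lf (nat_lit 76) (nat_lit 141467318) (nat_lit 0) (nat_lit 7729658388) (nat_lit 1368) (nat_lit 45801083611) (nat_lit 300) (nat_lit 5) (nat_lit 299) (nat_lit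 5) (nat_lit 317) (nat_lit 5) (nat_lit 495) (nat_lit 479) (nat_lit 226)) (XT.lf (nat_lit 0) (nat_lit 12357865006) (nat_lit 1292) (nat_lit 25128666916) (nat_lit 76) (nat_lit 17047427859) (nat_lit 300) (nat_lit 5) (nat_lit 317) (nat_lit 5) (nat_lit 301) (nat_lit 5) (nat_lit 496) (nat_lit 479) (nat_lit 225))) (XT.nd (nat_lit 78) (nat_lit 0) (nat_lit 0) (XT.lf (nat_lit 0) (nat_lit 4128667649) (nat_lit 836) (nat_lit 12965815807) (nat_lit 912) (nat_lit 38323621075) (nat_lit 289) (nat_lit 5) (nat_lit 300) (nat_lit 5) (nat_lit 301) (nat_lit 5) (nat_lit 497) (nat_lit 479) (nat_lit 224)) (XT.lf (nat_lit 0) (nat_lit 22346685901) (nat_lit 912) (nat_lit 21663839334) (nat_lit 76) (nat_lit 12307043903) (nat_lit 289) (nat_lit 5) (nat_lit 301) (nat_lit 5) (nat_lit 290) (nat_lit 5) (nat_lit 498) (nat_lit 479) (nat_lit 223))))) (XT.nd (nat_lit 312) (nat_lit 1748) (nat_lit 0) (XT.nd (nat_lit 156) (nat_lit 608) (nat_lit 0) (XT.nd (nat_lit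 78) (nat_lit 0) (nat_lit 0) (XT.lf (nat_lit 0) (nat_lit 8894890936) (nat_lit 608) (nat_lit 19074546643) (nat_lit 684) (nat_lit 29268190685) (nat_lit 281) (nat_lit 5) (nat_lit 289) (nat_lit 5) (nat_lit 290) (nat_lit 5) (nat_lit 499) (nat_lit 479) (nat_lit 222)) (XT.lf (nat_lit 0) (nat_lit 34044458984) (nat_lit 684) (nat_lit 17430807198) (nat_lit 76) (nat_lit 6701515441) (nat_lit 281) (nat_lit 5) (nat_lit 290) (nat_lit 5) (nat_lit 282) (nat_lit 5) (nat_lit 500) (nat_lit 479) (nat_lit 221))) (XT.nd (nat_lit 78) (nat_lit 0) (nat_lit 0) (XT.lf (nat_lit 0) (nat_lit 14501779822) (nat_lit 608) (nat_lit 26127357839) (nat_lit 684) (nat_lit 18505149795) (nat_lit 273) (nat_lit 5) (nat_lit 281) (nat_lit 5) (nat_lit 282) (nat_lit 5) (nat_lit 501) (nat_lit 479) (nat_lit 220)) (XT.lf (nat_lit 0) (nat_lit 47588100461) (nat_lit 684) (nat_lit 12367982219) (nat_lit 76) (nat_lit 159133540) (nat_lit 273) (nat_lit 5) (nat_lit 282) (nat_lit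 5) (nat_lit 274) (nat_lit 5) (nat_lit 502) (nat_lit 479) (nat_lit 219)))) (XT.nd (nat_lit 156) (nat_lit 1140) (nat_lit 0) (XT.nd (nat_lit 78) (nat_lit 76) (nat_lit 0) (XT.lf (nat_lit 0) (nat_lit 21015052990) (nat_lit 532) (nat_lit 34200666482) (nat_lit 608) (nat_lit 5896056823) (nat_lit 266) (nat_lit 5) (nat_lit 273) (nat_lit 5) (nat_lit 274) (nat_lit 5) (nat_lit 503) (nat_lit 479) (nat_lit 218)) (XT.lf (nat_lit 0) (nat_lit 1041037317) (nat_lit 608) (nat_lit 6492416351) (nat_lit 76) (nat_lit 54600750407) (nat_lit 265) (nat_lit 5) (nat_lit 273) (nat_lit 5) (nat_lit 266) (nat_lit 5) (nat_lit 504) (nat_lit 479) (nat_lit 217))) (XT.nd (nat_lit 78) (nat_lit 532) (nat_lit 0) (XT.lf (nat_lit 0) (nat_lit 8536985130) (nat_lit 684) (nat_lit 34752934590) (nat_lit 76) (nat_lit 19881556353) (nat_lit 257) (nat_lit 5) (nat_lit 266) (nat_lit 5) (nat_lit 258) (nat_lit 5) (nat_lit 505) (nat_lit 479) (nat_lit 216)) (XT.lf (nat_lit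 0) (nat_lit 199861765) (nat_lit 532) (nat_lit 16199906209) (nat_lit 608) (nat_lit 47835839618) (nat_lit 250) (nat_lit 5) (nat_lit 257) (nat_lit 5) (nat_lit 258) (nat_lit 5) (nat_lit 506) (nat_lit 479) (nat_lit 215)))))) (XT.nd (nat_lit 624) (nat_lit 2128) (nat_lit 0) (XT.nd (nat_lit 312) (nat_lit 988) (nat_lit 0) (XT.nd (nat_lit 156) (nat_lit 456) (nat_lit 0) (XT.nd (nat_lit 78) (nat_lit 532) (nat_lit 0) (XT.lf (nat_lit 0) (nat_lit 24964590790) (nat_lit 608) (nat_lit 28524292255) (nat_lit 76) (nat_lit 11828795378) (nat_lit 250) (nat_lit 5) (nat_lit 258) (nat_lit 5) (nat_lit 251) (nat_lit 5) (nat_lit 507) (nat_lit 479) (nat_lit 214)) (XT.lf (nat_lit 0) (nat_lit 8048355198) (nat_lit 532) (nat_lit 25975036559) (nat_lit 608) (nat_lit 32401708672) (nat_lit 243) (nat_lit 5) (nat_lit 250) (nat_lit 5) (nat_lit 251) (nat_lit 5) (nat_lit 508) (nat_lit 479) (nat_lit 213))) (XT.nd (nat_lit 78) (nat_lit 456) (nat_lit 0) (XT.lf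 (nat_lit 0) (nat_lit 43666859760) (nat_lit 608) (nat_lit 21280599820) (nat_lit 76) (nat_lit 2608898480) (nat_lit 243) (nat_lit 5) (nat_lit 251) (nat_lit 5) (nat_lit 244) (nat_lit 5) (nat_lit 509) (nat_lit 479) (nat_lit 212)) (XT.lf (nat_lit 0) (nat_lit 17002230246) (nat_lit 456) (nat_lit 37017322119) (nat_lit 532) (nat_lit 14689403493) (nat_lit 237) (nat_lit 5) (nat_lit 243) (nat_lit 5) (nat_lit 244) (nat_lit 5) (nat_lit 510) (nat_lit 479) (nat_lit 211)))) (XT.nd (nat_lit 156) (nat_lit 456) (nat_lit 0) (XT.nd (nat_lit 78) (nat_lit 532) (nat_lit 0) (XT.lf (nat_lit 0) (nat_lit 56868988574) (nat_lit 456) (nat_lit 8028048283) (nat_lit 532) (nat_lit 4992668451) (nat_lit 237) (nat_lit 5) (nat_lit 243) (nat_lit 5) (nat_lit 244) (nat_lit 5) (nat_lit 511) (nat_lit 479) (nat_lit 210)) (XT.lf (nat_lit 0) (nat_lit 5372276763) (nat_lit 532) (nat_lit 43999511189) (nat_lit 76) (nat_lit 21718405558) (nat_lit 230) (nat_lit 5) (nat_lit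 237) (nat_lit 5) (nat_lit 231) (nat_lit 5) (nat_lit 512) (nat_lit 479) (nat_lit 209))) (XT.nd (nat_lit 78) (nat_lit 456) (nat_lit 0) (XT.lf (nat_lit 0) (nat_lit 16159436759) (nat_lit 532) (nat_lit 3781425830) (nat_lit 76) (nat_lit 52378002423) (nat_lit 230) (nat_lit 5) (nat_lit 237) (nat_lit 5) (nat_lit 231) (nat_lit 5) (nat_lit 513) (nat_lit 479) (nat_lit 208)) (XT.lf (nat_lit 0) (nat_lit 27741981333) (nat_lit 532) (nat_lit 35285114821) (nat_lit 76) (nat_lit 10543147459) (nat_lit 224) (nat_lit 5) (nat_lit 231) (nat_lit 5) (nat_lit 225) (nat_lit 5) (nat_lit 514) (nat_lit 479) (nat_lit 207))))) (XT.nd (nat_lit 312) (nat_lit 1216) (nat_lit 0) (XT.nd (nat_lit 156) (nat_lit 456) (nat_lit 0) (XT.nd (nat_lit 78) (nat_lit 0) (nat_lit 0) (XT.lf (nat_lit 0) (nat_lit 6766630010) (nat_lit 456) (nat_lit 33205786671) (nat_lit 532) (nat_lit 34877734501) (nat_lit 218) (nat_lit 5) (nat_lit 224) (nat_lit 5) (nat_lit 225) (nat_lit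 5) (nat_lit 515) (nat_lit 479) (nat_lit 206)) (XT.lf (nat_lit 0) (nat_lit 50802468544) (nat_lit 456) (nat_lit 2122990028) (nat_lit 532) (nat_lit 23232326645) (nat_lit 218) (nat_lit 5) (nat_lit 224) (nat_lit 5) (nat_lit 225) (nat_lit 5) (nat_lit 516) (nat_lit 479) (nat_lit 205))) (XT.nd (nat_lit 78) (nat_lit 76) (nat_lit 0) (XT.lf (nat_lit 0) (nat_lit 18732159782) (nat_lit 380) (nat_lit 48001739462) (nat_lit 456) (nat_lit 10756744845) (nat_lit 213) (nat_lit 5) (nat_lit 218) (nat_lit 5) (nat_lit 219) (nat_lit 5) (nat_lit 517) (nat_lit 479) (nat_lit 204)) (XT.lf (nat_lit 0) (nat_lit 2331258029) (nat_lit 456) (nat_lit 14238230361) (nat_lit 76) (nat_lit 62285026844) (nat_lit 212) (nat_lit 5) (nat_lit 218) (nat_lit 5) (nat_lit 213) (nat_lit 5) (nat_lit 518) (nat_lit 479) (nat_lit 203)))) (XT.nd (nat_lit 156) (nat_lit 760) (nat_lit 0) (XT.nd (nat_lit 78) (nat_lit 0) (nat_lit 0) (XT.lf (nat_lit 0) (nat_lit 16060093558)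 (nat_lit 532) (nat_lit 48265400945) (nat_lit 76) (nat_lit 15916681200) (nat_lit 206) (nat_lit 5) (nat_lit 213) (nat_lit 5) (nat_lit 207) (nat_lit 5) (nat_lit 519) (nat_lit 479) (nat_lit 202)) (XT.lf (nat_lit 0) (nat_lit 30509479654) (nat_lit 532) (nat_lit 1963284079) (nat_lit 76) (nat_lit 49189441726) (nat_lit 206) (nat_lit 5) (nat_lit 213) (nat_lit 5) (nat_lit 207) (nat_lit 5) (nat_lit 520) (nat_lit 479) (nat_lit 201))) (XT.nd (nat_lit 78) (nat_lit 380) (nat_lit 0) (XT.lf (nat_lit 0) (nat_lit 45847761360) (nat_lit 456) (nat_lit 36481840932) (nat_lit 76) (nat_lit 781571430) (nat_lit 201) (nat_lit 5) (nat_lit 207) (nat_lit 5) (nat_lit 202) (nat_lit 5) (nat_lit 521) (nat_lit 479) (nat_lit 200)) (XT.lf (nat_lit 0) (nat_lit 12029243466) (nat_lit 380) (nat_lit 50073568093) (nat_lit 456) (nat_lit 22487100909) (nat_lit 196) (nat_lit 5) (nat_lit 201) (nat_lit 5) (nat_lit 202) (nat_lit 5) (nat_lit 522) (nat_lit 479) (nat_lit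 199))))))))
noncomputable def xc236 : XT := (XT.nd (nat_lit 60138) (nat_lit 0) (nat_lit 3572) (XT.nd (nat_lit 1170) (nat_lit 608) (nat_lit 0) (XT.nd (nat_lit 546) (nat_lit 1520) (nat_lit 0) (XT.nd (nat_lit 234) (nat_lit 1064) (nat_lit 0) (XT.nd (nat_lit 78) (nat_lit 380) (nat_lit 0) (XT.lf (nat_lit 0) (nat_lit 62742770726) (nat_lit 380) (nat_lit 16470599958) (nat_lit 456) (nat_lit 6888607004) (nat_lit 196) (nat_lit 5) (nat_lit 201) (nat_lit 5) (nat_lit 202) (nat_lit 5) (nat_lit 523) (nat_lit 479) (nat_lit 198)) (XT.nd (nat_lit 78) (nat_lit 0) (nat_lit 0) (XT.lf (nat_lit 0) (nat_lit 9443068165) (nat_lit 380) (nat_lit 60055384702) (nat_lit 76) (nat_lit 18144975763) (nat_lit 191) (nat_lit 5) (nat_lit 196) (nat_lit 5) (nat_lit 192) (nat_lit 5) (nat_lit 524) (nat_lit 479) (nat_lit 197)) (XT.lf (nat_lit 0) (nat_lit 26527011747) (nat_lit 380) (nat_lit 8915835698) (nat_lit 76) (nat_lit 53774206395) (nat_lit 191) (nat_lit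 5) (nat_lit 196) (nat_lit 5) (nat_lit 192) (nat_lit 5) (nat_lit 525) (nat_lit 479) (nat_lit 196)))) (XT.nd (nat_lit 156) (nat_lit 380) (nat_lit 0) (XT.nd (nat_lit 78) (nat_lit 304) (nat_lit 0) (XT.lf (nat_lit 0) (nat_lit 44552691722) (nat_lit 456) (nat_lit 46197717229) (nat_lit 76) (nat_lit 74602344) (nat_lit 186) (nat_lit 5) (nat_lit 192) (nat_lit 5) (nat_lit 187) (nat_lit 5) (nat_lit 526) (nat_lit 479) (nat_lit 195)) (XT.lf (nat_lit 0) (nat_lit 7270324231) (nat_lit 304) (nat_lit 56360048473) (nat_lit 380) (nat_lit 28835497881) (nat_lit 182) (nat_lit 5) (nat_lit 186) (nat_lit 5) (nat_lit 187) (nat_lit 5) (nat_lit 527) (nat_lit 479) (nat_lit 194))) (XT.nd (nat_lit 78) (nat_lit 380) (nat_lit 0) (XT.lf (nat_lit 0) (nat_lit 63288709428) (nat_lit 304) (nat_lit 20457689464) (nat_lit 380) (nat_lit 10395576347) (nat_lit 182) (nat_lit 5) (nat_lit 186) (nat_lit 5) (nat_lit 187) (nat_lit 5) (nat_lit 528) (nat_lit 479) (nat_lit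 193)) (XT.lf (nat_lit 0) (nat_lit 8836805716) (nat_lit 380) (nat_lit 70486389980) (nat_lit 76) (nat_lit 16530477061) (nat_lit 177) (nat_lit 5) (nat_lit 182) (nat_lit 5) (nat_lit 178) (nat_lit 5) (nat_lit 529) (nat_lit 479) (nat_lit 192))))) (XT.nd (nat_lit 312) (nat_lit 912) (nat_lit 0) (XT.nd (nat_lit 156) (nat_lit 304) (nat_lit 0) (XT.nd (nat_lit 78) (nat_lit 304) (nat_lit 0) (XT.lf (nat_lit 0) (nat_lit 28953935408) (nat_lit 380) (nat_lit 14009727457) (nat_lit 76) (nat_lit 54634469058) (nat_lit 177) (nat_lit 5) (nat_lit 182) (nat_lit 5) (nat_lit 178) (nat_lit 5) (nat_lit 530) (nat_lit 479) (nat_lit 191)) (XT.lf (nat_lit 0) (nat_lit 45039437068) (nat_lit 304) (nat_lit 5067625789) (nat_lit 380) (nat_lit 49274887517) (nat_lit 173) (nat_lit 5) (nat_lit 177) (nat_lit 5) (nat_lit 178) (nat_lit 5) (nat_lit 531) (nat_lit 479) (nat_lit 190))) (XT.nd (nat_lit 78) (nat_lit 0) (nat_lit 0) (XT.lf (nat_lit 0) (nat_lit 4695264134)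 (nat_lit 304) (nat_lit 67713562563) (nat_lit 380) (nat_lit 28795035429) (nat_lit 169) (nat_lit 5) (nat_lit 173) (nat_lit 5) (nat_lit 174) (nat_lit 5) (nat_lit 532) (nat_lit 479) (nat_lit 189)) (XT.lf (nat_lit 0) (nat_lit 66566292307) (nat_lit 304) (nat_lit 29411335568) (nat_lit 380) (nat_lit 7084863847) (nat_lit 169) (nat_lit 5) (nat_lit 173) (nat_lit 5) (nat_lit 174) (nat_lit 5) (nat_lit 533) (nat_lit 479) (nat_lit 188)))) (XT.nd (nat_lit 156) (nat_lit 532) (nat_lit 0) (XT.nd (nat_lit 78) (nat_lit 0) (nat_lit 0) (XT.lf (nat_lit 0) (nat_lit 15325229486) (nat_lit 380) (nat_lit 79395520811) (nat_lit 76) (nat_lit 10241322935) (nat_lit 164) (nat_lit 5) (nat_lit 169) (nat_lit 5) (nat_lit 165) (nat_lit 5) (nat_lit 534) (nat_lit 479) (nat_lit 187)) (XT.lf (nat_lit 0) (nat_lit 38928179319) (nat_lit 380) (nat_lit 17033931519) (nat_lit 76) (nat_lit 50934538385) (nat_lit 164) (nat_lit 5) (nat_lit 169) (nat_lit 5) (nat_lit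 165) (nat_lit 5) (nat_lit 535) (nat_lit 479) (nat_lit 186))) (XT.nd (nat_lit 78) (nat_lit 228) (nat_lit 0) (XT.lf (nat_lit 0) (nat_lit 48137183603) (nat_lit 304) (nat_lit 15564332993) (nat_lit 380) (nat_lit 45173876950) (nat_lit 160) (nat_lit 5) (nat_lit 164) (nat_lit 5) (nat_lit 165) (nat_lit 5) (nat_lit 536) (nat_lit 479) (nat_lit 185)) (XT.lf (nat_lit 0) (nat_lit 4540142818) (nat_lit 228) (nat_lit 85145209180) (nat_lit 304) (nat_lit 21214129282) (nat_lit 157) (nat_lit 5) (nat_lit 160) (nat_lit 5) (nat_lit 161) (nat_lit 5) (nat_lit 537) (nat_lit 479) (nat_lit 184)))))) (XT.nd (nat_lit 58344) (nat_lit 0) (nat_lit 12312) (XT.nd (nat_lit 58032) (nat_lit 0) (nat_lit 12160) (XT.nd (nat_lit 234) (nat_lit 228) (nat_lit 0) (XT.nd (nat_lit 156) (nat_lit 304) (nat_lit 0) (XT.lf (nat_lit 0) (nat_lit 4169900248) (nat_lit 304) (nat_lit 40138106245) (nat_lit 76) (nat_lit 68652093333) (nat_lit 156) (nat_lit 5) (nat_lit 160)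 (nat_lit 5) (nat_lit 157) (nat_lit 5) (nat_lit 538) (nat_lit 479) (nat_lit 183)) (XT.lf (nat_lit 0) (nat_lit 57746938438) (nat_lit 380) (nat_lit 17791805765) (nat_lit 76) (nat_lit 41676097660) (nat_lit 152) (nat_lit 5) (nat_lit 157) (nat_lit 5) (nat_lit 153) (nat_lit 5) (nat_lit 540) (nat_lit 479) (nat_lit 181))) (XT.nd (nat_lit 57720) (nat_lit 0) (nat_lit 12160) (XT.lf (nat_lit 0) (nat_lit 54176026626) (nat_lit 228) (nat_lit 32521306666) (nat_lit 304) (nat_lit 32712569275) (nat_lit 149) (nat_lit 5) (nat_lit 152) (nat_lit 5) (nat_lit 153) (nat_lit 5) (nat_lit 541) (nat_lit 479) (nat_lit 180)) (XT.lf (nat_lit 0) (nat_lit 11321135671) (nat_lit 1292) (nat_lit 5148089654) (nat_lit 1292) (nat_lit 5148089654) (nat_lit 309) (nat_lit 3) (nat_lit 326) (nat_lit 3) (nat_lit 326) (nat_lit 5) (nat_lit 480) (nat_lit 480) (nat_lit 240)))) (XT.nd (nat_lit 156) (nat_lit 0) (nat_lit 76) (XT.nd (nat_lit 78) (nat_lit 0) (nat_lit 76)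 (XT.lf (nat_lit 76) (nat_lit 11369272846) (nat_lit 0) (nat_lit 11756767551) (nat_lit 1292) (nat_lit 20752781737) (nat_lit 310) (nat_lit 5) (nat_lit 309) (nat_lit 3) (nat_lit 326) (nat_lit 5) (nat_lit 481) (nat_lit 480) (nat_lit 239)) (XT.lf (nat_lit 0) (nat_lit 23824668998) (nat_lit 1216) (nat_lit 10741968391) (nat_lit 1292) (nat_lit 9969692419) (nat_lit 310) (nat_lit 5) (nat_lit 326) (nat_lit 5) (nat_lit 327) (nat_lit 5) (nat_lit 482) (nat_lit 480) (nat_lit 238))) (XT.nd (nat_lit 78) (nat_lit 0) (nat_lit 76) (XT.lf (nat_lit 76) (nat_lit 11791593148) (nat_lit 0) (nat_lit 12981094021) (nat_lit 1292) (nat_lit 20434022743) (nat_lit 311) (nat_lit 5) (nat_lit 310) (nat_lit 5) (nat_lit 327) (nat_lit 5) (nat_lit 483) (nat_lit 480) (nat_lit 237)) (XT.lf (nat_lit 0) (nat_lit 25946344586) (nat_lit 1216) (nat_lit 10763372411) (nat_lit 1292) (nat_lit 9181568581) (nat_lit 311) (nat_lit 5) (nat_lit 327) (nat_lit 5) (nat_lit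 328) (nat_lit 5) (nat_lit 484) (nat_lit 480) (nat_lit 236))))) (XT.nd (nat_lit 312) (nat_lit 0) (nat_lit 152) (XT.nd (nat_lit 156) (nat_lit 0) (nat_lit 76) (XT.nd (nat_lit 78) (nat_lit 0) (nat_lit 76) (XT.lf (nat_lit 76) (nat_lit 12686198117) (nat_lit 0) (nat_lit 14718240047) (nat_lit 1292) (nat_lit 19184483671) (nat_lit 312) (nat_lit 5) (nat_lit 311) (nat_lit 5) (nat_lit 328) (nat_lit 5) (nat_lit 485) (nat_lit 480) (nat_lit 235)) (XT.lf (nat_lit 0) (nat_lit 29091083229) (nat_lit 1216) (nat_lit 10322452633) (nat_lit 1292) (nat_lit 7888407169) (nat_lit 312) (nat_lit 5) (nat_lit 328) (nat_lit 5) (nat_lit 329) (nat_lit 5) (nat_lit 486) (nat_lit 480) (nat_lit 234))) (XT.nd (nat_lit 78) (nat_lit 0) (nat_lit 76) (XT.lf (nat_lit 76) (nat_lit 14093756665) (nat_lit 0) (nat_lit 17014596198) (nat_lit 1292) (nat_lit 16919601353) (nat_lit 313) (nat_lit 5) (nat_lit 312) (nat_lit 5) (nat_lit 329) (nat_lit 5) (nat_lit 487) (nat_lit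 480) (nat_lit 233)) (XT.lf (nat_lit 0) (nat_lit 33348479200) (nat_lit 1216) (nat_lit 9378610894) (nat_lit 1292) (nat_lit 6043785589) (nat_lit 313) (nat_lit 5) (nat_lit 329) (nat_lit 5) (nat_lit 330) (nat_lit 5) (nat_lit 488) (nat_lit 480) (nat_lit 232)))) (XT.nd (nat_lit 156) (nat_lit 0) (nat_lit 76) (XT.nd (nat_lit 78) (nat_lit 0) (nat_lit 76) (XT.lf (nat_lit 76) (nat_lit 16057754171) (nat_lit 0) (nat_lit 19919759929) (nat_lit 1292) (nat_lit 13548919651) (nat_lit 314) (nat_lit 5) (nat_lit 313) (nat_lit 5) (nat_lit 330) (nat_lit 5) (nat_lit 489) (nat_lit 480) (nat_lit 231)) (XT.lf (nat_lit 0) (nat_lit 38814312202) (nat_lit 1216) (nat_lit 7888427544) (nat_lit 1292) (nat_lit 3598052152) (nat_lit 314) (nat_lit 5) (nat_lit 330) (nat_lit 5) (nat_lit 331) (nat_lit 5) (nat_lit 490) (nat_lit 480) (nat_lit 230))) (XT.nd (nat_lit 78) (nat_lit 0) (nat_lit 76) (XT.lf (nat_lit 76) (nat_lit 18624663544) (nat_lit 0) (nat_lit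 23486753979) (nat_lit 1292) (nat_lit 8975707264) (nat_lit 315) (nat_lit 5) (nat_lit 314) (nat_lit 5) (nat_lit 331) (nat_lit 5) (nat_lit 491) (nat_lit 480) (nat_lit 229)) (XT.lf (nat_lit 0) (nat_lit 45590946613) (nat_lit 1216) (nat_lit 5805489745) (nat_lit 1292) (nat_lit 498106080) (nat_lit 315) (nat_lit 5) (nat_lit 331) (nat_lit 5) (nat_lit 332) (nat_lit 5) (nat_lit 492) (nat_lit 480) (nat_lit 228))))))) (XT.nd (nat_lit 1170) (nat_lit 4104) (nat_lit 0) (XT.nd (nat_lit 546) (nat_lit 2964) (nat_lit 0) (XT.nd (nat_lit 234) (nat_lit 684) (nat_lit 0) (XT.nd (nat_lit 78) (nat_lit 1292) (nat_lit 0) (XT.lf (nat_lit 76) (nat_lit 21844126440) (nat_lit 0) (nat_lit 27772258368) (nat_lit 1292) (nat_lit 3096552205) (nat_lit 316) (nat_lit 5) (nat_lit 315) (nat_lit 5) (nat_lit 332) (nat_lit 5) (nat_lit 493) (nat_lit 480) (nat_lit 227)) (XT.nd (nat_lit 78) (nat_lit 0) (nat_lit 76) (XT.lf (nat_lit 0) (nat_lit 260887609) (nat_lit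 1292) (nat_lit 3115246120) (nat_lit 1368) (nat_lit 50177943621) (nat_lit 298) (nat_lit 5) (nat_lit 315) (nat_lit 5) (nat_lit 316) (nat_lit 5) (nat_lit 494) (nat_lit 480) (nat_lit 226)) (XT.lf (nat_lit 0) (nat_lit 4117129508) (nat_lit 1292) (nat_lit 28678152502) (nat_lit 1368) (nat_lit 21610440706) (nat_lit 299) (nat_lit 5) (nat_lit 316) (nat_lit 5) (nat_lit 317) (nat_lit 5) (nat_lit 495) (nat_lit 480) (nat_lit 225)))) (XT.nd (nat_lit 156) (nat_lit 760) (nat_lit 0) (XT.nd (nat_lit 78) (nat_lit 0) (nat_lit 76) (XT.lf (nat_lit 76) (nat_lit 186669635) (nat_lit 0) (nat_lit 7968444693) (nat_lit 1368) (nat_lit 47125821526) (nat_lit 300) (nat_lit 5) (nat_lit 299) (nat_lit 5) (nat_lit 317) (nat_lit 5) (nat_lit 496) (nat_lit 480) (nat_lit 224)) (XT.lf (nat_lit 0) (nat_lit 12774997613) (nat_lit 1292) (nat_lit 25841299415) (nat_lit 76) (nat_lit 17552285669) (nat_lit 300) (nat_lit 5) (nat_lit 317) (nat_lit 5) (nat_lit 301)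 (nat_lit 5) (nat_lit 497) (nat_lit 480) (nat_lit 223))) (XT.nd (nat_lit 78) (nat_lit 0) (nat_lit 0) (XT.lf (nat_lit 0) (nat_lit 4293350997) (nat_lit 836) (nat_lit 13359404680) (nat_lit 912) (nat_lit 39426524997) (nat_lit 289) (nat_lit 5) (nat_lit 300) (nat_lit 5) (nat_lit 301) (nat_lit 5) (nat_lit 498) (nat_lit 480) (nat_lit 222)) (XT.lf (nat_lit 0) (nat_lit 23061157701) (nat_lit 912) (nat_lit 22272749982) (nat_lit 76) (nat_lit 12671862643) (nat_lit 289) (nat_lit 5) (nat_lit 301) (nat_lit 5) (nat_lit 290) (nat_lit 5) (nat_lit 499) (nat_lit 480) (nat_lit 221))))) (XT.nd (nat_lit 312) (nat_lit 1748) (nat_lit 0) (XT.nd (nat_lit 156) (nat_lit 608) (nat_lit 0) (XT.nd (nat_lit 78) (nat_lit 0) (nat_lit 0) (XT.lf (nat_lit 0) (nat_lit 9202340191) (nat_lit 608) (nat_lit 19649358407) (nat_lit 684) (nat_lit 30101759537) (nat_lit 281) (nat_lit 5) (nat_lit 289) (nat_lit 5) (nat_lit 290) (nat_lit 5) (nat_lit 500) (nat_lit 480)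 (nat_lit 220)) (XT.lf (nat_lit 0) (nat_lit 35107689002) (nat_lit 684) (nat_lit 17913026307) (nat_lit 76) (nat_lit 6900109341) (nat_lit 281) (nat_lit 5) (nat_lit 290) (nat_lit 5) (nat_lit 282) (nat_lit 5) (nat_lit 501) (nat_lit 480) (nat_lit 219))) (XT.nd (nat_lit 78) (nat_lit 0) (nat_lit 0) (XT.lf (nat_lit 0) (nat_lit 14977139255) (nat_lit 608) (nat_lit 26911935952) (nat_lit 684) (nat_lit 19018005540) (nat_lit 273) (nat_lit 5) (nat_lit 281) (nat_lit 5) (nat_lit 282) (nat_lit 5) (nat_lit 502) (nat_lit 480) (nat_lit 218)) (XT.lf (nat_lit 0) (nat_lit 49055603801) (nat_lit 684) (nat_lit 12698683188) (nat_lit 76) (nat_lit 163186577) (nat_lit 273) (nat_lit 5) (nat_lit 282) (nat_lit 5) (nat_lit 274) (nat_lit 5) (nat_lit 503) (nat_lit 480) (nat_lit 217)))) (XT.nd (nat_lit 156) (nat_lit 1140) (nat_lit 0) (XT.nd (nat_lit 78) (nat_lit 76) (nat_lit 0) (XT.lf (nat_lit 0) (nat_lit 21685447602) (nat_lit 532) (nat_lit 35225826757)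 (nat_lit 608) (nat_lit 6032679492) (nat_lit 266) (nat_lit 5) (nat_lit 273) (nat_lit 5) (nat_lit 274) (nat_lit 5) (nat_lit 504) (nat_lit 480) (nat_lit 216)) (XT.lf (nat_lit 0) (nat_lit 1110592161) (nat_lit 608) (nat_lit 6647643443) (nat_lit 76) (nat_lit 56238841832) (nat_lit 265) (nat_lit 5) (nat_lit 273) (nat_lit 5) (nat_lit 266) (nat_lit 5) (nat_lit 505) (nat_lit 480) (nat_lit 215))) (XT.nd (nat_lit 78) (nat_lit 532) (nat_lit 0) (XT.lf (nat_lit 0) (nat_lit 8830693720) (nat_lit 684) (nat_lit 35755249579) (nat_lit 76) (nat_lit 20479546124) (nat_lit 257) (nat_lit 5) (nat_lit 266) (nat_lit 5) (nat_lit 258) (nat_lit 5) (nat_lit 506) (nat_lit 480) (nat_lit 214)) (XT.lf (nat_lit 0) (nat_lit 245735833) (nat_lit 532) (nat_lit 16682912433) (nat_lit 608) (nat_lit 49232918063) (nat_lit 250) (nat_lit 5) (nat_lit 257) (nat_lit 5) (nat_lit 258) (nat_lit 5) (nat_lit 507) (nat_lit 480) (nat_lit 213)))))) (XT.nd (nat_lit 624) (nat_lit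 2128) (nat_lit 0) (XT.nd (nat_lit 312) (nat_lit 988) (nat_lit 0) (XT.nd (nat_lit 156) (nat_lit 456) (nat_lit 0) (XT.nd (nat_lit 78) (nat_lit 532) (nat_lit 0) (XT.lf (nat_lit 0) (nat_lit 25749369293) (nat_lit 608) (nat_lit 29340255046) (nat_lit 76) (nat_lit 12186506422) (nat_lit 250) (nat_lit 5) (nat_lit 258) (nat_lit 5) (nat_lit 251) (nat_lit 5) (nat_lit 508) (nat_lit 480) (nat_lit 212)) (XT.lf (nat_lit 0) (nat_lit 8329181968) (nat_lit 532) (nat_lit 26750086923) (nat_lit 608) (nat_lit 33337526580) (nat_lit 243) (nat_lit 5) (nat_lit 250) (nat_lit 5) (nat_lit 251) (nat_lit 5) (nat_lit 509) (nat_lit 480) (nat_lit 211))) (XT.nd (nat_lit 78) (nat_lit 456) (nat_lit 0) (XT.lf (nat_lit 0) (nat_lit 45011055612) (nat_lit 608) (nat_lit 21879800627) (nat_lit 76) (nat_lit 2691164232) (nat_lit 243) (nat_lit 5) (nat_lit 251) (nat_lit 5) (nat_lit 244) (nat_lit 5) (nat_lit 510) (nat_lit 480) (nat_lit 210)) (XT.lf (nat_lit 0) (nat_lit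 17551129860) (nat_lit 456) (nat_lit 38122576592) (nat_lit 532) (nat_lit 15095508503) (nat_lit 237) (nat_lit 5) (nat_lit 243) (nat_lit 5) (nat_lit 244) (nat_lit 5) (nat_lit 511) (nat_lit 480) (nat_lit 209)))) (XT.nd (nat_lit 156) (nat_lit 456) (nat_lit 0) (XT.nd (nat_lit 78) (nat_lit 532) (nat_lit 0) (XT.lf (nat_lit 0) (nat_lit 58612759888) (nat_lit 456) (nat_lit 8263777896) (nat_lit 532) (nat_lit 5108878509) (nat_lit 237) (nat_lit 5) (nat_lit 243) (nat_lit 5) (nat_lit 244) (nat_lit 5) (nat_lit 512) (nat_lit 480) (nat_lit 208)) (XT.lf (nat_lit 0) (nat_lit 5565820843) (nat_lit 532) (nat_lit 45280595906) (nat_lit 76) (nat_lit 22375508956) (nat_lit 230) (nat_lit 5) (nat_lit 237) (nat_lit 5) (nat_lit 231) (nat_lit 5) (nat_lit 513) (nat_lit 480) (nat_lit 207))) (XT.nd (nat_lit 78) (nat_lit 456) (nat_lit 0) (XT.lf (nat_lit 0) (nat_lit 16675652655) (nat_lit 532) (nat_lit 3857101014) (nat_lit 76) (nat_lit 53954732041) (nat_lit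 230) (nat_lit 5) (nat_lit 237) (nat_lit 5) (nat_lit 231) (nat_lit 5) (nat_lit 514) (nat_lit 480) (nat_lit 206)) (XT.lf (nat_lit 0) (nat_lit 28605180213) (nat_lit 532) (nat_lit 36305405119) (nat_lit 76) (nat_lit 10865835203) (nat_lit 224) (nat_lit 5) (nat_lit 231) (nat_lit 5) (nat_lit 225) (nat_lit 5) (nat_lit 515) (nat_lit 480) (nat_lit 205))))) (XT.nd (nat_lit 312) (nat_lit 1216) (nat_lit 0) (XT.nd (nat_lit 156) (nat_lit 456) (nat_lit 0) (XT.nd (nat_lit 78) (nat_lit 0) (nat_lit 0) (XT.lf (nat_lit 0) (nat_lit 7007516928) (nat_lit 456) (nat_lit 34194474748) (nat_lit 532) (nat_lit 35892749828) (nat_lit 218) (nat_lit 5) (nat_lit 224) (nat_lit 5) (nat_lit 225) (nat_lit 5) (nat_lit 516) (nat_lit 480) (nat_lit 204)) (XT.lf (nat_lit 0) (nat_lit 52363327084) (nat_lit 456) (nat_lit 2179412230) (nat_lit 532) (nat_lit 23898891873) (nat_lit 218) (nat_lit 5) (nat_lit 224) (nat_lit 5) (nat_lit 225) (nat_lit 5) (nat_lit 517)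 (nat_lit 480) (nat_lit 203))) (XT.nd (nat_lit 78) (nat_lit 76) (nat_lit 0) (XT.lf (nat_lit 0) (nat_lit 19331358136) (nat_lit 380) (nat_lit 49433641089) (nat_lit 456) (nat_lit 11049489681) (nat_lit 213) (nat_lit 5) (nat_lit 218) (nat_lit 5) (nat_lit 219) (nat_lit 5) (nat_lit 518) (nat_lit 480) (nat_lit 202)) (XT.lf (nat_lit 0) (nat_lit 2429713178) (nat_lit 456) (nat_lit 14628658732) (nat_lit 76) (nat_lit 64160921358) (nat_lit 212) (nat_lit 5) (nat_lit 218) (nat_lit 5) (nat_lit 213) (nat_lit 5) (nat_lit 519) (nat_lit 480) (nat_lit 201)))) (XT.nd (nat_lit 156) (nat_lit 760) (nat_lit 0) (XT.nd (nat_lit 78) (nat_lit 0) (nat_lit 0) (XT.lf (nat_lit 0) (nat_lit 16570012668) (nat_lit 532) (nat_lit 49676241484) (nat_lit 76) (nat_lit 16402341488) (nat_lit 206) (nat_lit 5) (nat_lit 213) (nat_lit 5) (nat_lit 207) (nat_lit 5) (nat_lit 520) (nat_lit 480) (nat_lit 200)) (XT.lf (nat_lit 0) (nat_lit 31452061425) (nat_lit 532) (nat_lit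 1986142320) (nat_lit 76) (nat_lit 50673047164) (nat_lit 206) (nat_lit 5) (nat_lit 213) (nat_lit 5) (nat_lit 207) (nat_lit 5) (nat_lit 521) (nat_lit 480) (nat_lit 199))) (XT.nd (nat_lit 78) (nat_lit 380) (nat_lit 0) (XT.lf (nat_lit 0) (nat_lit 47250124549) (nat_lit 456) (nat_lit 37539887107) (nat_lit 76) (nat_lit 813687629) (nat_lit 201) (nat_lit 5) (nat_lit 207) (nat_lit 5) (nat_lit 202) (nat_lit 5) (nat_lit 522) (nat_lit 480) (nat_lit 198)) (XT.lf (nat_lit 0) (nat_lit 12426172872) (nat_lit 380) (nat_lit 51566215557) (nat_lit 456) (nat_lit 23134424949) (nat_lit 196) (nat_lit 5) (nat_lit 201) (nat_lit 5) (nat_lit 202) (nat_lit 5) (nat_lit 523) (nat_lit 480) (nat_lit 197))))))))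
noncomputable def xc237 : XT := (XT.nd (nat_lit 60216) (nat_lit 0) (nat_lit 2964) (XT.nd (nat_lit 1248) (nat_lit 380) (nat_lit 0) (XT.nd (nat_lit 546) (nat_lit 1520) (nat_lit 0) (XT.nd (nat_lit 234) (nat_lit 1064) (nat_lit 0) (XT.nd (nat_lit 78) (nat_lit 380) (nat_lit 0) (XT.lf (nat_lit 0) (nat_lit 64660055889) (nat_lit 380) (nat_lit 16955436813) (nat_lit 456) (nat_lit 7068771052) (nat_lit 196) (nat_lit 5) (nat_lit 201) (nat_lit 5) (nat_lit 202) (nat_lit 5) (nat_lit 524) (nat_lit 480) (nat_lit 196)) (XT.nd (nat_lit 78) (nat_lit 0) (nat_lit 0) (XT.lf (nat_lit 0) (nat_lit 9752011271) (nat_lit 380) (nat_lit 61821197965) (nat_lit 76) (nat_lit 18698751177) (nat_lit 191) (nat_lit 5) (nat_lit 196) (nat_lit 5) (nat_lit 192) (nat_lit 5) (nat_lit 525) (nat_lit 480) (nat_lit 195)) (XT.lf (nat_lit 0) (nat_lit 27347726043) (nat_lit 380) (nat_lit 9148506615) (nat_lit 76) (nat_lit 55396584180) (nat_lit 191) (nat_lit 5) (nat_lit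 196) (nat_lit 5) (nat_lit 192) (nat_lit 5) (nat_lit 526) (nat_lit 480) (nat_lit 194)))) (XT.nd (nat_lit 156) (nat_lit 380) (nat_lit 0) (XT.nd (nat_lit 78) (nat_lit 304) (nat_lit 0) (XT.lf (nat_lit 0) (nat_lit 45913878013) (nat_lit 456) (nat_lit 47548544732) (nat_lit 76) (nat_lit 86599266) (nat_lit 186) (nat_lit 5) (nat_lit 192) (nat_lit 5) (nat_lit 187) (nat_lit 5) (nat_lit 527) (nat_lit 480) (nat_lit 193)) (XT.lf (nat_lit 0) (nat_lit 7523193815) (nat_lit 304) (nat_lit 58040313077) (nat_lit 380) (nat_lit 29675611708) (nat_lit 182) (nat_lit 5) (nat_lit 186) (nat_lit 5) (nat_lit 187) (nat_lit 5) (nat_lit 528) (nat_lit 480) (nat_lit 192))) (XT.nd (nat_lit 78) (nat_lit 380) (nat_lit 0) (XT.lf (nat_lit 0) (nat_lit 65221118145) (nat_lit 304) (nat_lit 21061190196) (nat_lit 380) (nat_lit 10683219259) (nat_lit 182) (nat_lit 5) (nat_lit 186) (nat_lit 5) (nat_lit 187) (nat_lit 5) (nat_lit 529) (nat_lit 480) (nat_lit 191))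 (XT.lf (nat_lit 0) (nat_lit 9125396433) (nat_lit 380) (nat_lit 72566493786) (nat_lit 76) (nat_lit 17036686830) (nat_lit 177) (nat_lit 5) (nat_lit 182) (nat_lit 5) (nat_lit 178) (nat_lit 5) (nat_lit 530) (nat_lit 480) (nat_lit 190))))) (XT.nd (nat_lit 312) (nat_lit 912) (nat_lit 0) (XT.nd (nat_lit 156) (nat_lit 304) (nat_lit 0) (XT.nd (nat_lit 78) (nat_lit 304) (nat_lit 0) (XT.lf (nat_lit 0) (nat_lit 29845355942) (nat_lit 380) (nat_lit 14396535889) (nat_lit 76) (nat_lit 56283498719) (nat_lit 177) (nat_lit 5) (nat_lit 182) (nat_lit 5) (nat_lit 178) (nat_lit 5) (nat_lit 531) (nat_lit 480) (nat_lit 189)) (XT.lf (nat_lit 0) (nat_lit 46423775303) (nat_lit 304) (nat_lit 5208956470) (nat_lit 380) (nat_lit 50730002182) (nat_lit 173) (nat_lit 5) (nat_lit 177) (nat_lit 5) (nat_lit 178) (nat_lit 5) (nat_lit 532) (nat_lit 480) (nat_lit 188))) (XT.nd (nat_lit 78) (nat_lit 0) (nat_lit 0) (XT.lf (nat_lit 0) (nat_lit 4869518616)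 (nat_lit 304) (nat_lit 69733796693) (nat_lit 380) (nat_lit 29635994783) (nat_lit 169) (nat_lit 5) (nat_lit 173) (nat_lit 5) (nat_lit 174) (nat_lit 5) (nat_lit 533) (nat_lit 480) (nat_lit 187)) (XT.lf (nat_lit 0) (nat_lit 68595704919) (nat_lit 304) (nat_lit 30282828308) (nat_lit 380) (nat_lit 7275184802) (nat_lit 169) (nat_lit 5) (nat_lit 173) (nat_lit 5) (nat_lit 174) (nat_lit 5) (nat_lit 534) (nat_lit 480) (nat_lit 186)))) (XT.nd (nat_lit 156) (nat_lit 532) (nat_lit 0) (XT.nd (nat_lit 78) (nat_lit 0) (nat_lit 0) (XT.lf (nat_lit 0) (nat_lit 15806562091) (nat_lit 380) (nat_lit 81744311152) (nat_lit 76) (nat_lit 10559413832) (nat_lit 164) (nat_lit 5) (nat_lit 169) (nat_lit 5) (nat_lit 165) (nat_lit 5) (nat_lit 535) (nat_lit 480) (nat_lit 185)) (XT.lf (nat_lit 0) (nat_lit 40116971999) (nat_lit 380) (nat_lit 17512837539) (nat_lit 76) (nat_lit 52473109691) (nat_lit 164) (nat_lit 5) (nat_lit 169) (nat_lit 5) (nat_lit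 165) (nat_lit 5) (nat_lit 536) (nat_lit 480) (nat_lit 184))) (XT.nd (nat_lit 78) (nat_lit 228) (nat_lit 0) (XT.lf (nat_lit 0) (nat_lit 49613096214) (nat_lit 304) (nat_lit 16020108718) (nat_lit 380) (nat_lit 46507830114) (nat_lit 160) (nat_lit 5) (nat_lit 164) (nat_lit 5) (nat_lit 165) (nat_lit 5) (nat_lit 537) (nat_lit 480) (nat_lit 183)) (XT.lf (nat_lit 0) (nat_lit 4708340524) (nat_lit 228) (nat_lit 87688025264) (nat_lit 304) (nat_lit 21829485342) (nat_lit 157) (nat_lit 5) (nat_lit 160) (nat_lit 5) (nat_lit 161) (nat_lit 5) (nat_lit 538) (nat_lit 480) (nat_lit 182)))))) (XT.nd (nat_lit 58344) (nat_lit 0) (nat_lit 12160) (XT.nd (nat_lit 58032) (nat_lit 0) (nat_lit 12008) (XT.nd (nat_lit 57876) (nat_lit 0) (nat_lit 11932) (XT.nd (nat_lit 78) (nat_lit 0) (nat_lit 0) (XT.lf (nat_lit 0) (nat_lit 29297093172) (nat_lit 304) (nat_lit 1789319831) (nat_lit 380) (nat_lit 87433088684) (nat_lit 152) (nat_lit 5) (nat_lit 156)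 (nat_lit 5) (nat_lit 157) (nat_lit 5) (nat_lit 540) (nat_lit 480) (nat_lit 180)) (XT.lf (nat_lit 0) (nat_lit 59498647379) (nat_lit 380) (nat_lit 18294843630) (nat_lit 76) (nat_lit 42937216205) (nat_lit 152) (nat_lit 5) (nat_lit 157) (nat_lit 5) (nat_lit 153) (nat_lit 5) (nat_lit 541) (nat_lit 480) (nat_lit 179))) (XT.nd (nat_lit 78) (nat_lit 0) (nat_lit 0) (XT.lf (nat_lit 0) (nat_lit 11695281354) (nat_lit 1292) (nat_lit 5284757267) (nat_lit 1292) (nat_lit 5284757267) (nat_lit 309) (nat_lit 3) (nat_lit 326) (nat_lit 3) (nat_lit 326) (nat_lit 5) (nat_lit 481) (nat_lit 481) (nat_lit 238)) (XT.lf (nat_lit 76) (nat_lit 11745552654) (nat_lit 0) (nat_lit 12141620175) (nat_lit 1292) (nat_lit 21305987234) (nat_lit 310) (nat_lit 5) (nat_lit 309) (nat_lit 3) (nat_lit 326) (nat_lit 5) (nat_lit 482) (nat_lit 481) (nat_lit 237)))) (XT.nd (nat_lit 156) (nat_lit 0) (nat_lit 76) (XT.nd (nat_lit 78) (nat_lit 0) (nat_lit 0) (XT.lf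 (nat_lit 0) (nat_lit 24604498561) (nat_lit 1216) (nat_lit 11027783366) (nat_lit 1292) (nat_lit 10238179072) (nat_lit 310) (nat_lit 5) (nat_lit 326) (nat_lit 5) (nat_lit 327) (nat_lit 5) (nat_lit 483) (nat_lit 481) (nat_lit 236)) (XT.lf (nat_lit 76) (nat_lit 12181427724) (nat_lit 0) (nat_lit 13397980632) (nat_lit 1292) (nat_lit 20981590794) (nat_lit 311) (nat_lit 5) (nat_lit 310) (nat_lit 5) (nat_lit 327) (nat_lit 5) (nat_lit 484) (nat_lit 481) (nat_lit 235))) (XT.nd (nat_lit 78) (nat_lit 0) (nat_lit 0) (XT.lf (nat_lit 0) (nat_lit 26786168582) (nat_lit 1216) (nat_lit 11049125289) (nat_lit 1292) (nat_lit 9430881592) (nat_lit 311) (nat_lit 5) (nat_lit 327) (nat_lit 5) (nat_lit 328) (nat_lit 5) (nat_lit 485) (nat_lit 481) (nat_lit 234)) (XT.lf (nat_lit 76) (nat_lit 13103568156) (nat_lit 0) (nat_lit 15183001073) (nat_lit 1292) (nat_lit 19698214816) (nat_lit 312) (nat_lit 5) (nat_lit 311) (nat_lit 5) (nat_lit 328) (nat_lit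 5) (nat_lit 486) (nat_lit 481) (nat_lit 233))))) (XT.nd (nat_lit 312) (nat_lit 0) (nat_lit 152) (XT.nd (nat_lit 156) (nat_lit 0) (nat_lit 76) (XT.nd (nat_lit 78) (nat_lit 0) (nat_lit 0) (XT.lf (nat_lit 0) (nat_lit 30021849488) (nat_lit 1216) (nat_lit 10594443993) (nat_lit 1292) (nat_lit 8102961482) (nat_lit 312) (nat_lit 5) (nat_lit 328) (nat_lit 5) (nat_lit 329) (nat_lit 5) (nat_lit 487) (nat_lit 481) (nat_lit 232)) (XT.lf (nat_lit 76) (nat_lit 14553882151) (nat_lit 0) (nat_lit 17544423429) (nat_lit 1292) (nat_lit 17368781007) (nat_lit 313) (nat_lit 5) (nat_lit 312) (nat_lit 5) (nat_lit 329) (nat_lit 5) (nat_lit 488) (nat_lit 481) (nat_lit 231))) (XT.nd (nat_lit 78) (nat_lit 0) (nat_lit 0) (XT.lf (nat_lit 0) (nat_lit 34403803235) (nat_lit 1216) (nat_lit 9621905703) (nat_lit 1292) (nat_lit 6206641885) (nat_lit 313) (nat_lit 5) (nat_lit 329) (nat_lit 5) (nat_lit 330) (nat_lit 5) (nat_lit 489) (nat_lit 481) (nat_lit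 230)) (XT.lf (nat_lit 76) (nat_lit 16577177142) (nat_lit 0) (nat_lit 20533296198) (nat_lit 1292) (nat_lit 13900139517) (nat_lit 314) (nat_lit 5) (nat_lit 313) (nat_lit 5) (nat_lit 330) (nat_lit 5) (nat_lit 490) (nat_lit 481) (nat_lit 229)))) (XT.nd (nat_lit 156) (nat_lit 0) (nat_lit 76) (XT.nd (nat_lit 78) (nat_lit 0) (nat_lit 0) (XT.lf (nat_lit 0) (nat_lit 40030664440) (nat_lit 1216) (nat_lit 8086772107) (nat_lit 1292) (nat_lit 3690816671) (nat_lit 314) (nat_lit 5) (nat_lit 330) (nat_lit 5) (nat_lit 331) (nat_lit 5) (nat_lit 491) (nat_lit 481) (nat_lit 228)) (XT.lf (nat_lit 76) (nat_lit 19221336143) (nat_lit 0) (nat_lit 24204199094) (nat_lit 1292) (nat_lit 9192675426) (nat_lit 315) (nat_lit 5) (nat_lit 314) (nat_lit 5) (nat_lit 331) (nat_lit 5) (nat_lit 492) (nat_lit 481) (nat_lit 227))) (XT.nd (nat_lit 78) (nat_lit 0) (nat_lit 0) (XT.lf (nat_lit 0) (nat_lit 47007851456) (nat_lit 1216) (nat_lit 5941223360) (nat_lit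 1292) (nat_lit 500824124) (nat_lit 315) (nat_lit 5) (nat_lit 331) (nat_lit 5) (nat_lit 332) (nat_lit 5) (nat_lit 493) (nat_lit 481) (nat_lit 226)) (XT.lf (nat_lit 76) (nat_lit 22537504536) (nat_lit 0) (nat_lit 28615481739) (nat_lit 1292) (nat_lit 3139891204) (nat_lit 316) (nat_lit 5) (nat_lit 315) (nat_lit 5) (nat_lit 332) (nat_lit 5) (nat_lit 494) (nat_lit 481) (nat_lit 225))))))) (XT.nd (nat_lit 1248) (nat_lit 3952) (nat_lit 0) (XT.nd (nat_lit 624) (nat_lit 2888) (nat_lit 0) (XT.nd (nat_lit 312) (nat_lit 1292) (nat_lit 0) (XT.nd (nat_lit 156) (nat_lit 0) (nat_lit 76) (XT.nd (nat_lit 78) (nat_lit 0) (nat_lit 76) (XT.lf (nat_lit 0) (nat_lit 315889499) (nat_lit 1292) (nat_lit 3170814601) (nat_lit 1368) (nat_lit 51672576214) (nat_lit 298) (nat_lit 5) (nat_lit 315) (nat_lit 5) (nat_lit 316) (nat_lit 5) (nat_lit 495) (nat_lit 481) (nat_lit 224)) (XT.lf (nat_lit 0) (nat_lit 4286722164) (nat_lit 1292) (nat_lit 29499507704)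 (nat_lit 1368) (nat_lit 22250278187) (nat_lit 299) (nat_lit 5) (nat_lit 316) (nat_lit 5) (nat_lit 317) (nat_lit 5) (nat_lit 496) (nat_lit 481) (nat_lit 223))) (XT.nd (nat_lit 78) (nat_lit 0) (nat_lit 76) (XT.lf (nat_lit 76) (nat_lit 230876848) (nat_lit 0) (nat_lit 8213998696) (nat_lit 1368) (nat_lit 48493131290) (nat_lit 300) (nat_lit 5) (nat_lit 299) (nat_lit 5) (nat_lit 317) (nat_lit 5) (nat_lit 497) (nat_lit 481) (nat_lit 222)) (XT.lf (nat_lit 0) (nat_lit 13201980840) (nat_lit 1292) (nat_lit 26577677515) (nat_lit 76) (nat_lit 18072666073) (nat_lit 300) (nat_lit 5) (nat_lit 317) (nat_lit 5) (nat_lit 301) (nat_lit 5) (nat_lit 498) (nat_lit 481) (nat_lit 221)))) (XT.nd (nat_lit 156) (nat_lit 608) (nat_lit 0) (XT.nd (nat_lit 78) (nat_lit 0) (nat_lit 0) (XT.lf (nat_lit 0) (nat_lit 4460631419) (nat_lit 836) (nat_lit 13764536333) (nat_lit 912) (nat_lit 40565202818) (nat_lit 289) (nat_lit 5) (nat_lit 300) (nat_lit 5)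 (nat_lit 301) (nat_lit 5) (nat_lit 499) (nat_lit 481) (nat_lit 220)) (XT.lf (nat_lit 0) (nat_lit 23794533787) (nat_lit 912) (nat_lit 22902281777) (nat_lit 76) (nat_lit 13047878096) (nat_lit 289) (nat_lit 5) (nat_lit 301) (nat_lit 5) (nat_lit 290) (nat_lit 5) (nat_lit 500) (nat_lit 481) (nat_lit 219))) (XT.nd (nat_lit 78) (nat_lit 0) (nat_lit 0) (XT.lf (nat_lit 0) (nat_lit 9516682173) (nat_lit 608) (nat_lit 20241266687) (nat_lit 684) (nat_lit 30962888608) (nat_lit 281) (nat_lit 5) (nat_lit 289) (nat_lit 5) (nat_lit 290) (nat_lit 5) (nat_lit 501) (nat_lit 481) (nat_lit 218)) (XT.lf (nat_lit 0) (nat_lit 36200410905) (nat_lit 684) (nat_lit 18412048628) (nat_lit 76) (nat_lit 7104801788) (nat_lit 281) (nat_lit 5) (nat_lit 290) (nat_lit 5) (nat_lit 282) (nat_lit 5) (nat_lit 502) (nat_lit 481) (nat_lit 217))))) (XT.nd (nat_lit 312) (nat_lit 1672) (nat_lit 0) (XT.nd (nat_lit 156) (nat_lit 608) (nat_lit 0) (XT.nd (nat_lit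 78) (nat_lit 0) (nat_lit 0) (XT.lf (nat_lit 0) (nat_lit 15464445739) (nat_lit 608) (nat_lit 27720007931) (nat_lit 684) (nat_lit 19548675077) (nat_lit 273) (nat_lit 5) (nat_lit 281) (nat_lit 5) (nat_lit 282) (nat_lit 5) (nat_lit 503) (nat_lit 481) (nat_lit 216)) (XT.lf (nat_lit 0) (nat_lit 50564844094) (nat_lit 684) (nat_lit 13041620781) (nat_lit 76) (nat_lit 167402591) (nat_lit 273) (nat_lit 5) (nat_lit 282) (nat_lit 5) (nat_lit 274) (nat_lit 5) (nat_lit 504) (nat_lit 481) (nat_lit 215))) (XT.nd (nat_lit 78) (nat_lit 76) (nat_lit 0) (XT.lf (nat_lit 0) (nat_lit 22373661159) (nat_lit 532) (nat_lit 36281791190) (nat_lit 608) (nat_lit 6175711875) (nat_lit 266) (nat_lit 5) (nat_lit 273) (nat_lit 5) (nat_lit 274) (nat_lit 5) (nat_lit 505) (nat_lit 481) (nat_lit 214)) (XT.lf (nat_lit 0) (nat_lit 1180033713) (nat_lit 608) (nat_lit 6809797414) (nat_lit 76) (nat_lit 57926072045) (nat_lit 265) (nat_lit 5) (nat_lit 273) (nat_lit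 5) (nat_lit 266) (nat_lit 5) (nat_lit 506) (nat_lit 481) (nat_lit 213)))) (XT.nd (nat_lit 156) (nat_lit 532) (nat_lit 0) (XT.nd (nat_lit 78) (nat_lit 532) (nat_lit 0) (XT.lf (nat_lit 0) (nat_lit 9131055230) (nat_lit 684) (nat_lit 36789945855) (nat_lit 76) (nat_lit 21095387010) (nat_lit 257) (nat_lit 5) (nat_lit 266) (nat_lit 5) (nat_lit 258) (nat_lit 5) (nat_lit 507) (nat_lit 481) (nat_lit 212)) (XT.lf (nat_lit 0) (nat_lit 290696950) (nat_lit 532) (nat_lit 17180580537) (nat_lit 608) (nat_lit 50674090030) (nat_lit 250) (nat_lit 5) (nat_lit 257) (nat_lit 5) (nat_lit 258) (nat_lit 5) (nat_lit 508) (nat_lit 481) (nat_lit 211))) (XT.nd (nat_lit 78) (nat_lit 532) (nat_lit 0) (XT.lf (nat_lit 0) (nat_lit 26555633745) (nat_lit 608) (nat_lit 30182979451) (nat_lit 76) (nat_lit 12554785357) (nat_lit 250) (nat_lit 5) (nat_lit 258) (nat_lit 5) (nat_lit 251) (nat_lit 5) (nat_lit 509) (nat_lit 481) (nat_lit 210)) (XT.lf (nat_lit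 0) (nat_lit 8616173191) (nat_lit 532) (nat_lit 27548629937) (nat_lit 608) (nat_lit 34303498969) (nat_lit 243) (nat_lit 5) (nat_lit 250) (nat_lit 5) (nat_lit 251) (nat_lit 5) (nat_lit 510) (nat_lit 481) (nat_lit 209)))))) (XT.nd (nat_lit 624) (nat_lit 2052) (nat_lit 0) (XT.nd (nat_lit 312) (nat_lit 912) (nat_lit 0) (XT.nd (nat_lit 156) (nat_lit 532) (nat_lit 0) (XT.nd (nat_lit 78) (nat_lit 456) (nat_lit 0) (XT.lf (nat_lit 0) (nat_lit 46393614691) (nat_lit 608) (nat_lit 22499228684) (nat_lit 76) (nat_lit 2775668409) (nat_lit 243) (nat_lit 5) (nat_lit 251) (nat_lit 5) (nat_lit 244) (nat_lit 5) (nat_lit 511) (nat_lit 481) (nat_lit 208)) (XT.lf (nat_lit 0) (nat_lit 18114267305) (nat_lit 456) (nat_lit 39261290943) (nat_lit 532) (nat_lit 15515781530) (nat_lit 237) (nat_lit 5) (nat_lit 243) (nat_lit 5) (nat_lit 244) (nat_lit 5) (nat_lit 512) (nat_lit 481) (nat_lit 207))) (XT.nd (nat_lit 78) (nat_lit 532) (nat_lit 0) (XT.lf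 (nat_lit 0) (nat_lit 60406680112) (nat_lit 456) (nat_lit 8506872838) (nat_lit 532) (nat_lit 5230501925) (nat_lit 237) (nat_lit 5) (nat_lit 243) (nat_lit 5) (nat_lit 244) (nat_lit 5) (nat_lit 513) (nat_lit 481) (nat_lit 206)) (XT.lf (nat_lit 0) (nat_lit 5763312743) (nat_lit 532) (nat_lit 46602346220) (nat_lit 76) (nat_lit 23052006793) (nat_lit 230) (nat_lit 5) (nat_lit 237) (nat_lit 5) (nat_lit 231) (nat_lit 5) (nat_lit 514) (nat_lit 481) (nat_lit 205)))) (XT.nd (nat_lit 156) (nat_lit 456) (nat_lit 0) (XT.nd (nat_lit 78) (nat_lit 456) (nat_lit 0) (XT.lf (nat_lit 0) (nat_lit 17205550657) (nat_lit 532) (nat_lit 3937214467) (nat_lit 76) (nat_lit 55578454166) (nat_lit 230) (nat_lit 5) (nat_lit 237) (nat_lit 5) (nat_lit 231) (nat_lit 5) (nat_lit 515) (nat_lit 481) (nat_lit 204)) (XT.lf (nat_lit 0) (nat_lit 29492499009) (nat_lit 532) (nat_lit 37358500587) (nat_lit 76) (nat_lit 11197836576) (nat_lit 224) (nat_lit 5) (nat_lit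 231) (nat_lit 5) (nat_lit 225) (nat_lit 5) (nat_lit 516) (nat_lit 481) (nat_lit 203))) (XT.nd (nat_lit 78) (nat_lit 0) (nat_lit 0) (XT.lf (nat_lit 0) (nat_lit 7253455526) (nat_lit 456) (nat_lit 35213253167) (nat_lit 532) (nat_lit 36940013322) (nat_lit 218) (nat_lit 5) (nat_lit 224) (nat_lit 5) (nat_lit 225) (nat_lit 5) (nat_lit 517) (nat_lit 481) (nat_lit 202)) (XT.lf (nat_lit 0) (nat_lit 53968899799) (nat_lit 456) (nat_lit 2237944283) (nat_lit 532) (nat_lit 24587199406) (nat_lit 218) (nat_lit 5) (nat_lit 224) (nat_lit 5) (nat_lit 225) (nat_lit 5) (nat_lit 518) (nat_lit 481) (nat_lit 201))))) (XT.nd (nat_lit 312) (nat_lit 1140) (nat_lit 0) (XT.nd (nat_lit 156) (nat_lit 456) (nat_lit 0) (XT.nd (nat_lit 78) (nat_lit 76) (nat_lit 0) (XT.lf (nat_lit 0) (nat_lit 19946395081) (nat_lit 380) (nat_lit 50908967640) (nat_lit 456) (nat_lit 11352736546) (nat_lit 213) (nat_lit 5) (nat_lit 218) (nat_lit 5) (nat_lit 219) (nat_lit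 5) (nat_lit 519) (nat_lit 481) (nat_lit 200)) (XT.lf (nat_lit 0) (nat_lit 2529484966) (nat_lit 456) (nat_lit 15032907748) (nat_lit 76) (nat_lit 66092671150) (nat_lit 212) (nat_lit 5) (nat_lit 218) (nat_lit 5) (nat_lit 213) (nat_lit 5) (nat_lit 520) (nat_lit 481) (nat_lit 199))) (XT.nd (nat_lit 78) (nat_lit 0) (nat_lit 0) (XT.lf (nat_lit 0) (nat_lit 17093615360) (nat_lit 532) (nat_lit 51131538164) (nat_lit 76) (nat_lit 16902103176) (nat_lit 206) (nat_lit 5) (nat_lit 213) (nat_lit 5) (nat_lit 207) (nat_lit 5) (nat_lit 521) (nat_lit 481) (nat_lit 198)) (XT.lf (nat_lit 0) (nat_lit 32421353668) (nat_lit 532) (nat_lit 2011755168) (nat_lit 76) (nat_lit 52200706000) (nat_lit 206) (nat_lit 5) (nat_lit 213) (nat_lit 5) (nat_lit 207) (nat_lit 5) (nat_lit 522) (nat_lit 481) (nat_lit 197)))) (XT.nd (nat_lit 156) (nat_lit 380) (nat_lit 0) (XT.nd (nat_lit 78) (nat_lit 380) (nat_lit 0) (XT.lf (nat_lit 0) (nat_lit 48693012721)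 (nat_lit 456) (nat_lit 38631764695) (nat_lit 76) (nat_lit 846269676) (nat_lit 201) (nat_lit 5) (nat_lit 207) (nat_lit 5) (nat_lit 202) (nat_lit 5) (nat_lit 523) (nat_lit 481) (nat_lit 196)) (XT.lf (nat_lit 0) (nat_lit 12832940623) (nat_lit 380) (nat_lit 53104191204) (nat_lit 456) (nat_lit 23802735209) (nat_lit 196) (nat_lit 5) (nat_lit 201) (nat_lit 5) (nat_lit 202) (nat_lit 5) (nat_lit 524) (nat_lit 481) (nat_lit 195))) (XT.nd (nat_lit 78) (nat_lit 380) (nat_lit 0) (XT.lf (nat_lit 0) (nat_lit 66632850346) (nat_lit 380) (nat_lit 17455351548) (nat_lit 456) (nat_lit 7255860894) (nat_lit 196) (nat_lit 5) (nat_lit 201) (nat_lit 5) (nat_lit 202) (nat_lit 5) (nat_lit 525) (nat_lit 481) (nat_lit 194)) (XT.lf (nat_lit 0) (nat_lit 10068750195) (nat_lit 380) (nat_lit 63642043463) (nat_lit 76) (nat_lit 19268598753) (nat_lit 191) (nat_lit 5) (nat_lit 196) (nat_lit 5) (nat_lit 192) (nat_lit 5) (nat_lit 526) (nat_lit 481) (nat_lit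 193))))))))
noncomputable def xc238 : XT := (XT.nd (nat_lit 60528) (nat_lit 0) (nat_lit 1596) (XT.nd (nat_lit 59280) (nat_lit 0) (nat_lit 10108) (XT.nd (nat_lit 546) (nat_lit 1292) (nat_lit 0) (XT.nd (nat_lit 234) (nat_lit 684) (nat_lit 0) (XT.nd (nat_lit 78) (nat_lit 684) (nat_lit 0) (XT.lf (nat_lit 0) (nat_lit 28191632179) (nat_lit 380) (nat_lit 9390155560) (nat_lit 76) (nat_lit 57067107959) (nat_lit 191) (nat_lit 5) (nat_lit 196) (nat_lit 5) (nat_lit 192) (nat_lit 5) (nat_lit 527) (nat_lit 481) (nat_lit 192)) (XT.nd (nat_lit 78) (nat_lit 304) (nat_lit 0) (XT.lf (nat_lit 0) (nat_lit 47314487435) (nat_lit 456) (nat_lit 48941912174) (nat_lit 76) (nat_lit 98395899) (nat_lit 186) (nat_lit 5) (nat_lit 192) (nat_lit 5) (nat_lit 187) (nat_lit 5) (nat_lit 528) (nat_lit 481) (nat_lit 191)) (XT.lf (nat_lit 0) (nat_lit 7781654128) (nat_lit 304) (nat_lit 59771590476) (nat_lit 380) (nat_lit 30542361244) (nat_lit 182) (nat_lit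 5) (nat_lit 186) (nat_lit 5) (nat_lit 187) (nat_lit 5) (nat_lit 529) (nat_lit 481) (nat_lit 190)))) (XT.nd (nat_lit 156) (nat_lit 304) (nat_lit 0) (XT.nd (nat_lit 78) (nat_lit 380) (nat_lit 0) (XT.lf (nat_lit 0) (nat_lit 67209561882) (nat_lit 304) (nat_lit 21683383191) (nat_lit 380) (nat_lit 10980882036) (nat_lit 182) (nat_lit 5) (nat_lit 186) (nat_lit 5) (nat_lit 187) (nat_lit 5) (nat_lit 530) (nat_lit 481) (nat_lit 189)) (XT.lf (nat_lit 0) (nat_lit 9421296649) (nat_lit 380) (nat_lit 74710980453) (nat_lit 76) (nat_lit 17557491891) (nat_lit 177) (nat_lit 5) (nat_lit 182) (nat_lit 5) (nat_lit 178) (nat_lit 5) (nat_lit 531) (nat_lit 481) (nat_lit 188))) (XT.nd (nat_lit 78) (nat_lit 304) (nat_lit 0) (XT.lf (nat_lit 0) (nat_lit 30762210138) (nat_lit 380) (nat_lit 14796870658) (nat_lit 76) (nat_lit 57981425482) (nat_lit 177) (nat_lit 5) (nat_lit 182) (nat_lit 5) (nat_lit 178) (nat_lit 5) (nat_lit 532) (nat_lit 481)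 (nat_lit 187)) (XT.lf (nat_lit 0) (nat_lit 47847740445) (nat_lit 304) (nat_lit 5355141185) (nat_lit 380) (nat_lit 52230098157) (nat_lit 173) (nat_lit 5) (nat_lit 177) (nat_lit 5) (nat_lit 178) (nat_lit 5) (nat_lit 533) (nat_lit 481) (nat_lit 186))))) (XT.nd (nat_lit 58422) (nat_lit 0) (nat_lit 11628) (XT.nd (nat_lit 156) (nat_lit 988) (nat_lit 0) (XT.nd (nat_lit 78) (nat_lit 0) (nat_lit 0) (XT.lf (nat_lit 0) (nat_lit 5047083633) (nat_lit 304) (nat_lit 71815279208) (nat_lit 380) (nat_lit 30503496995) (nat_lit 169) (nat_lit 5) (nat_lit 173) (nat_lit 5) (nat_lit 174) (nat_lit 5) (nat_lit 534) (nat_lit 481) (nat_lit 185)) (XT.lf (nat_lit 0) (nat_lit 70684138648) (nat_lit 304) (nat_lit 31181088511) (nat_lit 380) (nat_lit 7472491189) (nat_lit 169) (nat_lit 5) (nat_lit 173) (nat_lit 5) (nat_lit 174) (nat_lit 5) (nat_lit 535) (nat_lit 481) (nat_lit 184))) (XT.nd (nat_lit 312) (nat_lit 608) (nat_lit 0) (XT.lf (nat_lit 0)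 (nat_lit 16301096138) (nat_lit 380) (nat_lit 84165463860) (nat_lit 76) (nat_lit 10886424552) (nat_lit 164) (nat_lit 5) (nat_lit 169) (nat_lit 5) (nat_lit 165) (nat_lit 5) (nat_lit 536) (nat_lit 481) (nat_lit 183)) (XT.lf (nat_lit 0) (nat_lit 4463407697) (nat_lit 304) (nat_lit 42520455806) (nat_lit 76) (nat_lit 72854317743) (nat_lit 156) (nat_lit 5) (nat_lit 160) (nat_lit 5) (nat_lit 157) (nat_lit 5) (nat_lit 540) (nat_lit 481) (nat_lit 179)))) (XT.nd (nat_lit 156) (nat_lit 0) (nat_lit 76) (XT.nd (nat_lit 78) (nat_lit 0) (nat_lit 0) (XT.lf (nat_lit 0) (nat_lit 12078670300) (nat_lit 1292) (nat_lit 5426545270) (nat_lit 1292) (nat_lit 5426545270) (nat_lit 309) (nat_lit 3) (nat_lit 326) (nat_lit 3) (nat_lit 326) (nat_lit 5) (nat_lit 482) (nat_lit 482) (nat_lit 236)) (XT.lf (nat_lit 76) (nat_lit 12131100139) (nat_lit 0) (nat_lit 12536172859) (nat_lit 1292) (nat_lit 21879771475) (nat_lit 310) (nat_lit 5) (nat_lit 309)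 (nat_lit 3) (nat_lit 326) (nat_lit 5) (nat_lit 483) (nat_lit 482) (nat_lit 235))) (XT.nd (nat_lit 78) (nat_lit 0) (nat_lit 0) (XT.lf (nat_lit 0) (nat_lit 25403986609) (nat_lit 1216) (nat_lit 11324264830) (nat_lit 1292) (nat_lit 10516477126) (nat_lit 310) (nat_lit 5) (nat_lit 326) (nat_lit 5) (nat_lit 327) (nat_lit 5) (nat_lit 484) (nat_lit 482) (nat_lit 234)) (XT.lf (nat_lit 76) (nat_lit 12580885809) (nat_lit 0) (nat_lit 13825797881) (nat_lit 1292) (nat_lit 21549343136) (nat_lit 311) (nat_lit 5) (nat_lit 310) (nat_lit 5) (nat_lit 327) (nat_lit 5) (nat_lit 485) (nat_lit 482) (nat_lit 233)))))) (XT.nd (nat_lit 624) (nat_lit 1672) (nat_lit 0) (XT.nd (nat_lit 312) (nat_lit 0) (nat_lit 152) (XT.nd (nat_lit 156) (nat_lit 0) (nat_lit 76) (XT.nd (nat_lit 78) (nat_lit 0) (nat_lit 0) (XT.lf (nat_lit 0) (nat_lit 27647660756) (nat_lit 1216) (nat_lit 11345583217) (nat_lit 1292) (nat_lit 9689174195) (nat_lit 311) (nat_lit 5)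 (nat_lit 327) (nat_lit 5) (nat_lit 328) (nat_lit 5) (nat_lit 486) (nat_lit 482) (nat_lit 232)) (XT.lf (nat_lit 76) (nat_lit 13531347739) (nat_lit 0) (nat_lit 15660372361) (nat_lit 1292) (nat_lit 20230905662) (nat_lit 312) (nat_lit 5) (nat_lit 311) (nat_lit 5) (nat_lit 328) (nat_lit 5) (nat_lit 487) (nat_lit 482) (nat_lit 231))) (XT.nd (nat_lit 78) (nat_lit 0) (nat_lit 0) (XT.lf (nat_lit 0) (nat_lit 30977207359) (nat_lit 1216) (nat_lit 10876758207) (nat_lit 1292) (nat_lit 8325220935) (nat_lit 312) (nat_lit 5) (nat_lit 328) (nat_lit 5) (nat_lit 329) (nat_lit 5) (nat_lit 488) (nat_lit 482) (nat_lit 230)) (XT.lf (nat_lit 76) (nat_lit 15025669495) (nat_lit 0) (nat_lit 18089032450) (nat_lit 1292) (nat_lit 17834788931) (nat_lit 313) (nat_lit 5) (nat_lit 312) (nat_lit 5) (nat_lit 329) (nat_lit 5) (nat_lit 489) (nat_lit 482) (nat_lit 229)))) (XT.nd (nat_lit 156) (nat_lit 0) (nat_lit 76) (XT.nd (nat_lit 78) (nat_lit 0) (nat_lit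 0) (XT.lf (nat_lit 0) (nat_lit 35487637249) (nat_lit 1216) (nat_lit 9874684358) (nat_lit 1292) (nat_lit 6375443393) (nat_lit 313) (nat_lit 5) (nat_lit 329) (nat_lit 5) (nat_lit 330) (nat_lit 5) (nat_lit 490) (nat_lit 482) (nat_lit 228)) (XT.lf (nat_lit 76) (nat_lit 17110019222) (nat_lit 0) (nat_lit 21164323335) (nat_lit 1292) (nat_lit 14265067423) (nat_lit 314) (nat_lit 5) (nat_lit 313) (nat_lit 5) (nat_lit 330) (nat_lit 5) (nat_lit 491) (nat_lit 482) (nat_lit 227))) (XT.nd (nat_lit 78) (nat_lit 0) (nat_lit 0) (XT.lf (nat_lit 0) (nat_lit 41280526660) (nat_lit 1216) (nat_lit 8293266058) (nat_lit 1292) (nat_lit 3787235351) (nat_lit 314) (nat_lit 5) (nat_lit 330) (nat_lit 5) (nat_lit 331) (nat_lit 5) (nat_lit 492) (nat_lit 482) (nat_lit 226)) (XT.lf (nat_lit 76) (nat_lit 19833731428) (nat_lit 0) (nat_lit 24942430351) (nat_lit 1292) (nat_lit 9419155043) (nat_lit 315) (nat_lit 5) (nat_lit 314) (nat_lit 5) (nat_lit 331)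 (nat_lit 5) (nat_lit 493) (nat_lit 482) (nat_lit 225))))) (XT.nd (nat_lit 312) (nat_lit 684) (nat_lit 0) (XT.nd (nat_lit 156) (nat_lit 1292) (nat_lit 0) (XT.nd (nat_lit 78) (nat_lit 0) (nat_lit 0) (XT.lf (nat_lit 0) (nat_lit 48464440515) (nat_lit 1216) (nat_lit 6083235085) (nat_lit 1292) (nat_lit 504325483) (nat_lit 315) (nat_lit 5) (nat_lit 331) (nat_lit 5) (nat_lit 332) (nat_lit 5) (nat_lit 494) (nat_lit 482) (nat_lit 224)) (XT.lf (nat_lit 76) (nat_lit 23249499502) (nat_lit 0) (nat_lit 29483424577) (nat_lit 1292) (nat_lit 3187375180) (nat_lit 316) (nat_lit 5) (nat_lit 315) (nat_lit 5) (nat_lit 332) (nat_lit 5) (nat_lit 495) (nat_lit 482) (nat_lit 223))) (XT.nd (nat_lit 78) (nat_lit 0) (nat_lit 76) (XT.lf (nat_lit 0) (nat_lit 369833394) (nat_lit 1292) (nat_lit 3230225115) (nat_lit 1368) (nat_lit 53212662337) (nat_lit 298) (nat_lit 5) (nat_lit 315) (nat_lit 5) (nat_lit 316) (nat_lit 5) (nat_lit 496) (nat_lit 482)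 (nat_lit 222)) (XT.lf (nat_lit 0) (nat_lit 4458757490) (nat_lit 1292) (nat_lit 30347741713) (nat_lit 1368) (nat_lit 22909797335) (nat_lit 299) (nat_lit 5) (nat_lit 316) (nat_lit 5) (nat_lit 317) (nat_lit 5) (nat_lit 497) (nat_lit 482) (nat_lit 221)))) (XT.nd (nat_lit 156) (nat_lit 760) (nat_lit 0) (XT.nd (nat_lit 78) (nat_lit 0) (nat_lit 76) (XT.lf (nat_lit 76) (nat_lit 274194070) (nat_lit 0) (nat_lit 8466546154) (nat_lit 1368) (nat_lit 49904127621) (nat_lit 300) (nat_lit 5) (nat_lit 299) (nat_lit 5) (nat_lit 317) (nat_lit 5) (nat_lit 498) (nat_lit 482) (nat_lit 220)) (XT.lf (nat_lit 0) (nat_lit 13639263094) (nat_lit 1292) (nat_lit 27338377733) (nat_lit 76) (nat_lit 18609013116) (nat_lit 300) (nat_lit 5) (nat_lit 317) (nat_lit 5) (nat_lit 301) (nat_lit 5) (nat_lit 499) (nat_lit 482) (nat_lit 219))) (XT.nd (nat_lit 78) (nat_lit 0) (nat_lit 0) (XT.lf (nat_lit 0) (nat_lit 4630721351) (nat_lit 836) (nat_lit 14181572256)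 (nat_lit 912) (nat_lit 41740573524) (nat_lit 289) (nat_lit 5) (nat_lit 300) (nat_lit 5) (nat_lit 301) (nat_lit 5) (nat_lit 500) (nat_lit 482) (nat_lit 218)) (XT.lf (nat_lit 0) (nat_lit 24547526512) (nat_lit 912) (nat_lit 23552918234) (nat_lit 76) (nat_lit 13435411691) (nat_lit 289) (nat_lit 5) (nat_lit 301) (nat_lit 5) (nat_lit 290) (nat_lit 5) (nat_lit 501) (nat_lit 482) (nat_lit 217))))))) (XT.nd (nat_lit 1170) (nat_lit 4028) (nat_lit 0) (XT.nd (nat_lit 546) (nat_lit 2052) (nat_lit 0) (XT.nd (nat_lit 234) (nat_lit 1216) (nat_lit 0) (XT.nd (nat_lit 78) (nat_lit 608) (nat_lit 0) (XT.lf (nat_lit 0) (nat_lit 9838257458) (nat_lit 608) (nat_lit 20850792866) (nat_lit 684) (nat_lit 31852258144) (nat_lit 281) (nat_lit 5) (nat_lit 289) (nat_lit 5) (nat_lit 290) (nat_lit 5) (nat_lit 502) (nat_lit 482) (nat_lit 216)) (XT.nd (nat_lit 78) (nat_lit 608) (nat_lit 0) (XT.lf (nat_lit 0) (nat_lit 37323647506) (nat_lit 684) (nat_lit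 18928244126) (nat_lit 76) (nat_lit 7315767660) (nat_lit 281) (nat_lit 5) (nat_lit 290) (nat_lit 5) (nat_lit 282) (nat_lit 5) (nat_lit 503) (nat_lit 482) (nat_lit 215)) (XT.lf (nat_lit 0) (nat_lit 15964190503) (nat_lit 608) (nat_lit 28552281090) (nat_lit 684) (nat_lit 20097553438) (nat_lit 273) (nat_lit 5) (nat_lit 281) (nat_lit 5) (nat_lit 282) (nat_lit 5) (nat_lit 504) (nat_lit 482) (nat_lit 214)))) (XT.nd (nat_lit 156) (nat_lit 684) (nat_lit 0) (XT.nd (nat_lit 78) (nat_lit 532) (nat_lit 0) (XT.lf (nat_lit 0) (nat_lit 52117204800) (nat_lit 684) (nat_lit 13397029172) (nat_lit 76) (nat_lit 171784097) (nat_lit 273) (nat_lit 5) (nat_lit 282) (nat_lit 5) (nat_lit 274) (nat_lit 5) (nat_lit 505) (nat_lit 482) (nat_lit 213)) (XT.lf (nat_lit 0) (nat_lit 23080359852) (nat_lit 532) (nat_lit 37369481076) (nat_lit 608) (nat_lit 6325213599) (nat_lit 266) (nat_lit 5) (nat_lit 273) (nat_lit 5) (nat_lit 274) (nat_lit 5) (nat_lit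 506) (nat_lit 482) (nat_lit 212))) (XT.nd (nat_lit 78) (nat_lit 608) (nat_lit 0) (XT.lf (nat_lit 0) (nat_lit 1249484857) (nat_lit 608) (nat_lit 6978955762) (nat_lit 76) (nat_lit 59663915435) (nat_lit 265) (nat_lit 5) (nat_lit 273) (nat_lit 5) (nat_lit 266) (nat_lit 5) (nat_lit 507) (nat_lit 482) (nat_lit 211)) (XT.lf (nat_lit 0) (nat_lit 9438393143) (nat_lit 684) (nat_lit 37857862149) (nat_lit 76) (nat_lit 21729619628) (nat_lit 257) (nat_lit 5) (nat_lit 266) (nat_lit 5) (nat_lit 258) (nat_lit 5) (nat_lit 508) (nat_lit 482) (nat_lit 210))))) (XT.nd (nat_lit 312) (nat_lit 988) (nat_lit 0) (XT.nd (nat_lit 156) (nat_lit 532) (nat_lit 0) (XT.nd (nat_lit 78) (nat_lit 0) (nat_lit 0) (XT.lf (nat_lit 0) (nat_lit 334849136) (nat_lit 532) (nat_lit 17693340521) (nat_lit 608) (nat_lit 52160553116) (nat_lit 250) (nat_lit 5) (nat_lit 257) (nat_lit 5) (nat_lit 258) (nat_lit 5) (nat_lit 509) (nat_lit 482) (nat_lit 209)) (XT.lf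 (nat_lit 0) (nat_lit 27384146826) (nat_lit 608) (nat_lit 31053137280) (nat_lit 76) (nat_lit 12933958603) (nat_lit 250) (nat_lit 5) (nat_lit 258) (nat_lit 5) (nat_lit 251) (nat_lit 5) (nat_lit 510) (nat_lit 482) (nat_lit 208))) (XT.nd (nat_lit 78) (nat_lit 0) (nat_lit 0) (XT.lf (nat_lit 0) (nat_lit 8909643554) (nat_lit 532) (nat_lit 28371356539) (nat_lit 608) (nat_lit 35300411075) (nat_lit 243) (nat_lit 5) (nat_lit 250) (nat_lit 5) (nat_lit 251) (nat_lit 5) (nat_lit 511) (nat_lit 482) (nat_lit 207)) (XT.lf (nat_lit 0) (nat_lit 47815800556) (nat_lit 608) (nat_lit 23139361580) (nat_lit 76) (nat_lit 2862491341) (nat_lit 243) (nat_lit 5) (nat_lit 251) (nat_lit 5) (nat_lit 244) (nat_lit 5) (nat_lit 512) (nat_lit 482) (nat_lit 206)))) (XT.nd (nat_lit 156) (nat_lit 532) (nat_lit 0) (XT.nd (nat_lit 78) (nat_lit 0) (nat_lit 0) (XT.lf (nat_lit 0) (nat_lit 18692197681) (nat_lit 456) (nat_lit 40434451618) (nat_lit 532) (nat_lit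 15950533675) (nat_lit 237) (nat_lit 5) (nat_lit 243) (nat_lit 5) (nat_lit 244) (nat_lit 5) (nat_lit 513) (nat_lit 482) (nat_lit 205)) (XT.lf (nat_lit 0) (nat_lit 62252377949) (nat_lit 456) (nat_lit 8757537224) (nat_lit 532) (nat_lit 5357590477) (nat_lit 237) (nat_lit 5) (nat_lit 243) (nat_lit 5) (nat_lit 244) (nat_lit 5) (nat_lit 514) (nat_lit 482) (nat_lit 204))) (XT.nd (nat_lit 78) (nat_lit 0) (nat_lit 0) (XT.lf (nat_lit 0) (nat_lit 5964977584) (nat_lit 532) (nat_lit 47965853910) (nat_lit 76) (nat_lit 23748499194) (nat_lit 230) (nat_lit 5) (nat_lit 237) (nat_lit 5) (nat_lit 231) (nat_lit 5) (nat_lit 515) (nat_lit 482) (nat_lit 203)) (XT.lf (nat_lit 0) (nat_lit 17749644806) (nat_lit 532) (nat_lit 4021774886) (nat_lit 76) (nat_lit 57250596332) (nat_lit 230) (nat_lit 5) (nat_lit 237) (nat_lit 5) (nat_lit 231) (nat_lit 5) (nat_lit 516) (nat_lit 482) (nat_lit 202)))))) (XT.nd (nat_lit 624) (nat_lit 1824) (nat_lit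 0) (XT.nd (nat_lit 312) (nat_lit 912) (nat_lit 0) (XT.nd (nat_lit 156) (nat_lit 380) (nat_lit 0) (XT.nd (nat_lit 78) (nat_lit 456) (nat_lit 0) (XT.lf (nat_lit 0) (nat_lit 30404763272) (nat_lit 532) (nat_lit 38445259295) (nat_lit 76) (nat_lit 11539452056) (nat_lit 224) (nat_lit 5) (nat_lit 231) (nat_lit 5) (nat_lit 225) (nat_lit 5) (nat_lit 517) (nat_lit 482) (nat_lit 201)) (XT.lf (nat_lit 0) (nat_lit 7504722205) (nat_lit 456) (nat_lit 36262999972) (nat_lit 532) (nat_lit 38020389232) (nat_lit 218) (nat_lit 5) (nat_lit 224) (nat_lit 5) (nat_lit 225) (nat_lit 5) (nat_lit 518) (nat_lit 482) (nat_lit 200))) (XT.nd (nat_lit 78) (nat_lit 380) (nat_lit 0) (XT.lf (nat_lit 0) (nat_lit 55620649330) (nat_lit 456) (nat_lit 2298625534) (nat_lit 532) (nat_lit 25297801321) (nat_lit 218) (nat_lit 5) (nat_lit 224) (nat_lit 5) (nat_lit 225) (nat_lit 5) (nat_lit 519) (nat_lit 482) (nat_lit 199)) (XT.lf (nat_lit 0) (nat_lit 20577868470)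 (nat_lit 380) (nat_lit 52428995006) (nat_lit 456) (nat_lit 11666701783) (nat_lit 213) (nat_lit 5) (nat_lit 218) (nat_lit 5) (nat_lit 219) (nat_lit 5) (nat_lit 520) (nat_lit 482) (nat_lit 198)))) (XT.nd (nat_lit 156) (nat_lit 380) (nat_lit 0) (XT.nd (nat_lit 78) (nat_lit 456) (nat_lit 0) (XT.lf (nat_lit 0) (nat_lit 2630706862) (nat_lit 456) (nat_lit 15451271033) (nat_lit 76) (nat_lit 68081976075) (nat_lit 212) (nat_lit 5) (nat_lit 218) (nat_lit 5) (nat_lit 213) (nat_lit 5) (nat_lit 521) (nat_lit 482) (nat_lit 197)) (XT.lf (nat_lit 0) (nat_lit 17631404793) (nat_lit 532) (nat_lit 52632502346) (nat_lit 76) (nat_lit 17416416195) (nat_lit 206) (nat_lit 5) (nat_lit 213) (nat_lit 5) (nat_lit 207) (nat_lit 5) (nat_lit 522) (nat_lit 482) (nat_lit 196))) (XT.nd (nat_lit 78) (nat_lit 380) (nat_lit 0) (XT.lf (nat_lit 0) (nat_lit 33418247649) (nat_lit 532) (nat_lit 2040086501) (nat_lit 76) (nat_lit 53773765940) (nat_lit 206)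 (nat_lit 5) (nat_lit 213) (nat_lit 5) (nat_lit 207) (nat_lit 5) (nat_lit 523) (nat_lit 482) (nat_lit 195)) (XT.lf (nat_lit 0) (nat_lit 50177730368) (nat_lit 456) (nat_lit 39758368663) (nat_lit 76) (nat_lit 879360110) (nat_lit 201) (nat_lit 5) (nat_lit 207) (nat_lit 5) (nat_lit 202) (nat_lit 5) (nat_lit 524) (nat_lit 482) (nat_lit 194))))) (XT.nd (nat_lit 312) (nat_lit 1064) (nat_lit 0) (XT.nd (nat_lit 156) (nat_lit 380) (nat_lit 0) (XT.nd (nat_lit 78) (nat_lit 0) (nat_lit 0) (XT.lf (nat_lit 0) (nat_lit 13249960667) (nat_lit 380) (nat_lit 54688823379) (nat_lit 456) (nat_lit 24492571353) (nat_lit 196) (nat_lit 5) (nat_lit 201) (nat_lit 5) (nat_lit 202) (nat_lit 5) (nat_lit 525) (nat_lit 482) (nat_lit 193)) (XT.lf (nat_lit 0) (nat_lit 68662934717) (nat_lit 380) (nat_lit 17970765918) (nat_lit 456) (nat_lit 7449997000) (nat_lit 196) (nat_lit 5) (nat_lit 201) (nat_lit 5) (nat_lit 202) (nat_lit 5) (nat_lit 526) (nat_lit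 482) (nat_lit 192))) (XT.nd (nat_lit 78) (nat_lit 0) (nat_lit 0) (XT.lf (nat_lit 0) (nat_lit 10393603337) (nat_lit 380) (nat_lit 65519454035) (nat_lit 76) (nat_lit 19855031720) (nat_lit 191) (nat_lit 5) (nat_lit 196) (nat_lit 5) (nat_lit 192) (nat_lit 5) (nat_lit 527) (nat_lit 482) (nat_lit 191)) (XT.lf (nat_lit 0) (nat_lit 29059507975) (nat_lit 380) (nat_lit 9640937187) (nat_lit 76) (nat_lit 58787252270) (nat_lit 191) (nat_lit 5) (nat_lit 196) (nat_lit 5) (nat_lit 192) (nat_lit 5) (nat_lit 528) (nat_lit 482) (nat_lit 190)))) (XT.nd (nat_lit 156) (nat_lit 380) (nat_lit 0) (XT.nd (nat_lit 78) (nat_lit 304) (nat_lit 0) (XT.lf (nat_lit 0) (nat_lit 48755783761) (nat_lit 456) (nat_lit 50378980078) (nat_lit 76) (nat_lit 110018389) (nat_lit 186) (nat_lit 5) (nat_lit 192) (nat_lit 5) (nat_lit 187) (nat_lit 5) (nat_lit 529) (nat_lit 482) (nat_lit 189)) (XT.lf (nat_lit 0) (nat_lit 8045987435) (nat_lit 304) (nat_lit 61555376335)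 (nat_lit 380) (nat_lit 31436463344) (nat_lit 182) (nat_lit 5) (nat_lit 186) (nat_lit 5) (nat_lit 187) (nat_lit 5) (nat_lit 530) (nat_lit 482) (nat_lit 188))) (XT.nd (nat_lit 78) (nat_lit 380) (nat_lit 0) (XT.lf (nat_lit 0) (nat_lit 69255832897) (nat_lit 304) (nat_lit 22324795506) (nat_lit 380) (nat_lit 11288785450) (nat_lit 182) (nat_lit 5) (nat_lit 186) (nat_lit 5) (nat_lit 187) (nat_lit 5) (nat_lit 531) (nat_lit 482) (nat_lit 187)) (XT.lf (nat_lit 0) (nat_lit 9724803040) (nat_lit 380) (nat_lit 76921667820) (nat_lit 76) (nat_lit 18093364027) (nat_lit 177) (nat_lit 5) (nat_lit 182) (nat_lit 5) (nat_lit 178) (nat_lit 5) (nat_lit 532) (nat_lit 482) (nat_lit 186))))))))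
noncomputable def xc239 : XT := (XT.nd (nat_lit 60606) (nat_lit 0) (nat_lit 228) (XT.nd (nat_lit 59358) (nat_lit 0) (nat_lit 8208) (XT.nd (nat_lit 58734) (nat_lit 0) (nat_lit 11628) (XT.nd (nat_lit 234) (nat_lit 912) (nat_lit 0) (XT.nd (nat_lit 78) (nat_lit 608) (nat_lit 0) (XT.lf (nat_lit 0) (nat_lit 31705336143) (nat_lit 380) (nat_lit 15211027218) (nat_lit 76) (nat_lit 59729749198) (nat_lit 177) (nat_lit 5) (nat_lit 182) (nat_lit 5) (nat_lit 178) (nat_lit 5) (nat_lit 533) (nat_lit 482) (nat_lit 185)) (XT.nd (nat_lit 78) (nat_lit 304) (nat_lit 0) (XT.lf (nat_lit 0) (nat_lit 49312630556) (nat_lit 304) (nat_lit 5506290303) (nat_lit 380) (nat_lit 53776448654) (nat_lit 173) (nat_lit 5) (nat_lit 177) (nat_lit 5) (nat_lit 178) (nat_lit 5) (nat_lit 534) (nat_lit 482) (nat_lit 184)) (XT.lf (nat_lit 0) (nat_lit 5228168551) (nat_lit 304) (nat_lit 73959810743) (nat_lit 380) (nat_lit 31398262918) (nat_lit 169) (nat_lit 5)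 (nat_lit 173) (nat_lit 5) (nat_lit 174) (nat_lit 5) (nat_lit 535) (nat_lit 482) (nat_lit 183)))) (XT.nd (nat_lit 58344) (nat_lit 0) (nat_lit 11552) (XT.nd (nat_lit 312) (nat_lit 912) (nat_lit 0) (XT.lf (nat_lit 0) (nat_lit 72833470972) (nat_lit 304) (nat_lit 32106883456) (nat_lit 380) (nat_lit 7676919335) (nat_lit 169) (nat_lit 5) (nat_lit 173) (nat_lit 5) (nat_lit 174) (nat_lit 5) (nat_lit 536) (nat_lit 482) (nat_lit 182)) (XT.lf (nat_lit 0) (nat_lit 5054565776) (nat_lit 228) (nat_lit 93006768621) (nat_lit 304) (nat_lit 23119728324) (nat_lit 157) (nat_lit 5) (nat_lit 160) (nat_lit 5) (nat_lit 161) (nat_lit 5) (nat_lit 540) (nat_lit 482) (nat_lit 178))) (XT.nd (nat_lit 78) (nat_lit 0) (nat_lit 0) (XT.lf (nat_lit 0) (nat_lit 12471693530) (nat_lit 1292) (nat_lit 5573548703) (nat_lit 1292) (nat_lit 5573548703) (nat_lit 309) (nat_lit 3) (nat_lit 326) (nat_lit 3) (nat_lit 326) (nat_lit 5) (nat_lit 483) (nat_lit 483)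 (nat_lit 234)) (XT.lf (nat_lit 76) (nat_lit 12526309329) (nat_lit 0) (nat_lit 12940822546) (nat_lit 1292) (nat_lit 22474523205) (nat_lit 310) (nat_lit 5) (nat_lit 309) (nat_lit 3) (nat_lit 326) (nat_lit 5) (nat_lit 484) (nat_lit 483) (nat_lit 233))))) (XT.nd (nat_lit 312) (nat_lit 0) (nat_lit 152) (XT.nd (nat_lit 156) (nat_lit 0) (nat_lit 76) (XT.nd (nat_lit 78) (nat_lit 0) (nat_lit 0) (XT.lf (nat_lit 0) (nat_lit 26223937379) (nat_lit 1216) (nat_lit 11631612685) (nat_lit 1292) (nat_lit 10804780076) (nat_lit 310) (nat_lit 5) (nat_lit 326) (nat_lit 5) (nat_lit 327) (nat_lit 5) (nat_lit 485) (nat_lit 483) (nat_lit 232)) (XT.lf (nat_lit 76) (nat_lit 12990375021) (nat_lit 0) (nat_lit 14264964154) (nat_lit 1292) (nat_lit 22137669615) (nat_lit 311) (nat_lit 5) (nat_lit 310) (nat_lit 5) (nat_lit 327) (nat_lit 5) (nat_lit 486) (nat_lit 483) (nat_lit 231))) (XT.nd (nat_lit 78) (nat_lit 0) (nat_lit 0) (XT.lf (nat_lit 0) (nat_lit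 28531673589) (nat_lit 1216) (nat_lit 11652944934) (nat_lit 1292) (nat_lit 9956629659) (nat_lit 311) (nat_lit 5) (nat_lit 327) (nat_lit 5) (nat_lit 328) (nat_lit 5) (nat_lit 487) (nat_lit 483) (nat_lit 230)) (XT.lf (nat_lit 76) (nat_lit 13969970364) (nat_lit 0) (nat_lit 16150808715) (nat_lit 1292) (nat_lit 20782921343) (nat_lit 312) (nat_lit 5) (nat_lit 311) (nat_lit 5) (nat_lit 328) (nat_lit 5) (nat_lit 488) (nat_lit 483) (nat_lit 229)))) (XT.nd (nat_lit 156) (nat_lit 0) (nat_lit 76) (XT.nd (nat_lit 78) (nat_lit 0) (nat_lit 0) (XT.lf (nat_lit 0) (nat_lit 31958085826) (nat_lit 1216) (nat_lit 11169580789) (nat_lit 1292) (nat_lit 8555343863) (nat_lit 312) (nat_lit 5) (nat_lit 328) (nat_lit 5) (nat_lit 329) (nat_lit 5) (nat_lit 489) (nat_lit 483) (nat_lit 228)) (XT.lf (nat_lit 76) (nat_lit 15509591506) (nat_lit 0) (nat_lit 18648930606) (nat_lit 1292) (nat_lit 18317937505) (nat_lit 313) (nat_lit 5) (nat_lit 312) (nat_lit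 5) (nat_lit 329) (nat_lit 5) (nat_lit 490) (nat_lit 483) (nat_lit 227))) (XT.nd (nat_lit 78) (nat_lit 0) (nat_lit 0) (XT.lf (nat_lit 0) (nat_lit 36601017348) (nat_lit 1216) (nat_lit 10137105947) (nat_lit 1292) (nat_lit 6550307648) (nat_lit 313) (nat_lit 5) (nat_lit 329) (nat_lit 5) (nat_lit 330) (nat_lit 5) (nat_lit 491) (nat_lit 483) (nat_lit 226)) (XT.lf (nat_lit 76) (nat_lit 17656807182) (nat_lit 0) (nat_lit 21813418603) (nat_lit 1292) (nat_lit 14643932559) (nat_lit 314) (nat_lit 5) (nat_lit 313) (nat_lit 5) (nat_lit 330) (nat_lit 5) (nat_lit 492) (nat_lit 483) (nat_lit 225)))))) (XT.nd (nat_lit 624) (nat_lit 2508) (nat_lit 0) (XT.nd (nat_lit 312) (nat_lit 1216) (nat_lit 0) (XT.nd (nat_lit 156) (nat_lit 0) (nat_lit 76) (XT.nd (nat_lit 78) (nat_lit 0) (nat_lit 0) (XT.lf (nat_lit 0) (nat_lit 42565075260) (nat_lit 1216) (nat_lit 8508027644) (nat_lit 1292) (nat_lit 3887367803) (nat_lit 314) (nat_lit 5) (nat_lit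 330) (nat_lit 5) (nat_lit 331) (nat_lit 5) (nat_lit 493) (nat_lit 483) (nat_lit 224)) (XT.lf (nat_lit 76) (nat_lit 20462446076) (nat_lit 0) (nat_lit 25702113652) (nat_lit 1292) (nat_lit 9655259107) (nat_lit 315) (nat_lit 5) (nat_lit 314) (nat_lit 5) (nat_lit 331) (nat_lit 5) (nat_lit 494) (nat_lit 483) (nat_lit 223))) (XT.nd (nat_lit 78) (nat_lit 0) (nat_lit 0) (XT.lf (nat_lit 0) (nat_lit 49962066365) (nat_lit 1216) (nat_lit 6231586623) (nat_lit 1292) (nat_lit 508593371) (nat_lit 315) (nat_lit 5) (nat_lit 331) (nat_lit 5) (nat_lit 332) (nat_lit 5) (nat_lit 495) (nat_lit 483) (nat_lit 222)) (XT.lf (nat_lit 76) (nat_lit 23980795241) (nat_lit 0) (nat_lit 30376861602) (nat_lit 1292) (nat_lit 3238965179) (nat_lit 316) (nat_lit 5) (nat_lit 315) (nat_lit 5) (nat_lit 332) (nat_lit 5) (nat_lit 496) (nat_lit 483) (nat_lit 221)))) (XT.nd (nat_lit 156) (nat_lit 0) (nat_lit 76) (XT.nd (nat_lit 78) (nat_lit 0) (nat_lit 76) (XT.lf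 (nat_lit 0) (nat_lit 422843005) (nat_lit 1292) (nat_lit 3293468069) (nat_lit 1368) (nat_lit 54799530317) (nat_lit 298) (nat_lit 5) (nat_lit 315) (nat_lit 5) (nat_lit 316) (nat_lit 5) (nat_lit 497) (nat_lit 483) (nat_lit 220)) (XT.lf (nat_lit 0) (nat_lit 4633460606) (nat_lit 1292) (nat_lit 31223532412) (nat_lit 1368) (nat_lit 23589560670) (nat_lit 299) (nat_lit 5) (nat_lit 316) (nat_lit 5) (nat_lit 317) (nat_lit 5) (nat_lit 498) (nat_lit 483) (nat_lit 219))) (XT.nd (nat_lit 78) (nat_lit 0) (nat_lit 76) (XT.lf (nat_lit 76) (nat_lit 316721822) (nat_lit 0) (nat_lit 8726318293) (nat_lit 1368) (nat_lit 51359968003) (nat_lit 300) (nat_lit 5) (nat_lit 299) (nat_lit 5) (nat_lit 317) (nat_lit 5) (nat_lit 499) (nat_lit 483) (nat_lit 218)) (XT.lf (nat_lit 0) (nat_lit 14087297456) (nat_lit 1292) (nat_lit 28124001675) (nat_lit 76) (nat_lit 19161785404) (nat_lit 300) (nat_lit 5) (nat_lit 317) (nat_lit 5) (nat_lit 301) (nat_lit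 5) (nat_lit 500) (nat_lit 483) (nat_lit 217))))) (XT.nd (nat_lit 312) (nat_lit 1216) (nat_lit 0) (XT.nd (nat_lit 156) (nat_lit 608) (nat_lit 0) (XT.nd (nat_lit 78) (nat_lit 0) (nat_lit 0) (XT.lf (nat_lit 0) (nat_lit 4803831878) (nat_lit 836) (nat_lit 14610883910) (nat_lit 912) (nat_lit 42953592521) (nat_lit 289) (nat_lit 5) (nat_lit 300) (nat_lit 5) (nat_lit 301) (nat_lit 5) (nat_lit 501) (nat_lit 483) (nat_lit 216)) (XT.lf (nat_lit 0) (nat_lit 25320861263) (nat_lit 912) (nat_lit 24225165131) (nat_lit 76) (nat_lit 13834795327) (nat_lit 289) (nat_lit 5) (nat_lit 301) (nat_lit 5) (nat_lit 290) (nat_lit 5) (nat_lit 502) (nat_lit 483) (nat_lit 215))) (XT.nd (nat_lit 78) (nat_lit 0) (nat_lit 0) (XT.lf (nat_lit 0) (nat_lit 10167409159) (nat_lit 608) (nat_lit 21478473479) (nat_lit 684) (nat_lit 32770577210) (nat_lit 281) (nat_lit 5) (nat_lit 289) (nat_lit 5) (nat_lit 290) (nat_lit 5) (nat_lit 503) (nat_lit 483) (nat_lit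 214)) (XT.lf (nat_lit 0) (nat_lit 38478444379) (nat_lit 684) (nat_lit 19462001563) (nat_lit 76) (nat_lit 7533187544) (nat_lit 281) (nat_lit 5) (nat_lit 290) (nat_lit 5) (nat_lit 282) (nat_lit 5) (nat_lit 504) (nat_lit 483) (nat_lit 213)))) (XT.nd (nat_lit 156) (nat_lit 608) (nat_lit 0) (XT.nd (nat_lit 78) (nat_lit 0) (nat_lit 0) (XT.lf (nat_lit 0) (nat_lit 16476871891) (nat_lit 608) (nat_lit 29409483814) (nat_lit 684) (nat_lit 20665055504) (nat_lit 273) (nat_lit 5) (nat_lit 281) (nat_lit 5) (nat_lit 282) (nat_lit 5) (nat_lit 505) (nat_lit 483) (nat_lit 212)) (XT.lf (nat_lit 0) (nat_lit 53714103339) (nat_lit 684) (nat_lit 13765157191) (nat_lit 76) (nat_lit 176333819) (nat_lit 273) (nat_lit 5) (nat_lit 282) (nat_lit 5) (nat_lit 274) (nat_lit 5) (nat_lit 506) (nat_lit 483) (nat_lit 211))) (XT.nd (nat_lit 78) (nat_lit 76) (nat_lit 0) (XT.lf (nat_lit 0) (nat_lit 23806222299) (nat_lit 532) (nat_lit 38489845506) (nat_lit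 608) (nat_lit 6481253699) (nat_lit 266) (nat_lit 5) (nat_lit 273) (nat_lit 5) (nat_lit 274) (nat_lit 5) (nat_lit 507) (nat_lit 483) (nat_lit 210)) (XT.lf (nat_lit 0) (nat_lit 1319064919) (nat_lit 608) (nat_lit 7155205785) (nat_lit 76) (nat_lit 61453890612) (nat_lit 265) (nat_lit 5) (nat_lit 273) (nat_lit 5) (nat_lit 266) (nat_lit 5) (nat_lit 508) (nat_lit 483) (nat_lit 209))))))) (XT.nd (nat_lit 1248) (nat_lit 3496) (nat_lit 0) (XT.nd (nat_lit 624) (nat_lit 1824) (nat_lit 0) (XT.nd (nat_lit 312) (nat_lit 988) (nat_lit 0) (XT.nd (nat_lit 156) (nat_lit 532) (nat_lit 0) (XT.nd (nat_lit 78) (nat_lit 532) (nat_lit 0) (XT.lf (nat_lit 0) (nat_lit 9753033538) (nat_lit 684) (nat_lit 38959869969) (nat_lit 76) (nat_lit 22382800523) (nat_lit 257) (nat_lit 5) (nat_lit 266) (nat_lit 5) (nat_lit 258) (nat_lit 5) (nat_lit 509) (nat_lit 483) (nat_lit 208)) (XT.lf (nat_lit 0) (nat_lit 378291987) (nat_lit 532) (nat_lit 18221635853)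 (nat_lit 608) (nat_lit 53693548034) (nat_lit 250) (nat_lit 5) (nat_lit 257) (nat_lit 5) (nat_lit 258) (nat_lit 5) (nat_lit 510) (nat_lit 483) (nat_lit 207))) (XT.nd (nat_lit 78) (nat_lit 532) (nat_lit 0) (XT.lf (nat_lit 0) (nat_lit 28235687319) (nat_lit 608) (nat_lit 31951428019) (nat_lit 76) (nat_lit 13324361831) (nat_lit 250) (nat_lit 5) (nat_lit 258) (nat_lit 5) (nat_lit 251) (nat_lit 5) (nat_lit 511) (nat_lit 483) (nat_lit 206)) (XT.lf (nat_lit 0) (nat_lit 9209909735) (nat_lit 532) (nat_lit 29218979187) (nat_lit 608) (nat_lit 36329078545) (nat_lit 243) (nat_lit 5) (nat_lit 250) (nat_lit 5) (nat_lit 251) (nat_lit 5) (nat_lit 512) (nat_lit 483) (nat_lit 205)))) (XT.nd (nat_lit 156) (nat_lit 532) (nat_lit 0) (XT.nd (nat_lit 78) (nat_lit 456) (nat_lit 0) (XT.lf (nat_lit 0) (nat_lit 49278908209) (nat_lit 608) (nat_lit 23800698650) (nat_lit 76) (nat_lit 2951715011) (nat_lit 243) (nat_lit 5) (nat_lit 251) (nat_lit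 5) (nat_lit 244) (nat_lit 5) (nat_lit 513) (nat_lit 483) (nat_lit 204)) (XT.lf (nat_lit 0) (nat_lit 19285485392) (nat_lit 456) (nat_lit 41643075652) (nat_lit 532) (nat_lit 16400091912) (nat_lit 237) (nat_lit 5) (nat_lit 243) (nat_lit 5) (nat_lit 244) (nat_lit 5) (nat_lit 514) (nat_lit 483) (nat_lit 203))) (XT.nd (nat_lit 78) (nat_lit 532) (nat_lit 0) (XT.lf (nat_lit 0) (nat_lit 64151523831) (nat_lit 456) (nat_lit 9015982259) (nat_lit 532) (nat_lit 5490203848) (nat_lit 237) (nat_lit 5) (nat_lit 243) (nat_lit 5) (nat_lit 244) (nat_lit 5) (nat_lit 515) (nat_lit 483) (nat_lit 202)) (XT.lf (nat_lit 0) (nat_lit 6171041115) (nat_lit 532) (nat_lit 49372250872) (nat_lit 76) (nat_lit 24465603239) (nat_lit 230) (nat_lit 5) (nat_lit 237) (nat_lit 5) (nat_lit 231) (nat_lit 5) (nat_lit 516) (nat_lit 483) (nat_lit 201))))) (XT.nd (nat_lit 312) (nat_lit 912) (nat_lit 0) (XT.nd (nat_lit 156) (nat_lit 456) (nat_lit 0) (XT.nd (nat_lit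 78) (nat_lit 456) (nat_lit 0) (XT.lf (nat_lit 0) (nat_lit 18308458620) (nat_lit 532) (nat_lit 4110798370) (nat_lit 76) (nat_lit 58972627882) (nat_lit 230) (nat_lit 5) (nat_lit 237) (nat_lit 5) (nat_lit 231) (nat_lit 5) (nat_lit 517) (nat_lit 483) (nat_lit 200)) (XT.lf (nat_lit 0) (nat_lit 31342817464) (nat_lit 532) (nat_lit 39566572291) (nat_lit 76) (nat_lit 11890989922) (nat_lit 224) (nat_lit 5) (nat_lit 231) (nat_lit 5) (nat_lit 225) (nat_lit 5) (nat_lit 518) (nat_lit 483) (nat_lit 199))) (XT.nd (nat_lit 78) (nat_lit 0) (nat_lit 0) (XT.lf (nat_lit 0) (nat_lit 7761594489) (nat_lit 456) (nat_lit 37344620963) (nat_lit 532) (nat_lit 39134773660) (nat_lit 218) (nat_lit 5) (nat_lit 224) (nat_lit 5) (nat_lit 225) (nat_lit 5) (nat_lit 519) (nat_lit 483) (nat_lit 198)) (XT.lf (nat_lit 0) (nat_lit 57320075235) (nat_lit 456) (nat_lit 2361497885) (nat_lit 532) (nat_lit 26031272011) (nat_lit 218) (nat_lit 5) (nat_lit 224)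 (nat_lit 5) (nat_lit 225) (nat_lit 5) (nat_lit 520) (nat_lit 483) (nat_lit 197)))) (XT.nd (nat_lit 156) (nat_lit 456) (nat_lit 0) (XT.nd (nat_lit 78) (nat_lit 76) (nat_lit 0) (XT.lf (nat_lit 0) (nat_lit 21226387044) (nat_lit 380) (nat_lit 53995038893) (nat_lit 456) (nat_lit 11991613894) (nat_lit 213) (nat_lit 5) (nat_lit 218) (nat_lit 5) (nat_lit 219) (nat_lit 5) (nat_lit 521) (nat_lit 483) (nat_lit 196)) (XT.lf (nat_lit 0) (nat_lit 2733510949) (nat_lit 456) (nat_lit 15884057965) (nat_lit 76) (nat_lit 70130585598) (nat_lit 212) (nat_lit 5) (nat_lit 218) (nat_lit 5) (nat_lit 213) (nat_lit 5) (nat_lit 522) (nat_lit 483) (nat_lit 195))) (XT.nd (nat_lit 78) (nat_lit 0) (nat_lit 0) (XT.lf (nat_lit 0) (nat_lit 18183893898) (nat_lit 532) (nat_lit 54180388754) (nat_lit 76) (nat_lit 17945742429) (nat_lit 206) (nat_lit 5) (nat_lit 213) (nat_lit 5) (nat_lit 207) (nat_lit 5) (nat_lit 523) (nat_lit 483) (nat_lit 194)) (XT.lf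 (nat_lit 0) (nat_lit 34443656206) (nat_lit 532) (nat_lit 2071105928) (nat_lit 76) (nat_lit 55393613625) (nat_lit 206) (nat_lit 5) (nat_lit 213) (nat_lit 5) (nat_lit 207) (nat_lit 5) (nat_lit 524) (nat_lit 483) (nat_lit 193)))))) (XT.nd (nat_lit 624) (nat_lit 1672) (nat_lit 0) (XT.nd (nat_lit 312) (nat_lit 684) (nat_lit 0) (XT.nd (nat_lit 156) (nat_lit 380) (nat_lit 0) (XT.nd (nat_lit 78) (nat_lit 380) (nat_lit 0) (XT.lf (nat_lit 0) (nat_lit 51705616022) (nat_lit 456) (nat_lit 40920627713) (nat_lit 76) (nat_lit 913001112) (nat_lit 201) (nat_lit 5) (nat_lit 207) (nat_lit 5) (nat_lit 202) (nat_lit 5) (nat_lit 525) (nat_lit 483) (nat_lit 192)) (XT.lf (nat_lit 0) (nat_lit 13677652556) (nat_lit 380) (nat_lit 56321482084) (nat_lit 456) (nat_lit 25204494396) (nat_lit 196) (nat_lit 5) (nat_lit 201) (nat_lit 5) (nat_lit 202) (nat_lit 5) (nat_lit 526) (nat_lit 483) (nat_lit 191))) (XT.nd (nat_lit 78) (nat_lit 380) (nat_lit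 0) (XT.lf (nat_lit 0) (nat_lit 70752136416) (nat_lit 380) (nat_lit 18502116084) (nat_lit 456) (nat_lit 7651308466) (nat_lit 196) (nat_lit 5) (nat_lit 201) (nat_lit 5) (nat_lit 202) (nat_lit 5) (nat_lit 527) (nat_lit 483) (nat_lit 190)) (XT.lf (nat_lit 0) (nat_lit 10726893797) (nat_lit 380) (nat_lit 67455015287) (nat_lit 76) (nat_lit 20458576916) (nat_lit 191) (nat_lit 5) (nat_lit 196) (nat_lit 5) (nat_lit 192) (nat_lit 5) (nat_lit 528) (nat_lit 483) (nat_lit 189)))) (XT.nd (nat_lit 156) (nat_lit 304) (nat_lit 0) (XT.nd (nat_lit 78) (nat_lit 380) (nat_lit 0) (XT.lf (nat_lit 0) (nat_lit 29952149875) (nat_lit 380) (nat_lit 9901017372) (nat_lit 76) (nat_lit 60558534152) (nat_lit 191) (nat_lit 5) (nat_lit 196) (nat_lit 5) (nat_lit 192) (nat_lit 5) (nat_lit 529) (nat_lit 483) (nat_lit 188)) (XT.lf (nat_lit 0) (nat_lit 50239064026) (nat_lit 456) (nat_lit 51860950421) (nat_lit 76) (nat_lit 121491826) (nat_lit 186) (nat_lit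 5) (nat_lit 192) (nat_lit 5) (nat_lit 187) (nat_lit 5) (nat_lit 530) (nat_lit 483) (nat_lit 187))) (XT.nd (nat_lit 78) (nat_lit 0) (nat_lit 0) (XT.lf (nat_lit 0) (nat_lit 8316477891) (nat_lit 304) (nat_lit 63393213179) (nat_lit 380) (nat_lit 32358661082) (nat_lit 182) (nat_lit 5) (nat_lit 186) (nat_lit 5) (nat_lit 187) (nat_lit 5) (nat_lit 531) (nat_lit 483) (nat_lit 186)) (XT.lf (nat_lit 0) (nat_lit 71361770829) (nat_lit 304) (nat_lit 22985971948) (nat_lit 380) (nat_lit 11607161478) (nat_lit 182) (nat_lit 5) (nat_lit 186) (nat_lit 5) (nat_lit 187) (nat_lit 5) (nat_lit 532) (nat_lit 483) (nat_lit 185))))) (XT.nd (nat_lit 546) (nat_lit 684) (nat_lit 0) (XT.nd (nat_lit 156) (nat_lit 608) (nat_lit 0) (XT.nd (nat_lit 78) (nat_lit 0) (nat_lit 0) (XT.lf (nat_lit 0) (nat_lit 10036216744) (nat_lit 380) (nat_lit 79200434787) (nat_lit 76) (nat_lit 18644787231) (nat_lit 177) (nat_lit 5) (nat_lit 182) (nat_lit 5) (nat_lit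 178) (nat_lit 5) (nat_lit 533) (nat_lit 483) (nat_lit 184)) (XT.lf (nat_lit 0) (nat_lit 32675592938) (nat_lit 380) (nat_lit 15639316222) (nat_lit 76) (nat_lit 61530012823) (nat_lit 177) (nat_lit 5) (nat_lit 182) (nat_lit 5) (nat_lit 178) (nat_lit 5) (nat_lit 534) (nat_lit 483) (nat_lit 183))) (XT.nd (nat_lit 78) (nat_lit 304) (nat_lit 0) (XT.lf (nat_lit 0) (nat_lit 50819776366) (nat_lit 304) (nat_lit 5662519527) (nat_lit 380) (nat_lit 55370369462) (nat_lit 173) (nat_lit 5) (nat_lit 177) (nat_lit 5) (nat_lit 178) (nat_lit 5) (nat_lit 535) (nat_lit 483) (nat_lit 182)) (XT.lf (nat_lit 0) (nat_lit 5412982699) (nat_lit 304) (nat_lit 76169248066) (nat_lit 380) (nat_lit 32321039359) (nat_lit 169) (nat_lit 5) (nat_lit 173) (nat_lit 5) (nat_lit 174) (nat_lit 5) (nat_lit 536) (nat_lit 483) (nat_lit 181)))) (XT.nd (nat_lit 58188) (nat_lit 0) (nat_lit 11324) (XT.nd (nat_lit 58110) (nat_lit 0) (nat_lit 11324) (XT.lf (nat_lit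 0) (nat_lit 54301095316) (nat_lit 304) (nat_lit 17474901821) (nat_lit 380) (nat_lit 50761832194) (nat_lit 160) (nat_lit 5) (nat_lit 164) (nat_lit 5) (nat_lit 165) (nat_lit 5) (nat_lit 540) (nat_lit 483) (nat_lit 177)) (XT.lf (nat_lit 0) (nat_lit 12874747268) (nat_lit 1292) (nat_lit 5725868817) (nat_lit 1292) (nat_lit 5725868817) (nat_lit 309) (nat_lit 3) (nat_lit 326) (nat_lit 3) (nat_lit 326) (nat_lit 5) (nat_lit 484) (nat_lit 484) (nat_lit 232))) (XT.nd (nat_lit 78) (nat_lit 0) (nat_lit 76) (XT.lf (nat_lit 76) (nat_lit 12931579413) (nat_lit 0) (nat_lit 13355972005) (nat_lit 1292) (nat_lit 23090655956) (nat_lit 310) (nat_lit 5) (nat_lit 309) (nat_lit 3) (nat_lit 326) (nat_lit 5) (nat_lit 485) (nat_lit 484) (nat_lit 231)) (XT.lf (nat_lit 0) (nat_lit 27065166927) (nat_lit 1216) (nat_lit 11950039725) (nat_lit 1292) (nat_lit 11103293010) (nat_lit 310) (nat_lit 5) (nat_lit 326) (nat_lit 5) (nat_lit 327) (nat_lit 5)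 (nat_lit 486) (nat_lit 484) (nat_lit 230))))))))
noncomputable def xc240 : XT := (XT.nd (nat_lit 2418) (nat_lit 4332) (nat_lit 0) (XT.nd (nat_lit 1170) (nat_lit 5168) (nat_lit 0) (XT.nd (nat_lit 546) (nat_lit 912) (nat_lit 0) (XT.nd (nat_lit 234) (nat_lit 0) (nat_lit 152) (XT.nd (nat_lit 78) (nat_lit 0) (nat_lit 76) (XT.lf (nat_lit 76) (nat_lit 13410308383) (nat_lit 0) (nat_lit 14715905195) (nat_lit 1292) (nat_lit 22746984156) (nat_lit 311) (nat_lit 5) (nat_lit 310) (nat_lit 5) (nat_lit 327) (nat_lit 5) (nat_lit 487) (nat_lit 484) (nat_lit 229)) (XT.nd (nat_lit 78) (nat_lit 0) (nat_lit 0) (XT.lf (nat_lit 0) (nat_lit 29439073518) (nat_lit 1216) (nat_lit 11971422170) (nat_lit 1292) (nat_lit 10233441697) (nat_lit 311) (nat_lit 5) (nat_lit 327) (nat_lit 5) (nat_lit 328) (nat_lit 5) (nat_lit 488) (nat_lit 484) (nat_lit 228)) (XT.lf (nat_lit 76) (nat_lit 14419875576) (nat_lit 0) (nat_lit 16654774189) (nat_lit 1292) (nat_lit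 21354649638) (nat_lit 312) (nat_lit 5) (nat_lit 311) (nat_lit 5) (nat_lit 328) (nat_lit 5) (nat_lit 489) (nat_lit 484) (nat_lit 227)))) (XT.nd (nat_lit 156) (nat_lit 0) (nat_lit 76) (XT.nd (nat_lit 78) (nat_lit 0) (nat_lit 0) (XT.lf (nat_lit 0) (nat_lit 32965430763) (nat_lit 1216) (nat_lit 11473109947) (nat_lit 1292) (nat_lit 8793497534) (nat_lit 312) (nat_lit 5) (nat_lit 328) (nat_lit 5) (nat_lit 329) (nat_lit 5) (nat_lit 490) (nat_lit 484) (nat_lit 226)) (XT.lf (nat_lit 76) (nat_lit 16006128122) (nat_lit 0) (nat_lit 19224636796) (nat_lit 1292) (nat_lit 18818559526) (nat_lit 313) (nat_lit 5) (nat_lit 312) (nat_lit 5) (nat_lit 329) (nat_lit 5) (nat_lit 491) (nat_lit 484) (nat_lit 225))) (XT.nd (nat_lit 78) (nat_lit 0) (nat_lit 0) (XT.lf (nat_lit 0) (nat_lit 37745000344) (nat_lit 1216) (nat_lit 10409341529) (nat_lit 1292) (nat_lit 6731359203) (nat_lit 313) (nat_lit 5) (nat_lit 329) (nat_lit 5) (nat_lit 330) (nat_lit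 5) (nat_lit 492) (nat_lit 484) (nat_lit 224)) (XT.lf (nat_lit 76) (nat_lit 18218076469) (nat_lit 0) (nat_lit 22481173567) (nat_lit 1292) (nat_lit 15036981436) (nat_lit 314) (nat_lit 5) (nat_lit 313) (nat_lit 5) (nat_lit 330) (nat_lit 5) (nat_lit 493) (nat_lit 484) (nat_lit 223))))) (XT.nd (nat_lit 312) (nat_lit 1216) (nat_lit 0) (XT.nd (nat_lit 156) (nat_lit 0) (nat_lit 76) (XT.nd (nat_lit 78) (nat_lit 0) (nat_lit 0) (XT.lf (nat_lit 0) (nat_lit 43885512106) (nat_lit 1216) (nat_lit 8731185906) (nat_lit 1292) (nat_lit 3991278301) (nat_lit 314) (nat_lit 5) (nat_lit 330) (nat_lit 5) (nat_lit 331) (nat_lit 5) (nat_lit 494) (nat_lit 484) (nat_lit 222)) (XT.lf (nat_lit 76) (nat_lit 21108087491) (nat_lit 0) (nat_lit 26483932449) (nat_lit 1292) (nat_lit 9901113895) (nat_lit 315) (nat_lit 5) (nat_lit 314) (nat_lit 5) (nat_lit 331) (nat_lit 5) (nat_lit 495) (nat_lit 484) (nat_lit 221))) (XT.nd (nat_lit 78) (nat_lit 0) (nat_lit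 0) (XT.lf (nat_lit 0) (nat_lit 51502112854) (nat_lit 1216) (nat_lit 6386348799) (nat_lit 1292) (nat_lit 513612811) (nat_lit 315) (nat_lit 5) (nat_lit 331) (nat_lit 5) (nat_lit 332) (nat_lit 5) (nat_lit 496) (nat_lit 484) (nat_lit 220)) (XT.lf (nat_lit 76) (nat_lit 24732088978) (nat_lit 0) (nat_lit 31296588874) (nat_lit 1292) (nat_lit 3294630452) (nat_lit 316) (nat_lit 5) (nat_lit 315) (nat_lit 5) (nat_lit 332) (nat_lit 5) (nat_lit 497) (nat_lit 484) (nat_lit 219)))) (XT.nd (nat_lit 156) (nat_lit 0) (nat_lit 76) (XT.nd (nat_lit 78) (nat_lit 0) (nat_lit 76) (XT.lf (nat_lit 0) (nat_lit 475036835) (nat_lit 1292) (nat_lit 3360540752) (nat_lit 1368) (nat_lit 56434550358) (nat_lit 298) (nat_lit 5) (nat_lit 315) (nat_lit 5) (nat_lit 316) (nat_lit 5) (nat_lit 498) (nat_lit 484) (nat_lit 218)) (XT.lf (nat_lit 0) (nat_lit 4811054669) (nat_lit 1292) (nat_lit 32127585398) (nat_lit 1368) (nat_lit 24290149192) (nat_lit 299) (nat_lit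 5) (nat_lit 316) (nat_lit 5) (nat_lit 317) (nat_lit 5) (nat_lit 499) (nat_lit 484) (nat_lit 217))) (XT.nd (nat_lit 78) (nat_lit 0) (nat_lit 76) (XT.lf (nat_lit 76) (nat_lit 358556335) (nat_lit 0) (nat_lit 8993552045) (nat_lit 1368) (nat_lit 52861853436) (nat_lit 300) (nat_lit 5) (nat_lit 299) (nat_lit 5) (nat_lit 317) (nat_lit 5) (nat_lit 500) (nat_lit 484) (nat_lit 216)) (XT.lf (nat_lit 0) (nat_lit 14546542329) (nat_lit 1292) (nat_lit 28935176349) (nat_lit 76) (nat_lit 19731456474) (nat_lit 300) (nat_lit 5) (nat_lit 317) (nat_lit 5) (nat_lit 301) (nat_lit 5) (nat_lit 501) (nat_lit 484) (nat_lit 215)))))) (XT.nd (nat_lit 624) (nat_lit 2660) (nat_lit 0) (XT.nd (nat_lit 312) (nat_lit 1216) (nat_lit 0) (XT.nd (nat_lit 156) (nat_lit 608) (nat_lit 0) (XT.nd (nat_lit 78) (nat_lit 0) (nat_lit 0) (XT.lf (nat_lit 0) (nat_lit 4980173138) (nat_lit 836) (nat_lit 15052853076) (nat_lit 912) (nat_lit 44205252226) (nat_lit 289)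 (nat_lit 5) (nat_lit 300) (nat_lit 5) (nat_lit 301) (nat_lit 5) (nat_lit 502) (nat_lit 484) (nat_lit 214)) (XT.lf (nat_lit 0) (nat_lit 26115277331) (nat_lit 912) (nat_lit 24919550728) (nat_lit 76) (nat_lit 14246371646) (nat_lit 289) (nat_lit 5) (nat_lit 301) (nat_lit 5) (nat_lit 290) (nat_lit 5) (nat_lit 503) (nat_lit 484) (nat_lit 213))) (XT.nd (nat_lit 78) (nat_lit 0) (nat_lit 0) (XT.lf (nat_lit 0) (nat_lit 10504483444) (nat_lit 608) (nat_lit 22124860700) (nat_lit 684) (nat_lit 33718584075) (nat_lit 281) (nat_lit 5) (nat_lit 289) (nat_lit 5) (nat_lit 290) (nat_lit 5) (nat_lit 504) (nat_lit 484) (nat_lit 212)) (XT.lf (nat_lit 0) (nat_lit 39665870996) (nat_lit 684) (nat_lit 20013728623) (nat_lit 76) (nat_lit 7757247884) (nat_lit 281) (nat_lit 5) (nat_lit 290) (nat_lit 5) (nat_lit 282) (nat_lit 5) (nat_lit 505) (nat_lit 484) (nat_lit 211)))) (XT.nd (nat_lit 156) (nat_lit 608) (nat_lit 0) (XT.nd (nat_lit 78) (nat_lit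 0) (nat_lit 0) (XT.lf (nat_lit 0) (nat_lit 17002996006) (nat_lit 608) (nat_lit 30292366210) (nat_lit 684) (nat_lit 21251616146) (nat_lit 273) (nat_lit 5) (nat_lit 281) (nat_lit 5) (nat_lit 282) (nat_lit 5) (nat_lit 506) (nat_lit 484) (nat_lit 210)) (XT.lf (nat_lit 0) (nat_lit 55356992548) (nat_lit 684) (nat_lit 14146268324) (nat_lit 76) (nat_lit 181054694) (nat_lit 273) (nat_lit 5) (nat_lit 282) (nat_lit 5) (nat_lit 274) (nat_lit 5) (nat_lit 507) (nat_lit 484) (nat_lit 209))) (XT.nd (nat_lit 78) (nat_lit 76) (nat_lit 0) (XT.lf (nat_lit 0) (nat_lit 24551940359) (nat_lit 532) (nat_lit 39643862200) (nat_lit 608) (nat_lit 6643910455) (nat_lit 266) (nat_lit 5) (nat_lit 273) (nat_lit 5) (nat_lit 274) (nat_lit 5) (nat_lit 508) (nat_lit 484) (nat_lit 208)) (XT.lf (nat_lit 0) (nat_lit 1388889970) (nat_lit 608) (nat_lit 7338644455) (nat_lit 76) (nat_lit 63297561731) (nat_lit 265) (nat_lit 5) (nat_lit 273) (nat_lit 5) (nat_lit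 266) (nat_lit 5) (nat_lit 509) (nat_lit 484) (nat_lit 207))))) (XT.nd (nat_lit 312) (nat_lit 988) (nat_lit 0) (XT.nd (nat_lit 156) (nat_lit 532) (nat_lit 0) (XT.nd (nat_lit 78) (nat_lit 532) (nat_lit 0) (XT.lf (nat_lit 0) (nat_lit 10075305571) (nat_lit 684) (nat_lit 40096874152) (nat_lit 76) (nat_lit 23055502662) (nat_lit 257) (nat_lit 5) (nat_lit 266) (nat_lit 5) (nat_lit 258) (nat_lit 5) (nat_lit 510) (nat_lit 484) (nat_lit 206)) (XT.lf (nat_lit 0) (nat_lit 421120978) (nat_lit 532) (nat_lit 18765923835) (nat_lit 608) (nat_lit 55274359495) (nat_lit 250) (nat_lit 5) (nat_lit 257) (nat_lit 5) (nat_lit 258) (nat_lit 5) (nat_lit 511) (nat_lit 484) (nat_lit 205))) (XT.nd (nat_lit 78) (nat_lit 532) (nat_lit 0) (XT.lf (nat_lit 0) (nat_lit 29111050982) (nat_lit 608) (nat_lit 32878579231) (nat_lit 76) (nat_lit 13726340278) (nat_lit 250) (nat_lit 5) (nat_lit 258) (nat_lit 5) (nat_lit 251) (nat_lit 5) (nat_lit 512) (nat_lit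 484) (nat_lit 204)) (XT.lf (nat_lit 0) (nat_lit 9517290895) (nat_lit 532) (nat_lit 30092232466) (nat_lit 608) (nat_lit 37390347959) (nat_lit 243) (nat_lit 5) (nat_lit 250) (nat_lit 5) (nat_lit 251) (nat_lit 5) (nat_lit 513) (nat_lit 484) (nat_lit 203)))) (XT.nd (nat_lit 156) (nat_lit 532) (nat_lit 0) (XT.nd (nat_lit 78) (nat_lit 456) (nat_lit 0) (XT.lf (nat_lit 0) (nat_lit 50784265404) (nat_lit 608) (nat_lit 24483761199) (nat_lit 76) (nat_lit 3043423148) (nat_lit 243) (nat_lit 5) (nat_lit 251) (nat_lit 5) (nat_lit 244) (nat_lit 5) (nat_lit 514) (nat_lit 484) (nat_lit 202)) (XT.lf (nat_lit 0) (nat_lit 19894704850) (nat_lit 456) (nat_lit 42888211532) (nat_lit 532) (nat_lit 16864799192) (nat_lit 237) (nat_lit 5) (nat_lit 243) (nat_lit 5) (nat_lit 244) (nat_lit 5) (nat_lit 515) (nat_lit 484) (nat_lit 201))) (XT.nd (nat_lit 78) (nat_lit 532) (nat_lit 0) (XT.lf (nat_lit 0) (nat_lit 66105831582) (nat_lit 456) (nat_lit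 9282426397) (nat_lit 532) (nat_lit 5628409500) (nat_lit 237) (nat_lit 5) (nat_lit 243) (nat_lit 5) (nat_lit 244) (nat_lit 5) (nat_lit 516) (nat_lit 484) (nat_lit 200)) (XT.lf (nat_lit 0) (nat_lit 6381730086) (nat_lit 532) (nat_lit 50822709890) (nat_lit 76) (nat_lit 25203953530) (nat_lit 230) (nat_lit 5) (nat_lit 237) (nat_lit 5) (nat_lit 231) (nat_lit 5) (nat_lit 517) (nat_lit 484) (nat_lit 199))))))) (XT.nd (nat_lit 1170) (nat_lit 684) (nat_lit 0) (XT.nd (nat_lit 546) (nat_lit 1824) (nat_lit 0) (XT.nd (nat_lit 234) (nat_lit 912) (nat_lit 0) (XT.nd (nat_lit 78) (nat_lit 912) (nat_lit 0) (XT.lf (nat_lit 0) (nat_lit 18882525716) (nat_lit 532) (nat_lit 4204308236) (nat_lit 76) (nat_lit 60746061275) (nat_lit 230) (nat_lit 5) (nat_lit 237) (nat_lit 5) (nat_lit 231) (nat_lit 5) (nat_lit 518) (nat_lit 484) (nat_lit 198)) (XT.nd (nat_lit 78) (nat_lit 456) (nat_lit 0) (XT.lf (nat_lit 0) (nat_lit 32307525868) (nat_lit 532)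 (nat_lit 40723364179) (nat_lit 76) (nat_lit 12252766566) (nat_lit 224) (nat_lit 5) (nat_lit 231) (nat_lit 5) (nat_lit 225) (nat_lit 5) (nat_lit 519) (nat_lit 484) (nat_lit 197)) (XT.lf (nat_lit 0) (nat_lit 8024351475) (nat_lit 456) (nat_lit 38459050451) (nat_lit 532) (nat_lit 40284095171) (nat_lit 218) (nat_lit 5) (nat_lit 224) (nat_lit 5) (nat_lit 225) (nat_lit 5) (nat_lit 520) (nat_lit 484) (nat_lit 196)))) (XT.nd (nat_lit 156) (nat_lit 532) (nat_lit 0) (XT.nd (nat_lit 78) (nat_lit 380) (nat_lit 0) (XT.lf (nat_lit 0) (nat_lit 59068715503) (nat_lit 456) (nat_lit 2426605791) (nat_lit 532) (nat_lit 26788208522) (nat_lit 218) (nat_lit 5) (nat_lit 224) (nat_lit 5) (nat_lit 225) (nat_lit 5) (nat_lit 521) (nat_lit 484) (nat_lit 195)) (XT.lf (nat_lit 0) (nat_lit 21892571172) (nat_lit 380) (nat_lit 55608455935) (nat_lit 456) (nat_lit 12327713577) (nat_lit 213) (nat_lit 5) (nat_lit 218) (nat_lit 5) (nat_lit 219) (nat_lit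 5) (nat_lit 522) (nat_lit 484) (nat_lit 194))) (XT.nd (nat_lit 78) (nat_lit 456) (nat_lit 0) (XT.lf (nat_lit 0) (nat_lit 2838028183) (nat_lit 456) (nat_lit 16331593750) (nat_lit 76) (nat_lit 72240300358) (nat_lit 212) (nat_lit 5) (nat_lit 218) (nat_lit 5) (nat_lit 213) (nat_lit 5) (nat_lit 523) (nat_lit 484) (nat_lit 193)) (XT.lf (nat_lit 0) (nat_lit 18751605984) (nat_lit 532) (nat_lit 55776496370) (nat_lit 76) (nat_lit 18490556164) (nat_lit 206) (nat_lit 5) (nat_lit 213) (nat_lit 5) (nat_lit 207) (nat_lit 5) (nat_lit 524) (nat_lit 484) (nat_lit 192))))) (XT.nd (nat_lit 312) (nat_lit 1064) (nat_lit 0) (XT.nd (nat_lit 156) (nat_lit 380) (nat_lit 0) (XT.nd (nat_lit 78) (nat_lit 380) (nat_lit 0) (XT.lf (nat_lit 0) (nat_lit 35498514697) (nat_lit 532) (nat_lit 2104788575) (nat_lit 76) (nat_lit 57061675881) (nat_lit 206) (nat_lit 5) (nat_lit 213) (nat_lit 5) (nat_lit 207) (nat_lit 5) (nat_lit 525) (nat_lit 484) (nat_lit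 191)) (XT.lf (nat_lit 0) (nat_lit 53278043568) (nat_lit 456) (nat_lit 42119504901) (nat_lit 76) (nat_lit 947234579) (nat_lit 201) (nat_lit 5) (nat_lit 207) (nat_lit 5) (nat_lit 202) (nat_lit 5) (nat_lit 526) (nat_lit 484) (nat_lit 190))) (XT.nd (nat_lit 78) (nat_lit 0) (nat_lit 0) (XT.lf (nat_lit 0) (nat_lit 14116441995) (nat_lit 380) (nat_lit 58003580127) (nat_lit 456) (nat_lit 25939087049) (nat_lit 196) (nat_lit 5) (nat_lit 201) (nat_lit 5) (nat_lit 202) (nat_lit 5) (nat_lit 527) (nat_lit 484) (nat_lit 189)) (XT.lf (nat_lit 0) (nat_lit 72902331443) (nat_lit 380) (nat_lit 19049852945) (nat_lit 456) (nat_lit 7859932983) (nat_lit 196) (nat_lit 5) (nat_lit 201) (nat_lit 5) (nat_lit 202) (nat_lit 5) (nat_lit 528) (nat_lit 484) (nat_lit 188)))) (XT.nd (nat_lit 156) (nat_lit 684) (nat_lit 0) (XT.nd (nat_lit 78) (nat_lit 0) (nat_lit 0) (XT.lf (nat_lit 0) (nat_lit 11068949796) (nat_lit 380) (nat_lit 69450366784) (nat_lit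 76) (nat_lit 21079775305) (nat_lit 191) (nat_lit 5) (nat_lit 196) (nat_lit 5) (nat_lit 192) (nat_lit 5) (nat_lit 529) (nat_lit 484) (nat_lit 187)) (XT.lf (nat_lit 0) (nat_lit 30870373774) (nat_lit 380) (nat_lit 10170573172) (nat_lit 76) (nat_lit 62382514529) (nat_lit 191) (nat_lit 5) (nat_lit 196) (nat_lit 5) (nat_lit 192) (nat_lit 5) (nat_lit 530) (nat_lit 484) (nat_lit 186))) (XT.nd (nat_lit 78) (nat_lit 304) (nat_lit 0) (XT.lf (nat_lit 0) (nat_lit 51765659786) (nat_lit 456) (nat_lit 53389067501) (nat_lit 76) (nat_lit 132840309) (nat_lit 186) (nat_lit 5) (nat_lit 192) (nat_lit 5) (nat_lit 187) (nat_lit 5) (nat_lit 531) (nat_lit 484) (nat_lit 185)) (XT.lf (nat_lit 0) (nat_lit 8593411980) (nat_lit 304) (nat_lit 65286691687) (nat_lit 380) (nat_lit 33309724277) (nat_lit 182) (nat_lit 5) (nat_lit 186) (nat_lit 5) (nat_lit 187) (nat_lit 5) (nat_lit 532) (nat_lit 484) (nat_lit 184)))))) (XT.nd (nat_lit 59046) (nat_lit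 0) (nat_lit 10488) (XT.nd (nat_lit 58734) (nat_lit 0) (nat_lit 10336) (XT.nd (nat_lit 156) (nat_lit 304) (nat_lit 0) (XT.nd (nat_lit 78) (nat_lit 380) (nat_lit 0) (XT.lf (nat_lit 0) (nat_lit 73529264489) (nat_lit 304) (nat_lit 23667475487) (nat_lit 380) (nat_lit 11936253374) (nat_lit 182) (nat_lit 5) (nat_lit 186) (nat_lit 5) (nat_lit 187) (nat_lit 5) (nat_lit 533) (nat_lit 484) (nat_lit 183)) (XT.lf (nat_lit 0) (nat_lit 10355843743) (nat_lit 380) (nat_lit 81549222769) (nat_lit 76) (nat_lit 19212258177) (nat_lit 177) (nat_lit 5) (nat_lit 182) (nat_lit 5) (nat_lit 178) (nat_lit 5) (nat_lit 534) (nat_lit 484) (nat_lit 182))) (XT.nd (nat_lit 78) (nat_lit 304) (nat_lit 0) (XT.lf (nat_lit 0) (nat_lit 33673861209) (nat_lit 380) (nat_lit 16082063610) (nat_lit 76) (nat_lit 63383803818) (nat_lit 177) (nat_lit 5) (nat_lit 182) (nat_lit 5) (nat_lit 178) (nat_lit 5) (nat_lit 535) (nat_lit 484) (nat_lit 181)) (XT.lf (nat_lit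 0) (nat_lit 52370542618) (nat_lit 304) (nat_lit 5823949940) (nat_lit 380) (nat_lit 57013219962) (nat_lit 173) (nat_lit 5) (nat_lit 177) (nat_lit 5) (nat_lit 178) (nat_lit 5) (nat_lit 536) (nat_lit 484) (nat_lit 180)))) (XT.nd (nat_lit 156) (nat_lit 0) (nat_lit 76) (XT.nd (nat_lit 78) (nat_lit 0) (nat_lit 0) (XT.lf (nat_lit 0) (nat_lit 13288233472) (nat_lit 1292) (nat_lit 5883613072) (nat_lit 1292) (nat_lit 5883613072) (nat_lit 309) (nat_lit 3) (nat_lit 326) (nat_lit 3) (nat_lit 326) (nat_lit 5) (nat_lit 485) (nat_lit 485) (nat_lit 230)) (XT.lf (nat_lit 76) (nat_lit 13347315281) (nat_lit 0) (nat_lit 13782030354) (nat_lit 1292) (nat_lit 23728608037) (nat_lit 310) (nat_lit 5) (nat_lit 309) (nat_lit 3) (nat_lit 326) (nat_lit 5) (nat_lit 486) (nat_lit 485) (nat_lit 229))) (XT.nd (nat_lit 78) (nat_lit 0) (nat_lit 0) (XT.lf (nat_lit 0) (nat_lit 27928504182) (nat_lit 1216) (nat_lit 12279771626) (nat_lit 1292) (nat_lit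 11412232626) (nat_lit 310) (nat_lit 5) (nat_lit 326) (nat_lit 5) (nat_lit 327) (nat_lit 5) (nat_lit 487) (nat_lit 485) (nat_lit 228)) (XT.lf (nat_lit 76) (nat_lit 13841104873) (nat_lit 0) (nat_lit 15179054626) (nat_lit 1292) (nat_lit 23377724769) (nat_lit 311) (nat_lit 5) (nat_lit 310) (nat_lit 5) (nat_lit 327) (nat_lit 5) (nat_lit 488) (nat_lit 485) (nat_lit 227))))) (XT.nd (nat_lit 312) (nat_lit 0) (nat_lit 152) (XT.nd (nat_lit 156) (nat_lit 0) (nat_lit 76) (XT.nd (nat_lit 78) (nat_lit 0) (nat_lit 0) (XT.lf (nat_lit 0) (nat_lit 30370742022) (nat_lit 1216) (nat_lit 12301239629) (nat_lit 1292) (nat_lit 10519814490) (nat_lit 311) (nat_lit 5) (nat_lit 327) (nat_lit 5) (nat_lit 328) (nat_lit 5) (nat_lit 489) (nat_lit 485) (nat_lit 226)) (XT.lf (nat_lit 76) (nat_lit 14881509548) (nat_lit 0) (nat_lit 17172742622) (nat_lit 1292) (nat_lit 21946500980) (nat_lit 312) (nat_lit 5) (nat_lit 311) (nat_lit 5) (nat_lit 328) (nat_lit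 5) (nat_lit 490) (nat_lit 485) (nat_lit 225))) (XT.nd (nat_lit 78) (nat_lit 0) (nat_lit 0) (XT.lf (nat_lit 0) (nat_lit 34000206073) (nat_lit 1216) (nat_lit 11787556554) (nat_lit 1292) (nat_lit 9039858172) (nat_lit 312) (nat_lit 5) (nat_lit 328) (nat_lit 5) (nat_lit 329) (nat_lit 5) (nat_lit 491) (nat_lit 485) (nat_lit 224)) (XT.lf (nat_lit 76) (nat_lit 16515767024) (nat_lit 0) (nat_lit 19816682029) (nat_lit 1292) (nat_lit 19337008192) (nat_lit 313) (nat_lit 5) (nat_lit 312) (nat_lit 5) (nat_lit 329) (nat_lit 5) (nat_lit 492) (nat_lit 485) (nat_lit 223)))) (XT.nd (nat_lit 156) (nat_lit 0) (nat_lit 76) (XT.nd (nat_lit 78) (nat_lit 0) (nat_lit 0) (XT.lf (nat_lit 0) (nat_lit 38920664971) (nat_lit 1216) (nat_lit 10691574083) (nat_lit 1292) (nat_lit 6918729639) (nat_lit 313) (nat_lit 5) (nat_lit 329) (nat_lit 5) (nat_lit 330) (nat_lit 5) (nat_lit 493) (nat_lit 485) (nat_lit 222)) (XT.lf (nat_lit 76) (nat_lit 18794371870)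 (nat_lit 0) (nat_lit 23168194697) (nat_lit 1292) (nat_lit 15444477816) (nat_lit 314) (nat_lit 5) (nat_lit 313) (nat_lit 5) (nat_lit 330) (nat_lit 5) (nat_lit 494) (nat_lit 485) (nat_lit 221))) (XT.nd (nat_lit 78) (nat_lit 0) (nat_lit 0) (XT.lf (nat_lit 0) (nat_lit 45243065864) (nat_lit 1216) (nat_lit 8962880586) (nat_lit 1292) (nat_lit 4099035750) (nat_lit 314) (nat_lit 5) (nat_lit 330) (nat_lit 5) (nat_lit 331) (nat_lit 5) (nat_lit 495) (nat_lit 485) (nat_lit 220)) (XT.lf (nat_lit 76) (nat_lit 21771274534) (nat_lit 0) (nat_lit 27288588407) (nat_lit 1292) (nat_lit 10156858797) (nat_lit 315) (nat_lit 5) (nat_lit 314) (nat_lit 5) (nat_lit 331) (nat_lit 5) (nat_lit 496) (nat_lit 485) (nat_lit 219))))))))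
noncomputable def xc241 : XT := (XT.nd (nat_lit 2418) (nat_lit 2432) (nat_lit 0) (XT.nd (nat_lit 1170) (nat_lit 4256) (nat_lit 0) (XT.nd (nat_lit 546) (nat_lit 2432) (nat_lit 0) (XT.nd (nat_lit 234) (nat_lit 684) (nat_lit 0) (XT.nd (nat_lit 78) (nat_lit 1292) (nat_lit 0) (XT.lf (nat_lit 0) (nat_lit 53085996579) (nat_lit 1216) (nat_lit 6547601415) (nat_lit 1292) (nat_lit 519370559) (nat_lit 315) (nat_lit 5) (nat_lit 331) (nat_lit 5) (nat_lit 332) (nat_lit 5) (nat_lit 497) (nat_lit 485) (nat_lit 218)) (XT.nd (nat_lit 78) (nat_lit 1292) (nat_lit 0) (XT.lf (nat_lit 76) (nat_lit 25504092064) (nat_lit 0) (nat_lit 32243424539) (nat_lit 1292) (nat_lit 3354348165) (nat_lit 316) (nat_lit 5) (nat_lit 315) (nat_lit 5) (nat_lit 332) (nat_lit 5) (nat_lit 498) (nat_lit 485) (nat_lit 217)) (XT.lf (nat_lit 0) (nat_lit 526528528) (nat_lit 1292) (nat_lit 3431447125) (nat_lit 1368) (nat_lit 58119135678) (nat_lit 298) (nat_lit 5) (nat_lit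 315) (nat_lit 5) (nat_lit 316) (nat_lit 5) (nat_lit 499) (nat_lit 485) (nat_lit 216)))) (XT.nd (nat_lit 156) (nat_lit 760) (nat_lit 0) (XT.nd (nat_lit 78) (nat_lit 0) (nat_lit 0) (XT.lf (nat_lit 0) (nat_lit 4991761316) (nat_lit 1292) (nat_lit 33060634390) (nat_lit 1368) (nat_lit 25012162840) (nat_lit 299) (nat_lit 5) (nat_lit 316) (nat_lit 5) (nat_lit 317) (nat_lit 5) (nat_lit 500) (nat_lit 485) (nat_lit 215)) (XT.lf (nat_lit 76) (nat_lit 399789845) (nat_lit 0) (nat_lit 9268490289) (nat_lit 1368) (nat_lit 54411029232) (nat_lit 300) (nat_lit 5) (nat_lit 299) (nat_lit 5) (nat_lit 317) (nat_lit 5) (nat_lit 501) (nat_lit 485) (nat_lit 214))) (XT.nd (nat_lit 78) (nat_lit 836) (nat_lit 0) (XT.lf (nat_lit 0) (nat_lit 15017462069) (nat_lit 1292) (nat_lit 29772554500) (nat_lit 76) (nat_lit 20318515173) (nat_lit 300) (nat_lit 5) (nat_lit 317) (nat_lit 5) (nat_lit 301) (nat_lit 5) (nat_lit 502) (nat_lit 485) (nat_lit 213))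 (XT.lf (nat_lit 0) (nat_lit 5159954715) (nat_lit 836) (nat_lit 15507872214) (nat_lit 912) (nat_lit 45496582693) (nat_lit 289) (nat_lit 5) (nat_lit 300) (nat_lit 5) (nat_lit 301) (nat_lit 5) (nat_lit 503) (nat_lit 485) (nat_lit 212))))) (XT.nd (nat_lit 312) (nat_lit 1216) (nat_lit 0) (XT.nd (nat_lit 156) (nat_lit 608) (nat_lit 0) (XT.nd (nat_lit 78) (nat_lit 608) (nat_lit 0) (XT.lf (nat_lit 0) (nat_lit 26931528780) (nat_lit 912) (nat_lit 25636626027) (nat_lit 76) (nat_lit 14670494305) (nat_lit 289) (nat_lit 5) (nat_lit 301) (nat_lit 5) (nat_lit 290) (nat_lit 5) (nat_lit 504) (nat_lit 485) (nat_lit 211)) (XT.lf (nat_lit 0) (nat_lit 10849830041) (nat_lit 608) (nat_lit 22790522834) (nat_lit 684) (nat_lit 34697046630) (nat_lit 281) (nat_lit 5) (nat_lit 289) (nat_lit 5) (nat_lit 290) (nat_lit 5) (nat_lit 505) (nat_lit 485) (nat_lit 210))) (XT.nd (nat_lit 78) (nat_lit 608) (nat_lit 0) (XT.lf (nat_lit 0) (nat_lit 40887021869)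 (nat_lit 684) (nat_lit 20583852059) (nat_lit 76) (nat_lit 7988141127) (nat_lit 281) (nat_lit 5) (nat_lit 290) (nat_lit 5) (nat_lit 282) (nat_lit 5) (nat_lit 506) (nat_lit 485) (nat_lit 209)) (XT.lf (nat_lit 0) (nat_lit 17543077363) (nat_lit 608) (nat_lit 31201700756) (nat_lit 684) (nat_lit 21857690388) (nat_lit 273) (nat_lit 5) (nat_lit 281) (nat_lit 5) (nat_lit 282) (nat_lit 5) (nat_lit 507) (nat_lit 485) (nat_lit 208)))) (XT.nd (nat_lit 156) (nat_lit 684) (nat_lit 0) (XT.nd (nat_lit 78) (nat_lit 532) (nat_lit 0) (XT.lf (nat_lit 0) (nat_lit 57047362150) (nat_lit 684) (nat_lit 14540640743) (nat_lit 76) (nat_lit 185949866) (nat_lit 273) (nat_lit 5) (nat_lit 282) (nat_lit 5) (nat_lit 274) (nat_lit 5) (nat_lit 508) (nat_lit 485) (nat_lit 207)) (XT.lf (nat_lit 0) (nat_lit 25318219929) (nat_lit 532) (nat_lit 40832538354) (nat_lit 608) (nat_lit 6813271266) (nat_lit 266) (nat_lit 5) (nat_lit 273) (nat_lit 5) (nat_lit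 274) (nat_lit 5) (nat_lit 509) (nat_lit 485) (nat_lit 206))) (XT.nd (nat_lit 78) (nat_lit 608) (nat_lit 0) (XT.lf (nat_lit 0) (nat_lit 1459073119) (nat_lit 608) (nat_lit 7529378298) (nat_lit 76) (nat_lit 65196539861) (nat_lit 265) (nat_lit 5) (nat_lit 273) (nat_lit 5) (nat_lit 266) (nat_lit 5) (nat_lit 510) (nat_lit 485) (nat_lit 205)) (XT.lf (nat_lit 0) (nat_lit 10405541952) (nat_lit 684) (nat_lit 41269813446) (nat_lit 76) (nat_lit 23748315939) (nat_lit 257) (nat_lit 5) (nat_lit 266) (nat_lit 5) (nat_lit 258) (nat_lit 5) (nat_lit 511) (nat_lit 485) (nat_lit 204)))))) (XT.nd (nat_lit 624) (nat_lit 2204) (nat_lit 0) (XT.nd (nat_lit 312) (nat_lit 988) (nat_lit 0) (XT.nd (nat_lit 156) (nat_lit 532) (nat_lit 0) (XT.nd (nat_lit 78) (nat_lit 0) (nat_lit 0) (XT.lf (nat_lit 0) (nat_lit 463427744) (nat_lit 532) (nat_lit 19326675993) (nat_lit 608) (nat_lit 56904317134) (nat_lit 250) (nat_lit 5) (nat_lit 257) (nat_lit 5)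 (nat_lit 258) (nat_lit 5) (nat_lit 512) (nat_lit 485) (nat_lit 203)) (XT.lf (nat_lit 0) (nat_lit 30011051417) (nat_lit 608) (nat_lit 33835346987) (nat_lit 76) (nat_lit 14140249058) (nat_lit 250) (nat_lit 5) (nat_lit 258) (nat_lit 5) (nat_lit 251) (nat_lit 5) (nat_lit 513) (nat_lit 485) (nat_lit 202))) (XT.nd (nat_lit 78) (nat_lit 0) (nat_lit 0) (XT.lf (nat_lit 0) (nat_lit 9832109149) (nat_lit 532) (nat_lit 30991873700) (nat_lit 608) (nat_lit 38485097382) (nat_lit 243) (nat_lit 5) (nat_lit 250) (nat_lit 5) (nat_lit 251) (nat_lit 5) (nat_lit 514) (nat_lit 485) (nat_lit 201)) (XT.lf (nat_lit 0) (nat_lit 52333233981) (nat_lit 608) (nat_lit 25189092763) (nat_lit 76) (nat_lit 3137701324) (nat_lit 243) (nat_lit 5) (nat_lit 251) (nat_lit 5) (nat_lit 244) (nat_lit 5) (nat_lit 515) (nat_lit 485) (nat_lit 200)))) (XT.nd (nat_lit 156) (nat_lit 532) (nat_lit 0) (XT.nd (nat_lit 78) (nat_lit 0) (nat_lit 0) (XT.lf (nat_lit 0)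 (nat_lit 20520441176) (nat_lit 456) (nat_lit 44170940082) (nat_lit 532) (nat_lit 17345014562) (nat_lit 237) (nat_lit 5) (nat_lit 243) (nat_lit 5) (nat_lit 244) (nat_lit 5) (nat_lit 516) (nat_lit 485) (nat_lit 199)) (XT.lf (nat_lit 0) (nat_lit 68117060102) (nat_lit 456) (nat_lit 9557095503) (nat_lit 532) (nat_lit 5772282556) (nat_lit 237) (nat_lit 5) (nat_lit 243) (nat_lit 5) (nat_lit 244) (nat_lit 5) (nat_lit 517) (nat_lit 485) (nat_lit 198))) (XT.nd (nat_lit 78) (nat_lit 0) (nat_lit 0) (XT.lf (nat_lit 0) (nat_lit 6597272607) (nat_lit 532) (nat_lit 52318445473) (nat_lit 76) (nat_lit 25964202774) (nat_lit 230) (nat_lit 5) (nat_lit 237) (nat_lit 5) (nat_lit 231) (nat_lit 5) (nat_lit 518) (nat_lit 485) (nat_lit 197)) (XT.lf (nat_lit 0) (nat_lit 19472390437) (nat_lit 532) (nat_lit 4302334848) (nat_lit 76) (nat_lit 62572453441) (nat_lit 230) (nat_lit 5) (nat_lit 237) (nat_lit 5) (nat_lit 231) (nat_lit 5) (nat_lit 519)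 (nat_lit 485) (nat_lit 196))))) (XT.nd (nat_lit 312) (nat_lit 912) (nat_lit 0) (XT.nd (nat_lit 156) (nat_lit 380) (nat_lit 0) (XT.nd (nat_lit 78) (nat_lit 456) (nat_lit 0) (XT.lf (nat_lit 0) (nat_lit 33299773493) (nat_lit 532) (nat_lit 41916593730) (nat_lit 76) (nat_lit 12625106794) (nat_lit 224) (nat_lit 5) (nat_lit 231) (nat_lit 5) (nat_lit 225) (nat_lit 5) (nat_lit 520) (nat_lit 485) (nat_lit 195)) (XT.lf (nat_lit 0) (nat_lit 8293274262) (nat_lit 456) (nat_lit 39607252032) (nat_lit 532) (nat_lit 41469315455) (nat_lit 218) (nat_lit 5) (nat_lit 224) (nat_lit 5) (nat_lit 225) (nat_lit 5) (nat_lit 521) (nat_lit 485) (nat_lit 194))) (XT.nd (nat_lit 78) (nat_lit 380) (nat_lit 0) (XT.lf (nat_lit 0) (nat_lit 60868148078) (nat_lit 456) (nat_lit 2493996263) (nat_lit 532) (nat_lit 27569230922) (nat_lit 218) (nat_lit 5) (nat_lit 224) (nat_lit 5) (nat_lit 225) (nat_lit 5) (nat_lit 522) (nat_lit 485) (nat_lit 193)) (XT.lf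 (nat_lit 0) (nat_lit 22577053572) (nat_lit 380) (nat_lit 57270644834) (nat_lit 456) (nat_lit 12675253784) (nat_lit 213) (nat_lit 5) (nat_lit 218) (nat_lit 5) (nat_lit 219) (nat_lit 5) (nat_lit 523) (nat_lit 485) (nat_lit 192)))) (XT.nd (nat_lit 156) (nat_lit 380) (nat_lit 0) (XT.nd (nat_lit 78) (nat_lit 456) (nat_lit 0) (XT.lf (nat_lit 0) (nat_lit 2944388658) (nat_lit 456) (nat_lit 16794219520) (nat_lit 76) (nat_lit 74412973778) (nat_lit 212) (nat_lit 5) (nat_lit 218) (nat_lit 5) (nat_lit 213) (nat_lit 5) (nat_lit 524) (nat_lit 485) (nat_lit 191)) (XT.lf (nat_lit 0) (nat_lit 19335075334) (nat_lit 532) (nat_lit 57422169386) (nat_lit 76) (nat_lit 19051344546) (nat_lit 206) (nat_lit 5) (nat_lit 213) (nat_lit 5) (nat_lit 207) (nat_lit 5) (nat_lit 525) (nat_lit 485) (nat_lit 190))) (XT.nd (nat_lit 78) (nat_lit 380) (nat_lit 0) (XT.lf (nat_lit 0) (nat_lit 36583781954) (nat_lit 532) (nat_lit 2141114878) (nat_lit 76) (nat_lit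 58779421009) (nat_lit 206) (nat_lit 5) (nat_lit 213) (nat_lit 5) (nat_lit 207) (nat_lit 5) (nat_lit 526) (nat_lit 485) (nat_lit 189)) (XT.lf (nat_lit 0) (nat_lit 54896423583) (nat_lit 456) (nat_lit 43355998293) (nat_lit 76) (nat_lit 982102208) (nat_lit 201) (nat_lit 5) (nat_lit 207) (nat_lit 5) (nat_lit 202) (nat_lit 5) (nat_lit 527) (nat_lit 485) (nat_lit 188))))))) (XT.nd (nat_lit 59670) (nat_lit 0) (nat_lit 8512) (XT.nd (nat_lit 546) (nat_lit 988) (nat_lit 0) (XT.nd (nat_lit 234) (nat_lit 684) (nat_lit 0) (XT.nd (nat_lit 78) (nat_lit 380) (nat_lit 0) (XT.lf (nat_lit 0) (nat_lit 14566761405) (nat_lit 380) (nat_lit 59736574306) (nat_lit 456) (nat_lit 26696954091) (nat_lit 196) (nat_lit 5) (nat_lit 201) (nat_lit 5) (nat_lit 202) (nat_lit 5) (nat_lit 528) (nat_lit 485) (nat_lit 187)) (XT.nd (nat_lit 78) (nat_lit 380) (nat_lit 0) (XT.lf (nat_lit 0) (nat_lit 75115446192) (nat_lit 380) (nat_lit 19614442491) (nat_lit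 456) (nat_lit 8076016827) (nat_lit 196) (nat_lit 5) (nat_lit 201) (nat_lit 5) (nat_lit 202) (nat_lit 5) (nat_lit 529) (nat_lit 485) (nat_lit 186)) (XT.lf (nat_lit 0) (nat_lit 11420105088) (nat_lit 380) (nat_lit 71507203301) (nat_lit 76) (nat_lit 21719182498) (nat_lit 191) (nat_lit 5) (nat_lit 196) (nat_lit 5) (nat_lit 192) (nat_lit 5) (nat_lit 530) (nat_lit 485) (nat_lit 185)))) (XT.nd (nat_lit 156) (nat_lit 304) (nat_lit 0) (XT.nd (nat_lit 78) (nat_lit 380) (nat_lit 0) (XT.lf (nat_lit 0) (nat_lit 31815015860) (nat_lit 380) (nat_lit 10449792808) (nat_lit 76) (nat_lit 64260799609) (nat_lit 191) (nat_lit 5) (nat_lit 196) (nat_lit 5) (nat_lit 192) (nat_lit 5) (nat_lit 531) (nat_lit 485) (nat_lit 184)) (XT.lf (nat_lit 0) (nat_lit 53336938412) (nat_lit 456) (nat_lit 54964618842) (nat_lit 76) (nat_lit 144087021) (nat_lit 186) (nat_lit 5) (nat_lit 192) (nat_lit 5) (nat_lit 187) (nat_lit 5) (nat_lit 532) (nat_lit 485)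 (nat_lit 183))) (XT.nd (nat_lit 78) (nat_lit 0) (nat_lit 0) (XT.lf (nat_lit 0) (nat_lit 8877078938) (nat_lit 304) (nat_lit 67237452031) (nat_lit 380) (nat_lit 34290450036) (nat_lit 182) (nat_lit 5) (nat_lit 186) (nat_lit 5) (nat_lit 187) (nat_lit 5) (nat_lit 533) (nat_lit 485) (nat_lit 182)) (XT.lf (nat_lit 0) (nat_lit 75760253684) (nat_lit 304) (nat_lit 24369887707) (nat_lit 380) (nat_lit 12276315762) (nat_lit 182) (nat_lit 5) (nat_lit 186) (nat_lit 5) (nat_lit 187) (nat_lit 5) (nat_lit 534) (nat_lit 485) (nat_lit 181))))) (XT.nd (nat_lit 58812) (nat_lit 0) (nat_lit 10716) (XT.nd (nat_lit 58656) (nat_lit 0) (nat_lit 10640) (XT.nd (nat_lit 312) (nat_lit 608) (nat_lit 0) (XT.lf (nat_lit 0) (nat_lit 10683995251) (nat_lit 380) (nat_lit 83970037221) (nat_lit 76) (nat_lit 19796286709) (nat_lit 177) (nat_lit 5) (nat_lit 182) (nat_lit 5) (nat_lit 178) (nat_lit 5) (nat_lit 535) (nat_lit 485) (nat_lit 180)) (XT.lf (nat_lit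 0) (nat_lit 79666398334) (nat_lit 304) (nat_lit 35057529429) (nat_lit 380) (nat_lit 8334422060) (nat_lit 169) (nat_lit 5) (nat_lit 173) (nat_lit 5) (nat_lit 174) (nat_lit 5) (nat_lit 539) (nat_lit 485) (nat_lit 176))) (XT.nd (nat_lit 78) (nat_lit 0) (nat_lit 0) (XT.lf (nat_lit 0) (nat_lit 13712560357) (nat_lit 1292) (nat_lit 6046895138) (nat_lit 1292) (nat_lit 6046895138) (nat_lit 309) (nat_lit 3) (nat_lit 326) (nat_lit 3) (nat_lit 326) (nat_lit 5) (nat_lit 486) (nat_lit 486) (nat_lit 228)) (XT.lf (nat_lit 76) (nat_lit 13773928053) (nat_lit 0) (nat_lit 14219413585) (nat_lit 1292) (nat_lit 24388842564) (nat_lit 310) (nat_lit 5) (nat_lit 309) (nat_lit 3) (nat_lit 326) (nat_lit 5) (nat_lit 487) (nat_lit 486) (nat_lit 227)))) (XT.nd (nat_lit 156) (nat_lit 0) (nat_lit 76) (XT.nd (nat_lit 78) (nat_lit 0) (nat_lit 0) (XT.lf (nat_lit 0) (nat_lit 28814792003) (nat_lit 1216) (nat_lit 12621046960) (nat_lit 1292) (nat_lit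 11731827266) (nat_lit 310) (nat_lit 5) (nat_lit 326) (nat_lit 5) (nat_lit 327) (nat_lit 5) (nat_lit 488) (nat_lit 486) (nat_lit 226)) (XT.lf (nat_lit 76) (nat_lit 14283189974) (nat_lit 0) (nat_lit 15654854463) (nat_lit 1292) (nat_lit 24030353608) (nat_lit 311) (nat_lit 5) (nat_lit 310) (nat_lit 5) (nat_lit 327) (nat_lit 5) (nat_lit 489) (nat_lit 486) (nat_lit 225))) (XT.nd (nat_lit 78) (nat_lit 0) (nat_lit 0) (XT.lf (nat_lit 0) (nat_lit 31327576694) (nat_lit 1216) (nat_lit 12642634997) (nat_lit 1292) (nat_lit 10815962740) (nat_lit 311) (nat_lit 5) (nat_lit 327) (nat_lit 5) (nat_lit 328) (nat_lit 5) (nat_lit 490) (nat_lit 486) (nat_lit 224)) (XT.lf (nat_lit 76) (nat_lit 15355325656) (nat_lit 0) (nat_lit 17705198166) (nat_lit 1292) (nat_lit 22558908502) (nat_lit 312) (nat_lit 5) (nat_lit 311) (nat_lit 5) (nat_lit 328) (nat_lit 5) (nat_lit 491) (nat_lit 486) (nat_lit 223)))))) (XT.nd (nat_lit 624) (nat_lit 2356) (nat_lit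 0) (XT.nd (nat_lit 312) (nat_lit 0) (nat_lit 152) (XT.nd (nat_lit 156) (nat_lit 0) (nat_lit 76) (XT.nd (nat_lit 78) (nat_lit 0) (nat_lit 0) (XT.lf (nat_lit 0) (nat_lit 35063394825) (nat_lit 1216) (nat_lit 12113144141) (nat_lit 1292) (nat_lit 9294611002) (nat_lit 312) (nat_lit 5) (nat_lit 328) (nat_lit 5) (nat_lit 329) (nat_lit 5) (nat_lit 492) (nat_lit 486) (nat_lit 222)) (XT.lf (nat_lit 76) (nat_lit 17039004251) (nat_lit 0) (nat_lit 20425609984) (nat_lit 1292) (nat_lit 19873657113) (nat_lit 313) (nat_lit 5) (nat_lit 312) (nat_lit 5) (nat_lit 329) (nat_lit 5) (nat_lit 493) (nat_lit 486) (nat_lit 221))) (XT.nd (nat_lit 78) (nat_lit 0) (nat_lit 0) (XT.lf (nat_lit 0) (nat_lit 40129113100) (nat_lit 1216) (nat_lit 10983998474) (nat_lit 1292) (nat_lit 7112557584) (nat_lit 313) (nat_lit 5) (nat_lit 329) (nat_lit 5) (nat_lit 330) (nat_lit 5) (nat_lit 494) (nat_lit 486) (nat_lit 220)) (XT.lf (nat_lit 76) (nat_lit 19386248183)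 (nat_lit 0) (nat_lit 23875103978) (nat_lit 1292) (nat_lit 15866702655) (nat_lit 314) (nat_lit 5) (nat_lit 313) (nat_lit 5) (nat_lit 330) (nat_lit 5) (nat_lit 495) (nat_lit 486) (nat_lit 219)))) (XT.nd (nat_lit 156) (nat_lit 0) (nat_lit 76) (XT.nd (nat_lit 78) (nat_lit 0) (nat_lit 0) (XT.lf (nat_lit 0) (nat_lit 46638993333) (nat_lit 1216) (nat_lit 9203262058) (nat_lit 1292) (nat_lit 4210713676) (nat_lit 314) (nat_lit 5) (nat_lit 330) (nat_lit 5) (nat_lit 331) (nat_lit 5) (nat_lit 496) (nat_lit 486) (nat_lit 218)) (XT.lf (nat_lit 76) (nat_lit 22452638255) (nat_lit 0) (nat_lit 28116802082) (nat_lit 1292) (nat_lit 10422646176) (nat_lit 315) (nat_lit 5) (nat_lit 314) (nat_lit 5) (nat_lit 331) (nat_lit 5) (nat_lit 497) (nat_lit 486) (nat_lit 217))) (XT.nd (nat_lit 78) (nat_lit 0) (nat_lit 0) (XT.lf (nat_lit 0) (nat_lit 54715168369) (nat_lit 1216) (nat_lit 6715433127) (nat_lit 1292) (nat_lit 525855025) (nat_lit 315) (nat_lit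 5) (nat_lit 331) (nat_lit 5) (nat_lit 332) (nat_lit 5) (nat_lit 498) (nat_lit 486) (nat_lit 216)) (XT.lf (nat_lit 76) (nat_lit 26297530801) (nat_lit 0) (nat_lit 33218209601) (nat_lit 1292) (nat_lit 3418103126) (nat_lit 316) (nat_lit 5) (nat_lit 315) (nat_lit 5) (nat_lit 332) (nat_lit 5) (nat_lit 499) (nat_lit 486) (nat_lit 215))))) (XT.nd (nat_lit 312) (nat_lit 1292) (nat_lit 0) (XT.nd (nat_lit 156) (nat_lit 0) (nat_lit 76) (XT.nd (nat_lit 78) (nat_lit 0) (nat_lit 76) (XT.lf (nat_lit 0) (nat_lit 577427210) (nat_lit 1292) (nat_lit 3506197637) (nat_lit 1368) (nat_lit 59854743691) (nat_lit 298) (nat_lit 5) (nat_lit 315) (nat_lit 5) (nat_lit 316) (nat_lit 5) (nat_lit 500) (nat_lit 486) (nat_lit 214)) (XT.lf (nat_lit 0) (nat_lit 5175801089) (nat_lit 1292) (nat_lit 34023441667) (nat_lit 1368) (nat_lit 25756220979) (nat_lit 299) (nat_lit 5) (nat_lit 316) (nat_lit 5) (nat_lit 317) (nat_lit 5) (nat_lit 501) (nat_lit 486)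 (nat_lit 213))) (XT.nd (nat_lit 78) (nat_lit 0) (nat_lit 76) (XT.lf (nat_lit 76) (nat_lit 440510866) (nat_lit 0) (nat_lit 9551382101) (nat_lit 1368) (nat_lit 56008785873) (nat_lit 300) (nat_lit 5) (nat_lit 299) (nat_lit 5) (nat_lit 317) (nat_lit 5) (nat_lit 502) (nat_lit 486) (nat_lit 212)) (XT.lf (nat_lit 0) (nat_lit 15500527612) (nat_lit 1292) (nat_lit 30636814990) (nat_lit 76) (nat_lit 20923466051) (nat_lit 300) (nat_lit 5) (nat_lit 317) (nat_lit 5) (nat_lit 301) (nat_lit 5) (nat_lit 503) (nat_lit 486) (nat_lit 211)))) (XT.nd (nat_lit 156) (nat_lit 608) (nat_lit 0) (XT.nd (nat_lit 78) (nat_lit 0) (nat_lit 0) (XT.lf (nat_lit 0) (nat_lit 5343386010) (nat_lit 836) (nat_lit 15976344827) (nat_lit 912) (nat_lit 46828652292) (nat_lit 289) (nat_lit 5) (nat_lit 300) (nat_lit 5) (nat_lit 301) (nat_lit 5) (nat_lit 504) (nat_lit 486) (nat_lit 210)) (XT.lf (nat_lit 0) (nat_lit 27770385313) (nat_lit 912) (nat_lit 26376965054)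 (nat_lit 76) (nat_lit 15107528269) (nat_lit 289) (nat_lit 5) (nat_lit 301) (nat_lit 5) (nat_lit 290) (nat_lit 5) (nat_lit 505) (nat_lit 486) (nat_lit 209))) (XT.nd (nat_lit 78) (nat_lit 0) (nat_lit 0) (XT.lf (nat_lit 0) (nat_lit 11203802737) (nat_lit 608) (nat_lit 23476044828) (nat_lit 684) (nat_lit 35706762847) (nat_lit 281) (nat_lit 5) (nat_lit 289) (nat_lit 5) (nat_lit 290) (nat_lit 5) (nat_lit 506) (nat_lit 486) (nat_lit 208)) (XT.lf (nat_lit 0) (nat_lit 42143017711) (nat_lit 684) (nat_lit 21172817877) (nat_lit 76) (nat_lit 8226065884) (nat_lit 281) (nat_lit 5) (nat_lit 290) (nat_lit 5) (nat_lit 282) (nat_lit 5) (nat_lit 507) (nat_lit 486) (nat_lit 207))))))))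
noncomputable def xc242 : XT := (XT.nd (nat_lit 60996) (nat_lit 0) (nat_lit 5168) (XT.nd (nat_lit 1170) (nat_lit 3724) (nat_lit 0) (XT.nd (nat_lit 546) (nat_lit 2432) (nat_lit 0) (XT.nd (nat_lit 234) (nat_lit 1216) (nat_lit 0) (XT.nd (nat_lit 78) (nat_lit 532) (nat_lit 0) (XT.lf (nat_lit 0) (nat_lit 18097639528) (nat_lit 608) (nat_lit 32138282988) (nat_lit 684) (nat_lit 22483753608) (nat_lit 273) (nat_lit 5) (nat_lit 281) (nat_lit 5) (nat_lit 282) (nat_lit 5) (nat_lit 508) (nat_lit 486) (nat_lit 206)) (XT.nd (nat_lit 78) (nat_lit 532) (nat_lit 0) (XT.lf (nat_lit 0) (nat_lit 58786740245) (nat_lit 684) (nat_lit 14948567355) (nat_lit 76) (nat_lit 191022688) (nat_lit 273) (nat_lit 5) (nat_lit 282) (nat_lit 5) (nat_lit 274) (nat_lit 5) (nat_lit 509) (nat_lit 486) (nat_lit 205)) (XT.lf (nat_lit 0) (nat_lit 26105781759) (nat_lit 532) (nat_lit 42056911514) (nat_lit 608) (nat_lit 6989432526) (nat_lit 266) (nat_lit 5) (nat_lit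 273) (nat_lit 5) (nat_lit 274) (nat_lit 5) (nat_lit 510) (nat_lit 486) (nat_lit 204)))) (XT.nd (nat_lit 156) (nat_lit 532) (nat_lit 0) (XT.nd (nat_lit 78) (nat_lit 608) (nat_lit 0) (XT.lf (nat_lit 0) (nat_lit 1529724803) (nat_lit 608) (nat_lit 7727523299) (nat_lit 76) (nat_lit 67152484392) (nat_lit 265) (nat_lit 5) (nat_lit 273) (nat_lit 5) (nat_lit 266) (nat_lit 5) (nat_lit 511) (nat_lit 486) (nat_lit 203)) (XT.lf (nat_lit 0) (nat_lit 10744079418) (nat_lit 684) (nat_lit 42479661143) (nat_lit 76) (nat_lit 24461847703) (nat_lit 257) (nat_lit 5) (nat_lit 266) (nat_lit 5) (nat_lit 258) (nat_lit 5) (nat_lit 512) (nat_lit 486) (nat_lit 202))) (XT.nd (nat_lit 78) (nat_lit 0) (nat_lit 0) (XT.lf (nat_lit 0) (nat_lit 505300354) (nat_lit 532) (nat_lit 19904378472) (nat_lit 608) (nat_lit 58584796496) (nat_lit 250) (nat_lit 5) (nat_lit 257) (nat_lit 5) (nat_lit 258) (nat_lit 5) (nat_lit 513) (nat_lit 486) (nat_lit 201)) (XT.lf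 (nat_lit 0) (nat_lit 30936520962) (nat_lit 608) (nat_lit 34822516341) (nat_lit 76) (nat_lit 14566453486) (nat_lit 250) (nat_lit 5) (nat_lit 258) (nat_lit 5) (nat_lit 251) (nat_lit 5) (nat_lit 514) (nat_lit 486) (nat_lit 200))))) (XT.nd (nat_lit 312) (nat_lit 1444) (nat_lit 0) (XT.nd (nat_lit 156) (nat_lit 456) (nat_lit 0) (XT.nd (nat_lit 78) (nat_lit 0) (nat_lit 0) (XT.lf (nat_lit 0) (nat_lit 10154690037) (nat_lit 532) (nat_lit 31918683602) (nat_lit 608) (nat_lit 39614236960) (nat_lit 243) (nat_lit 5) (nat_lit 250) (nat_lit 5) (nat_lit 251) (nat_lit 5) (nat_lit 515) (nat_lit 486) (nat_lit 199)) (XT.lf (nat_lit 0) (nat_lit 53927211220) (nat_lit 608) (nat_lit 25917259399) (nat_lit 76) (nat_lit 3234637039) (nat_lit 243) (nat_lit 5) (nat_lit 251) (nat_lit 5) (nat_lit 244) (nat_lit 5) (nat_lit 516) (nat_lit 486) (nat_lit 198))) (XT.nd (nat_lit 78) (nat_lit 0) (nat_lit 0) (XT.lf (nat_lit 0) (nat_lit 21163290891) (nat_lit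 456) (nat_lit 45492375386) (nat_lit 532) (nat_lit 17841113320) (nat_lit 237) (nat_lit 5) (nat_lit 243) (nat_lit 5) (nat_lit 244) (nat_lit 5) (nat_lit 517) (nat_lit 486) (nat_lit 197)) (XT.lf (nat_lit 0) (nat_lit 70187015089) (nat_lit 456) (nat_lit 9840223030) (nat_lit 532) (nat_lit 5921905713) (nat_lit 237) (nat_lit 5) (nat_lit 243) (nat_lit 5) (nat_lit 244) (nat_lit 5) (nat_lit 518) (nat_lit 486) (nat_lit 196)))) (XT.nd (nat_lit 156) (nat_lit 912) (nat_lit 0) (XT.nd (nat_lit 78) (nat_lit 0) (nat_lit 0) (XT.lf (nat_lit 0) (nat_lit 6817898503) (nat_lit 532) (nat_lit 53860714726) (nat_lit 76) (nat_lit 26747022379) (nat_lit 230) (nat_lit 5) (nat_lit 237) (nat_lit 5) (nat_lit 231) (nat_lit 5) (nat_lit 519) (nat_lit 486) (nat_lit 195)) (XT.lf (nat_lit 0) (nat_lit 20078608479) (nat_lit 532) (nat_lit 4404915465) (nat_lit 76) (nat_lit 64453407163) (nat_lit 230) (nat_lit 5) (nat_lit 237) (nat_lit 5) (nat_lit 231) (nat_lit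 5) (nat_lit 520) (nat_lit 486) (nat_lit 194))) (XT.nd (nat_lit 78) (nat_lit 456) (nat_lit 0) (XT.lf (nat_lit 0) (nat_lit 34320466999) (nat_lit 532) (nat_lit 43147254540) (nat_lit 76) (nat_lit 13008344143) (nat_lit 224) (nat_lit 5) (nat_lit 231) (nat_lit 5) (nat_lit 225) (nat_lit 5) (nat_lit 521) (nat_lit 486) (nat_lit 193)) (XT.lf (nat_lit 0) (nat_lit 8568646383) (nat_lit 456) (nat_lit 40790219398) (nat_lit 532) (nat_lit 42691430010) (nat_lit 218) (nat_lit 5) (nat_lit 224) (nat_lit 5) (nat_lit 225) (nat_lit 5) (nat_lit 522) (nat_lit 486) (nat_lit 192)))))) (XT.nd (nat_lit 624) (nat_lit 2052) (nat_lit 0) (XT.nd (nat_lit 312) (nat_lit 760) (nat_lit 0) (XT.nd (nat_lit 156) (nat_lit 532) (nat_lit 0) (XT.nd (nat_lit 78) (nat_lit 380) (nat_lit 0) (XT.lf (nat_lit 0) (nat_lit 62719992417) (nat_lit 456) (nat_lit 2563718874) (nat_lit 532) (nat_lit 28374982696) (nat_lit 218) (nat_lit 5) (nat_lit 224) (nat_lit 5) (nat_lit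 225) (nat_lit 5) (nat_lit 523) (nat_lit 486) (nat_lit 191)) (XT.lf (nat_lit 0) (nat_lit 23280480049) (nat_lit 380) (nat_lit 58983047542) (nat_lit 456) (nat_lit 13034499803) (nat_lit 213) (nat_lit 5) (nat_lit 218) (nat_lit 5) (nat_lit 219) (nat_lit 5) (nat_lit 524) (nat_lit 486) (nat_lit 190))) (XT.nd (nat_lit 78) (nat_lit 456) (nat_lit 0) (XT.lf (nat_lit 0) (nat_lit 3052721854) (nat_lit 456) (nat_lit 17272292461) (nat_lit 76) (nat_lit 76650513721) (nat_lit 212) (nat_lit 5) (nat_lit 218) (nat_lit 5) (nat_lit 213) (nat_lit 5) (nat_lit 525) (nat_lit 486) (nat_lit 189)) (XT.lf (nat_lit 0) (nat_lit 19934847803) (nat_lit 532) (nat_lit 59118798202) (nat_lit 76) (nat_lit 19628608038) (nat_lit 206) (nat_lit 5) (nat_lit 213) (nat_lit 5) (nat_lit 207) (nat_lit 5) (nat_lit 526) (nat_lit 486) (nat_lit 188)))) (XT.nd (nat_lit 156) (nat_lit 380) (nat_lit 0) (XT.nd (nat_lit 78) (nat_lit 380) (nat_lit 0) (XT.lf (nat_lit 0) (nat_lit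 37700441247) (nat_lit 532) (nat_lit 2180070396) (nat_lit 76) (nat_lit 60548360101) (nat_lit 206) (nat_lit 5) (nat_lit 213) (nat_lit 5) (nat_lit 207) (nat_lit 5) (nat_lit 527) (nat_lit 486) (nat_lit 187)) (XT.lf (nat_lit 0) (nat_lit 56562204694) (nat_lit 456) (nat_lit 44631141664) (nat_lit 76) (nat_lit 1017645576) (nat_lit 201) (nat_lit 5) (nat_lit 207) (nat_lit 5) (nat_lit 202) (nat_lit 5) (nat_lit 528) (nat_lit 486) (nat_lit 186))) (XT.nd (nat_lit 78) (nat_lit 0) (nat_lit 0) (XT.lf (nat_lit 0) (nat_lit 15029050466) (nat_lit 380) (nat_lit 61521966639) (nat_lit 456) (nat_lit 27478722767) (nat_lit 196) (nat_lit 5) (nat_lit 201) (nat_lit 5) (nat_lit 202) (nat_lit 5) (nat_lit 529) (nat_lit 486) (nat_lit 185)) (XT.lf (nat_lit 0) (nat_lit 77393459306) (nat_lit 380) (nat_lit 20196366158) (nat_lit 456) (nat_lit 8299714859) (nat_lit 196) (nat_lit 5) (nat_lit 201) (nat_lit 5) (nat_lit 202) (nat_lit 5) (nat_lit 530) (nat_lit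 486) (nat_lit 184))))) (XT.nd (nat_lit 312) (nat_lit 988) (nat_lit 0) (XT.nd (nat_lit 156) (nat_lit 684) (nat_lit 0) (XT.nd (nat_lit 78) (nat_lit 0) (nat_lit 0) (XT.lf (nat_lit 0) (nat_lit 11780699379) (nat_lit 380) (nat_lit 73627276139) (nat_lit 76) (nat_lit 22377369279) (nat_lit 191) (nat_lit 5) (nat_lit 196) (nat_lit 5) (nat_lit 192) (nat_lit 5) (nat_lit 531) (nat_lit 486) (nat_lit 183)) (XT.lf (nat_lit 0) (nat_lit 32786933460) (nat_lit 380) (nat_lit 10738875659) (nat_lit 76) (nat_lit 66195042340) (nat_lit 191) (nat_lit 5) (nat_lit 196) (nat_lit 5) (nat_lit 192) (nat_lit 5) (nat_lit 532) (nat_lit 486) (nat_lit 182))) (XT.nd (nat_lit 78) (nat_lit 304) (nat_lit 0) (XT.lf (nat_lit 0) (nat_lit 54954304395) (nat_lit 456) (nat_lit 56588936159) (nat_lit 76) (nat_lit 155254294) (nat_lit 186) (nat_lit 5) (nat_lit 192) (nat_lit 5) (nat_lit 187) (nat_lit 5) (nat_lit 533) (nat_lit 486) (nat_lit 181)) (XT.lf (nat_lit 0)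 (nat_lit 9167771170) (nat_lit 304) (nat_lit 69247185256) (nat_lit 380) (nat_lit 35301663331) (nat_lit 182) (nat_lit 5) (nat_lit 186) (nat_lit 5) (nat_lit 187) (nat_lit 5) (nat_lit 534) (nat_lit 486) (nat_lit 180)))) (XT.nd (nat_lit 58734) (nat_lit 0) (nat_lit 10640) (XT.nd (nat_lit 312) (nat_lit 988) (nat_lit 0) (XT.lf (nat_lit 0) (nat_lit 78056731066) (nat_lit 304) (nat_lit 25093809255) (nat_lit 380) (nat_lit 12627614743) (nat_lit 182) (nat_lit 5) (nat_lit 186) (nat_lit 5) (nat_lit 187) (nat_lit 5) (nat_lit 535) (nat_lit 486) (nat_lit 179)) (XT.lf (nat_lit 0) (nat_lit 5991900792) (nat_lit 304) (nat_lit 83206437612) (nat_lit 380) (nat_lit 35265300556) (nat_lit 169) (nat_lit 5) (nat_lit 173) (nat_lit 5) (nat_lit 174) (nat_lit 5) (nat_lit 539) (nat_lit 486) (nat_lit 175))) (XT.nd (nat_lit 78) (nat_lit 0) (nat_lit 0) (XT.lf (nat_lit 0) (nat_lit 14148142919) (nat_lit 1292) (nat_lit 6215834911) (nat_lit 1292) (nat_lit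 6215834911) (nat_lit 309) (nat_lit 3) (nat_lit 326) (nat_lit 3) (nat_lit 326) (nat_lit 5) (nat_lit 487) (nat_lit 487) (nat_lit 226)) (XT.lf (nat_lit 76) (nat_lit 14211835604) (nat_lit 0) (nat_lit 14668545073) (nat_lit 1292) (nat_lit 25071847539) (nat_lit 310) (nat_lit 5) (nat_lit 309) (nat_lit 3) (nat_lit 326) (nat_lit 5) (nat_lit 488) (nat_lit 487) (nat_lit 225))))))) (XT.nd (nat_lit 1170) (nat_lit 4636) (nat_lit 0) (XT.nd (nat_lit 546) (nat_lit 912) (nat_lit 0) (XT.nd (nat_lit 234) (nat_lit 0) (nat_lit 76) (XT.nd (nat_lit 78) (nat_lit 0) (nat_lit 0) (XT.lf (nat_lit 0) (nat_lit 29724888225) (nat_lit 1216) (nat_lit 12974117226) (nat_lit 1292) (nat_lit 12062316970) (nat_lit 310) (nat_lit 5) (nat_lit 326) (nat_lit 5) (nat_lit 327) (nat_lit 5) (nat_lit 489) (nat_lit 487) (nat_lit 224)) (XT.nd (nat_lit 78) (nat_lit 0) (nat_lit 76) (XT.lf (nat_lit 76) (nat_lit 14736996216) (nat_lit 0) (nat_lit 16143755633) (nat_lit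 1292) (nat_lit 24705357058) (nat_lit 311) (nat_lit 5) (nat_lit 310) (nat_lit 5) (nat_lit 327) (nat_lit 5) (nat_lit 490) (nat_lit 487) (nat_lit 223)) (XT.lf (nat_lit 0) (nat_lit 32310492327) (nat_lit 1216) (nat_lit 12995858981) (nat_lit 1292) (nat_lit 11122111729) (nat_lit 311) (nat_lit 5) (nat_lit 327) (nat_lit 5) (nat_lit 328) (nat_lit 5) (nat_lit 491) (nat_lit 487) (nat_lit 222)))) (XT.nd (nat_lit 156) (nat_lit 0) (nat_lit 76) (XT.nd (nat_lit 78) (nat_lit 0) (nat_lit 76) (XT.lf (nat_lit 76) (nat_lit 15841785051) (nat_lit 0) (nat_lit 18252635820) (nat_lit 1292) (nat_lit 23192328120) (nat_lit 312) (nat_lit 5) (nat_lit 311) (nat_lit 5) (nat_lit 328) (nat_lit 5) (nat_lit 492) (nat_lit 487) (nat_lit 221)) (XT.lf (nat_lit 0) (nat_lit 36156000382) (nat_lit 1216) (nat_lit 12450108914) (nat_lit 1292) (nat_lit 9557950309) (nat_lit 312) (nat_lit 5) (nat_lit 328) (nat_lit 5) (nat_lit 329) (nat_lit 5) (nat_lit 493) (nat_lit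 487) (nat_lit 220))) (XT.nd (nat_lit 78) (nat_lit 0) (nat_lit 76) (XT.lf (nat_lit 76) (nat_lit 17576344816) (nat_lit 0) (nat_lit 21051977580) (nat_lit 1292) (nat_lit 20428900359) (nat_lit 313) (nat_lit 5) (nat_lit 312) (nat_lit 5) (nat_lit 329) (nat_lit 5) (nat_lit 494) (nat_lit 487) (nat_lit 219)) (XT.lf (nat_lit 0) (nat_lit 41371470968) (nat_lit 1216) (nat_lit 11286821443) (nat_lit 1292) (nat_lit 7312988753) (nat_lit 313) (nat_lit 5) (nat_lit 329) (nat_lit 5) (nat_lit 330) (nat_lit 5) (nat_lit 495) (nat_lit 487) (nat_lit 218))))) (XT.nd (nat_lit 312) (nat_lit 1140) (nat_lit 0) (XT.nd (nat_lit 156) (nat_lit 0) (nat_lit 76) (XT.nd (nat_lit 78) (nat_lit 0) (nat_lit 76) (XT.lf (nat_lit 76) (nat_lit 19994270878) (nat_lit 0) (nat_lit 24602539527) (nat_lit 1292) (nat_lit 16303954093) (nat_lit 314) (nat_lit 5) (nat_lit 313) (nat_lit 5) (nat_lit 330) (nat_lit 5) (nat_lit 496) (nat_lit 487) (nat_lit 217)) (XT.lf (nat_lit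 0) (nat_lit 48074580791) (nat_lit 1216) (nat_lit 9452491274) (nat_lit 1292) (nat_lit 4326390212) (nat_lit 314) (nat_lit 5) (nat_lit 330) (nat_lit 5) (nat_lit 331) (nat_lit 5) (nat_lit 497) (nat_lit 487) (nat_lit 216))) (XT.nd (nat_lit 78) (nat_lit 0) (nat_lit 76) (XT.lf (nat_lit 76) (nat_lit 23152822630) (nat_lit 0) (nat_lit 28969313613) (nat_lit 1292) (nat_lit 10698641250) (nat_lit 315) (nat_lit 5) (nat_lit 314) (nat_lit 5) (nat_lit 331) (nat_lit 5) (nat_lit 498) (nat_lit 487) (nat_lit 215)) (XT.lf (nat_lit 0) (nat_lit 56391114789) (nat_lit 1216) (nat_lit 6889941336) (nat_lit 1292) (nat_lit 533056210) (nat_lit 315) (nat_lit 5) (nat_lit 331) (nat_lit 5) (nat_lit 332) (nat_lit 5) (nat_lit 499) (nat_lit 487) (nat_lit 214)))) (XT.nd (nat_lit 156) (nat_lit 0) (nat_lit 76) (XT.nd (nat_lit 78) (nat_lit 1292) (nat_lit 0) (XT.lf (nat_lit 76) (nat_lit 27113147247) (nat_lit 0) (nat_lit 34221808699) (nat_lit 1292) (nat_lit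 3485887539) (nat_lit 316) (nat_lit 5) (nat_lit 315) (nat_lit 5) (nat_lit 332) (nat_lit 5) (nat_lit 500) (nat_lit 487) (nat_lit 213)) (XT.lf (nat_lit 0) (nat_lit 627837806) (nat_lit 1292) (nat_lit 3584809052) (nat_lit 1368) (nat_lit 61642877228) (nat_lit 298) (nat_lit 5) (nat_lit 315) (nat_lit 5) (nat_lit 316) (nat_lit 5) (nat_lit 501) (nat_lit 487) (nat_lit 212))) (XT.nd (nat_lit 78) (nat_lit 0) (nat_lit 0) (XT.lf (nat_lit 0) (nat_lit 5363393844) (nat_lit 1292) (nat_lit 35016798555) (nat_lit 1368) (nat_lit 26522962895) (nat_lit 299) (nat_lit 5) (nat_lit 316) (nat_lit 5) (nat_lit 317) (nat_lit 5) (nat_lit 502) (nat_lit 487) (nat_lit 211)) (XT.lf (nat_lit 76) (nat_lit 480804452) (nat_lit 0) (nat_lit 9842482998) (nat_lit 1368) (nat_lit 57656459916) (nat_lit 300) (nat_lit 5) (nat_lit 299) (nat_lit 5) (nat_lit 317) (nat_lit 5) (nat_lit 503) (nat_lit 487) (nat_lit 210)))))) (XT.nd (nat_lit 624) (nat_lit 2204) (nat_lit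 0) (XT.nd (nat_lit 312) (nat_lit 1140) (nat_lit 0) (XT.nd (nat_lit 156) (nat_lit 608) (nat_lit 0) (XT.nd (nat_lit 78) (nat_lit 836) (nat_lit 0) (XT.lf (nat_lit 0) (nat_lit 15996217097) (nat_lit 1292) (nat_lit 31528663199) (nat_lit 76) (nat_lit 21546829778) (nat_lit 300) (nat_lit 5) (nat_lit 317) (nat_lit 5) (nat_lit 301) (nat_lit 5) (nat_lit 504) (nat_lit 487) (nat_lit 209)) (XT.lf (nat_lit 0) (nat_lit 5530676613) (nat_lit 836) (nat_lit 16458685833) (nat_lit 912) (nat_lit 48202568433) (nat_lit 289) (nat_lit 5) (nat_lit 300) (nat_lit 5) (nat_lit 301) (nat_lit 5) (nat_lit 505) (nat_lit 487) (nat_lit 208))) (XT.nd (nat_lit 78) (nat_lit 608) (nat_lit 0) (XT.lf (nat_lit 0) (nat_lit 28632633143) (nat_lit 912) (nat_lit 27141165179) (nat_lit 76) (nat_lit 15557850106) (nat_lit 289) (nat_lit 5) (nat_lit 301) (nat_lit 5) (nat_lit 290) (nat_lit 5) (nat_lit 506) (nat_lit 487) (nat_lit 207)) (XT.lf (nat_lit 0) (nat_lit 11566759873)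 (nat_lit 608) (nat_lit 24182028793) (nat_lit 684) (nat_lit 36748561282) (nat_lit 281) (nat_lit 5) (nat_lit 289) (nat_lit 5) (nat_lit 290) (nat_lit 5) (nat_lit 507) (nat_lit 487) (nat_lit 206)))) (XT.nd (nat_lit 156) (nat_lit 532) (nat_lit 0) (XT.nd (nat_lit 78) (nat_lit 608) (nat_lit 0) (XT.lf (nat_lit 0) (nat_lit 43435006598) (nat_lit 684) (nat_lit 21781091542) (nat_lit 76) (nat_lit 8471227089) (nat_lit 281) (nat_lit 5) (nat_lit 290) (nat_lit 5) (nat_lit 282) (nat_lit 5) (nat_lit 508) (nat_lit 487) (nat_lit 205)) (XT.lf (nat_lit 0) (nat_lit 18667215753) (nat_lit 608) (nat_lit 33102932194) (nat_lit 684) (nat_lit 23130301759) (nat_lit 273) (nat_lit 5) (nat_lit 281) (nat_lit 5) (nat_lit 282) (nat_lit 5) (nat_lit 509) (nat_lit 487) (nat_lit 204))) (XT.nd (nat_lit 78) (nat_lit 532) (nat_lit 0) (XT.lf (nat_lit 0) (nat_lit 60576694823) (nat_lit 684) (nat_lit 15370355877) (nat_lit 76) (nat_lit 196276723) (nat_lit 273)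 (nat_lit 5) (nat_lit 282) (nat_lit 5) (nat_lit 274) (nat_lit 5) (nat_lit 510) (nat_lit 487) (nat_lit 203)) (XT.lf (nat_lit 0) (nat_lit 26915362255) (nat_lit 532) (nat_lit 43318050483) (nat_lit 608) (nat_lit 7172499536) (nat_lit 266) (nat_lit 5) (nat_lit 273) (nat_lit 5) (nat_lit 274) (nat_lit 5) (nat_lit 511) (nat_lit 487) (nat_lit 202))))) (XT.nd (nat_lit 312) (nat_lit 988) (nat_lit 0) (XT.nd (nat_lit 156) (nat_lit 532) (nat_lit 0) (XT.nd (nat_lit 78) (nat_lit 608) (nat_lit 0) (XT.lf (nat_lit 0) (nat_lit 1600953044) (nat_lit 608) (nat_lit 7933204831) (nat_lit 76) (nat_lit 69167104483) (nat_lit 265) (nat_lit 5) (nat_lit 273) (nat_lit 5) (nat_lit 266) (nat_lit 5) (nat_lit 512) (nat_lit 487) (nat_lit 201)) (XT.lf (nat_lit 0) (nat_lit 11091259193) (nat_lit 684) (nat_lit 43727425748) (nat_lit 76) (nat_lit 25196723293) (nat_lit 257) (nat_lit 5) (nat_lit 266) (nat_lit 5) (nat_lit 258) (nat_lit 5) (nat_lit 513) (nat_lit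 487) (nat_lit 200))) (XT.nd (nat_lit 78) (nat_lit 0) (nat_lit 0) (XT.lf (nat_lit 0) (nat_lit 546823563) (nat_lit 532) (nat_lit 20499532448) (nat_lit 608) (nat_lit 60317220067) (nat_lit 250) (nat_lit 5) (nat_lit 257) (nat_lit 5) (nat_lit 258) (nat_lit 5) (nat_lit 514) (nat_lit 487) (nat_lit 199)) (XT.lf (nat_lit 0) (nat_lit 31888311568) (nat_lit 608) (nat_lit 35840901836) (nat_lit 76) (nat_lit 15005329414) (nat_lit 250) (nat_lit 5) (nat_lit 258) (nat_lit 5) (nat_lit 251) (nat_lit 5) (nat_lit 515) (nat_lit 487) (nat_lit 198)))) (XT.nd (nat_lit 156) (nat_lit 456) (nat_lit 0) (XT.nd (nat_lit 78) (nat_lit 0) (nat_lit 0) (XT.lf (nat_lit 0) (nat_lit 10485362988) (nat_lit 532) (nat_lit 32873466931) (nat_lit 608) (nat_lit 40778709555) (nat_lit 243) (nat_lit 5) (nat_lit 250) (nat_lit 5) (nat_lit 251) (nat_lit 5) (nat_lit 516) (nat_lit 487) (nat_lit 197)) (XT.lf (nat_lit 0) (nat_lit 55567631214) (nat_lit 608) (nat_lit 26668850000)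 (nat_lit 76) (nat_lit 3334319827) (nat_lit 243) (nat_lit 5) (nat_lit 251) (nat_lit 5) (nat_lit 244) (nat_lit 5) (nat_lit 517) (nat_lit 487) (nat_lit 196))) (XT.nd (nat_lit 78) (nat_lit 0) (nat_lit 0) (XT.lf (nat_lit 0) (nat_lit 21823862611) (nat_lit 456) (nat_lit 46853665736) (nat_lit 532) (nat_lit 18353487186) (nat_lit 237) (nat_lit 5) (nat_lit 243) (nat_lit 5) (nat_lit 244) (nat_lit 5) (nat_lit 518) (nat_lit 487) (nat_lit 195)) (XT.lf (nat_lit 0) (nat_lit 72317550778) (nat_lit 456) (nat_lit 10132050195) (nat_lit 532) (nat_lit 6077369163) (nat_lit 237) (nat_lit 5) (nat_lit 243) (nat_lit 5) (nat_lit 244) (nat_lit 5) (nat_lit 519) (nat_lit 487) (nat_lit 194))))))))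
noncomputable def xc243 : XT := (XT.nd (nat_lit 61152) (nat_lit 0) (nat_lit 1368) (XT.nd (nat_lit 1482) (nat_lit 988) (nat_lit 0) (XT.nd (nat_lit 546) (nat_lit 1976) (nat_lit 0) (XT.nd (nat_lit 234) (nat_lit 912) (nat_lit 0) (XT.nd (nat_lit 78) (nat_lit 456) (nat_lit 0) (XT.lf (nat_lit 0) (nat_lit 7043839661) (nat_lit 532) (nat_lit 55450818277) (nat_lit 76) (nat_lit 27553103069) (nat_lit 230) (nat_lit 5) (nat_lit 237) (nat_lit 5) (nat_lit 231) (nat_lit 5) (nat_lit 520) (nat_lit 487) (nat_lit 193)) (XT.nd (nat_lit 78) (nat_lit 456) (nat_lit 0) (XT.lf (nat_lit 0) (nat_lit 20701747512) (nat_lit 532) (nat_lit 4512094102) (nat_lit 76) (nat_lit 66390572502) (nat_lit 230) (nat_lit 5) (nat_lit 237) (nat_lit 5) (nat_lit 231) (nat_lit 5) (nat_lit 521) (nat_lit 487) (nat_lit 192)) (XT.lf (nat_lit 0) (nat_lit 35370535624) (nat_lit 532) (nat_lit 44416375729) (nat_lit 76) (nat_lit 13402821206) (nat_lit 224) (nat_lit 5) (nat_lit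 231) (nat_lit 5) (nat_lit 225) (nat_lit 5) (nat_lit 522) (nat_lit 487) (nat_lit 191)))) (XT.nd (nat_lit 156) (nat_lit 456) (nat_lit 0) (XT.nd (nat_lit 78) (nat_lit 0) (nat_lit 0) (XT.lf (nat_lit 0) (nat_lit 8850754218) (nat_lit 456) (nat_lit 42008977167) (nat_lit 532) (nat_lit 43951468877) (nat_lit 218) (nat_lit 5) (nat_lit 224) (nat_lit 5) (nat_lit 225) (nat_lit 5) (nat_lit 523) (nat_lit 487) (nat_lit 190)) (XT.lf (nat_lit 0) (nat_lit 64625911066) (nat_lit 456) (nat_lit 2635825768) (nat_lit 532) (nat_lit 29206131174) (nat_lit 218) (nat_lit 5) (nat_lit 224) (nat_lit 5) (nat_lit 225) (nat_lit 5) (nat_lit 524) (nat_lit 487) (nat_lit 189))) (XT.nd (nat_lit 78) (nat_lit 76) (nat_lit 0) (XT.lf (nat_lit 0) (nat_lit 24003510221) (nat_lit 380) (nat_lit 60747150490) (nat_lit 456) (nat_lit 13405729354) (nat_lit 213) (nat_lit 5) (nat_lit 218) (nat_lit 5) (nat_lit 219) (nat_lit 5) (nat_lit 525) (nat_lit 487) (nat_lit 188))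 (XT.lf (nat_lit 0) (nat_lit 3163156876) (nat_lit 456) (nat_lit 17766185954) (nat_lit 76) (nat_lit 78954884190) (nat_lit 212) (nat_lit 5) (nat_lit 218) (nat_lit 5) (nat_lit 213) (nat_lit 5) (nat_lit 526) (nat_lit 487) (nat_lit 187))))) (XT.nd (nat_lit 312) (nat_lit 760) (nat_lit 0) (XT.nd (nat_lit 156) (nat_lit 760) (nat_lit 0) (XT.nd (nat_lit 78) (nat_lit 0) (nat_lit 0) (XT.lf (nat_lit 0) (nat_lit 20551481426) (nat_lit 532) (nat_lit 60867820470) (nat_lit 76) (nat_lit 20222860903) (nat_lit 206) (nat_lit 5) (nat_lit 213) (nat_lit 5) (nat_lit 207) (nat_lit 5) (nat_lit 527) (nat_lit 487) (nat_lit 186)) (XT.lf (nat_lit 0) (nat_lit 38849501270) (nat_lit 532) (nat_lit 2221645637) (nat_lit 76) (nat_lit 62370048403) (nat_lit 206) (nat_lit 5) (nat_lit 213) (nat_lit 5) (nat_lit 207) (nat_lit 5) (nat_lit 528) (nat_lit 487) (nat_lit 185))) (XT.nd (nat_lit 78) (nat_lit 380) (nat_lit 0) (XT.lf (nat_lit 0) (nat_lit 58276874968)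 (nat_lit 456) (nat_lit 45946005240) (nat_lit 76) (nat_lit 1053906211) (nat_lit 201) (nat_lit 5) (nat_lit 207) (nat_lit 5) (nat_lit 202) (nat_lit 5) (nat_lit 529) (nat_lit 487) (nat_lit 184)) (XT.lf (nat_lit 0) (nat_lit 15503756667) (nat_lit 380) (nat_lit 63361305631) (nat_lit 456) (nat_lit 28285043214) (nat_lit 196) (nat_lit 5) (nat_lit 201) (nat_lit 5) (nat_lit 202) (nat_lit 5) (nat_lit 530) (nat_lit 487) (nat_lit 183)))) (XT.nd (nat_lit 156) (nat_lit 380) (nat_lit 0) (XT.nd (nat_lit 78) (nat_lit 380) (nat_lit 0) (XT.lf (nat_lit 0) (nat_lit 79738403557) (nat_lit 380) (nat_lit 20796121213) (nat_lit 456) (nat_lit 8531190542) (nat_lit 196) (nat_lit 5) (nat_lit 201) (nat_lit 5) (nat_lit 202) (nat_lit 5) (nat_lit 531) (nat_lit 487) (nat_lit 182)) (XT.lf (nat_lit 0) (nat_lit 12151078734) (nat_lit 380) (nat_lit 75812394488) (nat_lit 76) (nat_lit 23054922146) (nat_lit 191) (nat_lit 5) (nat_lit 196) (nat_lit 5) (nat_lit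 192) (nat_lit 5) (nat_lit 532) (nat_lit 487) (nat_lit 181))) (XT.nd (nat_lit 78) (nat_lit 380) (nat_lit 0) (XT.lf (nat_lit 0) (nat_lit 33787005904) (nat_lit 380) (nat_lit 11038032283) (nat_lit 76) (nat_lit 68186943892) (nat_lit 191) (nat_lit 5) (nat_lit 196) (nat_lit 5) (nat_lit 192) (nat_lit 5) (nat_lit 533) (nat_lit 487) (nat_lit 180)) (XT.lf (nat_lit 0) (nat_lit 56619200687) (nat_lit 456) (nat_lit 58263396355) (nat_lit 76) (nat_lit 166363674) (nat_lit 186) (nat_lit 5) (nat_lit 192) (nat_lit 5) (nat_lit 187) (nat_lit 5) (nat_lit 534) (nat_lit 487) (nat_lit 179)))))) (XT.nd (nat_lit 59046) (nat_lit 0) (nat_lit 9500) (XT.nd (nat_lit 58734) (nat_lit 0) (nat_lit 10412) (XT.nd (nat_lit 58578) (nat_lit 0) (nat_lit 10336) (XT.nd (nat_lit 58500) (nat_lit 0) (nat_lit 10336) (XT.lf (nat_lit 0) (nat_lit 57298750292) (nat_lit 304) (nat_lit 6340740942) (nat_lit 380) (nat_lit 62249620256) (nat_lit 173) (nat_lit 5) (nat_lit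 177) (nat_lit 5) (nat_lit 178) (nat_lit 5) (nat_lit 539) (nat_lit 487) (nat_lit 174)) (XT.lf (nat_lit 0) (nat_lit 14595403448) (nat_lit 1292) (nat_lit 6390558538) (nat_lit 1292) (nat_lit 6390558538) (nat_lit 309) (nat_lit 3) (nat_lit 326) (nat_lit 3) (nat_lit 326) (nat_lit 5) (nat_lit 488) (nat_lit 488) (nat_lit 224))) (XT.nd (nat_lit 78) (nat_lit 0) (nat_lit 76) (XT.lf (nat_lit 76) (nat_lit 14661463092) (nat_lit 0) (nat_lit 15129856097) (nat_lit 1292) (nat_lit 25778135964) (nat_lit 310) (nat_lit 5) (nat_lit 309) (nat_lit 3) (nat_lit 326) (nat_lit 5) (nat_lit 489) (nat_lit 488) (nat_lit 223)) (XT.lf (nat_lit 0) (nat_lit 30659666695) (nat_lit 1216) (nat_lit 13339246915) (nat_lit 1292) (nat_lit 12403953551) (nat_lit 310) (nat_lit 5) (nat_lit 326) (nat_lit 5) (nat_lit 327) (nat_lit 5) (nat_lit 490) (nat_lit 488) (nat_lit 222)))) (XT.nd (nat_lit 156) (nat_lit 0) (nat_lit 76) (XT.nd (nat_lit 78) (nat_lit 0) (nat_lit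 76) (XT.lf (nat_lit 76) (nat_lit 15202963716) (nat_lit 0) (nat_lit 16646218491) (nat_lit 1292) (nat_lit 25403245870) (nat_lit 311) (nat_lit 5) (nat_lit 310) (nat_lit 5) (nat_lit 327) (nat_lit 5) (nat_lit 491) (nat_lit 488) (nat_lit 221)) (XT.lf (nat_lit 0) (nat_lit 33320421983) (nat_lit 1216) (nat_lit 13361175351) (nat_lit 1292) (nat_lit 11438497397) (nat_lit 311) (nat_lit 5) (nat_lit 327) (nat_lit 5) (nat_lit 328) (nat_lit 5) (nat_lit 492) (nat_lit 488) (nat_lit 220))) (XT.nd (nat_lit 78) (nat_lit 0) (nat_lit 76) (XT.lf (nat_lit 76) (nat_lit 16341357223) (nat_lit 0) (nat_lit 18815561968) (nat_lit 1292) (nat_lit 23847238659) (nat_lit 312) (nat_lit 5) (nat_lit 311) (nat_lit 5) (nat_lit 328) (nat_lit 5) (nat_lit 493) (nat_lit 488) (nat_lit 219)) (XT.lf (nat_lit 0) (nat_lit 37279047547) (nat_lit 1216) (nat_lit 12798699796) (nat_lit 1292) (nat_lit 9830079501) (nat_lit 312) (nat_lit 5) (nat_lit 328) (nat_lit 5) (nat_lit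 329) (nat_lit 5) (nat_lit 494) (nat_lit 488) (nat_lit 218))))) (XT.nd (nat_lit 312) (nat_lit 1064) (nat_lit 0) (XT.nd (nat_lit 156) (nat_lit 0) (nat_lit 76) (XT.nd (nat_lit 78) (nat_lit 0) (nat_lit 76) (XT.lf (nat_lit 76) (nat_lit 18128303308) (nat_lit 0) (nat_lit 21696355550) (nat_lit 1292) (nat_lit 21003152546) (nat_lit 313) (nat_lit 5) (nat_lit 312) (nat_lit 5) (nat_lit 329) (nat_lit 5) (nat_lit 495) (nat_lit 488) (nat_lit 217)) (XT.lf (nat_lit 0) (nat_lit 42648890406) (nat_lit 1216) (nat_lit 11600261617) (nat_lit 1292) (nat_lit 7520175984) (nat_lit 313) (nat_lit 5) (nat_lit 329) (nat_lit 5) (nat_lit 330) (nat_lit 5) (nat_lit 496) (nat_lit 488) (nat_lit 216))) (XT.nd (nat_lit 78) (nat_lit 0) (nat_lit 76) (XT.lf (nat_lit 76) (nat_lit 20619016763) (nat_lit 0) (nat_lit 25351156226) (nat_lit 1292) (nat_lit 16756547461) (nat_lit 314) (nat_lit 5) (nat_lit 313) (nat_lit 5) (nat_lit 330) (nat_lit 5) (nat_lit 497) (nat_lit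 488) (nat_lit 215)) (XT.lf (nat_lit 0) (nat_lit 49551145350) (nat_lit 1216) (nat_lit 9710739737) (nat_lit 1292) (nat_lit 4446148103) (nat_lit 314) (nat_lit 5) (nat_lit 330) (nat_lit 5) (nat_lit 331) (nat_lit 5) (nat_lit 498) (nat_lit 488) (nat_lit 214)))) (XT.nd (nat_lit 156) (nat_lit 1216) (nat_lit 0) (XT.nd (nat_lit 78) (nat_lit 0) (nat_lit 76) (XT.lf (nat_lit 76) (nat_lit 23872485287) (nat_lit 0) (nat_lit 29846883424) (nat_lit 1292) (nat_lit 10985022006) (nat_lit 315) (nat_lit 5) (nat_lit 314) (nat_lit 5) (nat_lit 331) (nat_lit 5) (nat_lit 499) (nat_lit 488) (nat_lit 213)) (XT.lf (nat_lit 0) (nat_lit 58115359656) (nat_lit 1216) (nat_lit 7071232107) (nat_lit 1292) (nat_lit 540965639) (nat_lit 315) (nat_lit 5) (nat_lit 331) (nat_lit 5) (nat_lit 332) (nat_lit 5) (nat_lit 500) (nat_lit 488) (nat_lit 212))) (XT.nd (nat_lit 78) (nat_lit 1292) (nat_lit 0) (XT.lf (nat_lit 76) (nat_lit 27951700041) (nat_lit 0) (nat_lit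 35255110909) (nat_lit 1292) (nat_lit 3557700775) (nat_lit 316) (nat_lit 5) (nat_lit 315) (nat_lit 5) (nat_lit 332) (nat_lit 5) (nat_lit 501) (nat_lit 488) (nat_lit 211)) (XT.lf (nat_lit 0) (nat_lit 677861346) (nat_lit 1292) (nat_lit 3667304296) (nat_lit 1368) (nat_lit 63485085805) (nat_lit 298) (nat_lit 5) (nat_lit 315) (nat_lit 5) (nat_lit 316) (nat_lit 5) (nat_lit 502) (nat_lit 488) (nat_lit 210))))))) (XT.nd (nat_lit 1248) (nat_lit 3952) (nat_lit 0) (XT.nd (nat_lit 624) (nat_lit 2280) (nat_lit 0) (XT.nd (nat_lit 312) (nat_lit 1216) (nat_lit 0) (XT.nd (nat_lit 156) (nat_lit 760) (nat_lit 0) (XT.nd (nat_lit 78) (nat_lit 0) (nat_lit 0) (XT.lf (nat_lit 0) (nat_lit 5554759156) (nat_lit 1292) (nat_lit 36041525944) (nat_lit 1368) (nat_lit 27313048319) (nat_lit 299) (nat_lit 5) (nat_lit 316) (nat_lit 5) (nat_lit 317) (nat_lit 5) (nat_lit 503) (nat_lit 488) (nat_lit 209)) (XT.lf (nat_lit 76) (nat_lit 520752442) (nat_lit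 0) (nat_lit 10142055191) (nat_lit 1368) (nat_lit 59355434952) (nat_lit 300) (nat_lit 5) (nat_lit 299) (nat_lit 5) (nat_lit 317) (nat_lit 5) (nat_lit 504) (nat_lit 488) (nat_lit 208))) (XT.nd (nat_lit 78) (nat_lit 836) (nat_lit 0) (XT.lf (nat_lit 0) (nat_lit 16505016472) (nat_lit 1292) (nat_lit 32448831474) (nat_lit 76) (nat_lit 22189143564) (nat_lit 300) (nat_lit 5) (nat_lit 317) (nat_lit 5) (nat_lit 301) (nat_lit 5) (nat_lit 505) (nat_lit 488) (nat_lit 207)) (XT.lf (nat_lit 0) (nat_lit 5722036654) (nat_lit 836) (nat_lit 16955321948) (nat_lit 912) (nat_lit 49619478338) (nat_lit 289) (nat_lit 5) (nat_lit 300) (nat_lit 5) (nat_lit 301) (nat_lit 5) (nat_lit 506) (nat_lit 488) (nat_lit 206)))) (XT.nd (nat_lit 156) (nat_lit 608) (nat_lit 0) (XT.nd (nat_lit 78) (nat_lit 608) (nat_lit 0) (XT.lf (nat_lit 0) (nat_lit 29519075866) (nat_lit 912) (nat_lit 27929847465) (nat_lit 76) (nat_lit 16021848300) (nat_lit 289) (nat_lit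 5) (nat_lit 301) (nat_lit 5) (nat_lit 290) (nat_lit 5) (nat_lit 507) (nat_lit 488) (nat_lit 205)) (XT.lf (nat_lit 0) (nat_lit 11939064822) (nat_lit 608) (nat_lit 24909094538) (nat_lit 684) (nat_lit 37823301606) (nat_lit 281) (nat_lit 5) (nat_lit 289) (nat_lit 5) (nat_lit 290) (nat_lit 5) (nat_lit 508) (nat_lit 488) (nat_lit 204))) (XT.nd (nat_lit 78) (nat_lit 608) (nat_lit 0) (XT.lf (nat_lit 0) (nat_lit 44764165153) (nat_lit 684) (nat_lit 22409158211) (nat_lit 76) (nat_lit 8723836169) (nat_lit 281) (nat_lit 5) (nat_lit 290) (nat_lit 5) (nat_lit 282) (nat_lit 5) (nat_lit 509) (nat_lit 488) (nat_lit 203)) (XT.lf (nat_lit 0) (nat_lit 19252349616) (nat_lit 608) (nat_lit 34096492132) (nat_lit 684) (nat_lit 23797851630) (nat_lit 273) (nat_lit 5) (nat_lit 281) (nat_lit 5) (nat_lit 282) (nat_lit 5) (nat_lit 510) (nat_lit 488) (nat_lit 202))))) (XT.nd (nat_lit 312) (nat_lit 1064) (nat_lit 0) (XT.nd (nat_lit 156) (nat_lit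 684) (nat_lit 0) (XT.nd (nat_lit 78) (nat_lit 532) (nat_lit 0) (XT.lf (nat_lit 0) (nat_lit 62418835305) (nat_lit 684) (nat_lit 15806328935) (nat_lit 76) (nat_lit 201715740) (nat_lit 273) (nat_lit 5) (nat_lit 282) (nat_lit 5) (nat_lit 274) (nat_lit 5) (nat_lit 511) (nat_lit 488) (nat_lit 201)) (XT.lf (nat_lit 0) (nat_lit 27747714293) (nat_lit 532) (nat_lit 44617056248) (nat_lit 608) (nat_lit 7362586422) (nat_lit 266) (nat_lit 5) (nat_lit 273) (nat_lit 5) (nat_lit 274) (nat_lit 5) (nat_lit 512) (nat_lit 488) (nat_lit 200))) (XT.nd (nat_lit 78) (nat_lit 608) (nat_lit 0) (XT.lf (nat_lit 0) (nat_lit 1672863714) (nat_lit 608) (nat_lit 8146557590) (nat_lit 76) (nat_lit 71242160563) (nat_lit 265) (nat_lit 5) (nat_lit 273) (nat_lit 5) (nat_lit 266) (nat_lit 5) (nat_lit 513) (nat_lit 488) (nat_lit 199)) (XT.lf (nat_lit 0) (nat_lit 11447427445) (nat_lit 684) (nat_lit 45014151688) (nat_lit 76) (nat_lit 25953586589) (nat_lit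 257) (nat_lit 5) (nat_lit 266) (nat_lit 5) (nat_lit 258) (nat_lit 5) (nat_lit 514) (nat_lit 488) (nat_lit 198)))) (XT.nd (nat_lit 156) (nat_lit 532) (nat_lit 0) (XT.nd (nat_lit 78) (nat_lit 0) (nat_lit 0) (XT.lf (nat_lit 0) (nat_lit 588079055) (nat_lit 532) (nat_lit 21112654552) (nat_lit 608) (nat_lit 62103058354) (nat_lit 250) (nat_lit 5) (nat_lit 257) (nat_lit 5) (nat_lit 258) (nat_lit 5) (nat_lit 515) (nat_lit 488) (nat_lit 197)) (XT.lf (nat_lit 0) (nat_lit 32867295704) (nat_lit 608) (nat_lit 36891348050) (nat_lit 76) (nat_lit 15457263567) (nat_lit 250) (nat_lit 5) (nat_lit 258) (nat_lit 5) (nat_lit 251) (nat_lit 5) (nat_lit 516) (nat_lit 488) (nat_lit 196))) (XT.nd (nat_lit 78) (nat_lit 0) (nat_lit 0) (XT.lf (nat_lit 0) (nat_lit 10824461770) (nat_lit 532) (nat_lit 33857053181) (nat_lit 608) (nat_lit 41979491415) (nat_lit 243) (nat_lit 5) (nat_lit 250) (nat_lit 5) (nat_lit 251) (nat_lit 5) (nat_lit 517) (nat_lit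 488) (nat_lit 195)) (XT.lf (nat_lit 0) (nat_lit 57255966265) (nat_lit 608) (nat_lit 27444476644) (nat_lit 76) (nat_lit 3436841340) (nat_lit 243) (nat_lit 5) (nat_lit 251) (nat_lit 5) (nat_lit 244) (nat_lit 5) (nat_lit 518) (nat_lit 488) (nat_lit 194)))))) (XT.nd (nat_lit 624) (nat_lit 1672) (nat_lit 0) (XT.nd (nat_lit 312) (nat_lit 1292) (nat_lit 0) (XT.nd (nat_lit 156) (nat_lit 532) (nat_lit 0) (XT.nd (nat_lit 78) (nat_lit 0) (nat_lit 0) (XT.lf (nat_lit 0) (nat_lit 22502777748) (nat_lit 456) (nat_lit 48255994616) (nat_lit 532) (nat_lit 18882544499) (nat_lit 237) (nat_lit 5) (nat_lit 243) (nat_lit 5) (nat_lit 244) (nat_lit 5) (nat_lit 519) (nat_lit 488) (nat_lit 193)) (XT.lf (nat_lit 0) (nat_lit 74510571727) (nat_lit 456) (nat_lit 10432826175) (nat_lit 532) (nat_lit 6238770527) (nat_lit 237) (nat_lit 5) (nat_lit 243) (nat_lit 5) (nat_lit 244) (nat_lit 5) (nat_lit 520) (nat_lit 488) (nat_lit 192))) (XT.nd (nat_lit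 78) (nat_lit 0) (nat_lit 0) (XT.lf (nat_lit 0) (nat_lit 7275330365) (nat_lit 532) (nat_lit 57090101245) (nat_lit 76) (nat_lit 28383155505) (nat_lit 230) (nat_lit 5) (nat_lit 237) (nat_lit 5) (nat_lit 231) (nat_lit 5) (nat_lit 521) (nat_lit 488) (nat_lit 191)) (XT.lf (nat_lit 0) (nat_lit 21342387815) (nat_lit 532) (nat_lit 4623921411) (nat_lit 76) (nat_lit 68385648264) (nat_lit 230) (nat_lit 5) (nat_lit 237) (nat_lit 5) (nat_lit 231) (nat_lit 5) (nat_lit 522) (nat_lit 488) (nat_lit 190)))) (XT.nd (nat_lit 156) (nat_lit 380) (nat_lit 0) (XT.nd (nat_lit 78) (nat_lit 456) (nat_lit 0) (XT.lf (nat_lit 0) (nat_lit 36450932129) (nat_lit 532) (nat_lit 45725022673) (nat_lit 76) (nat_lit 13808889948) (nat_lit 224) (nat_lit 5) (nat_lit 231) (nat_lit 5) (nat_lit 225) (nat_lit 5) (nat_lit 523) (nat_lit 488) (nat_lit 189)) (XT.lf (nat_lit 0) (nat_lit 9139887404) (nat_lit 456) (nat_lit 43264581751) (nat_lit 532) (nat_lit 45250497406)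 (nat_lit 218) (nat_lit 5) (nat_lit 224) (nat_lit 5) (nat_lit 225) (nat_lit 5) (nat_lit 524) (nat_lit 488) (nat_lit 188))) (XT.nd (nat_lit 78) (nat_lit 380) (nat_lit 0) (XT.lf (nat_lit 0) (nat_lit 66587611272) (nat_lit 456) (nat_lit 2710371677) (nat_lit 532) (nat_lit 30063367986) (nat_lit 218) (nat_lit 5) (nat_lit 224) (nat_lit 5) (nat_lit 225) (nat_lit 5) (nat_lit 525) (nat_lit 488) (nat_lit 187)) (XT.lf (nat_lit 0) (nat_lit 24746818251) (nat_lit 380) (nat_lit 62564485848) (nat_lit 456) (nat_lit 13789232705) (nat_lit 213) (nat_lit 5) (nat_lit 218) (nat_lit 5) (nat_lit 219) (nat_lit 5) (nat_lit 526) (nat_lit 488) (nat_lit 186))))) (XT.nd (nat_lit 312) (nat_lit 760) (nat_lit 0) (XT.nd (nat_lit 156) (nat_lit 380) (nat_lit 0) (XT.nd (nat_lit 78) (nat_lit 456) (nat_lit 0) (XT.lf (nat_lit 0) (nat_lit 3275822688) (nat_lit 456) (nat_lit 18276289753) (nat_lit 76) (nat_lit 81328107073) (nat_lit 212) (nat_lit 5) (nat_lit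 218) (nat_lit 5) (nat_lit 213) (nat_lit 5) (nat_lit 527) (nat_lit 488) (nat_lit 185)) (XT.lf (nat_lit 0) (nat_lit 21185547020) (nat_lit 532) (nat_lit 62670722199) (nat_lit 76) (nat_lit 20834631681) (nat_lit 206) (nat_lit 5) (nat_lit 213) (nat_lit 5) (nat_lit 207) (nat_lit 5) (nat_lit 528) (nat_lit 488) (nat_lit 184))) (XT.nd (nat_lit 78) (nat_lit 380) (nat_lit 0) (XT.lf (nat_lit 0) (nat_lit 40031997134) (nat_lit 532) (nat_lit 2265835894) (nat_lit 76) (nat_lit 64246086700) (nat_lit 206) (nat_lit 5) (nat_lit 213) (nat_lit 5) (nat_lit 207) (nat_lit 5) (nat_lit 529) (nat_lit 488) (nat_lit 183)) (XT.lf (nat_lit 0) (nat_lit 60041963319) (nat_lit 456) (nat_lit 47301696479) (nat_lit 76) (nat_lit 1090925667) (nat_lit 201) (nat_lit 5) (nat_lit 207) (nat_lit 5) (nat_lit 202) (nat_lit 5) (nat_lit 530) (nat_lit 488) (nat_lit 182)))) (XT.nd (nat_lit 156) (nat_lit 380) (nat_lit 0) (XT.nd (nat_lit 78) (nat_lit 0) (nat_lit 0) (XT.lf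 (nat_lit 0) (nat_lit 15991335845) (nat_lit 380) (nat_lit 65256187587) (nat_lit 456) (nat_lit 29116588915) (nat_lit 196) (nat_lit 5) (nat_lit 201) (nat_lit 5) (nat_lit 202) (nat_lit 5) (nat_lit 531) (nat_lit 488) (nat_lit 181)) (XT.lf (nat_lit 0) (nat_lit 82152367779) (nat_lit 380) (nat_lit 21414221147) (nat_lit 456) (nat_lit 8770615972) (nat_lit 196) (nat_lit 5) (nat_lit 201) (nat_lit 5) (nat_lit 202) (nat_lit 5) (nat_lit 532) (nat_lit 488) (nat_lit 180))) (XT.nd (nat_lit 78) (nat_lit 0) (nat_lit 0) (XT.lf (nat_lit 0) (nat_lit 12531595990) (nat_lit 380) (nat_lit 78064426860) (nat_lit 76) (nat_lit 23752443870) (nat_lit 191) (nat_lit 5) (nat_lit 196) (nat_lit 5) (nat_lit 192) (nat_lit 5) (nat_lit 533) (nat_lit 488) (nat_lit 179)) (XT.lf (nat_lit 0) (nat_lit 34816135395) (nat_lit 380) (nat_lit 11347484453) (nat_lit 76) (nat_lit 70238255178) (nat_lit 191) (nat_lit 5) (nat_lit 196) (nat_lit 5) (nat_lit 192) (nat_lit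 5) (nat_lit 534) (nat_lit 488) (nat_lit 178))))))))
noncomputable def xc244 : XT := (XT.nd (nat_lit 2418) (nat_lit 4636) (nat_lit 0) (XT.nd (nat_lit 1170) (nat_lit 4180) (nat_lit 0) (XT.nd (nat_lit 546) (nat_lit 836) (nat_lit 0) (XT.nd (nat_lit 234) (nat_lit 0) (nat_lit 76) (XT.nd (nat_lit 78) (nat_lit 0) (nat_lit 0) (XT.lf (nat_lit 0) (nat_lit 15054772048) (nat_lit 1292) (nat_lit 6571198454) (nat_lit 1292) (nat_lit 6571198454) (nat_lit 309) (nat_lit 3) (nat_lit 326) (nat_lit 3) (nat_lit 326) (nat_lit 5) (nat_lit 489) (nat_lit 489) (nat_lit 222)) (XT.nd (nat_lit 78) (nat_lit 0) (nat_lit 76) (XT.lf (nat_lit 76) (nat_lit 15123243472) (nat_lit 0) (nat_lit 15603786346) (nat_lit 1292) (nat_lit 26508245996) (nat_lit 310) (nat_lit 5) (nat_lit 309) (nat_lit 3) (nat_lit 326) (nat_lit 5) (nat_lit 490) (nat_lit 489) (nat_lit 221)) (XT.lf (nat_lit 0) (nat_lit 31620018316) (nat_lit 1216) (nat_lit 13716713579) (nat_lit 1292)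 (nat_lit 12757000681) (nat_lit 310) (nat_lit 5) (nat_lit 326) (nat_lit 5) (nat_lit 327) (nat_lit 5) (nat_lit 491) (nat_lit 489) (nat_lit 220)))) (XT.nd (nat_lit 156) (nat_lit 0) (nat_lit 76) (XT.nd (nat_lit 78) (nat_lit 0) (nat_lit 76) (XT.lf (nat_lit 76) (nat_lit 15681540717) (nat_lit 0) (nat_lit 17162713340) (nat_lit 1292) (nat_lit 26124555331) (nat_lit 311) (nat_lit 5) (nat_lit 310) (nat_lit 5) (nat_lit 327) (nat_lit 5) (nat_lit 492) (nat_lit 489) (nat_lit 219)) (XT.lf (nat_lit 0) (nat_lit 34358318068) (nat_lit 1216) (nat_lit 13738861022) (nat_lit 1292) (nat_lit 11765366446) (nat_lit 311) (nat_lit 5) (nat_lit 327) (nat_lit 5) (nat_lit 328) (nat_lit 5) (nat_lit 493) (nat_lit 489) (nat_lit 218))) (XT.nd (nat_lit 78) (nat_lit 0) (nat_lit 76) (XT.lf (nat_lit 76) (nat_lit 16854520572) (nat_lit 0) (nat_lit 19394494915) (nat_lit 1292) (nat_lit 24524142005) (nat_lit 312) (nat_lit 5) (nat_lit 311) (nat_lit 5) (nat_lit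 328) (nat_lit 5) (nat_lit 494) (nat_lit 489) (nat_lit 217)) (XT.lf (nat_lit 0) (nat_lit 38433583695) (nat_lit 1216) (nat_lit 13159178476) (nat_lit 1292) (nat_lit 10111211204) (nat_lit 312) (nat_lit 5) (nat_lit 328) (nat_lit 5) (nat_lit 329) (nat_lit 5) (nat_lit 495) (nat_lit 489) (nat_lit 216))))) (XT.nd (nat_lit 312) (nat_lit 1064) (nat_lit 0) (XT.nd (nat_lit 156) (nat_lit 0) (nat_lit 76) (XT.nd (nat_lit 78) (nat_lit 0) (nat_lit 76) (XT.lf (nat_lit 76) (nat_lit 18695404501) (nat_lit 0) (nat_lit 22359329015) (nat_lit 1292) (nat_lit 21596848947) (nat_lit 313) (nat_lit 5) (nat_lit 312) (nat_lit 5) (nat_lit 329) (nat_lit 5) (nat_lit 496) (nat_lit 489) (nat_lit 215)) (XT.lf (nat_lit 0) (nat_lit 43962550076) (nat_lit 1216) (nat_lit 11924549540) (nat_lit 1292) (nat_lit 7734279303) (nat_lit 313) (nat_lit 5) (nat_lit 329) (nat_lit 5) (nat_lit 330) (nat_lit 5) (nat_lit 497) (nat_lit 489) (nat_lit 214))) (XT.nd (nat_lit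 78) (nat_lit 0) (nat_lit 76) (XT.lf (nat_lit 76) (nat_lit 21261074644) (nat_lit 0) (nat_lit 26121626357) (nat_lit 1292) (nat_lit 17224815330) (nat_lit 314) (nat_lit 5) (nat_lit 313) (nat_lit 5) (nat_lit 330) (nat_lit 5) (nat_lit 498) (nat_lit 489) (nat_lit 213)) (XT.lf (nat_lit 0) (nat_lit 51070036327) (nat_lit 1216) (nat_lit 9978189486) (nat_lit 1292) (nat_lit 4570074714) (nat_lit 314) (nat_lit 5) (nat_lit 330) (nat_lit 5) (nat_lit 331) (nat_lit 5) (nat_lit 499) (nat_lit 489) (nat_lit 212)))) (XT.nd (nat_lit 156) (nat_lit 1216) (nat_lit 0) (XT.nd (nat_lit 78) (nat_lit 0) (nat_lit 76) (XT.lf (nat_lit 76) (nat_lit 24612298245) (nat_lit 0) (nat_lit 30750292945) (nat_lit 1292) (nat_lit 11281979132) (nat_lit 315) (nat_lit 5) (nat_lit 314) (nat_lit 5) (nat_lit 331) (nat_lit 5) (nat_lit 500) (nat_lit 489) (nat_lit 211)) (XT.lf (nat_lit 0) (nat_lit 59889465580) (nat_lit 1216) (nat_lit 7259420093) (nat_lit 1292) (nat_lit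 549576307) (nat_lit 315) (nat_lit 5) (nat_lit 331) (nat_lit 5) (nat_lit 332) (nat_lit 5) (nat_lit 501) (nat_lit 489) (nat_lit 210))) (XT.nd (nat_lit 78) (nat_lit 1292) (nat_lit 0) (XT.lf (nat_lit 76) (nat_lit 28813965226) (nat_lit 0) (nat_lit 36319030566) (nat_lit 1292) (nat_lit 3633549161) (nat_lit 316) (nat_lit 5) (nat_lit 315) (nat_lit 5) (nat_lit 332) (nat_lit 5) (nat_lit 502) (nat_lit 489) (nat_lit 209)) (XT.lf (nat_lit 0) (nat_lit 727595251) (nat_lit 1292) (nat_lit 3753712313) (nat_lit 1368) (nat_lit 65382966932) (nat_lit 298) (nat_lit 5) (nat_lit 315) (nat_lit 5) (nat_lit 316) (nat_lit 5) (nat_lit 503) (nat_lit 489) (nat_lit 208)))))) (XT.nd (nat_lit 624) (nat_lit 2280) (nat_lit 0) (XT.nd (nat_lit 312) (nat_lit 1216) (nat_lit 0) (XT.nd (nat_lit 156) (nat_lit 760) (nat_lit 0) (XT.nd (nat_lit 78) (nat_lit 0) (nat_lit 0) (XT.lf (nat_lit 0) (nat_lit 5750116697) (nat_lit 1292) (nat_lit 37098474834) (nat_lit 1368)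 (nat_lit 28127157967) (nat_lit 299) (nat_lit 5) (nat_lit 316) (nat_lit 5) (nat_lit 317) (nat_lit 5) (nat_lit 504) (nat_lit 489) (nat_lit 207)) (XT.lf (nat_lit 76) (nat_lit 560433699) (nat_lit 0) (nat_lit 10450367845) (nat_lit 1368) (nat_lit 61107142623) (nat_lit 300) (nat_lit 5) (nat_lit 299) (nat_lit 5) (nat_lit 317) (nat_lit 5) (nat_lit 505) (nat_lit 489) (nat_lit 206))) (XT.nd (nat_lit 78) (nat_lit 836) (nat_lit 0) (XT.lf (nat_lit 0) (nat_lit 17027420112) (nat_lit 1292) (nat_lit 33398079602) (nat_lit 76) (nat_lit 22850961611) (nat_lit 300) (nat_lit 5) (nat_lit 317) (nat_lit 5) (nat_lit 301) (nat_lit 5) (nat_lit 506) (nat_lit 489) (nat_lit 205)) (XT.lf (nat_lit 0) (nat_lit 5917677150) (nat_lit 836) (nat_lit 17466692079) (nat_lit 912) (nat_lit 51080569854) (nat_lit 289) (nat_lit 5) (nat_lit 300) (nat_lit 5) (nat_lit 301) (nat_lit 5) (nat_lit 507) (nat_lit 489) (nat_lit 204)))) (XT.nd (nat_lit 156) (nat_lit 608)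 (nat_lit 0) (XT.nd (nat_lit 78) (nat_lit 608) (nat_lit 0) (XT.lf (nat_lit 0) (nat_lit 30430535341) (nat_lit 912) (nat_lit 28743657048) (nat_lit 76) (nat_lit 16499923572) (nat_lit 289) (nat_lit 5) (nat_lit 301) (nat_lit 5) (nat_lit 290) (nat_lit 5) (nat_lit 508) (nat_lit 489) (nat_lit 203)) (XT.lf (nat_lit 0) (nat_lit 12321086472) (nat_lit 608) (nat_lit 25657880130) (nat_lit 684) (nat_lit 38931875182) (nat_lit 281) (nat_lit 5) (nat_lit 289) (nat_lit 5) (nat_lit 290) (nat_lit 5) (nat_lit 509) (nat_lit 489) (nat_lit 202))) (XT.nd (nat_lit 78) (nat_lit 608) (nat_lit 0) (XT.lf (nat_lit 0) (nat_lit 46131699738) (nat_lit 684) (nat_lit 23057522997) (nat_lit 76) (nat_lit 8984111219) (nat_lit 281) (nat_lit 5) (nat_lit 290) (nat_lit 5) (nat_lit 282) (nat_lit 5) (nat_lit 510) (nat_lit 489) (nat_lit 201)) (XT.lf (nat_lit 0) (nat_lit 19853595654) (nat_lit 608) (nat_lit 35119831776) (nat_lit 684) (nat_lit 24486941121) (nat_lit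 273) (nat_lit 5) (nat_lit 281) (nat_lit 5) (nat_lit 282) (nat_lit 5) (nat_lit 511) (nat_lit 489) (nat_lit 200))))) (XT.nd (nat_lit 312) (nat_lit 1064) (nat_lit 0) (XT.nd (nat_lit 156) (nat_lit 684) (nat_lit 0) (XT.nd (nat_lit 78) (nat_lit 532) (nat_lit 0) (XT.lf (nat_lit 0) (nat_lit 64314814104) (nat_lit 684) (nat_lit 16256824187) (nat_lit 76) (nat_lit 207343719) (nat_lit 273) (nat_lit 5) (nat_lit 282) (nat_lit 5) (nat_lit 274) (nat_lit 5) (nat_lit 512) (nat_lit 489) (nat_lit 199)) (XT.lf (nat_lit 0) (nat_lit 28603608038) (nat_lit 532) (nat_lit 45955062941) (nat_lit 608) (nat_lit 7559816075) (nat_lit 266) (nat_lit 5) (nat_lit 273) (nat_lit 5) (nat_lit 274) (nat_lit 5) (nat_lit 513) (nat_lit 489) (nat_lit 198))) (XT.nd (nat_lit 78) (nat_lit 608) (nat_lit 0) (XT.lf (nat_lit 0) (nat_lit 1745560774) (nat_lit 608) (nat_lit 8367725563) (nat_lit 76) (nat_lit 73379465859) (nat_lit 265) (nat_lit 5) (nat_lit 273) (nat_lit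 5) (nat_lit 266) (nat_lit 5) (nat_lit 514) (nat_lit 489) (nat_lit 197)) (XT.lf (nat_lit 0) (nat_lit 11812935739) (nat_lit 684) (nat_lit 46340920067) (nat_lit 76) (nat_lit 26733100584) (nat_lit 257) (nat_lit 5) (nat_lit 266) (nat_lit 5) (nat_lit 258) (nat_lit 5) (nat_lit 515) (nat_lit 489) (nat_lit 196)))) (XT.nd (nat_lit 156) (nat_lit 532) (nat_lit 0) (XT.nd (nat_lit 78) (nat_lit 0) (nat_lit 0) (XT.lf (nat_lit 0) (nat_lit 629145675) (nat_lit 532) (nat_lit 21744277314) (nat_lit 608) (nat_lit 63943831022) (nat_lit 250) (nat_lit 5) (nat_lit 257) (nat_lit 5) (nat_lit 258) (nat_lit 5) (nat_lit 516) (nat_lit 489) (nat_lit 195)) (XT.lf (nat_lit 0) (nat_lit 33874367256) (nat_lit 608) (nat_lit 37974730171) (nat_lit 76) (nat_lit 15922653893) (nat_lit 250) (nat_lit 5) (nat_lit 258) (nat_lit 5) (nat_lit 251) (nat_lit 5) (nat_lit 517) (nat_lit 489) (nat_lit 194))) (XT.nd (nat_lit 78) (nat_lit 0) (nat_lit 0) (XT.lf (nat_lit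 0) (nat_lit 11172324940) (nat_lit 532) (nat_lit 34870297289) (nat_lit 608) (nat_lit 43217592882) (nat_lit 243) (nat_lit 5) (nat_lit 250) (nat_lit 5) (nat_lit 251) (nat_lit 5) (nat_lit 518) (nat_lit 489) (nat_lit 193)) (XT.lf (nat_lit 0) (nat_lit 58993728309) (nat_lit 608) (nat_lit 28244774979) (nat_lit 76) (nat_lit 3542295452) (nat_lit 243) (nat_lit 5) (nat_lit 251) (nat_lit 5) (nat_lit 244) (nat_lit 5) (nat_lit 519) (nat_lit 489) (nat_lit 192))))))) (XT.nd (nat_lit 1404) (nat_lit 684) (nat_lit 0) (XT.nd (nat_lit 546) (nat_lit 2052) (nat_lit 0) (XT.nd (nat_lit 234) (nat_lit 912) (nat_lit 0) (XT.nd (nat_lit 78) (nat_lit 532) (nat_lit 0) (XT.lf (nat_lit 0) (nat_lit 23200671203) (nat_lit 456) (nat_lit 49700581710) (nat_lit 532) (nat_lit 19428710435) (nat_lit 237) (nat_lit 5) (nat_lit 243) (nat_lit 5) (nat_lit 244) (nat_lit 5) (nat_lit 520) (nat_lit 489) (nat_lit 191)) (XT.nd (nat_lit 78) (nat_lit 532) (nat_lit 0)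 (XT.lf (nat_lit 0) (nat_lit 76768034629) (nat_lit 456) (nat_lit 10742808295) (nat_lit 532) (nat_lit 6406214808) (nat_lit 237) (nat_lit 5) (nat_lit 243) (nat_lit 5) (nat_lit 244) (nat_lit 5) (nat_lit 521) (nat_lit 489) (nat_lit 190)) (XT.lf (nat_lit 0) (nat_lit 7512607632) (nat_lit 532) (nat_lit 58779954269) (nat_lit 76) (nat_lit 29237910934) (nat_lit 230) (nat_lit 5) (nat_lit 237) (nat_lit 5) (nat_lit 231) (nat_lit 5) (nat_lit 522) (nat_lit 489) (nat_lit 189)))) (XT.nd (nat_lit 156) (nat_lit 456) (nat_lit 0) (XT.nd (nat_lit 78) (nat_lit 456) (nat_lit 0) (XT.lf (nat_lit 0) (nat_lit 22001122903) (nat_lit 532) (nat_lit 4740454574) (nat_lit 76) (nat_lit 70440383502) (nat_lit 230) (nat_lit 5) (nat_lit 237) (nat_lit 5) (nat_lit 231) (nat_lit 5) (nat_lit 523) (nat_lit 489) (nat_lit 188)) (XT.lf (nat_lit 0) (nat_lit 37562633753) (nat_lit 532) (nat_lit 47074297788) (nat_lit 76) (nat_lit 14226912048) (nat_lit 224) (nat_lit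 5) (nat_lit 231) (nat_lit 5) (nat_lit 225) (nat_lit 5) (nat_lit 524) (nat_lit 489) (nat_lit 187))) (XT.nd (nat_lit 78) (nat_lit 0) (nat_lit 0) (XT.lf (nat_lit 0) (nat_lit 9436339243) (nat_lit 456) (nat_lit 44558122248) (nat_lit 532) (nat_lit 46589617063) (nat_lit 218) (nat_lit 5) (nat_lit 224) (nat_lit 5) (nat_lit 225) (nat_lit 5) (nat_lit 525) (nat_lit 489) (nat_lit 186)) (XT.lf (nat_lit 0) (nat_lit 68606846617) (nat_lit 456) (nat_lit 2787413938) (nat_lit 532) (nat_lit 30947409544) (nat_lit 218) (nat_lit 5) (nat_lit 224) (nat_lit 5) (nat_lit 225) (nat_lit 5) (nat_lit 526) (nat_lit 489) (nat_lit 185))))) (XT.nd (nat_lit 312) (nat_lit 1140) (nat_lit 0) (XT.nd (nat_lit 156) (nat_lit 456) (nat_lit 0) (XT.nd (nat_lit 78) (nat_lit 76) (nat_lit 0) (XT.lf (nat_lit 0) (nat_lit 25511093591) (nat_lit 380) (nat_lit 64436632830) (nat_lit 456) (nat_lit 14185312807) (nat_lit 213) (nat_lit 5) (nat_lit 218) (nat_lit 5) (nat_lit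 219) (nat_lit 5) (nat_lit 527) (nat_lit 489) (nat_lit 184)) (XT.lf (nat_lit 0) (nat_lit 3390848341) (nat_lit 456) (nat_lit 18803010173) (nat_lit 76) (nat_lit 83772263940) (nat_lit 212) (nat_lit 5) (nat_lit 218) (nat_lit 5) (nat_lit 213) (nat_lit 5) (nat_lit 528) (nat_lit 489) (nat_lit 183))) (XT.nd (nat_lit 78) (nat_lit 0) (nat_lit 0) (XT.lf (nat_lit 0) (nat_lit 21837628795) (nat_lit 532) (nat_lit 64529038903) (nat_lit 76) (nat_lit 21464463684) (nat_lit 206) (nat_lit 5) (nat_lit 213) (nat_lit 5) (nat_lit 207) (nat_lit 5) (nat_lit 529) (nat_lit 489) (nat_lit 182)) (XT.lf (nat_lit 0) (nat_lit 41248991382) (nat_lit 532) (nat_lit 2312641104) (nat_lit 76) (nat_lit 66178122751) (nat_lit 206) (nat_lit 5) (nat_lit 213) (nat_lit 5) (nat_lit 207) (nat_lit 5) (nat_lit 530) (nat_lit 489) (nat_lit 181)))) (XT.nd (nat_lit 156) (nat_lit 380) (nat_lit 0) (XT.nd (nat_lit 78) (nat_lit 380) (nat_lit 0) (XT.lf (nat_lit 0) (nat_lit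 61859040960) (nat_lit 456) (nat_lit 48699360891) (nat_lit 76) (nat_lit 1128745594) (nat_lit 201) (nat_lit 5) (nat_lit 207) (nat_lit 5) (nat_lit 202) (nat_lit 5) (nat_lit 531) (nat_lit 489) (nat_lit 180)) (XT.lf (nat_lit 0) (nat_lit 16492252731) (nat_lit 380) (nat_lit 67208257969) (nat_lit 456) (nat_lit 29974057179) (nat_lit 196) (nat_lit 5) (nat_lit 201) (nat_lit 5) (nat_lit 202) (nat_lit 5) (nat_lit 532) (nat_lit 489) (nat_lit 179))) (XT.nd (nat_lit 78) (nat_lit 380) (nat_lit 0) (XT.lf (nat_lit 0) (nat_lit 84637498823) (nat_lit 380) (nat_lit 22051196087) (nat_lit 456) (nat_lit 9018171923) (nat_lit 196) (nat_lit 5) (nat_lit 201) (nat_lit 5) (nat_lit 202) (nat_lit 5) (nat_lit 533) (nat_lit 489) (nat_lit 178)) (XT.lf (nat_lit 0) (nat_lit 12922611164) (nat_lit 380) (nat_lit 80385302580) (nat_lit 76) (nat_lit 24470554050) (nat_lit 191) (nat_lit 5) (nat_lit 196) (nat_lit 5) (nat_lit 192) (nat_lit 5) (nat_lit 534) (nat_lit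 489) (nat_lit 177)))))) (XT.nd (nat_lit 59280) (nat_lit 0) (nat_lit 8816) (XT.nd (nat_lit 58968) (nat_lit 0) (nat_lit 9728) (XT.nd (nat_lit 58812) (nat_lit 0) (nat_lit 9652) (XT.nd (nat_lit 58734) (nat_lit 0) (nat_lit 9652) (XT.lf (nat_lit 0) (nat_lit 85359851594) (nat_lit 304) (nat_lit 27400932588) (nat_lit 380) (nat_lit 13751767107) (nat_lit 182) (nat_lit 5) (nat_lit 186) (nat_lit 5) (nat_lit 187) (nat_lit 5) (nat_lit 538) (nat_lit 489) (nat_lit 173)) (XT.lf (nat_lit 0) (nat_lit 15526687145) (nat_lit 1292) (nat_lit 6757893424) (nat_lit 1292) (nat_lit 6757893424) (nat_lit 309) (nat_lit 3) (nat_lit 326) (nat_lit 3) (nat_lit 326) (nat_lit 5) (nat_lit 490) (nat_lit 490) (nat_lit 220))) (XT.nd (nat_lit 78) (nat_lit 0) (nat_lit 76) (XT.lf (nat_lit 76) (nat_lit 15597618019) (nat_lit 0) (nat_lit 16090784437) (nat_lit 1292) (nat_lit 27262741139) (nat_lit 310) (nat_lit 5) (nat_lit 309) (nat_lit 3) (nat_lit 326) (nat_lit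 5) (nat_lit 491) (nat_lit 490) (nat_lit 219)) (XT.lf (nat_lit 0) (nat_lit 32606852083) (nat_lit 1216) (nat_lit 14106807933) (nat_lit 1292) (nat_lit 13121734007) (nat_lit 310) (nat_lit 5) (nat_lit 326) (nat_lit 5) (nat_lit 327) (nat_lit 5) (nat_lit 492) (nat_lit 490) (nat_lit 218)))) (XT.nd (nat_lit 156) (nat_lit 0) (nat_lit 76) (XT.nd (nat_lit 78) (nat_lit 0) (nat_lit 76) (XT.lf (nat_lit 76) (nat_lit 16173184119) (nat_lit 0) (nat_lit 17693720948) (nat_lit 1292) (nat_lit 26869845468) (nat_lit 311) (nat_lit 5) (nat_lit 310) (nat_lit 5) (nat_lit 327) (nat_lit 5) (nat_lit 493) (nat_lit 490) (nat_lit 217)) (XT.lf (nat_lit 0) (nat_lit 35425153410) (nat_lit 1216) (nat_lit 14129206145) (nat_lit 1292) (nat_lit 12102976441) (nat_lit 311) (nat_lit 5) (nat_lit 327) (nat_lit 5) (nat_lit 328) (nat_lit 5) (nat_lit 494) (nat_lit 490) (nat_lit 216))) (XT.nd (nat_lit 78) (nat_lit 0) (nat_lit 76) (XT.lf (nat_lit 76) (nat_lit 17381762969)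 (nat_lit 0) (nat_lit 19989965438) (nat_lit 1292) (nat_lit 25223563301) (nat_lit 312) (nat_lit 5) (nat_lit 311) (nat_lit 5) (nat_lit 328) (nat_lit 5) (nat_lit 495) (nat_lit 490) (nat_lit 215)) (XT.lf (nat_lit 0) (nat_lit 39620679925) (nat_lit 1216) (nat_lit 13531819498) (nat_lit 1292) (nat_lit 10401567352) (nat_lit 312) (nat_lit 5) (nat_lit 328) (nat_lit 5) (nat_lit 329) (nat_lit 5) (nat_lit 496) (nat_lit 490) (nat_lit 214))))) (XT.nd (nat_lit 312) (nat_lit 1064) (nat_lit 0) (XT.nd (nat_lit 156) (nat_lit 0) (nat_lit 76) (XT.nd (nat_lit 78) (nat_lit 0) (nat_lit 76) (XT.lf (nat_lit 76) (nat_lit 19278183966) (nat_lit 0) (nat_lit 23041498083) (nat_lit 1292) (nat_lit 22210445644) (nat_lit 313) (nat_lit 5) (nat_lit 312) (nat_lit 5) (nat_lit 329) (nat_lit 5) (nat_lit 497) (nat_lit 490) (nat_lit 213)) (XT.lf (nat_lit 0) (nat_lit 45313656720) (nat_lit 1216) (nat_lit 12259927721) (nat_lit 1292) (nat_lit 7955465980) (nat_lit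 313) (nat_lit 5) (nat_lit 329) (nat_lit 5) (nat_lit 330) (nat_lit 5) (nat_lit 498) (nat_lit 490) (nat_lit 212))) (XT.nd (nat_lit 78) (nat_lit 0) (nat_lit 76) (XT.lf (nat_lit 76) (nat_lit 21921045989) (nat_lit 0) (nat_lit 26914640257) (nat_lit 1292) (nat_lit 17709107575) (nat_lit 314) (nat_lit 5) (nat_lit 313) (nat_lit 5) (nat_lit 330) (nat_lit 5) (nat_lit 499) (nat_lit 490) (nat_lit 211)) (XT.lf (nat_lit 0) (nat_lit 52632636632) (nat_lit 1216) (nat_lit 10255033103) (nat_lit 1292) (nat_lit 4698262040) (nat_lit 314) (nat_lit 5) (nat_lit 330) (nat_lit 5) (nat_lit 331) (nat_lit 5) (nat_lit 500) (nat_lit 490) (nat_lit 210)))) (XT.nd (nat_lit 156) (nat_lit 1216) (nat_lit 0) (XT.nd (nat_lit 78) (nat_lit 0) (nat_lit 76) (XT.lf (nat_lit 76) (nat_lit 25372948652) (nat_lit 0) (nat_lit 31680345346) (nat_lit 1292) (nat_lit 11589715973) (nat_lit 315) (nat_lit 5) (nat_lit 314) (nat_lit 5) (nat_lit 331) (nat_lit 5) (nat_lit 501)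 (nat_lit 490) (nat_lit 209)) (XT.lf (nat_lit 0) (nat_lit 61715035526) (nat_lit 1216) (nat_lit 7454628488) (nat_lit 1292) (nat_lit 558882616) (nat_lit 315) (nat_lit 5) (nat_lit 331) (nat_lit 5) (nat_lit 332) (nat_lit 5) (nat_lit 502) (nat_lit 490) (nat_lit 208))) (XT.nd (nat_lit 78) (nat_lit 1292) (nat_lit 0) (XT.lf (nat_lit 76) (nat_lit 29700737074) (nat_lit 0) (nat_lit 37414508100) (nat_lit 1292) (nat_lit 3713445788) (nat_lit 316) (nat_lit 5) (nat_lit 315) (nat_lit 5) (nat_lit 332) (nat_lit 5) (nat_lit 503) (nat_lit 490) (nat_lit 207)) (XT.lf (nat_lit 0) (nat_lit 777133603) (nat_lit 1292) (nat_lit 3844067946) (nat_lit 1368) (nat_lit 67338167460) (nat_lit 298) (nat_lit 5) (nat_lit 315) (nat_lit 5) (nat_lit 316) (nat_lit 5) (nat_lit 504) (nat_lit 490) (nat_lit 206))))))))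
noncomputable def xc245 : XT := (XT.nd (nat_lit 61542) (nat_lit 0) (nat_lit 2584) (XT.nd (nat_lit 1170) (nat_lit 3572) (nat_lit 0) (XT.nd (nat_lit 546) (nat_lit 2888) (nat_lit 0) (XT.nd (nat_lit 234) (nat_lit 1368) (nat_lit 0) (XT.nd (nat_lit 78) (nat_lit 0) (nat_lit 0) (XT.lf (nat_lit 0) (nat_lit 5949686619) (nat_lit 1292) (nat_lit 38188526932) (nat_lit 1368) (nat_lit 28965994103) (nat_lit 299) (nat_lit 5) (nat_lit 316) (nat_lit 5) (nat_lit 317) (nat_lit 5) (nat_lit 505) (nat_lit 490) (nat_lit 205)) (XT.nd (nat_lit 78) (nat_lit 0) (nat_lit 76) (XT.lf (nat_lit 76) (nat_lit 599924326) (nat_lit 0) (nat_lit 10767697334) (nat_lit 1368) (nat_lit 62913063680) (nat_lit 300) (nat_lit 5) (nat_lit 299) (nat_lit 5) (nat_lit 317) (nat_lit 5) (nat_lit 506) (nat_lit 490) (nat_lit 204)) (XT.lf (nat_lit 0) (nat_lit 17563931419) (nat_lit 1292) (nat_lit 34377195318) (nat_lit 76) (nat_lit 23532855564) (nat_lit 300) (nat_lit 5) (nat_lit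 317) (nat_lit 5) (nat_lit 301) (nat_lit 5) (nat_lit 507) (nat_lit 490) (nat_lit 203)))) (XT.nd (nat_lit 156) (nat_lit 608) (nat_lit 0) (XT.nd (nat_lit 78) (nat_lit 0) (nat_lit 0) (XT.lf (nat_lit 0) (nat_lit 6117810346) (nat_lit 836) (nat_lit 17993247722) (nat_lit 912) (nat_lit 52587072316) (nat_lit 289) (nat_lit 5) (nat_lit 300) (nat_lit 5) (nat_lit 301) (nat_lit 5) (nat_lit 508) (nat_lit 490) (nat_lit 202)) (XT.lf (nat_lit 0) (nat_lit 31367852569) (nat_lit 912) (nat_lit 29583263544) (nat_lit 76) (nat_lit 16992489216) (nat_lit 289) (nat_lit 5) (nat_lit 301) (nat_lit 5) (nat_lit 290) (nat_lit 5) (nat_lit 509) (nat_lit 490) (nat_lit 201))) (XT.nd (nat_lit 78) (nat_lit 0) (nat_lit 0) (XT.lf (nat_lit 0) (nat_lit 12713199701) (nat_lit 608) (nat_lit 26429042451) (nat_lit 684) (nat_lit 40075205673) (nat_lit 281) (nat_lit 5) (nat_lit 289) (nat_lit 5) (nat_lit 290) (nat_lit 5) (nat_lit 510) (nat_lit 490) (nat_lit 200))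 (XT.lf (nat_lit 0) (nat_lit 47538847667) (nat_lit 684) (nat_lit 23726711255) (nat_lit 76) (nat_lit 9252277184) (nat_lit 281) (nat_lit 5) (nat_lit 290) (nat_lit 5) (nat_lit 282) (nat_lit 5) (nat_lit 511) (nat_lit 490) (nat_lit 199))))) (XT.nd (nat_lit 312) (nat_lit 1672) (nat_lit 0) (XT.nd (nat_lit 156) (nat_lit 608) (nat_lit 0) (XT.nd (nat_lit 78) (nat_lit 0) (nat_lit 0) (XT.lf (nat_lit 0) (nat_lit 20471520000) (nat_lit 608) (nat_lit 36173846071) (nat_lit 684) (nat_lit 25198129562) (nat_lit 273) (nat_lit 5) (nat_lit 281) (nat_lit 5) (nat_lit 282) (nat_lit 5) (nat_lit 512) (nat_lit 490) (nat_lit 198)) (XT.lf (nat_lit 0) (nat_lit 66266328223) (nat_lit 684) (nat_lit 16722194465) (nat_lit 76) (nat_lit 213164847) (nat_lit 273) (nat_lit 5) (nat_lit 282) (nat_lit 5) (nat_lit 274) (nat_lit 5) (nat_lit 513) (nat_lit 490) (nat_lit 197))) (XT.nd (nat_lit 78) (nat_lit 76) (nat_lit 0) (XT.lf (nat_lit 0) (nat_lit 29483831762)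 (nat_lit 532) (nat_lit 47333238823) (nat_lit 608) (nat_lit 7764320105) (nat_lit 266) (nat_lit 5) (nat_lit 273) (nat_lit 5) (nat_lit 274) (nat_lit 5) (nat_lit 514) (nat_lit 490) (nat_lit 196)) (XT.lf (nat_lit 0) (nat_lit 1819146515) (nat_lit 608) (nat_lit 8596862001) (nat_lit 76) (nat_lit 75580887990) (nat_lit 265) (nat_lit 5) (nat_lit 273) (nat_lit 5) (nat_lit 266) (nat_lit 5) (nat_lit 515) (nat_lit 490) (nat_lit 195)))) (XT.nd (nat_lit 156) (nat_lit 532) (nat_lit 0) (XT.nd (nat_lit 78) (nat_lit 532) (nat_lit 0) (XT.lf (nat_lit 0) (nat_lit 12188141486) (nat_lit 684) (nat_lit 47708849458) (nat_lit 76) (nat_lit 27535947968) (nat_lit 257) (nat_lit 5) (nat_lit 266) (nat_lit 5) (nat_lit 258) (nat_lit 5) (nat_lit 516) (nat_lit 490) (nat_lit 194)) (XT.lf (nat_lit 0) (nat_lit 670099646) (nat_lit 532) (nat_lit 22394949610) (nat_lit 608) (nat_lit 65841108077) (nat_lit 250) (nat_lit 5) (nat_lit 257) (nat_lit 5) (nat_lit 258)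 (nat_lit 5) (nat_lit 517) (nat_lit 490) (nat_lit 193))) (XT.nd (nat_lit 78) (nat_lit 532) (nat_lit 0) (XT.lf (nat_lit 0) (nat_lit 34910442445) (nat_lit 608) (nat_lit 39091954620) (nat_lit 76) (nat_lit 16401909926) (nat_lit 250) (nat_lit 5) (nat_lit 258) (nat_lit 5) (nat_lit 251) (nat_lit 5) (nat_lit 518) (nat_lit 490) (nat_lit 192)) (XT.lf (nat_lit 0) (nat_lit 11529296288) (nat_lit 532) (nat_lit 35914080363) (nat_lit 608) (nat_lit 44494059140) (nat_lit 243) (nat_lit 5) (nat_lit 250) (nat_lit 5) (nat_lit 251) (nat_lit 5) (nat_lit 519) (nat_lit 490) (nat_lit 191)))))) (XT.nd (nat_lit 624) (nat_lit 1672) (nat_lit 0) (XT.nd (nat_lit 312) (nat_lit 912) (nat_lit 0) (XT.nd (nat_lit 156) (nat_lit 532) (nat_lit 0) (XT.nd (nat_lit 78) (nat_lit 456) (nat_lit 0) (XT.lf (nat_lit 0) (nat_lit 60782470365) (nat_lit 608) (nat_lit 29070404622) (nat_lit 76) (nat_lit 3650778353) (nat_lit 243) (nat_lit 5) (nat_lit 251) (nat_lit 5)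 (nat_lit 244) (nat_lit 5) (nat_lit 520) (nat_lit 490) (nat_lit 190)) (XT.lf (nat_lit 0) (nat_lit 23918192067) (nat_lit 456) (nat_lit 51188683953) (nat_lit 532) (nat_lit 19992427249) (nat_lit 237) (nat_lit 5) (nat_lit 243) (nat_lit 5) (nat_lit 244) (nat_lit 5) (nat_lit 521) (nat_lit 490) (nat_lit 189))) (XT.nd (nat_lit 78) (nat_lit 532) (nat_lit 0) (XT.lf (nat_lit 0) (nat_lit 79091950161) (nat_lit 456) (nat_lit 11062262245) (nat_lit 532) (nat_lit 6579814360) (nat_lit 237) (nat_lit 5) (nat_lit 243) (nat_lit 5) (nat_lit 244) (nat_lit 5) (nat_lit 522) (nat_lit 490) (nat_lit 188)) (XT.lf (nat_lit 0) (nat_lit 7755911544) (nat_lit 532) (nat_lit 60521814568) (nat_lit 76) (nat_lit 30118121844) (nat_lit 230) (nat_lit 5) (nat_lit 237) (nat_lit 5) (nat_lit 231) (nat_lit 5) (nat_lit 523) (nat_lit 490) (nat_lit 187)))) (XT.nd (nat_lit 156) (nat_lit 456) (nat_lit 0) (XT.nd (nat_lit 78) (nat_lit 456) (nat_lit 0) (XT.lf (nat_lit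 0) (nat_lit 22678560165) (nat_lit 532) (nat_lit 4861757212) (nat_lit 76) (nat_lit 72556579067) (nat_lit 230) (nat_lit 5) (nat_lit 237) (nat_lit 5) (nat_lit 231) (nat_lit 5) (nat_lit 524) (nat_lit 490) (nat_lit 186)) (XT.lf (nat_lit 0) (nat_lit 38706643184) (nat_lit 532) (nat_lit 48465341345) (nat_lit 76) (nat_lit 14657259236) (nat_lit 224) (nat_lit 5) (nat_lit 231) (nat_lit 5) (nat_lit 225) (nat_lit 5) (nat_lit 525) (nat_lit 490) (nat_lit 185))) (XT.nd (nat_lit 78) (nat_lit 0) (nat_lit 0) (XT.lf (nat_lit 0) (nat_lit 9740407097) (nat_lit 456) (nat_lit 45890721363) (nat_lit 532) (nat_lit 47969966273) (nat_lit 218) (nat_lit 5) (nat_lit 224) (nat_lit 5) (nat_lit 225) (nat_lit 5) (nat_lit 526) (nat_lit 490) (nat_lit 184)) (XT.lf (nat_lit 0) (nat_lit 70685418692) (nat_lit 456) (nat_lit 2867012518) (nat_lit 532) (nat_lit 31858997557) (nat_lit 218) (nat_lit 5) (nat_lit 224) (nat_lit 5) (nat_lit 225) (nat_lit 5) (nat_lit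 527) (nat_lit 490) (nat_lit 183))))) (XT.nd (nat_lit 312) (nat_lit 760) (nat_lit 0) (XT.nd (nat_lit 156) (nat_lit 456) (nat_lit 0) (XT.nd (nat_lit 78) (nat_lit 76) (nat_lit 0) (XT.lf (nat_lit 0) (nat_lit 26297041718) (nat_lit 380) (nat_lit 66365219049) (nat_lit 456) (nat_lit 14594285444) (nat_lit 213) (nat_lit 5) (nat_lit 218) (nat_lit 5) (nat_lit 219) (nat_lit 5) (nat_lit 528) (nat_lit 490) (nat_lit 182)) (XT.lf (nat_lit 0) (nat_lit 3508363189) (nat_lit 456) (nat_lit 19346770313) (nat_lit 76) (nat_lit 86289497892) (nat_lit 212) (nat_lit 5) (nat_lit 218) (nat_lit 5) (nat_lit 213) (nat_lit 5) (nat_lit 529) (nat_lit 490) (nat_lit 181))) (XT.nd (nat_lit 78) (nat_lit 0) (nat_lit 0) (XT.lf (nat_lit 0) (nat_lit 22508324975) (nat_lit 532) (nat_lit 66444356801) (nat_lit 76) (nat_lit 22112915507) (nat_lit 206) (nat_lit 5) (nat_lit 213) (nat_lit 5) (nat_lit 207) (nat_lit 5) (nat_lit 530) (nat_lit 490) (nat_lit 180)) (XT.lf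 (nat_lit 0) (nat_lit 42501575022) (nat_lit 532) (nat_lit 2362065708) (nat_lit 76) (nat_lit 68167852756) (nat_lit 206) (nat_lit 5) (nat_lit 213) (nat_lit 5) (nat_lit 207) (nat_lit 5) (nat_lit 531) (nat_lit 490) (nat_lit 179)))) (XT.nd (nat_lit 59280) (nat_lit 0) (nat_lit 8588) (XT.nd (nat_lit 78) (nat_lit 380) (nat_lit 0) (XT.lf (nat_lit 0) (nat_lit 63729722870) (nat_lit 456) (nat_lit 50140182908) (nat_lit 76) (nat_lit 1167407809) (nat_lit 201) (nat_lit 5) (nat_lit 207) (nat_lit 5) (nat_lit 202) (nat_lit 5) (nat_lit 532) (nat_lit 490) (nat_lit 178)) (XT.lf (nat_lit 0) (nat_lit 17006981488) (nat_lit 380) (nat_lit 69219212802) (nat_lit 456) (nat_lit 30858169643) (nat_lit 196) (nat_lit 5) (nat_lit 201) (nat_lit 5) (nat_lit 202) (nat_lit 5) (nat_lit 533) (nat_lit 490) (nat_lit 177))) (XT.nd (nat_lit 78) (nat_lit 0) (nat_lit 0) (XT.lf (nat_lit 0) (nat_lit 16011596002) (nat_lit 1292) (nat_lit 6950788598) (nat_lit 1292)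 (nat_lit 6950788598) (nat_lit 309) (nat_lit 3) (nat_lit 326) (nat_lit 3) (nat_lit 326) (nat_lit 5) (nat_lit 491) (nat_lit 491) (nat_lit 218)) (XT.lf (nat_lit 76) (nat_lit 16085036844) (nat_lit 0) (nat_lit 16591308423) (nat_lit 1292) (nat_lit 28042210482) (nat_lit 310) (nat_lit 5) (nat_lit 309) (nat_lit 3) (nat_lit 326) (nat_lit 5) (nat_lit 492) (nat_lit 491) (nat_lit 217))))))) (XT.nd (nat_lit 1248) (nat_lit 5168) (nat_lit 0) (XT.nd (nat_lit 624) (nat_lit 912) (nat_lit 0) (XT.nd (nat_lit 312) (nat_lit 0) (nat_lit 152) (XT.nd (nat_lit 156) (nat_lit 0) (nat_lit 76) (XT.nd (nat_lit 78) (nat_lit 0) (nat_lit 0) (XT.lf (nat_lit 0) (nat_lit 33621096120) (nat_lit 1216) (nat_lit 14509833969) (nat_lit 1292) (nat_lit 13498441268) (nat_lit 310) (nat_lit 5) (nat_lit 326) (nat_lit 5) (nat_lit 327) (nat_lit 5) (nat_lit 493) (nat_lit 491) (nat_lit 216)) (XT.lf (nat_lit 76) (nat_lit 16678360019) (nat_lit 0) (nat_lit 18239733075)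 (nat_lit 1292) (nat_lit 27639701297) (nat_lit 311) (nat_lit 5) (nat_lit 310) (nat_lit 5) (nat_lit 327) (nat_lit 5) (nat_lit 494) (nat_lit 491) (nat_lit 215))) (XT.nd (nat_lit 78) (nat_lit 0) (nat_lit 0) (XT.lf (nat_lit 0) (nat_lit 36521922340) (nat_lit 1216) (nat_lit 14532514219) (nat_lit 1292) (nat_lit 12451595947) (nat_lit 311) (nat_lit 5) (nat_lit 327) (nat_lit 5) (nat_lit 328) (nat_lit 5) (nat_lit 495) (nat_lit 491) (nat_lit 214)) (XT.lf (nat_lit 76) (nat_lit 17923582320) (nat_lit 0) (nat_lit 20602517332) (nat_lit 1292) (nat_lit 25946051176) (nat_lit 312) (nat_lit 5) (nat_lit 311) (nat_lit 5) (nat_lit 328) (nat_lit 5) (nat_lit 496) (nat_lit 491) (nat_lit 213)))) (XT.nd (nat_lit 156) (nat_lit 0) (nat_lit 76) (XT.nd (nat_lit 78) (nat_lit 0) (nat_lit 0) (XT.lf (nat_lit 0) (nat_lit 40841432210) (nat_lit 1216) (nat_lit 13916910352) (nat_lit 1292) (nat_lit 10701379300) (nat_lit 312) (nat_lit 5) (nat_lit 328) (nat_lit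 5) (nat_lit 329) (nat_lit 5) (nat_lit 497) (nat_lit 491) (nat_lit 212)) (XT.lf (nat_lit 76) (nat_lit 19877188669) (nat_lit 0) (nat_lit 23743478436) (nat_lit 1292) (nat_lit 22844419706) (nat_lit 313) (nat_lit 5) (nat_lit 312) (nat_lit 5) (nat_lit 329) (nat_lit 5) (nat_lit 498) (nat_lit 491) (nat_lit 211))) (XT.nd (nat_lit 78) (nat_lit 0) (nat_lit 0) (XT.lf (nat_lit 0) (nat_lit 46703446422) (nat_lit 1216) (nat_lit 12606650706) (nat_lit 1292) (nat_lit 8183910615) (nat_lit 313) (nat_lit 5) (nat_lit 329) (nat_lit 5) (nat_lit 330) (nat_lit 5) (nat_lit 499) (nat_lit 491) (nat_lit 210)) (XT.lf (nat_lit 76) (nat_lit 22599545599) (nat_lit 0) (nat_lit 27730906978) (nat_lit 1292) (nat_lit 18209791477) (nat_lit 314) (nat_lit 5) (nat_lit 313) (nat_lit 5) (nat_lit 330) (nat_lit 5) (nat_lit 500) (nat_lit 491) (nat_lit 209))))) (XT.nd (nat_lit 312) (nat_lit 1216) (nat_lit 0) (XT.nd (nat_lit 156) (nat_lit 0) (nat_lit 76) (XT.nd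 (nat_lit 78) (nat_lit 0) (nat_lit 0) (XT.lf (nat_lit 0) (nat_lit 54240364167) (nat_lit 1216) (nat_lit 10541473740) (nat_lit 1292) (nat_lit 4830806740) (nat_lit 314) (nat_lit 5) (nat_lit 330) (nat_lit 5) (nat_lit 331) (nat_lit 5) (nat_lit 501) (nat_lit 491) (nat_lit 208)) (XT.lf (nat_lit 76) (nat_lit 26155139523) (nat_lit 0) (nat_lit 32637866285) (nat_lit 1292) (nat_lit 11908448518) (nat_lit 315) (nat_lit 5) (nat_lit 314) (nat_lit 5) (nat_lit 331) (nat_lit 5) (nat_lit 502) (nat_lit 491) (nat_lit 207))) (XT.nd (nat_lit 78) (nat_lit 0) (nat_lit 0) (XT.lf (nat_lit 0) (nat_lit 63593714396) (nat_lit 1216) (nat_lit 7656988987) (nat_lit 1292) (nat_lit 568880332) (nat_lit 315) (nat_lit 5) (nat_lit 331) (nat_lit 5) (nat_lit 332) (nat_lit 5) (nat_lit 503) (nat_lit 491) (nat_lit 206)) (XT.lf (nat_lit 76) (nat_lit 30612828931) (nat_lit 0) (nat_lit 38542510896) (nat_lit 1292) (nat_lit 3797410339) (nat_lit 316) (nat_lit 5) (nat_lit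 315) (nat_lit 5) (nat_lit 332) (nat_lit 5) (nat_lit 504) (nat_lit 491) (nat_lit 205)))) (XT.nd (nat_lit 156) (nat_lit 0) (nat_lit 76) (XT.nd (nat_lit 78) (nat_lit 0) (nat_lit 76) (XT.lf (nat_lit 0) (nat_lit 826567410) (nat_lit 1292) (nat_lit 3938411818) (nat_lit 1368) (nat_lit 69352384988) (nat_lit 298) (nat_lit 5) (nat_lit 315) (nat_lit 5) (nat_lit 316) (nat_lit 5) (nat_lit 505) (nat_lit 491) (nat_lit 204)) (XT.lf (nat_lit 0) (nat_lit 6153689916) (nat_lit 1292) (nat_lit 39312595270) (nat_lit 1368) (nat_lit 29830281114) (nat_lit 299) (nat_lit 5) (nat_lit 316) (nat_lit 5) (nat_lit 317) (nat_lit 5) (nat_lit 506) (nat_lit 491) (nat_lit 203))) (XT.nd (nat_lit 78) (nat_lit 0) (nat_lit 76) (XT.lf (nat_lit 76) (nat_lit 639297884) (nat_lit 0) (nat_lit 11094327514) (nat_lit 1368) (nat_lit 64774729112) (nat_lit 300) (nat_lit 5) (nat_lit 299) (nat_lit 5) (nat_lit 317) (nat_lit 5) (nat_lit 507) (nat_lit 491) (nat_lit 202))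 (XT.lf (nat_lit 0) (nat_lit 18115063429) (nat_lit 1292) (nat_lit 35386994849) (nat_lit 76) (nat_lit 24235414993) (nat_lit 300) (nat_lit 5) (nat_lit 317) (nat_lit 5) (nat_lit 301) (nat_lit 5) (nat_lit 508) (nat_lit 491) (nat_lit 201)))))) (XT.nd (nat_lit 624) (nat_lit 2660) (nat_lit 0) (XT.nd (nat_lit 312) (nat_lit 1216) (nat_lit 0) (XT.nd (nat_lit 156) (nat_lit 608) (nat_lit 0) (XT.nd (nat_lit 78) (nat_lit 0) (nat_lit 0) (XT.lf (nat_lit 0) (nat_lit 6322650040) (nat_lit 836) (nat_lit 18535453374) (nat_lit 912) (nat_lit 54140257458) (nat_lit 289) (nat_lit 5) (nat_lit 300) (nat_lit 5) (nat_lit 301) (nat_lit 5) (nat_lit 509) (nat_lit 491) (nat_lit 200)) (XT.lf (nat_lit 0) (nat_lit 32331888587) (nat_lit 912) (nat_lit 30449361492) (nat_lit 76) (nat_lit 17499971439) (nat_lit 289) (nat_lit 5) (nat_lit 301) (nat_lit 5) (nat_lit 290) (nat_lit 5) (nat_lit 510) (nat_lit 491) (nat_lit 199))) (XT.nd (nat_lit 78) (nat_lit 0)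 (nat_lit 0) (XT.lf (nat_lit 0) (nat_lit 13115785847) (nat_lit 608) (nat_lit 27223257788) (nat_lit 684) (nat_lit 41254249699) (nat_lit 281) (nat_lit 5) (nat_lit 289) (nat_lit 5) (nat_lit 290) (nat_lit 5) (nat_lit 511) (nat_lit 491) (nat_lit 198)) (XT.lf (nat_lit 0) (nat_lit 48986878435) (nat_lit 684) (nat_lit 24417268903) (nat_lit 76) (nat_lit 9528566048) (nat_lit 281) (nat_lit 5) (nat_lit 290) (nat_lit 5) (nat_lit 282) (nat_lit 5) (nat_lit 512) (nat_lit 491) (nat_lit 197)))) (XT.nd (nat_lit 156) (nat_lit 608) (nat_lit 0) (XT.nd (nat_lit 78) (nat_lit 0) (nat_lit 0) (XT.lf (nat_lit 0) (nat_lit 21106701018) (nat_lit 608) (nat_lit 37259456723) (nat_lit 684) (nat_lit 25931998049) (nat_lit 273) (nat_lit 5) (nat_lit 281) (nat_lit 5) (nat_lit 282) (nat_lit 5) (nat_lit 513) (nat_lit 491) (nat_lit 196)) (XT.lf (nat_lit 0) (nat_lit 68275120875) (nat_lit 684) (nat_lit 17202807939) (nat_lit 76) (nat_lit 219183524) (nat_lit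 273) (nat_lit 5) (nat_lit 282) (nat_lit 5) (nat_lit 274) (nat_lit 5) (nat_lit 514) (nat_lit 491) (nat_lit 195))) (XT.nd (nat_lit 78) (nat_lit 76) (nat_lit 0) (XT.lf (nat_lit 0) (nat_lit 30389192678) (nat_lit 532) (nat_lit 48752787306) (nat_lit 608) (nat_lit 7976238819) (nat_lit 266) (nat_lit 5) (nat_lit 273) (nat_lit 5) (nat_lit 274) (nat_lit 5) (nat_lit 515) (nat_lit 491) (nat_lit 194)) (XT.lf (nat_lit 0) (nat_lit 1893721775) (nat_lit 608) (nat_lit 8834129414) (nat_lit 76) (nat_lit 77848350596) (nat_lit 265) (nat_lit 5) (nat_lit 273) (nat_lit 5) (nat_lit 266) (nat_lit 5) (nat_lit 516) (nat_lit 491) (nat_lit 193))))) (XT.nd (nat_lit 312) (nat_lit 988) (nat_lit 0) (XT.nd (nat_lit 156) (nat_lit 532) (nat_lit 0) (XT.nd (nat_lit 78) (nat_lit 532) (nat_lit 0) (XT.lf (nat_lit 0) (nat_lit 12573408385) (nat_lit 684) (nat_lit 49119096740) (nat_lit 76) (nat_lit 28362831730) (nat_lit 257) (nat_lit 5) (nat_lit 266) (nat_lit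 5) (nat_lit 258) (nat_lit 5) (nat_lit 517) (nat_lit 491) (nat_lit 192)) (XT.lf (nat_lit 0) (nat_lit 711014776) (nat_lit 532) (nat_lit 23065237137) (nat_lit 608) (nat_lit 67796511104) (nat_lit 250) (nat_lit 5) (nat_lit 257) (nat_lit 5) (nat_lit 258) (nat_lit 5) (nat_lit 518) (nat_lit 491) (nat_lit 191))) (XT.nd (nat_lit 78) (nat_lit 532) (nat_lit 0) (XT.lf (nat_lit 0) (nat_lit 35976460753) (nat_lit 608) (nat_lit 40243959693) (nat_lit 76) (nat_lit 16895453147) (nat_lit 250) (nat_lit 5) (nat_lit 258) (nat_lit 5) (nat_lit 251) (nat_lit 5) (nat_lit 519) (nat_lit 491) (nat_lit 190)) (XT.lf (nat_lit 0) (nat_lit 11895725275) (nat_lit 532) (nat_lit 36989310443) (nat_lit 608) (nat_lit 45809971000) (nat_lit 243) (nat_lit 5) (nat_lit 250) (nat_lit 5) (nat_lit 251) (nat_lit 5) (nat_lit 520) (nat_lit 491) (nat_lit 189)))) (XT.nd (nat_lit 156) (nat_lit 532) (nat_lit 0) (XT.nd (nat_lit 78) (nat_lit 456) (nat_lit 0) (XT.lf (nat_lit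 0) (nat_lit 62623788012) (nat_lit 608) (nat_lit 29922049604) (nat_lit 76) (nat_lit 3762388646) (nat_lit 243) (nat_lit 5) (nat_lit 251) (nat_lit 5) (nat_lit 244) (nat_lit 5) (nat_lit 521) (nat_lit 491) (nat_lit 188)) (XT.lf (nat_lit 0) (nat_lit 24656004327) (nat_lit 456) (nat_lit 52721596609) (nat_lit 532) (nat_lit 20574154540) (nat_lit 237) (nat_lit 5) (nat_lit 243) (nat_lit 5) (nat_lit 244) (nat_lit 5) (nat_lit 522) (nat_lit 491) (nat_lit 187))) (XT.nd (nat_lit 78) (nat_lit 532) (nat_lit 0) (XT.lf (nat_lit 0) (nat_lit 81484384878) (nat_lit 456) (nat_lit 11391462284) (nat_lit 532) (nat_lit 6759688862) (nat_lit 237) (nat_lit 5) (nat_lit 243) (nat_lit 5) (nat_lit 244) (nat_lit 5) (nat_lit 523) (nat_lit 491) (nat_lit 186)) (XT.lf (nat_lit 0) (nat_lit 8005485565) (nat_lit 532) (nat_lit 62317167064) (nat_lit 76) (nat_lit 31024562646) (nat_lit 230) (nat_lit 5) (nat_lit 237) (nat_lit 5) (nat_lit 231) (nat_lit 5) (nat_lit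 524) (nat_lit 491) (nat_lit 185))))))))
noncomputable def xc246 : XT := (XT.nd (nat_lit 61620) (nat_lit 0) (nat_lit 380) (XT.nd (nat_lit 60372) (nat_lit 0) (nat_lit 6080) (XT.nd (nat_lit 546) (nat_lit 380) (nat_lit 0) (XT.nd (nat_lit 234) (nat_lit 912) (nat_lit 0) (XT.nd (nat_lit 78) (nat_lit 912) (nat_lit 0) (XT.lf (nat_lit 0) (nat_lit 23375321509) (nat_lit 532) (nat_lit 4987899306) (nat_lit 76) (nat_lit 74736089203) (nat_lit 230) (nat_lit 5) (nat_lit 237) (nat_lit 5) (nat_lit 231) (nat_lit 5) (nat_lit 525) (nat_lit 491) (nat_lit 184)) (XT.nd (nat_lit 78) (nat_lit 456) (nat_lit 0) (XT.lf (nat_lit 0) (nat_lit 39883989541) (nat_lit 532) (nat_lit 49899332336) (nat_lit 76) (nat_lit 15100313638) (nat_lit 224) (nat_lit 5) (nat_lit 231) (nat_lit 5) (nat_lit 225) (nat_lit 5) (nat_lit 526) (nat_lit 491) (nat_lit 183)) (XT.lf (nat_lit 0) (nat_lit 10052392783) (nat_lit 456) (nat_lit 47263536365) (nat_lit 532) (nat_lit 49392721306)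 (nat_lit 218) (nat_lit 5) (nat_lit 224) (nat_lit 5) (nat_lit 225) (nat_lit 5) (nat_lit 527) (nat_lit 491) (nat_lit 182)))) (XT.nd (nat_lit 156) (nat_lit 532) (nat_lit 0) (XT.nd (nat_lit 78) (nat_lit 380) (nat_lit 0) (XT.lf (nat_lit 0) (nat_lit 72825178798) (nat_lit 456) (nat_lit 2949230041) (nat_lit 532) (nat_lit 32798899566) (nat_lit 218) (nat_lit 5) (nat_lit 224) (nat_lit 5) (nat_lit 225) (nat_lit 5) (nat_lit 528) (nat_lit 491) (nat_lit 181)) (XT.lf (nat_lit 0) (nat_lit 27105384885) (nat_lit 380) (nat_lit 68351921907) (nat_lit 456) (nat_lit 15016479408) (nat_lit 213) (nat_lit 5) (nat_lit 218) (nat_lit 5) (nat_lit 219) (nat_lit 5) (nat_lit 529) (nat_lit 491) (nat_lit 180))) (XT.nd (nat_lit 78) (nat_lit 456) (nat_lit 0) (XT.lf (nat_lit 0) (nat_lit 3628497106) (nat_lit 456) (nat_lit 19908010292) (nat_lit 76) (nat_lit 88882015456) (nat_lit 212) (nat_lit 5) (nat_lit 218) (nat_lit 5) (nat_lit 213) (nat_lit 5) (nat_lit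 530) (nat_lit 491) (nat_lit 179)) (XT.lf (nat_lit 0) (nat_lit 23198248412) (nat_lit 532) (nat_lit 68418314078) (nat_lit 76) (nat_lit 22780561538) (nat_lit 206) (nat_lit 5) (nat_lit 213) (nat_lit 5) (nat_lit 207) (nat_lit 5) (nat_lit 531) (nat_lit 491) (nat_lit 178))))) (XT.nd (nat_lit 59514) (nat_lit 0) (nat_lit 8284) (XT.nd (nat_lit 59358) (nat_lit 0) (nat_lit 8208) (XT.nd (nat_lit 78) (nat_lit 380) (nat_lit 0) (XT.lf (nat_lit 0) (nat_lit 43790868572) (nat_lit 532) (nat_lit 2414118526) (nat_lit 76) (nat_lit 70217022869) (nat_lit 206) (nat_lit 5) (nat_lit 213) (nat_lit 5) (nat_lit 207) (nat_lit 5) (nat_lit 532) (nat_lit 491) (nat_lit 177)) (XT.lf (nat_lit 0) (nat_lit 65655669303) (nat_lit 456) (nat_lit 51625386783) (nat_lit 76) (nat_lit 1206954358) (nat_lit 201) (nat_lit 5) (nat_lit 207) (nat_lit 5) (nat_lit 202) (nat_lit 5) (nat_lit 533) (nat_lit 491) (nat_lit 176))) (XT.nd (nat_lit 78) (nat_lit 0) (nat_lit 0)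 (XT.lf (nat_lit 0) (nat_lit 16509955234) (nat_lit 1292) (nat_lit 7150035576) (nat_lit 1292) (nat_lit 7150035576) (nat_lit 309) (nat_lit 3) (nat_lit 326) (nat_lit 3) (nat_lit 326) (nat_lit 5) (nat_lit 492) (nat_lit 492) (nat_lit 216)) (XT.lf (nat_lit 76) (nat_lit 16585959413) (nat_lit 0) (nat_lit 17105826309) (nat_lit 1292) (nat_lit 28847268962) (nat_lit 310) (nat_lit 5) (nat_lit 309) (nat_lit 3) (nat_lit 326) (nat_lit 5) (nat_lit 493) (nat_lit 492) (nat_lit 215)))) (XT.nd (nat_lit 156) (nat_lit 0) (nat_lit 76) (XT.nd (nat_lit 78) (nat_lit 0) (nat_lit 0) (XT.lf (nat_lit 0) (nat_lit 34663698722) (nat_lit 1216) (nat_lit 14926109098) (nat_lit 1292) (nat_lit 13887422446) (nat_lit 310) (nat_lit 5) (nat_lit 326) (nat_lit 5) (nat_lit 327) (nat_lit 5) (nat_lit 494) (nat_lit 492) (nat_lit 214)) (XT.lf (nat_lit 76) (nat_lit 17197544240) (nat_lit 0) (nat_lit 18801252994) (nat_lit 1292) (nat_lit 28434733099) (nat_lit 311) (nat_lit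 5) (nat_lit 310) (nat_lit 5) (nat_lit 327) (nat_lit 5) (nat_lit 495) (nat_lit 492) (nat_lit 213))) (XT.nd (nat_lit 78) (nat_lit 0) (nat_lit 0) (XT.lf (nat_lit 0) (nat_lit 37649641776) (nat_lit 1216) (nat_lit 14949102229) (nat_lit 1292) (nat_lit 12811504663) (nat_lit 311) (nat_lit 5) (nat_lit 327) (nat_lit 5) (nat_lit 328) (nat_lit 5) (nat_lit 496) (nat_lit 492) (nat_lit 212)) (XT.lf (nat_lit 76) (nat_lit 18480487134) (nat_lit 0) (nat_lit 21232707973) (nat_lit 1292) (nat_lit 26692177998) (nat_lit 312) (nat_lit 5) (nat_lit 311) (nat_lit 5) (nat_lit 328) (nat_lit 5) (nat_lit 497) (nat_lit 492) (nat_lit 211)))))) (XT.nd (nat_lit 624) (nat_lit 2356) (nat_lit 0) (XT.nd (nat_lit 312) (nat_lit 0) (nat_lit 152) (XT.nd (nat_lit 156) (nat_lit 0) (nat_lit 76) (XT.nd (nat_lit 78) (nat_lit 0) (nat_lit 0) (XT.lf (nat_lit 0) (nat_lit 42096962561) (nat_lit 1216) (nat_lit 14314751595) (nat_lit 1292) (nat_lit 11010887949) (nat_lit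 312) (nat_lit 5) (nat_lit 328) (nat_lit 5) (nat_lit 329) (nat_lit 5) (nat_lit 498) (nat_lit 492) (nat_lit 210)) (XT.lf (nat_lit 76) (nat_lit 20492977593) (nat_lit 0) (nat_lit 24465901943) (nat_lit 1292) (nat_lit 23499269398) (nat_lit 313) (nat_lit 5) (nat_lit 312) (nat_lit 5) (nat_lit 329) (nat_lit 5) (nat_lit 499) (nat_lit 492) (nat_lit 209))) (XT.nd (nat_lit 78) (nat_lit 0) (nat_lit 0) (XT.lf (nat_lit 0) (nat_lit 48133185879) (nat_lit 1216) (nat_lit 12964985163) (nat_lit 1292) (nat_lit 8419795222) (nat_lit 313) (nat_lit 5) (nat_lit 329) (nat_lit 5) (nat_lit 330) (nat_lit 5) (nat_lit 500) (nat_lit 492) (nat_lit 208)) (XT.lf (nat_lit 76) (nat_lit 23297202276) (nat_lit 0) (nat_lit 28571154965) (nat_lit 1292) (nat_lit 18727251848) (nat_lit 314) (nat_lit 5) (nat_lit 313) (nat_lit 5) (nat_lit 330) (nat_lit 5) (nat_lit 501) (nat_lit 492) (nat_lit 207)))) (XT.nd (nat_lit 156) (nat_lit 0) (nat_lit 76) (XT.nd (nat_lit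 78) (nat_lit 0) (nat_lit 0) (XT.lf (nat_lit 0) (nat_lit 55894673250) (nat_lit 1216) (nat_lit 10837725157) (nat_lit 1292) (nat_lit 4967810156) (nat_lit 314) (nat_lit 5) (nat_lit 330) (nat_lit 5) (nat_lit 331) (nat_lit 5) (nat_lit 502) (nat_lit 492) (nat_lit 206)) (XT.lf (nat_lit 76) (nat_lit 26959590497) (nat_lit 0) (nat_lit 33623704676) (nat_lit 1292) (nat_lit 12238405402) (nat_lit 315) (nat_lit 5) (nat_lit 314) (nat_lit 5) (nat_lit 331) (nat_lit 5) (nat_lit 503) (nat_lit 492) (nat_lit 205))) (XT.nd (nat_lit 78) (nat_lit 0) (nat_lit 0) (XT.lf (nat_lit 0) (nat_lit 65527190646) (nat_lit 1216) (nat_lit 7866641766) (nat_lit 1292) (nat_lit 579566534) (nat_lit 315) (nat_lit 5) (nat_lit 331) (nat_lit 5) (nat_lit 332) (nat_lit 5) (nat_lit 504) (nat_lit 492) (nat_lit 204)) (XT.lf (nat_lit 76) (nat_lit 31551074054) (nat_lit 0) (nat_lit 39704034175) (nat_lit 1292) (nat_lit 3885468926) (nat_lit 316) (nat_lit 5) (nat_lit 315)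 (nat_lit 5) (nat_lit 332) (nat_lit 5) (nat_lit 505) (nat_lit 492) (nat_lit 203))))) (XT.nd (nat_lit 312) (nat_lit 1292) (nat_lit 0) (XT.nd (nat_lit 156) (nat_lit 0) (nat_lit 76) (XT.nd (nat_lit 78) (nat_lit 0) (nat_lit 76) (XT.lf (nat_lit 0) (nat_lit 875984848) (nat_lit 1292) (nat_lit 4036790238) (nat_lit 1368) (nat_lit 71427369305) (nat_lit 298) (nat_lit 5) (nat_lit 315) (nat_lit 5) (nat_lit 316) (nat_lit 5) (nat_lit 506) (nat_lit 492) (nat_lit 202)) (XT.lf (nat_lit 0) (nat_lit 6362348779) (nat_lit 1292) (nat_lit 40471624867) (nat_lit 1368) (nat_lit 30720766122) (nat_lit 299) (nat_lit 5) (nat_lit 316) (nat_lit 5) (nat_lit 317) (nat_lit 5) (nat_lit 507) (nat_lit 492) (nat_lit 201))) (XT.nd (nat_lit 78) (nat_lit 0) (nat_lit 76) (XT.lf (nat_lit 76) (nat_lit 678625589) (nat_lit 0) (nat_lit 11430549986) (nat_lit 1368) (nat_lit 66693721312) (nat_lit 300) (nat_lit 5) (nat_lit 299) (nat_lit 5) (nat_lit 317) (nat_lit 5)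 (nat_lit 508) (nat_lit 492) (nat_lit 200)) (XT.lf (nat_lit 0) (nat_lit 18681339413) (nat_lit 1292) (nat_lit 36428323492) (nat_lit 76) (nat_lit 24959247885) (nat_lit 300) (nat_lit 5) (nat_lit 317) (nat_lit 5) (nat_lit 301) (nat_lit 5) (nat_lit 509) (nat_lit 492) (nat_lit 199)))) (XT.nd (nat_lit 156) (nat_lit 608) (nat_lit 0) (XT.nd (nat_lit 78) (nat_lit 0) (nat_lit 0) (XT.lf (nat_lit 0) (nat_lit 6532411909) (nat_lit 836) (nat_lit 19093786953) (nat_lit 912) (nat_lit 55741440366) (nat_lit 289) (nat_lit 5) (nat_lit 300) (nat_lit 5) (nat_lit 301) (nat_lit 5) (nat_lit 510) (nat_lit 492) (nat_lit 198)) (XT.lf (nat_lit 0) (nat_lit 33323525367) (nat_lit 912) (nat_lit 31342670824) (nat_lit 76) (nat_lit 18022809725) (nat_lit 289) (nat_lit 5) (nat_lit 301) (nat_lit 5) (nat_lit 290) (nat_lit 5) (nat_lit 511) (nat_lit 492) (nat_lit 197))) (XT.nd (nat_lit 78) (nat_lit 0) (nat_lit 0) (XT.lf (nat_lit 0) (nat_lit 13529233175) (nat_lit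 608) (nat_lit 28041222430) (nat_lit 684) (nat_lit 42469997517) (nat_lit 281) (nat_lit 5) (nat_lit 289) (nat_lit 5) (nat_lit 290) (nat_lit 5) (nat_lit 512) (nat_lit 492) (nat_lit 196)) (XT.lf (nat_lit 0) (nat_lit 50477094966) (nat_lit 684) (nat_lit 25129762754) (nat_lit 76) (nat_lit 9813217022) (nat_lit 281) (nat_lit 5) (nat_lit 290) (nat_lit 5) (nat_lit 282) (nat_lit 5) (nat_lit 513) (nat_lit 492) (nat_lit 195))))))) (XT.nd (nat_lit 1170) (nat_lit 912) (nat_lit 0) (XT.nd (nat_lit 546) (nat_lit 2432) (nat_lit 0) (XT.nd (nat_lit 234) (nat_lit 1216) (nat_lit 0) (XT.nd (nat_lit 78) (nat_lit 532) (nat_lit 0) (XT.lf (nat_lit 0) (nat_lit 21759729949) (nat_lit 608) (nat_lit 38377613004) (nat_lit 684) (nat_lit 26689149808) (nat_lit 273) (nat_lit 5) (nat_lit 281) (nat_lit 5) (nat_lit 282) (nat_lit 5) (nat_lit 514) (nat_lit 492) (nat_lit 194)) (XT.nd (nat_lit 78) (nat_lit 532) (nat_lit 0) (XT.lf (nat_lit 0) (nat_lit 70342983140)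 (nat_lit 684) (nat_lit 17699048310) (nat_lit 76) (nat_lit 225404361) (nat_lit 273) (nat_lit 5) (nat_lit 282) (nat_lit 5) (nat_lit 274) (nat_lit 5) (nat_lit 515) (nat_lit 492) (nat_lit 193)) (XT.lf (nat_lit 0) (nat_lit 31320517779) (nat_lit 532) (nat_lit 50214948000) (nat_lit 608) (nat_lit 8195721206) (nat_lit 266) (nat_lit 5) (nat_lit 273) (nat_lit 5) (nat_lit 274) (nat_lit 5) (nat_lit 516) (nat_lit 492) (nat_lit 192)))) (XT.nd (nat_lit 156) (nat_lit 532) (nat_lit 0) (XT.nd (nat_lit 78) (nat_lit 608) (nat_lit 0) (XT.lf (nat_lit 0) (nat_lit 1969386162) (nat_lit 608) (nat_lit 9079699580) (nat_lit 76) (nat_lit 80183835014) (nat_lit 265) (nat_lit 5) (nat_lit 273) (nat_lit 5) (nat_lit 266) (nat_lit 5) (nat_lit 517) (nat_lit 492) (nat_lit 191)) (XT.lf (nat_lit 0) (nat_lit 12969106871) (nat_lit 684) (nat_lit 50572857971) (nat_lit 76) (nat_lit 29214475775) (nat_lit 257) (nat_lit 5) (nat_lit 266) (nat_lit 5) (nat_lit 258)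 (nat_lit 5) (nat_lit 518) (nat_lit 492) (nat_lit 190))) (XT.nd (nat_lit 78) (nat_lit 0) (nat_lit 0) (XT.lf (nat_lit 0) (nat_lit 751962659) (nat_lit 532) (nat_lit 23755722896) (nat_lit 608) (nat_lit 69811714557) (nat_lit 250) (nat_lit 5) (nat_lit 257) (nat_lit 5) (nat_lit 258) (nat_lit 5) (nat_lit 519) (nat_lit 492) (nat_lit 189)) (XT.lf (nat_lit 0) (nat_lit 37073385864) (nat_lit 608) (nat_lit 41431716259) (nat_lit 76) (nat_lit 17403717367) (nat_lit 250) (nat_lit 5) (nat_lit 258) (nat_lit 5) (nat_lit 251) (nat_lit 5) (nat_lit 520) (nat_lit 492) (nat_lit 188))))) (XT.nd (nat_lit 312) (nat_lit 1444) (nat_lit 0) (XT.nd (nat_lit 156) (nat_lit 456) (nat_lit 0) (XT.nd (nat_lit 78) (nat_lit 0) (nat_lit 0) (XT.lf (nat_lit 0) (nat_lit 12271967472) (nat_lit 532) (nat_lit 38096923275) (nat_lit 608) (nat_lit 47166445722) (nat_lit 243) (nat_lit 5) (nat_lit 250) (nat_lit 5) (nat_lit 251) (nat_lit 5) (nat_lit 521) (nat_lit 492)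 (nat_lit 187)) (XT.lf (nat_lit 0) (nat_lit 64519320896) (nat_lit 608) (nat_lit 30800418834) (nat_lit 76) (nat_lit 3877227449) (nat_lit 243) (nat_lit 5) (nat_lit 251) (nat_lit 5) (nat_lit 244) (nat_lit 5) (nat_lit 522) (nat_lit 492) (nat_lit 186))) (XT.nd (nat_lit 78) (nat_lit 0) (nat_lit 0) (XT.lf (nat_lit 0) (nat_lit 25414787575) (nat_lit 456) (nat_lit 54300654382) (nat_lit 532) (nat_lit 21174369537) (nat_lit 237) (nat_lit 5) (nat_lit 243) (nat_lit 5) (nat_lit 244) (nat_lit 5) (nat_lit 523) (nat_lit 492) (nat_lit 185)) (XT.lf (nat_lit 0) (nat_lit 83947463141) (nat_lit 456) (nat_lit 11730691468) (nat_lit 532) (nat_lit 6945965315) (nat_lit 237) (nat_lit 5) (nat_lit 243) (nat_lit 5) (nat_lit 244) (nat_lit 5) (nat_lit 524) (nat_lit 492) (nat_lit 184)))) (XT.nd (nat_lit 156) (nat_lit 912) (nat_lit 0) (XT.nd (nat_lit 78) (nat_lit 0) (nat_lit 0) (XT.lf (nat_lit 0) (nat_lit 8261576869) (nat_lit 532) (nat_lit 64167545549)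 (nat_lit 76) (nat_lit 31958030363) (nat_lit 230) (nat_lit 5) (nat_lit 237) (nat_lit 5) (nat_lit 231) (nat_lit 5) (nat_lit 525) (nat_lit 492) (nat_lit 183)) (XT.lf (nat_lit 0) (nat_lit 24092044006) (nat_lit 532) (nat_lit 5118957133) (nat_lit 76) (nat_lit 76980823178) (nat_lit 230) (nat_lit 5) (nat_lit 237) (nat_lit 5) (nat_lit 231) (nat_lit 5) (nat_lit 526) (nat_lit 492) (nat_lit 182))) (XT.nd (nat_lit 78) (nat_lit 456) (nat_lit 0) (XT.lf (nat_lit 0) (nat_lit 41095729382) (nat_lit 532) (nat_lit 51377489373) (nat_lit 76) (nat_lit 15556468138) (nat_lit 224) (nat_lit 5) (nat_lit 231) (nat_lit 5) (nat_lit 225) (nat_lit 5) (nat_lit 527) (nat_lit 492) (nat_lit 181)) (XT.lf (nat_lit 0) (nat_lit 10372602960) (nat_lit 456) (nat_lit 48677760075) (nat_lit 532) (nat_lit 50859097201) (nat_lit 218) (nat_lit 5) (nat_lit 224) (nat_lit 5) (nat_lit 225) (nat_lit 5) (nat_lit 528) (nat_lit 492) (nat_lit 180)))))) (XT.nd (nat_lit 59904)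 (nat_lit 0) (nat_lit 7904) (XT.nd (nat_lit 312) (nat_lit 0) (nat_lit 0) (XT.nd (nat_lit 156) (nat_lit 532) (nat_lit 0) (XT.nd (nat_lit 78) (nat_lit 380) (nat_lit 0) (XT.lf (nat_lit 0) (nat_lit 75028029691) (nat_lit 456) (nat_lit 3034131815) (nat_lit 532) (nat_lit 33767909519) (nat_lit 218) (nat_lit 5) (nat_lit 224) (nat_lit 5) (nat_lit 225) (nat_lit 5) (nat_lit 529) (nat_lit 492) (nat_lit 179)) (XT.lf (nat_lit 0) (nat_lit 27936862876) (nat_lit 380) (nat_lit 70398470030) (nat_lit 456) (nat_lit 15452236681) (nat_lit 213) (nat_lit 5) (nat_lit 218) (nat_lit 5) (nat_lit 219) (nat_lit 5) (nat_lit 530) (nat_lit 492) (nat_lit 178))) (XT.nd (nat_lit 78) (nat_lit 456) (nat_lit 0) (XT.lf (nat_lit 0) (nat_lit 3751380694) (nat_lit 456) (nat_lit 20487187512) (nat_lit 76) (nat_lit 91552088538) (nat_lit 212) (nat_lit 5) (nat_lit 218) (nat_lit 5) (nat_lit 213) (nat_lit 5) (nat_lit 531) (nat_lit 492) (nat_lit 177)) (XT.lf (nat_lit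 0) (nat_lit 23908027222) (nat_lit 532) (nat_lit 70452602187) (nat_lit 76) (nat_lit 23467992491) (nat_lit 206) (nat_lit 5) (nat_lit 213) (nat_lit 5) (nat_lit 207) (nat_lit 5) (nat_lit 532) (nat_lit 492) (nat_lit 176)))) (XT.nd (nat_lit 59436) (nat_lit 0) (nat_lit 7828) (XT.nd (nat_lit 59358) (nat_lit 0) (nat_lit 7828) (XT.lf (nat_lit 0) (nat_lit 45118023132) (nat_lit 532) (nat_lit 2468812652) (nat_lit 76) (nat_lit 72327430746) (nat_lit 206) (nat_lit 5) (nat_lit 213) (nat_lit 5) (nat_lit 207) (nat_lit 5) (nat_lit 533) (nat_lit 492) (nat_lit 175)) (XT.lf (nat_lit 0) (nat_lit 17022231318) (nat_lit 1292) (nat_lit 7355792484) (nat_lit 1292) (nat_lit 7355792484) (nat_lit 309) (nat_lit 3) (nat_lit 326) (nat_lit 3) (nat_lit 326) (nat_lit 5) (nat_lit 493) (nat_lit 493) (nat_lit 214))) (XT.nd (nat_lit 78) (nat_lit 0) (nat_lit 76) (XT.lf (nat_lit 76) (nat_lit 17100855061) (nat_lit 0) (nat_lit 17634816570) (nat_lit 1292) (nat_lit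 29678557674) (nat_lit 310) (nat_lit 5) (nat_lit 309) (nat_lit 3) (nat_lit 326) (nat_lit 5) (nat_lit 494) (nat_lit 493) (nat_lit 213)) (XT.lf (nat_lit 0) (nat_lit 35735629402) (nat_lit 1216) (nat_lit 15355964300) (nat_lit 1292) (nat_lit 14288989920) (nat_lit 310) (nat_lit 5) (nat_lit 326) (nat_lit 5) (nat_lit 327) (nat_lit 5) (nat_lit 495) (nat_lit 493) (nat_lit 212))))) (XT.nd (nat_lit 312) (nat_lit 0) (nat_lit 152) (XT.nd (nat_lit 156) (nat_lit 0) (nat_lit 76) (XT.nd (nat_lit 78) (nat_lit 0) (nat_lit 76) (XT.lf (nat_lit 76) (nat_lit 17731222872) (nat_lit 0) (nat_lit 19378796029) (nat_lit 1292) (nat_lit 29255576735) (nat_lit 311) (nat_lit 5) (nat_lit 310) (nat_lit 5) (nat_lit 327) (nat_lit 5) (nat_lit 496) (nat_lit 493) (nat_lit 211)) (XT.lf (nat_lit 0) (nat_lit 38809352318) (nat_lit 1216) (nat_lit 15379300797) (nat_lit 1292) (nat_lit 13182993584) (nat_lit 311) (nat_lit 5) (nat_lit 327) (nat_lit 5) (nat_lit 328)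 (nat_lit 5) (nat_lit 497) (nat_lit 493) (nat_lit 210))) (XT.nd (nat_lit 78) (nat_lit 0) (nat_lit 76) (XT.lf (nat_lit 76) (nat_lit 19052997085) (nat_lit 0) (nat_lit 21881108876) (nat_lit 1292) (nat_lit 27462540178) (nat_lit 312) (nat_lit 5) (nat_lit 311) (nat_lit 5) (nat_lit 328) (nat_lit 5) (nat_lit 498) (nat_lit 493) (nat_lit 209)) (XT.lf (nat_lit 0) (nat_lit 43388420204) (nat_lit 1216) (nat_lit 14725656988) (nat_lit 1292) (nat_lit 11330343884) (nat_lit 312) (nat_lit 5) (nat_lit 328) (nat_lit 5) (nat_lit 329) (nat_lit 5) (nat_lit 499) (nat_lit 493) (nat_lit 208)))) (XT.nd (nat_lit 156) (nat_lit 0) (nat_lit 76) (XT.nd (nat_lit 78) (nat_lit 0) (nat_lit 76) (XT.lf (nat_lit 76) (nat_lit 21126122339) (nat_lit 0) (nat_lit 25209417275) (nat_lit 1292) (nat_lit 24175514425) (nat_lit 313) (nat_lit 5) (nat_lit 312) (nat_lit 5) (nat_lit 329) (nat_lit 5) (nat_lit 500) (nat_lit 493) (nat_lit 207)) (XT.lf (nat_lit 0) (nat_lit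 49604173691) (nat_lit 1216) (nat_lit 13335209990) (nat_lit 1292) (nat_lit 8663309324) (nat_lit 313) (nat_lit 5) (nat_lit 329) (nat_lit 5) (nat_lit 330) (nat_lit 5) (nat_lit 501) (nat_lit 493) (nat_lit 206))) (XT.nd (nat_lit 78) (nat_lit 0) (nat_lit 76) (XT.lf (nat_lit 76) (nat_lit 24014659496) (nat_lit 0) (nat_lit 29436132745) (nat_lit 1292) (nat_lit 19261891184) (nat_lit 314) (nat_lit 5) (nat_lit 313) (nat_lit 5) (nat_lit 330) (nat_lit 5) (nat_lit 502) (nat_lit 493) (nat_lit 205)) (XT.lf (nat_lit 0) (nat_lit 57597056060) (nat_lit 1216) (nat_lit 11144011784) (nat_lit 1292) (nat_lit 5109378360) (nat_lit 314) (nat_lit 5) (nat_lit 330) (nat_lit 5) (nat_lit 331) (nat_lit 5) (nat_lit 503) (nat_lit 493) (nat_lit 204))))))))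
noncomputable def xc247 : XT := (XT.nd (nat_lit 61854) (nat_lit 0) (nat_lit 1368) (XT.nd (nat_lit 1170) (nat_lit 4028) (nat_lit 0) (XT.nd (nat_lit 546) (nat_lit 2508) (nat_lit 0) (XT.nd (nat_lit 234) (nat_lit 1216) (nat_lit 0) (XT.nd (nat_lit 78) (nat_lit 0) (nat_lit 76) (XT.lf (nat_lit 76) (nat_lit 27787038583) (nat_lit 0) (nat_lit 34638733473) (nat_lit 1292) (nat_lit 12579827926) (nat_lit 315) (nat_lit 5) (nat_lit 314) (nat_lit 5) (nat_lit 331) (nat_lit 5) (nat_lit 504) (nat_lit 493) (nat_lit 203)) (XT.nd (nat_lit 78) (nat_lit 0) (nat_lit 0) (XT.lf (nat_lit 0) (nat_lit 67517197917) (nat_lit 1216) (nat_lit 8083735475) (nat_lit 1292) (nat_lit 590939572) (nat_lit 315) (nat_lit 5) (nat_lit 331) (nat_lit 5) (nat_lit 332) (nat_lit 5) (nat_lit 505) (nat_lit 493) (nat_lit 202)) (XT.lf (nat_lit 76) (nat_lit 32516326471) (nat_lit 0) (nat_lit 40900101899) (nat_lit 1292) (nat_lit 3977653955) (nat_lit 316) (nat_lit 5) (nat_lit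 315) (nat_lit 5) (nat_lit 332) (nat_lit 5) (nat_lit 506) (nat_lit 493) (nat_lit 201)))) (XT.nd (nat_lit 156) (nat_lit 0) (nat_lit 76) (XT.nd (nat_lit 78) (nat_lit 0) (nat_lit 76) (XT.lf (nat_lit 0) (nat_lit 925471497) (nat_lit 1292) (nat_lit 4139255116) (nat_lit 1368) (nat_lit 73564923882) (nat_lit 298) (nat_lit 5) (nat_lit 315) (nat_lit 5) (nat_lit 316) (nat_lit 5) (nat_lit 507) (nat_lit 493) (nat_lit 200)) (XT.lf (nat_lit 0) (nat_lit 6575886944) (nat_lit 1292) (nat_lit 41666593425) (nat_lit 1368) (nat_lit 31638219604) (nat_lit 299) (nat_lit 5) (nat_lit 316) (nat_lit 5) (nat_lit 317) (nat_lit 5) (nat_lit 508) (nat_lit 493) (nat_lit 199))) (XT.nd (nat_lit 78) (nat_lit 0) (nat_lit 76) (XT.lf (nat_lit 76) (nat_lit 717976503) (nat_lit 0) (nat_lit 11776664381) (nat_lit 1368) (nat_lit 68671675308) (nat_lit 300) (nat_lit 5) (nat_lit 299) (nat_lit 5) (nat_lit 317) (nat_lit 5) (nat_lit 509) (nat_lit 493) (nat_lit 198))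 (XT.lf (nat_lit 0) (nat_lit 19263293480) (nat_lit 1292) (nat_lit 37502056218) (nat_lit 76) (nat_lit 25704981154) (nat_lit 300) (nat_lit 5) (nat_lit 317) (nat_lit 5) (nat_lit 301) (nat_lit 5) (nat_lit 510) (nat_lit 493) (nat_lit 197))))) (XT.nd (nat_lit 312) (nat_lit 1216) (nat_lit 0) (XT.nd (nat_lit 156) (nat_lit 608) (nat_lit 0) (XT.nd (nat_lit 78) (nat_lit 0) (nat_lit 0) (XT.lf (nat_lit 0) (nat_lit 6747313823) (nat_lit 836) (nat_lit 19668740234) (nat_lit 912) (nat_lit 57391980479) (nat_lit 289) (nat_lit 5) (nat_lit 300) (nat_lit 5) (nat_lit 301) (nat_lit 5) (nat_lit 511) (nat_lit 493) (nat_lit 196)) (XT.lf (nat_lit 0) (nat_lit 34343666721) (nat_lit 912) (nat_lit 32263937363) (nat_lit 76) (nat_lit 18561457202) (nat_lit 289) (nat_lit 5) (nat_lit 301) (nat_lit 5) (nat_lit 290) (nat_lit 5) (nat_lit 512) (nat_lit 493) (nat_lit 195))) (XT.nd (nat_lit 78) (nat_lit 0) (nat_lit 0) (XT.lf (nat_lit 0) (nat_lit 13953937348)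 (nat_lit 608) (nat_lit 28883653286) (nat_lit 684) (nat_lit 43723473753) (nat_lit 281) (nat_lit 5) (nat_lit 289) (nat_lit 5) (nat_lit 290) (nat_lit 5) (nat_lit 513) (nat_lit 493) (nat_lit 194)) (XT.lf (nat_lit 0) (nat_lit 52010834884) (nat_lit 684) (nat_lit 25864780893) (nat_lit 76) (nat_lit 10106476756) (nat_lit 281) (nat_lit 5) (nat_lit 290) (nat_lit 5) (nat_lit 282) (nat_lit 5) (nat_lit 514) (nat_lit 493) (nat_lit 193)))) (XT.nd (nat_lit 156) (nat_lit 608) (nat_lit 0) (XT.nd (nat_lit 78) (nat_lit 0) (nat_lit 0) (XT.lf (nat_lit 0) (nat_lit 22431211544) (nat_lit 608) (nat_lit 39529292586) (nat_lit 684) (nat_lit 27470210595) (nat_lit 273) (nat_lit 5) (nat_lit 281) (nat_lit 5) (nat_lit 282) (nat_lit 5) (nat_lit 515) (nat_lit 493) (nat_lit 192)) (XT.lf (nat_lit 0) (nat_lit 72471755657) (nat_lit 684) (nat_lit 18211315011) (nat_lit 76) (nat_lit 231832182) (nat_lit 273) (nat_lit 5) (nat_lit 282) (nat_lit 5) (nat_lit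 274) (nat_lit 5) (nat_lit 516) (nat_lit 493) (nat_lit 191))) (XT.nd (nat_lit 78) (nat_lit 76) (nat_lit 0) (XT.lf (nat_lit 0) (nat_lit 32278654681) (nat_lit 532) (nat_lit 51720997792) (nat_lit 608) (nat_lit 8422924940) (nat_lit 266) (nat_lit 5) (nat_lit 273) (nat_lit 5) (nat_lit 274) (nat_lit 5) (nat_lit 517) (nat_lit 493) (nat_lit 190)) (XT.lf (nat_lit 0) (nat_lit 2046238256) (nat_lit 608) (nat_lit 9333753575) (nat_lit 76) (nat_lit 82589382020) (nat_lit 265) (nat_lit 5) (nat_lit 273) (nat_lit 5) (nat_lit 266) (nat_lit 5) (nat_lit 518) (nat_lit 493) (nat_lit 189)))))) (XT.nd (nat_lit 624) (nat_lit 1368) (nat_lit 0) (XT.nd (nat_lit 312) (nat_lit 988) (nat_lit 0) (XT.nd (nat_lit 156) (nat_lit 532) (nat_lit 0) (XT.nd (nat_lit 78) (nat_lit 532) (nat_lit 0) (XT.lf (nat_lit 0) (nat_lit 13375614552) (nat_lit 684) (nat_lit 52071369310) (nat_lit 76) (nat_lit 30091625567) (nat_lit 257) (nat_lit 5) (nat_lit 266) (nat_lit 5)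 (nat_lit 258) (nat_lit 5) (nat_lit 519) (nat_lit 493) (nat_lit 188)) (XT.lf (nat_lit 0) (nat_lit 793012857) (nat_lit 532) (nat_lit 24467007689) (nat_lit 608) (nat_lit 71888447104) (nat_lit 250) (nat_lit 5) (nat_lit 257) (nat_lit 5) (nat_lit 258) (nat_lit 5) (nat_lit 520) (nat_lit 493) (nat_lit 187))) (XT.nd (nat_lit 78) (nat_lit 532) (nat_lit 0) (XT.lf (nat_lit 0) (nat_lit 38202206621) (nat_lit 608) (nat_lit 42656228473) (nat_lit 76) (nat_lit 17927149111) (nat_lit 250) (nat_lit 5) (nat_lit 258) (nat_lit 5) (nat_lit 251) (nat_lit 5) (nat_lit 521) (nat_lit 493) (nat_lit 186)) (XT.lf (nat_lit 0) (nat_lit 12658384992) (nat_lit 532) (nat_lit 39237883115) (nat_lit 608) (nat_lit 48564637880) (nat_lit 243) (nat_lit 5) (nat_lit 250) (nat_lit 5) (nat_lit 251) (nat_lit 5) (nat_lit 522) (nat_lit 493) (nat_lit 185)))) (XT.nd (nat_lit 156) (nat_lit 532) (nat_lit 0) (XT.nd (nat_lit 78) (nat_lit 456) (nat_lit 0) (XT.lf (nat_lit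 0) (nat_lit 66470754273) (nat_lit 608) (nat_lit 31706246595) (nat_lit 76) (nat_lit 3995398493) (nat_lit 243) (nat_lit 5) (nat_lit 251) (nat_lit 5) (nat_lit 244) (nat_lit 5) (nat_lit 523) (nat_lit 493) (nat_lit 184)) (XT.lf (nat_lit 0) (nat_lit 26195237723) (nat_lit 456) (nat_lit 55927232573) (nat_lit 532) (nat_lit 21793567406) (nat_lit 237) (nat_lit 5) (nat_lit 243) (nat_lit 5) (nat_lit 244) (nat_lit 5) (nat_lit 524) (nat_lit 493) (nat_lit 183))) (XT.nd (nat_lit 78) (nat_lit 532) (nat_lit 0) (XT.lf (nat_lit 0) (nat_lit 86483369094) (nat_lit 456) (nat_lit 12080241881) (nat_lit 532) (nat_lit 7138778045) (nat_lit 237) (nat_lit 5) (nat_lit 243) (nat_lit 5) (nat_lit 244) (nat_lit 5) (nat_lit 525) (nat_lit 493) (nat_lit 182)) (XT.lf (nat_lit 0) (nat_lit 8524436652) (nat_lit 532) (nat_lit 66074533903) (nat_lit 76) (nat_lit 32919345351) (nat_lit 230) (nat_lit 5) (nat_lit 237) (nat_lit 5) (nat_lit 231) (nat_lit 5) (nat_lit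 526) (nat_lit 493) (nat_lit 181))))) (XT.nd (nat_lit 312) (nat_lit 456) (nat_lit 0) (XT.nd (nat_lit 156) (nat_lit 456) (nat_lit 0) (XT.nd (nat_lit 78) (nat_lit 456) (nat_lit 0) (XT.lf (nat_lit 0) (nat_lit 24829380546) (nat_lit 532) (nat_lit 5255013214) (nat_lit 76) (nat_lit 79292746977) (nat_lit 230) (nat_lit 5) (nat_lit 237) (nat_lit 5) (nat_lit 231) (nat_lit 5) (nat_lit 527) (nat_lit 493) (nat_lit 180)) (XT.lf (nat_lit 0) (nat_lit 42342947719) (nat_lit 532) (nat_lit 52901071635) (nat_lit 76) (nat_lit 16026126731) (nat_lit 224) (nat_lit 5) (nat_lit 231) (nat_lit 5) (nat_lit 225) (nat_lit 5) (nat_lit 528) (nat_lit 493) (nat_lit 179))) (XT.nd (nat_lit 78) (nat_lit 0) (nat_lit 0) (XT.lf (nat_lit 0) (nat_lit 10701349523) (nat_lit 456) (nat_lit 50134621880) (nat_lit 532) (nat_lit 52370348724) (nat_lit 218) (nat_lit 5) (nat_lit 224) (nat_lit 5) (nat_lit 225) (nat_lit 5) (nat_lit 529) (nat_lit 493) (nat_lit 178)) (XT.lf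 (nat_lit 0) (nat_lit 77295927352) (nat_lit 456) (nat_lit 3121785869) (nat_lit 532) (nat_lit 34766848366) (nat_lit 218) (nat_lit 5) (nat_lit 224) (nat_lit 5) (nat_lit 225) (nat_lit 5) (nat_lit 530) (nat_lit 493) (nat_lit 177)))) (XT.nd (nat_lit 59592) (nat_lit 0) (nat_lit 7372) (XT.nd (nat_lit 78) (nat_lit 76) (nat_lit 0) (XT.lf (nat_lit 0) (nat_lit 28792233768) (nat_lit 380) (nat_lit 72506644761) (nat_lit 456) (nat_lit 15901912642) (nat_lit 213) (nat_lit 5) (nat_lit 218) (nat_lit 5) (nat_lit 219) (nat_lit 5) (nat_lit 531) (nat_lit 493) (nat_lit 176)) (XT.lf (nat_lit 0) (nat_lit 3877145487) (nat_lit 456) (nat_lit 21084776944) (nat_lit 76) (nat_lit 94302056433) (nat_lit 212) (nat_lit 5) (nat_lit 218) (nat_lit 5) (nat_lit 213) (nat_lit 5) (nat_lit 532) (nat_lit 493) (nat_lit 175))) (XT.nd (nat_lit 78) (nat_lit 0) (nat_lit 0) (XT.lf (nat_lit 0) (nat_lit 17548901110) (nat_lit 1292) (nat_lit 7568224049) (nat_lit 1292)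 (nat_lit 7568224049) (nat_lit 309) (nat_lit 3) (nat_lit 326) (nat_lit 3) (nat_lit 326) (nat_lit 5) (nat_lit 494) (nat_lit 494) (nat_lit 212)) (XT.lf (nat_lit 76) (nat_lit 17630203519) (nat_lit 0) (nat_lit 18178768666) (nat_lit 1292) (nat_lit 30536744213) (nat_lit 310) (nat_lit 5) (nat_lit 309) (nat_lit 3) (nat_lit 326) (nat_lit 5) (nat_lit 495) (nat_lit 494) (nat_lit 211))))))) (XT.nd (nat_lit 1248) (nat_lit 5168) (nat_lit 0) (XT.nd (nat_lit 624) (nat_lit 912) (nat_lit 0) (XT.nd (nat_lit 312) (nat_lit 0) (nat_lit 152) (XT.nd (nat_lit 156) (nat_lit 0) (nat_lit 76) (XT.nd (nat_lit 78) (nat_lit 0) (nat_lit 0) (XT.lf (nat_lit 0) (nat_lit 36837879939) (nat_lit 1216) (nat_lit 15799744303) (nat_lit 1292) (nat_lit 14703468649) (nat_lit 310) (nat_lit 5) (nat_lit 326) (nat_lit 5) (nat_lit 327) (nat_lit 5) (nat_lit 496) (nat_lit 494) (nat_lit 210)) (XT.lf (nat_lit 76) (nat_lit 18279892809) (nat_lit 0) (nat_lit 19972890087)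 (nat_lit 1292) (nat_lit 30102893997) (nat_lit 311) (nat_lit 5) (nat_lit 310) (nat_lit 5) (nat_lit 327) (nat_lit 5) (nat_lit 497) (nat_lit 494) (nat_lit 209))) (XT.nd (nat_lit 78) (nat_lit 0) (nat_lit 0) (XT.lf (nat_lit 0) (nat_lit 40002119352) (nat_lit 1216) (nat_lit 15823454352) (nat_lit 1292) (nat_lit 13566365172) (nat_lit 311) (nat_lit 5) (nat_lit 327) (nat_lit 5) (nat_lit 328) (nat_lit 5) (nat_lit 498) (nat_lit 494) (nat_lit 208)) (XT.lf (nat_lit 76) (nat_lit 19641643589) (nat_lit 0) (nat_lit 22548306270) (nat_lit 1292) (nat_lit 28257758489) (nat_lit 312) (nat_lit 5) (nat_lit 311) (nat_lit 5) (nat_lit 328) (nat_lit 5) (nat_lit 499) (nat_lit 494) (nat_lit 207)))) (XT.nd (nat_lit 156) (nat_lit 0) (nat_lit 76) (XT.nd (nat_lit 78) (nat_lit 0) (nat_lit 0) (XT.lf (nat_lit 0) (nat_lit 44716982759) (nat_lit 1216) (nat_lit 15149953651) (nat_lit 1292) (nat_lit 11660007520) (nat_lit 312) (nat_lit 5) (nat_lit 328) (nat_lit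 5) (nat_lit 329) (nat_lit 5) (nat_lit 500) (nat_lit 494) (nat_lit 206)) (XT.lf (nat_lit 76) (nat_lit 21777207751) (nat_lit 0) (nat_lit 25974690531) (nat_lit 1292) (nat_lit 24873696197) (nat_lit 313) (nat_lit 5) (nat_lit 312) (nat_lit 5) (nat_lit 329) (nat_lit 5) (nat_lit 501) (nat_lit 494) (nat_lit 205))) (XT.nd (nat_lit 78) (nat_lit 0) (nat_lit 0) (XT.lf (nat_lit 0) (nat_lit 51117741674) (nat_lit 1216) (nat_lit 13717616437) (nat_lit 1292) (nat_lit 8914650065) (nat_lit 313) (nat_lit 5) (nat_lit 329) (nat_lit 5) (nat_lit 330) (nat_lit 5) (nat_lit 502) (nat_lit 494) (nat_lit 204)) (XT.lf (nat_lit 76) (nat_lit 24752576096) (nat_lit 0) (nat_lit 30326609631) (nat_lit 1292) (nat_lit 19814129841) (nat_lit 314) (nat_lit 5) (nat_lit 313) (nat_lit 5) (nat_lit 330) (nat_lit 5) (nat_lit 503) (nat_lit 494) (nat_lit 203))))) (XT.nd (nat_lit 312) (nat_lit 1216) (nat_lit 0) (XT.nd (nat_lit 156) (nat_lit 0) (nat_lit 76) (XT.nd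 (nat_lit 78) (nat_lit 0) (nat_lit 0) (XT.lf (nat_lit 0) (nat_lit 59349044103) (nat_lit 1216) (nat_lit 11460568798) (nat_lit 1292) (nat_lit 5255622195) (nat_lit 314) (nat_lit 5) (nat_lit 330) (nat_lit 5) (nat_lit 331) (nat_lit 5) (nat_lit 504) (nat_lit 494) (nat_lit 202)) (XT.lf (nat_lit 76) (nat_lit 28638238929) (nat_lit 0) (nat_lit 35683850474) (nat_lit 1292) (nat_lit 12932970113) (nat_lit 315) (nat_lit 5) (nat_lit 314) (nat_lit 5) (nat_lit 331) (nat_lit 5) (nat_lit 505) (nat_lit 494) (nat_lit 201))) (XT.nd (nat_lit 78) (nat_lit 0) (nat_lit 0) (XT.lf (nat_lit 0) (nat_lit 69565516713) (nat_lit 1216) (nat_lit 8308427251) (nat_lit 1292) (nat_lit 602999027) (nat_lit 315) (nat_lit 5) (nat_lit 331) (nat_lit 5) (nat_lit 332) (nat_lit 5) (nat_lit 506) (nat_lit 494) (nat_lit 200)) (XT.lf (nat_lit 76) (nat_lit 33509461844) (nat_lit 0) (nat_lit 42131767694) (nat_lit 1292) (nat_lit 4074003991) (nat_lit 316) (nat_lit 5) (nat_lit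 315) (nat_lit 5) (nat_lit 332) (nat_lit 5) (nat_lit 507) (nat_lit 494) (nat_lit 199)))) (XT.nd (nat_lit 156) (nat_lit 0) (nat_lit 76) (XT.nd (nat_lit 78) (nat_lit 0) (nat_lit 76) (XT.lf (nat_lit 0) (nat_lit 975110562) (nat_lit 1292) (nat_lit 4245863885) (nat_lit 1368) (nat_lit 75766907414) (nat_lit 298) (nat_lit 5) (nat_lit 315) (nat_lit 5) (nat_lit 316) (nat_lit 5) (nat_lit 508) (nat_lit 494) (nat_lit 198)) (XT.lf (nat_lit 0) (nat_lit 6794530035) (nat_lit 1292) (nat_lit 42898512062) (nat_lit 1368) (nat_lit 32583436036) (nat_lit 299) (nat_lit 5) (nat_lit 316) (nat_lit 5) (nat_lit 317) (nat_lit 5) (nat_lit 509) (nat_lit 494) (nat_lit 197))) (XT.nd (nat_lit 78) (nat_lit 0) (nat_lit 76) (XT.lf (nat_lit 76) (nat_lit 757417718) (nat_lit 0) (nat_lit 12132978635) (nat_lit 1368) (nat_lit 70710280047) (nat_lit 300) (nat_lit 5) (nat_lit 299) (nat_lit 5) (nat_lit 317) (nat_lit 5) (nat_lit 510) (nat_lit 494) (nat_lit 196))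 (XT.lf (nat_lit 0) (nat_lit 19861471185) (nat_lit 1292) (nat_lit 38609098319) (nat_lit 76) (nat_lit 26473261169) (nat_lit 300) (nat_lit 5) (nat_lit 317) (nat_lit 5) (nat_lit 301) (nat_lit 5) (nat_lit 511) (nat_lit 494) (nat_lit 195)))))) (XT.nd (nat_lit 624) (nat_lit 2660) (nat_lit 0) (XT.nd (nat_lit 312) (nat_lit 1216) (nat_lit 0) (XT.nd (nat_lit 156) (nat_lit 608) (nat_lit 0) (XT.nd (nat_lit 78) (nat_lit 0) (nat_lit 0) (XT.lf (nat_lit 0) (nat_lit 6967576161) (nat_lit 836) (nat_lit 20260819287) (nat_lit 912) (nat_lit 59093282643) (nat_lit 289) (nat_lit 5) (nat_lit 300) (nat_lit 5) (nat_lit 301) (nat_lit 5) (nat_lit 512) (nat_lit 494) (nat_lit 194)) (XT.lf (nat_lit 0) (nat_lit 35393239230) (nat_lit 912) (nat_lit 33213933356) (nat_lit 76) (nat_lit 19116381024) (nat_lit 289) (nat_lit 5) (nat_lit 301) (nat_lit 5) (nat_lit 290) (nat_lit 5) (nat_lit 513) (nat_lit 494) (nat_lit 193))) (XT.nd (nat_lit 78) (nat_lit 0)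 (nat_lit 0) (XT.lf (nat_lit 0) (nat_lit 14390301890) (nat_lit 608) (nat_lit 29751288516) (nat_lit 684) (nat_lit 45015738160) (nat_lit 281) (nat_lit 5) (nat_lit 289) (nat_lit 5) (nat_lit 290) (nat_lit 5) (nat_lit 514) (nat_lit 494) (nat_lit 192)) (XT.lf (nat_lit 0) (nat_lit 53589471807) (nat_lit 684) (nat_lit 26622933064) (nat_lit 76) (nat_lit 10408599538) (nat_lit 281) (nat_lit 5) (nat_lit 290) (nat_lit 5) (nat_lit 282) (nat_lit 5) (nat_lit 515) (nat_lit 494) (nat_lit 191)))) (XT.nd (nat_lit 156) (nat_lit 608) (nat_lit 0) (XT.nd (nat_lit 78) (nat_lit 0) (nat_lit 0) (XT.lf (nat_lit 0) (nat_lit 23121764723) (nat_lit 608) (nat_lit 40715502396) (nat_lit 684) (nat_lit 28275829113) (nat_lit 273) (nat_lit 5) (nat_lit 281) (nat_lit 5) (nat_lit 282) (nat_lit 5) (nat_lit 516) (nat_lit 494) (nat_lit 190)) (XT.lf (nat_lit 0) (nat_lit 74663330348) (nat_lit 684) (nat_lit 18740023441) (nat_lit 76) (nat_lit 238472028) (nat_lit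 273) (nat_lit 5) (nat_lit 282) (nat_lit 5) (nat_lit 274) (nat_lit 5) (nat_lit 517) (nat_lit 494) (nat_lit 189))) (XT.nd (nat_lit 78) (nat_lit 76) (nat_lit 0) (XT.lf (nat_lit 0) (nat_lit 33264472488) (nat_lit 532) (nat_lit 53272251962) (nat_lit 608) (nat_lit 8658016400) (nat_lit 266) (nat_lit 5) (nat_lit 273) (nat_lit 5) (nat_lit 274) (nat_lit 5) (nat_lit 518) (nat_lit 494) (nat_lit 188)) (XT.lf (nat_lit 0) (nat_lit 2124375813) (nat_lit 608) (nat_lit 9596481807) (nat_lit 76) (nat_lit 85067093601) (nat_lit 265) (nat_lit 5) (nat_lit 273) (nat_lit 5) (nat_lit 266) (nat_lit 5) (nat_lit 519) (nat_lit 494) (nat_lit 187))))) (XT.nd (nat_lit 312) (nat_lit 988) (nat_lit 0) (XT.nd (nat_lit 156) (nat_lit 532) (nat_lit 0) (XT.nd (nat_lit 78) (nat_lit 532) (nat_lit 0) (XT.lf (nat_lit 0) (nat_lit 13793316653) (nat_lit 684) (nat_lit 53615907976) (nat_lit 76) (nat_lit 30995048779) (nat_lit 257) (nat_lit 5) (nat_lit 266) (nat_lit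 5) (nat_lit 258) (nat_lit 5) (nat_lit 520) (nat_lit 494) (nat_lit 186)) (XT.lf (nat_lit 0) (nat_lit 834233083) (nat_lit 532) (nat_lit 25199710640) (nat_lit 608) (nat_lit 74028493023) (nat_lit 250) (nat_lit 5) (nat_lit 257) (nat_lit 5) (nat_lit 258) (nat_lit 5) (nat_lit 521) (nat_lit 494) (nat_lit 185))) (XT.nd (nat_lit 78) (nat_lit 532) (nat_lit 0) (XT.lf (nat_lit 0) (nat_lit 39363937991) (nat_lit 608) (nat_lit 43918534544) (nat_lit 76) (nat_lit 18466208022) (nat_lit 250) (nat_lit 5) (nat_lit 258) (nat_lit 5) (nat_lit 251) (nat_lit 5) (nat_lit 522) (nat_lit 494) (nat_lit 184)) (XT.lf (nat_lit 0) (nat_lit 13055346926) (nat_lit 532) (nat_lit 40413183566) (nat_lit 608) (nat_lit 50005740260) (nat_lit 243) (nat_lit 5) (nat_lit 250) (nat_lit 5) (nat_lit 251) (nat_lit 5) (nat_lit 523) (nat_lit 494) (nat_lit 183)))) (XT.nd (nat_lit 156) (nat_lit 532) (nat_lit 0) (XT.nd (nat_lit 78) (nat_lit 456) (nat_lit 0) (XT.lf (nat_lit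 0) (nat_lit 68479820581) (nat_lit 608) (nat_lit 32640293072) (nat_lit 76) (nat_lit 4117008229) (nat_lit 243) (nat_lit 5) (nat_lit 251) (nat_lit 5) (nat_lit 244) (nat_lit 5) (nat_lit 524) (nat_lit 494) (nat_lit 182)) (XT.lf (nat_lit 0) (nat_lit 26998067728) (nat_lit 456) (nat_lit 57602748258) (nat_lit 532) (nat_lit 22432261584) (nat_lit 237) (nat_lit 5) (nat_lit 243) (nat_lit 5) (nat_lit 244) (nat_lit 5) (nat_lit 525) (nat_lit 494) (nat_lit 181))) (XT.nd (nat_lit 78) (nat_lit 532) (nat_lit 0) (XT.lf (nat_lit 0) (nat_lit 89094348685) (nat_lit 456) (nat_lit 12440414873) (nat_lit 532) (nat_lit 7338268722) (nat_lit 237) (nat_lit 5) (nat_lit 243) (nat_lit 5) (nat_lit 244) (nat_lit 5) (nat_lit 526) (nat_lit 494) (nat_lit 180)) (XT.lf (nat_lit 0) (nat_lit 8794320451) (nat_lit 532) (nat_lit 68039767364) (nat_lit 76) (nat_lit 33909352026) (nat_lit 230) (nat_lit 5) (nat_lit 237) (nat_lit 5) (nat_lit 231) (nat_lit 5) (nat_lit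 527) (nat_lit 494) (nat_lit 179))))))))
noncomputable def xc248 : XT := (XT.nd (nat_lit 61932) (nat_lit 0) (nat_lit 380) (XT.nd (nat_lit 60684) (nat_lit 0) (nat_lit 3952) (XT.nd (nat_lit 60060) (nat_lit 0) (nat_lit 7372) (XT.nd (nat_lit 234) (nat_lit 380) (nat_lit 0) (XT.nd (nat_lit 78) (nat_lit 912) (nat_lit 0) (XT.lf (nat_lit 0) (nat_lit 25588000506) (nat_lit 532) (nat_lit 5396156275) (nat_lit 76) (nat_lit 81673885031) (nat_lit 230) (nat_lit 5) (nat_lit 237) (nat_lit 5) (nat_lit 231) (nat_lit 5) (nat_lit 528) (nat_lit 494) (nat_lit 178)) (XT.nd (nat_lit 78) (nat_lit 456) (nat_lit 0) (XT.lf (nat_lit 0) (nat_lit 43626759061) (nat_lit 532) (nat_lit 54471379853) (nat_lit 76) (nat_lit 16509704904) (nat_lit 224) (nat_lit 5) (nat_lit 231) (nat_lit 5) (nat_lit 225) (nat_lit 5) (nat_lit 529) (nat_lit 494) (nat_lit 177)) (XT.lf (nat_lit 0) (nat_lit 11038949980) (nat_lit 456) (nat_lit 51635388788) (nat_lit 532) (nat_lit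 53927771381) (nat_lit 218) (nat_lit 5) (nat_lit 224) (nat_lit 5) (nat_lit 225) (nat_lit 5) (nat_lit 530) (nat_lit 494) (nat_lit 176)))) (XT.nd (nat_lit 59670) (nat_lit 0) (nat_lit 7296) (XT.nd (nat_lit 78) (nat_lit 380) (nat_lit 0) (XT.lf (nat_lit 0) (nat_lit 79630882815) (nat_lit 456) (nat_lit 3212262990) (nat_lit 532) (nat_lit 35796564686) (nat_lit 218) (nat_lit 5) (nat_lit 224) (nat_lit 5) (nat_lit 225) (nat_lit 5) (nat_lit 531) (nat_lit 494) (nat_lit 175)) (XT.lf (nat_lit 0) (nat_lit 29672274705) (nat_lit 380) (nat_lit 74678281685) (nat_lit 456) (nat_lit 16365876291) (nat_lit 213) (nat_lit 5) (nat_lit 218) (nat_lit 5) (nat_lit 219) (nat_lit 5) (nat_lit 532) (nat_lit 494) (nat_lit 174))) (XT.nd (nat_lit 78) (nat_lit 0) (nat_lit 0) (XT.lf (nat_lit 0) (nat_lit 18090452367) (nat_lit 1292) (nat_lit 7787501698) (nat_lit 1292) (nat_lit 7787501698) (nat_lit 309) (nat_lit 3) (nat_lit 326) (nat_lit 3) (nat_lit 326) (nat_lit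 5) (nat_lit 495) (nat_lit 495) (nat_lit 210)) (XT.lf (nat_lit 76) (nat_lit 18174495435) (nat_lit 0) (nat_lit 18738183568) (nat_lit 1292) (nat_lit 31422523048) (nat_lit 310) (nat_lit 5) (nat_lit 309) (nat_lit 3) (nat_lit 326) (nat_lit 5) (nat_lit 496) (nat_lit 495) (nat_lit 209))))) (XT.nd (nat_lit 312) (nat_lit 0) (nat_lit 152) (XT.nd (nat_lit 156) (nat_lit 0) (nat_lit 76) (XT.nd (nat_lit 78) (nat_lit 0) (nat_lit 0) (XT.lf (nat_lit 0) (nat_lit 37971465442) (nat_lit 1216) (nat_lit 16257807774) (nat_lit 1292) (nat_lit 15131196359) (nat_lit 310) (nat_lit 5) (nat_lit 326) (nat_lit 5) (nat_lit 327) (nat_lit 5) (nat_lit 497) (nat_lit 495) (nat_lit 208)) (XT.lf (nat_lit 76) (nat_lit 18844062287) (nat_lit 0) (nat_lit 20584076203) (nat_lit 1292) (nat_lit 30977372994) (nat_lit 311) (nat_lit 5) (nat_lit 310) (nat_lit 5) (nat_lit 327) (nat_lit 5) (nat_lit 498) (nat_lit 495) (nat_lit 207))) (XT.nd (nat_lit 78) (nat_lit 0) (nat_lit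 0) (XT.lf (nat_lit 0) (nat_lit 41229034157) (nat_lit 1216) (nat_lit 16281921327) (nat_lit 1292) (nat_lit 13961933543) (nat_lit 311) (nat_lit 5) (nat_lit 327) (nat_lit 5) (nat_lit 328) (nat_lit 5) (nat_lit 499) (nat_lit 495) (nat_lit 206)) (XT.lf (nat_lit 76) (nat_lit 20246970370) (nat_lit 0) (nat_lit 23234901681) (nat_lit 1292) (nat_lit 29078478430) (nat_lit 312) (nat_lit 5) (nat_lit 311) (nat_lit 5) (nat_lit 328) (nat_lit 5) (nat_lit 500) (nat_lit 495) (nat_lit 205)))) (XT.nd (nat_lit 156) (nat_lit 0) (nat_lit 76) (XT.nd (nat_lit 78) (nat_lit 0) (nat_lit 0) (XT.lf (nat_lit 0) (nat_lit 46083857450) (nat_lit 1216) (nat_lit 15587982238) (nat_lit 1292) (nat_lit 12000149267) (nat_lit 312) (nat_lit 5) (nat_lit 328) (nat_lit 5) (nat_lit 329) (nat_lit 5) (nat_lit 501) (nat_lit 495) (nat_lit 204)) (XT.lf (nat_lit 76) (nat_lit 22446832535) (nat_lit 0) (nat_lit 26762405879) (nat_lit 1292) (nat_lit 25594378135) (nat_lit 313)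 (nat_lit 5) (nat_lit 312) (nat_lit 5) (nat_lit 329) (nat_lit 5) (nat_lit 502) (nat_lit 495) (nat_lit 203))) (XT.nd (nat_lit 78) (nat_lit 0) (nat_lit 0) (XT.lf (nat_lit 0) (nat_lit 52675256177) (nat_lit 1216) (nat_lit 14112508252) (nat_lit 1292) (nat_lit 9174022322) (nat_lit 313) (nat_lit 5) (nat_lit 329) (nat_lit 5) (nat_lit 330) (nat_lit 5) (nat_lit 503) (nat_lit 495) (nat_lit 202)) (XT.lf (nat_lit 76) (nat_lit 25511626953) (nat_lit 0) (nat_lit 31243376441) (nat_lit 1292) (nat_lit 20384406241) (nat_lit 314) (nat_lit 5) (nat_lit 313) (nat_lit 5) (nat_lit 330) (nat_lit 5) (nat_lit 504) (nat_lit 495) (nat_lit 201)))))) (XT.nd (nat_lit 624) (nat_lit 2508) (nat_lit 0) (XT.nd (nat_lit 312) (nat_lit 1216) (nat_lit 0) (XT.nd (nat_lit 156) (nat_lit 0) (nat_lit 76) (XT.nd (nat_lit 78) (nat_lit 0) (nat_lit 0) (XT.lf (nat_lit 0) (nat_lit 61152209707) (nat_lit 1216) (nat_lit 11787642211) (nat_lit 1292) (nat_lit 5406657327)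 (nat_lit 314) (nat_lit 5) (nat_lit 330) (nat_lit 5) (nat_lit 331) (nat_lit 5) (nat_lit 505) (nat_lit 495) (nat_lit 200)) (XT.lf (nat_lit 76) (nat_lit 29513965595) (nat_lit 0) (nat_lit 36759979145) (nat_lit 1292) (nat_lit 13298098767) (nat_lit 315) (nat_lit 5) (nat_lit 314) (nat_lit 5) (nat_lit 331) (nat_lit 5) (nat_lit 506) (nat_lit 495) (nat_lit 199))) (XT.nd (nat_lit 78) (nat_lit 0) (nat_lit 0) (XT.lf (nat_lit 0) (nat_lit 71673976095) (nat_lit 1216) (nat_lit 8540882738) (nat_lit 1292) (nat_lit 615745674) (nat_lit 315) (nat_lit 5) (nat_lit 331) (nat_lit 5) (nat_lit 332) (nat_lit 5) (nat_lit 507) (nat_lit 495) (nat_lit 198)) (XT.lf (nat_lit 76) (nat_lit 34531378350) (nat_lit 0) (nat_lit 43400115803) (nat_lit 1292) (nat_lit 4174563650) (nat_lit 316) (nat_lit 5) (nat_lit 315) (nat_lit 5) (nat_lit 332) (nat_lit 5) (nat_lit 508) (nat_lit 495) (nat_lit 197)))) (XT.nd (nat_lit 156) (nat_lit 0) (nat_lit 76) (XT.nd (nat_lit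 78) (nat_lit 0) (nat_lit 76) (XT.lf (nat_lit 0) (nat_lit 1024983090) (nat_lit 1292) (nat_lit 4356679443) (nat_lit 1368) (nat_lit 78035235417) (nat_lit 298) (nat_lit 5) (nat_lit 315) (nat_lit 5) (nat_lit 316) (nat_lit 5) (nat_lit 509) (nat_lit 495) (nat_lit 196)) (XT.lf (nat_lit 0) (nat_lit 7018505896) (nat_lit 1292) (nat_lit 44168426075) (nat_lit 1368) (nat_lit 33557234568) (nat_lit 299) (nat_lit 5) (nat_lit 316) (nat_lit 5) (nat_lit 317) (nat_lit 5) (nat_lit 510) (nat_lit 495) (nat_lit 195))) (XT.nd (nat_lit 78) (nat_lit 0) (nat_lit 76) (XT.lf (nat_lit 76) (nat_lit 797014526) (nat_lit 0) (nat_lit 12499809282) (nat_lit 1368) (nat_lit 72811279728) (nat_lit 300) (nat_lit 5) (nat_lit 299) (nat_lit 5) (nat_lit 317) (nat_lit 5) (nat_lit 511) (nat_lit 495) (nat_lit 194)) (XT.lf (nat_lit 0) (nat_lit 20476430128) (nat_lit 1292) (nat_lit 39750386080) (nat_lit 76) (nat_lit 27264754301) (nat_lit 300) (nat_lit 5) (nat_lit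 317) (nat_lit 5) (nat_lit 301) (nat_lit 5) (nat_lit 512) (nat_lit 495) (nat_lit 193))))) (XT.nd (nat_lit 312) (nat_lit 1216) (nat_lit 0) (XT.nd (nat_lit 156) (nat_lit 608) (nat_lit 0) (XT.nd (nat_lit 78) (nat_lit 0) (nat_lit 0) (XT.lf (nat_lit 0) (nat_lit 7193422113) (nat_lit 836) (nat_lit 20870544937) (nat_lit 912) (nat_lit 60846798201) (nat_lit 289) (nat_lit 5) (nat_lit 300) (nat_lit 5) (nat_lit 301) (nat_lit 5) (nat_lit 513) (nat_lit 495) (nat_lit 192)) (XT.lf (nat_lit 0) (nat_lit 36473193168) (nat_lit 912) (nat_lit 34193458033) (nat_lit 76) (nat_lit 19688062771) (nat_lit 289) (nat_lit 5) (nat_lit 301) (nat_lit 5) (nat_lit 290) (nat_lit 5) (nat_lit 514) (nat_lit 495) (nat_lit 191))) (XT.nd (nat_lit 78) (nat_lit 0) (nat_lit 0) (XT.lf (nat_lit 0) (nat_lit 14838738650) (nat_lit 608) (nat_lit 30644888188) (nat_lit 684) (nat_lit 46347886423) (nat_lit 281) (nat_lit 5) (nat_lit 289) (nat_lit 5) (nat_lit 290) (nat_lit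 5) (nat_lit 515) (nat_lit 495) (nat_lit 190)) (XT.lf (nat_lit 0) (nat_lit 55214416661) (nat_lit 684) (nat_lit 27404851090) (nat_lit 76) (nat_lit 10719847512) (nat_lit 281) (nat_lit 5) (nat_lit 290) (nat_lit 5) (nat_lit 282) (nat_lit 5) (nat_lit 516) (nat_lit 495) (nat_lit 189)))) (XT.nd (nat_lit 156) (nat_lit 608) (nat_lit 0) (XT.nd (nat_lit 78) (nat_lit 0) (nat_lit 0) (XT.lf (nat_lit 0) (nat_lit 23832023219) (nat_lit 608) (nat_lit 41937279498) (nat_lit 684) (nat_lit 29106677462) (nat_lit 273) (nat_lit 5) (nat_lit 281) (nat_lit 5) (nat_lit 282) (nat_lit 5) (nat_lit 517) (nat_lit 495) (nat_lit 188)) (XT.lf (nat_lit 0) (nat_lit 76919652185) (nat_lit 684) (nat_lit 19285605218) (nat_lit 76) (nat_lit 245329159) (nat_lit 273) (nat_lit 5) (nat_lit 282) (nat_lit 5) (nat_lit 274) (nat_lit 5) (nat_lit 518) (nat_lit 495) (nat_lit 187))) (XT.nd (nat_lit 78) (nat_lit 76) (nat_lit 0) (XT.lf (nat_lit 0) (nat_lit 34278862659)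 (nat_lit 532) (nat_lit 54870065328) (nat_lit 608) (nat_lit 8901170702) (nat_lit 266) (nat_lit 5) (nat_lit 273) (nat_lit 5) (nat_lit 274) (nat_lit 5) (nat_lit 519) (nat_lit 495) (nat_lit 186)) (XT.lf (nat_lit 0) (nat_lit 2203895955) (nat_lit 608) (nat_lit 9868084080) (nat_lit 76) (nat_lit 87619134800) (nat_lit 265) (nat_lit 5) (nat_lit 273) (nat_lit 5) (nat_lit 266) (nat_lit 5) (nat_lit 520) (nat_lit 495) (nat_lit 185))))))) (XT.nd (nat_lit 60762) (nat_lit 0) (nat_lit 5396) (XT.nd (nat_lit 546) (nat_lit 1444) (nat_lit 0) (XT.nd (nat_lit 234) (nat_lit 988) (nat_lit 0) (XT.nd (nat_lit 78) (nat_lit 532) (nat_lit 0) (XT.lf (nat_lit 0) (nat_lit 14222606458) (nat_lit 684) (nat_lit 55207793252) (nat_lit 76) (nat_lit 31925535971) (nat_lit 257) (nat_lit 5) (nat_lit 266) (nat_lit 5) (nat_lit 258) (nat_lit 5) (nat_lit 521) (nat_lit 495) (nat_lit 184)) (XT.nd (nat_lit 78) (nat_lit 0) (nat_lit 0) (XT.lf (nat_lit 0) (nat_lit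 875689372) (nat_lit 532) (nat_lit 25954469722) (nat_lit 608) (nat_lit 76233693659) (nat_lit 250) (nat_lit 5) (nat_lit 257) (nat_lit 5) (nat_lit 258) (nat_lit 5) (nat_lit 522) (nat_lit 495) (nat_lit 183)) (XT.lf (nat_lit 0) (nat_lit 40559622057) (nat_lit 608) (nat_lit 45219707524) (nat_lit 76) (nat_lit 19021367264) (nat_lit 250) (nat_lit 5) (nat_lit 258) (nat_lit 5) (nat_lit 251) (nat_lit 5) (nat_lit 523) (nat_lit 495) (nat_lit 182)))) (XT.nd (nat_lit 156) (nat_lit 456) (nat_lit 0) (XT.nd (nat_lit 78) (nat_lit 0) (nat_lit 0) (XT.lf (nat_lit 0) (nat_lit 13463229771) (nat_lit 532) (nat_lit 41623848427) (nat_lit 608) (nat_lit 51490984807) (nat_lit 243) (nat_lit 5) (nat_lit 250) (nat_lit 5) (nat_lit 251) (nat_lit 5) (nat_lit 524) (nat_lit 495) (nat_lit 181)) (XT.lf (nat_lit 0) (nat_lit 70548301050) (nat_lit 608) (nat_lit 33603344901) (nat_lit 76) (nat_lit 4242165928) (nat_lit 243) (nat_lit 5) (nat_lit 251) (nat_lit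 5) (nat_lit 244) (nat_lit 5) (nat_lit 525) (nat_lit 495) (nat_lit 180))) (XT.nd (nat_lit 78) (nat_lit 0) (nat_lit 0) (XT.lf (nat_lit 0) (nat_lit 27824008321) (nat_lit 456) (nat_lit 59328661517) (nat_lit 532) (nat_lit 23090984126) (nat_lit 237) (nat_lit 5) (nat_lit 243) (nat_lit 5) (nat_lit 244) (nat_lit 5) (nat_lit 526) (nat_lit 495) (nat_lit 179)) (XT.lf (nat_lit 0) (nat_lit 91782711729) (nat_lit 456) (nat_lit 12811521311) (nat_lit 532) (nat_lit 7544586390) (nat_lit 237) (nat_lit 5) (nat_lit 243) (nat_lit 5) (nat_lit 244) (nat_lit 5) (nat_lit 527) (nat_lit 495) (nat_lit 178))))) (XT.nd (nat_lit 312) (nat_lit 0) (nat_lit 0) (XT.nd (nat_lit 156) (nat_lit 912) (nat_lit 0) (XT.nd (nat_lit 78) (nat_lit 0) (nat_lit 0) (XT.lf (nat_lit 0) (nat_lit 9071488456) (nat_lit 532) (nat_lit 70064933846) (nat_lit 76) (nat_lit 34928919621) (nat_lit 230) (nat_lit 5) (nat_lit 237) (nat_lit 5) (nat_lit 231) (nat_lit 5) (nat_lit 528)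 (nat_lit 495) (nat_lit 177)) (XT.lf (nat_lit 0) (nat_lit 26368590416) (nat_lit 532) (nat_lit 5542481216) (nat_lit 76) (nat_lit 84126322004) (nat_lit 230) (nat_lit 5) (nat_lit 237) (nat_lit 5) (nat_lit 231) (nat_lit 5) (nat_lit 529) (nat_lit 495) (nat_lit 176))) (XT.nd (nat_lit 78) (nat_lit 456) (nat_lit 0) (XT.lf (nat_lit 0) (nat_lit 44948308472) (nat_lit 532) (nat_lit 56089757339) (nat_lit 76) (nat_lit 17007630014) (nat_lit 224) (nat_lit 5) (nat_lit 231) (nat_lit 5) (nat_lit 225) (nat_lit 5) (nat_lit 530) (nat_lit 495) (nat_lit 175)) (XT.lf (nat_lit 0) (nat_lit 11385727841) (nat_lit 456) (nat_lit 53181366515) (nat_lit 532) (nat_lit 55532702454) (nat_lit 218) (nat_lit 5) (nat_lit 224) (nat_lit 5) (nat_lit 225) (nat_lit 5) (nat_lit 531) (nat_lit 495) (nat_lit 174)))) (XT.nd (nat_lit 59748) (nat_lit 0) (nat_lit 6916) (XT.nd (nat_lit 59670) (nat_lit 0) (nat_lit 6916) (XT.lf (nat_lit 0) (nat_lit 82034964020) (nat_lit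 456) (nat_lit 3305636767) (nat_lit 532) (nat_lit 36857935346) (nat_lit 218) (nat_lit 5) (nat_lit 224) (nat_lit 5) (nat_lit 225) (nat_lit 5) (nat_lit 532) (nat_lit 495) (nat_lit 173)) (XT.lf (nat_lit 0) (nat_lit 18647384266) (nat_lit 1292) (nat_lit 8013803652) (nat_lit 1292) (nat_lit 8013803652) (nat_lit 309) (nat_lit 3) (nat_lit 326) (nat_lit 3) (nat_lit 326) (nat_lit 5) (nat_lit 496) (nat_lit 496) (nat_lit 208))) (XT.nd (nat_lit 78) (nat_lit 0) (nat_lit 76) (XT.lf (nat_lit 76) (nat_lit 18734232901) (nat_lit 0) (nat_lit 19313574284) (nat_lit 1292) (nat_lit 32336615940) (nat_lit 310) (nat_lit 5) (nat_lit 309) (nat_lit 3) (nat_lit 326) (nat_lit 5) (nat_lit 497) (nat_lit 496) (nat_lit 207)) (XT.lf (nat_lit 0) (nat_lit 39137425415) (nat_lit 1216) (nat_lit 16730527530) (nat_lit 1292) (nat_lit 15572523758) (nat_lit 310) (nat_lit 5) (nat_lit 326) (nat_lit 5) (nat_lit 327) (nat_lit 5) (nat_lit 498) (nat_lit 496) (nat_lit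 206)))))) (XT.nd (nat_lit 624) (nat_lit 1596) (nat_lit 0) (XT.nd (nat_lit 312) (nat_lit 0) (nat_lit 152) (XT.nd (nat_lit 156) (nat_lit 0) (nat_lit 76) (XT.nd (nat_lit 78) (nat_lit 0) (nat_lit 76) (XT.lf (nat_lit 76) (nat_lit 19424251431) (nat_lit 0) (nat_lit 21212909087) (nat_lit 1292) (nat_lit 31879728566) (nat_lit 311) (nat_lit 5) (nat_lit 310) (nat_lit 5) (nat_lit 327) (nat_lit 5) (nat_lit 499) (nat_lit 496) (nat_lit 205)) (XT.lf (nat_lit 0) (nat_lit 42491215035) (nat_lit 1216) (nat_lit 16755074361) (nat_lit 1292) (nat_lit 14370024668) (nat_lit 311) (nat_lit 5) (nat_lit 327) (nat_lit 5) (nat_lit 328) (nat_lit 5) (nat_lit 500) (nat_lit 496) (nat_lit 204))) (XT.nd (nat_lit 78) (nat_lit 0) (nat_lit 76) (XT.lf (nat_lit 76) (nat_lit 20869534042) (nat_lit 0) (nat_lit 23941512520) (nat_lit 1292) (nat_lit 29925370615) (nat_lit 312) (nat_lit 5) (nat_lit 311) (nat_lit 5) (nat_lit 328) (nat_lit 5) (nat_lit 501) (nat_lit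 496) (nat_lit 203)) (XT.lf (nat_lit 0) (nat_lit 47490282315) (nat_lit 1216) (nat_lit 16040097130) (nat_lit 1292) (nat_lit 12351049702) (nat_lit 312) (nat_lit 5) (nat_lit 328) (nat_lit 5) (nat_lit 329) (nat_lit 5) (nat_lit 502) (nat_lit 496) (nat_lit 202)))) (XT.nd (nat_lit 156) (nat_lit 0) (nat_lit 76) (XT.nd (nat_lit 78) (nat_lit 0) (nat_lit 76) (XT.lf (nat_lit 76) (nat_lit 23135609884) (nat_lit 0) (nat_lit 27573266209) (nat_lit 1292) (nat_lit 26338145997) (nat_lit 313) (nat_lit 5) (nat_lit 312) (nat_lit 5) (nat_lit 329) (nat_lit 5) (nat_lit 503) (nat_lit 496) (nat_lit 201)) (XT.lf (nat_lit 0) (nat_lit 54278119436) (nat_lit 1216) (nat_lit 14520201834) (nat_lit 1292) (nat_lit 9441638840) (nat_lit 313) (nat_lit 5) (nat_lit 329) (nat_lit 5) (nat_lit 330) (nat_lit 5) (nat_lit 504) (nat_lit 496) (nat_lit 200))) (XT.nd (nat_lit 78) (nat_lit 0) (nat_lit 76) (XT.lf (nat_lit 76) (nat_lit 26292503684) (nat_lit 0) (nat_lit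 32187246233) (nat_lit 1292) (nat_lit 20973177097) (nat_lit 314) (nat_lit 5) (nat_lit 313) (nat_lit 5) (nat_lit 330) (nat_lit 5) (nat_lit 505) (nat_lit 496) (nat_lit 199)) (XT.lf (nat_lit 0) (nat_lit 63008167534) (nat_lit 1216) (nat_lit 12125488980) (nat_lit 1292) (nat_lit 5562604305) (nat_lit 314) (nat_lit 5) (nat_lit 330) (nat_lit 5) (nat_lit 331) (nat_lit 5) (nat_lit 506) (nat_lit 496) (nat_lit 198))))) (XT.nd (nat_lit 312) (nat_lit 684) (nat_lit 0) (XT.nd (nat_lit 156) (nat_lit 1216) (nat_lit 0) (XT.nd (nat_lit 78) (nat_lit 0) (nat_lit 76) (XT.lf (nat_lit 76) (nat_lit 30415012330) (nat_lit 0) (nat_lit 37868069457) (nat_lit 1292) (nat_lit 13675493564) (nat_lit 315) (nat_lit 5) (nat_lit 314) (nat_lit 5) (nat_lit 331) (nat_lit 5) (nat_lit 507) (nat_lit 496) (nat_lit 197)) (XT.lf (nat_lit 0) (nat_lit 73844455422) (nat_lit 1216) (nat_lit 8781276125) (nat_lit 1292) (nat_lit 629181450) (nat_lit 315) (nat_lit 5) (nat_lit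 331) (nat_lit 5) (nat_lit 332) (nat_lit 5) (nat_lit 508) (nat_lit 496) (nat_lit 196))) (XT.nd (nat_lit 78) (nat_lit 1292) (nat_lit 0) (XT.lf (nat_lit 76) (nat_lit 35582997569) (nat_lit 0) (nat_lit 44706262059) (nat_lit 1292) (nat_lit 4279383498) (nat_lit 316) (nat_lit 5) (nat_lit 315) (nat_lit 5) (nat_lit 332) (nat_lit 5) (nat_lit 509) (nat_lit 496) (nat_lit 195)) (XT.lf (nat_lit 0) (nat_lit 1075168166) (nat_lit 1292) (nat_lit 4471770101) (nat_lit 1368) (nat_lit 80371881867) (nat_lit 298) (nat_lit 5) (nat_lit 315) (nat_lit 5) (nat_lit 316) (nat_lit 5) (nat_lit 510) (nat_lit 496) (nat_lit 194)))) (XT.nd (nat_lit 156) (nat_lit 760) (nat_lit 0) (XT.nd (nat_lit 78) (nat_lit 0) (nat_lit 0) (XT.lf (nat_lit 0) (nat_lit 7248044916) (nat_lit 1292) (nat_lit 45477415752) (nat_lit 1368) (nat_lit 34560459712) (nat_lit 299) (nat_lit 5) (nat_lit 316) (nat_lit 5) (nat_lit 317) (nat_lit 5) (nat_lit 511) (nat_lit 496) (nat_lit 193))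 (XT.lf (nat_lit 76) (nat_lit 836830585) (nat_lit 0) (nat_lit 12877481748) (nat_lit 1368) (nat_lit 74976475204) (nat_lit 300) (nat_lit 5) (nat_lit 299) (nat_lit 5) (nat_lit 317) (nat_lit 5) (nat_lit 512) (nat_lit 496) (nat_lit 192))) (XT.nd (nat_lit 78) (nat_lit 836) (nat_lit 0) (XT.lf (nat_lit 0) (nat_lit 21108740572) (nat_lit 1292) (nat_lit 40926887494) (nat_lit 76) (nat_lit 28080147487) (nat_lit 300) (nat_lit 5) (nat_lit 317) (nat_lit 5) (nat_lit 301) (nat_lit 5) (nat_lit 513) (nat_lit 496) (nat_lit 191)) (XT.lf (nat_lit 0) (nat_lit 7425077982) (nat_lit 836) (nat_lit 21498453227) (nat_lit 912) (nat_lit 62654026145) (nat_lit 289) (nat_lit 5) (nat_lit 300) (nat_lit 5) (nat_lit 301) (nat_lit 5) (nat_lit 514) (nat_lit 496) (nat_lit 190))))))))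
noncomputable def xc249 : XT := (XT.nd (nat_lit 62166) (nat_lit 0) (nat_lit 456) (XT.nd (nat_lit 1170) (nat_lit 456) (nat_lit 0) (XT.nd (nat_lit 546) (nat_lit 2660) (nat_lit 0) (XT.nd (nat_lit 234) (nat_lit 1216) (nat_lit 0) (XT.nd (nat_lit 78) (nat_lit 608) (nat_lit 0) (XT.lf (nat_lit 0) (nat_lit 37584503451) (nat_lit 912) (nat_lit 35203338195) (nat_lit 76) (nat_lit 20276998854) (nat_lit 289) (nat_lit 5) (nat_lit 301) (nat_lit 5) (nat_lit 290) (nat_lit 5) (nat_lit 515) (nat_lit 496) (nat_lit 189)) (XT.nd (nat_lit 78) (nat_lit 0) (nat_lit 0) (XT.lf (nat_lit 0) (nat_lit 15299668274) (nat_lit 608) (nat_lit 31565234943) (nat_lit 684) (nat_lit 47721051001) (nat_lit 281) (nat_lit 5) (nat_lit 289) (nat_lit 5) (nat_lit 290) (nat_lit 5) (nat_lit 516) (nat_lit 496) (nat_lit 188)) (XT.lf (nat_lit 0) (nat_lit 56887119026) (nat_lit 684) (nat_lit 28211189322) (nat_lit 76) (nat_lit 11040490905) (nat_lit 281) (nat_lit 5) (nat_lit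 290) (nat_lit 5) (nat_lit 282) (nat_lit 5) (nat_lit 517) (nat_lit 496) (nat_lit 187)))) (XT.nd (nat_lit 156) (nat_lit 608) (nat_lit 0) (XT.nd (nat_lit 78) (nat_lit 0) (nat_lit 0) (XT.lf (nat_lit 0) (nat_lit 24562636242) (nat_lit 608) (nat_lit 43195692001) (nat_lit 684) (nat_lit 29963451615) (nat_lit 273) (nat_lit 5) (nat_lit 281) (nat_lit 5) (nat_lit 282) (nat_lit 5) (nat_lit 518) (nat_lit 496) (nat_lit 186)) (XT.lf (nat_lit 0) (nat_lit 79242720991) (nat_lit 684) (nat_lit 19848508442) (nat_lit 76) (nat_lit 252409055) (nat_lit 273) (nat_lit 5) (nat_lit 282) (nat_lit 5) (nat_lit 274) (nat_lit 5) (nat_lit 519) (nat_lit 496) (nat_lit 185))) (XT.nd (nat_lit 78) (nat_lit 76) (nat_lit 0) (XT.lf (nat_lit 0) (nat_lit 35322739893) (nat_lit 532) (nat_lit 56515833426) (nat_lit 608) (nat_lit 9152571748) (nat_lit 266) (nat_lit 5) (nat_lit 273) (nat_lit 5) (nat_lit 274) (nat_lit 5) (nat_lit 520) (nat_lit 496) (nat_lit 184)) (XT.lf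 (nat_lit 0) (nat_lit 2284895355) (nat_lit 608) (nat_lit 10148769660) (nat_lit 76) (nat_lit 90247735606) (nat_lit 265) (nat_lit 5) (nat_lit 273) (nat_lit 5) (nat_lit 266) (nat_lit 5) (nat_lit 521) (nat_lit 496) (nat_lit 183))))) (XT.nd (nat_lit 312) (nat_lit 988) (nat_lit 0) (XT.nd (nat_lit 156) (nat_lit 532) (nat_lit 0) (XT.nd (nat_lit 78) (nat_lit 532) (nat_lit 0) (XT.lf (nat_lit 0) (nat_lit 14663885750) (nat_lit 684) (nat_lit 56848387534) (nat_lit 76) (nat_lit 32883901286) (nat_lit 257) (nat_lit 5) (nat_lit 266) (nat_lit 5) (nat_lit 258) (nat_lit 5) (nat_lit 522) (nat_lit 496) (nat_lit 182)) (XT.lf (nat_lit 0) (nat_lit 917446241) (nat_lit 532) (nat_lit 26731942312) (nat_lit 608) (nat_lit 78505948926) (nat_lit 250) (nat_lit 5) (nat_lit 257) (nat_lit 5) (nat_lit 258) (nat_lit 5) (nat_lit 523) (nat_lit 496) (nat_lit 181))) (XT.nd (nat_lit 78) (nat_lit 532) (nat_lit 0) (XT.lf (nat_lit 0) (nat_lit 41790329021) (nat_lit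 608) (nat_lit 46560856149) (nat_lit 76) (nat_lit 19593113948) (nat_lit 250) (nat_lit 5) (nat_lit 258) (nat_lit 5) (nat_lit 251) (nat_lit 5) (nat_lit 524) (nat_lit 496) (nat_lit 180)) (XT.lf (nat_lit 0) (nat_lit 13882417867) (nat_lit 532) (nat_lit 42870932580) (nat_lit 608) (nat_lit 53021643599) (nat_lit 243) (nat_lit 5) (nat_lit 250) (nat_lit 5) (nat_lit 251) (nat_lit 5) (nat_lit 525) (nat_lit 496) (nat_lit 179)))) (XT.nd (nat_lit 156) (nat_lit 532) (nat_lit 0) (XT.nd (nat_lit 78) (nat_lit 456) (nat_lit 0) (XT.lf (nat_lit 0) (nat_lit 72678027348) (nat_lit 608) (nat_lit 34596215762) (nat_lit 76) (nat_lit 4370983787) (nat_lit 243) (nat_lit 5) (nat_lit 251) (nat_lit 5) (nat_lit 244) (nat_lit 5) (nat_lit 526) (nat_lit 496) (nat_lit 178)) (XT.lf (nat_lit 0) (nat_lit 28673808749) (nat_lit 456) (nat_lit 61106476694) (nat_lit 532) (nat_lit 23770286083) (nat_lit 237) (nat_lit 5) (nat_lit 243) (nat_lit 5) (nat_lit 244) (nat_lit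 5) (nat_lit 527) (nat_lit 496) (nat_lit 177))) (XT.nd (nat_lit 78) (nat_lit 532) (nat_lit 0) (XT.lf (nat_lit 0) (nat_lit 94550834030) (nat_lit 456) (nat_lit 13193881836) (nat_lit 532) (nat_lit 7757887509) (nat_lit 237) (nat_lit 5) (nat_lit 243) (nat_lit 5) (nat_lit 244) (nat_lit 5) (nat_lit 528) (nat_lit 496) (nat_lit 176)) (XT.lf (nat_lit 0) (nat_lit 9356205823) (nat_lit 532) (nat_lit 72151775310) (nat_lit 76) (nat_lit 35978942958) (nat_lit 230) (nat_lit 5) (nat_lit 237) (nat_lit 5) (nat_lit 231) (nat_lit 5) (nat_lit 529) (nat_lit 496) (nat_lit 175)))))) (XT.nd (nat_lit 60372) (nat_lit 0) (nat_lit 6688) (XT.nd (nat_lit 60060) (nat_lit 0) (nat_lit 6536) (XT.nd (nat_lit 59904) (nat_lit 0) (nat_lit 6460) (XT.nd (nat_lit 78) (nat_lit 456) (nat_lit 0) (XT.lf (nat_lit 0) (nat_lit 27171854646) (nat_lit 532) (nat_lit 5694089098) (nat_lit 76) (nat_lit 86652204624) (nat_lit 230) (nat_lit 5) (nat_lit 237) (nat_lit 5) (nat_lit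 231) (nat_lit 5) (nat_lit 530) (nat_lit 496) (nat_lit 174)) (XT.lf (nat_lit 0) (nat_lit 46308772657) (nat_lit 532) (nat_lit 57757591062) (nat_lit 76) (nat_lit 17520341678) (nat_lit 224) (nat_lit 5) (nat_lit 231) (nat_lit 5) (nat_lit 225) (nat_lit 5) (nat_lit 531) (nat_lit 496) (nat_lit 173))) (XT.nd (nat_lit 78) (nat_lit 0) (nat_lit 0) (XT.lf (nat_lit 0) (nat_lit 19220207931) (nat_lit 1292) (nat_lit 8247315041) (nat_lit 1292) (nat_lit 8247315041) (nat_lit 309) (nat_lit 3) (nat_lit 326) (nat_lit 3) (nat_lit 326) (nat_lit 5) (nat_lit 497) (nat_lit 497) (nat_lit 206)) (XT.lf (nat_lit 76) (nat_lit 19309929982) (nat_lit 0) (nat_lit 19905466392) (nat_lit 1292) (nat_lit 33279772389) (nat_lit 310) (nat_lit 5) (nat_lit 309) (nat_lit 3) (nat_lit 326) (nat_lit 5) (nat_lit 498) (nat_lit 497) (nat_lit 205)))) (XT.nd (nat_lit 156) (nat_lit 0) (nat_lit 76) (XT.nd (nat_lit 78) (nat_lit 0) (nat_lit 0) (XT.lf (nat_lit 0) (nat_lit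 40336824838) (nat_lit 1216) (nat_lit 17218290771) (nat_lit 1292) (nat_lit 16027814758) (nat_lit 310) (nat_lit 5) (nat_lit 326) (nat_lit 5) (nat_lit 327) (nat_lit 5) (nat_lit 499) (nat_lit 497) (nat_lit 204)) (XT.lf (nat_lit 76) (nat_lit 20020992808) (nat_lit 0) (nat_lit 21859957683) (nat_lit 1292) (nat_lit 32810702743) (nat_lit 311) (nat_lit 5) (nat_lit 310) (nat_lit 5) (nat_lit 327) (nat_lit 5) (nat_lit 500) (nat_lit 497) (nat_lit 203))) (XT.nd (nat_lit 78) (nat_lit 0) (nat_lit 0) (XT.lf (nat_lit 0) (nat_lit 43789808451) (nat_lit 1216) (nat_lit 17243300533) (nat_lit 1292) (nat_lit 14790976590) (nat_lit 311) (nat_lit 5) (nat_lit 327) (nat_lit 5) (nat_lit 328) (nat_lit 5) (nat_lit 501) (nat_lit 497) (nat_lit 202)) (XT.lf (nat_lit 76) (nat_lit 21509904690) (nat_lit 0) (nat_lit 24668772684) (nat_lit 1292) (nat_lit 30799131198) (nat_lit 312) (nat_lit 5) (nat_lit 311) (nat_lit 5) (nat_lit 328) (nat_lit 5) (nat_lit 502)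 (nat_lit 497) (nat_lit 201))))) (XT.nd (nat_lit 312) (nat_lit 0) (nat_lit 152) (XT.nd (nat_lit 156) (nat_lit 0) (nat_lit 76) (XT.nd (nat_lit 78) (nat_lit 0) (nat_lit 0) (XT.lf (nat_lit 0) (nat_lit 48937527444) (nat_lit 1216) (nat_lit 16506666643) (nat_lit 1292) (nat_lit 12712999759) (nat_lit 312) (nat_lit 5) (nat_lit 328) (nat_lit 5) (nat_lit 329) (nat_lit 5) (nat_lit 503) (nat_lit 497) (nat_lit 200)) (XT.lf (nat_lit 76) (nat_lit 23844168117) (nat_lit 0) (nat_lit 28407993796) (nat_lit 1292) (nat_lit 27105608237) (nat_lit 313) (nat_lit 5) (nat_lit 312) (nat_lit 5) (nat_lit 329) (nat_lit 5) (nat_lit 504) (nat_lit 497) (nat_lit 199))) (XT.nd (nat_lit 78) (nat_lit 0) (nat_lit 0) (XT.lf (nat_lit 0) (nat_lit 55927770939) (nat_lit 1216) (nat_lit 14941026416) (nat_lit 1292) (nat_lit 9717720363) (nat_lit 313) (nat_lit 5) (nat_lit 329) (nat_lit 5) (nat_lit 330) (nat_lit 5) (nat_lit 505) (nat_lit 497) (nat_lit 198)) (XT.lf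 (nat_lit 76) (nat_lit 27095915352) (nat_lit 0) (nat_lit 33159055061) (nat_lit 1292) (nat_lit 21580917673) (nat_lit 314) (nat_lit 5) (nat_lit 313) (nat_lit 5) (nat_lit 330) (nat_lit 5) (nat_lit 506) (nat_lit 497) (nat_lit 197)))) (XT.nd (nat_lit 156) (nat_lit 0) (nat_lit 76) (XT.nd (nat_lit 78) (nat_lit 0) (nat_lit 0) (XT.lf (nat_lit 0) (nat_lit 64918576134) (nat_lit 1216) (nat_lit 12474377132) (nat_lit 1292) (nat_lit 5723588626) (nat_lit 314) (nat_lit 5) (nat_lit 330) (nat_lit 5) (nat_lit 331) (nat_lit 5) (nat_lit 507) (nat_lit 497) (nat_lit 196)) (XT.lf (nat_lit 76) (nat_lit 31342193369) (nat_lit 0) (nat_lit 39009098758) (nat_lit 1292) (nat_lit 14065447157) (nat_lit 315) (nat_lit 5) (nat_lit 314) (nat_lit 5) (nat_lit 331) (nat_lit 5) (nat_lit 508) (nat_lit 497) (nat_lit 195))) (XT.nd (nat_lit 78) (nat_lit 0) (nat_lit 0) (XT.lf (nat_lit 0) (nat_lit 76078886119) (nat_lit 1216) (nat_lit 9029790199) (nat_lit 1292)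 (nat_lit 643309419) (nat_lit 315) (nat_lit 5) (nat_lit 331) (nat_lit 5) (nat_lit 332) (nat_lit 5) (nat_lit 509) (nat_lit 497) (nat_lit 194)) (XT.lf (nat_lit 76) (nat_lit 36665265391) (nat_lit 0) (nat_lit 46051354891) (nat_lit 1292) (nat_lit 4388519965) (nat_lit 316) (nat_lit 5) (nat_lit 315) (nat_lit 5) (nat_lit 332) (nat_lit 5) (nat_lit 510) (nat_lit 497) (nat_lit 193))))))) (XT.nd (nat_lit 1248) (nat_lit 988) (nat_lit 0) (XT.nd (nat_lit 624) (nat_lit 2888) (nat_lit 0) (XT.nd (nat_lit 312) (nat_lit 1292) (nat_lit 0) (XT.nd (nat_lit 156) (nat_lit 0) (nat_lit 76) (XT.nd (nat_lit 78) (nat_lit 0) (nat_lit 76) (XT.lf (nat_lit 0) (nat_lit 1125743113) (nat_lit 1292) (nat_lit 4591209540) (nat_lit 1368) (nat_lit 82778880897) (nat_lit 298) (nat_lit 5) (nat_lit 315) (nat_lit 5) (nat_lit 316) (nat_lit 5) (nat_lit 511) (nat_lit 497) (nat_lit 192)) (XT.lf (nat_lit 0) (nat_lit 7483380357) (nat_lit 1292) (nat_lit 46826597208)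 (nat_lit 1368) (nat_lit 35593982060) (nat_lit 299) (nat_lit 5) (nat_lit 316) (nat_lit 5) (nat_lit 317) (nat_lit 5) (nat_lit 512) (nat_lit 497) (nat_lit 191))) (XT.nd (nat_lit 78) (nat_lit 0) (nat_lit 76) (XT.lf (nat_lit 76) (nat_lit 876928079) (nat_lit 0) (nat_lit 13266330648) (nat_lit 1368) (nat_lit 77207725425) (nat_lit 300) (nat_lit 5) (nat_lit 299) (nat_lit 5) (nat_lit 317) (nat_lit 5) (nat_lit 513) (nat_lit 497) (nat_lit 190)) (XT.lf (nat_lit 0) (nat_lit 21758986049) (nat_lit 1292) (nat_lit 42139603000) (nat_lit 76) (nat_lit 28920148818) (nat_lit 300) (nat_lit 5) (nat_lit 317) (nat_lit 5) (nat_lit 301) (nat_lit 5) (nat_lit 514) (nat_lit 497) (nat_lit 189)))) (XT.nd (nat_lit 156) (nat_lit 608) (nat_lit 0) (XT.nd (nat_lit 78) (nat_lit 0) (nat_lit 0) (XT.lf (nat_lit 0) (nat_lit 7662773489) (nat_lit 836) (nat_lit 22145095901) (nat_lit 912) (nat_lit 64516514304) (nat_lit 289) (nat_lit 5) (nat_lit 300) (nat_lit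 5) (nat_lit 301) (nat_lit 5) (nat_lit 515) (nat_lit 497) (nat_lit 188)) (XT.lf (nat_lit 0) (nat_lit 38728170601) (nat_lit 912) (nat_lit 36244428841) (nat_lit 76) (nat_lit 20883700939) (nat_lit 289) (nat_lit 5) (nat_lit 301) (nat_lit 5) (nat_lit 290) (nat_lit 5) (nat_lit 516) (nat_lit 497) (nat_lit 187))) (XT.nd (nat_lit 78) (nat_lit 0) (nat_lit 0) (XT.lf (nat_lit 0) (nat_lit 15773520671) (nat_lit 608) (nat_lit 32513134690) (nat_lit 684) (nat_lit 49136401999) (nat_lit 281) (nat_lit 5) (nat_lit 289) (nat_lit 5) (nat_lit 290) (nat_lit 5) (nat_lit 517) (nat_lit 497) (nat_lit 186)) (XT.lf (nat_lit 0) (nat_lit 58609068504) (nat_lit 684) (nat_lit 29042625105) (nat_lit 76) (nat_lit 11370808250) (nat_lit 281) (nat_lit 5) (nat_lit 290) (nat_lit 5) (nat_lit 282) (nat_lit 5) (nat_lit 518) (nat_lit 497) (nat_lit 185))))) (XT.nd (nat_lit 312) (nat_lit 1672) (nat_lit 0) (XT.nd (nat_lit 156) (nat_lit 608) (nat_lit 0) (XT.nd (nat_lit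 78) (nat_lit 0) (nat_lit 0) (XT.lf (nat_lit 0) (nat_lit 25314269149) (nat_lit 608) (nat_lit 44491839995) (nat_lit 684) (nat_lit 30846871921) (nat_lit 273) (nat_lit 5) (nat_lit 281) (nat_lit 5) (nat_lit 282) (nat_lit 5) (nat_lit 519) (nat_lit 497) (nat_lit 184)) (XT.lf (nat_lit 0) (nat_lit 81634593289) (nat_lit 684) (nat_lit 20429197994) (nat_lit 76) (nat_lit 259717419) (nat_lit 273) (nat_lit 5) (nat_lit 282) (nat_lit 5) (nat_lit 274) (nat_lit 5) (nat_lit 520) (nat_lit 497) (nat_lit 183))) (XT.nd (nat_lit 78) (nat_lit 76) (nat_lit 0) (XT.lf (nat_lit 0) (nat_lit 36397043029) (nat_lit 532) (nat_lit 58210993733) (nat_lit 608) (nat_lit 9412412286) (nat_lit 266) (nat_lit 5) (nat_lit 273) (nat_lit 5) (nat_lit 274) (nat_lit 5) (nat_lit 521) (nat_lit 497) (nat_lit 182)) (XT.lf (nat_lit 0) (nat_lit 2367470420) (nat_lit 608) (nat_lit 10438757358) (nat_lit 76) (nat_lit 92955192899) (nat_lit 265) (nat_lit 5) (nat_lit 273) (nat_lit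 5) (nat_lit 266) (nat_lit 5) (nat_lit 522) (nat_lit 497) (nat_lit 181)))) (XT.nd (nat_lit 156) (nat_lit 532) (nat_lit 0) (XT.nd (nat_lit 78) (nat_lit 532) (nat_lit 0) (XT.lf (nat_lit 0) (nat_lit 15117565258) (nat_lit 684) (nat_lit 58539097416) (nat_lit 76) (nat_lit 33870983162) (nat_lit 257) (nat_lit 5) (nat_lit 266) (nat_lit 5) (nat_lit 258) (nat_lit 5) (nat_lit 523) (nat_lit 497) (nat_lit 180)) (XT.lf (nat_lit 0) (nat_lit 959566845) (nat_lit 532) (nat_lit 27532805755) (nat_lit 608) (nat_lit 80847218879) (nat_lit 250) (nat_lit 5) (nat_lit 257) (nat_lit 5) (nat_lit 258) (nat_lit 5) (nat_lit 524) (nat_lit 497) (nat_lit 179))) (XT.nd (nat_lit 78) (nat_lit 532) (nat_lit 0) (XT.lf (nat_lit 0) (nat_lit 43057158227) (nat_lit 608) (nat_lit 47943125701) (nat_lit 76) (nat_lit 20181949563) (nat_lit 250) (nat_lit 5) (nat_lit 258) (nat_lit 5) (nat_lit 251) (nat_lit 5) (nat_lit 525) (nat_lit 497) (nat_lit 178)) (XT.lf (nat_lit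 0) (nat_lit 14313303829) (nat_lit 532) (nat_lit 44155522900) (nat_lit 608) (nat_lit 54599029874) (nat_lit 243) (nat_lit 5) (nat_lit 250) (nat_lit 5) (nat_lit 251) (nat_lit 5) (nat_lit 526) (nat_lit 497) (nat_lit 177)))))) (XT.nd (nat_lit 60450) (nat_lit 0) (nat_lit 6080) (XT.nd (nat_lit 312) (nat_lit 0) (nat_lit 0) (XT.nd (nat_lit 156) (nat_lit 532) (nat_lit 0) (XT.nd (nat_lit 78) (nat_lit 456) (nat_lit 0) (XT.lf (nat_lit 0) (nat_lit 74870883265) (nat_lit 608) (nat_lit 35619746983) (nat_lit 76) (nat_lit 4503577040) (nat_lit 243) (nat_lit 5) (nat_lit 251) (nat_lit 5) (nat_lit 244) (nat_lit 5) (nat_lit 527) (nat_lit 497) (nat_lit 176)) (XT.lf (nat_lit 0) (nat_lit 29548237525) (nat_lit 456) (nat_lit 62937743698) (nat_lit 532) (nat_lit 24470737897) (nat_lit 237) (nat_lit 5) (nat_lit 243) (nat_lit 5) (nat_lit 244) (nat_lit 5) (nat_lit 528) (nat_lit 497) (nat_lit 175))) (XT.nd (nat_lit 78) (nat_lit 532) (nat_lit 0) (XT.lf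 (nat_lit 0) (nat_lit 97401159550) (nat_lit 456) (nat_lit 13587827129) (nat_lit 532) (nat_lit 7978336009) (nat_lit 237) (nat_lit 5) (nat_lit 243) (nat_lit 5) (nat_lit 244) (nat_lit 5) (nat_lit 529) (nat_lit 497) (nat_lit 174)) (XT.lf (nat_lit 0) (nat_lit 9648742986) (nat_lit 532) (nat_lit 74302089196) (nat_lit 76) (nat_lit 37060343247) (nat_lit 230) (nat_lit 5) (nat_lit 237) (nat_lit 5) (nat_lit 231) (nat_lit 5) (nat_lit 530) (nat_lit 497) (nat_lit 173)))) (XT.nd (nat_lit 59982) (nat_lit 0) (nat_lit 6004) (XT.nd (nat_lit 59904) (nat_lit 0) (nat_lit 6004) (XT.lf (nat_lit 0) (nat_lit 27998516099) (nat_lit 532) (nat_lit 5851087137) (nat_lit 76) (nat_lit 89253743578) (nat_lit 230) (nat_lit 5) (nat_lit 237) (nat_lit 5) (nat_lit 231) (nat_lit 5) (nat_lit 531) (nat_lit 497) (nat_lit 172)) (XT.lf (nat_lit 0) (nat_lit 19809446969) (nat_lit 1292) (nat_lit 8488228017) (nat_lit 1292) (nat_lit 8488228017) (nat_lit 309) (nat_lit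 3) (nat_lit 326) (nat_lit 3) (nat_lit 326) (nat_lit 5) (nat_lit 498) (nat_lit 498) (nat_lit 204))) (XT.nd (nat_lit 78) (nat_lit 0) (nat_lit 76) (XT.lf (nat_lit 76) (nat_lit 19902113255) (nat_lit 0) (nat_lit 20514398580) (nat_lit 1292) (nat_lit 34252770115) (nat_lit 310) (nat_lit 5) (nat_lit 309) (nat_lit 3) (nat_lit 326) (nat_lit 5) (nat_lit 499) (nat_lit 498) (nat_lit 203)) (XT.lf (nat_lit 0) (nat_lit 41570755260) (nat_lit 1216) (nat_lit 17721499326) (nat_lit 1292) (nat_lit 16497446719) (nat_lit 310) (nat_lit 5) (nat_lit 326) (nat_lit 5) (nat_lit 327) (nat_lit 5) (nat_lit 500) (nat_lit 498) (nat_lit 202))))) (XT.nd (nat_lit 312) (nat_lit 0) (nat_lit 152) (XT.nd (nat_lit 156) (nat_lit 0) (nat_lit 76) (XT.nd (nat_lit 78) (nat_lit 0) (nat_lit 76) (XT.lf (nat_lit 76) (nat_lit 20634831975) (nat_lit 0) (nat_lit 22525805734) (nat_lit 1292) (nat_lit 33771065223) (nat_lit 311) (nat_lit 5) (nat_lit 310) (nat_lit 5) (nat_lit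 327) (nat_lit 5) (nat_lit 501) (nat_lit 498) (nat_lit 201)) (XT.lf (nat_lit 0) (nat_lit 45125990182) (nat_lit 1216) (nat_lit 17747001605) (nat_lit 1292) (nat_lit 15225139654) (nat_lit 311) (nat_lit 5) (nat_lit 327) (nat_lit 5) (nat_lit 328) (nat_lit 5) (nat_lit 502) (nat_lit 498) (nat_lit 200))) (XT.nd (nat_lit 78) (nat_lit 0) (nat_lit 76) (XT.lf (nat_lit 76) (nat_lit 22168666461) (nat_lit 0) (nat_lit 25417333166) (nat_lit 1292) (nat_lit 31700482327) (nat_lit 312) (nat_lit 5) (nat_lit 311) (nat_lit 5) (nat_lit 328) (nat_lit 5) (nat_lit 503) (nat_lit 498) (nat_lit 199)) (XT.lf (nat_lit 0) (nat_lit 50426896230) (nat_lit 1216) (nat_lit 16988073258) (nat_lit 1292) (nat_lit 13086300927) (nat_lit 312) (nat_lit 5) (nat_lit 328) (nat_lit 5) (nat_lit 329) (nat_lit 5) (nat_lit 504) (nat_lit 498) (nat_lit 198)))) (XT.nd (nat_lit 156) (nat_lit 0) (nat_lit 76) (XT.nd (nat_lit 78) (nat_lit 0) (nat_lit 76) (XT.lf (nat_lit 76)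 (nat_lit 24573151316) (nat_lit 0) (nat_lit 29267330981) (nat_lit 1292) (nat_lit 27897396392) (nat_lit 313) (nat_lit 5) (nat_lit 312) (nat_lit 5) (nat_lit 329) (nat_lit 5) (nat_lit 505) (nat_lit 498) (nat_lit 197)) (XT.lf (nat_lit 0) (nat_lit 57625688827) (nat_lit 1216) (nat_lit 15375324252) (nat_lit 1292) (nat_lit 10002495784) (nat_lit 313) (nat_lit 5) (nat_lit 329) (nat_lit 5) (nat_lit 330) (nat_lit 5) (nat_lit 506) (nat_lit 498) (nat_lit 196))) (XT.nd (nat_lit 78) (nat_lit 0) (nat_lit 76) (XT.lf (nat_lit 76) (nat_lit 27922589171) (nat_lit 0) (nat_lit 34159662739) (nat_lit 1292) (nat_lit 22208122055) (nat_lit 314) (nat_lit 5) (nat_lit 313) (nat_lit 5) (nat_lit 330) (nat_lit 5) (nat_lit 507) (nat_lit 498) (nat_lit 195)) (XT.lf (nat_lit 0) (nat_lit 66885139521) (nat_lit 1216) (nat_lit 12834585901) (nat_lit 1292) (nat_lit 5889740804) (nat_lit 314) (nat_lit 5) (nat_lit 330) (nat_lit 5) (nat_lit 331) (nat_lit 5) (nat_lit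 508) (nat_lit 498) (nat_lit 194))))))))
noncomputable def xc250 : XT := (XT.nd (nat_lit 62400) (nat_lit 0) (nat_lit 0) (XT.nd (nat_lit 1170) (nat_lit 2128) (nat_lit 0) (XT.nd (nat_lit 546) (nat_lit 2508) (nat_lit 0) (XT.nd (nat_lit 234) (nat_lit 1216) (nat_lit 0) (XT.nd (nat_lit 78) (nat_lit 0) (nat_lit 76) (XT.lf (nat_lit 76) (nat_lit 32296344239) (nat_lit 0) (nat_lit 40184072650) (nat_lit 1292) (nat_lit 14468265305) (nat_lit 315) (nat_lit 5) (nat_lit 314) (nat_lit 5) (nat_lit 331) (nat_lit 5) (nat_lit 509) (nat_lit 498) (nat_lit 193)) (XT.nd (nat_lit 78) (nat_lit 0) (nat_lit 0) (XT.lf (nat_lit 0) (nat_lit 78379253490) (nat_lit 1216) (nat_lit 9286616405) (nat_lit 1292) (nat_lit 658133753) (nat_lit 315) (nat_lit 5) (nat_lit 331) (nat_lit 5) (nat_lit 332) (nat_lit 5) (nat_lit 510) (nat_lit 498) (nat_lit 192)) (XT.lf (nat_lit 76) (nat_lit 37779152936) (nat_lit 0) (nat_lit 47436576346) (nat_lit 1292) (nat_lit 4502035269)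 (nat_lit 316) (nat_lit 5) (nat_lit 315) (nat_lit 5) (nat_lit 332) (nat_lit 5) (nat_lit 511) (nat_lit 498) (nat_lit 191)))) (XT.nd (nat_lit 156) (nat_lit 0) (nat_lit 76) (XT.nd (nat_lit 78) (nat_lit 0) (nat_lit 76) (XT.lf (nat_lit 0) (nat_lit 1176783670) (nat_lit 1292) (nat_lit 4715076786) (nat_lit 1368) (nat_lit 85258328551) (nat_lit 298) (nat_lit 5) (nat_lit 315) (nat_lit 5) (nat_lit 316) (nat_lit 5) (nat_lit 512) (nat_lit 498) (nat_lit 190)) (XT.lf (nat_lit 0) (nat_lit 7724748667) (nat_lit 1292) (nat_lit 48217123263) (nat_lit 1368) (nat_lit 36658699020) (nat_lit 299) (nat_lit 5) (nat_lit 316) (nat_lit 5) (nat_lit 317) (nat_lit 5) (nat_lit 513) (nat_lit 498) (nat_lit 189))) (XT.nd (nat_lit 78) (nat_lit 0) (nat_lit 76) (XT.lf (nat_lit 76) (nat_lit 917367862) (nat_lit 0) (nat_lit 13666700102) (nat_lit 1368) (nat_lit 79506948955) (nat_lit 300) (nat_lit 5) (nat_lit 299) (nat_lit 5) (nat_lit 317) (nat_lit 5) (nat_lit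 514) (nat_lit 498) (nat_lit 188)) (XT.lf (nat_lit 0) (nat_lit 22427763981) (nat_lit 1292) (nat_lit 43389566262) (nat_lit 76) (nat_lit 29785488136) (nat_lit 300) (nat_lit 5) (nat_lit 317) (nat_lit 5) (nat_lit 301) (nat_lit 5) (nat_lit 515) (nat_lit 498) (nat_lit 187))))) (XT.nd (nat_lit 312) (nat_lit 1216) (nat_lit 0) (XT.nd (nat_lit 156) (nat_lit 608) (nat_lit 0) (XT.nd (nat_lit 78) (nat_lit 0) (nat_lit 0) (XT.lf (nat_lit 0) (nat_lit 7906742062) (nat_lit 836) (nat_lit 22811040895) (nat_lit 912) (nat_lit 66435860590) (nat_lit 289) (nat_lit 5) (nat_lit 300) (nat_lit 5) (nat_lit 301) (nat_lit 5) (nat_lit 516) (nat_lit 498) (nat_lit 186)) (XT.lf (nat_lit 0) (nat_lit 39905221720) (nat_lit 912) (nat_lit 37317613813) (nat_lit 76) (nat_lit 21508696386) (nat_lit 289) (nat_lit 5) (nat_lit 301) (nat_lit 5) (nat_lit 290) (nat_lit 5) (nat_lit 517) (nat_lit 498) (nat_lit 185))) (XT.nd (nat_lit 78) (nat_lit 0) (nat_lit 0) (XT.lf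 (nat_lit 0) (nat_lit 16260735479) (nat_lit 608) (nat_lit 33489417315) (nat_lit 684) (nat_lit 50595148097) (nat_lit 281) (nat_lit 5) (nat_lit 289) (nat_lit 5) (nat_lit 290) (nat_lit 5) (nat_lit 518) (nat_lit 498) (nat_lit 184)) (XT.lf (nat_lit 0) (nat_lit 60381796124) (nat_lit 684) (nat_lit 29899859276) (nat_lit 76) (nat_lit 11711086629) (nat_lit 281) (nat_lit 5) (nat_lit 290) (nat_lit 5) (nat_lit 282) (nat_lit 5) (nat_lit 519) (nat_lit 498) (nat_lit 183)))) (XT.nd (nat_lit 156) (nat_lit 608) (nat_lit 0) (XT.nd (nat_lit 78) (nat_lit 0) (nat_lit 0) (XT.lf (nat_lit 0) (nat_lit 26087604114) (nat_lit 608) (nat_lit 45826856515) (nat_lit 684) (nat_lit 31757683639) (nat_lit 273) (nat_lit 5) (nat_lit 281) (nat_lit 5) (nat_lit 282) (nat_lit 5) (nat_lit 520) (nat_lit 498) (nat_lit 182)) (XT.lf (nat_lit 0) (nat_lit 84097384193) (nat_lit 684) (nat_lit 21028155844) (nat_lit 76) (nat_lit 267260184) (nat_lit 273) (nat_lit 5) (nat_lit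 282) (nat_lit 5) (nat_lit 274) (nat_lit 5) (nat_lit 521) (nat_lit 498) (nat_lit 181))) (XT.nd (nat_lit 78) (nat_lit 76) (nat_lit 0) (XT.lf (nat_lit 0) (nat_lit 37502735958) (nat_lit 532) (nat_lit 59957026913) (nat_lit 608) (nat_lit 9680893982) (nat_lit 266) (nat_lit 5) (nat_lit 273) (nat_lit 5) (nat_lit 274) (nat_lit 5) (nat_lit 522) (nat_lit 498) (nat_lit 180)) (XT.lf (nat_lit 0) (nat_lit 2451717460) (nat_lit 608) (nat_lit 10738275634) (nat_lit 76) (nat_lit 95743872464) (nat_lit 265) (nat_lit 5) (nat_lit 273) (nat_lit 5) (nat_lit 266) (nat_lit 5) (nat_lit 523) (nat_lit 498) (nat_lit 179)))))) (XT.nd (nat_lit 60606) (nat_lit 0) (nat_lit 5472) (XT.nd (nat_lit 312) (nat_lit 456) (nat_lit 0) (XT.nd (nat_lit 156) (nat_lit 532) (nat_lit 0) (XT.nd (nat_lit 78) (nat_lit 532) (nat_lit 0) (XT.lf (nat_lit 0) (nat_lit 15584065102) (nat_lit 684) (nat_lit 60281374830) (nat_lit 76) (nat_lit 34887645070) (nat_lit 257) (nat_lit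 5) (nat_lit 266) (nat_lit 5) (nat_lit 258) (nat_lit 5) (nat_lit 524) (nat_lit 498) (nat_lit 178)) (XT.lf (nat_lit 0) (nat_lit 1002113128) (nat_lit 532) (nat_lit 28357757948) (nat_lit 608) (nat_lit 83259525337) (nat_lit 250) (nat_lit 5) (nat_lit 257) (nat_lit 5) (nat_lit 258) (nat_lit 5) (nat_lit 525) (nat_lit 498) (nat_lit 177))) (XT.nd (nat_lit 78) (nat_lit 532) (nat_lit 0) (XT.lf (nat_lit 0) (nat_lit 44361239205) (nat_lit 608) (nat_lit 49367698920) (nat_lit 76) (nat_lit 20788390421) (nat_lit 250) (nat_lit 5) (nat_lit 258) (nat_lit 5) (nat_lit 251) (nat_lit 5) (nat_lit 526) (nat_lit 498) (nat_lit 176)) (XT.lf (nat_lit 0) (nat_lit 14756288980) (nat_lit 532) (nat_lit 45478739198) (nat_lit 608) (nat_lit 56224499089) (nat_lit 243) (nat_lit 5) (nat_lit 250) (nat_lit 5) (nat_lit 251) (nat_lit 5) (nat_lit 527) (nat_lit 498) (nat_lit 175)))) (XT.nd (nat_lit 156) (nat_lit 0) (nat_lit 0) (XT.nd (nat_lit 78) (nat_lit 456)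 (nat_lit 0) (XT.lf (nat_lit 0) (nat_lit 77128806442) (nat_lit 608) (nat_lit 36674808191) (nat_lit 76) (nat_lit 4640064066) (nat_lit 243) (nat_lit 5) (nat_lit 251) (nat_lit 5) (nat_lit 244) (nat_lit 5) (nat_lit 528) (nat_lit 498) (nat_lit 174)) (XT.lf (nat_lit 0) (nat_lit 30448083194) (nat_lit 456) (nat_lit 64824059348) (nat_lit 532) (nat_lit 25192929815) (nat_lit 237) (nat_lit 5) (nat_lit 243) (nat_lit 5) (nat_lit 244) (nat_lit 5) (nat_lit 529) (nat_lit 498) (nat_lit 173))) (XT.nd (nat_lit 60060) (nat_lit 0) (nat_lit 5472) (XT.lf (nat_lit 0) (nat_lit 100336202631) (nat_lit 456) (nat_lit 13993698194) (nat_lit 532) (nat_lit 8206103353) (nat_lit 237) (nat_lit 5) (nat_lit 243) (nat_lit 5) (nat_lit 244) (nat_lit 5) (nat_lit 530) (nat_lit 498) (nat_lit 172)) (XT.lf (nat_lit 0) (nat_lit 20415638004) (nat_lit 1292) (nat_lit 8736741879) (nat_lit 1292) (nat_lit 8736741879) (nat_lit 309) (nat_lit 3) (nat_lit 326) (nat_lit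 3) (nat_lit 326) (nat_lit 5) (nat_lit 499) (nat_lit 499) (nat_lit 202))))) (XT.nd (nat_lit 312) (nat_lit 0) (nat_lit 152) (XT.nd (nat_lit 156) (nat_lit 0) (nat_lit 76) (XT.nd (nat_lit 78) (nat_lit 0) (nat_lit 76) (XT.lf (nat_lit 76) (nat_lit 20511322354) (nat_lit 0) (nat_lit 21140923191) (nat_lit 1292) (nat_lit 35256415574) (nat_lit 310) (nat_lit 5) (nat_lit 309) (nat_lit 3) (nat_lit 326) (nat_lit 5) (nat_lit 500) (nat_lit 499) (nat_lit 201)) (XT.lf (nat_lit 0) (nat_lit 42840335904) (nat_lit 1216) (nat_lit 18240569918) (nat_lit 1292) (nat_lit 16981810707) (nat_lit 310) (nat_lit 5) (nat_lit 326) (nat_lit 5) (nat_lit 327) (nat_lit 5) (nat_lit 501) (nat_lit 499) (nat_lit 200))) (XT.nd (nat_lit 78) (nat_lit 0) (nat_lit 76) (XT.lf (nat_lit 76) (nat_lit 21266328044) (nat_lit 0) (nat_lit 23211052353) (nat_lit 1292) (nat_lit 34761613900) (nat_lit 311) (nat_lit 5) (nat_lit 310) (nat_lit 5) (nat_lit 327) (nat_lit 5) (nat_lit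 502) (nat_lit 499) (nat_lit 199)) (XT.lf (nat_lit 0) (nat_lit 46500966492) (nat_lit 1216) (nat_lit 18266594287) (nat_lit 1292) (nat_lit 15672876750) (nat_lit 311) (nat_lit 5) (nat_lit 327) (nat_lit 5) (nat_lit 328) (nat_lit 5) (nat_lit 503) (nat_lit 499) (nat_lit 198)))) (XT.nd (nat_lit 156) (nat_lit 0) (nat_lit 76) (XT.nd (nat_lit 78) (nat_lit 0) (nat_lit 76) (XT.lf (nat_lit 76) (nat_lit 22846418161) (nat_lit 0) (nat_lit 26187862683) (nat_lit 1292) (nat_lit 32630172632) (nat_lit 312) (nat_lit 5) (nat_lit 311) (nat_lit 5) (nat_lit 328) (nat_lit 5) (nat_lit 504) (nat_lit 499) (nat_lit 197)) (XT.lf (nat_lit 0) (nat_lit 51959726646) (nat_lit 1216) (nat_lit 17484713868) (nat_lit 1292) (nat_lit 13471265462) (nat_lit 312) (nat_lit 5) (nat_lit 328) (nat_lit 5) (nat_lit 329) (nat_lit 5) (nat_lit 505) (nat_lit 499) (nat_lit 196))) (XT.nd (nat_lit 78) (nat_lit 0) (nat_lit 76) (XT.lf (nat_lit 76) (nat_lit 25323219976) (nat_lit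 0) (nat_lit 30152040864) (nat_lit 1292) (nat_lit 28714165497) (nat_lit 313) (nat_lit 5) (nat_lit 312) (nat_lit 5) (nat_lit 329) (nat_lit 5) (nat_lit 506) (nat_lit 499) (nat_lit 195)) (XT.lf (nat_lit 0) (nat_lit 59373391303) (nat_lit 1216) (nat_lit 15823450832) (nat_lit 1292) (nat_lit 10296202301) (nat_lit 313) (nat_lit 5) (nat_lit 329) (nat_lit 5) (nat_lit 330) (nat_lit 5) (nat_lit 507) (nat_lit 499) (nat_lit 194))))))) (XT.nd (nat_lit 1170) (nat_lit 2736) (nat_lit 0) (XT.nd (nat_lit 546) (nat_lit 1900) (nat_lit 0) (XT.nd (nat_lit 234) (nat_lit 1140) (nat_lit 0) (XT.nd (nat_lit 78) (nat_lit 0) (nat_lit 76) (XT.lf (nat_lit 76) (nat_lit 28773271238) (nat_lit 0) (nat_lit 35189953635) (nat_lit 1292) (nat_lit 22855303461) (nat_lit 314) (nat_lit 5) (nat_lit 313) (nat_lit 5) (nat_lit 330) (nat_lit 5) (nat_lit 508) (nat_lit 499) (nat_lit 193)) (XT.nd (nat_lit 78) (nat_lit 0) (nat_lit 0) (XT.lf (nat_lit 0) (nat_lit 68909608781)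 (nat_lit 1216) (nat_lit 13206405885) (nat_lit 1292) (nat_lit 6061196456) (nat_lit 314) (nat_lit 5) (nat_lit 330) (nat_lit 5) (nat_lit 331) (nat_lit 5) (nat_lit 509) (nat_lit 499) (nat_lit 192)) (XT.lf (nat_lit 76) (nat_lit 33278322575) (nat_lit 0) (nat_lit 41394025907) (nat_lit 1292) (nat_lit 14884267014) (nat_lit 315) (nat_lit 5) (nat_lit 314) (nat_lit 5) (nat_lit 331) (nat_lit 5) (nat_lit 510) (nat_lit 499) (nat_lit 191)))) (XT.nd (nat_lit 156) (nat_lit 1292) (nat_lit 0) (XT.nd (nat_lit 78) (nat_lit 0) (nat_lit 0) (XT.lf (nat_lit 0) (nat_lit 80747598562) (nat_lit 1216) (nat_lit 9551954929) (nat_lit 1292) (nat_lit 673659696) (nat_lit 315) (nat_lit 5) (nat_lit 331) (nat_lit 5) (nat_lit 332) (nat_lit 5) (nat_lit 511) (nat_lit 499) (nat_lit 190)) (XT.lf (nat_lit 76) (nat_lit 38925657493) (nat_lit 0) (nat_lit 48863143151) (nat_lit 1292) (nat_lit 4619997359) (nat_lit 316) (nat_lit 5) (nat_lit 315) (nat_lit 5) (nat_lit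 332) (nat_lit 5) (nat_lit 512) (nat_lit 499) (nat_lit 189))) (XT.nd (nat_lit 78) (nat_lit 0) (nat_lit 76) (XT.lf (nat_lit 0) (nat_lit 1228364176) (nat_lit 1292) (nat_lit 4843456190) (nat_lit 1368) (nat_lit 87812384589) (nat_lit 298) (nat_lit 5) (nat_lit 315) (nat_lit 5) (nat_lit 316) (nat_lit 5) (nat_lit 513) (nat_lit 499) (nat_lit 188)) (XT.lf (nat_lit 0) (nat_lit 7972389797) (nat_lit 1292) (nat_lit 49650184363) (nat_lit 1368) (nat_lit 37755535586) (nat_lit 299) (nat_lit 5) (nat_lit 316) (nat_lit 5) (nat_lit 317) (nat_lit 5) (nat_lit 514) (nat_lit 499) (nat_lit 187))))) (XT.nd (nat_lit 312) (nat_lit 1216) (nat_lit 0) (XT.nd (nat_lit 156) (nat_lit 760) (nat_lit 0) (XT.nd (nat_lit 78) (nat_lit 0) (nat_lit 76) (XT.lf (nat_lit 76) (nat_lit 958209607) (nat_lit 0) (nat_lit 14078944044) (nat_lit 1368) (nat_lit 81876125533) (nat_lit 300) (nat_lit 5) (nat_lit 299) (nat_lit 5) (nat_lit 317) (nat_lit 5) (nat_lit 515) (nat_lit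 499) (nat_lit 186)) (XT.lf (nat_lit 0) (nat_lit 23115686307) (nat_lit 1292) (nat_lit 44677844986) (nat_lit 76) (nat_lit 30676917662) (nat_lit 300) (nat_lit 5) (nat_lit 317) (nat_lit 5) (nat_lit 301) (nat_lit 5) (nat_lit 516) (nat_lit 499) (nat_lit 185))) (XT.nd (nat_lit 78) (nat_lit 0) (nat_lit 0) (XT.lf (nat_lit 0) (nat_lit 8157221135) (nat_lit 836) (nat_lit 23496872845) (nat_lit 912) (nat_lit 68413714292) (nat_lit 289) (nat_lit 5) (nat_lit 300) (nat_lit 5) (nat_lit 301) (nat_lit 5) (nat_lit 517) (nat_lit 499) (nat_lit 184)) (XT.lf (nat_lit 0) (nat_lit 41116711486) (nat_lit 912) (nat_lit 38423806481) (nat_lit 76) (nat_lit 22152528696) (nat_lit 289) (nat_lit 5) (nat_lit 301) (nat_lit 5) (nat_lit 290) (nat_lit 5) (nat_lit 518) (nat_lit 499) (nat_lit 183)))) (XT.nd (nat_lit 156) (nat_lit 608) (nat_lit 0) (XT.nd (nat_lit 78) (nat_lit 0) (nat_lit 0) (XT.lf (nat_lit 0) (nat_lit 16761762547) (nat_lit 608) (nat_lit 34494937411)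 (nat_lit 684) (nat_lit 52098537499) (nat_lit 281) (nat_lit 5) (nat_lit 289) (nat_lit 5) (nat_lit 290) (nat_lit 5) (nat_lit 519) (nat_lit 499) (nat_lit 182)) (XT.lf (nat_lit 0) (nat_lit 62206875763) (nat_lit 684) (nat_lit 30783616689) (nat_lit 76) (nat_lit 12061621915) (nat_lit 281) (nat_lit 5) (nat_lit 290) (nat_lit 5) (nat_lit 282) (nat_lit 5) (nat_lit 520) (nat_lit 499) (nat_lit 181))) (XT.nd (nat_lit 78) (nat_lit 0) (nat_lit 0) (XT.lf (nat_lit 0) (nat_lit 26883340815) (nat_lit 608) (nat_lit 47201908529) (nat_lit 684) (nat_lit 32696657488) (nat_lit 273) (nat_lit 5) (nat_lit 281) (nat_lit 5) (nat_lit 282) (nat_lit 5) (nat_lit 521) (nat_lit 499) (nat_lit 180)) (XT.lf (nat_lit 0) (nat_lit 86633269339) (nat_lit 684) (nat_lit 21645881385) (nat_lit 76) (nat_lit 275043511) (nat_lit 273) (nat_lit 5) (nat_lit 282) (nat_lit 5) (nat_lit 274) (nat_lit 5) (nat_lit 522) (nat_lit 499) (nat_lit 179)))))) (XT.nd (nat_lit 60684)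 (nat_lit 0) (nat_lit 5472) (XT.nd (nat_lit 312) (nat_lit 988) (nat_lit 0) (XT.nd (nat_lit 156) (nat_lit 1140) (nat_lit 0) (XT.nd (nat_lit 78) (nat_lit 76) (nat_lit 0) (XT.lf (nat_lit 0) (nat_lit 38640808552) (nat_lit 532) (nat_lit 61755458117) (nat_lit 608) (nat_lit 9958227510) (nat_lit 266) (nat_lit 5) (nat_lit 273) (nat_lit 5) (nat_lit 274) (nat_lit 5) (nat_lit 523) (nat_lit 499) (nat_lit 178)) (XT.lf (nat_lit 0) (nat_lit 2537732862) (nat_lit 608) (nat_lit 11047562705) (nat_lit 76) (nat_lit 98616211050) (nat_lit 265) (nat_lit 5) (nat_lit 273) (nat_lit 5) (nat_lit 266) (nat_lit 5) (nat_lit 524) (nat_lit 499) (nat_lit 177))) (XT.nd (nat_lit 78) (nat_lit 532) (nat_lit 0) (XT.lf (nat_lit 0) (nat_lit 16063815245) (nat_lit 684) (nat_lit 62076718227) (nat_lit 76) (nat_lit 35934776272) (nat_lit 257) (nat_lit 5) (nat_lit 266) (nat_lit 5) (nat_lit 258) (nat_lit 5) (nat_lit 525) (nat_lit 499) (nat_lit 176)) (XT.lf (nat_lit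 0) (nat_lit 1045145960) (nat_lit 532) (nat_lit 29207517948) (nat_lit 608) (nat_lit 85744953562) (nat_lit 250) (nat_lit 5) (nat_lit 257) (nat_lit 5) (nat_lit 258) (nat_lit 5) (nat_lit 526) (nat_lit 499) (nat_lit 175)))) (XT.nd (nat_lit 156) (nat_lit 456) (nat_lit 0) (XT.nd (nat_lit 78) (nat_lit 532) (nat_lit 0) (XT.lf (nat_lit 0) (nat_lit 45703732740) (nat_lit 608) (nat_lit 50835796953) (nat_lit 76) (nat_lit 21412968112) (nat_lit 250) (nat_lit 5) (nat_lit 258) (nat_lit 5) (nat_lit 251) (nat_lit 5) (nat_lit 527) (nat_lit 499) (nat_lit 174)) (XT.lf (nat_lit 0) (nat_lit 15211783791) (nat_lit 532) (nat_lit 46841735186) (nat_lit 608) (nat_lit 57899450028) (nat_lit 243) (nat_lit 5) (nat_lit 250) (nat_lit 5) (nat_lit 251) (nat_lit 5) (nat_lit 528) (nat_lit 499) (nat_lit 173))) (XT.nd (nat_lit 78) (nat_lit 456) (nat_lit 0) (XT.lf (nat_lit 0) (nat_lit 79453790137) (nat_lit 608) (nat_lit 37762297981) (nat_lit 76) (nat_lit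 4780566501) (nat_lit 243) (nat_lit 5) (nat_lit 251) (nat_lit 5) (nat_lit 244) (nat_lit 5) (nat_lit 529) (nat_lit 499) (nat_lit 172)) (XT.lf (nat_lit 0) (nat_lit 31374155101) (nat_lit 456) (nat_lit 66767068751) (nat_lit 532) (nat_lit 25937472333) (nat_lit 237) (nat_lit 5) (nat_lit 243) (nat_lit 5) (nat_lit 244) (nat_lit 5) (nat_lit 530) (nat_lit 499) (nat_lit 171))))) (XT.nd (nat_lit 312) (nat_lit 0) (nat_lit 152) (XT.nd (nat_lit 156) (nat_lit 0) (nat_lit 76) (XT.nd (nat_lit 78) (nat_lit 0) (nat_lit 0) (XT.lf (nat_lit 0) (nat_lit 21039331223) (nat_lit 1292) (nat_lit 8993063216) (nat_lit 1292) (nat_lit 8993063216) (nat_lit 309) (nat_lit 3) (nat_lit 326) (nat_lit 3) (nat_lit 326) (nat_lit 5) (nat_lit 500) (nat_lit 500) (nat_lit 200)) (XT.lf (nat_lit 76) (nat_lit 21138110513) (nat_lit 0) (nat_lit 21785606776) (nat_lit 1292) (nat_lit 36291544516) (nat_lit 310) (nat_lit 5) (nat_lit 309) (nat_lit 3) (nat_lit 326) (nat_lit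 5) (nat_lit 501) (nat_lit 500) (nat_lit 199))) (XT.nd (nat_lit 78) (nat_lit 0) (nat_lit 0) (XT.lf (nat_lit 0) (nat_lit 44146714787) (nat_lit 1216) (nat_lit 18775934449) (nat_lit 1292) (nat_lit 17481311768) (nat_lit 310) (nat_lit 5) (nat_lit 326) (nat_lit 5) (nat_lit 327) (nat_lit 5) (nat_lit 502) (nat_lit 500) (nat_lit 198)) (XT.lf (nat_lit 76) (nat_lit 21916054250) (nat_lit 0) (nat_lit 23916312614) (nat_lit 1292) (nat_lit 35783175410) (nat_lit 311) (nat_lit 5) (nat_lit 310) (nat_lit 5) (nat_lit 327) (nat_lit 5) (nat_lit 503) (nat_lit 500) (nat_lit 197)))) (XT.nd (nat_lit 156) (nat_lit 0) (nat_lit 76) (XT.nd (nat_lit 78) (nat_lit 0) (nat_lit 0) (XT.lf (nat_lit 0) (nat_lit 47915975320) (nat_lit 1216) (nat_lit 18802510519) (nat_lit 1292) (nat_lit 16134563577) (nat_lit 311) (nat_lit 5) (nat_lit 327) (nat_lit 5) (nat_lit 328) (nat_lit 5) (nat_lit 504) (nat_lit 500) (nat_lit 196)) (XT.lf (nat_lit 76) (nat_lit 23543773855)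 (nat_lit 0) (nat_lit 26981048307) (nat_lit 1292) (nat_lit 33588977740) (nat_lit 312) (nat_lit 5) (nat_lit 311) (nat_lit 5) (nat_lit 328) (nat_lit 5) (nat_lit 505) (nat_lit 500) (nat_lit 195))) (XT.nd (nat_lit 78) (nat_lit 0) (nat_lit 0) (XT.lf (nat_lit 0) (nat_lit 53537392543) (nat_lit 1216) (nat_lit 17997000041) (nat_lit 1292) (nat_lit 13868216611) (nat_lit 312) (nat_lit 5) (nat_lit 328) (nat_lit 5) (nat_lit 329) (nat_lit 5) (nat_lit 506) (nat_lit 500) (nat_lit 194)) (XT.lf (nat_lit 76) (nat_lit 26095051669) (nat_lit 0) (nat_lit 31062908012) (nat_lit 1292) (nat_lit 29556594527) (nat_lit 313) (nat_lit 5) (nat_lit 312) (nat_lit 5) (nat_lit 329) (nat_lit 5) (nat_lit 507) (nat_lit 500) (nat_lit 193))))))))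
noncomputable def xc251 : XT := (XT.nd (nat_lit 62634) (nat_lit 0) (nat_lit 532) (XT.nd (nat_lit 1170) (nat_lit 2280) (nat_lit 0) (XT.nd (nat_lit 546) (nat_lit 1900) (nat_lit 0) (XT.nd (nat_lit 234) (nat_lit 1140) (nat_lit 0) (XT.nd (nat_lit 78) (nat_lit 0) (nat_lit 0) (XT.lf (nat_lit 0) (nat_lit 61172438091) (nat_lit 1216) (nat_lit 16285775105) (nat_lit 1292) (nat_lit 10599085582) (nat_lit 313) (nat_lit 5) (nat_lit 329) (nat_lit 5) (nat_lit 330) (nat_lit 5) (nat_lit 508) (nat_lit 500) (nat_lit 192)) (XT.nd (nat_lit 78) (nat_lit 0) (nat_lit 76) (XT.lf (nat_lit 76) (nat_lit 29648727261) (nat_lit 0) (nat_lit 36250837478) (nat_lit 1292) (nat_lit 23522994560) (nat_lit 314) (nat_lit 5) (nat_lit 313) (nat_lit 5) (nat_lit 330) (nat_lit 5) (nat_lit 509) (nat_lit 500) (nat_lit 191)) (XT.lf (nat_lit 0) (nat_lit 70993783720) (nat_lit 1216) (nat_lit 13590139213) (nat_lit 1292) (nat_lit 6238096377) (nat_lit 314) (nat_lit 5)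 (nat_lit 330) (nat_lit 5) (nat_lit 331) (nat_lit 5) (nat_lit 510) (nat_lit 500) (nat_lit 190)))) (XT.nd (nat_lit 156) (nat_lit 1216) (nat_lit 0) (XT.nd (nat_lit 78) (nat_lit 0) (nat_lit 76) (XT.lf (nat_lit 76) (nat_lit 34289008956) (nat_lit 0) (nat_lit 42640023400) (nat_lit 1292) (nat_lit 15313784703) (nat_lit 315) (nat_lit 5) (nat_lit 314) (nat_lit 5) (nat_lit 331) (nat_lit 5) (nat_lit 511) (nat_lit 500) (nat_lit 189)) (XT.lf (nat_lit 0) (nat_lit 83186019985) (nat_lit 1216) (nat_lit 9826014785) (nat_lit 1292) (nat_lit 689893552) (nat_lit 315) (nat_lit 5) (nat_lit 331) (nat_lit 5) (nat_lit 332) (nat_lit 5) (nat_lit 512) (nat_lit 500) (nat_lit 188))) (XT.nd (nat_lit 78) (nat_lit 1292) (nat_lit 0) (XT.lf (nat_lit 76) (nat_lit 40105803472) (nat_lit 0) (nat_lit 50332307796) (nat_lit 1292) (nat_lit 4742479863) (nat_lit 316) (nat_lit 5) (nat_lit 315) (nat_lit 5) (nat_lit 332) (nat_lit 5) (nat_lit 513) (nat_lit 500) (nat_lit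 187)) (XT.lf (nat_lit 0) (nat_lit 1280557730) (nat_lit 1292) (nat_lit 4976437414) (nat_lit 1368) (nat_lit 90443274348) (nat_lit 298) (nat_lit 5) (nat_lit 315) (nat_lit 5) (nat_lit 316) (nat_lit 5) (nat_lit 514) (nat_lit 500) (nat_lit 186))))) (XT.nd (nat_lit 312) (nat_lit 1216) (nat_lit 0) (XT.nd (nat_lit 156) (nat_lit 760) (nat_lit 0) (XT.nd (nat_lit 78) (nat_lit 0) (nat_lit 0) (XT.lf (nat_lit 0) (nat_lit 8226547512) (nat_lit 1292) (nat_lit 51127009531) (nat_lit 1368) (nat_lit 38885445121) (nat_lit 299) (nat_lit 5) (nat_lit 316) (nat_lit 5) (nat_lit 317) (nat_lit 5) (nat_lit 515) (nat_lit 500) (nat_lit 185)) (XT.lf (nat_lit 76) (nat_lit 999511942) (nat_lit 0) (nat_lit 14503426551) (nat_lit 1368) (nat_lit 84317297704) (nat_lit 300) (nat_lit 5) (nat_lit 299) (nat_lit 5) (nat_lit 317) (nat_lit 5) (nat_lit 516) (nat_lit 500) (nat_lit 184))) (XT.nd (nat_lit 78) (nat_lit 836) (nat_lit 0) (XT.lf (nat_lit 0) (nat_lit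 23823380109) (nat_lit 1292) (nat_lit 46005541760) (nat_lit 76) (nat_lit 31595212638) (nat_lit 300) (nat_lit 5) (nat_lit 317) (nat_lit 5) (nat_lit 301) (nat_lit 5) (nat_lit 517) (nat_lit 500) (nat_lit 183)) (XT.lf (nat_lit 0) (nat_lit 8414452436) (nat_lit 836) (nat_lit 24203193605) (nat_lit 912) (nat_lit 70451777416) (nat_lit 289) (nat_lit 5) (nat_lit 300) (nat_lit 5) (nat_lit 301) (nat_lit 5) (nat_lit 518) (nat_lit 500) (nat_lit 182)))) (XT.nd (nat_lit 156) (nat_lit 608) (nat_lit 0) (XT.nd (nat_lit 78) (nat_lit 608) (nat_lit 0) (XT.lf (nat_lit 0) (nat_lit 42363723166) (nat_lit 912) (nat_lit 39563950456) (nat_lit 76) (nat_lit 22815757982) (nat_lit 289) (nat_lit 5) (nat_lit 301) (nat_lit 5) (nat_lit 290) (nat_lit 5) (nat_lit 519) (nat_lit 500) (nat_lit 181)) (XT.lf (nat_lit 0) (nat_lit 17277062406) (nat_lit 608) (nat_lit 35530575029) (nat_lit 684) (nat_lit 53647858936) (nat_lit 281) (nat_lit 5) (nat_lit 289) (nat_lit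 5) (nat_lit 290) (nat_lit 5) (nat_lit 520) (nat_lit 500) (nat_lit 180))) (XT.nd (nat_lit 78) (nat_lit 608) (nat_lit 0) (XT.lf (nat_lit 0) (nat_lit 64085925617) (nat_lit 684) (nat_lit 31694646761) (nat_lit 76) (nat_lit 12422719029) (nat_lit 281) (nat_lit 5) (nat_lit 290) (nat_lit 5) (nat_lit 282) (nat_lit 5) (nat_lit 521) (nat_lit 500) (nat_lit 179)) (XT.lf (nat_lit 0) (nat_lit 27702197131) (nat_lit 608) (nat_lit 48618197964) (nat_lit 684) (nat_lit 33664590242) (nat_lit 273) (nat_lit 5) (nat_lit 281) (nat_lit 5) (nat_lit 282) (nat_lit 5) (nat_lit 522) (nat_lit 500) (nat_lit 178)))))) (XT.nd (nat_lit 60840) (nat_lit 0) (nat_lit 5016) (XT.nd (nat_lit 312) (nat_lit 1064) (nat_lit 0) (XT.nd (nat_lit 156) (nat_lit 684) (nat_lit 0) (XT.nd (nat_lit 78) (nat_lit 532) (nat_lit 0) (XT.lf (nat_lit 0) (nat_lit 89244486875) (nat_lit 684) (nat_lit 22282891784) (nat_lit 76) (nat_lit 283073799) (nat_lit 273) (nat_lit 5) (nat_lit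 282) (nat_lit 5) (nat_lit 274) (nat_lit 5) (nat_lit 523) (nat_lit 500) (nat_lit 177)) (XT.lf (nat_lit 0) (nat_lit 39812277615) (nat_lit 532) (nat_lit 63607858308) (nat_lit 608) (nat_lit 10244632653) (nat_lit 266) (nat_lit 5) (nat_lit 273) (nat_lit 5) (nat_lit 274) (nat_lit 5) (nat_lit 524) (nat_lit 500) (nat_lit 176))) (XT.nd (nat_lit 78) (nat_lit 608) (nat_lit 0) (XT.lf (nat_lit 0) (nat_lit 2625613248) (nat_lit 608) (nat_lit 11366866673) (nat_lit 76) (nat_lit 101574718507) (nat_lit 265) (nat_lit 5) (nat_lit 273) (nat_lit 5) (nat_lit 266) (nat_lit 5) (nat_lit 525) (nat_lit 500) (nat_lit 175)) (XT.lf (nat_lit 0) (nat_lit 16557255944) (nat_lit 684) (nat_lit 63926673795) (nat_lit 76) (nat_lit 37013292602) (nat_lit 257) (nat_lit 5) (nat_lit 266) (nat_lit 5) (nat_lit 258) (nat_lit 5) (nat_lit 526) (nat_lit 500) (nat_lit 174)))) (XT.nd (nat_lit 156) (nat_lit 532) (nat_lit 0) (XT.nd (nat_lit 78) (nat_lit 0) (nat_lit 0)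 (XT.lf (nat_lit 0) (nat_lit 1088725278) (nat_lit 532) (nat_lit 30082826586) (nat_lit 608) (nat_lit 88305654007) (nat_lit 250) (nat_lit 5) (nat_lit 257) (nat_lit 5) (nat_lit 258) (nat_lit 5) (nat_lit 527) (nat_lit 500) (nat_lit 173)) (XT.lf (nat_lit 0) (nat_lit 47085831958) (nat_lit 608) (nat_lit 52348680329) (nat_lit 76) (nat_lit 22056229978) (nat_lit 250) (nat_lit 5) (nat_lit 258) (nat_lit 5) (nat_lit 251) (nat_lit 5) (nat_lit 528) (nat_lit 500) (nat_lit 172))) (XT.nd (nat_lit 60294) (nat_lit 0) (nat_lit 5016) (XT.lf (nat_lit 0) (nat_lit 15680208322) (nat_lit 532) (nat_lit 48245699478) (nat_lit 608) (nat_lit 59625325947) (nat_lit 243) (nat_lit 5) (nat_lit 250) (nat_lit 5) (nat_lit 251) (nat_lit 5) (nat_lit 529) (nat_lit 500) (nat_lit 171)) (XT.lf (nat_lit 0) (nat_lit 21681090931) (nat_lit 1292) (nat_lit 9257406041) (nat_lit 1292) (nat_lit 9257406041) (nat_lit 309) (nat_lit 3) (nat_lit 326) (nat_lit 3) (nat_lit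 326) (nat_lit 5) (nat_lit 501) (nat_lit 501) (nat_lit 198))))) (XT.nd (nat_lit 312) (nat_lit 0) (nat_lit 152) (XT.nd (nat_lit 156) (nat_lit 0) (nat_lit 76) (XT.nd (nat_lit 78) (nat_lit 0) (nat_lit 76) (XT.lf (nat_lit 76) (nat_lit 21783045127) (nat_lit 0) (nat_lit 22449030659) (nat_lit 1292) (nat_lit 37359022565) (nat_lit 310) (nat_lit 5) (nat_lit 309) (nat_lit 3) (nat_lit 326) (nat_lit 5) (nat_lit 502) (nat_lit 501) (nat_lit 197)) (XT.lf (nat_lit 0) (nat_lit 45491069860) (nat_lit 1216) (nat_lit 19328040301) (nat_lit 1292) (nat_lit 17996369218) (nat_lit 310) (nat_lit 5) (nat_lit 326) (nat_lit 5) (nat_lit 327) (nat_lit 5) (nat_lit 503) (nat_lit 501) (nat_lit 196))) (XT.nd (nat_lit 78) (nat_lit 0) (nat_lit 76) (XT.lf (nat_lit 76) (nat_lit 22584598527) (nat_lit 0) (nat_lit 24642218140) (nat_lit 1292) (nat_lit 36836605720) (nat_lit 311) (nat_lit 5) (nat_lit 310) (nat_lit 5) (nat_lit 327) (nat_lit 5) (nat_lit 504) (nat_lit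 501) (nat_lit 195)) (XT.lf (nat_lit 0) (nat_lit 49372287488) (nat_lit 1216) (nat_lit 19355197770) (nat_lit 1292) (nat_lit 16610588914) (nat_lit 311) (nat_lit 5) (nat_lit 327) (nat_lit 5) (nat_lit 328) (nat_lit 5) (nat_lit 505) (nat_lit 501) (nat_lit 194)))) (XT.nd (nat_lit 156) (nat_lit 0) (nat_lit 76) (XT.nd (nat_lit 78) (nat_lit 0) (nat_lit 76) (XT.lf (nat_lit 76) (nat_lit 24261363487) (nat_lit 0) (nat_lit 27797596113) (nat_lit 1292) (nat_lit 34577700828) (nat_lit 312) (nat_lit 5) (nat_lit 311) (nat_lit 5) (nat_lit 328) (nat_lit 5) (nat_lit 506) (nat_lit 501) (nat_lit 193)) (XT.lf (nat_lit 0) (nat_lit 55161304966) (nat_lit 1216) (nat_lit 18525358300) (nat_lit 1292) (nat_lit 14277488846) (nat_lit 312) (nat_lit 5) (nat_lit 328) (nat_lit 5) (nat_lit 329) (nat_lit 5) (nat_lit 507) (nat_lit 501) (nat_lit 192))) (XT.nd (nat_lit 78) (nat_lit 0) (nat_lit 76) (XT.lf (nat_lit 76) (nat_lit 26889341709) (nat_lit 0) (nat_lit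 32000739189) (nat_lit 1292) (nat_lit 30425386873) (nat_lit 313) (nat_lit 5) (nat_lit 312) (nat_lit 5) (nat_lit 329) (nat_lit 5) (nat_lit 508) (nat_lit 501) (nat_lit 191)) (XT.lf (nat_lit 0) (nat_lit 63024431903) (nat_lit 1216) (nat_lit 16762679727) (nat_lit 1292) (nat_lit 10911399947) (nat_lit 313) (nat_lit 5) (nat_lit 329) (nat_lit 5) (nat_lit 330) (nat_lit 5) (nat_lit 509) (nat_lit 501) (nat_lit 190))))))) (XT.nd (nat_lit 1248) (nat_lit 1216) (nat_lit 0) (XT.nd (nat_lit 624) (nat_lit 2432) (nat_lit 0) (XT.nd (nat_lit 312) (nat_lit 1140) (nat_lit 0) (XT.nd (nat_lit 156) (nat_lit 0) (nat_lit 76) (XT.nd (nat_lit 78) (nat_lit 0) (nat_lit 76) (XT.lf (nat_lit 76) (nat_lit 30549743312) (nat_lit 0) (nat_lit 37343250183) (nat_lit 1292) (nat_lit 24211747829) (nat_lit 314) (nat_lit 5) (nat_lit 313) (nat_lit 5) (nat_lit 330) (nat_lit 5) (nat_lit 510) (nat_lit 501) (nat_lit 189)) (XT.lf (nat_lit 0) (nat_lit 73139514544) (nat_lit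 1216) (nat_lit 13986099729) (nat_lit 1292) (nat_lit 6420586642) (nat_lit 314) (nat_lit 5) (nat_lit 330) (nat_lit 5) (nat_lit 331) (nat_lit 5) (nat_lit 511) (nat_lit 501) (nat_lit 188))) (XT.nd (nat_lit 78) (nat_lit 0) (nat_lit 76) (XT.lf (nat_lit 76) (nat_lit 35329307751) (nat_lit 0) (nat_lit 43923161057) (nat_lit 1292) (nat_lit 15757164385) (nat_lit 315) (nat_lit 5) (nat_lit 314) (nat_lit 5) (nat_lit 331) (nat_lit 5) (nat_lit 512) (nat_lit 501) (nat_lit 187)) (XT.lf (nat_lit 0) (nat_lit 85696675960) (nat_lit 1216) (nat_lit 10109013919) (nat_lit 1292) (nat_lit 706842659) (nat_lit 315) (nat_lit 5) (nat_lit 331) (nat_lit 5) (nat_lit 332) (nat_lit 5) (nat_lit 513) (nat_lit 501) (nat_lit 186)))) (XT.nd (nat_lit 156) (nat_lit 0) (nat_lit 76) (XT.nd (nat_lit 78) (nat_lit 1292) (nat_lit 0) (XT.lf (nat_lit 76) (nat_lit 41320643382) (nat_lit 0) (nat_lit 51845359649) (nat_lit 1292) (nat_lit 4869562048) (nat_lit 316) (nat_lit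 5) (nat_lit 315) (nat_lit 5) (nat_lit 332) (nat_lit 5) (nat_lit 514) (nat_lit 501) (nat_lit 185)) (XT.lf (nat_lit 0) (nat_lit 1333436361) (nat_lit 1292) (nat_lit 5114115434) (nat_lit 1368) (nat_lit 93153290668) (nat_lit 298) (nat_lit 5) (nat_lit 315) (nat_lit 5) (nat_lit 316) (nat_lit 5) (nat_lit 515) (nat_lit 501) (nat_lit 184))) (XT.nd (nat_lit 78) (nat_lit 0) (nat_lit 0) (XT.lf (nat_lit 0) (nat_lit 8487469700) (nat_lit 1292) (nat_lit 52648867358) (nat_lit 1368) (nat_lit 40049410179) (nat_lit 299) (nat_lit 5) (nat_lit 316) (nat_lit 5) (nat_lit 317) (nat_lit 5) (nat_lit 516) (nat_lit 501) (nat_lit 183)) (XT.lf (nat_lit 76) (nat_lit 1041332578) (nat_lit 0) (nat_lit 14940522170) (nat_lit 1368) (nat_lit 86832572508) (nat_lit 300) (nat_lit 5) (nat_lit 299) (nat_lit 5) (nat_lit 317) (nat_lit 5) (nat_lit 517) (nat_lit 501) (nat_lit 182))))) (XT.nd (nat_lit 312) (nat_lit 1140) (nat_lit 0) (XT.nd (nat_lit 156) (nat_lit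 608) (nat_lit 0) (XT.nd (nat_lit 78) (nat_lit 836) (nat_lit 0) (XT.lf (nat_lit 0) (nat_lit 24551488254) (nat_lit 1292) (nat_lit 47373794944) (nat_lit 76) (nat_lit 32541171993) (nat_lit 300) (nat_lit 5) (nat_lit 317) (nat_lit 5) (nat_lit 301) (nat_lit 5) (nat_lit 518) (nat_lit 501) (nat_lit 181)) (XT.lf (nat_lit 0) (nat_lit 8678682283) (nat_lit 836) (nat_lit 24930622787) (nat_lit 912) (nat_lit 72551806086) (nat_lit 289) (nat_lit 5) (nat_lit 300) (nat_lit 5) (nat_lit 301) (nat_lit 5) (nat_lit 519) (nat_lit 501) (nat_lit 180))) (XT.nd (nat_lit 78) (nat_lit 608) (nat_lit 0) (XT.lf (nat_lit 0) (nat_lit 43647369647) (nat_lit 912) (nat_lit 40739020332) (nat_lit 76) (nat_lit 23498961446) (nat_lit 289) (nat_lit 5) (nat_lit 301) (nat_lit 5) (nat_lit 290) (nat_lit 5) (nat_lit 520) (nat_lit 501) (nat_lit 179)) (XT.lf (nat_lit 0) (nat_lit 17807106753) (nat_lit 608) (nat_lit 36597236455) (nat_lit 684) (nat_lit 55244442702) (nat_lit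 281) (nat_lit 5) (nat_lit 289) (nat_lit 5) (nat_lit 290) (nat_lit 5) (nat_lit 521) (nat_lit 501) (nat_lit 178)))) (XT.nd (nat_lit 156) (nat_lit 532) (nat_lit 0) (XT.nd (nat_lit 78) (nat_lit 608) (nat_lit 0) (XT.lf (nat_lit 0) (nat_lit 66020609693) (nat_lit 684) (nat_lit 32633724047) (nat_lit 76) (nat_lit 12794692199) (nat_lit 281) (nat_lit 5) (nat_lit 290) (nat_lit 5) (nat_lit 282) (nat_lit 5) (nat_lit 522) (nat_lit 501) (nat_lit 177)) (XT.lf (nat_lit 0) (nat_lit 28544909846) (nat_lit 608) (nat_lit 50076962755) (nat_lit 684) (nat_lit 34662305335) (nat_lit 273) (nat_lit 5) (nat_lit 281) (nat_lit 5) (nat_lit 282) (nat_lit 5) (nat_lit 523) (nat_lit 501) (nat_lit 176))) (XT.nd (nat_lit 78) (nat_lit 532) (nat_lit 0) (XT.lf (nat_lit 0) (nat_lit 91933339489) (nat_lit 684) (nat_lit 22939722357) (nat_lit 76) (nat_lit 291357682) (nat_lit 273) (nat_lit 5) (nat_lit 282) (nat_lit 5) (nat_lit 274) (nat_lit 5) (nat_lit 524) (nat_lit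 501) (nat_lit 175)) (XT.lf (nat_lit 0) (nat_lit 41018187848) (nat_lit 532) (nat_lit 65515845633) (nat_lit 608) (nat_lit 10540338413) (nat_lit 266) (nat_lit 5) (nat_lit 273) (nat_lit 5) (nat_lit 274) (nat_lit 5) (nat_lit 525) (nat_lit 501) (nat_lit 174)))))) (XT.nd (nat_lit 60918) (nat_lit 0) (nat_lit 4636) (XT.nd (nat_lit 60606) (nat_lit 0) (nat_lit 4484) (XT.nd (nat_lit 156) (nat_lit 532) (nat_lit 0) (XT.nd (nat_lit 78) (nat_lit 608) (nat_lit 0) (XT.lf (nat_lit 0) (nat_lit 2715455639) (nat_lit 608) (nat_lit 11696445665) (nat_lit 76) (nat_lit 104621979976) (nat_lit 265) (nat_lit 5) (nat_lit 273) (nat_lit 5) (nat_lit 266) (nat_lit 5) (nat_lit 526) (nat_lit 501) (nat_lit 173)) (XT.lf (nat_lit 0) (nat_lit 17064838211) (nat_lit 684) (nat_lit 65832836740) (nat_lit 76) (nat_lit 38124137268) (nat_lit 257) (nat_lit 5) (nat_lit 266) (nat_lit 5) (nat_lit 258) (nat_lit 5) (nat_lit 527) (nat_lit 501) (nat_lit 172))) (XT.nd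 (nat_lit 78) (nat_lit 0) (nat_lit 0) (XT.lf (nat_lit 0) (nat_lit 1132910215) (nat_lit 532) (nat_lit 30984447118) (nat_lit 608) (nat_lit 90943844118) (nat_lit 250) (nat_lit 5) (nat_lit 257) (nat_lit 5) (nat_lit 258) (nat_lit 5) (nat_lit 528) (nat_lit 501) (nat_lit 171)) (XT.lf (nat_lit 0) (nat_lit 48508763441) (nat_lit 608) (nat_lit 53907649993) (nat_lit 76) (nat_lit 22718739597) (nat_lit 250) (nat_lit 5) (nat_lit 258) (nat_lit 5) (nat_lit 251) (nat_lit 5) (nat_lit 529) (nat_lit 501) (nat_lit 170)))) (XT.nd (nat_lit 156) (nat_lit 0) (nat_lit 76) (XT.nd (nat_lit 78) (nat_lit 0) (nat_lit 0) (XT.lf (nat_lit 0) (nat_lit 22341496107) (nat_lit 1292) (nat_lit 9529991950) (nat_lit 1292) (nat_lit 9529991950) (nat_lit 309) (nat_lit 3) (nat_lit 326) (nat_lit 3) (nat_lit 326) (nat_lit 5) (nat_lit 502) (nat_lit 502) (nat_lit 196)) (XT.lf (nat_lit 76) (nat_lit 22446708314) (nat_lit 0) (nat_lit 23131791501) (nat_lit 1292) (nat_lit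 38459745842) (nat_lit 310) (nat_lit 5) (nat_lit 309) (nat_lit 3) (nat_lit 326) (nat_lit 5) (nat_lit 503) (nat_lit 502) (nat_lit 195))) (XT.nd (nat_lit 78) (nat_lit 0) (nat_lit 0) (XT.lf (nat_lit 0) (nat_lit 46874610165) (nat_lit 1216) (nat_lit 19897350658) (nat_lit 1292) (nat_lit 18527416952) (nat_lit 310) (nat_lit 5) (nat_lit 326) (nat_lit 5) (nat_lit 327) (nat_lit 5) (nat_lit 504) (nat_lit 502) (nat_lit 194)) (XT.lf (nat_lit 76) (nat_lit 23272564092) (nat_lit 0) (nat_lit 25389417710) (nat_lit 1292) (nat_lit 37922790751) (nat_lit 311) (nat_lit 5) (nat_lit 310) (nat_lit 5) (nat_lit 327) (nat_lit 5) (nat_lit 505) (nat_lit 502) (nat_lit 193))))) (XT.nd (nat_lit 312) (nat_lit 0) (nat_lit 152) (XT.nd (nat_lit 156) (nat_lit 0) (nat_lit 76) (XT.nd (nat_lit 78) (nat_lit 0) (nat_lit 0) (XT.lf (nat_lit 0) (nat_lit 50871207935) (nat_lit 1216) (nat_lit 19925119361) (nat_lit 1292) (nat_lit 17101354908) (nat_lit 311) (nat_lit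 5) (nat_lit 327) (nat_lit 5) (nat_lit 328) (nat_lit 5) (nat_lit 506) (nat_lit 502) (nat_lit 192)) (XT.lf (nat_lit 76) (nat_lit 24999833496) (nat_lit 0) (nat_lit 28638231845) (nat_lit 1292) (nat_lit 35597173201) (nat_lit 312) (nat_lit 5) (nat_lit 311) (nat_lit 5) (nat_lit 328) (nat_lit 5) (nat_lit 507) (nat_lit 502) (nat_lit 191))) (XT.nd (nat_lit 78) (nat_lit 0) (nat_lit 0) (XT.lf (nat_lit 0) (nat_lit 56832913506) (nat_lit 1216) (nat_lit 19070230424) (nat_lit 1292) (nat_lit 14699428119) (nat_lit 312) (nat_lit 5) (nat_lit 328) (nat_lit 5) (nat_lit 329) (nat_lit 5) (nat_lit 508) (nat_lit 502) (nat_lit 190)) (XT.lf (nat_lit 76) (nat_lit 27706803834) (nat_lit 0) (nat_lit 32966364095) (nat_lit 1292) (nat_lit 31321270837) (nat_lit 313) (nat_lit 5) (nat_lit 312) (nat_lit 5) (nat_lit 329) (nat_lit 5) (nat_lit 509) (nat_lit 502) (nat_lit 189)))) (XT.nd (nat_lit 156) (nat_lit 0) (nat_lit 76) (XT.nd (nat_lit 78) (nat_lit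 0) (nat_lit 0) (XT.lf (nat_lit 0) (nat_lit 64931019954) (nat_lit 1216) (nat_lit 17254561314) (nat_lit 1292) (nat_lit 11233408546) (nat_lit 313) (nat_lit 5) (nat_lit 329) (nat_lit 5) (nat_lit 330) (nat_lit 5) (nat_lit 510) (nat_lit 502) (nat_lit 188)) (XT.lf (nat_lit 76) (nat_lit 31477126585) (nat_lit 0) (nat_lit 38468154701) (nat_lit 1292) (nat_lit 24922135924) (nat_lit 314) (nat_lit 5) (nat_lit 313) (nat_lit 5) (nat_lit 330) (nat_lit 5) (nat_lit 511) (nat_lit 502) (nat_lit 187))) (XT.nd (nat_lit 78) (nat_lit 0) (nat_lit 0) (XT.lf (nat_lit 0) (nat_lit 75348703573) (nat_lit 1216) (nat_lit 14394613194) (nat_lit 1292) (nat_lit 6608818694) (nat_lit 314) (nat_lit 5) (nat_lit 330) (nat_lit 5) (nat_lit 331) (nat_lit 5) (nat_lit 512) (nat_lit 502) (nat_lit 186)) (XT.lf (nat_lit 76) (nat_lit 36400147985) (nat_lit 0) (nat_lit 45244566846) (nat_lit 1292) (nat_lit 16214765866) (nat_lit 315) (nat_lit 5) (nat_lit 314) (nat_lit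 5) (nat_lit 331) (nat_lit 5) (nat_lit 513) (nat_lit 502) (nat_lit 185))))))))
noncomputable def xc252 : XT := (XT.nd (nat_lit 62790) (nat_lit 0) (nat_lit 1140) (XT.nd (nat_lit 1170) (nat_lit 532) (nat_lit 0) (XT.nd (nat_lit 546) (nat_lit 2432) (nat_lit 0) (XT.nd (nat_lit 234) (nat_lit 684) (nat_lit 0) (XT.nd (nat_lit 78) (nat_lit 1292) (nat_lit 0) (XT.lf (nat_lit 0) (nat_lit 88281786226) (nat_lit 1216) (nat_lit 10401179323) (nat_lit 1292) (nat_lit 724515373) (nat_lit 315) (nat_lit 5) (nat_lit 331) (nat_lit 5) (nat_lit 332) (nat_lit 5) (nat_lit 514) (nat_lit 502) (nat_lit 184)) (XT.nd (nat_lit 78) (nat_lit 1292) (nat_lit 0) (XT.lf (nat_lit 76) (nat_lit 42571258826) (nat_lit 0) (nat_lit 53403626103) (nat_lit 1292) (nat_lit 5001328794) (nat_lit 316) (nat_lit 5) (nat_lit 315) (nat_lit 5) (nat_lit 332) (nat_lit 5) (nat_lit 515) (nat_lit 502) (nat_lit 183)) (XT.lf (nat_lit 0) (nat_lit 1387071179) (nat_lit 1292) (nat_lit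 5256590549) (nat_lit 1368) (nat_lit 95944795872) (nat_lit 298) (nat_lit 5) (nat_lit 315) (nat_lit 5) (nat_lit 316) (nat_lit 5) (nat_lit 516) (nat_lit 502) (nat_lit 182)))) (XT.nd (nat_lit 156) (nat_lit 760) (nat_lit 0) (XT.nd (nat_lit 78) (nat_lit 0) (nat_lit 0) (XT.lf (nat_lit 0) (nat_lit 8755408677) (nat_lit 1292) (nat_lit 54217067040) (nat_lit 1368) (nat_lit 41248443341) (nat_lit 299) (nat_lit 5) (nat_lit 316) (nat_lit 5) (nat_lit 317) (nat_lit 5) (nat_lit 517) (nat_lit 502) (nat_lit 181)) (XT.lf (nat_lit 76) (nat_lit 1083728439) (nat_lit 0) (nat_lit 15390616262) (nat_lit 1368) (nat_lit 89424123227) (nat_lit 300) (nat_lit 5) (nat_lit 299) (nat_lit 5) (nat_lit 317) (nat_lit 5) (nat_lit 518) (nat_lit 502) (nat_lit 180))) (XT.nd (nat_lit 78) (nat_lit 836) (nat_lit 0) (XT.lf (nat_lit 0) (nat_lit 25300670041) (nat_lit 1292) (nat_lit 48783779582) (nat_lit 76) (nat_lit 33515619025) (nat_lit 300) (nat_lit 5) (nat_lit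 317) (nat_lit 5) (nat_lit 301) (nat_lit 5) (nat_lit 519) (nat_lit 502) (nat_lit 179)) (XT.lf (nat_lit 0) (nat_lit 8950161872) (nat_lit 836) (nat_lit 25679798302) (nat_lit 912) (nat_lit 74715611986) (nat_lit 289) (nat_lit 5) (nat_lit 300) (nat_lit 5) (nat_lit 301) (nat_lit 5) (nat_lit 520) (nat_lit 502) (nat_lit 178))))) (XT.nd (nat_lit 312) (nat_lit 1216) (nat_lit 0) (XT.nd (nat_lit 156) (nat_lit 608) (nat_lit 0) (XT.nd (nat_lit 78) (nat_lit 608) (nat_lit 0) (XT.lf (nat_lit 0) (nat_lit 44968794494) (nat_lit 912) (nat_lit 41950022464) (nat_lit 76) (nat_lit 24202733875) (nat_lit 289) (nat_lit 5) (nat_lit 301) (nat_lit 5) (nat_lit 290) (nat_lit 5) (nat_lit 521) (nat_lit 502) (nat_lit 177)) (XT.lf (nat_lit 0) (nat_lit 18352378939) (nat_lit 608) (nat_lit 37695855005) (nat_lit 684) (nat_lit 56889661739) (nat_lit 281) (nat_lit 5) (nat_lit 289) (nat_lit 5) (nat_lit 290) (nat_lit 5) (nat_lit 522) (nat_lit 502) (nat_lit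 176))) (XT.nd (nat_lit 78) (nat_lit 608) (nat_lit 0) (XT.lf (nat_lit 0) (nat_lit 68012639340) (nat_lit 684) (nat_lit 33601648846) (nat_lit 76) (nat_lit 13177865228) (nat_lit 281) (nat_lit 5) (nat_lit 290) (nat_lit 5) (nat_lit 282) (nat_lit 5) (nat_lit 523) (nat_lit 502) (nat_lit 175)) (XT.lf (nat_lit 0) (nat_lit 29412235369) (nat_lit 608) (nat_lit 51579477926) (nat_lit 684) (nat_lit 35690653509) (nat_lit 273) (nat_lit 5) (nat_lit 281) (nat_lit 5) (nat_lit 282) (nat_lit 5) (nat_lit 524) (nat_lit 502) (nat_lit 174)))) (XT.nd (nat_lit 156) (nat_lit 684) (nat_lit 0) (XT.nd (nat_lit 78) (nat_lit 532) (nat_lit 0) (XT.lf (nat_lit 0) (nat_lit 94702196502) (nat_lit 684) (nat_lit 23616926959) (nat_lit 76) (nat_lit 299902041) (nat_lit 273) (nat_lit 5) (nat_lit 282) (nat_lit 5) (nat_lit 274) (nat_lit 5) (nat_lit 525) (nat_lit 502) (nat_lit 173)) (XT.lf (nat_lit 0) (nat_lit 42259612836) (nat_lit 532) (nat_lit 67481086838) (nat_lit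 608) (nat_lit 10845583140) (nat_lit 266) (nat_lit 5) (nat_lit 273) (nat_lit 5) (nat_lit 274) (nat_lit 5) (nat_lit 526) (nat_lit 502) (nat_lit 172))) (XT.nd (nat_lit 78) (nat_lit 608) (nat_lit 0) (XT.lf (nat_lit 0) (nat_lit 2807357609) (nat_lit 608) (nat_lit 12036567984) (nat_lit 76) (nat_lit 107760658145) (nat_lit 265) (nat_lit 5) (nat_lit 273) (nat_lit 5) (nat_lit 266) (nat_lit 5) (nat_lit 527) (nat_lit 502) (nat_lit 171)) (XT.lf (nat_lit 0) (nat_lit 17587024274) (nat_lit 684) (nat_lit 67796852600) (nat_lit 76) (nat_lit 39268281678) (nat_lit 257) (nat_lit 5) (nat_lit 266) (nat_lit 5) (nat_lit 258) (nat_lit 5) (nat_lit 528) (nat_lit 502) (nat_lit 170)))))) (XT.nd (nat_lit 60996) (nat_lit 0) (nat_lit 3648) (XT.nd (nat_lit 60684) (nat_lit 0) (nat_lit 4560) (XT.nd (nat_lit 60528) (nat_lit 0) (nat_lit 4484) (XT.nd (nat_lit 60450) (nat_lit 0) (nat_lit 4484) (XT.lf (nat_lit 0) (nat_lit 1177759222) (nat_lit 532) (nat_lit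 31913165877) (nat_lit 608) (nat_lit 93661810200) (nat_lit 250) (nat_lit 5) (nat_lit 257) (nat_lit 5) (nat_lit 258) (nat_lit 5) (nat_lit 529) (nat_lit 502) (nat_lit 169)) (XT.lf (nat_lit 0) (nat_lit 23021140980) (nat_lit 1292) (nat_lit 9811050279) (nat_lit 1292) (nat_lit 9811050279) (nat_lit 309) (nat_lit 3) (nat_lit 326) (nat_lit 3) (nat_lit 326) (nat_lit 5) (nat_lit 503) (nat_lit 503) (nat_lit 194))) (XT.nd (nat_lit 78) (nat_lit 0) (nat_lit 76) (XT.lf (nat_lit 76) (nat_lit 23129697492) (nat_lit 0) (nat_lit 23834501890) (nat_lit 1292) (nat_lit 39594641620) (nat_lit 310) (nat_lit 5) (nat_lit 309) (nat_lit 3) (nat_lit 326) (nat_lit 5) (nat_lit 504) (nat_lit 503) (nat_lit 193)) (XT.lf (nat_lit 0) (nat_lit 48298577012) (nat_lit 1216) (nat_lit 20484344840) (nat_lit 1292) (nat_lit 19074903762) (nat_lit 310) (nat_lit 5) (nat_lit 326) (nat_lit 5) (nat_lit 327) (nat_lit 5) (nat_lit 505) (nat_lit 503) (nat_lit 192)))) (XT.nd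 (nat_lit 156) (nat_lit 0) (nat_lit 76) (XT.nd (nat_lit 78) (nat_lit 0) (nat_lit 76) (XT.lf (nat_lit 76) (nat_lit 23980570035) (nat_lit 0) (nat_lit 26158577879) (nat_lit 1292) (nat_lit 39042647023) (nat_lit 311) (nat_lit 5) (nat_lit 310) (nat_lit 5) (nat_lit 327) (nat_lit 5) (nat_lit 506) (nat_lit 503) (nat_lit 191)) (XT.lf (nat_lit 0) (nat_lit 52414076968) (nat_lit 1216) (nat_lit 20512754795) (nat_lit 1292) (nat_lit 17607277378) (nat_lit 311) (nat_lit 5) (nat_lit 327) (nat_lit 5) (nat_lit 328) (nat_lit 5) (nat_lit 507) (nat_lit 503) (nat_lit 190))) (XT.nd (nat_lit 78) (nat_lit 0) (nat_lit 76) (XT.lf (nat_lit 76) (nat_lit 25759847450) (nat_lit 0) (nat_lit 29503701591) (nat_lit 1292) (nat_lit 36648254904) (nat_lit 312) (nat_lit 5) (nat_lit 311) (nat_lit 5) (nat_lit 328) (nat_lit 5) (nat_lit 508) (nat_lit 503) (nat_lit 189)) (XT.lf (nat_lit 0) (nat_lit 58553707670) (nat_lit 1216) (nat_lit 19632073764) (nat_lit 1292)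 (nat_lit 15134392117) (nat_lit 312) (nat_lit 5) (nat_lit 328) (nat_lit 5) (nat_lit 329) (nat_lit 5) (nat_lit 509) (nat_lit 503) (nat_lit 188))))) (XT.nd (nat_lit 312) (nat_lit 1064) (nat_lit 0) (XT.nd (nat_lit 156) (nat_lit 0) (nat_lit 76) (XT.nd (nat_lit 78) (nat_lit 0) (nat_lit 76) (XT.lf (nat_lit 76) (nat_lit 28548170899) (nat_lit 0) (nat_lit 33960636128) (nat_lit 1292) (nat_lit 32245000166) (nat_lit 313) (nat_lit 5) (nat_lit 312) (nat_lit 5) (nat_lit 329) (nat_lit 5) (nat_lit 510) (nat_lit 503) (nat_lit 187)) (XT.lf (nat_lit 0) (nat_lit 66893895500) (nat_lit 1216) (nat_lit 17761830726) (nat_lit 1292) (nat_lit 11565383563) (nat_lit 313) (nat_lit 5) (nat_lit 329) (nat_lit 5) (nat_lit 330) (nat_lit 5) (nat_lit 511) (nat_lit 503) (nat_lit 186))) (XT.nd (nat_lit 78) (nat_lit 0) (nat_lit 76) (XT.lf (nat_lit 76) (nat_lit 32431706169) (nat_lit 0) (nat_lit 39626541894) (nat_lit 1292) (nat_lit 25654752081) (nat_lit 314)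 (nat_lit 5) (nat_lit 313) (nat_lit 5) (nat_lit 330) (nat_lit 5) (nat_lit 512) (nat_lit 503) (nat_lit 185)) (XT.lf (nat_lit 0) (nat_lit 77623307005) (nat_lit 1216) (nat_lit 14816017500) (nat_lit 1292) (nat_lit 6802949456) (nat_lit 314) (nat_lit 5) (nat_lit 330) (nat_lit 5) (nat_lit 331) (nat_lit 5) (nat_lit 513) (nat_lit 503) (nat_lit 184)))) (XT.nd (nat_lit 156) (nat_lit 1216) (nat_lit 0) (XT.nd (nat_lit 78) (nat_lit 0) (nat_lit 76) (XT.lf (nat_lit 76) (nat_lit 37502484219) (nat_lit 0) (nat_lit 46605401785) (nat_lit 1292) (nat_lit 16686962966) (nat_lit 315) (nat_lit 5) (nat_lit 314) (nat_lit 5) (nat_lit 331) (nat_lit 5) (nat_lit 514) (nat_lit 503) (nat_lit 183)) (XT.lf (nat_lit 0) (nat_lit 90943634089) (nat_lit 1216) (nat_lit 10702747161) (nat_lit 1292) (nat_lit 742921051) (nat_lit 315) (nat_lit 5) (nat_lit 331) (nat_lit 5) (nat_lit 332) (nat_lit 5) (nat_lit 515) (nat_lit 503) (nat_lit 182))) (XT.nd (nat_lit 78)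 (nat_lit 1292) (nat_lit 0) (XT.lf (nat_lit 76) (nat_lit 43858761509) (nat_lit 0) (nat_lit 55008473753) (nat_lit 1292) (nat_lit 5137870574) (nat_lit 316) (nat_lit 5) (nat_lit 315) (nat_lit 5) (nat_lit 332) (nat_lit 5) (nat_lit 516) (nat_lit 503) (nat_lit 181)) (XT.lf (nat_lit 0) (nat_lit 1441532525) (nat_lit 1292) (nat_lit 5403968398) (nat_lit 1368) (nat_lit 98820223814) (nat_lit 298) (nat_lit 5) (nat_lit 315) (nat_lit 5) (nat_lit 316) (nat_lit 5) (nat_lit 517) (nat_lit 503) (nat_lit 180))))))) (XT.nd (nat_lit 61698) (nat_lit 0) (nat_lit 1824) (XT.nd (nat_lit 546) (nat_lit 1216) (nat_lit 0) (XT.nd (nat_lit 234) (nat_lit 1368) (nat_lit 0) (XT.nd (nat_lit 78) (nat_lit 0) (nat_lit 0) (XT.lf (nat_lit 0) (nat_lit 9030621494) (nat_lit 1292) (nat_lit 55832959446) (nat_lit 1368) (nat_lit 42483588089) (nat_lit 299) (nat_lit 5) (nat_lit 316) (nat_lit 5) (nat_lit 317) (nat_lit 5) (nat_lit 518) (nat_lit 503) (nat_lit 179))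 (XT.nd (nat_lit 78) (nat_lit 0) (nat_lit 76) (XT.lf (nat_lit 76) (nat_lit 1126755784) (nat_lit 0) (nat_lit 15854105347) (nat_lit 1368) (nat_lit 92094191201) (nat_lit 300) (nat_lit 5) (nat_lit 299) (nat_lit 5) (nat_lit 317) (nat_lit 5) (nat_lit 519) (nat_lit 503) (nat_lit 178)) (XT.lf (nat_lit 0) (nat_lit 26071601859) (nat_lit 1292) (nat_lit 50236708362) (nat_lit 76) (nat_lit 34519402114) (nat_lit 300) (nat_lit 5) (nat_lit 317) (nat_lit 5) (nat_lit 301) (nat_lit 5) (nat_lit 520) (nat_lit 503) (nat_lit 177)))) (XT.nd (nat_lit 156) (nat_lit 608) (nat_lit 0) (XT.nd (nat_lit 78) (nat_lit 0) (nat_lit 0) (XT.lf (nat_lit 0) (nat_lit 9229147565) (nat_lit 836) (nat_lit 26451376936) (nat_lit 912) (nat_lit 76945063867) (nat_lit 289) (nat_lit 5) (nat_lit 300) (nat_lit 5) (nat_lit 301) (nat_lit 5) (nat_lit 521) (nat_lit 503) (nat_lit 176)) (XT.lf (nat_lit 0) (nat_lit 46329173022) (nat_lit 912) (nat_lit 43197995777) (nat_lit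 76) (nat_lit 24927688156) (nat_lit 289) (nat_lit 5) (nat_lit 301) (nat_lit 5) (nat_lit 290) (nat_lit 5) (nat_lit 522) (nat_lit 503) (nat_lit 175))) (XT.nd (nat_lit 78) (nat_lit 0) (nat_lit 0) (XT.lf (nat_lit 0) (nat_lit 18913374459) (nat_lit 608) (nat_lit 38827391846) (nat_lit 684) (nat_lit 58584932754) (nat_lit 281) (nat_lit 5) (nat_lit 289) (nat_lit 5) (nat_lit 290) (nat_lit 5) (nat_lit 523) (nat_lit 503) (nat_lit 174)) (XT.lf (nat_lit 0) (nat_lit 70063774818) (nat_lit 684) (nat_lit 34599247823) (nat_lit 76) (nat_lit 13572571779) (nat_lit 281) (nat_lit 5) (nat_lit 290) (nat_lit 5) (nat_lit 282) (nat_lit 5) (nat_lit 524) (nat_lit 503) (nat_lit 173))))) (XT.nd (nat_lit 60840) (nat_lit 0) (nat_lit 3344) (XT.nd (nat_lit 156) (nat_lit 608) (nat_lit 0) (XT.nd (nat_lit 78) (nat_lit 0) (nat_lit 0) (XT.lf (nat_lit 0) (nat_lit 30304950462) (nat_lit 608) (nat_lit 53127056710) (nat_lit 684) (nat_lit 36750513481) (nat_lit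 273) (nat_lit 5) (nat_lit 281) (nat_lit 5) (nat_lit 282) (nat_lit 5) (nat_lit 525) (nat_lit 503) (nat_lit 172)) (XT.lf (nat_lit 0) (nat_lit 97553495999) (nat_lit 684) (nat_lit 24315078402) (nat_lit 76) (nat_lit 308714003) (nat_lit 273) (nat_lit 5) (nat_lit 282) (nat_lit 5) (nat_lit 274) (nat_lit 5) (nat_lit 526) (nat_lit 503) (nat_lit 171))) (XT.nd (nat_lit 78) (nat_lit 76) (nat_lit 0) (XT.lf (nat_lit 0) (nat_lit 43537656054) (nat_lit 532) (nat_lit 69505298722) (nat_lit 608) (nat_lit 11160614669) (nat_lit 266) (nat_lit 5) (nat_lit 273) (nat_lit 5) (nat_lit 274) (nat_lit 5) (nat_lit 527) (nat_lit 503) (nat_lit 170)) (XT.lf (nat_lit 0) (nat_lit 2901417438) (nat_lit 608) (nat_lit 12387512275) (nat_lit 76) (nat_lit 110993495582) (nat_lit 265) (nat_lit 5) (nat_lit 273) (nat_lit 5) (nat_lit 266) (nat_lit 5) (nat_lit 528) (nat_lit 503) (nat_lit 169)))) (XT.nd (nat_lit 156) (nat_lit 0) (nat_lit 76) (XT.nd (nat_lit 78)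 (nat_lit 0) (nat_lit 0) (XT.lf (nat_lit 0) (nat_lit 23720635601) (nat_lit 1292) (nat_lit 10100818276) (nat_lit 1292) (nat_lit 10100818276) (nat_lit 309) (nat_lit 3) (nat_lit 326) (nat_lit 3) (nat_lit 326) (nat_lit 5) (nat_lit 504) (nat_lit 504) (nat_lit 192)) (XT.lf (nat_lit 76) (nat_lit 23832625959) (nat_lit 0) (nat_lit 24557790922) (nat_lit 1292) (nat_lit 40764669013) (nat_lit 310) (nat_lit 5) (nat_lit 309) (nat_lit 3) (nat_lit 326) (nat_lit 5) (nat_lit 505) (nat_lit 504) (nat_lit 191))) (XT.nd (nat_lit 78) (nat_lit 0) (nat_lit 0) (XT.lf (nat_lit 0) (nat_lit 49764245172) (nat_lit 1216) (nat_lit 21089518660) (nat_lit 1292) (nat_lit 19639293680) (nat_lit 310) (nat_lit 5) (nat_lit 326) (nat_lit 5) (nat_lit 327) (nat_lit 5) (nat_lit 506) (nat_lit 504) (nat_lit 190)) (XT.lf (nat_lit 76) (nat_lit 24709251931) (nat_lit 0) (nat_lit 26950383606) (nat_lit 1292) (nat_lit 40197122353) (nat_lit 311) (nat_lit 5) (nat_lit 310)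 (nat_lit 5) (nat_lit 327) (nat_lit 5) (nat_lit 507) (nat_lit 504) (nat_lit 189)))))) (XT.nd (nat_lit 624) (nat_lit 1672) (nat_lit 0) (XT.nd (nat_lit 312) (nat_lit 0) (nat_lit 152) (XT.nd (nat_lit 156) (nat_lit 0) (nat_lit 76) (XT.nd (nat_lit 78) (nat_lit 0) (nat_lit 0) (XT.lf (nat_lit 0) (nat_lit 54002271541) (nat_lit 1216) (nat_lit 21118600114) (nat_lit 1292) (nat_lit 18128786135) (nat_lit 311) (nat_lit 5) (nat_lit 327) (nat_lit 5) (nat_lit 328) (nat_lit 5) (nat_lit 508) (nat_lit 504) (nat_lit 188)) (XT.lf (nat_lit 76) (nat_lit 26542086695) (nat_lit 0) (nat_lit 30394772475) (nat_lit 1292) (nat_lit 37731835370) (nat_lit 312) (nat_lit 5) (nat_lit 311) (nat_lit 5) (nat_lit 328) (nat_lit 5) (nat_lit 509) (nat_lit 504) (nat_lit 187))) (XT.nd (nat_lit 78) (nat_lit 0) (nat_lit 0) (XT.lf (nat_lit 0) (nat_lit 60325218287) (nat_lit 1216) (nat_lit 20211361574) (nat_lit 1292) (nat_lit 15582750542) (nat_lit 312) (nat_lit 5)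 (nat_lit 328) (nat_lit 5) (nat_lit 329) (nat_lit 5) (nat_lit 510) (nat_lit 504) (nat_lit 186)) (XT.lf (nat_lit 76) (nat_lit 29414195581) (nat_lit 0) (nat_lit 34984433166) (nat_lit 1292) (nat_lit 33197354604) (nat_lit 313) (nat_lit 5) (nat_lit 312) (nat_lit 5) (nat_lit 329) (nat_lit 5) (nat_lit 511) (nat_lit 504) (nat_lit 185)))) (XT.nd (nat_lit 156) (nat_lit 0) (nat_lit 76) (XT.nd (nat_lit 78) (nat_lit 0) (nat_lit 0) (XT.lf (nat_lit 0) (nat_lit 68914799411) (nat_lit 1216) (nat_lit 18284913352) (nat_lit 1292) (nat_lit 11907606414) (nat_lit 313) (nat_lit 5) (nat_lit 329) (nat_lit 5) (nat_lit 330) (nat_lit 5) (nat_lit 512) (nat_lit 504) (nat_lit 184)) (XT.lf (nat_lit 76) (nat_lit 33414333842) (nat_lit 0) (nat_lit 40819431422) (nat_lit 1292) (nat_lit 26410210534) (nat_lit 314) (nat_lit 5) (nat_lit 313) (nat_lit 5) (nat_lit 330) (nat_lit 5) (nat_lit 513) (nat_lit 504) (nat_lit 183))) (XT.nd (nat_lit 78) (nat_lit 0)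 (nat_lit 0) (XT.lf (nat_lit 0) (nat_lit 79965336713) (nat_lit 1216) (nat_lit 15250662895) (nat_lit 1292) (nat_lit 7003141437) (nat_lit 314) (nat_lit 5) (nat_lit 330) (nat_lit 5) (nat_lit 331) (nat_lit 5) (nat_lit 514) (nat_lit 504) (nat_lit 182)) (XT.lf (nat_lit 76) (nat_lit 38637297453) (nat_lit 0) (nat_lit 48006860976) (nat_lit 1292) (nat_lit 17174143750) (nat_lit 315) (nat_lit 5) (nat_lit 314) (nat_lit 5) (nat_lit 331) (nat_lit 5) (nat_lit 515) (nat_lit 504) (nat_lit 181))))) (XT.nd (nat_lit 312) (nat_lit 684) (nat_lit 0) (XT.nd (nat_lit 156) (nat_lit 1292) (nat_lit 0) (XT.nd (nat_lit 78) (nat_lit 0) (nat_lit 0) (XT.lf (nat_lit 0) (nat_lit 93684568501) (nat_lit 1216) (nat_lit 11013962915) (nat_lit 1292) (nat_lit 762070043) (nat_lit 315) (nat_lit 5) (nat_lit 331) (nat_lit 5) (nat_lit 332) (nat_lit 5) (nat_lit 516) (nat_lit 504) (nat_lit 180)) (XT.lf (nat_lit 76) (nat_lit 45184294283) (nat_lit 0) (nat_lit 56661309611)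 (nat_lit 1292) (nat_lit 5279283454) (nat_lit 316) (nat_lit 5) (nat_lit 315) (nat_lit 5) (nat_lit 332) (nat_lit 5) (nat_lit 517) (nat_lit 504) (nat_lit 179))) (XT.nd (nat_lit 78) (nat_lit 0) (nat_lit 76) (XT.lf (nat_lit 0) (nat_lit 1496890114) (nat_lit 1292) (nat_lit 5556359985) (nat_lit 1368) (nat_lit 101782081980) (nat_lit 298) (nat_lit 5) (nat_lit 315) (nat_lit 5) (nat_lit 316) (nat_lit 5) (nat_lit 518) (nat_lit 504) (nat_lit 178)) (XT.lf (nat_lit 0) (nat_lit 9313370243) (nat_lit 1292) (nat_lit 57497938233) (nat_lit 1368) (nat_lit 43755919699) (nat_lit 299) (nat_lit 5) (nat_lit 316) (nat_lit 5) (nat_lit 317) (nat_lit 5) (nat_lit 519) (nat_lit 504) (nat_lit 177)))) (XT.nd (nat_lit 156) (nat_lit 760) (nat_lit 0) (XT.nd (nat_lit 78) (nat_lit 0) (nat_lit 76) (XT.lf (nat_lit 76) (nat_lit 1170470316) (nat_lit 0) (nat_lit 16331397464) (nat_lit 1368) (nat_lit 94845087704) (nat_lit 300) (nat_lit 5) (nat_lit 299) (nat_lit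 5) (nat_lit 317) (nat_lit 5) (nat_lit 520) (nat_lit 504) (nat_lit 176)) (XT.lf (nat_lit 0) (nat_lit 26864977850) (nat_lit 1292) (nat_lit 51733832605) (nat_lit 76) (nat_lit 35553395449) (nat_lit 300) (nat_lit 5) (nat_lit 317) (nat_lit 5) (nat_lit 301) (nat_lit 5) (nat_lit 521) (nat_lit 504) (nat_lit 175))) (XT.nd (nat_lit 78) (nat_lit 0) (nat_lit 0) (XT.lf (nat_lit 0) (nat_lit 9515901186) (nat_lit 836) (nat_lit 27246034923) (nat_lit 912) (nat_lit 79242089099) (nat_lit 289) (nat_lit 5) (nat_lit 300) (nat_lit 5) (nat_lit 301) (nat_lit 5) (nat_lit 522) (nat_lit 504) (nat_lit 174)) (XT.lf (nat_lit 0) (nat_lit 47729713396) (nat_lit 912) (nat_lit 44484012602) (nat_lit 76) (nat_lit 25674455803) (nat_lit 289) (nat_lit 5) (nat_lit 301) (nat_lit 5) (nat_lit 290) (nat_lit 5) (nat_lit 523) (nat_lit 504) (nat_lit 173))))))))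
noncomputable def xc253 : XT := (XT.nd (nat_lit 123786) (nat_lit 0) (nat_lit 1140) (XT.nd (nat_lit 61776) (nat_lit 0) (nat_lit 532) (XT.nd (nat_lit 61152) (nat_lit 0) (nat_lit 3344) (XT.nd (nat_lit 234) (nat_lit 532) (nat_lit 0) (XT.nd (nat_lit 78) (nat_lit 608) (nat_lit 0) (XT.lf (nat_lit 0) (nat_lit 19490601455) (nat_lit 608) (nat_lit 39992836836) (nat_lit 684) (nat_lit 60331717388) (nat_lit 281) (nat_lit 5) (nat_lit 289) (nat_lit 5) (nat_lit 290) (nat_lit 5) (nat_lit 524) (nat_lit 504) (nat_lit 172)) (XT.nd (nat_lit 78) (nat_lit 608) (nat_lit 0) (XT.lf (nat_lit 0) (nat_lit 72175826904) (nat_lit 684) (nat_lit 35627374671) (nat_lit 76) (nat_lit 13979155657) (nat_lit 281) (nat_lit 5) (nat_lit 290) (nat_lit 5) (nat_lit 282) (nat_lit 5) (nat_lit 525) (nat_lit 504) (nat_lit 171)) (XT.lf (nat_lit 0) (nat_lit 31223852989) (nat_lit 608) (nat_lit 54721051696) (nat_lit 684) (nat_lit 37842792638) (nat_lit 273) (nat_lit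 5) (nat_lit 281) (nat_lit 5) (nat_lit 282) (nat_lit 5) (nat_lit 526) (nat_lit 504) (nat_lit 170)))) (XT.nd (nat_lit 60762) (nat_lit 0) (nat_lit 3268) (XT.nd (nat_lit 78) (nat_lit 532) (nat_lit 0) (XT.lf (nat_lit 0) (nat_lit 100489747030) (nat_lit 684) (nat_lit 25034768886) (nat_lit 76) (nat_lit 317800949) (nat_lit 273) (nat_lit 5) (nat_lit 282) (nat_lit 5) (nat_lit 274) (nat_lit 5) (nat_lit 527) (nat_lit 504) (nat_lit 169)) (XT.lf (nat_lit 0) (nat_lit 44853451899) (nat_lit 532) (nat_lit 71590249632) (nat_lit 608) (nat_lit 11485690471) (nat_lit 266) (nat_lit 5) (nat_lit 273) (nat_lit 5) (nat_lit 274) (nat_lit 5) (nat_lit 528) (nat_lit 504) (nat_lit 168))) (XT.nd (nat_lit 78) (nat_lit 0) (nat_lit 0) (XT.lf (nat_lit 0) (nat_lit 24440606438) (nat_lit 1292) (nat_lit 10399541277) (nat_lit 1292) (nat_lit 10399541277) (nat_lit 309) (nat_lit 3) (nat_lit 326) (nat_lit 3) (nat_lit 326) (nat_lit 5) (nat_lit 505) (nat_lit 505)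 (nat_lit 190)) (XT.lf (nat_lit 76) (nat_lit 24556123488) (nat_lit 0) (nat_lit 25302304814) (nat_lit 1292) (nat_lit 41970819702) (nat_lit 310) (nat_lit 5) (nat_lit 309) (nat_lit 3) (nat_lit 326) (nat_lit 5) (nat_lit 506) (nat_lit 505) (nat_lit 189))))) (XT.nd (nat_lit 312) (nat_lit 0) (nat_lit 152) (XT.nd (nat_lit 156) (nat_lit 0) (nat_lit 76) (XT.nd (nat_lit 78) (nat_lit 0) (nat_lit 0) (XT.lf (nat_lit 0) (nat_lit 51272924107) (nat_lit 1216) (nat_lit 21713384797) (nat_lit 1292) (nat_lit 20221066330) (nat_lit 310) (nat_lit 5) (nat_lit 326) (nat_lit 5) (nat_lit 327) (nat_lit 5) (nat_lit 507) (nat_lit 505) (nat_lit 188)) (XT.lf (nat_lit 76) (nat_lit 25459262447) (nat_lit 0) (nat_lit 27765538898) (nat_lit 1292) (nat_lit 41387196565) (nat_lit 311) (nat_lit 5) (nat_lit 310) (nat_lit 5) (nat_lit 327) (nat_lit 5) (nat_lit 508) (nat_lit 505) (nat_lit 187))) (XT.nd (nat_lit 78) (nat_lit 0) (nat_lit 0) (XT.lf (nat_lit 0) (nat_lit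 55637206559) (nat_lit 1216) (nat_lit 21743168275) (nat_lit 1292) (nat_lit 18666325312) (nat_lit 311) (nat_lit 5) (nat_lit 327) (nat_lit 5) (nat_lit 328) (nat_lit 5) (nat_lit 509) (nat_lit 505) (nat_lit 186)) (XT.lf (nat_lit 76) (nat_lit 27347251003) (nat_lit 0) (nat_lit 31312233367) (nat_lit 1292) (nat_lit 38848834091) (nat_lit 312) (nat_lit 5) (nat_lit 311) (nat_lit 5) (nat_lit 328) (nat_lit 5) (nat_lit 510) (nat_lit 505) (nat_lit 185)))) (XT.nd (nat_lit 156) (nat_lit 0) (nat_lit 76) (XT.nd (nat_lit 78) (nat_lit 0) (nat_lit 0) (XT.lf (nat_lit 0) (nat_lit 62149018936) (nat_lit 1216) (nat_lit 20808583370) (nat_lit 1292) (nat_lit 16044885393) (nat_lit 312) (nat_lit 5) (nat_lit 328) (nat_lit 5) (nat_lit 329) (nat_lit 5) (nat_lit 511) (nat_lit 505) (nat_lit 184)) (XT.lf (nat_lit 76) (nat_lit 30305651098) (nat_lit 0) (nat_lit 36038658359) (nat_lit 1292) (nat_lit 34179140483) (nat_lit 313) (nat_lit 5) (nat_lit 312) (nat_lit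 5) (nat_lit 329) (nat_lit 5) (nat_lit 512) (nat_lit 505) (nat_lit 183))) (XT.nd (nat_lit 78) (nat_lit 0) (nat_lit 0) (XT.lf (nat_lit 0) (nat_lit 70995521785) (nat_lit 1216) (nat_lit 18824249427) (nat_lit 1292) (nat_lit 12260367969) (nat_lit 313) (nat_lit 5) (nat_lit 329) (nat_lit 5) (nat_lit 330) (nat_lit 5) (nat_lit 513) (nat_lit 505) (nat_lit 182)) (XT.lf (nat_lit 76) (nat_lit 34425884876) (nat_lit 0) (nat_lit 42047872666) (nat_lit 1292) (nat_lit 27189146967) (nat_lit 314) (nat_lit 5) (nat_lit 313) (nat_lit 5) (nat_lit 330) (nat_lit 5) (nat_lit 514) (nat_lit 505) (nat_lit 181)))))) (XT.nd (nat_lit 624) (nat_lit 1900) (nat_lit 0) (XT.nd (nat_lit 312) (nat_lit 1216) (nat_lit 0) (XT.nd (nat_lit 156) (nat_lit 0) (nat_lit 76) (XT.nd (nat_lit 78) (nat_lit 0) (nat_lit 0) (XT.lf (nat_lit 0) (nat_lit 82376862088) (nat_lit 1216) (nat_lit 15698912228) (nat_lit 1292) (nat_lit 7209562854) (nat_lit 314) (nat_lit 5) (nat_lit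 330) (nat_lit 5) (nat_lit 331) (nat_lit 5) (nat_lit 515) (nat_lit 505) (nat_lit 180)) (XT.lf (nat_lit 76) (nat_lit 39805596043) (nat_lit 0) (nat_lit 49450174674) (nat_lit 1292) (nat_lit 17676710786) (nat_lit 315) (nat_lit 5) (nat_lit 314) (nat_lit 5) (nat_lit 331) (nat_lit 5) (nat_lit 516) (nat_lit 505) (nat_lit 179))) (XT.nd (nat_lit 78) (nat_lit 0) (nat_lit 0) (XT.lf (nat_lit 0) (nat_lit 96507006197) (nat_lit 1216) (nat_lit 11335081527) (nat_lit 1292) (nat_lit 781973676) (nat_lit 315) (nat_lit 5) (nat_lit 331) (nat_lit 5) (nat_lit 332) (nat_lit 5) (nat_lit 517) (nat_lit 505) (nat_lit 178)) (XT.lf (nat_lit 76) (nat_lit 46549032207) (nat_lit 0) (nat_lit 58363582347) (nat_lit 1292) (nat_lit 5425669086) (nat_lit 316) (nat_lit 5) (nat_lit 315) (nat_lit 5) (nat_lit 332) (nat_lit 5) (nat_lit 518) (nat_lit 505) (nat_lit 177)))) (XT.nd (nat_lit 156) (nat_lit 0) (nat_lit 76) (XT.nd (nat_lit 78) (nat_lit 0) (nat_lit 76)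 (XT.lf (nat_lit 0) (nat_lit 1553213174) (nat_lit 1292) (nat_lit 5713881715) (nat_lit 1368) (nat_lit 104832953669) (nat_lit 298) (nat_lit 5) (nat_lit 315) (nat_lit 5) (nat_lit 316) (nat_lit 5) (nat_lit 519) (nat_lit 505) (nat_lit 176)) (XT.lf (nat_lit 0) (nat_lit 9603922357) (nat_lit 1292) (nat_lit 59213440999) (nat_lit 1368) (nat_lit 45066546172) (nat_lit 299) (nat_lit 5) (nat_lit 316) (nat_lit 5) (nat_lit 317) (nat_lit 5) (nat_lit 520) (nat_lit 505) (nat_lit 175))) (XT.nd (nat_lit 78) (nat_lit 0) (nat_lit 76) (XT.lf (nat_lit 76) (nat_lit 1214927303) (nat_lit 0) (nat_lit 16822912541) (nat_lit 1368) (nat_lit 97679195890) (nat_lit 300) (nat_lit 5) (nat_lit 299) (nat_lit 5) (nat_lit 317) (nat_lit 5) (nat_lit 521) (nat_lit 505) (nat_lit 174)) (XT.lf (nat_lit 0) (nat_lit 27681510592) (nat_lit 1292) (nat_lit 53276443296) (nat_lit 76) (nat_lit 36618499784) (nat_lit 300) (nat_lit 5) (nat_lit 317) (nat_lit 5) (nat_lit 301)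 (nat_lit 5) (nat_lit 522) (nat_lit 505) (nat_lit 173))))) (XT.nd (nat_lit 312) (nat_lit 608) (nat_lit 0) (XT.nd (nat_lit 156) (nat_lit 608) (nat_lit 0) (XT.nd (nat_lit 78) (nat_lit 0) (nat_lit 0) (XT.lf (nat_lit 0) (nat_lit 9810690309) (nat_lit 836) (nat_lit 28064468547) (nat_lit 912) (nat_lit 81608675287) (nat_lit 289) (nat_lit 5) (nat_lit 300) (nat_lit 5) (nat_lit 301) (nat_lit 5) (nat_lit 523) (nat_lit 505) (nat_lit 172)) (XT.lf (nat_lit 0) (nat_lit 49171657756) (nat_lit 912) (nat_lit 45809179556) (nat_lit 76) (nat_lit 26443687499) (nat_lit 289) (nat_lit 5) (nat_lit 301) (nat_lit 5) (nat_lit 290) (nat_lit 5) (nat_lit 524) (nat_lit 505) (nat_lit 171))) (XT.nd (nat_lit 78) (nat_lit 0) (nat_lit 0) (XT.lf (nat_lit 0) (nat_lit 20084581223) (nat_lit 608) (nat_lit 41193209400) (nat_lit 684) (nat_lit 62131523421) (nat_lit 281) (nat_lit 5) (nat_lit 289) (nat_lit 5) (nat_lit 290) (nat_lit 5) (nat_lit 525) (nat_lit 505)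 (nat_lit 170)) (XT.lf (nat_lit 0) (nat_lit 74350658542) (nat_lit 684) (nat_lit 36686910788) (nat_lit 76) (nat_lit 14397971108) (nat_lit 281) (nat_lit 5) (nat_lit 290) (nat_lit 5) (nat_lit 282) (nat_lit 5) (nat_lit 526) (nat_lit 505) (nat_lit 169)))) (XT.nd (nat_lit 60918) (nat_lit 0) (nat_lit 2736) (XT.nd (nat_lit 60840) (nat_lit 0) (nat_lit 2736) (XT.lf (nat_lit 0) (nat_lit 32169762671) (nat_lit 608) (nat_lit 56362856010) (nat_lit 684) (nat_lit 38968427773) (nat_lit 273) (nat_lit 5) (nat_lit 281) (nat_lit 5) (nat_lit 282) (nat_lit 5) (nat_lit 527) (nat_lit 505) (nat_lit 168)) (XT.lf (nat_lit 0) (nat_lit 25181696975) (nat_lit 1292) (nat_lit 10707472895) (nat_lit 1292) (nat_lit 10707472895) (nat_lit 309) (nat_lit 3) (nat_lit 326) (nat_lit 3) (nat_lit 326) (nat_lit 5) (nat_lit 506) (nat_lit 506) (nat_lit 188))) (XT.nd (nat_lit 78) (nat_lit 0) (nat_lit 76) (XT.lf (nat_lit 76) (nat_lit 25300836932) (nat_lit 0) (nat_lit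 26068707509) (nat_lit 1292) (nat_lit 43214118690) (nat_lit 310) (nat_lit 5) (nat_lit 309) (nat_lit 3) (nat_lit 326) (nat_lit 5) (nat_lit 507) (nat_lit 506) (nat_lit 187)) (XT.lf (nat_lit 0) (nat_lit 52825959205) (nat_lit 1216) (nat_lit 22356473189) (nat_lit 1292) (nat_lit 20820717304) (nat_lit 310) (nat_lit 5) (nat_lit 326) (nat_lit 5) (nat_lit 327) (nat_lit 5) (nat_lit 508) (nat_lit 506) (nat_lit 186))))))) (XT.nd (nat_lit 1248) (nat_lit 608) (nat_lit 0) (XT.nd (nat_lit 624) (nat_lit 1596) (nat_lit 0) (XT.nd (nat_lit 312) (nat_lit 0) (nat_lit 152) (XT.nd (nat_lit 156) (nat_lit 0) (nat_lit 76) (XT.nd (nat_lit 78) (nat_lit 0) (nat_lit 76) (XT.lf (nat_lit 76) (nat_lit 26231271971) (nat_lit 0) (nat_lit 28604767469) (nat_lit 1292) (nat_lit 42613882254) (nat_lit 311) (nat_lit 5) (nat_lit 310) (nat_lit 5) (nat_lit 327) (nat_lit 5) (nat_lit 509) (nat_lit 506) (nat_lit 185)) (XT.lf (nat_lit 0) (nat_lit 57320336209) (nat_lit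 1216) (nat_lit 22386989534) (nat_lit 1292) (nat_lit 19220353710) (nat_lit 311) (nat_lit 5) (nat_lit 327) (nat_lit 5) (nat_lit 328) (nat_lit 5) (nat_lit 510) (nat_lit 506) (nat_lit 184))) (XT.nd (nat_lit 78) (nat_lit 0) (nat_lit 76) (XT.lf (nat_lit 76) (nat_lit 28176059246) (nat_lit 0) (nat_lit 32256895606) (nat_lit 1292) (nat_lit 40000201329) (nat_lit 312) (nat_lit 5) (nat_lit 311) (nat_lit 5) (nat_lit 328) (nat_lit 5) (nat_lit 511) (nat_lit 506) (nat_lit 183)) (XT.lf (nat_lit 0) (nat_lit 64026727416) (nat_lit 1216) (nat_lit 21424245290) (nat_lit 1292) (nat_lit 16521191266) (nat_lit 312) (nat_lit 5) (nat_lit 328) (nat_lit 5) (nat_lit 329) (nat_lit 5) (nat_lit 512) (nat_lit 506) (nat_lit 182)))) (XT.nd (nat_lit 156) (nat_lit 0) (nat_lit 76) (XT.nd (nat_lit 78) (nat_lit 0) (nat_lit 76) (XT.lf (nat_lit 76) (nat_lit 31223331942) (nat_lit 0) (nat_lit 37124240957) (nat_lit 1292) (nat_lit 35191191331) (nat_lit 313) (nat_lit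 5) (nat_lit 312) (nat_lit 5) (nat_lit 329) (nat_lit 5) (nat_lit 513) (nat_lit 506) (nat_lit 181)) (XT.lf (nat_lit 0) (nat_lit 73137903596) (nat_lit 1216) (nat_lit 19380294352) (nat_lit 1292) (nat_lit 12623968773) (nat_lit 313) (nat_lit 5) (nat_lit 329) (nat_lit 5) (nat_lit 330) (nat_lit 5) (nat_lit 514) (nat_lit 506) (nat_lit 180))) (XT.nd (nat_lit 78) (nat_lit 0) (nat_lit 76) (XT.lf (nat_lit 76) (nat_lit 35467258857) (nat_lit 0) (nat_lit 43312945665) (nat_lit 1292) (nat_lit 27992218979) (nat_lit 314) (nat_lit 5) (nat_lit 313) (nat_lit 5) (nat_lit 330) (nat_lit 5) (nat_lit 515) (nat_lit 506) (nat_lit 179)) (XT.lf (nat_lit 0) (nat_lit 84860011925) (nat_lit 1216) (nat_lit 16161141209) (nat_lit 1292) (nat_lit 7422387748) (nat_lit 314) (nat_lit 5) (nat_lit 330) (nat_lit 5) (nat_lit 331) (nat_lit 5) (nat_lit 516) (nat_lit 506) (nat_lit 178))))) (XT.nd (nat_lit 312) (nat_lit 684) (nat_lit 0) (XT.nd (nat_lit 156) (nat_lit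 1216) (nat_lit 0) (XT.nd (nat_lit 78) (nat_lit 0) (nat_lit 76) (XT.lf (nat_lit 76) (nat_lit 41008416640) (nat_lit 0) (nat_lit 50936609378) (nat_lit 1292) (nat_lit 18195081412) (nat_lit 315) (nat_lit 5) (nat_lit 314) (nat_lit 5) (nat_lit 331) (nat_lit 5) (nat_lit 517) (nat_lit 506) (nat_lit 177)) (XT.lf (nat_lit 0) (nat_lit 99413433878) (nat_lit 1216) (nat_lit 11666367572) (nat_lit 1292) (nat_lit 802644246) (nat_lit 315) (nat_lit 5) (nat_lit 331) (nat_lit 5) (nat_lit 332) (nat_lit 5) (nat_lit 518) (nat_lit 506) (nat_lit 176))) (XT.nd (nat_lit 78) (nat_lit 1292) (nat_lit 0) (XT.lf (nat_lit 76) (nat_lit 47954183629) (nat_lit 0) (nat_lit 60116783575) (nat_lit 1292) (nat_lit 5577134727) (nat_lit 316) (nat_lit 5) (nat_lit 315) (nat_lit 5) (nat_lit 332) (nat_lit 5) (nat_lit 519) (nat_lit 506) (nat_lit 175)) (XT.lf (nat_lit 0) (nat_lit 1610570581) (nat_lit 1292) (nat_lit 5876655440) (nat_lit 1368) (nat_lit 107975500229)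 (nat_lit 298) (nat_lit 5) (nat_lit 315) (nat_lit 5) (nat_lit 316) (nat_lit 5) (nat_lit 520) (nat_lit 506) (nat_lit 174)))) (XT.nd (nat_lit 156) (nat_lit 760) (nat_lit 0) (XT.nd (nat_lit 78) (nat_lit 0) (nat_lit 0) (XT.lf (nat_lit 0) (nat_lit 9902550922) (nat_lit 1292) (nat_lit 60980950477) (nat_lit 1368) (nat_lit 46416609180) (nat_lit 299) (nat_lit 5) (nat_lit 316) (nat_lit 5) (nat_lit 317) (nat_lit 5) (nat_lit 521) (nat_lit 506) (nat_lit 173)) (XT.lf (nat_lit 76) (nat_lit 1260181681) (nat_lit 0) (nat_lit 17329082764) (nat_lit 1368) (nat_lit 100598972798) (nat_lit 300) (nat_lit 5) (nat_lit 299) (nat_lit 5) (nat_lit 317) (nat_lit 5) (nat_lit 522) (nat_lit 506) (nat_lit 172))) (XT.nd (nat_lit 78) (nat_lit 836) (nat_lit 0) (XT.lf (nat_lit 0) (nat_lit 28521931785) (nat_lit 1292) (nat_lit 54865872153) (nat_lit 76) (nat_lit 37715643213) (nat_lit 300) (nat_lit 5) (nat_lit 317) (nat_lit 5) (nat_lit 301) (nat_lit 5) (nat_lit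 523) (nat_lit 506) (nat_lit 171)) (XT.lf (nat_lit 0) (nat_lit 10113788555) (nat_lit 836) (nat_lit 28907394758) (nat_lit 912) (nat_lit 84046871933) (nat_lit 289) (nat_lit 5) (nat_lit 300) (nat_lit 5) (nat_lit 301) (nat_lit 5) (nat_lit 524) (nat_lit 506) (nat_lit 170)))))) (XT.nd (nat_lit 61464) (nat_lit 0) (nat_lit 2280) (XT.nd (nat_lit 61152) (nat_lit 0) (nat_lit 2128) (XT.nd (nat_lit 156) (nat_lit 0) (nat_lit 0) (XT.nd (nat_lit 78) (nat_lit 608) (nat_lit 0) (XT.lf (nat_lit 0) (nat_lit 50656283365) (nat_lit 912) (nat_lit 47174638443) (nat_lit 76) (nat_lit 27236053663) (nat_lit 289) (nat_lit 5) (nat_lit 301) (nat_lit 5) (nat_lit 290) (nat_lit 5) (nat_lit 525) (nat_lit 506) (nat_lit 169)) (XT.lf (nat_lit 0) (nat_lit 20695848723) (nat_lit 608) (nat_lit 42429559418) (nat_lit 684) (nat_lit 63985906027) (nat_lit 281) (nat_lit 5) (nat_lit 289) (nat_lit 5) (nat_lit 290) (nat_lit 5) (nat_lit 526) (nat_lit 506) (nat_lit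 168))) (XT.nd (nat_lit 60918) (nat_lit 0) (nat_lit 2128) (XT.lf (nat_lit 0) (nat_lit 76590186528) (nat_lit 684) (nat_lit 37778765992) (nat_lit 76) (nat_lit 14829383124) (nat_lit 281) (nat_lit 5) (nat_lit 290) (nat_lit 5) (nat_lit 282) (nat_lit 5) (nat_lit 527) (nat_lit 506) (nat_lit 167)) (XT.lf (nat_lit 0) (nat_lit 25944568322) (nat_lit 1292) (nat_lit 11024875212) (nat_lit 1292) (nat_lit 11024875212) (nat_lit 309) (nat_lit 3) (nat_lit 326) (nat_lit 3) (nat_lit 326) (nat_lit 5) (nat_lit 507) (nat_lit 507) (nat_lit 186)))) (XT.nd (nat_lit 156) (nat_lit 0) (nat_lit 76) (XT.nd (nat_lit 78) (nat_lit 0) (nat_lit 76) (XT.lf (nat_lit 76) (nat_lit 26067430840) (nat_lit 0) (nat_lit 26857681310) (nat_lit 1292) (nat_lit 44495625103) (nat_lit 310) (nat_lit 5) (nat_lit 309) (nat_lit 3) (nat_lit 326) (nat_lit 5) (nat_lit 508) (nat_lit 507) (nat_lit 185)) (XT.lf (nat_lit 0) (nat_lit 54424733055) (nat_lit 1216) (nat_lit 23019331441)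 (nat_lit 1292) (nat_lit 21438758545) (nat_lit 310) (nat_lit 5) (nat_lit 326) (nat_lit 5) (nat_lit 327) (nat_lit 5) (nat_lit 509) (nat_lit 507) (nat_lit 184))) (XT.nd (nat_lit 78) (nat_lit 0) (nat_lit 76) (XT.lf (nat_lit 76) (nat_lit 27025969250) (nat_lit 0) (nat_lit 29468813409) (nat_lit 1292) (nat_lit 43878225568) (nat_lit 311) (nat_lit 5) (nat_lit 310) (nat_lit 5) (nat_lit 327) (nat_lit 5) (nat_lit 510) (nat_lit 507) (nat_lit 183)) (XT.lf (nat_lit 0) (nat_lit 59053155318) (nat_lit 1216) (nat_lit 23050611861) (nat_lit 1292) (nat_lit 19791345167) (nat_lit 311) (nat_lit 5) (nat_lit 327) (nat_lit 5) (nat_lit 328) (nat_lit 5) (nat_lit 511) (nat_lit 507) (nat_lit 182))))) (XT.nd (nat_lit 312) (nat_lit 0) (nat_lit 152) (XT.nd (nat_lit 156) (nat_lit 0) (nat_lit 76) (XT.nd (nat_lit 78) (nat_lit 0) (nat_lit 76) (XT.lf (nat_lit 76) (nat_lit 29029250075) (nat_lit 0) (nat_lit 33229593743) (nat_lit 1292) (nat_lit 41186918854)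 (nat_lit 312) (nat_lit 5) (nat_lit 311) (nat_lit 5) (nat_lit 328) (nat_lit 5) (nat_lit 512) (nat_lit 507) (nat_lit 181)) (XT.lf (nat_lit 0) (nat_lit 65960007240) (nat_lit 1216) (nat_lit 22058870489) (nat_lit 1292) (nat_lit 17012075673) (nat_lit 312) (nat_lit 5) (nat_lit 328) (nat_lit 5) (nat_lit 329) (nat_lit 5) (nat_lit 513) (nat_lit 507) (nat_lit 180))) (XT.nd (nat_lit 78) (nat_lit 0) (nat_lit 76) (XT.lf (nat_lit 76) (nat_lit 32168054627) (nat_lit 0) (nat_lit 38242137143) (nat_lit 1292) (nat_lit 36234368520) (nat_lit 313) (nat_lit 5) (nat_lit 312) (nat_lit 5) (nat_lit 329) (nat_lit 5) (nat_lit 514) (nat_lit 507) (nat_lit 179)) (XT.lf (nat_lit 0) (nat_lit 75343838383) (nat_lit 1216) (nat_lit 19953519039) (nat_lit 1292) (nat_lit 12998719287) (nat_lit 313) (nat_lit 5) (nat_lit 329) (nat_lit 5) (nat_lit 330) (nat_lit 5) (nat_lit 515) (nat_lit 507) (nat_lit 178)))) (XT.nd (nat_lit 156) (nat_lit 0) (nat_lit 76) (XT.nd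 (nat_lit 78) (nat_lit 0) (nat_lit 76) (XT.lf (nat_lit 76) (nat_lit 36539380530) (nat_lit 0) (nat_lit 44615762085) (nat_lit 1292) (nat_lit 28820106581) (nat_lit 314) (nat_lit 5) (nat_lit 313) (nat_lit 5) (nat_lit 330) (nat_lit 5) (nat_lit 516) (nat_lit 507) (nat_lit 177)) (XT.lf (nat_lit 0) (nat_lit 87416976365) (nat_lit 1216) (nat_lit 16637738678) (nat_lit 1292) (nat_lit 7641796121) (nat_lit 314) (nat_lit 5) (nat_lit 330) (nat_lit 5) (nat_lit 331) (nat_lit 5) (nat_lit 517) (nat_lit 507) (nat_lit 176))) (XT.nd (nat_lit 78) (nat_lit 0) (nat_lit 76) (XT.lf (nat_lit 76) (nat_lit 42246825154) (nat_lit 0) (nat_lit 52467468961) (nat_lit 1292) (nat_lit 18729688028) (nat_lit 315) (nat_lit 5) (nat_lit 314) (nat_lit 5) (nat_lit 331) (nat_lit 5) (nat_lit 518) (nat_lit 507) (nat_lit 175)) (XT.lf (nat_lit 0) (nat_lit 102406410459) (nat_lit 1216) (nat_lit 12008095426) (nat_lit 1292) (nat_lit 824095012) (nat_lit 315) (nat_lit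 5) (nat_lit 331) (nat_lit 5) (nat_lit 332) (nat_lit 5) (nat_lit 519) (nat_lit 507) (nat_lit 174))))))))
noncomputable def xc254 : XT := (XT.nd (nat_lit 124488) (nat_lit 0) (nat_lit 684) (XT.nd (nat_lit 62166) (nat_lit 0) (nat_lit 0) (XT.nd (nat_lit 61542) (nat_lit 0) (nat_lit 1520) (XT.nd (nat_lit 234) (nat_lit 684) (nat_lit 0) (XT.nd (nat_lit 78) (nat_lit 1292) (nat_lit 0) (XT.lf (nat_lit 76) (nat_lit 49400991300) (nat_lit 0) (nat_lit 61922449170) (nat_lit 1292) (nat_lit 5733793257) (nat_lit 316) (nat_lit 5) (nat_lit 315) (nat_lit 5) (nat_lit 332) (nat_lit 5) (nat_lit 520) (nat_lit 507) (nat_lit 173)) (XT.nd (nat_lit 78) (nat_lit 0) (nat_lit 76) (XT.lf (nat_lit 0) (nat_lit 1669030984) (nat_lit 1292) (nat_lit 6044808504) (nat_lit 1368) (nat_lit 111212463370) (nat_lit 298) (nat_lit 5) (nat_lit 315) (nat_lit 5) (nat_lit 316) (nat_lit 5) (nat_lit 521) (nat_lit 507) (nat_lit 172)) (XT.lf (nat_lit 0) (nat_lit 10209534975)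 (nat_lit 1292) (nat_lit 62801995777) (nat_lit 1368) (nat_lit 47807285063) (nat_lit 299) (nat_lit 5) (nat_lit 316) (nat_lit 5) (nat_lit 317) (nat_lit 5) (nat_lit 522) (nat_lit 507) (nat_lit 171)))) (XT.nd (nat_lit 156) (nat_lit 760) (nat_lit 0) (XT.nd (nat_lit 78) (nat_lit 0) (nat_lit 76) (XT.lf (nat_lit 76) (nat_lit 1306288157) (nat_lit 0) (nat_lit 17850352973) (nat_lit 1368) (nat_lit 103606951437) (nat_lit 300) (nat_lit 5) (nat_lit 299) (nat_lit 5) (nat_lit 317) (nat_lit 5) (nat_lit 523) (nat_lit 507) (nat_lit 170)) (XT.lf (nat_lit 0) (nat_lit 29386992957) (nat_lit 1292) (nat_lit 56503492731) (nat_lit 76) (nat_lit 38845781974) (nat_lit 300) (nat_lit 5) (nat_lit 317) (nat_lit 5) (nat_lit 301) (nat_lit 5) (nat_lit 524) (nat_lit 507) (nat_lit 169))) (XT.nd (nat_lit 78) (nat_lit 0) (nat_lit 0) (XT.lf (nat_lit 0) (nat_lit 10425475881) (nat_lit 836) (nat_lit 29775551802) (nat_lit 912) (nat_lit 86558792172) (nat_lit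 289) (nat_lit 5) (nat_lit 300) (nat_lit 5) (nat_lit 301) (nat_lit 5) (nat_lit 525) (nat_lit 507) (nat_lit 168)) (XT.lf (nat_lit 0) (nat_lit 52184903789) (nat_lit 912) (nat_lit 48581567201) (nat_lit 76) (nat_lit 28052245029) (nat_lit 289) (nat_lit 5) (nat_lit 301) (nat_lit 5) (nat_lit 290) (nat_lit 5) (nat_lit 526) (nat_lit 507) (nat_lit 167))))) (XT.nd (nat_lit 312) (nat_lit 0) (nat_lit 152) (XT.nd (nat_lit 156) (nat_lit 0) (nat_lit 76) (XT.nd (nat_lit 78) (nat_lit 0) (nat_lit 0) (XT.lf (nat_lit 0) (nat_lit 26729899847) (nat_lit 1292) (nat_lit 11352018991) (nat_lit 1292) (nat_lit 11352018991) (nat_lit 309) (nat_lit 3) (nat_lit 326) (nat_lit 3) (nat_lit 326) (nat_lit 5) (nat_lit 508) (nat_lit 508) (nat_lit 184)) (XT.lf (nat_lit 76) (nat_lit 26856588084) (nat_lit 0) (nat_lit 27669927514) (nat_lit 1292) (nat_lit 45816433013) (nat_lit 310) (nat_lit 5) (nat_lit 309) (nat_lit 3) (nat_lit 326) (nat_lit 5) (nat_lit 509)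 (nat_lit 508) (nat_lit 183))) (XT.nd (nat_lit 78) (nat_lit 0) (nat_lit 0) (XT.lf (nat_lit 0) (nat_lit 56070666747) (nat_lit 1216) (nat_lit 23702525257) (nat_lit 1292) (nat_lit 22075718759) (nat_lit 310) (nat_lit 5) (nat_lit 326) (nat_lit 5) (nat_lit 327) (nat_lit 5) (nat_lit 510) (nat_lit 508) (nat_lit 182)) (XT.lf (nat_lit 76) (nat_lit 27844062042) (nat_lit 0) (nat_lit 30358441876) (nat_lit 1292) (nat_lit 45181307038) (nat_lit 311) (nat_lit 5) (nat_lit 310) (nat_lit 5) (nat_lit 327) (nat_lit 5) (nat_lit 511) (nat_lit 508) (nat_lit 181)))) (XT.nd (nat_lit 156) (nat_lit 0) (nat_lit 76) (XT.nd (nat_lit 78) (nat_lit 0) (nat_lit 0) (XT.lf (nat_lit 0) (nat_lit 60837200749) (nat_lit 1216) (nat_lit 23734601365) (nat_lit 1292) (nat_lit 20379788930) (nat_lit 311) (nat_lit 5) (nat_lit 327) (nat_lit 5) (nat_lit 328) (nat_lit 5) (nat_lit 512) (nat_lit 508) (nat_lit 180)) (XT.lf (nat_lit 76) (nat_lit 29907582616) (nat_lit 0)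 (nat_lit 34231186306) (nat_lit 1292) (nat_lit 42410000720) (nat_lit 312) (nat_lit 5) (nat_lit 311) (nat_lit 5) (nat_lit 328) (nat_lit 5) (nat_lit 513) (nat_lit 508) (nat_lit 179))) (XT.nd (nat_lit 78) (nat_lit 0) (nat_lit 0) (XT.lf (nat_lit 0) (nat_lit 67950569171) (nat_lit 1216) (nat_lit 22712999541) (nat_lit 1292) (nat_lit 17517959357) (nat_lit 312) (nat_lit 5) (nat_lit 328) (nat_lit 5) (nat_lit 329) (nat_lit 5) (nat_lit 514) (nat_lit 508) (nat_lit 178)) (XT.lf (nat_lit 76) (nat_lit 33140658455) (nat_lit 0) (nat_lit 39393330900) (nat_lit 1292) (nat_lit 37309561937) (nat_lit 313) (nat_lit 5) (nat_lit 312) (nat_lit 5) (nat_lit 329) (nat_lit 5) (nat_lit 515) (nat_lit 508) (nat_lit 177)))))) (XT.nd (nat_lit 624) (nat_lit 684) (nat_lit 0) (XT.nd (nat_lit 312) (nat_lit 1140) (nat_lit 0) (XT.nd (nat_lit 156) (nat_lit 0) (nat_lit 76) (XT.nd (nat_lit 78) (nat_lit 0) (nat_lit 0) (XT.lf (nat_lit 0) (nat_lit 77615273979)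 (nat_lit 1216) (nat_lit 20544410270) (nat_lit 1292) (nat_lit 13384940127) (nat_lit 313) (nat_lit 5) (nat_lit 329) (nat_lit 5) (nat_lit 330) (nat_lit 5) (nat_lit 516) (nat_lit 508) (nat_lit 176)) (XT.lf (nat_lit 76) (nat_lit 37643200655) (nat_lit 0) (nat_lit 45957466214) (nat_lit 1292) (nat_lit 29673512712) (nat_lit 314) (nat_lit 5) (nat_lit 313) (nat_lit 5) (nat_lit 330) (nat_lit 5) (nat_lit 517) (nat_lit 508) (nat_lit 175))) (XT.nd (nat_lit 78) (nat_lit 0) (nat_lit 0) (XT.lf (nat_lit 0) (nat_lit 90050008874) (nat_lit 1216) (nat_lit 17129106895) (nat_lit 1292) (nat_lit 7867974071) (nat_lit 314) (nat_lit 5) (nat_lit 330) (nat_lit 5) (nat_lit 331) (nat_lit 5) (nat_lit 518) (nat_lit 508) (nat_lit 174)) (XT.lf (nat_lit 76) (nat_lit 43521917734) (nat_lit 0) (nat_lit 54044095820) (nat_lit 1292) (nat_lit 19280978399) (nat_lit 315) (nat_lit 5) (nat_lit 314) (nat_lit 5) (nat_lit 331) (nat_lit 5) (nat_lit 519) (nat_lit 508)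 (nat_lit 173)))) (XT.nd (nat_lit 156) (nat_lit 1292) (nat_lit 0) (XT.nd (nat_lit 78) (nat_lit 0) (nat_lit 0) (XT.lf (nat_lit 0) (nat_lit 105488569372) (nat_lit 1216) (nat_lit 12360549455) (nat_lit 1292) (nat_lit 846340191) (nat_lit 315) (nat_lit 5) (nat_lit 331) (nat_lit 5) (nat_lit 332) (nat_lit 5) (nat_lit 520) (nat_lit 508) (nat_lit 172)) (XT.lf (nat_lit 76) (nat_lit 50890733512) (nat_lit 0) (nat_lit 63782160619) (nat_lit 1292) (nat_lit 5895763213) (nat_lit 316) (nat_lit 5) (nat_lit 315) (nat_lit 5) (nat_lit 332) (nat_lit 5) (nat_lit 521) (nat_lit 508) (nat_lit 171))) (XT.nd (nat_lit 78) (nat_lit 0) (nat_lit 76) (XT.lf (nat_lit 0) (nat_lit 1728662933) (nat_lit 1292) (nat_lit 6218473808) (nat_lit 1368) (nat_lit 114546667542) (nat_lit 298) (nat_lit 5) (nat_lit 315) (nat_lit 5) (nat_lit 316) (nat_lit 5) (nat_lit 522) (nat_lit 508) (nat_lit 170)) (XT.lf (nat_lit 0) (nat_lit 10525159818) (nat_lit 1292) (nat_lit 64678153667)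 (nat_lit 1368) (nat_lit 49239785835) (nat_lit 299) (nat_lit 5) (nat_lit 316) (nat_lit 5) (nat_lit 317) (nat_lit 5) (nat_lit 523) (nat_lit 508) (nat_lit 169))))) (XT.nd (nat_lit 61386) (nat_lit 0) (nat_lit 1520) (XT.nd (nat_lit 156) (nat_lit 760) (nat_lit 0) (XT.nd (nat_lit 78) (nat_lit 0) (nat_lit 76) (XT.lf (nat_lit 76) (nat_lit 1353301315) (nat_lit 0) (nat_lit 18387181052) (nat_lit 1368) (nat_lit 106705742934) (nat_lit 300) (nat_lit 5) (nat_lit 299) (nat_lit 5) (nat_lit 317) (nat_lit 5) (nat_lit 524) (nat_lit 508) (nat_lit 168)) (XT.lf (nat_lit 0) (nat_lit 30277466182) (nat_lit 1292) (nat_lit 58190721571) (nat_lit 76) (nat_lit 40009901277) (nat_lit 300) (nat_lit 5) (nat_lit 317) (nat_lit 5) (nat_lit 301) (nat_lit 5) (nat_lit 525) (nat_lit 508) (nat_lit 167))) (XT.nd (nat_lit 61152) (nat_lit 0) (nat_lit 1520) (XT.lf (nat_lit 0) (nat_lit 10746038884) (nat_lit 836) (nat_lit 30669699873) (nat_lit 912) (nat_lit 89146614548)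 (nat_lit 289) (nat_lit 5) (nat_lit 300) (nat_lit 5) (nat_lit 301) (nat_lit 5) (nat_lit 526) (nat_lit 508) (nat_lit 166)) (XT.lf (nat_lit 0) (nat_lit 27538389806) (nat_lit 1292) (nat_lit 11689183879) (nat_lit 1292) (nat_lit 11689183879) (nat_lit 309) (nat_lit 3) (nat_lit 326) (nat_lit 3) (nat_lit 326) (nat_lit 5) (nat_lit 509) (nat_lit 509) (nat_lit 182)))) (XT.nd (nat_lit 156) (nat_lit 0) (nat_lit 76) (XT.nd (nat_lit 78) (nat_lit 0) (nat_lit 76) (XT.lf (nat_lit 76) (nat_lit 27669010507) (nat_lit 0) (nat_lit 28506167073) (nat_lit 1292) (nat_lit 47177672310) (nat_lit 310) (nat_lit 5) (nat_lit 309) (nat_lit 3) (nat_lit 326) (nat_lit 5) (nat_lit 510) (nat_lit 509) (nat_lit 181)) (XT.lf (nat_lit 0) (nat_lit 57765221191) (nat_lit 1216) (nat_lit 24406638881) (nat_lit 1292) (nat_lit 22732143830) (nat_lit 310) (nat_lit 5) (nat_lit 326) (nat_lit 5) (nat_lit 327) (nat_lit 5) (nat_lit 511) (nat_lit 509) (nat_lit 180))) (XT.nd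 (nat_lit 78) (nat_lit 0) (nat_lit 76) (XT.lf (nat_lit 76) (nat_lit 28686277781) (nat_lit 0) (nat_lit 31274439797) (nat_lit 1292) (nat_lit 46524242435) (nat_lit 311) (nat_lit 5) (nat_lit 310) (nat_lit 5) (nat_lit 327) (nat_lit 5) (nat_lit 512) (nat_lit 509) (nat_lit 179)) (XT.lf (nat_lit 0) (nat_lit 62674052817) (nat_lit 1216) (nat_lit 24439542741) (nat_lit 1292) (nat_lit 20986190052) (nat_lit 311) (nat_lit 5) (nat_lit 327) (nat_lit 5) (nat_lit 328) (nat_lit 5) (nat_lit 513) (nat_lit 509) (nat_lit 178))))))) (XT.nd (nat_lit 62400) (nat_lit 0) (nat_lit 0) (XT.nd (nat_lit 546) (nat_lit 988) (nat_lit 0) (XT.nd (nat_lit 234) (nat_lit 0) (nat_lit 152) (XT.nd (nat_lit 78) (nat_lit 0) (nat_lit 76) (XT.lf (nat_lit 76) (nat_lit 30811837185) (nat_lit 0) (nat_lit 35262556573) (nat_lit 1292) (nat_lit 43670494069) (nat_lit 312) (nat_lit 5) (nat_lit 311) (nat_lit 5) (nat_lit 328) (nat_lit 5) (nat_lit 514) (nat_lit 509) (nat_lit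 177)) (XT.nd (nat_lit 78) (nat_lit 0) (nat_lit 0) (XT.lf (nat_lit 0) (nat_lit 70000172789) (nat_lit 1216) (nat_lit 23387190864) (nat_lit 1292) (nat_lit 18039276641) (nat_lit 312) (nat_lit 5) (nat_lit 328) (nat_lit 5) (nat_lit 329) (nat_lit 5) (nat_lit 515) (nat_lit 509) (nat_lit 176)) (XT.lf (nat_lit 76) (nat_lit 34142006297) (nat_lit 0) (nat_lit 40578834891) (nat_lit 1292) (nat_lit 38417690686) (nat_lit 313) (nat_lit 5) (nat_lit 312) (nat_lit 5) (nat_lit 329) (nat_lit 5) (nat_lit 516) (nat_lit 509) (nat_lit 175)))) (XT.nd (nat_lit 156) (nat_lit 0) (nat_lit 76) (XT.nd (nat_lit 78) (nat_lit 0) (nat_lit 0) (XT.lf (nat_lit 0) (nat_lit 79954214283) (nat_lit 1216) (nat_lit 21153471073) (nat_lit 1292) (nat_lit 13782962326) (nat_lit 313) (nat_lit 5) (nat_lit 329) (nat_lit 5) (nat_lit 330) (nat_lit 5) (nat_lit 517) (nat_lit 509) (nat_lit 174)) (XT.lf (nat_lit 76) (nat_lit 38779696891) (nat_lit 0) (nat_lit 47339235978)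 (nat_lit 1292) (nat_lit 30553163784) (nat_lit 314) (nat_lit 5) (nat_lit 313) (nat_lit 5) (nat_lit 330) (nat_lit 5) (nat_lit 518) (nat_lit 509) (nat_lit 173))) (XT.nd (nat_lit 78) (nat_lit 0) (nat_lit 0) (XT.lf (nat_lit 0) (nat_lit 92761428283) (nat_lit 1216) (nat_lit 17635661841) (nat_lit 1292) (nat_lit 8101113929) (nat_lit 314) (nat_lit 5) (nat_lit 330) (nat_lit 5) (nat_lit 331) (nat_lit 5) (nat_lit 519) (nat_lit 509) (nat_lit 172)) (XT.lf (nat_lit 76) (nat_lit 44834821779) (nat_lit 0) (nat_lit 55667872075) (nat_lit 1292) (nat_lit 19849415980) (nat_lit 315) (nat_lit 5) (nat_lit 314) (nat_lit 5) (nat_lit 331) (nat_lit 5) (nat_lit 520) (nat_lit 509) (nat_lit 171))))) (XT.nd (nat_lit 312) (nat_lit 0) (nat_lit 76) (XT.nd (nat_lit 156) (nat_lit 1292) (nat_lit 0) (XT.nd (nat_lit 78) (nat_lit 0) (nat_lit 0) (XT.lf (nat_lit 0) (nat_lit 108662620929) (nat_lit 1216) (nat_lit 12724024216) (nat_lit 1292) (nat_lit 869394954)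 (nat_lit 315) (nat_lit 5) (nat_lit 331) (nat_lit 5) (nat_lit 332) (nat_lit 5) (nat_lit 521) (nat_lit 509) (nat_lit 170)) (XT.lf (nat_lit 76) (nat_lit 52424725262) (nat_lit 0) (nat_lit 65697546424) (nat_lit 1292) (nat_lit 6063168826) (nat_lit 316) (nat_lit 5) (nat_lit 315) (nat_lit 5) (nat_lit 332) (nat_lit 5) (nat_lit 522) (nat_lit 509) (nat_lit 169))) (XT.nd (nat_lit 78) (nat_lit 0) (nat_lit 76) (XT.lf (nat_lit 0) (nat_lit 1789534998) (nat_lit 1292) (nat_lit 6397789875) (nat_lit 1368) (nat_lit 117981022390) (nat_lit 298) (nat_lit 5) (nat_lit 315) (nat_lit 5) (nat_lit 316) (nat_lit 5) (nat_lit 523) (nat_lit 509) (nat_lit 168)) (XT.lf (nat_lit 0) (nat_lit 10849717320) (nat_lit 1292) (nat_lit 66611049900) (nat_lit 1368) (nat_lit 50715360238) (nat_lit 299) (nat_lit 5) (nat_lit 316) (nat_lit 5) (nat_lit 317) (nat_lit 5) (nat_lit 524) (nat_lit 509) (nat_lit 167)))) (XT.nd (nat_lit 61386) (nat_lit 0) (nat_lit 760) (XT.nd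 (nat_lit 61308) (nat_lit 0) (nat_lit 760) (XT.lf (nat_lit 76) (nat_lit 1401275708) (nat_lit 0) (nat_lit 18940038345) (nat_lit 1368) (nat_lit 109898038753) (nat_lit 300) (nat_lit 5) (nat_lit 299) (nat_lit 5) (nat_lit 317) (nat_lit 5) (nat_lit 525) (nat_lit 509) (nat_lit 166)) (XT.lf (nat_lit 0) (nat_lit 28370756001) (nat_lit 1292) (nat_lit 12036658641) (nat_lit 1292) (nat_lit 12036658641) (nat_lit 309) (nat_lit 3) (nat_lit 326) (nat_lit 3) (nat_lit 326) (nat_lit 5) (nat_lit 510) (nat_lit 510) (nat_lit 180))) (XT.nd (nat_lit 78) (nat_lit 0) (nat_lit 76) (XT.lf (nat_lit 76) (nat_lit 28505419572) (nat_lit 0) (nat_lit 29367141258) (nat_lit 1292) (nat_lit 48580509603) (nat_lit 310) (nat_lit 5) (nat_lit 309) (nat_lit 3) (nat_lit 326) (nat_lit 5) (nat_lit 511) (nat_lit 510) (nat_lit 179)) (XT.lf (nat_lit 0) (nat_lit 59509898481) (nat_lit 1216) (nat_lit 25132275568) (nat_lit 1292) (nat_lit 23408597267) (nat_lit 310) (nat_lit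 5) (nat_lit 326) (nat_lit 5) (nat_lit 327) (nat_lit 5) (nat_lit 512) (nat_lit 510) (nat_lit 178)))))) (XT.nd (nat_lit 624) (nat_lit 912) (nat_lit 0) (XT.nd (nat_lit 312) (nat_lit 0) (nat_lit 152) (XT.nd (nat_lit 156) (nat_lit 0) (nat_lit 76) (XT.nd (nat_lit 78) (nat_lit 0) (nat_lit 76) (XT.lf (nat_lit 76) (nat_lit 29553364256) (nat_lit 0) (nat_lit 32217616591) (nat_lit 1292) (nat_lit 47908183663) (nat_lit 311) (nat_lit 5) (nat_lit 310) (nat_lit 5) (nat_lit 327) (nat_lit 5) (nat_lit 513) (nat_lit 510) (nat_lit 177)) (XT.lf (nat_lit 0) (nat_lit 64565336750) (nat_lit 1216) (nat_lit 25166039736) (nat_lit 1292) (nat_lit 21611069800) (nat_lit 311) (nat_lit 5) (nat_lit 327) (nat_lit 5) (nat_lit 328) (nat_lit 5) (nat_lit 514) (nat_lit 510) (nat_lit 176))) (XT.nd (nat_lit 78) (nat_lit 0) (nat_lit 76) (XT.lf (nat_lit 76) (nat_lit 31742816006) (nat_lit 0) (nat_lit 36324613380) (nat_lit 1292) (nat_lit 44969479969) (nat_lit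 312) (nat_lit 5) (nat_lit 311) (nat_lit 5) (nat_lit 328) (nat_lit 5) (nat_lit 515) (nat_lit 510) (nat_lit 175)) (XT.lf (nat_lit 0) (nat_lit 72110628103) (nat_lit 1216) (nat_lit 24082021159) (nat_lit 1292) (nat_lit 18576475775) (nat_lit 312) (nat_lit 5) (nat_lit 328) (nat_lit 5) (nat_lit 329) (nat_lit 5) (nat_lit 516) (nat_lit 510) (nat_lit 174)))) (XT.nd (nat_lit 156) (nat_lit 0) (nat_lit 76) (XT.nd (nat_lit 78) (nat_lit 0) (nat_lit 76) (XT.lf (nat_lit 76) (nat_lit 35172985393) (nat_lit 0) (nat_lit 41799691374) (nat_lit 1292) (nat_lit 39559703818) (nat_lit 313) (nat_lit 5) (nat_lit 312) (nat_lit 5) (nat_lit 329) (nat_lit 5) (nat_lit 517) (nat_lit 510) (nat_lit 173)) (XT.lf (nat_lit 0) (nat_lit 82362721082) (nat_lit 1216) (nat_lit 21781221114) (nat_lit 1292) (nat_lit 14193127598) (nat_lit 313) (nat_lit 5) (nat_lit 329) (nat_lit 5) (nat_lit 330) (nat_lit 5) (nat_lit 518) (nat_lit 510) (nat_lit 172))) (XT.nd (nat_lit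 78) (nat_lit 0) (nat_lit 76) (XT.lf (nat_lit 76) (nat_lit 39949874692) (nat_lit 0) (nat_lit 48762283996) (nat_lit 1292) (nat_lit 31459810249) (nat_lit 314) (nat_lit 5) (nat_lit 313) (nat_lit 5) (nat_lit 330) (nat_lit 5) (nat_lit 519) (nat_lit 510) (nat_lit 171)) (XT.lf (nat_lit 0) (nat_lit 95553620874) (nat_lit 1216) (nat_lit 18157833534) (nat_lit 1292) (nat_lit 8341414419) (nat_lit 314) (nat_lit 5) (nat_lit 330) (nat_lit 5) (nat_lit 331) (nat_lit 5) (nat_lit 520) (nat_lit 510) (nat_lit 170))))) (XT.nd (nat_lit 312) (nat_lit 0) (nat_lit 76) (XT.nd (nat_lit 156) (nat_lit 1216) (nat_lit 0) (XT.nd (nat_lit 78) (nat_lit 0) (nat_lit 76) (XT.lf (nat_lit 76) (nat_lit 46186696966) (nat_lit 0) (nat_lit 57340220784) (nat_lit 1292) (nat_lit 20435480257) (nat_lit 315) (nat_lit 5) (nat_lit 314) (nat_lit 5) (nat_lit 331) (nat_lit 5) (nat_lit 521) (nat_lit 510) (nat_lit 169)) (XT.lf (nat_lit 0) (nat_lit 111931354751) (nat_lit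 1216) (nat_lit 13098824665) (nat_lit 1292) (nat_lit 893275424) (nat_lit 315) (nat_lit 5) (nat_lit 331) (nat_lit 5) (nat_lit 332) (nat_lit 5) (nat_lit 522) (nat_lit 510) (nat_lit 168))) (XT.nd (nat_lit 78) (nat_lit 1292) (nat_lit 0) (XT.lf (nat_lit 76) (nat_lit 54004319452) (nat_lit 0) (nat_lit 67670283531) (nat_lit 1292) (nat_lit 6236140068) (nat_lit 316) (nat_lit 5) (nat_lit 315) (nat_lit 5) (nat_lit 332) (nat_lit 5) (nat_lit 523) (nat_lit 510) (nat_lit 167)) (XT.lf (nat_lit 0) (nat_lit 1851715890) (nat_lit 1292) (nat_lit 6582900923) (nat_lit 1368) (nat_lit 121518525286) (nat_lit 298) (nat_lit 5) (nat_lit 315) (nat_lit 5) (nat_lit 316) (nat_lit 5) (nat_lit 524) (nat_lit 510) (nat_lit 166)))) (XT.nd (nat_lit 61464) (nat_lit 0) (nat_lit 760) (XT.nd (nat_lit 61386) (nat_lit 0) (nat_lit 760) (XT.lf (nat_lit 0) (nat_lit 11183506237) (nat_lit 1292) (nat_lit 68602360587) (nat_lit 1368) (nat_lit 52235294820) (nat_lit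 299) (nat_lit 5) (nat_lit 316) (nat_lit 5) (nat_lit 317) (nat_lit 5) (nat_lit 525) (nat_lit 510) (nat_lit 165)) (XT.lf (nat_lit 0) (nat_lit 29227736444) (nat_lit 1292) (nat_lit 12394741381) (nat_lit 1292) (nat_lit 12394741381) (nat_lit 309) (nat_lit 3) (nat_lit 326) (nat_lit 3) (nat_lit 326) (nat_lit 5) (nat_lit 511) (nat_lit 511) (nat_lit 178))) (XT.nd (nat_lit 78) (nat_lit 0) (nat_lit 76) (XT.lf (nat_lit 76) (nat_lit 29366557040) (nat_lit 0) (nat_lit 30253612346) (nat_lit 1292) (nat_lit 50026149156) (nat_lit 310) (nat_lit 5) (nat_lit 309) (nat_lit 3) (nat_lit 326) (nat_lit 5) (nat_lit 512) (nat_lit 511) (nat_lit 177)) (XT.lf (nat_lit 0) (nat_lit 61306243277) (nat_lit 1216) (nat_lit 25880058070) (nat_lit 1292) (nat_lit 24105660653) (nat_lit 310) (nat_lit 5) (nat_lit 326) (nat_lit 5) (nat_lit 327) (nat_lit 5) (nat_lit 513) (nat_lit 511) (nat_lit 176))))))))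
noncomputable def xc255 : XT := (XT.nd (nat_lit 125502) (nat_lit 0) (nat_lit 0) (XT.nd (nat_lit 62634) (nat_lit 0) (nat_lit 0) (XT.nd (nat_lit 546) (nat_lit 76) (nat_lit 0) (XT.nd (nat_lit 234) (nat_lit 0) (nat_lit 152) (XT.nd (nat_lit 78) (nat_lit 0) (nat_lit 76) (XT.lf (nat_lit 76) (nat_lit 30446090304) (nat_lit 0) (nat_lit 33188804905) (nat_lit 1292) (nat_lit 49334319696) (nat_lit 311) (nat_lit 5) (nat_lit 310) (nat_lit 5) (nat_lit 327) (nat_lit 5) (nat_lit 514) (nat_lit 511) (nat_lit 175)) (XT.nd (nat_lit 78) (nat_lit 0) (nat_lit 0) (XT.lf (nat_lit 0) (nat_lit 66512724178) (nat_lit 1216) (nat_lit 25914715634) (nat_lit 1292) (nat_lit 22254966082) (nat_lit 311) (nat_lit 5) (nat_lit 327) (nat_lit 5) (nat_lit 328) (nat_lit 5) (nat_lit 515) (nat_lit 511) (nat_lit 174)) (XT.lf (nat_lit 76) (nat_lit 32701343965) (nat_lit 0) (nat_lit 37418291936) (nat_lit 1292) (nat_lit 46308074292) (nat_lit 312) (nat_lit 5) (nat_lit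 311) (nat_lit 5) (nat_lit 328) (nat_lit 5) (nat_lit 516) (nat_lit 511) (nat_lit 173)))) (XT.nd (nat_lit 156) (nat_lit 0) (nat_lit 76) (XT.nd (nat_lit 78) (nat_lit 0) (nat_lit 0) (XT.lf (nat_lit 0) (nat_lit 74283797195) (nat_lit 1216) (nat_lit 24798085874) (nat_lit 1292) (nat_lit 19130019303) (nat_lit 312) (nat_lit 5) (nat_lit 328) (nat_lit 5) (nat_lit 329) (nat_lit 5) (nat_lit 517) (nat_lit 511) (nat_lit 172)) (XT.lf (nat_lit 76) (nat_lit 36234508169) (nat_lit 0) (nat_lit 43056973129) (nat_lit 1292) (nat_lit 40736581097) (nat_lit 313) (nat_lit 5) (nat_lit 312) (nat_lit 5) (nat_lit 329) (nat_lit 5) (nat_lit 518) (nat_lit 511) (nat_lit 171))) (XT.nd (nat_lit 78) (nat_lit 0) (nat_lit 0) (XT.lf (nat_lit 0) (nat_lit 84842915912) (nat_lit 1216) (nat_lit 22428197109) (nat_lit 1292) (nat_lit 14615788616) (nat_lit 313) (nat_lit 5) (nat_lit 329) (nat_lit 5) (nat_lit 330) (nat_lit 5) (nat_lit 519) (nat_lit 511) (nat_lit 170))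 (XT.lf (nat_lit 76) (nat_lit 41154768231) (nat_lit 0) (nat_lit 50227858651) (nat_lit 1292) (nat_lit 32394227190) (nat_lit 314) (nat_lit 5) (nat_lit 313) (nat_lit 5) (nat_lit 330) (nat_lit 5) (nat_lit 520) (nat_lit 511) (nat_lit 169))))) (XT.nd (nat_lit 61776) (nat_lit 380) (nat_lit 0) (XT.nd (nat_lit 156) (nat_lit 0) (nat_lit 76) (XT.nd (nat_lit 78) (nat_lit 0) (nat_lit 0) (XT.lf (nat_lit 0) (nat_lit 98429042530) (nat_lit 1216) (nat_lit 18696066360) (nat_lit 1292) (nat_lit 8589080805) (nat_lit 314) (nat_lit 5) (nat_lit 330) (nat_lit 5) (nat_lit 331) (nat_lit 5) (nat_lit 521) (nat_lit 511) (nat_lit 168)) (XT.lf (nat_lit 76) (nat_lit 47578736308) (nat_lit 0) (nat_lit 59062607204) (nat_lit 1292) (nat_lit 21039667105) (nat_lit 315) (nat_lit 5) (nat_lit 314) (nat_lit 5) (nat_lit 331) (nat_lit 5) (nat_lit 522) (nat_lit 511) (nat_lit 167))) (XT.nd (nat_lit 78) (nat_lit 0) (nat_lit 0) (XT.lf (nat_lit 0) (nat_lit 115297642263)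 (nat_lit 1216) (nat_lit 13485266379) (nat_lit 1292) (nat_lit 917998677) (nat_lit 315) (nat_lit 5) (nat_lit 331) (nat_lit 5) (nat_lit 332) (nat_lit 5) (nat_lit 523) (nat_lit 511) (nat_lit 166)) (XT.lf (nat_lit 76) (nat_lit 55630908110) (nat_lit 0) (nat_lit 69702098808) (nat_lit 1292) (nat_lit 6414812711) (nat_lit 316) (nat_lit 5) (nat_lit 315) (nat_lit 5) (nat_lit 332) (nat_lit 5) (nat_lit 524) (nat_lit 511) (nat_lit 165)))) (XT.nd (nat_lit 156) (nat_lit 0) (nat_lit 76) (XT.nd (nat_lit 78) (nat_lit 0) (nat_lit 0) (XT.lf (nat_lit 0) (nat_lit 30110090040) (nat_lit 1292) (nat_lit 12763739793) (nat_lit 1292) (nat_lit 12763739793) (nat_lit 309) (nat_lit 3) (nat_lit 326) (nat_lit 3) (nat_lit 326) (nat_lit 5) (nat_lit 512) (nat_lit 512) (nat_lit 176)) (XT.lf (nat_lit 76) (nat_lit 30253185649) (nat_lit 0) (nat_lit 31166364322) (nat_lit 1292) (nat_lit 51515833871) (nat_lit 310) (nat_lit 5) (nat_lit 309) (nat_lit 3) (nat_lit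 326) (nat_lit 5) (nat_lit 513) (nat_lit 512) (nat_lit 175))) (XT.nd (nat_lit 78) (nat_lit 0) (nat_lit 0) (XT.lf (nat_lit 0) (nat_lit 63155844225) (nat_lit 1216) (nat_lit 26650629134) (nat_lit 1292) (nat_lit 24823934128) (nat_lit 310) (nat_lit 5) (nat_lit 326) (nat_lit 5) (nat_lit 327) (nat_lit 5) (nat_lit 514) (nat_lit 512) (nat_lit 174)) (XT.lf (nat_lit 76) (nat_lit 31365246527) (nat_lit 0) (nat_lit 34188861376) (nat_lit 1292) (nat_lit 50803877539) (nat_lit 311) (nat_lit 5) (nat_lit 310) (nat_lit 5) (nat_lit 327) (nat_lit 5) (nat_lit 515) (nat_lit 512) (nat_lit 173)))))) (XT.nd (nat_lit 62244) (nat_lit 152) (nat_lit 0) (XT.nd (nat_lit 312) (nat_lit 0) (nat_lit 152) (XT.nd (nat_lit 156) (nat_lit 0) (nat_lit 76) (XT.nd (nat_lit 78) (nat_lit 0) (nat_lit 0) (XT.lf (nat_lit 0) (nat_lit 68517934657) (nat_lit 1216) (nat_lit 26686213757) (nat_lit 1292) (nat_lit 22918433886) (nat_lit 311) (nat_lit 5) (nat_lit 327) (nat_lit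 5) (nat_lit 328) (nat_lit 5) (nat_lit 516) (nat_lit 512) (nat_lit 172)) (XT.lf (nat_lit 76) (nat_lit 33688269361) (nat_lit 0) (nat_lit 38544554667) (nat_lit 1292) (nat_lit 47687428618) (nat_lit 312) (nat_lit 5) (nat_lit 311) (nat_lit 5) (nat_lit 328) (nat_lit 5) (nat_lit 517) (nat_lit 512) (nat_lit 171))) (XT.nd (nat_lit 78) (nat_lit 0) (nat_lit 0) (XT.lf (nat_lit 0) (nat_lit 76521595916) (nat_lit 1216) (nat_lit 25535999682) (nat_lit 1292) (nat_lit 19700384445) (nat_lit 312) (nat_lit 5) (nat_lit 328) (nat_lit 5) (nat_lit 329) (nat_lit 5) (nat_lit 518) (nat_lit 512) (nat_lit 170)) (XT.lf (nat_lit 76) (nat_lit 37327513076) (nat_lit 0) (nat_lit 44351784419) (nat_lit 1292) (nat_lit 41949333788) (nat_lit 313) (nat_lit 5) (nat_lit 312) (nat_lit 5) (nat_lit 329) (nat_lit 5) (nat_lit 519) (nat_lit 512) (nat_lit 169)))) (XT.nd (nat_lit 156) (nat_lit 0) (nat_lit 76) (XT.nd (nat_lit 78) (nat_lit 0) (nat_lit 0) (XT.lf (nat_lit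 0) (nat_lit 87396981970) (nat_lit 1216) (nat_lit 23094953251) (nat_lit 1292) (nat_lit 15051309301) (nat_lit 313) (nat_lit 5) (nat_lit 329) (nat_lit 5) (nat_lit 330) (nat_lit 5) (nat_lit 520) (nat_lit 512) (nat_lit 168)) (XT.lf (nat_lit 76) (nat_lit 42395441346) (nat_lit 0) (nat_lit 51737245202) (nat_lit 1292) (nat_lit 33357214938) (nat_lit 314) (nat_lit 5) (nat_lit 313) (nat_lit 5) (nat_lit 330) (nat_lit 5) (nat_lit 521) (nat_lit 512) (nat_lit 167))) (XT.nd (nat_lit 78) (nat_lit 0) (nat_lit 0) (XT.lf (nat_lit 0) (nat_lit 101390220932) (nat_lit 1216) (nat_lit 19250819423) (nat_lit 1292) (nat_lit 8844325058) (nat_lit 314) (nat_lit 5) (nat_lit 330) (nat_lit 5) (nat_lit 331) (nat_lit 5) (nat_lit 522) (nat_lit 512) (nat_lit 166)) (XT.lf (nat_lit 76) (nat_lit 49012167238) (nat_lit 0) (nat_lit 60836540087) (nat_lit 1292) (nat_lit 21662489167) (nat_lit 315) (nat_lit 5) (nat_lit 314) (nat_lit 5) (nat_lit 331) (nat_lit 5)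 (nat_lit 523) (nat_lit 512) (nat_lit 165))))) (XT.nd (nat_lit 312) (nat_lit 0) (nat_lit 152) (XT.nd (nat_lit 156) (nat_lit 0) (nat_lit 76) (XT.nd (nat_lit 78) (nat_lit 0) (nat_lit 0) (XT.lf (nat_lit 0) (nat_lit 31018597287) (nat_lit 1292) (nat_lit 13143971405) (nat_lit 1292) (nat_lit 13143971405) (nat_lit 309) (nat_lit 3) (nat_lit 326) (nat_lit 3) (nat_lit 326) (nat_lit 5) (nat_lit 513) (nat_lit 513) (nat_lit 174)) (XT.lf (nat_lit 76) (nat_lit 31166089822) (nat_lit 0) (nat_lit 32106203592) (nat_lit 1292) (nat_lit 53050846300) (nat_lit 310) (nat_lit 5) (nat_lit 309) (nat_lit 3) (nat_lit 326) (nat_lit 5) (nat_lit 514) (nat_lit 513) (nat_lit 173))) (XT.nd (nat_lit 78) (nat_lit 0) (nat_lit 0) (XT.lf (nat_lit 0) (nat_lit 65060335415) (nat_lit 1216) (nat_lit 27444652036) (nat_lit 1292) (nat_lit 25564036878) (nat_lit 310) (nat_lit 5) (nat_lit 326) (nat_lit 5) (nat_lit 327) (nat_lit 5) (nat_lit 515) (nat_lit 513) (nat_lit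 172)) (XT.lf (nat_lit 76) (nat_lit 32311646014) (nat_lit 0) (nat_lit 35218667404) (nat_lit 1292) (nat_lit 52318123239) (nat_lit 311) (nat_lit 5) (nat_lit 310) (nat_lit 5) (nat_lit 327) (nat_lit 5) (nat_lit 516) (nat_lit 513) (nat_lit 171)))) (XT.nd (nat_lit 156) (nat_lit 0) (nat_lit 76) (XT.nd (nat_lit 78) (nat_lit 0) (nat_lit 0) (XT.lf (nat_lit 0) (nat_lit 70582737239) (nat_lit 1216) (nat_lit 27481197997) (nat_lit 1292) (nat_lit 23602045740) (nat_lit 311) (nat_lit 5) (nat_lit 327) (nat_lit 5) (nat_lit 328) (nat_lit 5) (nat_lit 517) (nat_lit 513) (nat_lit 170)) (XT.lf (nat_lit 76) (nat_lit 34704464691) (nat_lit 0) (nat_lit 39704392083) (nat_lit 1292) (nat_lit 49108731180) (nat_lit 312) (nat_lit 5) (nat_lit 311) (nat_lit 5) (nat_lit 328) (nat_lit 5) (nat_lit 518) (nat_lit 513) (nat_lit 169))) (XT.nd (nat_lit 78) (nat_lit 0) (nat_lit 0) (XT.lf (nat_lit 0) (nat_lit 78825995613) (nat_lit 1216) (nat_lit 26296396981)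 (nat_lit 1292) (nat_lit 20288063489) (nat_lit 312) (nat_lit 5) (nat_lit 328) (nat_lit 5) (nat_lit 329) (nat_lit 5) (nat_lit 519) (nat_lit 513) (nat_lit 168)) (XT.lf (nat_lit 76) (nat_lit 38452965448) (nat_lit 0) (nat_lit 45685261975) (nat_lit 1292) (nat_lit 43199005487) (nat_lit 313) (nat_lit 5) (nat_lit 312) (nat_lit 5) (nat_lit 329) (nat_lit 5) (nat_lit 520) (nat_lit 513) (nat_lit 167))))))) (XT.nd (nat_lit 124800) (nat_lit 0) (nat_lit 0) (XT.nd (nat_lit 62322) (nat_lit 0) (nat_lit 0) (XT.nd (nat_lit 62010) (nat_lit 0) (nat_lit 0) (XT.nd (nat_lit 156) (nat_lit 304) (nat_lit 0) (XT.nd (nat_lit 78) (nat_lit 0) (nat_lit 0) (XT.lf (nat_lit 0) (nat_lit 90027166084) (nat_lit 1216) (nat_lit 23782061655) (nat_lit 1292) (nat_lit 15500065119) (nat_lit 313) (nat_lit 5) (nat_lit 329) (nat_lit 5) (nat_lit 330) (nat_lit 5) (nat_lit 521) (nat_lit 513) (nat_lit 166)) (XT.lf (nat_lit 76) (nat_lit 43672988503) (nat_lit 0) (nat_lit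 53291766923) (nat_lit 1292) (nat_lit 34349599717) (nat_lit 314) (nat_lit 5) (nat_lit 313) (nat_lit 5) (nat_lit 330) (nat_lit 5) (nat_lit 522) (nat_lit 513) (nat_lit 165))) (XT.nd (nat_lit 61776) (nat_lit 380) (nat_lit 0) (XT.lf (nat_lit 0) (nat_lit 104439757822) (nat_lit 1216) (nat_lit 19822566903) (nat_lit 1292) (nat_lit 9107366025) (nat_lit 314) (nat_lit 5) (nat_lit 330) (nat_lit 5) (nat_lit 331) (nat_lit 5) (nat_lit 523) (nat_lit 513) (nat_lit 164)) (XT.lf (nat_lit 0) (nat_lit 31954060990) (nat_lit 1292) (nat_lit 13535763842) (nat_lit 1292) (nat_lit 13535763842) (nat_lit 309) (nat_lit 3) (nat_lit 326) (nat_lit 3) (nat_lit 326) (nat_lit 5) (nat_lit 514) (nat_lit 514) (nat_lit 172)))) (XT.nd (nat_lit 156) (nat_lit 0) (nat_lit 76) (XT.nd (nat_lit 78) (nat_lit 0) (nat_lit 76) (XT.lf (nat_lit 76) (nat_lit 32106076384) (nat_lit 0) (nat_lit 33073959726) (nat_lit 1292) (nat_lit 54632509696) (nat_lit 310) (nat_lit 5)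 (nat_lit 309) (nat_lit 3) (nat_lit 326) (nat_lit 5) (nat_lit 515) (nat_lit 514) (nat_lit 171)) (XT.lf (nat_lit 0) (nat_lit 67021397870) (nat_lit 1216) (nat_lit 28262811116) (nat_lit 1292) (nat_lit 26326607645) (nat_lit 310) (nat_lit 5) (nat_lit 326) (nat_lit 5) (nat_lit 327) (nat_lit 5) (nat_lit 516) (nat_lit 514) (nat_lit 170))) (XT.nd (nat_lit 78) (nat_lit 0) (nat_lit 76) (XT.lf (nat_lit 76) (nat_lit 33286125087) (nat_lit 0) (nat_lit 36279129949) (nat_lit 1292) (nat_lit 53878362923) (nat_lit 311) (nat_lit 5) (nat_lit 310) (nat_lit 5) (nat_lit 327) (nat_lit 5) (nat_lit 517) (nat_lit 514) (nat_lit 169)) (XT.lf (nat_lit 0) (nat_lit 72708952077) (nat_lit 1216) (nat_lit 28300353352) (nat_lit 1292) (nat_lit 24306392190) (nat_lit 311) (nat_lit 5) (nat_lit 327) (nat_lit 5) (nat_lit 328) (nat_lit 5) (nat_lit 518) (nat_lit 514) (nat_lit 168))))) (XT.nd (nat_lit 62166) (nat_lit 152) (nat_lit 0) (XT.nd (nat_lit 156) (nat_lit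 0) (nat_lit 76) (XT.nd (nat_lit 78) (nat_lit 0) (nat_lit 76) (XT.lf (nat_lit 76) (nat_lit 35750827447) (nat_lit 0) (nat_lit 40898823663) (nat_lit 1292) (nat_lit 50573207842) (nat_lit 312) (nat_lit 5) (nat_lit 311) (nat_lit 5) (nat_lit 328) (nat_lit 5) (nat_lit 519) (nat_lit 514) (nat_lit 167)) (XT.lf (nat_lit 0) (nat_lit 81199024911) (nat_lit 1216) (nat_lit 27079932409) (nat_lit 1292) (nat_lit 20893564204) (nat_lit 312) (nat_lit 5) (nat_lit 328) (nat_lit 5) (nat_lit 329) (nat_lit 5) (nat_lit 520) (nat_lit 514) (nat_lit 166))) (XT.nd (nat_lit 78) (nat_lit 0) (nat_lit 76) (XT.lf (nat_lit 76) (nat_lit 39611858379) (nat_lit 0) (nat_lit 47058576006) (nat_lit 1292) (nat_lit 44486672970) (nat_lit 313) (nat_lit 5) (nat_lit 312) (nat_lit 5) (nat_lit 329) (nat_lit 5) (nat_lit 521) (nat_lit 514) (nat_lit 165)) (XT.lf (nat_lit 0) (nat_lit 92735780722) (nat_lit 1216) (nat_lit 24490112822) (nat_lit 1292) (nat_lit 15962443393)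 (nat_lit 313) (nat_lit 5) (nat_lit 329) (nat_lit 5) (nat_lit 330) (nat_lit 5) (nat_lit 522) (nat_lit 514) (nat_lit 164)))) (XT.nd (nat_lit 156) (nat_lit 0) (nat_lit 76) (XT.nd (nat_lit 78) (nat_lit 0) (nat_lit 0) (XT.lf (nat_lit 0) (nat_lit 32917306992) (nat_lit 1292) (nat_lit 13939455094) (nat_lit 1292) (nat_lit 13939455094) (nat_lit 309) (nat_lit 3) (nat_lit 326) (nat_lit 3) (nat_lit 326) (nat_lit 5) (nat_lit 515) (nat_lit 515) (nat_lit 170)) (XT.lf (nat_lit 76) (nat_lit 33073975301) (nat_lit 0) (nat_lit 34070486206) (nat_lit 1292) (nat_lit 56262189114) (nat_lit 310) (nat_lit 5) (nat_lit 309) (nat_lit 3) (nat_lit 326) (nat_lit 5) (nat_lit 516) (nat_lit 515) (nat_lit 169))) (XT.nd (nat_lit 78) (nat_lit 0) (nat_lit 0) (XT.lf (nat_lit 0) (nat_lit 69040761074) (nat_lit 1216) (nat_lit 29105812348) (nat_lit 1292) (nat_lit 27112305263) (nat_lit 310) (nat_lit 5) (nat_lit 326) (nat_lit 5) (nat_lit 327) (nat_lit 5) (nat_lit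 517) (nat_lit 515) (nat_lit 168)) (XT.lf (nat_lit 76) (nat_lit 34289544066) (nat_lit 0) (nat_lit 37371182350) (nat_lit 1292) (nat_lit 55485943887) (nat_lit 311) (nat_lit 5) (nat_lit 310) (nat_lit 5) (nat_lit 327) (nat_lit 5) (nat_lit 518) (nat_lit 515) (nat_lit 167)))))) (XT.nd (nat_lit 62634) (nat_lit 0) (nat_lit 0) (XT.nd (nat_lit 62322) (nat_lit 0) (nat_lit 0) (XT.nd (nat_lit 156) (nat_lit 152) (nat_lit 0) (XT.nd (nat_lit 78) (nat_lit 0) (nat_lit 0) (XT.lf (nat_lit 0) (nat_lit 74898452066) (nat_lit 1216) (nat_lit 29144386495) (nat_lit 1292) (nat_lit 25032082284) (nat_lit 311) (nat_lit 5) (nat_lit 327) (nat_lit 5) (nat_lit 328) (nat_lit 5) (nat_lit 519) (nat_lit 515) (nat_lit 166)) (XT.lf (nat_lit 76) (nat_lit 36828280929) (nat_lit 0) (nat_lit 42128898766) (nat_lit 1292) (nat_lit 52082123114) (nat_lit 312) (nat_lit 5) (nat_lit 311) (nat_lit 5) (nat_lit 328) (nat_lit 5) (nat_lit 520) (nat_lit 515) (nat_lit 165)))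 (XT.nd (nat_lit 62088) (nat_lit 228) (nat_lit 0) (XT.lf (nat_lit 0) (nat_lit 83642771536) (nat_lit 1216) (nat_lit 27887281383) (nat_lit 1292) (nat_lit 21517410257) (nat_lit 312) (nat_lit 5) (nat_lit 328) (nat_lit 5) (nat_lit 329) (nat_lit 5) (nat_lit 521) (nat_lit 515) (nat_lit 164)) (XT.lf (nat_lit 0) (nat_lit 33909184927) (nat_lit 1292) (nat_lit 14355393802) (nat_lit 1292) (nat_lit 14355393802) (nat_lit 309) (nat_lit 3) (nat_lit 326) (nat_lit 3) (nat_lit 326) (nat_lit 5) (nat_lit 516) (nat_lit 516) (nat_lit 168)))) (XT.nd (nat_lit 156) (nat_lit 0) (nat_lit 76) (XT.nd (nat_lit 78) (nat_lit 0) (nat_lit 76) (XT.lf (nat_lit 76) (nat_lit 34070640432) (nat_lit 0) (nat_lit 35096661202) (nat_lit 1292) (nat_lit 57941292535) (nat_lit 310) (nat_lit 5) (nat_lit 309) (nat_lit 3) (nat_lit 326) (nat_lit 5) (nat_lit 517) (nat_lit 516) (nat_lit 167)) (XT.lf (nat_lit 0) (nat_lit 71120204537) (nat_lit 1216) (nat_lit 29974383928)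 (nat_lit 1292) (nat_lit 27921809202) (nat_lit 310) (nat_lit 5) (nat_lit 326) (nat_lit 5) (nat_lit 327) (nat_lit 5) (nat_lit 518) (nat_lit 516) (nat_lit 166))) (XT.nd (nat_lit 78) (nat_lit 0) (nat_lit 76) (XT.lf (nat_lit 76) (nat_lit 35322788053) (nat_lit 0) (nat_lit 38495785162) (nat_lit 1292) (nat_lit 57142255709) (nat_lit 311) (nat_lit 5) (nat_lit 310) (nat_lit 5) (nat_lit 327) (nat_lit 5) (nat_lit 519) (nat_lit 516) (nat_lit 165)) (XT.lf (nat_lit 0) (nat_lit 77153164537) (nat_lit 1216) (nat_lit 30014026358) (nat_lit 1292) (nat_lit 25779744091) (nat_lit 311) (nat_lit 5) (nat_lit 327) (nat_lit 5) (nat_lit 328) (nat_lit 5) (nat_lit 520) (nat_lit 516) (nat_lit 164))))) (XT.nd (nat_lit 62322) (nat_lit 0) (nat_lit 0) (XT.nd (nat_lit 62166) (nat_lit 152) (nat_lit 0) (XT.nd (nat_lit 78) (nat_lit 0) (nat_lit 76) (XT.lf (nat_lit 76) (nat_lit 37937775092) (nat_lit 0) (nat_lit 43395697574) (nat_lit 1292) (nat_lit 53636781205)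 (nat_lit 312) (nat_lit 5) (nat_lit 311) (nat_lit 5) (nat_lit 328) (nat_lit 5) (nat_lit 521) (nat_lit 516) (nat_lit 163)) (XT.lf (nat_lit 0) (nat_lit 86159384193) (nat_lit 1216) (nat_lit 28719140660) (nat_lit 1292) (nat_lit 22160141658) (nat_lit 312) (nat_lit 5) (nat_lit 328) (nat_lit 5) (nat_lit 329) (nat_lit 5) (nat_lit 522) (nat_lit 516) (nat_lit 162))) (XT.nd (nat_lit 78) (nat_lit 0) (nat_lit 0) (XT.lf (nat_lit 0) (nat_lit 34930568992) (nat_lit 1292) (nat_lit 14783939540) (nat_lit 1292) (nat_lit 14783939540) (nat_lit 309) (nat_lit 3) (nat_lit 326) (nat_lit 3) (nat_lit 326) (nat_lit 5) (nat_lit 517) (nat_lit 517) (nat_lit 166)) (XT.lf (nat_lit 76) (nat_lit 35096950306) (nat_lit 0) (nat_lit 36153388363) (nat_lit 1292) (nat_lit 59671272047) (nat_lit 310) (nat_lit 5) (nat_lit 309) (nat_lit 3) (nat_lit 326) (nat_lit 5) (nat_lit 518) (nat_lit 517) (nat_lit 165)))) (XT.nd (nat_lit 156) (nat_lit 76) (nat_lit 0) (XT.nd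 (nat_lit 78) (nat_lit 0) (nat_lit 0) (XT.lf (nat_lit 0) (nat_lit 73261559407) (nat_lit 1216) (nat_lit 30869276875) (nat_lit 1292) (nat_lit 28755820138) (nat_lit 310) (nat_lit 5) (nat_lit 326) (nat_lit 5) (nat_lit 327) (nat_lit 5) (nat_lit 519) (nat_lit 517) (nat_lit 164)) (XT.lf (nat_lit 76) (nat_lit 36386767732) (nat_lit 0) (nat_lit 39653927018) (nat_lit 1292) (nat_lit 58848731417) (nat_lit 311) (nat_lit 5) (nat_lit 310) (nat_lit 5) (nat_lit 327) (nat_lit 5) (nat_lit 520) (nat_lit 517) (nat_lit 163))) (XT.nd (nat_lit 62322) (nat_lit 152) (nat_lit 0) (XT.lf (nat_lit 0) (nat_lit 79475072989) (nat_lit 1216) (nat_lit 30910024742) (nat_lit 1292) (nat_lit 26550025225) (nat_lit 311) (nat_lit 5) (nat_lit 327) (nat_lit 5) (nat_lit 328) (nat_lit 5) (nat_lit 521) (nat_lit 517) (nat_lit 162)) (XT.lf (nat_lit 76) (nat_lit 36153808915) (nat_lit 0) (nat_lit 37241597635) (nat_lit 1292) (nat_lit 61453625061) (nat_lit 310) (nat_lit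 5) (nat_lit 309) (nat_lit 3) (nat_lit 326) (nat_lit 5) (nat_lit 519) (nat_lit 518) (nat_lit 163))))))))

set_option maxRecDepth 10000000 in
noncomputable def Tp : PT := (PT.nd (nat_lit 12947844) (PT.nd (nat_lit 11699532) (PT.nd (nat_lit 10263630) (PT.nd (nat_lit 8640138) (PT.nd (nat_lit 7141368) (PT.nd (nat_lit 6142422) pc0 pc1) (PT.nd (nat_lit 874146) pc2 pc3)) (PT.nd (nat_lit 998790) (PT.nd (nat_lit 561756) pc4 pc5) (PT.nd (nat_lit 374478) pc6 pc7))) (PT.nd (nat_lit 874068) (PT.nd (nat_lit 499356) (PT.nd (nat_lit 311610) pc8 pc9) (PT.nd (nat_lit 187512) pc10 pc11)) (PT.nd (nat_lit 312000) (PT.nd (nat_lit 186732) pc12 pc13) (PT.nd (nat_lit 124956) pc14 pc15)))) (PT.nd (nat_lit 748956) (PT.nd (nat_lit 436332) (PT.nd (nat_lit 248898) (PT.nd (nat_lit 124566) pc16 pc17) (PT.nd (nat_lit 63570) pc18 pc19)) (PT.nd (nat_lit 126594) (PT.nd (nat_lit 63336) pc20 pc21) (PT.nd (nat_lit 123162) pc22 pc23))) (PT.nd (nat_lit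 250614) (PT.nd (nat_lit 125502) (PT.nd (nat_lit 62790) pc24 pc25) (PT.nd (nat_lit 62634) pc26 pc27)) (PT.nd (nat_lit 124566) (PT.nd (nat_lit 62322) pc28 pc29) (PT.nd (nat_lit 62166) pc30 pc31))))) (PT.nd (nat_lit 747084) (PT.nd (nat_lit 375024) (PT.nd (nat_lit 188058) (PT.nd (nat_lit 123474) (PT.nd (nat_lit 61776) pc32 pc33) (PT.nd (nat_lit 3042) pc34 pc35)) (PT.nd (nat_lit 122772) (PT.nd (nat_lit 61464) pc36 pc37) (PT.nd (nat_lit 3042) pc38 pc39))) (PT.nd (nat_lit 185406) (PT.nd (nat_lit 64038) (PT.nd (nat_lit 60996) pc40 pc41) (PT.nd (nat_lit 60762) pc42 pc43)) (PT.nd (nat_lit 63492) (PT.nd (nat_lit 3042) pc44 pc45) (PT.nd (nat_lit 61230) pc46 pc47)))) (PT.nd (nat_lit 748488) (PT.nd (nat_lit 255216) (PT.nd (nat_lit 124956) (PT.nd (nat_lit 62322) pc48 pc49) (PT.nd (nat_lit 63024) pc50 pc51)) (PT.nd (nat_lit 243750) (PT.nd (nat_lit 119496) pc52 pc53) (PT.nd (nat_lit 124566) pc54 pc55))) (PT.nd (nat_lit 757614)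 (PT.nd (nat_lit 319644) (PT.nd (nat_lit 132210) pc56 pc57) (PT.nd (nat_lit 187824) pc58 pc59)) (PT.nd (nat_lit 488748) (PT.nd (nat_lit 250146) pc60 pc61) (PT.nd (nat_lit 249210) pc62 pc63))))))

set_option maxRecDepth 10000000 in
noncomputable def Tx : XT := (XT.nd (nat_lit 20223684) (nat_lit 0) (nat_lit 532) XT.nil (XT.nd (nat_lit 12180480) (nat_lit 0) (nat_lit 0) (XT.nd (nat_lit 5620056) (nat_lit 0) (nat_lit 3116) (XT.nd (nat_lit 3871998) (nat_lit 0) (nat_lit 1520) (XT.nd (nat_lit 2743416) (nat_lit 0) (nat_lit 760) (XT.nd (nat_lit 1932450) (nat_lit 0) (nat_lit 456) (XT.nd (nat_lit 1311648) (nat_lit 0) (nat_lit 228) (XT.nd (nat_lit 935532) (nat_lit 0) (nat_lit 76) (XT.nd (nat_lit 624312) (nat_lit 0) (nat_lit 76) (XT.nd (nat_lit 436722) (nat_lit 0) (nat_lit 76) xc0 xc1) (XT.nd (nat_lit 186186) (nat_lit 0) (nat_lit 0) xc2 xc3)) (XT.nd (nat_lit 188760) (nat_lit 0) (nat_lit 76) (XT.nd (nat_lit 124332) (nat_lit 0)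 (nat_lit 0) xc4 xc5) (XT.nd (nat_lit 123396) (nat_lit 0) (nat_lit 76) xc6 xc7))) (XT.nd (nat_lit 312312) (nat_lit 0) (nat_lit 76) (XT.nd (nat_lit 185874) (nat_lit 0) (nat_lit 0) (XT.nd (nat_lit 122460) (nat_lit 0) (nat_lit 0) xc8 xc9) (XT.nd (nat_lit 63258) (nat_lit 0) (nat_lit 76) xc10 xc11)) (XT.nd (nat_lit 183612) (nat_lit 0) (nat_lit 0) (XT.nd (nat_lit 62946) (nat_lit 0) (nat_lit 0) xc12 xc13) (XT.nd (nat_lit 62478) (nat_lit 0) (nat_lit 0) xc14 xc15)))) (XT.nd (nat_lit 436956) (nat_lit 0) (nat_lit 76) (XT.nd (nat_lit 190944) (nat_lit 0) (nat_lit 0) (XT.nd (nat_lit 124176) (nat_lit 0) (nat_lit 0) (XT.nd (nat_lit 62166) (nat_lit 0) (nat_lit 0) xc16 xc17) (XT.nd (nat_lit 4836) (nat_lit 228) (nat_lit 0) xc18 xc19)) (XT.nd (nat_lit 123318) (nat_lit 0) (nat_lit 76) (XT.nd (nat_lit 61698) (nat_lit 0) (nat_lit 76) xc20 xc21) (XT.nd (nat_lit 61386) (nat_lit 0) (nat_lit 0) xc22 xc23))) (XT.nd (nat_lit 187668) (nat_lit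 0) (nat_lit 152) (XT.nd (nat_lit 65910) (nat_lit 0) (nat_lit 76) (XT.nd (nat_lit 61074) (nat_lit 0) (nat_lit 912) xc24 xc25) (XT.nd (nat_lit 60918) (nat_lit 0) (nat_lit 76) xc26 xc27)) (XT.nd (nat_lit 65520) (nat_lit 0) (nat_lit 0) (XT.nd (nat_lit 60606) (nat_lit 0) (nat_lit 988) xc28 xc29) (XT.nd (nat_lit 60450) (nat_lit 0) (nat_lit 76) xc30 xc31))))) (XT.nd (nat_lit 624468) (nat_lit 0) (nat_lit 456) (XT.nd (nat_lit 314106) (nat_lit 0) (nat_lit 228) (XT.nd (nat_lit 129870) (nat_lit 0) (nat_lit 152) (XT.nd (nat_lit 64974) (nat_lit 0) (nat_lit 0) (XT.nd (nat_lit 4836) (nat_lit 456) (nat_lit 0) xc32 xc33) (XT.nd (nat_lit 59982) (nat_lit 0) (nat_lit 532) xc34 xc35)) (XT.nd (nat_lit 119730) (nat_lit 0) (nat_lit 76) (XT.nd (nat_lit 59904) (nat_lit 0) (nat_lit 0) xc36 xc37) (XT.nd (nat_lit 4836) (nat_lit 608) (nat_lit 0) xc38 xc39))) (XT.nd (nat_lit 128466) (nat_lit 0) (nat_lit 76) (XT.nd (nat_lit 64272) (nat_lit 0)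 (nat_lit 0) (XT.nd (nat_lit 59436) (nat_lit 0) (nat_lit 1444) xc40 xc41) (XT.nd (nat_lit 59280) (nat_lit 0) (nat_lit 304) xc42 xc43)) (XT.nd (nat_lit 118170) (nat_lit 0) (nat_lit 76) (XT.nd (nat_lit 59124) (nat_lit 0) (nat_lit 76) xc44 xc45) (XT.nd (nat_lit 4836) (nat_lit 1672) (nat_lit 0) xc46 xc47)))) (XT.nd (nat_lit 253266) (nat_lit 0) (nat_lit 152) (XT.nd (nat_lit 126906) (nat_lit 0) (nat_lit 0) (XT.nd (nat_lit 63492) (nat_lit 0) (nat_lit 0) (XT.nd (nat_lit 4836) (nat_lit 684) (nat_lit 0) xc48 xc49) (XT.nd (nat_lit 4836) (nat_lit 0) (nat_lit 0) xc50 xc51)) (XT.nd (nat_lit 63258) (nat_lit 0) (nat_lit 76) (XT.nd (nat_lit 58344) (nat_lit 0) (nat_lit 2508) xc52 xc53) (XT.nd (nat_lit 58188) (nat_lit 0) (nat_lit 1976) xc54 xc55))) (XT.nd (nat_lit 125736) (nat_lit 0) (nat_lit 76) (XT.nd (nat_lit 62946) (nat_lit 0) (nat_lit 0) (XT.nd (nat_lit 58032) (nat_lit 0) (nat_lit 1520) xc56 xc57) (XT.nd (nat_lit 57876) (nat_lit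 0) (nat_lit 1292) xc58 xc59)) (XT.nd (nat_lit 62634) (nat_lit 0) (nat_lit 0) (XT.nd (nat_lit 57720) (nat_lit 0) (nat_lit 1140) xc60 xc61) (XT.nd (nat_lit 57564) (nat_lit 0) (nat_lit 1216) xc62 xc63)))))) (XT.nd (nat_lit 928668) (nat_lit 0) (nat_lit 836) (XT.nd (nat_lit 494208) (nat_lit 0) (nat_lit 380) (XT.nd (nat_lit 248274) (nat_lit 0) (nat_lit 152) (XT.nd (nat_lit 124410) (nat_lit 0) (nat_lit 76) (XT.nd (nat_lit 62244) (nat_lit 0) (nat_lit 76) (XT.nd (nat_lit 57408) (nat_lit 0) (nat_lit 1368) xc64 xc65) (XT.nd (nat_lit 57252) (nat_lit 0) (nat_lit 1596) xc66 xc67)) (XT.nd (nat_lit 62010) (nat_lit 0) (nat_lit 76) (XT.nd (nat_lit 57096) (nat_lit 0) (nat_lit 2052) xc68 xc69) (XT.nd (nat_lit 56940) (nat_lit 0) (nat_lit 2584) xc70 xc71))) (XT.nd (nat_lit 123162) (nat_lit 0) (nat_lit 228) (XT.nd (nat_lit 61620) (nat_lit 0) (nat_lit 76) (XT.nd (nat_lit 56784) (nat_lit 0) (nat_lit 3648) xc72 xc73) (XT.nd (nat_lit 56628)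 (nat_lit 0) (nat_lit 4940) xc74 xc75)) (XT.nd (nat_lit 61464) (nat_lit 0) (nat_lit 0) (XT.nd (nat_lit 4836) (nat_lit 0) (nat_lit 0) xc76 xc77) (XT.nd (nat_lit 4836) (nat_lit 836) (nat_lit 0) xc78 xc79)))) (XT.nd (nat_lit 192660) (nat_lit 0) (nat_lit 228) (XT.nd (nat_lit 122070) (nat_lit 0) (nat_lit 152) (XT.nd (nat_lit 61074) (nat_lit 0) (nat_lit 152) (XT.nd (nat_lit 4836) (nat_lit 1824) (nat_lit 0) xc80 xc81) (XT.nd (nat_lit 4836) (nat_lit 3192) (nat_lit 0) xc82 xc83)) (XT.nd (nat_lit 9750) (nat_lit 228) (nat_lit 0) (XT.nd (nat_lit 4836) (nat_lit 4940) (nat_lit 0) xc84 xc85) (XT.nd (nat_lit 55926) (nat_lit 0) (nat_lit 1520) xc86 xc87))) (XT.nd (nat_lit 121212) (nat_lit 0) (nat_lit 76) (XT.nd (nat_lit 60684) (nat_lit 0) (nat_lit 0) (XT.nd (nat_lit 55770) (nat_lit 0) (nat_lit 3268) xc88 xc89) (XT.nd (nat_lit 55614) (nat_lit 0) (nat_lit 6308) xc90 xc91)) (XT.nd (nat_lit 60372) (nat_lit 0) (nat_lit 76) (XT.nd (nat_lit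 4836) (nat_lit 608) (nat_lit 0) xc92 xc93) (XT.nd (nat_lit 4836) (nat_lit 2432) (nat_lit 0) xc94 xc95))))) (XT.nd (nat_lit 382278) (nat_lit 0) (nat_lit 304) (XT.nd (nat_lit 190788) (nat_lit 0) (nat_lit 152) (XT.nd (nat_lit 69966) (nat_lit 0) (nat_lit 0) (XT.nd (nat_lit 9672) (nat_lit 228) (nat_lit 0) (XT.nd (nat_lit 4836) (nat_lit 5244) (nat_lit 0) xc96 xc97) (XT.nd (nat_lit 55380) (nat_lit 0) (nat_lit 2052) xc98 xc99)) (XT.nd (nat_lit 60372) (nat_lit 0) (nat_lit 76) (XT.nd (nat_lit 55458) (nat_lit 0) (nat_lit 4864) xc100 xc101) (XT.nd (nat_lit 55536) (nat_lit 0) (nat_lit 8664) xc102 xc103))) (XT.nd (nat_lit 121056) (nat_lit 0) (nat_lit 76) (XT.nd (nat_lit 60450) (nat_lit 0) (nat_lit 76) (XT.nd (nat_lit 4836) (nat_lit 1444) (nat_lit 0) xc104 xc105) (XT.nd (nat_lit 4836) (nat_lit 3648) (nat_lit 0) xc106 xc107)) (XT.nd (nat_lit 9750) (nat_lit 684) (nat_lit 0) (XT.nd (nat_lit 4836) (nat_lit 6080) (nat_lit 0) xc108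 xc109) (XT.nd (nat_lit 55770) (nat_lit 0) (nat_lit 2356) xc110 xc111)))) (XT.nd (nat_lit 243672) (nat_lit 0) (nat_lit 304) (XT.nd (nat_lit 121602) (nat_lit 0) (nat_lit 152) (XT.nd (nat_lit 60684) (nat_lit 0) (nat_lit 152) (XT.nd (nat_lit 55848) (nat_lit 0) (nat_lit 4560) xc112 xc113) (XT.nd (nat_lit 56004) (nat_lit 0) (nat_lit 7448) xc114 xc115)) (XT.nd (nat_lit 60996) (nat_lit 0) (nat_lit 76) (XT.nd (nat_lit 4836) (nat_lit 912) (nat_lit 0) xc116 xc117) (XT.nd (nat_lit 4836) (nat_lit 2204) (nat_lit 0) xc118 xc119))) (XT.nd (nat_lit 70902) (nat_lit 0) (nat_lit 76) (XT.nd (nat_lit 61152) (nat_lit 0) (nat_lit 304) (XT.nd (nat_lit 4836) (nat_lit 4104) (nat_lit 0) xc120 xc121) (XT.nd (nat_lit 4836) (nat_lit 6080) (nat_lit 0) xc122 xc123)) (XT.nd (nat_lit 61230) (nat_lit 0) (nat_lit 0) (XT.nd (nat_lit 56316) (nat_lit 0) (nat_lit 1368) xc124 xc125) (XT.nd (nat_lit 56394) (nat_lit 0) (nat_lit 2660) xc126 xc127))))))) (XT.nd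 (nat_lit 2061150) (nat_lit 0) (nat_lit 2736) (XT.nd (nat_lit 939198) (nat_lit 0) (nat_lit 1064) (XT.nd (nat_lit 493272) (nat_lit 0) (nat_lit 608) (XT.nd (nat_lit 245934) (nat_lit 0) (nat_lit 228) (XT.nd (nat_lit 122772) (nat_lit 0) (nat_lit 152) (XT.nd (nat_lit 61308) (nat_lit 0) (nat_lit 76) (XT.nd (nat_lit 56472) (nat_lit 0) (nat_lit 4332) xc128 xc129) (XT.nd (nat_lit 56550) (nat_lit 0) (nat_lit 6080) xc130 xc131)) (XT.nd (nat_lit 61542) (nat_lit 0) (nat_lit 0) (XT.nd (nat_lit 4836) (nat_lit 76) (nat_lit 0) xc132 xc133) (XT.nd (nat_lit 4836) (nat_lit 912) (nat_lit 0) xc134 xc135))) (XT.nd (nat_lit 123396) (nat_lit 0) (nat_lit 152) (XT.nd (nat_lit 61620) (nat_lit 0) (nat_lit 76) (XT.nd (nat_lit 4836) (nat_lit 1748) (nat_lit 0) xc136 xc137) (XT.nd (nat_lit 4836) (nat_lit 2812) (nat_lit 0) xc138 xc139)) (XT.nd (nat_lit 61932) (nat_lit 0) (nat_lit 76) (XT.nd (nat_lit 4836) (nat_lit 3724) (nat_lit 0) xc140 xc141)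 (XT.nd (nat_lit 4836) (nat_lit 4560) (nat_lit 0) xc142 xc143)))) (XT.nd (nat_lit 196170) (nat_lit 0) (nat_lit 76) (XT.nd (nat_lit 124176) (nat_lit 0) (nat_lit 76) (XT.nd (nat_lit 62010) (nat_lit 0) (nat_lit 0) (XT.nd (nat_lit 4836) (nat_lit 5548) (nat_lit 0) xc144 xc145) (XT.nd (nat_lit 4836) (nat_lit 6536) (nat_lit 0) xc146 xc147)) (XT.nd (nat_lit 9750) (nat_lit 228) (nat_lit 0) (XT.nd (nat_lit 4836) (nat_lit 6992) (nat_lit 0) xc148 xc149) (XT.nd (nat_lit 57330) (nat_lit 0) (nat_lit 456) xc150 xc151))) (XT.nd (nat_lit 124722) (nat_lit 0) (nat_lit 152) (XT.nd (nat_lit 62322) (nat_lit 0) (nat_lit 152) (XT.nd (nat_lit 57408) (nat_lit 0) (nat_lit 684) xc152 xc153) (XT.nd (nat_lit 57486) (nat_lit 0) (nat_lit 760) xc154 xc155)) (XT.nd (nat_lit 62478) (nat_lit 0) (nat_lit 76) (XT.nd (nat_lit 57564) (nat_lit 0) (nat_lit 836) xc156 xc157) (XT.nd (nat_lit 57642) (nat_lit 0) (nat_lit 760) xc158 xc159))))) (XT.nd (nat_lit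 557388) (nat_lit 0) (nat_lit 836) (XT.nd (nat_lit 304512) (nat_lit 0) (nat_lit 304) (XT.nd (nat_lit 125424) (nat_lit 0) (nat_lit 76) (XT.nd (nat_lit 62634) (nat_lit 0) (nat_lit 76) (XT.nd (nat_lit 57798) (nat_lit 0) (nat_lit 532) xc160 xc161) (XT.nd (nat_lit 57876) (nat_lit 0) (nat_lit 152) xc162 xc163)) (XT.nd (nat_lit 116064) (nat_lit 0) (nat_lit 152) (XT.nd (nat_lit 57954) (nat_lit 0) (nat_lit 152) xc164 xc165) (XT.nd (nat_lit 4836) (nat_lit 6080) (nat_lit 0) xc166 xc167))) (XT.nd (nat_lit 126204) (nat_lit 0) (nat_lit 228) (XT.nd (nat_lit 63024) (nat_lit 0) (nat_lit 0) (XT.nd (nat_lit 4836) (nat_lit 5016) (nat_lit 0) xc168 xc169) (XT.nd (nat_lit 4836) (nat_lit 4332) (nat_lit 0) xc170 xc171)) (XT.nd (nat_lit 63258) (nat_lit 0) (nat_lit 76) (XT.nd (nat_lit 4836) (nat_lit 3040) (nat_lit 0) xc172 xc173) (XT.nd (nat_lit 4836) (nat_lit 1900) (nat_lit 0) xc174 xc175)))) (XT.nd (nat_lit 254358) (nat_lit 0) (nat_lit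 304) (XT.nd (nat_lit 126984) (nat_lit 0) (nat_lit 76) (XT.nd (nat_lit 63414) (nat_lit 0) (nat_lit 0) (XT.nd (nat_lit 4836) (nat_lit 684) (nat_lit 0) xc176 xc177) (XT.nd (nat_lit 58656) (nat_lit 0) (nat_lit 5244) xc178 xc179)) (XT.nd (nat_lit 63648) (nat_lit 0) (nat_lit 152) (XT.nd (nat_lit 58734) (nat_lit 0) (nat_lit 3040) xc180 xc181) (XT.nd (nat_lit 58812) (nat_lit 0) (nat_lit 1216) xc182 xc183))) (XT.nd (nat_lit 181896) (nat_lit 0) (nat_lit 380) (XT.nd (nat_lit 117936) (nat_lit 0) (nat_lit 76) (XT.nd (nat_lit 58890) (nat_lit 0) (nat_lit 76) xc184 xc185) (XT.nd (nat_lit 4836) (nat_lit 4864) (nat_lit 0) xc186 xc187)) (XT.nd (nat_lit 64116) (nat_lit 0) (nat_lit 0) (XT.nd (nat_lit 4836) (nat_lit 2128) (nat_lit 0) xc188 xc189) (XT.nd (nat_lit 59280) (nat_lit 0) (nat_lit 5092) xc190 xc191)))))) (XT.nd (nat_lit 1376310) (nat_lit 0) (nat_lit 2964) (XT.nd (nat_lit 627042) (nat_lit 0) (nat_lit 1216) (XT.nd (nat_lit 312390)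 (nat_lit 0) (nat_lit 456) (XT.nd (nat_lit 183222) (nat_lit 0) (nat_lit 304) (XT.nd (nat_lit 64194) (nat_lit 0) (nat_lit 76) (XT.nd (nat_lit 59358) (nat_lit 0) (nat_lit 1976) xc192 xc193) (XT.nd (nat_lit 59436) (nat_lit 0) (nat_lit 76) xc194 xc195)) (XT.nd (nat_lit 64506) (nat_lit 0) (nat_lit 152) (XT.nd (nat_lit 4836) (nat_lit 3876) (nat_lit 0) xc196 xc197) (XT.nd (nat_lit 4836) (nat_lit 532) (nat_lit 0) xc198 xc199))) (XT.nd (nat_lit 184626) (nat_lit 0) (nat_lit 380) (XT.nd (nat_lit 64662) (nat_lit 0) (nat_lit 152) (XT.nd (nat_lit 59826) (nat_lit 0) (nat_lit 1444) xc200 xc201) (XT.nd (nat_lit 59904) (nat_lit 0) (nat_lit 228) xc202 xc203)) (XT.nd (nat_lit 64974) (nat_lit 0) (nat_lit 152) (XT.nd (nat_lit 4836) (nat_lit 1444) (nat_lit 0) xc204 xc205) (XT.nd (nat_lit 60138) (nat_lit 0) (nat_lit 1140) xc206 xc207)))) (XT.nd (nat_lit 372918) (nat_lit 0) (nat_lit 684) (XT.nd (nat_lit 186030) (nat_lit 0) (nat_lit 304)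 (XT.nd (nat_lit 120666) (nat_lit 0) (nat_lit 152) (XT.nd (nat_lit 60294) (nat_lit 0) (nat_lit 152) xc208 xc209) (XT.nd (nat_lit 4836) (nat_lit 228) (nat_lit 0) xc210 xc211)) (XT.nd (nat_lit 121212) (nat_lit 0) (nat_lit 380) (XT.nd (nat_lit 60528) (nat_lit 0) (nat_lit 76) xc212 xc213) (XT.nd (nat_lit 4836) (nat_lit 1520) (nat_lit 0) xc214 xc215))) (XT.nd (nat_lit 187746) (nat_lit 0) (nat_lit 380) (XT.nd (nat_lit 121836) (nat_lit 0) (nat_lit 228) (XT.nd (nat_lit 60840) (nat_lit 0) (nat_lit 228) xc216 xc217) (XT.nd (nat_lit 4836) (nat_lit 1520) (nat_lit 0) xc218 xc219)) (XT.nd (nat_lit 122382) (nat_lit 0) (nat_lit 456) (XT.nd (nat_lit 61074) (nat_lit 0) (nat_lit 304) xc220 xc221) (XT.nd (nat_lit 61308) (nat_lit 0) (nat_lit 1976) xc222 xc223))))) (XT.nd (nat_lit 996138) (nat_lit 0) (nat_lit 3496) (XT.nd (nat_lit 437190) (nat_lit 0) (nat_lit 1216) (XT.nd (nat_lit 246402) (nat_lit 0) (nat_lit 684) (XT.nd (nat_lit 122850)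 (nat_lit 0) (nat_lit 228) (XT.nd (nat_lit 61386) (nat_lit 0) (nat_lit 76) xc224 xc225) (XT.nd (nat_lit 61698) (nat_lit 0) (nat_lit 228) xc226 xc227)) (XT.nd (nat_lit 66768) (nat_lit 0) (nat_lit 0) (XT.nd (nat_lit 61854) (nat_lit 0) (nat_lit 228) xc228 xc229) (XT.nd (nat_lit 61854) (nat_lit 0) (nat_lit 228) xc230 xc231))) (XT.nd (nat_lit 249366) (nat_lit 0) (nat_lit 760) (XT.nd (nat_lit 124410) (nat_lit 0) (nat_lit 228) (XT.nd (nat_lit 62166) (nat_lit 0) (nat_lit 228) xc232 xc233) (XT.nd (nat_lit 62322) (nat_lit 0) (nat_lit 304) xc234 xc235)) (XT.nd (nat_lit 125268) (nat_lit 0) (nat_lit 532) (XT.nd (nat_lit 62556) (nat_lit 0) (nat_lit 228) xc236 xc237) (XT.nd (nat_lit 62946) (nat_lit 0) (nat_lit 76) xc238 xc239)))) (XT.nd (nat_lit 627978) (nat_lit 0) (nat_lit 3344) (XT.nd (nat_lit 312546) (nat_lit 0) (nat_lit 988) (XT.nd (nat_lit 126594) (nat_lit 0) (nat_lit 0) (XT.nd (nat_lit 63258) (nat_lit 304) (nat_lit 0) xc240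 xc241) (XT.nd (nat_lit 63414) (nat_lit 0) (nat_lit 304) xc242 xc243)) (XT.nd (nat_lit 127764) (nat_lit 0) (nat_lit 1444) (XT.nd (nat_lit 63726) (nat_lit 0) (nat_lit 1064) xc244 xc245) (XT.nd (nat_lit 123318) (nat_lit 0) (nat_lit 836) xc246 xc247))) (XT.nd (nat_lit 498732) (nat_lit 0) (nat_lit 2812) (XT.nd (nat_lit 248430) (nat_lit 0) (nat_lit 1824) (XT.nd (nat_lit 123942) (nat_lit 0) (nat_lit 836) xc248 xc249) (XT.nd (nat_lit 124878) (nat_lit 0) (nat_lit 456) xc250 xc251)) (XT.nd (nat_lit 312858) (nat_lit 0) (nat_lit 2964) (XT.nd (nat_lit 125736) (nat_lit 0) (nat_lit 1216) xc252 xc253) (XT.nd (nat_lit 249444) (nat_lit 0) (nat_lit 1520) xc254 xc255)))))))) XT.nil))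

set_option maxRecDepth 10000000 in
noncomputable def Te : XT := XT.nil

set_option maxRecDepth 10000000 in
noncomputable def Tz : ZL := (ZL.cons (nat_lit 76) (nat_lit 6) (nat_lit 469033064676824012920) (ZL.cons (nat_lit 152) (nat_lit 3) (nat_lit 231071298202025844660) (ZL.cons (nat_lit 304) (nat_lit 3) (nat_lit 211594666159435477158) (ZL.cons (nat_lit 380) (nat_lit 6) (nat_lit 417076630483671370120) (ZL.cons (nat_lit 532) (nat_lit 3) (nat_lit 205482471746731260537) (ZL.cons (nat_lit 608) (nat_lit 6) (nat_lit 405033326939270559012) (ZL.cons (nat_lit 760) (nat_lit 3) (nat_lit 199551393517064633935) (ZL.cons (nat_lit 836) (nat_lit 6) (nat_lit 393347166898555245234) (ZL.cons (nat_lit 912) (nat_lit 6) (nat_lit 387761437349905756516) (ZL.cons (nat_lit 988) (nat_lit 3) (nat_lit 193796344489979539687) (ZL.cons (nat_lit 1064) (nat_lit 6) (nat_lit 382008135914796783140) (ZL.cons (nat_lit 1140) (nat_lit 6) (nat_lit 376588627996506564234)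 (ZL.cons (nat_lit 1216) (nat_lit 3) (nat_lit 188212397313813147581) (ZL.cons (nat_lit 1292) (nat_lit 6) (nat_lit 371006534840667638758) (ZL.cons (nat_lit 1368) (nat_lit 6) (nat_lit 365748622152165218988) (ZL.cons (nat_lit 1444) (nat_lit 3) (nat_lit 182794780314490245868) (ZL.cons (nat_lit 1520) (nat_lit 6) (nat_lit 360332972083007726624) (ZL.cons (nat_lit 1596) (nat_lit 6) (nat_lit 355232176067126648778) (ZL.cons (nat_lit 1672) (nat_lit 3) (nat_lit 177538873701920252906) (ZL.cons (nat_lit 1748) (nat_lit 6) (nat_lit 349978356170769138598) (ZL.cons (nat_lit 1824) (nat_lit 6) (nat_lit 345030342605046281062) (ZL.cons (nat_lit 1900) (nat_lit 3) (nat_lit 172440205931995886665) (ZL.cons (nat_lit 1976) (nat_lit 6) (nat_lit 339933888632351737800) (ZL.cons (nat_lit 2052) (nat_lit 6) (nat_lit 335134464271083521300) (ZL.cons (nat_lit 2128) (nat_lit 3) (nat_lit 167494450222408504469) (ZL.cons (nat_lit 2204) (nat_lit 6) (nat_lit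 330191057178977258306) (ZL.cons (nat_lit 2280) (nat_lit 6) (nat_lit 325536166544600198740) (ZL.cons (nat_lit 2356) (nat_lit 3) (nat_lit 162697421220714413757) (ZL.cons (nat_lit 2432) (nat_lit 6) (nat_lit 320741629191191827388) (ZL.cons (nat_lit 2508) (nat_lit 6) (nat_lit 316227351513775759572) (ZL.cons (nat_lit 2584) (nat_lit 3) (nat_lit 158045071823309544241) (ZL.cons (nat_lit 2660) (nat_lit 6) (nat_lit 311577645506037209726) (ZL.cons (nat_lit 2736) (nat_lit 6) (nat_lit 307200191809905876858) (ZL.cons (nat_lit 2812) (nat_lit 3) (nat_lit 153533490144197272849) (ZL.cons (nat_lit 2888) (nat_lit 6) (nat_lit 302691414502890604000) (ZL.cons (nat_lit 2964) (nat_lit 6) (nat_lit 298447124839615720994) (ZL.cons (nat_lit 3040) (nat_lit 3) (nat_lit 149158896632666437606) (ZL.cons (nat_lit 3116) (nat_lit 6) (nat_lit 294075506486442591498) (ZL.cons (nat_lit 3192) (nat_lit 6) (nat_lit 289960847313694508926) (ZL.cons (nat_lit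 3268) (nat_lit 3) (nat_lit 144917641339234222528) (ZL.cons (nat_lit 3344) (nat_lit 6) (nat_lit 285722748365763983874) (ZL.cons (nat_lit 3420) (nat_lit 6) (nat_lit 281734310071745291430) (ZL.cons (nat_lit 3496) (nat_lit 3) (nat_lit 140806201329452226363) (ZL.cons (nat_lit 3572) (nat_lit 6) (nat_lit 277626218628906038216) (ZL.cons (nat_lit 3648) (nat_lit 6) (nat_lit 273760713202344469890) (ZL.cons (nat_lit 3724) (nat_lit 3) (nat_lit 136821178245424254989) (ZL.cons (nat_lit 3800) (nat_lit 6) (nat_lit 269779242612986054510) (ZL.cons (nat_lit 3876) (nat_lit 6) (nat_lit 266033501458920539568) (ZL.cons (nat_lit 3952) (nat_lit 3) (nat_lit 132959296015141842644) (ZL.cons (nat_lit 4028) (nat_lit 6) (nat_lit 262175388070233059178) (ZL.cons (nat_lit 4104) (nat_lit 6) (nat_lit 258546359972092384374) (ZL.cons (nat_lit 4180) (nat_lit 3) (nat_lit 129217398710008884283) (ZL.cons (nat_lit 4256) (nat_lit 6) (nat_lit 254808461031007489326)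 (ZL.cons (nat_lit 4332) (nat_lit 6) (nat_lit 251293210259755513442) (ZL.cons (nat_lit 4408) (nat_lit 3) (nat_lit 125592448551200758757) (ZL.cons (nat_lit 4484) (nat_lit 6) (nat_lit 247672501965365978284) (ZL.cons (nat_lit 4560) (nat_lit 6) (nat_lit 244268206536771423106) (ZL.cons (nat_lit 4636) (nat_lit 3) (nat_lit 122081524065786684403) (ZL.cons (nat_lit 4712) (nat_lit 6) (nat_lit 240761782245319031272) (ZL.cons (nat_lit 4788) (nat_lit 6) (nat_lit 237465732326702355096) (ZL.cons (nat_lit 4864) (nat_lit 3) (nat_lit 118681818393837558956) (ZL.cons (nat_lit 4940) (nat_lit 6) (nat_lit 234070800910527178634) (ZL.cons (nat_lit 5016) (nat_lit 6) (nat_lit 230880397378642754076) (ZL.cons (nat_lit 5092) (nat_lit 3) (nat_lit 115390637748046019182) (ZL.cons (nat_lit 5168) (nat_lit 6) (nat_lit 227789638460780391830) (ZL.cons (nat_lit 5244) (nat_lit 6) (nat_lit 227594281740801796782) (ZL.cons (nat_lit 5320) (nat_lit 6) (nat_lit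 224507034892831443002) (ZL.cons (nat_lit 5396) (nat_lit 3) (nat_lit 112205400027701781833) (ZL.cons (nat_lit 5472) (nat_lit 6) (nat_lit 221516837357847799038) (ZL.cons (nat_lit 5548) (nat_lit 6) (nat_lit 221327170639421978604) (ZL.cons (nat_lit 5624) (nat_lit 6) (nat_lit 218340699059386766422) (ZL.cons (nat_lit 5700) (nat_lit 3) (nat_lit 109123633589194412662) (ZL.cons (nat_lit 5776) (nat_lit 6) (nat_lit 215448775777024109946) (ZL.cons (nat_lit 5852) (nat_lit 6) (nat_lit 215264633331950497876) (ZL.cons (nat_lit 5928) (nat_lit 6) (nat_lit 212376662915192632678) (ZL.cons (nat_lit 6004) (nat_lit 3) (nat_lit 106142976175558480853) (ZL.cons (nat_lit 6080) (nat_lit 6) (nat_lit 209580832458819033532) (ZL.cons (nat_lit 6156) (nat_lit 6) (nat_lit 209402053385932031522) (ZL.cons (nat_lit 6232) (nat_lit 6) (nat_lit 206610416524678555442) (ZL.cons (nat_lit 6308) (nat_lit 3) (nat_lit 103261174007933612202) (ZL.cons (nat_lit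 6384) (nat_lit 6) (nat_lit 203908602473011748880) (ZL.cons (nat_lit 6460) (nat_lit 6) (nat_lit 203735030557587475082) (ZL.cons (nat_lit 6536) (nat_lit 6) (nat_lit 201037665490983607078) (ZL.cons (nat_lit 6612) (nat_lit 3) (nat_lit 100476081042185332159) (ZL.cons (nat_lit 6688) (nat_lit 6) (nat_lit 198427895895123636428) (ZL.cons (nat_lit 6764) (nat_lit 6) (nat_lit 198259379472381623032) (ZL.cons (nat_lit 6840) (nat_lit 6) (nat_lit 195654329804774923902) (ZL.cons (nat_lit 6916) (nat_lit 3) (nat_lit 97785658394322926633) (ZL.cons (nat_lit 6992) (nat_lit 6) (nat_lit 193134736824559454276) (ZL.cons (nat_lit 7068) (nat_lit 6) (nat_lit 192971128647140023798) (ZL.cons (nat_lit 7144) (nat_lit 6) (nat_lit 190698398945635996758) (ZL.cons (nat_lit 7220) (nat_lit 6) (nat_lit 190456543038808449926) (ZL.cons (nat_lit 7296) (nat_lit 3) (nat_lit 95187973938759045042) (ZL.cons (nat_lit 7372) (nat_lit 6) (nat_lit 188025362752925405034)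 (ZL.cons (nat_lit 7448) (nat_lit 6) (nat_lit 187866519862226928838) (ZL.cons (nat_lit 7524) (nat_lit 6) (nat_lit 185675463457202253448) (ZL.cons (nat_lit 7600) (nat_lit 6) (nat_lit 185440651897175508952) (ZL.cons (nat_lit 7676) (nat_lit 3) (nat_lit 92681202083883696299) (ZL.cons (nat_lit 7752) (nat_lit 6) (nat_lit 183096224291908931122) (ZL.cons (nat_lit 7828) (nat_lit 6) (nat_lit 182942007893172546468) (ZL.cons (nat_lit 7904) (nat_lit 6) (nat_lit 180831188517451719702) (ZL.cons (nat_lit 7980) (nat_lit 6) (nat_lit 180603216129076239606) (ZL.cons (nat_lit 8056) (nat_lit 3) (nat_lit 90263623729873985653) (ZL.cons (nat_lit 8132) (nat_lit 6) (nat_lit 178343985271024407282) (ZL.cons (nat_lit 8208) (nat_lit 6) (nat_lit 178194260612057043540) (ZL.cons (nat_lit 8284) (nat_lit 6) (nat_lit 176162341233801276052) (ZL.cons (nat_lit 8360) (nat_lit 6) (nat_lit 175941008817902751688) (ZL.cons (nat_lit 8436) (nat_lit 3) (nat_lit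 87933626414131828123) (ZL.cons (nat_lit 8512) (nat_lit 6) (nat_lit 173765523216494087140) (ZL.cons (nat_lit 8588) (nat_lit 6) (nat_lit 173620159469923831076) (ZL.cons (nat_lit 8664) (nat_lit 6) (nat_lit 171665902898082246210) (ZL.cons (nat_lit 8740) (nat_lit 6) (nat_lit 171451017057404067214) (ZL.cons (nat_lit 8816) (nat_lit 3) (nat_lit 85689704650236453296) (ZL.cons (nat_lit 8892) (nat_lit 6) (nat_lit 169640313242971529230) (ZL.cons (nat_lit 8968) (nat_lit 6) (nat_lit 169357930223547793990) (ZL.cons (nat_lit 9044) (nat_lit 6) (nat_lit 169216800372508710436) (ZL.cons (nat_lit 9120) (nat_lit 6) (nat_lit 167339070057529311744) (ZL.cons (nat_lit 9196) (nat_lit 6) (nat_lit 167130443027744671946) (ZL.cons (nat_lit 9272) (nat_lit 3) (nat_lit 83530460466818374507) (ZL.cons (nat_lit 9348) (nat_lit 6) (nat_lit 165392672506776371324) (ZL.cons (nat_lit 9424) (nat_lit 6) (nat_lit 165118514235491191480) (ZL.cons (nat_lit 9500)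 (nat_lit 6) (nat_lit 164981494962637712304) (ZL.cons (nat_lit 9576) (nat_lit 6) (nat_lit 163179255999716202892) (ZL.cons (nat_lit 9652) (nat_lit 6) (nat_lit 162976705485362183670) (ZL.cons (nat_lit 9728) (nat_lit 3) (nat_lit 81454604153308313713) (ZL.cons (nat_lit 9804) (nat_lit 6) (nat_lit 161310973822932135802) (ZL.cons (nat_lit 9880) (nat_lit 6) (nat_lit 161044800744014485468) (ZL.cons (nat_lit 9956) (nat_lit 6) (nat_lit 160911772323768389178) (ZL.cons (nat_lit 10032) (nat_lit 6) (nat_lit 159184092666490527478) (ZL.cons (nat_lit 10108) (nat_lit 6) (nat_lit 158987441681680800076) (ZL.cons (nat_lit 10184) (nat_lit 3) (nat_lit 79460955220090130015) (ZL.cons (nat_lit 10260) (nat_lit 6) (nat_lit 157392955391363347014) (ZL.cons (nat_lit 10336) (nat_lit 6) (nat_lit 157134534926394754456) (ZL.cons (nat_lit 10412) (nat_lit 6) (nat_lit 157005381120330583298) (ZL.cons (nat_lit 10488) (nat_lit 6) (nat_lit 155669823847227493142)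 (ZL.cons (nat_lit 10564) (nat_lit 6) (nat_lit 155351433013172623734) (ZL.cons (nat_lit 10640) (nat_lit 6) (nat_lit 155160509726949587420) (ZL.cons (nat_lit 10716) (nat_lit 3) (nat_lit 77548443581192978154) (ZL.cons (nat_lit 10792) (nat_lit 6) (nat_lit 153636577891798971098) (ZL.cons (nat_lit 10868) (nat_lit 6) (nat_lit 153385684236489657934) (ZL.cons (nat_lit 10944) (nat_lit 6) (nat_lit 153260292191767161666) (ZL.cons (nat_lit 11020) (nat_lit 6) (nat_lit 151988471145177450636) (ZL.cons (nat_lit 11096) (nat_lit 6) (nat_lit 151679353830561072568) (ZL.cons (nat_lit 11172) (nat_lit 6) (nat_lit 151493991416752299450) (ZL.cons (nat_lit 11248) (nat_lit 3) (nat_lit 75716110968296717147) (ZL.cons (nat_lit 11324) (nat_lit 6) (nat_lit 150040027540847971398) (ZL.cons (nat_lit 11400) (nat_lit 6) (nat_lit 149796441467732133376) (ZL.cons (nat_lit 11476) (nat_lit 6) (nat_lit 149674701618486991370) (ZL.cons (nat_lit 11552) (nat_lit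 6) (nat_lit 148466272946320508022) (ZL.cons (nat_lit 11628) (nat_lit 6) (nat_lit 148166159048634704074) (ZL.cons (nat_lit 11704) (nat_lit 6) (nat_lit 147986195540082497164) (ZL.cons (nat_lit 11780) (nat_lit 3) (nat_lit 73963112585498110157) (ZL.cons (nat_lit 11856) (nat_lit 6) (nat_lit 146956714921604823492) (ZL.cons (nat_lit 11932) (nat_lit 6) (nat_lit 146601719640841382722) (ZL.cons (nat_lit 12008) (nat_lit 6) (nat_lit 146365228307719209886) (ZL.cons (nat_lit 12084) (nat_lit 6) (nat_lit 146247034279325868132) (ZL.cons (nat_lit 12160) (nat_lit 6) (nat_lit 145101756258461864478) (ZL.cons (nat_lit 12236) (nat_lit 6) (nat_lit 144810383542262054820) (ZL.cons (nat_lit 12312) (nat_lit 6) (nat_lit 144635661689298747140) (ZL.cons (nat_lit 12388) (nat_lit 3) (nat_lit 72288719014995841118) (ZL.cons (nat_lit 12464) (nat_lit 6) (nat_lit 143664958253880477918) (ZL.cons (nat_lit 12540) (nat_lit 6) (nat_lit 143320302641488787850)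 (ZL.cons (nat_lit 12616) (nat_lit 6) (nat_lit 143090699405447843348) (ZL.cons (nat_lit 12692) (nat_lit 6) (nat_lit 142975947921570812518) (ZL.cons (nat_lit 12768) (nat_lit 6) (nat_lit 142290070172530113090) (ZL.cons (nat_lit 12844) (nat_lit 6) (nat_lit 141893683592961840102) (ZL.cons (nat_lit 12920) (nat_lit 6) (nat_lit 141610797460729015190) (ZL.cons (nat_lit 12996) (nat_lit 6) (nat_lit 141441164593774347538) (ZL.cons (nat_lit 13072) (nat_lit 3) (nat_lit 70692318384602190806) (ZL.cons (nat_lit 13148) (nat_lit 6) (nat_lit 140529279836347547252) (ZL.cons (nat_lit 13224) (nat_lit 6) (nat_lit 140194662736938139420) (ZL.cons (nat_lit 13300) (nat_lit 6) (nat_lit 139971746973791591358) (ZL.cons (nat_lit 13376) (nat_lit 6) (nat_lit 139860337766143988610) (ZL.cons (nat_lit 13452) (nat_lit 6) (nat_lit 139225899174188673508) (ZL.cons (nat_lit 13528) (nat_lit 6) (nat_lit 138841057834802000704) (ZL.cons (nat_lit 13604) (nat_lit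 6) (nat_lit 138566411104478869722) (ZL.cons (nat_lit 13680) (nat_lit 6) (nat_lit 138401719000639386564) (ZL.cons (nat_lit 13756) (nat_lit 3) (nat_lit 69173418808780874871) (ZL.cons (nat_lit 13832) (nat_lit 6) (nat_lit 137548799992755625720) (ZL.cons (nat_lit 13908) (nat_lit 6) (nat_lit 137223929022455229766) (ZL.cons (nat_lit 13984) (nat_lit 6) (nat_lit 137007505951439163688) (ZL.cons (nat_lit 14060) (nat_lit 6) (nat_lit 136899341672169646456) (ZL.cons (nat_lit 14136) (nat_lit 6) (nat_lit 136316760053461304044) (ZL.cons (nat_lit 14212) (nat_lit 6) (nat_lit 135943127685124728506) (ZL.cons (nat_lit 14288) (nat_lit 6) (nat_lit 135676480374131397456) (ZL.cons (nat_lit 14364) (nat_lit 6) (nat_lit 135516585127685297304) (ZL.cons (nat_lit 14440) (nat_lit 3) (nat_lit 67731651115746708447) (ZL.cons (nat_lit 14516) (nat_lit 6) (nat_lit 135143861477166254230) (ZL.cons (nat_lit 14592) (nat_lit 6) (nat_lit 134722887945687756764)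 (ZL.cons (nat_lit 14668) (nat_lit 6) (nat_lit 134407479236658246130) (ZL.cons (nat_lit 14744) (nat_lit 6) (nat_lit 134197359750234881006) (ZL.cons (nat_lit 14820) (nat_lit 6) (nat_lit 134092345886866417676) (ZL.cons (nat_lit 14896) (nat_lit 6) (nat_lit 133562143575245777382) (ZL.cons (nat_lit 14972) (nat_lit 6) (nat_lit 133199393703074344820) (ZL.cons (nat_lit 15048) (nat_lit 6) (nat_lit 132940512818614800112) (ZL.cons (nat_lit 15124) (nat_lit 6) (nat_lit 132785274715269071810) (ZL.cons (nat_lit 15200) (nat_lit 3) (nat_lit 66366771874046244445) (ZL.cons (nat_lit 15276) (nat_lit 6) (nat_lit 132459880331145006108) (ZL.cons (nat_lit 15352) (nat_lit 6) (nat_lit 132051168164661027984) (ZL.cons (nat_lit 15428) (nat_lit 6) (nat_lit 131744946117059561348) (ZL.cons (nat_lit 15504) (nat_lit 6) (nat_lit 131540946615677653462) (ZL.cons (nat_lit 15580) (nat_lit 6) (nat_lit 131438991408523805570) (ZL.cons (nat_lit 15656) (nat_lit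 6) (nat_lit 131415135070744966534) (ZL.cons (nat_lit 15732) (nat_lit 6) (nat_lit 130961799317549779132) (ZL.cons (nat_lit 15808) (nat_lit 6) (nat_lit 130609614975635766934) (ZL.cons (nat_lit 15884) (nat_lit 6) (nat_lit 130358274311111937120) (ZL.cons (nat_lit 15960) (nat_lit 6) (nat_lit 130207557705921909644) (ZL.cons (nat_lit 16036) (nat_lit 3) (nat_lit 65078666732972322336) (ZL.cons (nat_lit 16112) (nat_lit 6) (nat_lit 130426994909837542126) (ZL.cons (nat_lit 16188) (nat_lit 6) (nat_lit 129930335286048947652) (ZL.cons (nat_lit 16264) (nat_lit 6) (nat_lit 129533527357423726176) (ZL.cons (nat_lit 16340) (nat_lit 6) (nat_lit 129236224398587350800) (ZL.cons (nat_lit 16416) (nat_lit 6) (nat_lit 129038166630255401396) (ZL.cons (nat_lit 16492) (nat_lit 6) (nat_lit 128939180992241956840) (ZL.cons (nat_lit 16568) (nat_lit 6) (nat_lit 128955874790907707582) (ZL.cons (nat_lit 16644) (nat_lit 6) (nat_lit 128515742991689079034)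 (ZL.cons (nat_lit 16720) (nat_lit 6) (nat_lit 128173816446141494380) (ZL.cons (nat_lit 16796) (nat_lit 6) (nat_lit 127929796383496999414) (ZL.cons (nat_lit 16872) (nat_lit 6) (nat_lit 127783469582341632930) (ZL.cons (nat_lit 16948) (nat_lit 3) (nat_lit 63867354092152726673) (ZL.cons (nat_lit 17024) (nat_lit 6) (nat_lit 128037566361790498612) (ZL.cons (nat_lit 17100) (nat_lit 6) (nat_lit 127555372552287008832) (ZL.cons (nat_lit 17176) (nat_lit 6) (nat_lit 127170122136146017106) (ZL.cons (nat_lit 17252) (nat_lit 6) (nat_lit 126881478486790312862) (ZL.cons (nat_lit 17328) (nat_lit 6) (nat_lit 126689189391322400816) (ZL.cons (nat_lit 17404) (nat_lit 6) (nat_lit 126593086830144299304) (ZL.cons (nat_lit 17480) (nat_lit 6) (nat_lit 127174607593273820266) (ZL.cons (nat_lit 17556) (nat_lit 6) (nat_lit 126651576880581144824) (ZL.cons (nat_lit 17632) (nat_lit 6) (nat_lit 126224264454155291866) (ZL.cons (nat_lit 17708) (nat_lit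 6) (nat_lit 125892296934206180550) (ZL.cons (nat_lit 17784) (nat_lit 6) (nat_lit 125655384252027059226) (ZL.cons (nat_lit 17860) (nat_lit 6) (nat_lit 125513319396536412152) (ZL.cons (nat_lit 17936) (nat_lit 3) (nat_lit 62732989116697245112) (ZL.cons (nat_lit 18012) (nat_lit 6) (nat_lit 125803566252198151792) (ZL.cons (nat_lit 18088) (nat_lit 6) (nat_lit 125335416922583113172) (ZL.cons (nat_lit 18164) (nat_lit 6) (nat_lit 124961387392349140624) (ZL.cons (nat_lit 18240) (nat_lit 6) (nat_lit 124681150839576612228) (ZL.cons (nat_lit 18316) (nat_lit 6) (nat_lit 124494462397374755876) (ZL.cons (nat_lit 18392) (nat_lit 6) (nat_lit 124401158939920288386) (ZL.cons (nat_lit 18468) (nat_lit 6) (nat_lit 125010599686977306732) (ZL.cons (nat_lit 18544) (nat_lit 6) (nat_lit 124502802878537816010) (ZL.cons (nat_lit 18620) (nat_lit 6) (nat_lit 124087936445114657800) (ZL.cons (nat_lit 18696) (nat_lit 6) (nat_lit 123765637882057268172)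 (ZL.cons (nat_lit 18772) (nat_lit 6) (nat_lit 123535625569262004748) (ZL.cons (nat_lit 18848) (nat_lit 6) (nat_lit 123397698525096327980) (ZL.cons (nat_lit 18924) (nat_lit 3) (nat_lit 61675868115391891209) (ZL.cons (nat_lit 19000) (nat_lit 6) (nat_lit 124271984301512105990) (ZL.cons (nat_lit 19076) (nat_lit 6) (nat_lit 123725694795184797698) (ZL.cons (nat_lit 19152) (nat_lit 6) (nat_lit 123271180882937187386) (ZL.cons (nat_lit 19228) (nat_lit 6) (nat_lit 122908045416690612096) (ZL.cons (nat_lit 19304) (nat_lit 6) (nat_lit 122635971093610487440) (ZL.cons (nat_lit 19380) (nat_lit 6) (nat_lit 122454720178851403600) (ZL.cons (nat_lit 19456) (nat_lit 6) (nat_lit 122364134297827648760) (ZL.cons (nat_lit 19532) (nat_lit 6) (nat_lit 123587074703718162502) (ZL.cons (nat_lit 19608) (nat_lit 6) (nat_lit 123003413646043458508) (ZL.cons (nat_lit 19684) (nat_lit 6) (nat_lit 122510407035908030626) (ZL.cons (nat_lit 19760) (nat_lit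 6) (nat_lit 122107624090837003234) (ZL.cons (nat_lit 19836) (nat_lit 6) (nat_lit 121794712864567692916) (ZL.cons (nat_lit 19912) (nat_lit 6) (nat_lit 121571399939523747844) (ZL.cons (nat_lit 19988) (nat_lit 6) (nat_lit 121437490187906585932) (ZL.cons (nat_lit 20064) (nat_lit 3) (nat_lit 60696433300597688327) (ZL.cons (nat_lit 20140) (nat_lit 6) (nat_lit 122955272428898374760) (ZL.cons (nat_lit 20216) (nat_lit 6) (nat_lit 122335328311663092414) (ZL.cons (nat_lit 20292) (nat_lit 6) (nat_lit 121804950150180268830) (ZL.cons (nat_lit 20368) (nat_lit 6) (nat_lit 121363674507221423868) (ZL.cons (nat_lit 20444) (nat_lit 6) (nat_lit 121011115802127661448) (ZL.cons (nat_lit 20520) (nat_lit 6) (nat_lit 120746965973894530714) (ZL.cons (nat_lit 20596) (nat_lit 6) (nat_lit 120570994211992507570) (ZL.cons (nat_lit 20672) (nat_lit 6) (nat_lit 120483046754687891220) (ZL.cons (nat_lit 20748) (nat_lit 6) (nat_lit 121720855028159289394)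 (ZL.cons (nat_lit 20824) (nat_lit 6) (nat_lit 121154193807115887458) (ZL.cons (nat_lit 20900) (nat_lit 6) (nat_lit 120675546612809646794) (ZL.cons (nat_lit 20976) (nat_lit 6) (nat_lit 120284495209828066804) (ZL.cons (nat_lit 21052) (nat_lit 6) (nat_lit 119980697902770483968) (ZL.cons (nat_lit 21128) (nat_lit 6) (nat_lit 119763889237679275162) (ZL.cons (nat_lit 21204) (nat_lit 6) (nat_lit 119633879770089797580) (ZL.cons (nat_lit 21280) (nat_lit 3) (nat_lit 59795277949748195254) (ZL.cons (nat_lit 21356) (nat_lit 6) (nat_lit 121159456877128987866) (ZL.cons (nat_lit 21432) (nat_lit 6) (nat_lit 120557569384667548696) (ZL.cons (nat_lit 21508) (nat_lit 6) (nat_lit 120042639130800729680) (ZL.cons (nat_lit 21584) (nat_lit 6) (nat_lit 119614216176471753988) (ZL.cons (nat_lit 21660) (nat_lit 6) (nat_lit 119271926171526353582) (ZL.cons (nat_lit 21736) (nat_lit 6) (nat_lit 119015470027610692674) (ZL.cons (nat_lit 21812) (nat_lit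 6) (nat_lit 118844623656832029430) (ZL.cons (nat_lit 21888) (nat_lit 6) (nat_lit 118759237775953761126) (ZL.cons (nat_lit 21964) (nat_lit 6) (nat_lit 120650643316498472036) (ZL.cons (nat_lit 22040) (nat_lit 6) (nat_lit 120014555560524375358) (ZL.cons (nat_lit 22116) (nat_lit 6) (nat_lit 119464399035239519108) (ZL.cons (nat_lit 22192) (nat_lit 6) (nat_lit 118999693021349965064) (ZL.cons (nat_lit 22268) (nat_lit 6) (nat_lit 118620031465057168956) (ZL.cons (nat_lit 22344) (nat_lit 6) (nat_lit 118325082623253690478) (ZL.cons (nat_lit 22420) (nat_lit 6) (nat_lit 118114588773650575132) (ZL.cons (nat_lit 22496) (nat_lit 6) (nat_lit 117988365989583121166) (ZL.cons (nat_lit 22572) (nat_lit 3) (nat_lit 58973151989649129967) (ZL.cons (nat_lit 22648) (nat_lit 6) (nat_lit 119435491680699625190) (ZL.cons (nat_lit 22724) (nat_lit 6) (nat_lit 119789037148163160494) (ZL.cons (nat_lit 22800) (nat_lit 6) (nat_lit 120193969751894375432)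 (ZL.cons (nat_lit 22876) (nat_lit 6) (nat_lit 119524677856587601560) (ZL.cons (nat_lit 22952) (nat_lit 6) (nat_lit 118940321067790087802) (ZL.cons (nat_lit 23028) (nat_lit 6) (nat_lit 118440388782482496524) (ZL.cons (nat_lit 23104) (nat_lit 6) (nat_lit 118024444166629122064) (ZL.cons (nat_lit 23180) (nat_lit 6) (nat_lit 117692123773478247884) (ZL.cons (nat_lit 23256) (nat_lit 6) (nat_lit 117443137225987314968) (ZL.cons (nat_lit 23332) (nat_lit 6) (nat_lit 117277266963095408900) (ZL.cons (nat_lit 23408) (nat_lit 6) (nat_lit 117194368049621362006) (ZL.cons (nat_lit 23484) (nat_lit 3) (nat_lit 58725669225113491530) (ZL.cons (nat_lit 23560) (nat_lit 6) (nat_lit 117476786658194616008) (ZL.cons (nat_lit 23636) (nat_lit 6) (nat_lit 117553153518395739002) (ZL.cons (nat_lit 23712) (nat_lit 6) (nat_lit 117680505759154799622) (ZL.cons (nat_lit 23788) (nat_lit 6) (nat_lit 117858954659128771804) (ZL.cons (nat_lit 23864) (nat_lit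 6) (nat_lit 118088656144540933782) (ZL.cons (nat_lit 23940) (nat_lit 6) (nat_lit 118369810925427082586) (ZL.cons (nat_lit 24016) (nat_lit 6) (nat_lit 118702664671013235236) (ZL.cons (nat_lit 24092) (nat_lit 6) (nat_lit 119087508224378059252) (ZL.cons (nat_lit 24168) (nat_lit 6) (nat_lit 118469947296247868300) (ZL.cons (nat_lit 24244) (nat_lit 6) (nat_lit 117935814747427619514) (ZL.cons (nat_lit 24320) (nat_lit 6) (nat_lit 117484643860156207820) (ZL.cons (nat_lit 24396) (nat_lit 6) (nat_lit 117116040407444755288) (ZL.cons (nat_lit 24472) (nat_lit 6) (nat_lit 116829682308606426670) (ZL.cons (nat_lit 24548) (nat_lit 6) (nat_lit 116625319347826703032) (ZL.cons (nat_lit 24624) (nat_lit 6) (nat_lit 116502772955528204036) (ZL.cons (nat_lit 24700) (nat_lit 3) (nat_lit 58230968026169509187) (ZL.cons (nat_lit 24776) (nat_lit 6) (nat_lit 116600694684562950272) (ZL.cons (nat_lit 24852) (nat_lit 6) (nat_lit 116652354546737245160)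 (ZL.cons (nat_lit 24928) (nat_lit 6) (nat_lit 116755719410771229948) (ZL.cons (nat_lit 25004) (nat_lit 6) (nat_lit 116910879595478138218) (ZL.cons (nat_lit 25080) (nat_lit 6) (nat_lit 117117970677718393482) (ZL.cons (nat_lit 25156) (nat_lit 6) (nat_lit 117377173610864827030) (ZL.cons (nat_lit 25232) (nat_lit 6) (nat_lit 117688714882917275552) (ZL.cons (nat_lit 25308) (nat_lit 6) (nat_lit 118052866714404716914) (ZL.cons (nat_lit 25384) (nat_lit 6) (nat_lit 117485530026251790934) (ZL.cons (nat_lit 25460) (nat_lit 6) (nat_lit 117000158875467721732) (ZL.cons (nat_lit 25536) (nat_lit 6) (nat_lit 116596329151338231966) (ZL.cons (nat_lit 25612) (nat_lit 6) (nat_lit 116273687992939324996) (ZL.cons (nat_lit 25688) (nat_lit 6) (nat_lit 116031953480812205656) (ZL.cons (nat_lit 25764) (nat_lit 6) (nat_lit 115870914390625889090) (ZL.cons (nat_lit 25840) (nat_lit 6) (nat_lit 115790430008612251326) (ZL.cons (nat_lit 25916) (nat_lit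 3) (nat_lit 57900137579438091228) (ZL.cons (nat_lit 25992) (nat_lit 6) (nat_lit 115826486813082844396) (ZL.cons (nat_lit 26068) (nat_lit 6) (nat_lit 115905144679090001078) (ZL.cons (nat_lit 26144) (nat_lit 6) (nat_lit 116036317487071833516) (ZL.cons (nat_lit 26220) (nat_lit 6) (nat_lit 116220119854045024868) (ZL.cons (nat_lit 26296) (nat_lit 6) (nat_lit 116456712384019551702) (ZL.cons (nat_lit 26372) (nat_lit 6) (nat_lit 116746301808332284968) (ZL.cons (nat_lit 26448) (nat_lit 6) (nat_lit 117089141166286022202) (ZL.cons (nat_lit 26524) (nat_lit 6) (nat_lit 116570565876169275806) (ZL.cons (nat_lit 26600) (nat_lit 6) (nat_lit 116132535888527128532) (ZL.cons (nat_lit 26676) (nat_lit 6) (nat_lit 115774668458710184328) (ZL.cons (nat_lit 26752) (nat_lit 6) (nat_lit 115496650887022486636) (ZL.cons (nat_lit 26828) (nat_lit 6) (nat_lit 115298240245488774368) (ZL.cons (nat_lit 26904) (nat_lit 6) (nat_lit 115179263165587319034)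 (ZL.cons (nat_lit 26980) (nat_lit 3) (nat_lit 57569807843381433466) (ZL.cons (nat_lit 27056) (nat_lit 6) (nat_lit 115074828685432256164) (ZL.cons (nat_lit 27132) (nat_lit 6) (nat_lit 115128038343471779898) (ZL.cons (nat_lit 27208) (nat_lit 6) (nat_lit 115234504153426784230) (ZL.cons (nat_lit 27284) (nat_lit 6) (nat_lit 115394319143674899750) (ZL.cons (nat_lit 27360) (nat_lit 6) (nat_lit 115607622958382362672) (ZL.cons (nat_lit 27436) (nat_lit 6) (nat_lit 115874601979523189224) (ZL.cons (nat_lit 27512) (nat_lit 6) (nat_lit 116195489489737211202) (ZL.cons (nat_lit 27588) (nat_lit 6) (nat_lit 115724255362762386734) (ZL.cons (nat_lit 27664) (nat_lit 6) (nat_lit 115332187669432785022) (ZL.cons (nat_lit 27740) (nat_lit 6) (nat_lit 115018943826327050096) (ZL.cons (nat_lit 27816) (nat_lit 6) (nat_lit 114784250125232759476) (ZL.cons (nat_lit 27892) (nat_lit 6) (nat_lit 114627901493983908440) (ZL.cons (nat_lit 27968) (nat_lit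 6) (nat_lit 114549761317271638768) (ZL.cons (nat_lit 28044) (nat_lit 3) (nat_lit 57198361687565125900) (ZL.cons (nat_lit 28120) (nat_lit 6) (nat_lit 114423721378963113594) (ZL.cons (nat_lit 28196) (nat_lit 6) (nat_lit 114504738980950484978) (ZL.cons (nat_lit 28272) (nat_lit 6) (nat_lit 114639846973171772392) (ZL.cons (nat_lit 28348) (nat_lit 6) (nat_lit 114829163411154159482) (ZL.cons (nat_lit 28424) (nat_lit 6) (nat_lit 115072853717027922122) (ZL.cons (nat_lit 28500) (nat_lit 6) (nat_lit 115371130824070037386) (ZL.cons (nat_lit 28576) (nat_lit 6) (nat_lit 114945858991407758480) (ZL.cons (nat_lit 28652) (nat_lit 6) (nat_lit 114598414884789366046) (ZL.cons (nat_lit 28728) (nat_lit 6) (nat_lit 114328494912277038192) (ZL.cons (nat_lit 28804) (nat_lit 6) (nat_lit 114135863221467608804) (ZL.cons (nat_lit 28880) (nat_lit 6) (nat_lit 114020351493407943430) (ZL.cons (nat_lit 28956) (nat_lit 3) (nat_lit 56990929397760062930)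 (ZL.cons (nat_lit 29032) (nat_lit 6) (nat_lit 113791578362973654792) (ZL.cons (nat_lit 29108) (nat_lit 6) (nat_lit 113846384310754364236) (ZL.cons (nat_lit 29184) (nat_lit 6) (nat_lit 113956044095008018702) (ZL.cons (nat_lit 29260) (nat_lit 6) (nat_lit 114120653534963577686) (ZL.cons (nat_lit 29336) (nat_lit 6) (nat_lit 114340356464112264494) (ZL.cons (nat_lit 29412) (nat_lit 6) (nat_lit 114615344855887315846) (ZL.cons (nat_lit 29488) (nat_lit 6) (nat_lit 114234696609936246218) (ZL.cons (nat_lit 29564) (nat_lit 6) (nat_lit 113930576373911260856) (ZL.cons (nat_lit 29640) (nat_lit 6) (nat_lit 113702718411683794234) (ZL.cons (nat_lit 29716) (nat_lit 6) (nat_lit 113550923624063550508) (ZL.cons (nat_lit 29792) (nat_lit 6) (nat_lit 113475059374828337236) (ZL.cons (nat_lit 29868) (nat_lit 3) (nat_lit 56615528468764133531) (ZL.cons (nat_lit 29944) (nat_lit 6) (nat_lit 113258864881476114712) (ZL.cons (nat_lit 30020) (nat_lit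 6) (nat_lit 113342313011523107238) (ZL.cons (nat_lit 30096) (nat_lit 6) (nat_lit 113481474243511033274) (ZL.cons (nat_lit 30172) (nat_lit 6) (nat_lit 113676470174632891976) (ZL.cons (nat_lit 30248) (nat_lit 6) (nat_lit 113927471189682867496) (ZL.cons (nat_lit 30324) (nat_lit 6) (nat_lit 113590146814325204940) (ZL.cons (nat_lit 30400) (nat_lit 6) (nat_lit 113328088588585080810) (ZL.cons (nat_lit 30476) (nat_lit 6) (nat_lit 113141067529546799850) (ZL.cons (nat_lit 30552) (nat_lit 6) (nat_lit 113028920220751008226) (ZL.cons (nat_lit 30628) (nat_lit 3) (nat_lit 56495774334701806262) (ZL.cons (nat_lit 30704) (nat_lit 6) (nat_lit 112741667326624134054) (ZL.cons (nat_lit 30780) (nat_lit 6) (nat_lit 112798117452838264786) (ZL.cons (nat_lit 30856) (nat_lit 6) (nat_lit 112911067030619528882) (ZL.cons (nat_lit 30932) (nat_lit 6) (nat_lit 113080614753773754636) (ZL.cons (nat_lit 31008) (nat_lit 6) (nat_lit 113306908770796902050)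 (ZL.cons (nat_lit 31084) (nat_lit 6) (nat_lit 113011646405724100726) (ZL.cons (nat_lit 31160) (nat_lit 6) (nat_lit 112790425083173162258) (ZL.cons (nat_lit 31236) (nat_lit 6) (nat_lit 112643051502959333400) (ZL.cons (nat_lit 31312) (nat_lit 6) (nat_lit 112569396892051359346) (ZL.cons (nat_lit 31388) (nat_lit 3) (nat_lit 56147169863002431139) (ZL.cons (nat_lit 31464) (nat_lit 6) (nat_lit 112322981908271145360) (ZL.cons (nat_lit 31540) (nat_lit 6) (nat_lit 112408933482219547662) (ZL.cons (nat_lit 31616) (nat_lit 6) (nat_lit 112552269551167111476) (ZL.cons (nat_lit 31692) (nat_lit 6) (nat_lit 112753115360222625942) (ZL.cons (nat_lit 31768) (nat_lit 6) (nat_lit 112498689898339010280) (ZL.cons (nat_lit 31844) (nat_lit 6) (nat_lit 112317116054612523914) (ZL.cons (nat_lit 31920) (nat_lit 6) (nat_lit 112208235172286512626) (ZL.cons (nat_lit 31996) (nat_lit 3) (nat_lit 56085976056362967137) (ZL.cons (nat_lit 32072) (nat_lit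 6) (nat_lit 111916491210841059246) (ZL.cons (nat_lit 32148) (nat_lit 6) (nat_lit 111974634840841613898) (ZL.cons (nat_lit 32224) (nat_lit 6) (nat_lit 112090972905956315918) (ZL.cons (nat_lit 32300) (nat_lit 6) (nat_lit 112265607060805168444) (ZL.cons (nat_lit 32376) (nat_lit 6) (nat_lit 112050829077746004884) (ZL.cons (nat_lit 32452) (nat_lit 6) (nat_lit 111907747931907336088) (ZL.cons (nat_lit 32528) (nat_lit 6) (nat_lit 111836238600928720502) (ZL.cons (nat_lit 32604) (nat_lit 3) (nat_lit 55789145087250854158) (ZL.cons (nat_lit 32680) (nat_lit 6) (nat_lit 111607791622235979886) (ZL.cons (nat_lit 32756) (nat_lit 6) (nat_lit 111696321743402834256) (ZL.cons (nat_lit 32832) (nat_lit 6) (nat_lit 111843957894418824988) (ZL.cons (nat_lit 32908) (nat_lit 6) (nat_lit 111667672609247478998) (ZL.cons (nat_lit 32984) (nat_lit 6) (nat_lit 111561963014756205904) (ZL.cons (nat_lit 33060) (nat_lit 3) (nat_lit 55763368371669084335)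 (ZL.cons (nat_lit 33136) (nat_lit 6) (nat_lit 111308083283784446526) (ZL.cons (nat_lit 33212) (nat_lit 6) (nat_lit 111367971222685017814) (ZL.cons (nat_lit 33288) (nat_lit 6) (nat_lit 111487799429753160896) (ZL.cons (nat_lit 33364) (nat_lit 6) (nat_lit 111348885695929210608) (ZL.cons (nat_lit 33440) (nat_lit 6) (nat_lit 111279459160998515866) (ZL.cons (nat_lit 33516) (nat_lit 3) (nat_lit 55537623972207290219) (ZL.cons (nat_lit 33592) (nat_lit 6) (nat_lit 111105634435580880156) (ZL.cons (nat_lit 33668) (nat_lit 6) (nat_lit 111196820460382740156) (ZL.cons (nat_lit 33744) (nat_lit 6) (nat_lit 111094189786119368220) (ZL.cons (nat_lit 33820) (nat_lit 3) (nat_lit 55529994761303355356) (ZL.cons (nat_lit 33896) (nat_lit 6) (nat_lit 110909082155771592420) (ZL.cons (nat_lit 33972) (nat_lit 6) (nat_lit 110970766732839180850) (ZL.cons (nat_lit 34048) (nat_lit 6) (nat_lit 110903362329993846148) (ZL.cons (nat_lit 34124) (nat_lit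 3) (nat_lit 55389071319273320818) (ZL.cons (nat_lit 34200) (nat_lit 6) (nat_lit 110809440724447930348) (ZL.cons (nat_lit 34276) (nat_lit 3) (nat_lit 55388118292557626577) (ZL.cons (nat_lit 34352) (nat_lit 6) (nat_lit 110712701470735637072) (ZL.cons (nat_lit 34428) (nat_lit 1) (nat_lit 18446744073709551617) ZL.nil))))))))))))))))))))))))))))))))))))))))))))))))))))))))))))))))))))))))))))))))))))))))))))))))))))))))))))))))))))))))))))))))))))))))))))))))))))))))))))))))))))))))))))))))))))))))))))))))))))))))))))))))))))))))))))))))))))))))))))))))))))))))))))))))))))))))))))))))))))))))))))))))))))))))))))))))))))))))))))))))))))))))))))))))))))))))))))))))))))))))))))))))))))))))))))))))))))))))))))))))))))))))))))))))))))))))))))))))))))))))))))))))))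

noncomputable def vl : XL := ⟨(nat_lit 0), (nat_lit 76), (nat_lit 62043833), (nat_lit 152), (nat_lit 131217130), (nat_lit 76), (nat_lit 62043833), (nat_lit 1), (nat_lit 5), (nat_lit 2), (nat_lit 4), (nat_lit 1), (nat_lit 4), (nat_lit 0), (nat_lit 0), (nat_lit 0)⟩

noncomputable def cp0 : Nat := (nat_lit 44621033742271431148469504126689570691502159021749252269680205930135162545956466081443660097201298232815934205906560437564504091845750353316019171752808362778472929249879703442713126348446467509851885641927330385744728886459286648085265241862054565485847844107150313083257978078493594843341972708197973153397171898812697700649588174273170800562834786356518062447060222325584852253507590605665549729044924852988085500538167154864246409087640339946393129373707767917157583617817276410942301711420896025636499038548221612595037885759336637711356172908346980315322123610342917150918854791555688294591465864787493392876989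025553256887400344851409073867802818787936037576015616480067260155073151950350200769736580463413345603678774933509942020151512139101877446924283199982782172732528783973373680616354807467407040053320829170417608530530717579790828584910876772180274293174122066980026491313165010858825195308500235271121595015494284311648121886850563010659470441929732905076083059132780606694665544690306320073069060081366941381365896879130131734890331436774348499297467135506703198953627181613685902733011684990157417125895312129743531470611113519395451281491291043110660219468340629095199933326565073162956156159886325944554225641381035316489343229848371773924322354841742500166884544456447781743673032059128138757198252331440396354484004089497721685305098405381557654929015529836730402039809791403637816229893696757630043895480133558281604537630049112547392622810159379694374091262287103475402401310681834658151388853974421685965555488201108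449659433013443756913135713176085379842525351511419434446610877226872479802791025101008352958112864626484514892729677313838606235341731736586259347467754610269550847202041212425290428779705187269798984044383020187499588763292746157164085760702262252242729153415441039314765816032477555238195630089262348346440072936469774215623069895162248814074241870969563149823487553425447526391163191767991719215561470438813976050894574803432892182420083456447876609539412966283701095298500512092119080708368902431895868640454373924016069280193038524500554785999004520057155538320809909640537344650738516381627034161920732328841719894988905646226048472728096241478519779898011869626505514666741257338874431598128438563440444361812594252743083135650780990995709571218297819182951022481186580888386281611768854407715618030999799068596861074184983464997999626498346506801330746452954357985827978262663490767297847646606694355717543205180121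598043581690867516900136555085551243640315175346488831908705264320186807485783391317393480028558105938532348745572704382263981378737147257715656555858432447164203968051253974942384302632645485779246016050562213994078196464553592732470805196027476409930398727346693570948127290639568627640463926945770220426416562184122569563050634719222828160209322748650513024015323929022939353022769361081912640135947960960023620331939949353466169567710399624397342746235507593931182611960529855249716609890308122749252580184017708115789303067984170549249355353981494958587847935813563514512578572697016257502169166070345572343380822791091267601880499175038714074758411858106915436774614977547955305215926316528684284686250098005087662777387923557688425762368756523913010525807784957257602621171590003352249745757481154980657591366428936689290197574298813547190792828602173178145189515514777627315026291248796060745256422598675863895451163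518912106839413704724268749212457541756178355582472134134140267468033672997536509395772375370306322582703961138325694721076259712545609240489214088364329317878806093550251454020049084344638091116586024350849667536905127256051478333522468978073536981266577801337485446621250218619776054619923739101470192358429497509688461493670732024514743089831935333270847315321898582255651784074632467962216455857883628609515890306383847937974230840854458254397788549327136794630696052136770086832764353513831149230058934136060366437104191578701868890413837789831591824472114319543245274816865646182785039387393016206001531532322870190386508911817062865677151032496574169844242085681348294470827928707190905484925776216128968362076213440748283748544289445613023961949872426804405726171671171266782447730696021272462604342164533278253060369979093720085769230324993930421780077642647434089441040982016771103550599402816235879673674572773752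555632964561013847442202879720700847216922436433971423724309416076614953371977633063768076984572176417380874905644586934228106490584724126308962397299060777598942227154331803403165404506822983530585630713161689403923988521257425892514749175409502316214255730823765776574147118618159856592049440806939372193050144853015654413774630061333077353930970854392357498601296539114933546172180236199415277826015771214208576614205567343899798869458731034401486391157549885396330966270039630168802769200570364894898091721963346114045067541547714913417316129371162008989697645228268246089600207390972495658486899022126618012880277307690785549636910877201385553684083891972185648647864430171389341384230736151597191532173315789512782703306964582059112781800689233783796063530632179342985077505590336500413340332151774273840988190977792080708718955754493194932269277195030557626091521651552578163781991421681981611498805263563747375657768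759475761598515013323164657678684048811128607919120312128504983565345815962812823801931951484385416616859252050665973926148598374720224567397960168053383941209890853177223786028282679203704979575135618010028683438233180916345958506488163557399693807010449994398500588152221774016639387108028370674861927878950909155424511990458203271218943671135314179492221831725227777580095834289390327285594401574783382237305087044122719853649104599828716513902683259348582317215973995314639435864272917266611177946949834765644839555287275789664268832621987958078580490147288221100981483976242932227393493880411825898387371717687962544414402699679063592178828837017451966207944204069728806476490718875043231955033646094920153826469779204758526229309284342739202330663586221088922778242467841796207315414818659244385748389035148066388415651272844266966378330884907188806214533683996426264780314826539498898770606272109794538936390729830725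408541521693536796371443673721533670409976356343285643194120850148280900378044659863618039368056901473063226754198242295419454439492332826942819432922304675421431034935119327973511465850268030845634611175661617920326255242950621823997796625922586223626704499848307355194712102801295282735143030220404783114751162966560648266131475768427453818728299543916828844908056166714846147089153560798621507539546011756484486097443349681803589884729553835654555906926918733150177144312118278024129427789690602024816809279910323355340170498283067449670447672549330260836012710764577287897870140336811699736329030118378354927787306293747665756765908825577883678529791404913380434883017126608196351696712207584605455947293622863071868929276207695000015066942248949099317528037923781206949596712489991512552335033491953926554286118890807555789107425077496958392516499087364871856577030776744044523573423012870397233663334470640015426291728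129579726187785437194940052797723225308346699783664619467135077732251630421909810380009427120335908822001214712717909999368670665490795436498395997481690909771126321562592511541459814144986396607316133730948092701037990429885517342589162825569590860748259417173435343324207632966043835401980080938394001856877036303851990668782253141312562324565231705545576997728572512281621153601059473221288724321802436707087740061965097976693042760135601736236979290942986679199747042176584359805367903076468393870438643921452627097121803999385088621323687862190056704669901646688761495673854734567773962650055072366642274085305319671409829124355557936295514822750362756948825105396415740803615388873097404418400631996590911116199981421908235192871694343822299561359528121750753978486365822193189917921774233167761508727333011486202707462390496668346545391749456612697300180560053300640509559785776948730768386122413278460839709736983010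487500355217921528314935705570223107440325462802863456328375162610306859339384692098533731893581235846711070989178194429014565726779098763808126129584300974190941667022747331210949669166045044336218391186907295443866548642760804577082322522542628391728032745375513040766724500370325574278724376814166681023978515083665985943016325025628628058885500675201373833948723841688898496153310806756649041785134975763120730852164399360293625678452686182614393003943267916189570883511484124775250020412796111143300045836559154083039760078525457391706400836331715764867567669649130816320233835141672989210030031937920904308607123780434249578925742070443975391167719895711475980964723435960838016922154688463031611233366976656856949020269750877014729782306384447416206174471448448842815612640158334627915307550057108160888858375904959681820128096895733212937642777699341742504248734544004904935242579251507931425499869077147653564557122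125333260552413119536964409066430579394473010537848981761755809787973899138293550666012622019757968278606329932074336074900131182356223599755739924580272196584686254249226105697343800757380650317561972297308998994051956413018670382842657986950010309734567223782135755584770834919680190426404153487083199961664260496935683198885022718047510456763528683258983203571921943123291127520264484431095294632505052555787954178808766140767802632987694054065864110998505515929887150109378554215942934645169424159714394004019558467244898274660264118123667049988877603881319909892053693807715005392818203021112386294228488433439988957703787059824763261005565544577640235713525711701814027997205145545131059419691845219347254670547048552102441841563369676146283169349841764699387962251278810576314585514230788702532541022667763854835254958628843496330422087315151576532686470189287621354482694163383571239798079038628871636769029306011217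9424633889974599135779238343693686824622050397919015091923195583159732108121165518812687572881451478851249004854358498392487632924845662346637407084127253738189944921043266050709794022949859187748292866189577718138523352107871909947342274954474857293936302775687486553809594711248446668296701227451018403734874013873327539378203663157645996654992655335244722302275936440072299777575810631993074881295012318533412403578022766662933867688550870054916814692024539031146387487607570586177908217146306465234594512778928635607252992)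

noncomputable def cp1 : Nat := (nat_lit 546322690907526342096821101973079321996626016119642703032095510607633424809704481534203990300661374348790211787715859072740856034391683602689601514648972413230683345709777181524709810787594665717210321246772046375671816203164805042686207850660684474112700072235623571308330877646570833463199535095321353729654903563637266534456909451638725529220432317648702147862060623256859357247114202906884910066362768124769114845479135336115178920144781651773678356999369189956920749133130101625961448594305293818132704924830824117338935941566312231502941112956386369474514867023612589833801855404993856053134805086895440731540137085207282705394129915532594676797595103723576387193303764416903042558037417348379090831844126590923954425821810044601558725441442204296592817826530417343305596317493921851673191176607157798214211145296611812613995444780315991368992792686514990152753188597461426068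864209131508161093813958644979819687024530896523740611108008740665914653920394894607609394811261491670463829843188113761379731571799344178438502709815791979166536002368128225542922465509900058913204845828057985568019974315318495330080513423285238605116700456685281933793521710085857667606203796519528066921684745185555808566865431281691755511476762385898979850107694798550431223787565261081137173549709570121717423854265288569073827010072092261241880963044916639802891646754887451960392946579040875001066335292412455730267549081508556465497719696883733017240679851315177508533449398941022620981315901240352895548149106437842040152937679440731585320844409564865990534361816419969153158030946313674753034146550220093785134675594687438977193233046797205959812457083982786038356285228868813503028674932695330185567005823872673482219188217406221940975866566785818241446747052156540896886362447501287322960160041099255319879943503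025905896885200971831534397432960102191193293022728507233099895975343315102923047731056983642288074743655053075721338799206009649854000518529794283733108038323033469607889742090442402017219838878940843814974075187347068009942997529529285525595213851685782075017799218739877418164503985055803675786902255756586592770125521700730215241366269956668646932930593353063797185119991096484927104177136002677142889039219138000456837415153779938796590851709656880464483410583354118602875507841929390751509254783975452395558174191897650538702483288782311047123975447614427354363399519429734189136644087014745068711590753510829500434919559460470184575546007122491813414278017847035283206262794802365014323400351992366994245222192657488411618198184605989599995376423675648462566208307063270814273713726440564180450905290526351813857005538954276503064482499981964316222027454221495970746499000115022974496214244808574264985329711083748552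133255250080925778780807812080221088132707752280349130006301505497056210725011566248873293637542859931864135558306927627026539595914489274497965400766718869235655382303514438063092820945901989778506488769356472058558641454453730458110040710850135041120566744038609083092427326582678669224471527352538339098396869030414451375217972657717714330152499142262337738008775953906095406504238860121982828824339726838999754681692661637681518334056457808238007710404765303328885475310280919809624399228545464023099032099233868885605568700361145780799805385829424993684408622811425806920063166136698128585678173033184399196780986853197037279557318158943073954521976437339660351538222452692620587940562749276690153883925688685669641839273310982637502629837498778879339196592223604230284417153631096227123774595115163867438584463716402476236075913978281824120940917139098677976268849928886913291739282447602695074037619745065084298128379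654173553513202529534058960164876853287190610118949889052196714833080960560951262073106547046696586133183203038990268166139652706541408581448768832583866479485570373817706986065159758598623013528225424643439925069408290803674759943685473925228436650085612611637450573081939663422025527414320773419600373624381930843246557989626469419554935641191079660965786410060272095650714311353492317685870669306810919845680354482394264960669875253821478440901919978016228655597305285447526288798485021974184939110140289338464175265555425048833208123812913597481270031179920895054908771693388482829273917056094799735419630341584720135690489038380140618691941234404661046763856942812791908728157855465530227697936281692276895595643681932994207113948414785760661011379476140365221064398352683209611140737020808252288525935445241644427025250681998047926114542842163709518767651127259530831920726390799273086730019745973261730666365966540889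593648038187073637053921778140600908558176701906524513331842922221385269142905333793819672565844751234225847984284769795248210940717028471586471167698285698586465782971299856010844855395803452967921304750488315147055215576157859412582035402444192968521427595026523885988791584568973154060167071530501009108480220003500914016748751755655176926282570158206923143570458469637924493007729706683956545361346474480034503641516606424833723946956991003247756671474706504611593246295443724164283290621935808811098985631291936792168566022939061289602108930659337151335761806409815187545963530348957062690873309162827008004055422342405321994109931846416769816463209061601615467311749189136214433973088709561137948114041239591441080608276665469328284481662753991703876734693097916658336772239978249943572474011936221236417541182277473438373395549635799020005148074694654574865313699478331500834450490745241505271694246221265386812697834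158987958833922512505827889100655653695212191317569682192344544117733012195571260219092251747437813956551476895533408948061033820073098491797120007911609576665115148373527823718617711972747825696749177445912106698105019236323386442704254402522082460093922337121099478059401362898170817344452807589942024943732712277968912813518523730749203140875418422543363389458004780770713940479851881107178994474718834276241929386546068069048599191645526028350096379203078856277922138868990040177621113656397413534511148047980362690078414171063361169612903459659015505732466338229528876157933782697050025741803262287312370842354282421461985386451170174627008129654791788851180164036252528199302922636353294850006023896194161861600212520211771266368954906653687113325913150908406298599912080506798101855358173282711349392507046868974969829017413349777014502718762965183373629960092068959257257415544378368796663272067356529280429711226192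882401052814042202397276164875703639793143851279055143603475167618773336317504697752747431907439189935543797238245828001794080526740690402456944680188176625792579614775655926925029184101394370263714560374822807708105612970535113791498998136803748510723680483880419840140705498623769252937866833038259961205427825336902681477296917010606112134077249898103585745268616789494388335315388719513101056793251055475306019558584222762080553932866522391626199190154133090347262404877926866848200263195037974530492713055849249102345119008584195142275038998845138214512287227706148406001895089189228382956488151496745769324610552150913480202049480416781974460121946762973601351731701552707877747419531017295127251293666684767330758048592002852839211964138454969035301835792104689793220370885810411208979757045478548357041678983881117623782544983862158972924254944297395819400909184577045515011271593072357484013833605486578856741935185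990968471814319707200428411626030116620427217526345218708013362286885736712553172027944889462256620010625127520725452259838778808645530447070805208722686406364653438104540597801331092284274092930094085547744003063584566210006836556915516596561597136151018042758300609489985228369751080496282752674641419005285833831878640550116940324321445709064126410819504828201735765891602652911329233923385280049591071829209945447288754414480273231431756283317004770730368374810810898960895932907416740192022687597670711584570174538752261599641717444574340582882472951265709871446444165680688678750989508510146945987183089625226626575964680675162863894869491551432992311543842629942793386167008632477217527426961873850917339015988509617393605396486448333249244753707140762832519453541248473425534874241622869397853336754939430406607245210394992454570258673151121038514441170546372931263632893038447013617381497550657533391237098876302428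635601586309678271694209193646735082744257286918093826316563512339114932714748697982525951563942299193785007708270381123851079932117777571718783071611967275645256703460521631281853521790384396805178312765283988383817221637510258099118255140318548040406036071136980820125769002491243374196026064507928493498401759550781406742194650645202221728237132281977561971500511697207385784823320073028444472725882033961716746126613844428984357306797504881539553911485955450566032835859272940143249579012977771904366859711941011924458294323180350355818730478476142727525884527146599167915539453058785197804397806491166202079696340078850719981801175068041867925597011178489013211466736957651103037278541972200641766644960680809953043498721220964156714729290131132315012197836930340137257385846531124323975453485723705725271500482924573210421662768027707430591946270864945385412793138452099038450785024652493077291614777773997893840195257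106329559072348077112270112970832427545648360596137854865719158580607761933536785146954409595436455746022429162632331775363522367034103262099960761951653304596472621328946038440380034612322716545467870922365732935766610500166052125170885815948361197953503244134738714629602215443083172111083523427530461560821138192287930838101953627431964605852390255165225168653053981462768311511948096579121865705550958977374185231801769337293241859366426331895704996870716930416586836275553687957894887180758106185269210668257513708850897072380738653087615381133773005287688062843557257704386404910834097883061207480079695074441274749226662803223426882656448797269939702388638615136370472828912358053691927248575155584592040294814473568640875743395051020295493187170339695609896951183124055646951693382408653312886414893551271165940585625022041303613053729518272172550692302257174652703810511488480847975685008983334358255308385602946622367191906404979616391962640485134866077368048484601329137926856779486819737888636479181683267733215046284925763264265829105858871585348678242694951777178099220527944016992227188161859008013744479899583021691220924457467447818836921285955358113467537287792295936)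

noncomputable def rc0 : Nat := (nat_lit 438459682281740258309113261667457287167789281130192200457623513554789838311427154613748817468891498700052415267933442194329830020801737617449513852137228201805283969342460187884504905831183211946102187220883496045642926003443933351069054853547749322013837356395509816263479922694797889115693430148087517571532797989055683104213147932144436120612694386475050178628789719614191048732101555010114623367572062498298453067974801896421469260445288966928834674039497399398969766093949405698052585792863462130236838590810482074538140183271460291761038713136668734158615035256658522703136724732119789176508538616263060021387494994502665598265112374349061780940404850213125914384047692074968292326531803163915816446179299155585920332830190876859220293192952631627958582337144291565554413871345112330795380387495869309409975449776725680779403765651285951135430903713457422258614945576893618654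742086176857895542097561958226582652135060526120565049541183923199522935486770759309799225999149671623750783596714959146407316759886874371820789660815839055566737053000969951594968012458465770032463903272085774269788514628163296885343556932388717377009782222901238708372718664059477152541650801390785899558080876346604907373401301238419193580295648522375576704489621448825271862562820349778217583331728616918665982175615692903357630948063338501072085116197799046823834296279792675858585255324528979786363434330027738616271313084126640376317540724285015522032231361120145091332205158457577786260247249864004073819106699607092936141770413509145308025123333183020396030427159116318835784875442191228693967738656398708404266631811516914717286866425726305928277469202135301045966636152864749584316868847528192314083469068697557075951582903711731633740206574777765407633195271932843761569867792495093996520804497363385162336240932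543204354986032251004486372191186390447349443371847904431715416939143106574902234419691210496439661350091227927363763799182692679304458974557562020346013364674852492746645647954151134507828523819300001966668602245917346564769896301705541444498238330366038048189760486988532476338907369754026264938732536178284277484901319443033686472525703276162102591760645763636471719693578289758411202980977056408616527771154862113432326293938437605302597544590792592386106957844902546473149670720932925045654745102864836460445030306721032467905120285948610696170186851021608096883869631734894699830214736844730764996677429454971366122459901724982270485044562805920633168135267153799054632973950174236162978843140589072126814511216961338982374158010245759737785105593357554316101570657036678275649965561620968105130419061130189004592851283628950651263162839253534975043121972239078973851444608336399098400565542978733240323841176876301644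478397966964694297560206773038224934090674011155855037839856506762033977150460120587903996390805185479254005539760266221003665201908879718414924850832189045959062363174330754148683599330384334026873387620773005088558155585246338401350270624446107395378280812870038556558714557102187243951342556230797292693014256711480919567969570412372634760303837693255439752443999003248180468874923066369919930568170582690039142527566278802566383489136771155065722303689760929975458730418959723221051672457162346503770028654604012195615017352740981715891489331371031369050549328754757998120725358574455329456667755410299836775699044939756261886410087454606319731802297803862885143005081454953613689660411865269564321471089326021445135592219222584030581991798298026437925942054548247487737027767057100910121210509155326933188571720719340781130490319961520679917247146550846553714691249102828473366392687125442168996804706429538584413546490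784723518639357137517830884768305743034897883313436108860725676864096713903874419681760218453687369684074767787932443501665368187432274449908086691654791915531330671255713037086301358731581288485871366950611560194591831196260205943910290111387413332235019950631450632118498187818786769250122622931904080178676653714824257817279551372809891101916525890051876652058360131419143246747959374097064082508776422422682813670441459381671171834790477059872406666841853151675348125548876493090630179653592658783025216712748900635075548277224391662035115775455730179071849893947307915856113743208664045510369939962068792138811049823686327000131874616365677882629068880559638804216915259450947814190974365804440280812064889346768487524174634136647954649932244252976856518534585667341985178364185317310064036890498491449825300236338028336637856455072080484758658476008073711834146646606858699176560721084960135181070322233490083606899659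603168793335431596701260524034605853222663984922610723772168442094589154079344016666994261259115212573338370052468458494655873276117652174133188947856598381623299131203317994191448114500506013413331653612284479707334103776511785757648144123223408875130919295476392781296923529881243983910816098717632737775146098934376577441829385220398309777954082113904135420475388192545605751573771950911099348748046815051048649015647081598656232791276484004464300952350813938694017568061171557454601836699966399199400931729743892766292007105545827496339680971652993968833657684427136406962801899961931065326440330622380766017736832959146013259179016444136081054364807558678543708938706153801277977055765432052375568478343126216395805981986233307278557720334669005087644926207142074161185388468185965725561722721090606207625134202583662180444530508483864057083750877431813618158453758167979128648147824368536169887674362334293422322600952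276951795820758806591027558921029862302275723500174250885744413921928354114647963115377642954790277655599883459858234943811708606763152380164135375531346713333388444523947371120115734984216332471077486350741345750198945231207384686501451998972537825983754561317270792646731029191641394561734942057946848186044144745165566439927293775127831100134771496508923737918327861370794686415813965073917234303316142009917889233155446645023310834514805356584091767731156448547043317894201186881064726814955043293173538889136524575876040798150544446606435782926647812213912248368723504614209448799107610773556833348778786894092698391179857471476752213476783882992490004377222284380650485783894584603758899648298655621436667162854639294182234806334903863008140672583923893715429064958910404919472479342390379579766458654629538003005209815874755597716332646809148639569320588344407004146475639548800382101389789424547307212110078774961827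492982535208483982999093853527232686820396318897092595253671686450059527491901261726008855066123814924257075816020227022868937680064702839730781493192150418045653027915320331986653930984932072006014840553142391946874205111945058903603335241656118447947846585990942594959026550770182540427138931585195257556722609061084323181796138641344322026950074164352257610518540652471059542839648261664441014857910358698426565071498870783117521842863596938348658669355261786487702128672018175284082035449506865308847889729973680260381856191817214487292069749196094425454279635624979892825779822081183371084777699496038725443254856061238204359328721450386369983837513739643077594299568897924655677064810212584198604848243948930562095701376608530687222261571926426885168279345371783676846029693440567573812192098730610076704795753631750302968888367441126711655674970199599982912700186200491067124422400476551812774995029837731270799290233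285889742560630781448223490700398796937283610987977120390933183351186761964370424023692194349627339876087574476116233358653985591955659933813067788131885759940975741313098867023396703460037546418227963222275139828657009940203762802016853979760101867145206011575687270650891864380178479439419984755814119333153530730931365756092678355852877758395130594632407794891993748519285485540465990547329753168297263139794839862101618448465985151927442021645958733907602141734493219418708003509902544933688730874492404561681444246945926530996351950290870094234990149664362435584072427912222487374948997430578801558421501274846598006284661666395905595904439103298074538260288290260110685287646955983761960634934370118835973723898909811424240069318919999630986564641976051870833646955283873009687313339980373361137167830188027958621898135812911685045476559018273321873036276777139376463203598377179107073295502570569679001611716985138829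636708286572445987956013487222367626452355095007865797068024069911563064210571405743503655831659065585816277923925582304232659376778224305814594202977342048254808769439356632710504555190703000464618892693965967595470422582137809564208956688419793381389457192250613823166240876611456208296724614182213569049503362896528984455710019758850078424464851567558433255146418560400229906863271488104130101363557910753689943689561338899961088073631519205666316212410370988273679222007459227544010024756469863519863917990498277368918043580313188243028595537408670873467278362496387866861932521773239250259026226925545342526630380427184191670302505865019711927468021599725521157073661993489486216183168830765508779702722682397238086346165577070666196406162293895196234310659295661858766497686900440764521637958923987660931743585501812380406985653056883957610063473460363003078163988086910515043067789822718757313243616395503905595860920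090989711764443692798262903803851151237558685843511162499155795878679215747735567535127098119131400263062597619880507730355709967617069338384244552155975366820149916417290912484687418632343824290945903059055161747144048101069801099843246097728635188465753737045868102788162470202555342835585442737279403123133728228235398202221003195366637055299627273470081148741468307912520903052295483741520614489990417390613129843610602635041140416135017459811780297321091097659524158535645940925174484450829264988988911744017486654657780447612221386732494614021292917068191915088878489394050676610418611089378999261726440759166263482675420282674826969487987278163111142862596843676652618195660910477757016367903009763603244721584848369333356611963874672804347445688228981919728113617580521305391540839916630783240084177692486789297594026663289566372197751341717541068779520754194979123056957699547962070960749742619595115510464548696796303830016307799712799987135342135396176168539852198021977824428074073737455051951722407904914075658822294226650248739366994308663941334332636320255588184765137701656163517651233497477638379217167462387570092158369591678510672136543751453662986242359882128818176)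

noncomputable def rc1 : Nat := (nat_lit 443308134915145042410526072596778137529846701999133256361386214184701179839715771322062248043433790918110401141384454072387161138397721006207754677153000078238114362542019487110952495100678491366442114351734893855329787414734021135506146633173939958842725517941857020634490870437196969874465154024285672749938254701283323721333925683672226707649251075489499477627026899691044802275875605803667547732706596109989556533713289184119133048076032169743034445075196291218910808158991738366882048449854727257682846358063344821313878223863304590874047948327930115894673286536960575347666136679636014663153870759162477613731337713498129499174028648853037498560450205488165615969031399421459447756711538451272532617587540958628335511001546916582517901320572401653076199669271092356788424641442349090608642556234629965990210003301026975905735195902779250090390993888019355786740093042452163510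206880499668300746666138114486436323378243074903866146632782835606011792873777423950183257952872760989530503149939693955960782543688303163762164129185824774971525914261173042292211757276476601187707788060449525871790160969525512724722108135873517794904449857380347293603343910351383112642209431502251498087246343589178460044555474645331100124855136504838108784744337731533148408227194083892785871544865150659262296071434269520583315856822675188785951475738473442588096340320410962711357350211452634617667372749563967202378284424015506429553315842578225844453637225629193767932116472395556419485610196885566847912760952495975073480252701877899133965902615608363808352882977342592682941839346070432159736175371194423533927046609431415658503155795684376886802073929305072921161966220175696392478345013049700153510748115831625739499827887616682953558565241054803239277533755309791147396912829736978211632444778385021054866501854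407855600566724651111389421935097179332207033306873935397916930593859929750189040218542108787522733881698514357771308625581524233831432703019282534725525351160666223673875241638543054941145186038604108303233029236079515526775852935949936036051951677091598227592944017475157090287274268672933347938423347448118578585677252370278492964746070555202000368715584168351074728899863493042380360300209527896905217016733607543094359540464159478054954696546861587467200235927758655662582211745602381758022179716917595833816749838025931119422320369540345594670801825254462417530841660869153969910371036320552334855501832660659696287628754075032176992202205808260956389759271563247732288123670837868581103702917956445347239169555207661723474482143473071204224117921411989166957266496556734785903480630426472437185974063310785443173903578131963980028534383215160342115383802074230782533534700518231128136119237320988382586991219829442067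304772757269369498550556193501648293434909921506679333173585922630815169615188934902745573268280780783147291821851885151281487842793993346132142003972239492489907027825523038080776296705183429337875632582580299393596074226875433911831872787407327738664170288184354122983353430353011454481512206301582621627138822203173820441427559440380916158716096443971157071431188859545075360457787334157990780944443559897066305146873999724604099274984936142682687936890264338563931691082566592251607754744436298644127393779123490890758528009583013884840510559002370241682401336434433474515793828258828202271212710573929890095797475003738659451968676318579701193226937016901987670811078186351506540688632295568783456387735037298527740853858171136008667411064836366462017386822317747353008540374519425412955035446949809030301533635004192434853050494462523220929277275028840802283470189302586383356180339732371028503464777052776288252354463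563406908041629370520348455931629432596585070717015027934680775620072723536342589178599634913590906957301494270866905572588630864605683792906878858735198709724408999986474521981691927162511272550465917844748970068917631141491800262303191241996235435480284320006143429388207783329919045042406750383646631362473157426080360097771333393058112315477950233654564605287558169107335770571737310764269276668414414654159194077699894116641871686923427268493429010264388312403385061800619221881806799070423334377546495196049885249601423797251359918242267908894371375452162823330646350065513790424814893343973965065090542976508502046413506571302117312129927791837005794042076134941018579647467717910029691988341190745517630740347534177851022446956315712154906720159656726532136974671149040761134070441250231922965905140180585070176169171337156401928169861509793092100243008459989155355023631397014556525700336276819262151254298892586697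071488934864948144733853310280482791789022551004653053754569470437960287018255854674996184317541575373614173058175735637428144002289481486049039477730049894202736092401575175205838217231176615336124691265892840509262325214842325459155135471896621011770056390845658263414875704011681697801293489879315310717805212301498697175632186418192806615243544988525545717590389041006329453917110134214578183926318209910173653838253386218429194115400421345645213052834053547022327815505193379853658593382681139053860754734591146460135822243429493962393077792511297129653013491990572779131563421846845743459643757856380452783688340631041215675286813604937684262439354192711757001503903708640940112706067611635006924552895349705764006552513025552143749087739831534372549337186419710792795832653666336377540934250162345070663041487623340292721534767957530996345064331199006530121547968185699406067046778484020748079392798972688566477530158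744552398169950116702440820742958201364754647455351699095599678642885238679245250404908483272298674784923940292463045337275804090660222828123892821908514381505601433585113670458039229885684577916990929834717430388632693666433544281875236668060701082844889064003834498138644053464715741267723388502473784237773309142690655982133067842708800272478460168319001998711881733631266291263010819727840345089832141127139533047926227159143368518412905752346944280973592911507249139973576828141009193640978405497055460940475317826116256119580646827405253323121996040689926116585116093808159451454805852650597124802956230128328406607856330624087024778683741513643970869234382918051795370250124825693723757128058239863893810782315263579644417587750204091739719634125752423123942323900784172463525276022091777803065715876660189238218860786133039214951820571275868905306231900784154562985052763152172373605662359509435929423415645411610702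191516631858485763539909571645476805786752873133660811906079522338678326529431208126279849731647573898614117323517730673600501409951406769808417671949758940256303177972668511606459459464772511665349117723460140207582880777371552537618748850141693915184086219583508212765080467840539228541095184756726694429964378825751996149511925656359413871871140635164980566074252223132134682555962993606705657064931627783027626920704309017545395635523461029687003973208362500339331647220746425500382993099670731933571164601517641234081544047834529982484196151955998470644100004942861192780783140308528136079614497301306511595580767042340278467275186811349870315500658849816649632197085110325756713340840056882401369291280446950992630136096901931832426288206092746802410829970483437456599012766690601827836973252500501090040522910188321857304552637761579450779862610320554716222410288608380701107138409121749227445250650809497534933242834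162374984701885007756015130957959622069270397535294906357742224781760680172191239560559778767462610652329270274060162759039722825460216504111923965101021551528324896387945543949782856909568380853962471204924773901005734842384162217455374074328871451140409314700535641583437591716921534310844035078165057781592645584578989555843704691412396022569684213907965580433759665769707253863787339586724334480670852661268868305995609266567739959383855897481095455924532034480868509465225671289617318277324045588723854703163234911864636650701736996927760127157047522727584051336074625533701095862528303178269252611755211612501615462826685819036108468519798650262959368316592241106163536101095425885319677567988925193152866140068902763767922690891386147958657644368200272942616502193296551674502263750591014704254513019847084381435802655806685173819700444011092191126250014030123798591634646997019502542350806184448252315536685583402136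404939392490120824469638805961242516384215892406019558030543686366430255038822662759266174618954200413960032488603658256641467961056891380269837702992754055226928447795865531135851859898242001211604234009021020601245079289808427837811496156220152101067928143002726461366608216976555829593027762455573197477861139479909814368681605907212476718653839447295591095687247870727423246758169026683879442876505516974840642762075814579248343720590965575312289182856790975740400863795300659290631955305702960348125186637311007514095297081783693720786687388894290698459695932110753502366553212569085312264589717801533805031329241263076915672303730308577997144870659996729978398764230315953601619419776752275225052273776666565388228451584066949221057571200713193007480892415859391854341586373957294350516446146731209446696833530516260560045504252497515902172487593378987789269805150175533027819157256367585765194091590281209736437108818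855669368369060420115232326899457366229368159876101752783373719030319249304280399874830424108130692841517845107012899462392828840427766132875270931692258899290734510616442553067158326354562023208221623196750120499019725092420487366911636273179809758483234600527626706412324126527253936760991072901179938441937992911785100391558760216376288157288327736687699850815661075591483225405058928092321880952965442087682589645845859659815210710700623950681580901954160050441284569458072894805956579992301874605832031810000852022353702531788147189025158320335747955491459013511715168078722924718290982689833969424246683793751327658140684361192490862256255537141722175620607531933683968813154881868604278702500858276169497057386232336163716885111969860048898070772150283647492340978485820730535882375450034658752596684121347500818455305785420389961334561205499541079041907158014553700208511560429740590484024175425008334063031172990945977169003173266826122927839877751086668382861445584615426710482290638474341958641441258710790032983388147001928264417435040269298547373945929883401213546222831458461840006111524263180330850401406966535418377386213385293882281466421568641107199547335250639060992)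

noncomputable def rc2 : Nat := (nat_lit 448365754521911782398673415807431954795990485907114201825149495051841195534771059713612214185950848643942148868326913198293725923604874474957622791002565028296421356405374670154604807568421436810742395365783423632810398991428500624141652343486893111628229913331696258116479285130779038387641353396240942078074212449918202471229389909758585372276130454629723500225640409907269992033634127229220861573157350979725849542871632311377382631037763611377914646869934062437606510045639176473942636837441125737079622827934603635116251827605626477825341280605360254793081240281076771845060102672413761363819187366172048297817770124043705874119236245552502822984138009314543578643688336997417177197423290078669179865982971641518826545292750356806164698550749779872740174206446499424208003427916573641025046751698711944344694487384158835330676608917131183333033354544988525828039421642625839016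021005127349639327822998177492141355110798675000829692942127114743843964484505592093574896140744313635989775822168940434683299304322217501125133033594900805582848913098138459840444176925478520655252249225230323047795656164357823593699036199662886058649863158985653841284074720295400537630977939397484404044540734327182194062732235781769903468920628690299449538500143818407537677733204257258769090115041678950430861787595564128410031858065874160323976737603254152559133814258396930899717466390231058431620596250494680323964765036932440735711823394508103489471314161348852719428016588980341885605661181238658839876206912883662620445145409927349224045117444566697976927084063608139920726499686918032988102388850054882747734164464773951275133953693432570416227639366399104945166310744766064071095136090542210797302853279380956698820106061538858236277861883538283619307643834053755468337411394542484318565751734810122770162680063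293345054049468158142805766805300398886489993399423527692201292509548955798674579869753837682791579396283012286337880068004797021824072037720593198414567690452111316039866769575028803850779098858939618966847012584739855028830450978738397070842893613392103979268393854290305250384195302482757364166504661380864782650033491185236201517134506869505422975218038846535735365745777146252425374875530151522521636242706239229211224213100127858070839958061506179395010926211927191468306371172406908753034962538713286165449332962362768697627768504404828820984875845084028631983244265207117738946246045411791569082150316768513315112460376870189945077867590090139835229536837527619171488881156911286529620854586523761571580604977002051148305799742081947705830404148921011680728587769624295947562627885972016328245041930212283892234940209694022427324974092128949550378113106200419304989824364533008079528897311731965988283005871442916435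581663321583769532736532113434800718307490609739525728188997118757982332551210187541262960203397784506347845494937355013485005994540716929506359061246163609049947687442996278482546705476829133478158281965310363753173104930717463313736459480651333543180573737182219873938213295228966132545204406183192673007331330203612549028658955735875878700338362429679022502323852265774386145713231904580228815693054561142260112273143340575798079984034239551586603267522536412383524902271312964901971292945151661612789542158534278355430049780731783056965307328364537911125054744258186149756934831196375104626556168718057131798595199882884957677108146140661331868522082353167169116978190179615486580841748254368520633842893393660573040600604130469056933727032356010760125974419407812407717885653351893586334644687788451175203522083041279981549574428166232457619624502303580921599006535668905699530152273596717553852596214456589743190601758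249535101070403609704853404668440415323956099758597078855402465956333087969206116066050472515932313834118497531507785952776220896020869545284364035049299430588031658356996095737820351287827012015283606730485151651320518830992930023583165987669698570345134392063520477666991784184633868680030114738643331969721237649677597396744165794135475593612867700544756167780880754187892083435439547439680748572751675694790949900524193702650345024291471587816202985868706941551250228795102103441122823288622172121830769590983534482359272068637297104046602451147448336351263930157363027356990437362859120836073368957533194281276122343949146209444316499456670747710466742339974861921662533958592167075013161750413829003293782819383918025743399094606113227770119758266765327407603330722095881851624677354408046693743534374398712344181054521868918068405674162295049296938315888505421129723820889750828890631936865403918365811091869159440537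639681709219366367269003275461446287642611372502828174850578369413816109072230092851019519521090059875134318630313418733392149008865297325603082390305794039397376775708913451402283316423032191534523904200250321727167427422900746353543723705521523123743984214524600670139805076926239475960019523783332053686464876822452614943350655922685038130534244221177326589313988298948651321246130852347977837815406103039456065168727483682141925261099955685186136494564151039125146789612208867295978223051119612406810592665955691920524147766510122182930807163305447336122910688468358629807663923851923918284954463175591132909815634910841065604204563387779346531013517416772223814395189971717418829875351301088389784879858166836356695246001784655951056177805384746520412440675015657031404463332365822280144548122350308658642176837442860747652394696547471266300025824612164694916458525587652781074451004850893804988353451216020662101359074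101814736025499934723905421076622686994814362340315439158538532163061643103879600088517970360597485629862911628930137402394537962341160398146069854147609919347459886611139511758700517255559521568138930064381978662833692439734354192785460356794103004025020447814923158973705172137656749479045038805963074245446612264901411108644098360578809912383077235513889806597245536544091162963041637579800883046335265899709839976794151360065894062097157217488942536237686964749516283163760568334680394001819258571058345416881020985891674649807687472725765513244207516798189848154019682510703471901128140233289499234956989400248368060254832523973025855845672658951757621930537593604812154708448643541524667561801627566790684108122705158981662146246001582110739337359272805483488553400615468055293167837515653336289058939486277023344750367497164275836767914414332479703133150165540275209044477042600886150256878666946690141317804926845234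447403220677904363262496611078678711469116179226177299313974529879654864993336964591370953507585152459707711953565543555877705150269626391127125120672746134364389946685121796478679143075148524496597790135525090477811721468056181110764559711520529844179251505088422454781001267345637579741087563556662196150333622286273931566553576800525350267286108646022564569174474671024916281139916793936709323462546705329712494672515655725536173505343901934868641533271528731496404741296500608814170986278134782597794070082850198315641016875915040826801240375166758212692301493692392822737438797184156930883302192687318934322691171274114736004055744495748592850803992891191905790146503305065807130589094004526825777991488612883934619780919708599777275928474492039544874240798973050642034136165565361139380896198562314178774846029713059446035243707566934256119403110025790444010861607427216061054403654945085161980558487069929243862486405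697845420829025459429942527808203074279550922480924945383130108026030918466504457126788127615996510368551739545451566546408752516387035411405218614708987900431952865985953148135147961813075482094985086072665216411207986319912765131793173577014772012422139726488465520250994011505195257456578168766401264292647710145747222339182101816980255453506349932545786064488009629356730661232935568146151963323238167768416713097427265409875921798075246332810161461506578516201494018155253134673961349761928113909819080020843061525869067880571338024996021639795795997488082798903585717030214439687585094170286363434304489912513118610788409512059376093534740945342981410265872903025952395741052191418921804121616424829951780993206735052478082240376435696608052429722855225858296567087480090449412003957015290626785242961909060728511616517771088053196500642930109389669870523894357718006722105503834123642044719998951950395807194802694476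103169146826252682115349539530616315120958593790336544400469718459732289107650818184514663260025005822156528357914729239427414987321649376254734650888817626418198515547026385482097337665126992384899787130835680132664814881527459766804460259408369100082943700975489649015110428168449277573080160775228849792046508520759007060798017376669704071078699302829132316742183771226955842871393812257149225188012028272158253481985720839128871945183334033019021944394971480057475641318890096266013204915350031542319017856571219115696634475162833013547445889086112150611992716983065635549421975568784656897125739312880699250847526462443445764995443487691569748152724221169443222908188890444302697191085958156091436362837948829144754736010706631367540741208683546173606474555954727856376674334037704643764567309691733116015573737687670312193498115938893767948720208441502624008919185787817427148733919146740108852885027778635794482857866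830044194050293384652851542446462771887264273671821990275686688197940810830479117645274038365392924162858723632102071482170638577729334937157335637041979537979722855674471643155434666820191243905912216617117756097372420839018121135912038928244407801183278731132108433595973185858387982720923441023140916221683900757381838060692786498868947566144062190477308628048158713378787016412844147327687646496142799608266509151236634016695916084984185570915470608751857246182687291931596574675597836497305984774126040536781366402551699106748879747804072064347728885007542616231134154881631494474014449521700991518139294764429399300225466873800075883496481771127793931680977094734907586087656796294062820229773625085547312036698463993219512692496765376562645437453163960210264596602638468442283383034650134508367527180259316028810848096861717696164219165108393901127196696670103568223452659854876657569950850886317336851210323329177128661733074576251196587998144064839941147488707586447416178851934900221816481047867983084979598451735012067317582245554028214592122986214160994459856414975026390449085076512280296123293917680652749793066226879893140307963651488887905534873849746956376219131576320)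

noncomputable def rc3 : Nat := (nat_lit 453582684588418512686463029942931000548298918108074618673022486966897306341741395362858837066320105105213943461808351986915449206959198065839378419516342700225707668766317273164442377049174824703209687385528197521768394057726311762592215081609018814680850564327783672216188089406035849781966363127169575758585423976108267620925673656675806282521840381648968955162809333312902050246548176177073297600901125927701907896471344929885120481710466954271085237233249708756253758008856300819971286822153624411730724168936121320779812374026383843213371120610647334261417052668039612156382979959321977219054453766502881517381726096524768167996176775783944108593384537110477928689276350080528265293411443249265818943263614602858210910885764572934885205487700025788291522037068492999267783943950486854249557761393920859280979506110958460345826401296666244242672021681628100235983566614890848837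545926396403569280196700443429590303790496381753326130276239134050667618130241625174404777140838504289368563571564463166518622485558332141446526641558442112664762268636553505449822434761966074911419344256317174036051512959790716259590536973105909715868107235890561910860264941669003794190776959466445996164401739059086716167952352401951114608579623853820515743909490965826646303361070538327405139272244391762038336935130308785339957677833990573985526489378058711490190544943037673703217835671371928584839193244964588644114792271861076168452756651898603245356108564992449624693187294924902046203931505026296886013535256105913082202371721682936102736969501063572114507331423736014015568096421583975793588293740301449564720870343944720240898606344003490553861776384324671821497781448701818359693272388038231564448636012020631251938128825478253133669240474545717871572843053280333403069399560053693404489849845373570116676377442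597361077288226274449620941069326417154542624312015247812045962899871114329451585245544516601348856236160353114521692007290604933478355459167443319324131200912378356592928355729074773142201717203735121427780659892030260302919336392969631935154320323349989624234774813674964149809245502422561184834517390710424657734790137908405635450858712495242892877897366991693053229933896150982152140376953343824741979263755905087840819551214395983652429558581054310464959398029442244936423682719115215091029248374867943699900989187878360529962248298600432142011235982405805743703326927594299729808740357579916767077682794030937519970062352104281078970334624407888694064991526352575123120788476268799270137771336915058462170596085577988627533703145827296653595828743516496542426802200275487653269590204649192856862743283071702507518263698723407730047429431656351949802886934298176250338728283002940366814734182862684381204584452851811302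406202642097626008200292093289414875909884304743388955986765094230113858722725485944227128956220729825578981050371691727087694255669846933162429627146737987227675998505187968151902968001365847023087064266443080653201062292278722411889028765428795448508873814304560871809494728647297920409742254387889098564712615631924457491321867112061419461359031657094078175776965457140376490721171213655630579883588598815266579518092232853887678883147668189428671394974981136293905672053048164374264061308281491037467117736870368751152153846632182633343242014010882079635201672053039472482288389804456868178180956064555877474207001741801875496831637772202850572988786696887112819882093765401004602644824667136755732436357791132775695945272934142010828704315686231678922000621195333103335105621784076088242262294679401046586921630092544635470862449109093792837510752103329263975519779704143696859297838787391881175373079257333952728214897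844784648973479829514770765483980117196551621637920319720829512382528081676761858452583704125590573349382734222661590013810555879957198820221943574926059054032237915204325081170598999445109427016561721159303963666265006473364165485146577334334501150498176764173521387524706295321206105917941361486346636409286040975490365396584574152925809317388671750988739924794199659788910246028116938601395400831591350813168003551019357005183538078193576637517730250657362573179844355210257117467294994370279780205709917567143378086920509393205477985240242875511988408948937574078613857796881266600705859553976750737139849153439459711874415577372764339796280852239400361554428897924572308462789114990723109954160788292596513357068197166861490626489796153651902077583347546313826715919416385049854396153715900900915794693643970789408007328435751181373988503692914636754356003539481867103855726964915301410079371240836000311231724655685030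136944725171471894360891224335368690740250327218164154487686744122071563614432417756857519048234424587397853230468178371587342112476232728276225367954281937799446611121983649387886942458636555797212297667377327637666165758970419930653577499106284958937981605876914488355511646209737698977974446078544892570407393126427459455504164261914479305289698865036847175521039496186446089041273820698610170525768844407669174932084688298517961742033436393628960307550964533005029471600936174503171643192075397826971570902166619543211580455243735304949260195300694648654808777954907440834811454885303330329768064154566157042145311838721382138361910889241396039260787918821676623744702669720795630683807203322722329988925835346930261717310541113117511961761110230158728215481445129958565131132410421656156500573448729638790105794556850441398412929140772566355879432081464082382366894912336545240879356778938760090441250513471295050892117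349989105537125093244301238306542887733173440603632145369677669227408100245943821690730954541687513382408747502218999738646878916909049146824641711528954085793255147594649174378884235481887237431460916841654446103425373963159962966556162205199767752276332777361199031157537177641507202581251496329974092747412562927145339386835933528453767161815674065115621247702693782552134291916785351897740103651741343725228463167778630918488711802632959408042160140450422221722723806020508475219299420022349386719102302706399910300727845216248888063935681774677185802567204226567237832364989992236439505181604224951916571018317681670362463583423102568489268629515915053133805380091197967895199259924999032783215187426837441317015111616302910362216670642374701117758812377761364721387804673910710335079860964478060332939666716848797953549894847157928373913852057583116059983448186624188989143531793213237961610494677271849376388872103922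679202963142691506334226514156608239434518843560775133571775796323289303245480060341597178788932345470789305081113836459500251540206822471413653307871096002699096858096064050185280949747942340256344567037674661759012980044655869563565248282848677281392884257730338677352416295840191384601678079455333138882000084878262491235194050046460181487653262156906018561980461838457817834719430083318572239056709325164180138982654000639749004221388043896021739119618082369674401423902877743504944012230572175052678937104741172416567606245515236340982701831195004634335063199217516140574694684447941406871554567746141157659488488059199649375271961668496513383778416930182407538941115650089831396999877443904449917421045353902475660462467608204965354478988014838242774414125023746838844861116723607230342997590588365059413432542344547604904880439162883976561573960634008175481553878246627759025535128789425696504683749862195904495931840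993359398043869392973654755572990325293160316880804101050134511572475470084881820327661443195355863375528720418530945590980961775879835597742907851383916358224863671949223181899460059527263920083668111924542708921435822013560279656830830013873886452793923519823715244469750522594244676321940927767378835083308203477552519067066448156774440179519140612892092674318728029327843376018941406820691357535770048061504968196144160035482285615312395964191685944614019475915324117254575834537804000649094231171386582807815683987834634027855991461410165253990028672026751940247919399636799266743466316289849869243197038572736868233386168287879561245555220523810478085147205963229842317563385671650941651945603341920388698621654162984501506777633552268189708988394648972964375942163973292690632210126856566505952685301835827349003702639155480336099684311092977512696931724303621519833423837925286818105041475871223036398288669584794865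008176105304046628987468490072942649223358602690322335102210095827757745324856947128029977210850685788756003159195486566849688533223269599818506089384833755151830992018289318456237398450439243354883353030304608214914879537016788071584137950947292938527960017540914115118975443128236875864766780412396294141663124281343945245434121646338514393152716909480520663902590356411722241104384595077827521007400185420776613718838163197371366817295551684647484173560781242009434206168146011705950333331945903654975053462756777953587910015302728401167268836598949385284651349175651390169165135163007732501868873671346621674351741807896321624383566444980363355142445770906524906973241683263969569897860203469017198525675416095148494762173346776265219813979588681849323867464839768553133144103811911842293172492469217434072625805598739625078657410433421420713740249564513697936827372022773703558915712021178095719551914519922066320269608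417185025581220738996942878160528800696322274492227038531001164782096873337660011322539835600306838001802824462421885473334902001823636165970174581311066764449431262533766470369223542397380260646423685012756559931833806779860577997366321802295177020938107245109678167632898071057641552232593927017235816127848921351264165811219667113380656984544907194729440887620006129289349724921121033006423648997121475703103811018777927045930553383387226848539775367737044851030800175085351848121957047181382466813038735595091084300578997787151798076632262208620576091927874709292369119659275939307738983881727611841288985808292986664944696442815305009229483785300901192219276455700048901741063362208454160973602407780577577253786423738397772226087974910565750587025870461740280926676464687602525492536913099951262984794057550843727787146911159833391518904252705782789465612877077081730116498886513082756469320285799207006368947200146244287649614270616485660044195438246482575208921018280995198053746721838225309590539021358472217899371203888041784661810784976236208285620955486490843280617628811742924864842418208505870862005352149799205564297364986955395280184337394297394283301153767197792796672)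

noncomputable def rc4 : Nat := (nat_lit 458938374509445509961750914399289918032336029641815558140755327327044096275169024511187597810838587495253487962833506775522927184227398600103593710607730748337629567563439488243316259343746049004856708667444254360785011241421498182816769144381603111849250671764783945999433733239187699756223350124963330747541707632656518427656127366969830037141317422081377784700276210923215891178941439741992566584360226683336511562030266086361769315628044891492410641807884751512851443911588030107307087671230223005021961866683458462436811810775938114986047635994043196686754380352024574644825605415426565129685615142507661238576703945601579312207541034968635285925106504549153468304645552876384491536158778334691383451120318610310672766695020391526467859659718912223784149077108344960468588694382686033161516373338228708921223259300534895706209252602414246827109624208257889036187623561788287816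674294658642736096975518547444293121476901439624599872380585584757866571280195616120032130040770739963082109388986947247661129866649112829008869025398346391773926401640434736733985497234276048023616535219759506583221662696084517043912054793200805246214480782644952969376645836140932316678235598474484007473511629636704152611193268924798062120469851037169519990765581073765456096223689090017892064647599212470862285800202803849633053378059171999156931367618258361013377957545671731706405310092990334562874226252281330759904911877291638397966151237993164498830458250983720086061961442392415277248602132986390351512688221232442873463119810295956159216401330151959712141780747574380642823658098717317058347545034853866776183543191198979469306433150204789997174756078190794240522790512696884265923596409828501954714998349305605433813703750379013738024827986276468491609942702874354978320157014215008061353396051926684138049291548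459780841618146736260057892436764772768599882671584768526107022138558360781454959991396265618424801464071299972619041685662058493573412146532555636392067552311735952309900417004715545992554346096287746356084168170709792201823025454293778312437215752880975424715854771849120515931479061964110636746968540481887205160695852150171847393593811785406485600811897741860834819001738534145644296261249216361234711729896109883027958692520396506260908848335745576678908123620964696542423592708985917342176032341390320008865698964661502205539214062062124114746774674447695853703032916268217010746127402432956220469851040185557516262493196589256882383134696317086778934635398319314393610228967339830151201025064271848384255194545761073165664085801618024053112526476426865136211876149387715177043037450389311761698317372993017567526609208068357028386961462136274639109997449002760060328988736378332773871184313082156093825501697928766482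553638879252044304290797867292389577122888867353867250309004229237387218279856976397280795700610336387568350206010898915393215752491750219071118613697104877269006987551924150356453651338490425385639301687631426340741000878688921034972235014747887309962750560749343340478335270438415792121434319421909746015300309376415252890809536468979187930366389129893116973682296278728211153220726297071365715336389778237877153708628804220251648987736927720247561561158683555166750991845517021129804200057650048482631225456227561085366398254998151240483535405204176701574691003085273655297105627415467663127523535923082734933730705499510663740764391798851664454865446822804531514770639869834830200480397402522158042018458109740713325085337896477549534582625457177453450253590142965571589905537674303423295016571973466616843797466007943438280106879798991582651688896242791269918507362432087623616606290254980792777163438371762668319889125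739703581864440433327024877738580839473787573555973322531453589599296821830737483667708558189182836822966771680804639437594064289392170434526439862647239083101937960115643716270580047037767032218977842490113977459661376836369593090783655505244503286505947042298017507867043975952514770275952187615248077123713516476685871369214631943760844043533441908545333871544551592573930509147269950810981124787552378519824807301534329003559940593757134666048921217391790597979655143562704075598414823661850393790927413012515151296871364705146230604569033989900684130745629185956714933227715532469326488918478145419371023618241688263507140250954599198216216467241415844118408464018412846571772880151089451446646486848682991788644531324698483851954607011497545286813569363449408261727883677377940160671384942459826850456432245922445755496718439652124955887695425727679063544981700799356432430988505194531892994404029734435417431655759419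612623063163528002094361068859962941199590227650205054298715907296070721230227108043125351961860756496985672450534747397636301373333055797547542451863177593210901724258582017272825934315164079000231800224761004260137377379163072891566393363816181830449279094227078361533487796547775512550817346647920179737940716210639484082744205437700892027357496003878907821696518428040732193292452653751946389005161288889043388918322304333960359742340394933477497103863517078242799621542048740142651232258355231565592904876055032691085954228628817519636475907918076035495287646720210044963751556606087634057161417064332003570223123921224096826699165731977559209524636612190246806810268469153228212062447505487616167681700957601448601976837425994243387888337886222803072508789257824912832092734365567158761955416152451085062285131674385997528789129341581660133505706449385396963517493235410580709032961952793649257422400987354293919118524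190202636010301506867121340547809845723110900823003293954252697704096204873500132566909151436924630448721550536763194778446054488334915681727167287029509979141757248230077997624587867860004330676436901194358412519561575312289069944790587206784844510220144948509353710950224566066855266083727162644925089061041797590402155408748940968352906222468381101303305910501570354070012340600147619145456455776015597999852377020976682765426516061027094249383358668863416984238256630941275354348502732036106916528976870657525156234273384849373537050573246063771693552455661622890658960922862036207967257483825540354400673957549727695459511097908591890465713358265003918574016878795656994406704149418698994244107049903918053421428032299463589137434985177049271086556821573721063291690353241845612303962663687497193365388275955349911035566454073990036846338962492306742101059476339306862158445544977606472409037436977607527054570398207737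595477967386021291329591990008470803158729113156337789978114437260630539899752246497732902164573816512862332721205015643293078971665441447461313095699241286581931826057773658240020129504269050659335429904498636092437949086575575843476904700014204951555578692859075953604518571046155948425056726621138011528129591015142718937461806180581591741267717560972551105166821573910842789681469243547380879828486413512190010245515244006532452420989841893769176093983615375593719807390213049887094437478563024083313975264122585359172845597066486125550636324950046841588528695719155053954512875937289969444248933158861251385813443861390368340861336147092533355927809140774595887508158942399222878897353922995238515148805434120780357917146793316447420670555122428773047325394406166502935576147035746268412893194647666010911893990608378938942103194942047609468174940093801015832114938195308002614942601314268989205863164381776246986070509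591046696783570296451230841961421739874877300222137209296276344824303430932229865005871894950194012287830191420032242985852429782172082346589532917026180560402961020675036523900170136933710805333787573780939679044196186472419230199633145672622915951538522589476361734222220521510043456806769970583543333854234858770155124222759106883110170343639195139567562554385376668131677652300355992914282883556685774756081710290369906594480299075366033480991270138098916414165354943510592125019651070676344051142128744726071106279228881138064536338604987229761693879330710169750075931478867792122933616072492347961172213877317677196626488321471763880050631493107603832803948781669710818003114979055580595321695287008813714078293443196669643938584103760040504387583097336325808804943027599256126402202409869182780257177487651906325755524376248049425409649774835295495307176093106679455280606271360570415832652903406123748341431161721474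409433869488680950598615125442784242071246730598324866221063338696040099780766718874878653001800926290491059571822181796458552486090577996019117804309103066640655674253324737875228501807033666478328585640835861362579695654167835091368451884942231876384857520126891355100066716658886768437297747656586742722212631628791537859399613395191590094598508085537326902511497641571214976054086041286870164635803422019279838039499159189143942942091880548827982439622610594820950593144805731743082876712094640010041687882457386298079019741935306201442100405544023180607356194360331689354699575410739015050227802266655886950001374543120041412471837066339731380081484945617658205155132113406799445688623379153956420685785732414690723635752066071642752241799232274499879371113310697259710392854483008415748099956080410876471901397020236657462402472539769243762093454806440189504705888372790703475006572825850372570175307380937054707922698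089270642010458583081536682967936519973397357232462364767390691854064889885442017230088594219778136995656674890783996258755496948672579684326881143080561794618600993871332474251716808712970630516451359827231873624240999773616359668257573989150919137345966508540142716347802410852389685698991166752643783207766685459354758131103140023567812532548363749875391758828513770000969894462916595933197339793738571525124338796000524639628501001460699589002930207268985505463103907993887948754726780064199566798054511173531568825160027435466500423590551899726691848077374460862218880602954918751030971720376831169539341721828267760320723443516639706325966526544628859073954224292081352651029415645150927089550220504195224700369385811498039653809085822838764004517603798979656186653593276930341468316941512731071734968154162814054727801637852896739635754519415500959661124149470686518771303104699021557575964605936591539575953825589138479912396971449399661250128307201870501373327054834760083433853230276522251052527302213999856849903088840074165099978447369145161516706966359602597869467897189248179646999860268365852667311660538237521719303853148334233846642839079602572292937860418844365946880)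

noncomputable def rc5 : Nat := (nat_lit 464410009963896981814251177131149431060263413732785362748423697316639331252729065759730612542199458279960459159445148023951877319879661380524513035949618818946171156302883746803478549391471338873501970105605236885965184443111491132239547717594078598213859123665463251535081686506246925556219907450297096318166448120714202545394956677141333332928159937010149923347248133358437968019642492089308378956262155440893401121674822394324117442527540567134556685745380535631192509272699704650308280896949884408499747443946443722827022539229908173522864033825595953411772287073613256001617359877117409956536404877347145101755853719968052583813079790780423844158228161928378970920198669849653577101690429112036902936480669932613994235688849614511360522844863090259229553609983134268048279731738468364780707071886846397076731515248015482988597997762102082249364058600910839299828155181133206839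083890835867247990864158908992556344769173665546472397761488596278069908942824455773187398448491251094584553306051584516899654419875952323830148551574946145645481356167487941026836230729418749028255485434951560963659919209851078126990180361770931938483097659632819193577987535563935541166795472136159030497621952053099618877639368460549174785234705511593897920999241906142644854534377382979498510678320257515914712128787319643069731413201219389503895005972582332058356088732175787714280872010406640658835552853744546995757556104289052700995503426823779479717205166174464226137663772424737581783254231796425081442400124914482838262594388697730317929438837289496574234325019705631608603335016804744261361066334701777848866133889522164089128084555210514908565878087726543494826067665757878723918172499893710733951957940545583098876407755757781469912935492419114991095859944314436046023418484719615667562521206571993690230869677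845496092949442371854856913313386551065466509294141502793526717512000272276171056061848006296077315430402519706228796815437497561109249875725100655351997179292173611053556065617768981708206208871277613788792557915771166095533140222275692143716845510445778205324811046136743047488762893673335448270618759175192115332820607557272393513283023436774939967397128226851055118775934474075228937295445307524417102686568766686902560259856194869578246272135990116382049548653073599433652978225795224911189876925702613926615796430813435260874078020235459973858425110200296731422335527432717027864207551636696891155863396365025265614743882031357055078071719928033877190372333730738683475771802060917310104752532701767316048584711475094834242230898532603994927044812375508248971305704041918983818905871238598284017265878081633379026926683672141604539477070602447381912725987136823491134121086290620240669920674945516545212607158653696541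777711480674733382021166886434021575380979852802839612057918323760988450500442514579975283232233346700714907425479921091446972316996996508494822103104955139214912232221007348555362835301938240280760507332895935097395761972310506900217137060935670159007531069610572239693480544823798549794433699233578222110495088042007947576950248324899098198433948533777688397005606088990429676826340588361118740247746484044165712477355704286544040455033828292011315081946493171468243134751166635177666989298389218335643429726193921503381461040987459237576872871552869037292374062263216097384361321325162170327065571981614424669003878208395145527952389838385805533893809741107081872013690808804380847369092610480868901812654172080860199919909361947236195957475481459201451977908916541092210846617864359131414418818045915218571037598037400958671234588028350161727116866924341304265811845415306122881675489015910340117066840834024034292560685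486003145191919467318281277620885241065352517828136564264264289264387593003868887734885027636001703625436464638825885187034856512106621815285343330531595494245172499178870395300711287247549686251155367040153256041395466992892198572211550941164030274491583597462843102368857786067730126555707977042214342940586233276679328818437381185616254329896740963257301114116711140940632068721020849494922376939712844158653261549590281409531030466242083198149002493574083620139676839055434817349599932986407618335035137817094432396764205902577293550356079244550398043442879391819336009786390552721826541986692375055538079254177753742340579525477232543243364475742984224154161833225980985545155360169586433745053560098186368594491774542764646364368060579817916636205554755215184335215599865852681145880694447228149680700089642073637117959937842433634831153345008681597369041268344969134318628219200136826214467967684259804841526111223615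622238888496621481211020773614423651241795746286403492515213750080804402366152037625571295411716729808312716130521128186983660252798837432562274315132433486311757014369991734777858424853188011311557510593402356960896954508755755505836861611915510866511123639787149494583341123066266988355649968109111974138372034636464694584869214030143101768851009204278017577168149811012529591280359287990544120227154075137720886877861273984781675347916820501551721090373611018291715030444975373769147179752807887062110768420787081578775053461098019882354786370855067033012135436111307587828040947203201543680446930417343215302347539886205837807260692740247313888984430822169841315045380180858356461762218941235384634667754158419640357438060890747776913424353269625079131018153397331251233410132353532135574846100494783323206321574281465035343659282850264790851195535502312861963525839208034748218819011243351365444352523664953122465850363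305054961230384603998534840805645187239840456872574998044869179960880056499753547440827114051745648467784870125586769701316799310869970518575049345776986354515100691157197053818571546530453834525071435834648196781722620214987001736312375444755564606883027679157975069054292282385574104129310837923554476478378764525295678783550073171273819873595658262887232378159779374439636636326044508905452900837489135376786979459520036814485418063354125936052925538503191416997462730951360314025279608470585317007255857182542450312468983399240811916416111000515106497636628363568329783634910322873392047417640274082960598162550749185207410070361856323688299522167192952721153555141135601341497933203096125928496022073651575177153436962270003241544179830157542446554957671264555822557564225969218834147730441579395414164263324256069848441028509683224375948952052084139272728442981393785542493926589532273289449503333686714688876984216954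090951579977279761886085143791700697474479492212798117199790435060221024851576137987434737480977308811910820565847824880318319651248306192894420538722072344775891862596991613609959484208762300427047627565776476012759696780385100253616579702868837777599734994341523269001029850975284519625972209916765215531012905519230038510909480021257771203926915875473588517379575078166403896904138587088373848574072626126722299880957739725441009991545828235281775178241337413785996320414791256979892349864820607543952675628117084638935791955874267313133082013637936096075875951451479403119038665300825532964255040590598490263088686583534800702339569820023407173237596345655040104810760781199726748202795871346260603128230697184276884466877277316555878856435621836095862658472143763904598960783212472791836367630016351099813961615919767591843819607787585445035969461793746978046131923856336558484621047630043083729779256587420295237459304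443051867526961639851776001615017043829829612486975250669037991649236246158700890137784673154425352318507789413229850234177349835335567900764571875526454618595008138895525858719100415888020631114015355326285613552996552478244252266997914841359430510576706336272208572702631284466040224018027077611811291689210715500060929899151452465894413042091766610181847600347804294436986328506313169814441791791676652783717523813837349203029120622651466211147479207937822011875859967096319808876216399228159283311070279693862217324052138231375453746080509948362614331117690070188302383011638289743036074376980203508302472336985417080229973071850554621341460825145021119448247223919377032174757856616271059169796646776781234508232747367849053083842534867653011878438653471583561841658417962623567053609920850530677631443973883369553834814640495063154527463340535076941983729244326374488763756448067809300073316712552502220421991809417698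989417483687078254018164787484794642002152950021222197362505439702696752691069376608766834230739047886946481404612591013841581689676513915940051972936509713665254661531310413090084008805109890452420694698611557727918085909555708249152189803507127189375660806020074016393505464879195777838101038743836364667476739770935388964123041612881432562642341336583091675174098114491942715543789220375147440871848081846871926479956314555822142130600819090177751186863128567901295465823326882782369672198809231003337866546588195038852924438427289363672062200599848964935091970126841857308353721350490241960145271982737253446642756330201550125417216056861491261157289398503534942945209385801635769562747775099809209393177483854887621984715159502909445699066785511784546267777687438997007960516462391078554580427541590604088529142816470407436359827396004339221791701155495060597858484444864852083375022518204680443950970685238776005939690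648964784116296858603860911977343111982765315615989174486083327315302821649806887370932757762946169121683559310205051593323144948372871359560770324682468423882509379686969859464899465378597728038835381486805099106028884807691345176079405467056745587234291540832986863274360756522959942127219966340589246906373167093430769924396011347454007330191267421866319317239735373485500519643576241759904533323382426180911117277193533444398084024413831654440943538063774392688429287332718597346224587754965025337819459950087960035684235955603307265496869081122646566916715068093883595211156218077434156059482905166890736760612502726813360452281011982140285786228598038300400069300650778962291369937003902053642616209739752591005499562485833234502234952428841669758887766384879061269195560284080595776454591988680972385502864364869349438850875371788992083614608495606543155406458113890932859001942943948762297098224113940202886029538300847280133528559101087051463486359598976706557224009722572382244210956046603907506319942923088728443101893385367410970577575189446314309296966905238370233564229398543926686931435187303234343997916731658270872850456280605288759302128483807222856630884743858094080)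

noncomputable def rc6 : Nat := (nat_lit 469975967075753272725034752399581232892443934614570905676856462677868787061451855449796822181880970281036131479977970334896299791309736597602140121035262742720263547707332591932025886066372706062046808100365348318415757386841432471551901172781373148057858558613709051615367235477037192814881059076560262005998634063891333221295075980523180943503755078388657741318015868510672991374075608604508972958826176265643142461559810861731361625865416600040949677187724617238174668495090496124535417921463100547606876818681467069561368470889897287214020382439489285702477001717019566193746258892796620546914215662696027765996490433902969531224848187156315327975935496893774824633528760590601920918555694792557196896812954050837089460658362558422489793954985543344246249967555245405900353859482406800164336084686894318025266594405620231897487567829533739452372317627758967984834442819595045336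571943398422629447423129788853181219897547418393862237880982165278342361971137235984292168008814814729127034715470371194873327924764414388491285531647695159489151908021070462837036550620522454415499703612906809496528344718706855391138445213841161688204582221164574753788027273790712037458580242299862753620654324691120674104458102909614190463730488127478313750891032413605299830738303795530086743824766353912731181000833262656406559665938097946305508991171572957801013058308450129016035458579600210950597095911118677586090302376465611171355347696267302498749505593744922197835799992295011547575227933980800548809288191434418667056290356049911370739494654033051274148316689051286032386606324844248948861812276422244072740696260385076017839734870223594435276791055797838258143602410515423489369047867944014349891748867676793611548842192774945025640656402452630264934905016225773896757713410490802054723455845946679909645651749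930528746314661276073735280099611231018685425163399895988330168441085946271771682132838479290255931425161305475194737455989725382222854924848296262961649755286610698970548034862983216854783547025472033475069426862246665090426407853566179888701930218268876466564544433068528313924624296293355279580891825214889275271920372421222478536570844172677304519917647777274235601566368056458621012204798227175296313734470847102630819931243169641537593098683468038332587909500371240174846333790655643703982416250526047694574921279862877785305499335554376775387399761998722036857880461941818109573952957872244041293555988148447614230579956004493988950200366572262402612336318024152325880729148187036868003600051790264423117703038481458667166580483200951791315218031823902553831338330033015658395054058304999839248705737138891836051524432276856053317694988368278268806554360362071222211109131952777604898458619028718246322790317325043671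332372256254594579602669921900112082082865207909102320267797816821511882942180697768126676703609106384551201728132156753297891590903707740595828319140466252334961506105324765432851411843669124342220056037284037388836632265345676202083990316220591058585658271801211085149491784255659547300307214513741597423001662012934254066706836100106940065423954775571292789472665562747135760616662290409149574168719509307254797324912873916099436529381789718719234549214474897200286411292850746951167084180715378001776692953428684938231894713728971995560262981317208460125236143414962958188097581976462965973375972489451115687968160119310168470960978988410154799760285013366512566519395656087892600720686193074447847489264596024505084192889430312424549515984974209983417658702155460011907231321335260483333644257586274861757653080331450974965190453980247909901328446434585288145624753482779171907118624296908329565244960321852201943227074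455095066784377830100460507516666305343878160711046032723789312786352383036450204307543491625614670199903497494935728654712915456325017683468799988667637031586399942050707546072232022355193646378906662153539203798789451710529281706005039975248345897912044346980503313026812377168651451316060475803094927751285214169071028505332142211280640477637258550140321644213153765308872391766235551233776893531383776583559090073426065888481687051346816257008197706277564193023165375419840271503609726498450255503649114140601119821248294732714869555072971877408620649141102309006706536759334822619819576266337560913561637132792830280701648485411049709435447915626957291614505437013417993586515035930316163442337055740275498813845117394500459976848120497052823937279733741262686279629808940369867504759329768268915144743477391463902549171212866773420124454828098803783612913697273842604882212518894024460735617988009054274798467827658593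009431021597192437662798252100841972630745038689924284008022600176645268734317933666552426528872027372029515249128506820432480064094132497915093853277932505202482437780172732839253516040312803062832048569379063855793190117253633928134410240490189411632076217202543975151825535960535592101824992724244824566570907524501763139668559757643128508539453107337345651352348519480768980711433442751605695502475327313678342678708710227003368396424915166776545498654073723118290295381382348539168392452899795191636946903130853221636894334244461401154444352866391908178148600757010516992652591796335445772096495410723233421665044170454634230725696761594511184814319944705968254713903732544575896447910918320029773600426568285416983619898455914283834174713197167976559627253779234030990055261923481926895422598913026433409942590654879858586654601205156158299960639450918599788195963043901000861000931287921753028904456716562135016907958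421697534939264819294891276148818924487244431251246782620573595928525042097171945732753877394283954593710418111832872723316191507755442643659815123773297015547163292140438785635768666241905103992446683246591078271254370288972814338972372203703798677151077833535506883653050013853571790289182360790667641025954203307440131313498901512659750137986285755374972621287769776602571306374242493513036380372922752444958621507094952736646401919707036483028015726259384395865385150348336000809246369271845661635528895447862502122991693038880167321972108633061141027762797300539051900184001181780544246600554250890067403300531306216478386877148810339678556977162633220553480570228044200310190452827647698008054021653597406986939004914884495521496956249863082415207776333694246335142862659314648239353442623876809385535621764076394320320795812125741876569393771186555931481733864616361831555823616135442835085196740745404803730317152409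689290662872895222051859691329562787664543430380832858167154773081374066862436313813293750062566935223444491657162890769511222119323721126332266739086161320210004399273024815242674795887321700346109332694757831109121366495313012853606623898688335779007418759228279095247255037574143329147487673552765731400818911536667740122822136746383304750663847417901177315280798469784630772213884616812529115327237639762285657387045324827950280425420183359176007823292765035280037967771146257690271492733218103025244730769084405644404880806645132533703446198848442247896695963190710399057309067271109594815178026675636074918023856216410152772211513286933390832858430268024674151695103388438004286848411381164527804623264633476826511792396237216508288586730313704114112728312671563352604038321182808434062575593489397648124946102047880563775808696389213617959578447562169307015034276637833925286989197166616080855876873945760027424983448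158400570787478100963259039947459605614951123788047977182574408442274269349348887561133844883491574350413462302367869896346959871733428380761080563942192543492533030494465623842928356302060772261946254586958833214118885206935326307000307965706701549650317646550724563202650628166290247077204487923130568744488569865086006102716065034868955898002345796722467669795550156070696492961202808649635654670864240633145134254452068094449063740405578191625253082867249028020023513780461248100026994770222437141892944420185302188697707855692216964706047632054947850227657226193736416261891447990278539392500809458212443977491899203319719503455092615211696498949803722779182453542633176829037728645938107940414849323881968390005039003856363721301693797984177233212352929218079254053419787514603108178107644601491683343283796156268175681649137379091825666077366901285300207393662903357599231280698307651495208973631540618750372677312958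430531721006847732000515503011767830743728109534459995222111554805919652121640168627816280735520844424673082543747905509255318894433648338476673585418419284046765290160913524929505510930761290582818808818230235985109757295104206813584947162892984623676596936687310459558461058692274824198993615905035698897925471111768449395869412947732504842788874126430620442386945137124043829568627254874192651585683960085151567620893087504923461317071277144114584781022690115416760640989632710165479410253159067734553336925581021928029116688732057064657152184808782946410692706794287977778977011256500575621315487343076003797768651201176724302342740358976566214423391837913444349139220268344267925114537701846945430978450078174893072293954243959200142558870897067802798452954066903985631409983208092844040589417369016836984782774483681142680180285509767418838603528703839680356823090585749326867540532829953382421667533042783844768921689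413767777127253570372311917696674936122414099127159109365672576876907244661146983099570838009477135228937470759143363752038115624360509904819836873017606215004885343879918831793916517411107653694539852766101179143776522620843190318384873691342393548989488891708143891255207439273618040794118645213417146939909640048521038898892935092714857685060530395773848428294113824459805435287956006071139554591425405010229365995313542813251217384892600468308798342564199490952822636295969636602311665801595343566823614584500409643624188817031034935519217055952292049509103875121341248007826847277475345075342429920138388247363452395565462624923516314280259729268304853934846506959562983272554948359215325485811817468731434291218386552647991393170986077339386963264316999693560300091412659903441271551932799645568413665597634047312814017491384348188415860436233581630033099376132409554241517255038601896905169163192357114520097479990012841707125990804833077684554858828306902342886166400307562709310874602071043973005788928352476171370235875341492655084352226896080862867289780367831340867808679516956488374388533075317480054011788563122936239854232445114274355650555508979217671351252573271097344)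

noncomputable def rc7 : Nat := (nat_lit 475616250351070411305001162103894509565100739842402465729120955803487218409002710893487093613799407233666636724153014106463656486647617989332005435581261684609077748339525634233502085927640458930801036297833731039379246342736365125661496240394945330565005839359970879072377471956801103728074877119498564166978929347600443035561302765018035929848249600576247848480563035242805670669673807348709674760497535305209158130628902475459366012509006286424747949305133666865272522059903522874952116368169342177431379928510705189631754889480300570013086128798328360961946251062494709448507274278029015112724670786793474498174549070413754827456223048361781033610271076134048025507745405070288347131980453897852065751178848765522916852905582822462543893786755159263486217110945577654957765879487870077110864132712799897224924049203202434667078556588548019167397511751666642778632662025976660943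501494966577278087422220031526749474883326284365995243082703445387459095171553233673381826070527757846132228655113561777397272145839569928180675342013461059948274860779227113333564057038229883423945405819186038069549024808610457611717210888788093599808457988682445044051947653727962308260729305976008130114478974059245216998390420018419409490777077034698065544253747249267752983952726223154964956688526762747030283933628108590542360238084767711894465089391281508872641264857211624674946815492390274676221535317853483185093650542473381753534948939162850174709038575007594806469555390554139556927007927216954600539936211924845434356700363610550842855315939193935539631491874882371183577283856754628735084756220745766403632699611541942808456494747059763647118794743061930993894167648284809226538099525911309346773394311322416872643797577287321621680726728152821018714348886987018835331171137042398650124922023472287201546995492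084720543644334532937108843872345522500493695763529104581799783337839491300687288130254141245140830598893167172801907895691690287816073170739465316356368726808393187026709651954752511091316320942303548414536164449994286785576980559093863904031337481457874210468781660951970053871935795661292700924168243626222654864379088639396420102482355786465764063629883925761045523458422974317364745714047489109707671734658304660971659457046157699547195253992472470288058549224686439814647656615352854033613386737815678085990360781838416824305113946362164820245783995764537137736942766849541127895282449161211171566433095912307572026888442039741010066734612948069246908657403350145105909510410058856634594261802484408068084766346160706269924128060635880100394898557664638303708070937345721146437201090313899213291302333184347680389684369102685232151112039951472639320980896151496450717831883591180673183788867655711244879041949207572071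596842888344500393709479776170342148437199891211116752624498865657810395193247091745437407398341217404220480851626844595740712064831196115925557734481898525386716499262755041965057039124466744299319306270007229329794491682421055238864160475699356838170455704342981378154139283274305086746322834273498249889969834742737262879895615054617946109265374790670682215784601154109952949345577124064931891328582950797276714006156912351021591951037825336258542380637232745277017082067085260483213278301130337028346298063273060400799960902016141395007931958398454554651612621523994912863995929369779390359265763666076068017823783599948992131487222835064427552025657207973243310602423731966943894434964010424879748193688339017994993471513392105561567316579620178862511491540638337339671694436151310959879571486764872987253230782738936749404206853259823953964307331841979103937100518273030080592250727242975135592934977427719556162359930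454915913095707307728075740426439905083022941953255154185742472694428001563874623199854822665648829664631834935071425800746458753911479350725343504486656610158102634430949101670479928007859962682132796184653618734444461786091914790138780799188884607251860661589308697273775292566782508029194454080837662778470847265109412142514182941380148033318427023654119246180288822419471457642243281903561083629701265552600115155755120906143715113066041546769409639913522076811901406044466057071245683029085026947422329801309052698246917469366507908534946577264801544624943647016323877723382734376364039938582771511722009990363554256625415116859447520811708048091320964005727001302518780443547388182705764070021362843209376130099674163904143851940507367486682402939638253522537059175969217404916187203958980424073339224547371856920438985413544081787292060473297879573042277003344873467954230195316392563797846738752235730899922766132962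620118182503720960470777472530145052988305557189632062006529866660237110493403399838031478912012984850896260794932305609629356510498966166913662909105182825845836204242889176093940089568824833304866942375903683200039890755810633842742337887183483960900842614230380423213910336371537097350794196850409873747401452638765545651629089676693758592199599202392748151198145201639095755169214315666560538440581532813384323691436184702015303846582993415151970809039630610029718266479016747618970055499791603933961362986460379676629867313386648090676779203220216563823717255250155353376941487153807747028693538654878627101076154941624734588640469625027548576702929009965579362349239902566167952903657685195378719537320953942456467146557743559871027046567541285556425242757658708262903917569071743359337206622724056659277065997662230635540117428170839172012411869837596792387623270491225646277800195136259258102591477117915963357434942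976436242701765001645901450118056243113808591658506726528471640005357941069763222791619226386629357412860565017482715017441727659502491670009507460568037422042857815168693563124743244636989150763388792101507604114616592113209140799045477671097497587308112828114752315168698658353374972542369380778467396025092527864954732362212044606221480496548829000887665578327736489825904310208524220247207843532800067490757894494130644498228376325062754237877276153288474425461674070990932122449582140975817110985373393485910301487353520000181931034638515346978357151402003502567064481841598909548963336438015552692322898807870297847488532989211967307443810280266985169034462137332295153814883077656917743699171154217407458865591628489886355077665521932521575156104710083003872386195395006921828850558652401088391420013451958532377368595136027509567359031323312022640240209200331954854525389036088226285796570161024261868540046933720485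529095913642361515258582750930861077776491201388772200719122635894546227914569577635841202640227384814623843181264796461197649497455920975905789493828868429934957465759502699388494129262706867472391872885634905859423572828859125088845028022355696189668029163133439371336959167611865350758162003789056226475987772805093601850955387025722013649658958970389271412689516898543011383431419728679931386279009395613138176358526146956107999427340696850036080974530938878887782235610977847454426561225179429953974406065416613577282478132778911353521057728834063691735908298331310823917564085563795764321864377453464818477408543623902767645045615675425432655397848104078045757011447215978264262138625579680751916953395266523831663089811915833601257900623251027537700654389525152093489077713048725063205273892381667047057251466301869983039801237837454194832073907599473867627886827782233567028429360499474992898564133300271715166289199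587870699575270283832588749118247850756997063810085612778027886574974961916965859425492715118288736179577970216728559308706400414038439264683975942611697186720702916395957707681241261130662488239637093988936954024231657142896805311727821556142216096195596643796239713265367281537887706300996687719776503499862714395513385753897328364336761823635545422982448418783894676449547282760443380907305632476055177092508013417724601139883782059940158331456991409851622388190792492349983254949043886409960961162172806019380941393559185278810635020105185545188415701767247864197509141568534473434294364021025511193178591381694629967304039423197915288280419000949370900231524833882240293579218984652463205588898877993333920903219457571377982143436883104204574466631467899157661630770961477445061636170306213585932769089455923754860429138920444400360535240741729000421631470008266241308247673263696682466509846130177502024146065322659310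717602393227706246426228454281170050433869127230965868506091091043524236971508589829999682317440345452740169569956454066960243992967855021115105773784300189798066314661645044566993454800705347130022854120159230043587723234432541300003204675189952883529452656115933847024191889615804775424397034732720555173825273820598192974347832902670435235664089773078010542863543977821421572848353418862829719642439808195597126783143935386707360786118506883835272925548447162429826589444193675362349839106156904140116585487954106102992884992456770687328157427098328119864542378520011195124727489149368502900941849807374904887801492473500308161563243689083589648014576448270641639379509319965635695077063830590585587429561404173069384338974404591949324345182663691369378924644071317831272755393956550175012968261631858096454030166902946211697997240508812810834852430827997965665446345744321660711924081307199705531365352748020064879607764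214405945683260199327098829550976649245940117938244161992194151345458296812887172860778047132788721521214114856334549748979019382225423873847898534312576153277792787162942617565113706194499117790483766957026016680545619670825107718943121803109667481166505180010365411277929234758074636096349308387810235750713219806839698566734672268039625148940850208551279669510003552948852665866768154110741039959078433141286374418132715672456688443013312841938775576338377567068584655904590717043204882324020757296377627036213718094826071564810850380247294033574076536391280406595716546265494778345759036448614303261908311097218357415837513715221450016404571598817304869259739749520773472183465174851511704749356721684042729116004720055408958132491595077353922129815920543776164469691668329395183918197981634664085438112083753680936617519258676792419195648180662561559212297113004445277610708177023670674264081967303160250072126373643304335261927179264425897804730813347548493796693986829140655210001631572314735886842591713103649236103569802248830434362296224695319438403874546680185273250233045820438668578981169650261899734258612576709759093304642081220494435276557256562478537841498543401992192)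

noncomputable def rc8 : Nat := (nat_lit 481312274053149676667251694468884774033884143524151618005780550050263874241291868445082483969112137049333728531908899634472636278430238941365005318657044160825569130249262476630929780181627383588153662799495775860452884601121304338924875013634498727563529593739347967483564667902434859403753766441718961866521821368588816372198113466469604796179741394273228941769068734597447627984826657441889730647578468636253256687668547188300659565198847973628144064754943857937940429235517681175159063254055314518778056438754911499370937784811901854605637795561296054082439266514052249230306024995652977409632189205725996204290222812530181401888435692822471515422390372454454006478039204147093223171270031475530301555457849678560166209063521624655277673997858784898491085601090408248118739888651588134193955043783417409123884759985282502635504344154918545819656184453332034579473352906898176068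392752129081418428764203708332124290989322744545035204640513950172424477568869392827547501458961653965979410779532427473610472161101601574188417962193679656973258851474479076371808364681357424663373576290953388748893089904730379814468799914853982806456942938088181222210691882888774368933398507640995528455411325880257274591306575939872338011016412751374671001031770715274134494037353575577192273993038125755064831288029330749700151996553850200342511671437224232593210729421177271617770312659441622393294511252121154549172825031201665516282619044604252608870280762678228206885760210347902012137271057250361431093426275076829193562716611345889535784932060462314876138528991454009739042870079855078176435718048656535741000317071226299483033655635641327642610874983564860248615690151249275548121812662802523960835475428006060336331002423794460121308936077169498667185722494622731883951154039085540588376338758873263976330178260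246189512157449945313846027434187555437470513836981294367913998025759453906652728960049797651859814025362068059627173772899320301102161548255400111543834646498139133324689213900336224566153030685739604541326789953874377705352408607521515663448703988950614334464561833716905135224667385721519459717351554077200991094938822578925167568406256374898683389229874179432057076947420099971173831702236392150641415928137844646031986297805730771274231574031783463411279772507086300128311534600499519090127575061201054722699966030094944102404180517749965027926547860859927392273554932126370029867734830585236372503030306528755788355748639470806318441355893572994827417766164064872585873125496040454135654543332963015359552320233825413843385327604226454820984195397578960216931833089158037463418743914010286205345746954662363018711007796922255849038723435485330167193786872248100213758593364818222053291938478804570710748551739439719915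404446907810956834326187796990969907872611162612193418055890838171009103800287863431236092600789324628877766718167545135661061590500652206545753118125811428688921462035295077532784496552969034137696317624383183510724172189716455290826011525563036519300053075934424534549750950630825354634502102253091876205686605881273895705595210248283934273366404385639523855389041616406910034379945409925847721092073598878980292301595665060918275197003450777620267597129134087651877477450370016438374411475910559525342182939518343641516230748908386917837876892240356946684754743896183605475306062830044972445671649121903486311917075654861705168487358812059542107413638975879534626803822866560970791986489548423441564348053081982885044053266085417281543358052618671079229041280123849038179437517367957343631253383364604884564172094713906071340422286005584593630279721963417670615587181819152849344220304529857999759989851123630923494262159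494884429138968834933232549939861978504232752277867426584092493160662133360205370904969860128127225051402999053819497758186609309375608267633245351047246160205853597889429984778911135372243642722982749554564413107347818837924814682371993870377298974382477904340498834991255240976255687591994455168521682597106619808848217586132050379711548348045135654499868586412534709359243153061901300136475411237529868736647906172270539081764100256047537686502316803344408301038009943672735460771911313841652258317006155153873129696136728043015428366139017569036079022018026367005239040350750465218154854081841767344660985857217738308801940232070654874944256426616108826669235963604763621567898265416868559974550015314347470504560252250672265424007921617104570922721986190013320772637303432672877842263665979662079068612782946379283691808206640643648817344034195216986112853502020911972257239750916209249657683034896339808308044179667896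966661257914748520236742230491492183728336885682108440346666207313734192719866429406275372537565733127739107973869485279017620882121996720637840665544475115665263643909494077158473221385885804670424530762278843615773794788420140925353732934518987284608711800907192387300413552028296264745467198463530145653864672512896687864844130995159350193547744553308188418570775588846094094804142480183545246125986313933183333183895736097982538014505805440357622812411422963135274676237311586437404758921978799600733959742143121892943189301399332307918848626558267013602722965901643429100756940940448389879573043275167634513353682268354269624970010273634358248615362039591501770716902132707177197764243415265177731518847151574719536629083141858043734563721682664086964006614523577366189502803541712278345945420010710748750627465784324404054784181111783581781589237270060359664428310645318961500669976051295611800253450641708509423633609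754756597665207513456893440785401164313033175387496707005465231497512882255506420610092582438626626501353553615450782767469815506472776935641508517366045345853532920068954380997993572459429032617340640064257055080604115461665790406409956857646876459047386049839653440516911471494407987086551239547390134791524085515756171044531459415807337833393966911444837522017451922453929210133606495563096920923020641352099636205116076110417114395585048952139240878488049666613315564381531612198140456645244612400931902868167564676989945959425143583717759257536087411357529933828144251973459451747759103860351509837940670976131397690090348773254320901190463497722659911863788368439704401487427008730198376620386775500885154048228514195478242967201196719706119348106887553852784651053577575152592828578998630694497843353808986000477248711236269504786772411548956320605325977559733302435807760555195048989335550485907569615498311632317070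303543079492214387312082272110598137655125766836794409061922004069408707792596328934954021039257847886127670702929451038669415261658792531350402394737494225877976992128954102215002012736489761111775489365732266270630692593634211703238194577378284153915663185576741008442376405939634017363116359195071601852020997282629922052152918713812352923864778029677471928984864287953636275757222658817768362141644940925215340029146216886922709372121343195548715152022782424683657442604424964442469802871345192461736032168166214711709101884660831728317651046479782436555841034593033005744322923581481466185580049067024810136979413472007528302565815354877964184252410805188999899992064550317686356333761159768178363458920535868441002016886792445748140744947070118259017464668321090785301513865881383805554987244983134238798222699779277920952143444239765084841235930049426766886010063273745459584229451247760265119216070778394312092758834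666209430456488759875355065915874494345196175066138063466064738819459153632271794565625193177546613151345635407467586392812977845535707700603962104720803944350486745104393324840270886503226317832218003092984698164614221618093804194541763617062582575983302720797710547993489601967915237229315914691923283393370070750076780866457063461172128269111182954634137388509070513251978990701276798386903486512739971757139406071241935836400898454940699621913001877955263597221695060619470418877570272881883549588907328627844035999001409340131428342777757866250994521835265749976696404671312732725605893738888810317123407957310795843170172647114982596981912828630553481571857369376847812370337748804698356181578943308866397085158258235679619335947142826609247783305004820676136351221676785961578642370980325790311340564544932897087067244469375553775321634748488059725300634398071121733266662755719406270939653176405339139959202398790703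518439083122202418528680442188246788807749391964443228499715370871140492717059897173221365965657263157877998223479786477015867464657649137391458392441561756935709570155418180893118980623083651840029215292278970917310920272909297546527406651198424672994641535654405113083416735630268404003828478835207671383852076598211572722829206287306328625943725480858717524743770358120331532784441335801198872778865565023892509122581185487191032452385607623862816355518273106322495558019856069701109193198366908851649188346939244198983671706871900635670342258986494422948983228428235953444275514964606770671172047807990097544033285758093548871624865689345694439314146516878874595922962880621913166893800405472599161807752447978869880149717605436672791508636225003000452358774438709179141335531575647103899254853078342726569329166465976549017690916298128219868677894999469980443534780290210797673577816524239040271198866086546372634333220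763496250498173768965210914880375921630763282051423670361417685850964027472640629054404785004318461437000575610871620007923924563617488514588430442623784890658729541764079290436865341390637816901361971499446862959628195784426909658752263687534234597772153923765071610344581581987704279514027673455126275173746003803472008182092712462982848842513407567354396684410530064291221466512641249283664312546984176628518274644822949803170763312139030038205865020490934252884758888954256060559439607630638502877586302145111811556978471420391548028946668320392718473714439503503787220690260685336296820314752893708620898498293826593968322344550731833196897046074036387224279707674233661319414884123667783718304281071266235539720598469394551540819083728425838942480891735752963108322583141427468393319570983607458901936942445652969004980042733792196040321590408178904580029360062351641221495914372708107554996042151063041745091062885902156955394833861335543937697397154254321228014938147766391209957983496162881825296267370441085437734500571497258219977463384074373747452123947706604123023795365949290224336580466012765395771849547441273690989470386937668391100993921475926172995339473054307713024)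

noncomputable def rc9 : Nat := (nat_lit 487046988467233440992092109318102994437834439428421443815740580776548818351560629657758954084566786943443855929160778230079182077249597381548399031283901693929874975420565332937136183323247936334690731406709456068738556230005817052947087383483404220525453611329533645657933830481344297609698298909863326225825811485263101067633222591967877108345994627268937440121569568324643654114390724335318613444841879020491616442745851102033139525689726326931830304229445853446886683556258345523142745202026117186918147867577050948073690752815522584228728713449585156677485847665569310258192663974048210047316844300837464409226725295192972484843012645461524333184672364941786152759893051999807882508770456479088036801072593059709684889289588788347828819422642516408562866462473226324521129024961754123358952252910323091417113874660385395366254159978628660835298280763319942471408679769322471898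711564339900129612200953525018707550028891019166813882266393736991067564957182732943940800710907905472474274415417687083733827550856102064717805573899135611821091048014133925818275359174295726257688953475521741605763213194164373394511339530592543415833655825049589791773825509293145846714831729616136836772456395213502947246974542952015080049877642400234496457806333800097278679527727407738975535716970156548165742382430304053070751452373167010827661756234601707096759497892822267928745358463853360193786166881904791216409406417483112539292737874185691503711198310445543600825812057007645178194292044145885408713019479257091803463865190432843252185529008001862720129540122012843252969678982451938644632151686316000628211618418811595952860143605625814599552917945005335881898344449033851921898695864275921734969954903147196038961137024186977708451014939449741153706479901002622210395649651477088965605317402533850161283735256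781985921143856574195555437964212847969389051480530788889539651897409480548703864060461293383790542824205060003427160941228884453328761787404044166064384978567104496660535887866760463712412914394159458735899984017965750213243134259300238848806166308667034492773717059346573376888750598397870660003789947469127939678828458362407833512442712953252045377679908208439424010299516285539935486123068987243684348517543229925633136493707362878887274078738476279489884090617521608851497483452287595754609981703735249683185985154372733723778076696330049539246228466690548296104092582294446182704313654422398911359253983380568179361819403284554641154293659182188644430170561567627578399371336403527063662581780056892382439276666475083923225442299303591699067042786272781496957449581520632561257710334913210521059401217879873271515795780204171313405454612431346611039240746825261586163559741915917475612503102998682610900119416079267682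501840271597532837470344892280141377500019677860784715239079305735510090671620573131907061928744364802462027403789438340377502281765136141652967342505752975865263396482959111866860699686408058620394268177725774171397043750636407156693594101044550345024076750767730724728822227453551488180369107758892387229573905164482840408650510820657502295342022422388015354077206676484303237056876972872875171390185286683621217278262050080625286299489588449667538719880885996825190891539149469537811317131635276628732528254175008536177824510240749575340452604388223445900658730476416464158373632604376274729346090693046241761593063087683548524566828561948948896032146830808712549118861886018224212281318734842741582984474961219664509565159425702001012344161239409364412190993432543247673051665749034047442672476304826362554237415364414404674157687781508551028656147937106060186933983954948697549664168674862811285249725596470278912449975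715949792943600604098483110546471745800275084218155067678104931117135412247044400003700110482734048007775753204509243783487082245367265692287645335647627702745755125569913541476421695021432488339057665198839127680129853908125809021093723387047419139263546271294429824179008345184237692942043527973501614815613169301009013212001651978517546561966298708268317815911877430178890196461738722028538334832759450114853910987919085563276060419061983529106479081497346132642449337477643331239090243140467381121176868318228040879389644372758076658332073732773149984899241799064690271646173776704042518041437763238275994575447778189770492614599405266096298306945150996032198310785969474866517887644860116537825019404522532610029601173940801028742322646074405903805515439779165847826086075038503564305705683516117058880015328670117513304021792109503146547807712414226951803292002376117292862223726085521899941918032919815826651483550703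471823383684761562388395562691016409913014083539728428705571023080867049657205200258892878284052808685801391279807714207708857500713138374358469206263448226305690870651556666972301750656903299047483340765046951538341175829206304130166916781774662052191528353770183093940803873836690683489582627107768502866874139212998696852101121918002130392351752277186944697408150960381748922299321107020460382853661080373102683462989450998536761965992212552373890461267252834772836647805740238971546945912315404299543724790748579935641316883812207937383315577954655920695190586948214467799474360106265506858905299755728470549438254189451337174567566560953907366280369389336776018718626526197944575733770962661134454469866404091531264532319534947624168241411106520366378572109773479841473699509020528824300906774171634799456757213572060759705620965416879993331593932578178467717115581583453873625620420660440392220801325754072429358300893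580127447812209412926113565606416730096519991139519158026903666174084283355541778130745799093182663824031003014568031851259964298929936119575401556521013578063032642827947340107032248268237380303076213917507851709928201246331962371832355090781162202056828479718215668069506380660063667293656167945379285587744933884893581808210111281224040163071309623140064842204504697556679595898930157365303843417846001127187833284676838219692931844110360391478953687220585883770679359526778469726346814992070354082031481957832047062144098508829748552390800740957360870941727068635903004871404216807079092165768510070262060807168280998039191949754611421098269482258455351045192182910424448198066992150646729794160786319464239974164473985608261368886723842139298907666928218305242383548840432901236366820105688659299206598451539656574751442219359316614321405870126441930984741625456594273607137985354392991147162744628271370230283868786819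668367839440254206551146916338129906524942971190392711649483135626469615200725278158826088702787221639385008053714620641367891437204427224187827987305418719590762575506426045446603169227089974805377348995980967097283110886915849457739513108519383114681716492284545977126537678103046106430861648553485698797627648570391826694954151760831051144013436379647067164595254249115400134717620940117261282634636953041263565155558048159756414380540510022814698320139752548557484771107626514605529964789233697994006733105789188643854551091812919668769630629103025034651301312998773334891259484988702395517347405987903159262720083779420869958022781174493585624354869055417803200796558467258334170240556959362016186872694245697633820024118161790930518311342567121738459193073395728759375233333498408288291066732013202199436942638456068199086236667802039794604433846825259147586463881345154762520580439324245625656281766171562001375849612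258953442902783309570215324944559598051750218368035408854268863252203845999972102095133868474975232475311948999243871638175693145397238149772176497826685328669239947808861013627453963975881489083592749552349715059984696538483140896875689063724309024952852999810233510697460246114581313791674555400503661622695998809438115519413258443547076633163756450199585575149960977454824803579435131543853478793147977527566785531455229572167123330390781424623839810892457027824175402444907159209127081669395192312697635311721048112071062971233675303001251413093235025554850165430978833020623677810454012337007596983239231162439826540052557068058179945032797642424981093908517110429899772656901215957442862327903865514740518355002062036115898716157898049814932087674110210765421446025003555694416482219623247884691355188357704157947597237060813500498882620090299639581534130509052200014534421192155645801337349661885957131358241515873166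741764323090369198378561568145894208370829704674822268234883264577946188648676582766662820956020045668272483201871852453004656041453142984457125383859458879273277993449014595667344029002869397658275717176110033624083519034724870842965639057224934362303423854979839020907955207374011144153603526796306418579202629749528551553463718566190791839302511023844214656562477510364085741648431040600458684451407706250898342398148371168263657180799678823005060947834481770761248163609987222871348466729943045903728089698282802232719826079939379660710660053267374466271629472645239765818441875375389602692651232859572152447371200740688484653678492967143576999190122283046924767923229755313468068188000870040239146229781416874884739246608224993019967220614923255011695178833956930529270935994515333961508238283790990214388302529285860781900466032682632509614020599274281719172502765639115554797604381490065304257242694126031488948135274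782389860037850269942121333253528380049551817656450760409722542432701433198345346796607432378061183668412443514976514484597403043745606389643220744321399448555929633922169909393653762538690537747618619646224614186338752538487168374478883036177914807141043000850797957892422111512358284892812670945982882322944351940831313819062521722258516473523115517497586399405309982914406304592724657918594233478817844588665192373196516698510351315322482126432330560183951650344997551892532841103643513208588491090118368018120452832871007895594057153390374836409842099456949812433217772310028383386990379074610894693406328985371998817423560516276306989787126908515287790822588975177936433464936800640667578639205411312556973813674954474329892150457816137875573742749239204208385051934309505448599948834945908328351602930787262004671896705264167936133780760655203979711151365510132495581707141833019177950135137242072450469366033711571390749097310074163815683682897748561601573376770687055466647870377085118156225388752975513393659429525174877173242542462057419879934823789221710604616229439911302209578065878458012049420705727055046100157374506215912627836260566938424199047003903968729135069528064)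

noncomputable def rc10 : Nat := (nat_lit 49280462925876114477237893011303983281794787816412047656941742476617379757943497683504409536408587845021681538282062222495347913373165325280422256464860159878291480604689091954970162651199145203126549469638947237422977229913434261989740775677218869614442839382414870624769503446512764585749739201164974882225404709436680484196591506966404535716651927017957952860336039203959956541440689589650650967308444164474672825851546155821900348370693346960777516662707915713839481079113353953309821928316046838162939448094824222647927947975529116348525888566244358676481209581089168043755805153023665512239415772949992284138518148889147122741562416742753197844225232147934180725965627459298500354642090894163952905283660454069792108675991777003463426739043444716650361849903387204298261581644243542165278186021650824542075230477982443304818669757283127384484649372690767441417778753932568573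748511434861889785639522460522224138747945775077905576794224316086681930752306284680118670872453403486496256839110483789563120344527069608820635900207562028368861191522154505868741474636937948169883757613844668314130383059937223957622936483718983116008842932171264451064540944325085652072019066636780896284204837804086886757379697095618143333372220926925721305440537805590705362108084866679834441158527672912268440227503535153774543309894711388090488085564753795904812746635712051653097714066264516010669121616844282142129482759827507257301068848938822971436783551548407967905959802116995504322216955769912877240227884720206428326540568995925359033115282447863782521275917676278172559084401848625543930050470410031089296747221879038013065323796510542484113418687374504110423219700150693058407514721093014779180580748348398650505374447089954086882776361654917076195673891326098750192993314678087766004675495415389661680826860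660408538777563862717123407132709770935153238360903908885304746630603886519403918695415288217353301086568278768914848269092488972178618455166372746569014026556077700022507761666348608065984680422592784263293646211671759938892517858532053550196914190126936796842085330752416752048991257807857453733314533971475915165302721364038978889010974429459588726575348482791088913727374453230922621385254761755016004192025399816375492005365052730265373841671260741188337945130550251961804735377440144146197666749323596022762741960672886386017962493524566507840720309271146004839332799353847367435765953287242748412640404568344183748067840918201353660841154490460181027048973302907630005389771455756015770955703306301582705190033968509750949731659874569307816404023514372403829028054183369647572822095958273966391703298192382554749139912481866781143063992165411101858030780186786673741866539610119884775865146500521810583969483266405013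255864469977657116131326895499148953117517692668686960560705775948569798969380302338156104196451149294158754355742034361591074296163812674842097765300995309442512889869793679488087861100264032291593915252426125381226546890970869932972289053689036594981663087195945096347700309983494373154344999092429971581570032208052438750544369029587332052021446624781980394068091661925678201798679790350669661132156240613038824386560334050931437853744340121333663820230290620748541275700412207202990067047571235691952769622873022089105326465301314348713856350450948521221054139803553816434263488575905228384909452472588209879089216419560205993734324102031337910415613602837272776266274908237405865023426231240192611156331177621679608851930419934108854855743295069864271859333436862046239420253354833766454444231163307474996174556932716186300121902203260615250682032369668230137153276445668752319617565450607148010283332730113082749754356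558763511949982986636243441052794629775244031554717741190413167132312364031933835740618973633214165300295216470457684603313889739954556152905681411735114121478215570137626045094050747717291151680944891535951867837810222124268206807138622292247321268860911958753917244286695712385233191594314618552641475787529397538306918096289629200011928418528823890648568029307603694216076009694803207408488472506346514874469455873387258359119883789396160017977593959976462476764423291881722925574464117624340280008563756505019316323137977889321333033638745270089918350584815094825845384165993088849836583985391427321496387137573816651248593586225926771694788719983380670924388245424024278297925333046130256259829718733046171204486382975895092995312802760746134039251758169866252677941334705110368642704493403803036813362185329964067562810911157700983993898809875102395172373232908724308643078386937961481364307083321458452617342128629552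280038351445730798144401197271602223924406650155237995744183632119180421673553255961900411988568187156615876554156025526633255126883192757243713061012605750324042532016000757454218789701034347599158333986462823777271485704610458073570396977706096153158329692133062597570393386708867037381413895135908659715587489580689898902513426808323584700511493044643350438648435145297571758008565997320781814497798626872477034761982025632161366721037649261705070892441984478520507952702601522620767050828265286108053471318443652333343007933016532645122608166245135098076718192749082192877290519510169313290167922176371534872258859967600045161071126922976439745798773438884608798110743089690066110031999179677354325290534533455604498659596222676904732596250391513243353015244997684114319528384151573686997411797407166653585750407848270884615775843371763622501828304799102636121238729429243283199470354698106004123501247008126421234581496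417101213687312746378276414316545578881032556778499301335287396370930648556555330337889121282420606960642315577621382153717762623648563292847885329133143898762046168930105418546188981129181120975791810964113434643609372570167561769557990888224156450396529743965612961873919781802925825265124626342577714701834130047202780883103045752576283833047604635462961423737384990219780667643864264639148308902330156863937464996106296868953952717960731030180994298096792420544929184344756237281472648623216690509031521369122475101304741311274086037658713711515406538208608264962262378914729227946808375714044410375503779002774523541782705217989389599294591813528955750134563214015339044082352628250757472767046061935509193768795384027167820891064933101479268976980650730153950304286344512517592007861049080599352132376953766887465211392649756868598736353041536509849518985003817757205001840397576653499520273142686157875662805396827206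904901303006516044757257214427532782186376252219091521038568252697405915432014092006730902798363592881725490998248119119799671016401239185782951421949702483930237850468882709814805983827080592450760583687060547848344591157827669481758769497861662976351637761121531585277019420984603837632882706623361913941691098382092311936512677331321253067150140913838761643067488164971617980663122890396031979403321278724635049267688991265442390891397825848593125207934060910004008309674854706776878940999598340960080270199223771696927830146970390939346097252734592562415958342323084143147669533556709357400738837508572127689856855422104585364040360818260690483635466622977060089173231822083503000681267813364316244546833903101584608096630536515561783178651477839567677056976947744764893524901548084108982016519659785567332202759236732190012047434613634645448102520878322726070566873280566617352845702998907353910922637548209322046265480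659081368582010149920560993078392401786783353205954775376357447180068040054075965307319292674016533515363767558461330984335627664924816732037708041541025771897189931654913870107487736200613317707505232926441009583996232741205016707329650579185167126356242881983241713034638370064185606960106516701383078906169162881254629600330308365804273539816394779466706097509415636098713130057302166334615701018919885492802068462089819793992605905838394387828847952574977740074408409455748323954830072906159218473881024758179531248064557790423591775415129733482736912061474999026804377470703256479727432961000377866596891338847770829313338415251311213107913161370785711705436950439095541907338653455905667866474283928123091002254110015260384434835891313568477998911465192523066835985462176943194017963725945649606664164356333549453030136189133459853444359701226702490093631582503905194090373539121038761011783921010576848566732795486099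758927489525097779968453824023107087022822955414515792856430336067093290337246067306347129676836574963016606009230879685244540260881508390587076833597805007066069199501323207318651698603751728178356167782698539177425626536631644487749054223950041244837499825626357458250585745686239085239498371355748266983788203571440653127494762294609005616057319493692435070619965084531142050342542626598996888404076779263494312648041549362532987375469712134178023432575455766455132086573946161604644189615674026173583590179971292645541285076532234098607056990904427279459695297985341800565114581668564137264995984655322777443555658492133419825060623939822359530804176274402257392978294954721363463599875302063310693822625282597570776490202706598497899993946398080964047294219700044179654354995470273679681573823494106719994260020430960696656977830050667122175652943986511112861982299142380786463723946348782224485203100291500196226650326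0188298992382528132768625470889346634198865637695314867455057772554001206868926079792094302712873095506931280144795971158560328722036310859750127889467265272672972892971575012834136559634438941891859782340921135646694638731637841935812688868633108021831208931011965216795256824992452011215609485777996741490450465155711917384002500684277913632293655368665173411052394133019188591502335280271794676363613903572836670290031732860243919634195754894244972206001146636111138596421644770919248076069117389274538317134234257486245526615165406116413129742101660568725109269615823545609373946668290320186340200883285498807445949390851069764756096685907022789957927195131183869664862265209356775899192763230732512186808513791604595207557440968666843431851724925678622705874900514486387470509731130056602095148730279187203869431295288834584021289128033257782936124383313458301264923689031945288436031819420751762248716872775915573423761403033835557452812419893504665868725373888285098232537109982486454768886835492972218240672602514314456309838248758151737377860303267950390145406569124660860718634712934043158669380662992686483562916322202038951306464083303371260402137285882814494188917906997248)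

noncomputable def rc11 : Nat := (nat_lit 49857065280726041372427706037353524348476737075312064513912102394242688733672145774758608661171747032123770656518047516598847538460599807308216819848623718469635509366247132415837834698382599146868456108459566139491490626141160789471772342909202796442479950101129166289062654066100849514150355320330300284023337034259761321346573952504453610537464100804914679229335151001787845614978438948442181954066491940889340913062495233653966791990653089407169429595071042093035235414357031742968001781938361450228064742725531616023948409954936007870518629446896739477753098928096824586154002119540797111626081128044607522733108674553488080275311327937434349425984666517628500132928990710739535055854864910033905307848814078857195113856725071156088119837009129476942800974336541846761490898312486335449184911793679462739169132749878637869755221705174998403698392773301909143335275264254925708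386031460712464343006538507695470230936402020643774044697972606125864618418647158626127678089865625967173110225703985067618486957732865648189170151526670054286954369253253976835203815580205722240149163546058748496962388354383397827546029363553411394459866403536807131509573555462129546944448589003096969654746879214796869487116191688541537072900739321153495420120649596064457495018311949272927431053256690485075418148563690379714923072279141416105159355389465389003691722706953178398648498882697282309437437948335879807502742443620268949335602290538765812488265163677121659704869933627502215207680096501339952048049475383745549824512789016760956433078505018869447964716803792783649929356050985152895897183545916775781964183979311102755302389858324914562155056794317968819582779281553730294349354467378526050425300504943757972161051707068931768640050024501742017348938832169903797128798116655694768335517284512000892516915132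697222158690677452611106679321977662435900630727467240849510836938365995752108937168242055065124345934234781966467332504903673947373468582080166046755507388552282774373982903357229713002351893454252175655625546901245678132617984742384455134560347165990377354451726270658191005232092776365504460199142095866032890261109762502165611642750639745575618239815224330468271645530934540406721523314845278901904297341356287432952824226847338220125966015862318718727788066215477744127813151801634124350343644498321915879032617662426617305608439969453861986612584618980309168218699732425944943951281572756755993176526257312010143352524150586380405061330103657734774730743093076177540326853351564568473773380375858347348520602985646591678994753805937444549947510196410974139686269164955859486498729509697073363613724591171461911405773452047012235649993294483381154616083269402500373402024460164061127417701874963433024586754446566326534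545505155047612737365030171333469254300709592683314329593322376733528902850523628262067354593418203186709591798939830180560387652025722088415878565559860548279847891384122981232925129249757214514450226668742450479513707749576850930467520414935693149108218228763955021151944933905406310061209184390769069232662575726254401939609026246417203058163133836017643235198187682643352710441101736516685043251679437012451425316192458550908388895946540855000381945136911553190181848994193567393942225797102745749486929676036573886820189512771643903609639618019048874060055671958677375925775212883655179466451695245958530356072622791063440051925771523097547220039863162375194989465370018417240314875218148478043324321536892386184720066168077142575044337775176899197083829878595336800290584727533386289353430346907552147393523331496320626780104884535334961682661310783921171108477967459753188432658208442238588873264173427905164646724329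012433285835382431096171162375043183645243693619641958204140893040096178289811921802463441317333452895385096954145801484899773778880060660231434072613725065826983434315485629300972088427326528511679402179709028958673106069103429959247778511181433892568594433934758371760938452676118458690092909532402411728187691289873932040028845604705294927977269569259275195825032403083670669776115264897787990506499623083146214559941845217709579955780465785309430955373004814560200735402922554883538762607529156999175174322623978378454028913630020980415699951746278384265301094060326095629553326497560257955379568735715903370674694274809258413038121290609291490214680869506164927262054502939152328353415055225202968360211834010038625709688722689493244788947945457953279767708611881194945011353611239232704519155500035957862195002172294274256808070915397736535850788104661310361447903516232639678944076995128165552548451863417275853688193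426481722472808831573725129267016365668785706893203882733986123440875233977354993895669201876369728067181284370139630675210954593749167419679073732165920489285343108277001709325310957264264849923241440884732707679117253154870993230501234799115509905446292773979185419486745299485513250386107007665511449412835055105735190042249024710646017580221059446802009717330770389396667953596851035550218036914487751989353148210543806471651758025458933712432359247285599864726164041601733631422279992158527202548830866210409934852328580930616947524816876097688024317375697722076908988522163911029001597186365301291318666912471583510533162532675533102229288878398090955726614426329039450128823238928211917919657578367355888274806367679566002907937162380449193901139898661133214698977500375847304102751379079360809351035605839295974692874759187030604802064066847354907712825427159425983099048289278311019394686227066610844878968862010867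555282563739000899857765676447574981526597960730806535480267035473952535413920074804252161747797529652171051554527269894709412769148496296505913637859772889757122106215556699091830058593473948971728755907440251634732953692938692430441939177279929381017042084436270035725498558671991977133247056197520345660776350513425785814411294958969716252329298865330251068125531632985474974641878756590461714419866719609626843357440628266308415578616919522678488169415578625554405445608663325424271925862173854605788416758778574386407606823403838177012956128653955270279613976245912122639562686711450894742797411721479779806765364284687535084295397434888499755362808082442847536801826350401494525770856933608687904942035213899520119870783940121398300279479162612163183066958793142195460100630045140729458147363155965948928692719830685655952438561730381267603048256786435391791295702955777400458750196670900149904624423954308313900190166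754799355089466912904464741034700157035770084918828025231108524393566365094724152765075561315370988719578808901937337398082715864858268972142656213712397077676616460735513573977510956783625227736117717031069204109788636481570378212960628220148298436218327252512904376049271483513170690955767779196948629957736386823444816802205899949924333803452026776885647648312614209655804980098039363489064342578657274346022148615462236286510338016092000537922673353390301790712790149792838723418134274058157579481818078543885449620156151485475264948866165116029506566749606531300120082802789501981597981591401599934282111657075405044946281302418926246930022428259502704348747674360363442412064401262534662926408847950141273667780088760752209520006606688550625994398482112712101040314899433184414123274547840088523051748258993085624577454329760895609850283808057246099277264853593454617144266628014408529654808290415384032940282197673664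451283601046206713360939611155905886943133404860022697190540450860215017766716579935316310908817697465614475544385282426486682309455928458972620980566229532684837294332219067802381117265327953113144980211248564943943287723521158687621534192211691987454595946888616022524706610479092168504682185768197118257747140429585246533430844733221965172417923420447506068225101410688247875307292682899638347579572701711966228758440826042066205797584767750054626043083282057155844680045655488808172578785193605142273392303755914516111949099664989957255490511386494191981930516311036960315393964729094446974297648268375125595093356857160475200211945441102164489152320894545360768154615197201888675758434463195727922137839986672113511366707632321286209919172957783434586494986157641686804753700473548871366734584243110537019583905917324091226045107411711134154245372840916592271768876912073270140091631961794044032639868085332719934540343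385214833757111483560292507510216143322665744397757155487399657119860530054286856476051225721301471829999435677518041834938626193432835338204696919359764346558244274306448904187339373677602208293064624073827721184163796011036372177130336838579738915516480480657702797594662145971203318040032141767832072641425883119714304310390422095375122629827590871895479220800997220156110952032203030853508992786845081249350947706767722207242666648171980784342633119871078818296577196499396604427328818834767971605432111065822938746182154902966956956071987236908755244933201403059749439072606433897719826245758760100575152217935852788394930461201336002571843464511836651378962037932193397464574659501999926110651456358998238200886314249850738408892455769653131238072671593418563757680514919029704033822741432715839020822143507346943085226460894616928604475798037573045079745063529619892861672791936635131061874993068793124425094812677899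6315666130143930463969967946724390404026311057951666630290514810252125617422544944682205938050586741610596010749787050678886094660733298142264144360191963547599181436449513275976904687667823894815180167364892009330583290297057039689585304246255137565523563617911877014963777612846619544971183702931016510542538634801806357042667192401486096319663155473002224692974665231321553077794599341184728483150182437434089557444630035515839875280900277020276302091589426817390782876085009587187810301213437241443054179888185731286542294037953604354867556265781679179840364120532457149715453995227005106535114324051409485287915659101090960452927854165311418097129544101342967682296441718726405912308633880196204616966954255065881807773091405681052215710103883158624864351589682787226691434753525558270801151547991899614076964819346676633431486927749754476182169178671706582373066036431605369198383324216498873755447624629554452148806568858395790896215952161712571366113427339701690659671696291872941478071981628114067137782076471827898074222894319426223892249493189511632742185801933645425725540883142457340197611700938555996069910870543762632299628507196068970348816180123778606097827396539383808)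

noncomputable def rc12 : Nat := (nat_lit 50433179943926806176922496354891495261762443051797152727486645055101478331093987575189757295527440135951720123091066687107492128594413102948919427699249433980166453609952359562819485915664084851887257049941046773498233061767307197294216769633362291008002048056339937214599059956412587779527640614099193108020276778166403264053282080370067054539341484356390947855473302641232258025804369311967180118628172102679896402865936136415484159956452081206934485708777746497006833187656966787248088389778240033471925910829483970485826257564450573043857312238837576875711199934367822490338244500543090652279865228835163078812714986069915680503006613874639942848801810779157886317730770439995345634992301928111797300836542509973592676779965362301658073138620218310473295810832575498631751734723965227594241018197097931790419716410571288779682048911017151186336486992383556031698025898795684014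389746162455372532396020878132817312374169080839761659245284592467834163870441718815100871802520479960112276923859477134896379825103959514109000405646917203809080290085079398754770323407535095093833420823805347555037059321789006911520069979649039075035846223079458348913050097347024667910259600496776704282748927518434263313835984885906533104850748319694796536491147341056282609086987646485171844764894669427165996840802529472991802057760225479802709575582882667582991269978382003160841248405814448281045261930914839848184680095270740336924053297564920196538991809772873824171507965842357884285242949777480786686323210457349580420658711295132376834962544857670390995525269896847494597032095807298103380385458618533925297239322439417151752830310907171476401420895941781637107961450392275668124698469845095325562587154856578995351972503567866524800309202246056199623834734321282882435859838495150134854580765468149473277337217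227829625990139150109761718350818569183112122082337804335019423504841501885916158299393989311988466665556682392976223772983585074147970437041711275820219121369743896729858625545343053294679172456073158115264803590137763352342500281574256815552695834261892665861036053224599555285827136605328240886429421799026675103778968622403507684755857009257659542503719285828278296348245357815608156834317519867729337758751288559243227764411359159513623694492553537739578040014717695911268040752543249122836249750102610463577251675920163203683385224194527261883540168048543266371996002938483321027201537847985976228841872271666192872699985276385790722062094022384431114760886680502847326812589164466176026408604107661617190588683924121951099816397306057649897973596469579679265843504031442281290856452040784677033214835546563636031643111195010948053708256055309272304460149961364225018134891100223050796693500868439678540241050519113398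847853558603069115127518637008641728376830928324544059425235849335072345593621390553396916267083194039164292077197642999114864787617098132678015942481601887092838166722355182614795878666537865490829035331540391325078175448773518075307495504552247258704671168506070334126102122379799960587900260128645851151809333242516809811169553719236681387019559803647015011358022569191665634489536152637217495473951937527487834715736470149151112458531120521079015836317400599832975057877497355977197458375170102429333760782549430860973632985141720474752184821064949639361980884466326288459969675231289598883544919717132848305360461019198087711998866938158318169524596145696572822124628976652155029836303844698249520971833746715692775768335535954485413099623283008470771582309670453513676083769885733283027142364058486051846670527266154543070650438936804692597156338341954724599916098437991204099235262204492371799900318675700680655763048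754956073130514976701418489850862999792440066413060379199947260585567283671998141347241929184653946612044084978860171975522705800628906869808239961425661181619301616700058763304523455326290085759612685972593608278602861785820177521308784186335249706065915369052396982510758924330583124564169187447439295642305670571283680095782408122130188887192266681314417349656508007941904551417994590452045481900272919174443176835590272166271928663171867129746971428964407111031526956438132606872970768558731677272799254822611102911838366617152510010962682265358280497113691193648454948383286426986832725540707886945090176908586246073871807260763784399600807132494029685956291853270766650870872874819190469842632397380358349118440233006367581816956829294451791448728653067314868360777129565160299102092927979512129897245477120289612776863346999691489789642789880297160022410414584636841541021586562417086487343763232983582806233884276704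851695525660225555384173613601376863326477147767187763960932000780423000532299274135084351214184229391739709190538194121655087699367546815930269945858538225242321606713370994232984190504722759147873214404640378152332647447067654157492729907987558636163763056464821704090329965722442545208774810190223775792799195831936149312642679188671540863221068885710827339692380694345418526175059670482794281508982237566873036145754175996710870826305751580714355074073621661706791871854178814436654825720433229776586927614255777239749789495021182512562537361198488948236392010077391175807506031079930613484855857882653991320046541127377248809134772887936641102038127674297545684069041631070085756418597301247283678246193366282280463570179190924711933461381412354773662754913019162996010752930117196781461075335807615877959641106774265887627430282717407468975449932608286509384175017494669887478016909358473189138947059916014157998635552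390192774160827709797531343474765088558029744062306973636260240893122704341678321647476067408923878974478172439010819110221073891868626707291053782783467767414179038502015614616022859510566748157415418884375498712204406206485773770369955044346847514179650817793587297189718144721423775295721618114624114000964599401098567079179279613992234832990911248470027060550176024464379826235917337444876555799081200563050804382126942857602196489006507275453144654228627624842351889198036078580114641615964871443092421208676412440446642624498650375259393064546811318275834548900474339405954961429578858863469038948228940175937216371172454807648241480378746375627475477326915485757694809686979754123463843467263818817004638196284802281623886827478688291171271035462931777848216857026182264767189545392458339609980155011564729565778078832364340469823088154159205330672534320894681598796397541097261116982885401278678046874917810181615919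814899729726923216709229305842028827841793095797132142201857709510765631421862212228490239132134015481042198691688032436182196692654019592338596714138797363322991451112218458839103904543561668083198385792453142422117317830337730164482916703835340834068899879620415738116151968780761018882157382669702027815141472756120580645869937220750108205029840730541779763338531400303891334227581071291464264429789622027172596767023433156400368411136111311871307138888999407574036143325918727987736203702302067456097928572638122837764714980062467127737147607042081177571466961305839489471880633506344431356621852860396941765384684739154140494548132016005366792840216185827410276707028054583947999058896193078626825033923363282935201688317959686187063834249037938622069551892309380979813636764125627154364128158680802201485253981067710465362979208891673043000754279647807488571094611717375766494106588168082030818364381704863711727960969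630740413400303451294686894572937376535421212045994594124046866059939957721475740121721664866970198248926789474612221051137024997165811110378994437102609409703383024630273034568750606753650935236994708465026630198875644528568894993607241810631101823026405852735072915730286991556636387902493031969943581455313746187607957939598756384643714551334509692849342298544731286143080976232310817339669283952002270505632253006426075965095975641400886529739945913190347043457871629275045740343542537342194954645158167293610987167677691588885100048857085342532475549363008415141203697616896954098591283120986712245175963149523263791296730486782309066199615725996951452996180437674903439197136516290408400289932591809767593512914364752472267550936960523064892713470423563981336645203653982677406492347486331403207663116221429191345064779010763075534518275438536089451337623841895225484745435171592773142497742628619812004785403617714128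895303271083973787329533459743719360279881896060533230266849366088387667887952391266983600221413086462956734725731594287354287480149265151425473649609833545531762537362850704026224630991525961563532401593221485655741081634601892406890562203374308286792766971797621539616761297300990903601127867477062274361381622301409264901729369551131891224310129318829116100312080608650823451035963683180007960890917450642000013415012088905888161674794468921891686001413168809651238341399600413754978201998104081143291976999334056191753374067004401783354165142569365630703887519790598291249963606207923869955365538600109750517133476171964989980060633017975699976522076424938239153216053587949778184055947186702312179740430363956740447631589167881286544178128962717644991354271060507196131467440127743789077333295846690376976444418223662170636639971006469078094097024451626181641025712196139277870654400645599429454926610823030186904972225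5448599606100336213718435804632515921059900275945639763322374003341929835688888457755082556840325335898458704675793007997771320200470274557232650551654367046860991939115010410271177123801172743718690758833523491594315253407054920038185498783062836540986008065141536818233923453325048813755571195970312896110723992683165203707960541307250806349372803180380935499632902966550867274412616528119644870255786782368735661269269289946540904558116983725988014771939820368954235110384196535150595866076356488420773856039084290512567407616005692830519440844709860158495702821403907173614817336113881017582879717155267124812244089950696569281625523046331262219095169721734524415591252039349702482102875168223426311941466966964643985787082627492508035936593078125505891716750660197397191456542691072158883626970560190346038178794172226147718884895378019071750321294359561483798829207811442927828449180523752241103573580006338486883766219606776286902893478599859361738383759848277167765278493353435925550662052529143350020254862449005503840015238150023678113372904680866215286608396065427661916732779129018540399074049501736254732819268171823790336125625863046360979151922977455377771015585572847616)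

noncomputable def rc13 : Nat := (nat_lit 51007589291852020770998964733172532971085262830322865461114434180188151055088964641009968173197017360319488037482363043298090648042779261430621938441385888915094150614094768032616065701466659152696711280779851537631468138148740602097800373968911219221658525212184407066987703084249244753380759371712466810291643728905937052454810109621853120107994542452523734156088907537400667437132209050389543109239254872078044211433384736929737489313333452113084403576811010865317224040692834219803201493374524260277429000965031491824421606179024327745896607784312005689548400424291097118014889100506250489181421072740806463917923244134662301610102935425960308751408816361368575771394403779376933203326778068079303603423397543788741458508152063078158656942066897535382300305696905865051017803647830126625466849160938189107655075946237971236152752183504107617302774582776728884110478721505488774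959548223341359175002887944957757914274301079396610964074872531226040284660267891808790480513034407046305222365918357010054353071556699673561886046164970530550345638429084053578204593170105917805779194624375179471525591468279988031150982920029919218213675899671792292002517628558024491997645520262296563893264308091476554107890837704403177317703981587020019307962450539024817024217400181675432776064447671248785993996775914780619377843276009394513440551397580285410932035000562247061629593603102404734208322280059347711670064122177293814639099914966811033402796726731702325829012703765309381044896823124864172714316163968123423239191494436847342359335020786945192334940002818002153865390967967458893821092817153552765347338380483596781036970079637432034774756527937438123818318367496136197264242549974797730595794165913761815934642943189583669954229590392946882207636059116956869671976320591044616001740956578271308405863284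792691502809845186890186706412581602854985416921077450903477335243346120174554554976239123370598249911251888762626094483304252917498062981451518843489593879824559831924017798346553425642639951762592049255872319931368336503762471334452104469194514793212855930581684572522024839752835970333943093220322114217580409833907598796230650575524196268856658413465499825557634241605843367289731299782537839145573582158609868472986385663398321457706018109392676557485289452367075884999199116935169672362630680043629097599764823304288404074244906018129484105385906841390502678411316507230515385079988314449392691569924698646392099973785517331318821354077791246063479093998112935892428128088140329418737572999039318916843427276154478844659709975512934326368863363650873742410511172263075506217927444577293548889444922644285607738689396051559999876156482255721422332582042186469900031221580011920740480425571376193975055633247076813462834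271583397380544265120070727977494404427865206778684476654697017660320715415714999898200114097524771310561157743539141853502749018324161152381583414355878616894733988463806276854786915385355118031623631489356406534273392302550263723831973977677776391172651363270893621604572960488845350101002854892234339321285031392768823543842014440287349476159319378216236039537804547360769593525948396478166138894689755432044793694046512921943549649745165617023702053792404402841564047441159340389203672434973732636166555310835834445919700655175847105050718736384194947402166015076963241219131587920946013147959917618685666637320392240751129809428214762209275966933375128027998839076055214496028193956911429988475857666149865855457491546235878935266721575260667537246745708276595310418599481775112899949110698559279607878636075018313869557404983579814859087934706445639849910911560793368690658876396678010088355284372894840880805757176089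001131907052814642269753185808030674592837454471383722546680393275537629469652621002181486559497998035307276639790544314831138730026805559982891002983126552551069317162570998035846293962194758819897674255504576361200756023986003632695018532172356603299116113937835855691110366522101888647264316743802041209115445334026722899976556996790308875795840135231296259739299430281213989697897219186212984141832946258474874956912348631253162604896769147192722361776042741279808451432556663419280129635193070206506151338358660372307472922065425404055492739773796747880768366388372499100861364590812055551434756508141642835470492272563959096786114754257671690113535781312865796466139979732819775489880564296655529157901218439481788840568420555019662682142160158092640814958223130169458922911810266705748905424177235107845850890663756394259414286435087073566497369507821177469787241352038164312697441052516963304169181031101952535240782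956848291513687366592127180623570062667774658894887342338361491870851042852835756370109134487464692190237532892223748501408913404367748402745199077568588737912555983878911554671768622953332901455218578487441601788977439191503747390156255004792908668350118258360341906533827161792092222080610039525895998972700597081857802321529314049220500443375833772076953656142412075124755611342982257625304046832627857457598715616428124603051403186738993281016029588642880431435903108022548216464256264691505703038967361640446490472009500223538079525489949717359887749995065752855075048174901041913327897758853509418067840123096886884578949598945932838499947423038849863614389638354976142204745759476601024482405924124628257925389738112196658313343859297728949848097556189645566971105167613186500124890447372218454882273942250693747257994730892060435573441331295693049410516281545367897998177904060603362831473631913711174266691922114861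624371689758230306482554435561956289425681653402295270207207550090461242415764841871873123391550557092889262320250370547650110711827913056545073678745024365707674080162537077129872419381071110021748950968469812059416271145296926163172780230933447945569273067723514666650702946645562983352040861497196062740343487965269256339076913217565947580360335846662813585677014814146690493893115510926232568477951264104710303430491933813785265442912730011332136464946855273676053161297951831221981959584400128435313459675604632009208679865974122733876673956871975659900183041739429292439067266372313590279321661874322927136230447874202958043277374157998851815738609542578467365363443100554586647079669823736083951705377991272236215018920229458697602688148010543879052638375996349004811491989163250052985024491749706796902650238638845378433808002403949032191716578231505724353819578073143617631749218785129217108855298112976185837387469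554294130327929706882880847043834264706519024216189456816708051983062458179996698471853843938255961158011700069229462710609744867600679594779385712461105466462724497179462446283766801464906770461864697814894108741276650978390063094459930018085912586422870007898842095011188322594420734294481941235341406492192080902011694727332111448056005237378855964983944969665934419085228126357252434263373348499275783088329150187342398103288498179822495450187558413686765972008973268585312710209285362141562659742468743070470513003504404153725741283891423551671386295899406408219986344128529819769509460823549856138489992870632356001467597465335484253517246717166875059604558215821227277862783094745886775518382991986319129402480938716861369764798409231812043622205073018617991042176891612287720227686249272703750990116509491123413617759430269541405091065758992981705083347804477081510893141283077527535785615511563678600781547891075385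942436825822298940952455900579372193689161889791850615894212809348966166685663298446814123460320832479082144190854715081488747118474345414918396869256803749596167922321605848655950759870058696705255329919413083185535260721026050494207860219477700797008197808911274019591584090051717707489450645753838161731297883500599741043399186829586038301268201778402536110874982188674517674436728308554956439579103345658551426378261200535872357694524579663011887314809493013913015747539852977613540868954470244794876779998574144300045348629351124528552458651562392321498823306124174104346526297593057070309609415652642034657068707832284041536181521649186029319261790339317606897075268588472390911435083048638103738502483583186397913702390192698613096809891414117373894117434153215316819715431843614623238472466967402307886019622280281689455199428893166533444739425410429616978737128906088797369606144934231356255703535312513028684970903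885474983307690387296910450902012464257123177412420627690724965716010153489603869744788987033293313424952418649834850780752971015177607704388959528033881007738375221716108587379089527149596158665505491939795781795275437117942226481404492741436132957866389101692462559888509829610061259798496778625140612052542220347394447327019707006876604305175127464485333735867642984983860558052740745794493148375838197361892956980535006095867725122641301132657184714520615555743867375627322776255535723747258179477128766944134272256964281621435959406725033855238016619551351449555455316367710761713182494201345478764293660933301970022747261881601015982432166366340221195868227664589397138232479062610532641582451130449044266708796271823469894770394835847135818431276331383992579187627598310821737128865002968107477001152703474260119258514524501578679774174924480421408147682846370495918043038875263792559384500867683831269229753884233105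8495081306765542805847464222924845137901751378337404498022917680146807390857732591345022397910256738661770308396162648162041648328547299880316412614587335477295580181237987595931909960747330369328656237648663405687637186003833834002034223659532053816650234057544532692297561023329284848008545827211779332956560743899629685624462573919039473600058381968119390198614170278237554065690890067295505272028690957561011011775804255245353485802342864479083233958994756072273515341826108460252983260074329644880529555789452909875713598064156428867828649375454782505887075161759554054600615937441463031697294800466845740104947654112690646045563076796423180447808024633962054520251872700549261298527902551544425938177860346677432698924032630943693175934046314024321292355532318060247264816495535332842115079519882240926593929671301519036066169649112950193937548310455899700206672017502832021566072655964785873401379303261872782678685383663760073283160739662428410492662851411173953235548250250510189057355304047700804611784453948518453680968248915561706942091634791550065136127377054734145532423476457074285774262924665773755699313233293779483605003394731445432698822676630938256659329614660763648)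

noncomputable def rc14 : Nat := (nat_lit 51579183747073435687030481109884200161911203696228593196994629691246094483276204094739429749218120514549423447689952164061242799055033813346184409423200339689523768877466091780124709959781026234492096175802497983415890262320662116992379557609300210292857503725126699814311124885108957435794283743471503131532964131541831371867723023683442410570222296924472011159429532309753965641978287682997197666871971872952707867988712830174797883190153073705182120248995781679285103584193225573437271505213779786300753813824790324445562578089286576131790550652836274175408208250480053682663119866546119979867571021276595508119269544496755684159641425088450731429246053810320821189448388552157229947125489830924515763596307249469645497800063654805052307342712519198192550625957285241364037757458671246816483531384256991568290104418342577223907473499787169058867201355518605339125341914346895888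382604886060520977725443077864978876628977492264826918802852682447358485169636655571864697754317549267730898231722600096146092853217788699471136872816267254644876240301096635818616017510178823644894491895640399706762395489114046211547145260387172040551645192016360430064347093708387277716371032552540000760544936589015309811247381315474270748125278738059041891987464432393105653480940725669758556019749518966403966473861237866732561452573846293129941878744588360034518134127802488427168050671845641883630819361955222933687498694806256550642989677070252926742791062594998507089521966424194592828518494428065417973067673365619673577641611947761352758440153481131363379367574971918342757938970202258003318607151898340894194056673600954754837708018931273555950140970887924806878737114167971337813481662264931554122526890044378333589604416226226077364344558829270546066743080736086523616462033367102550648208189626827263238751968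939240872041918845145593969324535506220921358876152635865106343712178041324271150594174200346005171719427881091901924239455982766217953801365846415226146743900220576120940616204846982593591497923035152955517278525236281127388708763899834228253436079901977561999038428528322564717196413603630008951125264090179211180371958656866602190397604442954268288988501334213108348422486361344987967944045453690918376885026125296708024550856227625074798684398595471949147629707004330251618590522932628570341409020127949421523258580755420999278672930568127123405595908583217281139549536388879985332873222023390583527370940561384244996516449514364653037975176799028682806934366564771337996334327203081694169837185403198377584301944094260293259522058491728420857689005099962255720163614641270346442383339005737000846147036225660429196732703335015780040019925780324915577746907859425680023240652831433743053154623034557958736893009563820679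536246502109158793547100131049913073972525632377274677204586264938426363076023389428207181831490279334346790276484296787883020343449197368241851450537568407418101861433377578468559634928266508244676343016067252373317049099505735997029758987749382174865956162016508854014593664762745022938638818416277944394650238153730886175644485549745966363472429573861227425618524395889241385700386182052749019313786443981621617000016149789108884552616206260559878184655168795510882833383828755826119488806602698861596802972355698721061739972924265267087098507241182426850128847556281158499531621444369525152978720023109084703753595193474856032295379747794984148428803669363759392408594414751031780865914024130308382042832098795947551328741544379789425162717373928072370788908790653592448850997954034984329376798291081620595751993757165502147118882562601998091861632398940763110874861234693225440730844130044731829336439400911306002725786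461288594518037893962359384750312362181945598650866095379162615818069553038863042276994247287415526392457219534918644356832323879429796979640883719120266908001358821852877298807548314358271393463588593696476772761360472853535351338814475544859625281469614841145728059754305457894875507438525161916379245043958374079691651814119779940243471543587481787933728435568756292996722014995262670262489918504058962132867707273191791756248888894316662092188742455797786069815738105272446538325749110929415682902968846132806244983476440629205081087154173604517760769250698664655690301757015122698029264663308299137466594392421335732732661576328909244227419478463982982475498415596189806411306031090617380461960042680625256600079749111233871481838853524473492568619963322227973084715989839322347055004423498118351548015804006046020501439416990544618963123428759893024946118540850033024793299064072579413636303292335443617336503511406354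061461450601220926927043580816473156771410866459667556833343923999720977323227811310854973072740748457191058452832244369505673337635453292400558598393020067319361931857945706407665865340540269273877006954190763631981560693965682449328595287798198104531842521727024258001333006322183212158496921988783774870874218434347417714759932115114374854118110049313455739056040569429501509796565292908598947866071232503596361020471615003658204480671335691517147390725297592550088410636966340751866497542030374626676427614211311244460131283859024703614342388101578733192685329569785875715796487562132035408290843636135762581281309356696935346293171649591654354543255819038401196846742004756341635856412669064709683960563525032514321990142270280166048544156216893508213877858213025048429470873546408185817465934948977027353165840843273962786153444221004031032414815473887231797056868862797982206397893579488969339433022165109754007193455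753872011345985083895726083926628821903630701351772564621402072706696260010054840714214625842709741923423749004950204726883894881008018761866242507380410844088086797971375757072843543278547025607322433542334022111165994593244440245040037028660209299152933015014974109896608983572528145965641276976596937654233828982310741612064728048183522653897752559686137077697506399298617297856614626234045154344112786888048845681899564600597646088597668565428420705922565074862540972983373187767914991697940484497660767915307081561473833001024006248630438228217039754440169382817974894742214187823442103450080594376607476519465646025062187795453735108322818901293514270619366037705020657949680440274816266916083018746051310186474970886514784716683033375472354932283575722990246473888420576143566140112607682839360669080369872162735299165999776804293438095746272835834352854160443675443197175085475816217161151870464922419332840469563644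171895341689097601623146839884951260218026704730974427370011494604681145414459049218250517742070488085640055077676750465561773972151088589513707321142837261363957147296392552242132161384379502733282261852537550884746553022021104293320073627579878161753971455489361771880498740428443904374492973004062420657315520741537067500122908475522768996625909187744635816567510718852725561711648212884567034783265342932000370676444621226858927892126570271361612379665797371090580423569226813299645655162878026627920408559607621267527308807927247763226876080606753264008213559571466662658025197378089099315212170200136025109377524366968569826445954386460712787127456378462412006493422376060829522421469522780465308026501185188421233385134994165118301194808071126548215392365296261369010353489463562427262310132366924896548343485324776378125133732933917335544005853712950893898300418395130133200206482880810443995364473908048554710023270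500642231054386125036048416196625221397709106850792400329275531367907427563881674017920737299605174287995709290846267129158352979360380366177024029388825678837988009948003123776633000751401183711741969225942804064436344693872870502175815217478294806163435132760821799988385342497520652578626387645798663742323428286493420042083236065923013229328545552686288321897004544865666963814397822660033692875569548577005503356800748243289413381596224623040484978700390882463823362933616118557801275006409647534606899731443423072871906516440878028571722683795354945310810934802797918558111877661640483983858998528604615171992109535000891208634095886822427057751570896427221708014459836775418798821009898556614042784973008349323918713950022935563052608171045157188066371422952003184045822817196073898156917047729774413643861108533841590460899406679076060672606162153118273424656273771983763650977171289666259802717942823035591301893168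722341109187675555366159167116189102541724854680810697716547431563412519951676614584302893519791938575175671669897886173322105473746650764675543063758999295917345132573156015661933598498819847934632901863007514783462953957926704982717269302204631629501825638566643637071800881230118353548010972079717067292742875897826987299861783277245137413269163976207995755983309098719521645298811146102811044451091991787551171935207112880954220191845295116300265887580967620956545291520654894663224957275478731005962645933089472744891136401756944840115853877633083674295204116322986324904656498739517407945871955697328750286347190871329452989727609488750461878481169392683227486421715134906311541705486503353279811342194774525630143759777826331183546258104336982724617691901342605286292965876906927076424659831585213696632372584357812381701018023351904679198932738039330759852607636563507669400582389037902732528500161277312128618862686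4182124335374077964986764599100204722854171100926833174022278194765436701338981504324962521672166455627541599070674818179432109671519534807453897662339033818949313648980092475065079650451556146554440843372050628324322444094928103166899803160117074532161705231058341076444650267052816721623161591962670339774145444254416267564554179210739818879942221256991782054914650118796331912330229182451594696362799864040179273211034150402989269894395538521176807088738640699822783132374680241231588516294210209478721609908160463273415853473005440810790096828227114659591490749738858270562394682661747948045138783343061727709451642288960639908482741448373426545598750150179144457811662402154467685641475821274346419449795013418074851560849339654297337400201519292908857637330457591778113385692570416046504107809139374625181277514792623950087835222087834810609921092203476683681516062302754824142671172464175831117634912849350426962974742406507045974642471531224025174711518111493777808760436828862887757359190662364689847056628927949451595984702222754408561345520545882634877653119834759885573617809111625296898735323178856223588566822775843514764835339142445380584060475513076258063451759958818816)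

noncomputable def rc15 : Nat := (nat_lit 52146966817524137719523781589246913201544859760203452220508018687998015984491556735539065719698188096368196284322374448842304850264782331618894857162715732449879620216226519618989714362157945119838592546839997727814629518877366410040577372226190961051348070634472018004652736771027666439216417754432652806294750480755308043256485884738948456777595072396621428208632744003385854064615434589669967377611566756012900886296549034720484369061199652947807854459161925652099717038496930594346874889433639376062286340537403087919292125538777852331755072676955445142745000993894157094408595567686597188904771280573752642253603730446560913328348686457980129480328447992305034171299403862445597142018775051702775401883070701375727302131498874595163367846180347272546624532979840891172153158336762038191934217909829356294177510292684064630148988867671293505307653717120060933565619961465826469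816097455617326225068224234549695983368941714359257347598944811820167074104064770179475411933112346622377829556045522717097774248404226682532241268206959689122615885302464135645642683848853243886818947397478087939496522096911318753028594060514237720394557687246308746123809090066724068364985178147262522215164694624178300180146491474440696015722027873099804901744034547822766773676265988695127757188015290796106421854296857415165164928885837650015811274965949991033020020067129357415604645920612950801309589937587834082860600216504473206428698304366604454812620723898083705033653752420765785758937626159115449464998479951937347608581333670723936213452570980555038058407230758766507996577764872371743492504793204010284620347188776821072289971410247351313881086339884077959646053716484949732425502825465729160178392819928522155106084884357486768412079463645136107630776789897072243179907411194635694753634571188612551358265215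934220565871799879521994232009686399485406908319659010755390489593503635622764038166865899149535241503217132062232950807353684721498032367612101081318683740333407553625718611567114457285565251723047632790079422960800163829133070118745559117640495288738864563514390870895965689076136741896830798000390861133487347608478037442469347464597311250360952980579083667917784153083840393196745727210057772193897783297871184989021526386135810056906711384387072059558833969873115482196361123103584717839203182678432154360600433205755795236617465131553257408308997738516129756965714644033249041427127203515721503910648519284661902593891771547809710731334031018406873878561897883098839294855598236504199647411065771458640947123648280321608009838270006720168747582796543449024734553792881001140685406516245870336985115998926844266557540564675548924556716833870791998632319039457359315299941039682330207436166392066668118678641681978832403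128426222739762895321749448460032559039946109063178958540618612216839426600964273084688017978207390990827395724926277603020922145527064990453590968804782947532972584674770923243063307653047725510825568751440503040243875644220255634736863090155934681278342472968532493697331375546056996755752871481879652252957489642960004804564966669813336142215174761316782738774608187912227878568232591182881375346554662178464461707086127196230098637219888114932415020196407770120887419870283021210329318813837600883049873141716193418986984473577141529843914294053746432871665944416533662761722348092459794745204184149246978558154527862524101742832481712612494908676846548080720403953980695203461009034769854270743601898040382586474627519855107586752264300030643583453773759328922542212110033465944118497051115953605185358623198133373422553497218347544950074869191801879694866341139035666877847746985779111746096573492390857983072655511265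702325106768886453254258646784262544789442520619065730907730242018548882820688827259178618622719440284830215679007705977823876694422927686344816577722446146505461317321636445350957373627209868632167875965843912282156757418531313484642800604226263571987917007567108552414971066484291196581380960914926113935326521344291399018672280382909085680955591353009016820361343810347389587585438119940887532710454907435407463340841882824325585865053400495427388431135602481076781024127708103218689412436759400215681220620744912041182160793869469005523308632890097827494877258886920316745420278310706670601508204431931231455119618046012186942123864157156254942789556860848839663588424314579828434593458898969041798255857979445332541727489484207911215489625691480309853139140983829079238876696368800803887098825977624492562145222799088633424555793019108859753696553946498014951507114064890806456963246836937458660243975834986955956554864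314729323341586425555884454131772538504846134353079840427501369790538499361089174382151487869689410947971443717760747509837219507071432602434577826948115351383435316562204136225596272723773381490882968423549927682197992867259324649075886720056104663335849951431739602191726500932399930549394507180746904290776609407944497872143109384281234063890477770928107175111720339716656927415283920009731948744607227658724534731576247043370536041013102572984916306307213811502476869719202773719410960780212498523366704103192508735095459455632747902618341563197352022126400431093691619418459602667981088528401540935621787051872932080590545822661152851314761358267449661048312652191238863232995145638950439812580387743041522452239079610948124510210454996763019174879333540114681867967053366640743634565751027868456025331859279535422032979204608582132094423092976834211162732882761282213918458598999151670799224869809911398546223712390542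405560034173861967803101962709862818051466900918089287573236064022942117898530037298476465444578806901689513134306667925343858104823801604138165543762802811937058932259454681889958876768638355673915741841708670016792078874198911999152268040835083525818837210885063396936127513040136337797175712612141304578298912421782759818232140284613488243417943292925425179807758050950358401645262884788658535087495180339942614160745579891601387869982986809533675360852582034357706573812637987508550853992678949719952018455033685925681283503252352185965877597685022542230077129668789245069870546761600168975328685811737670420144269108316213223800439099364696281152494885633905857577511954576213656438159028358389194990368282685379258912042720927532228448220961848493377873738044549199388295027408124563512112718315025349933191123097222460911150353002291862534296592796413891067245699515365218427460258007211139415158658348395146664255429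618832096158042095848850485036070739957910541844834336030943864621565595555788897492233487704248553747708487381865681824682879529411934056254666435663212676778844208608529525866542100805633396766106313379378174608608959524682350057788297134928447035961306090143131207814394741378889726872970111457140688928132837967008883033937918371934230336052425999684934987928645414561505550412939713352095489873294742520303503447505235664577718422448017950845019427564366517955052720004005778010890908615017263209650128742708029453508597687334066429130408976438851665258510998491891343179623059171216224802025488657070148811711216939733191895413704343897430816878953759664922058391551252962026271831345985829177803072821706840829822400955743507023248519684283763553034592000247145802746567868970095252455402944357684149424489262805308006167126451686226716965835730177492749077965230533767486717697830828124595498929632286492984938589190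493410753455743052384086831530058719439553439035905203056776627365785973998774819569773608944356535264187036498373774185943474951107797451762064643977371906423081407873841464127693432756947005582312408726416249083160887046612074185259003808649551680667317149319966248270584208175198619326532871176244368962283887535853464231521860251603397556753686989974457199825626615804867305310620333181493411000933599545757727070526675395338760642815356251789697843018201319584503141990233765123193795623934693732233851361459307751324427650772230968644679761363333761979050215281708233918588784494555234735660979800789385208964763998035127426991351736212437003823669969219025980666657684367358100671443807089774543646998021424263288000101217602732387551520143304782460561677339835363639747973261713989363733828989917191297379975480924434789628841306469050992685533160725047901150911854690540096726085918599255078521173582279402517757830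778079627946250199676355570049864083578044445135492953462435920518453892635396425365699959369248568675673635676351261815076106102390790897770157141255966435707097634695842999983661033579915001550681168302748103686030073048621388278121019095973470877966104817250629245328008222790723400778556622042159993549866676858028136186349532696760038195539693154864943412461507739562235747708608956427864219531235762511400979371421291573093109998956331403725313172443200503501473091591592909261956306157257471147285896233271711829052467052168722773996827905336992182486049763484560085678995495443595248820404739932925815224228445143742074152130430577986744321554772913936378794636199013308776980766360916797064088532136614092423878651791334596560700159635089960323097474117366257863117548380068324812354856985874289113824959054996076438953485620525066500170199480185415347346223837182440372617579215028539730736841812542354760400154551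3890014350561197937428249067580126798592009128515165731839020665887015810821450346828513482913843177891381159680403801613538078890895171208766372236639321488983260993958223199633072193935386565577457342196141877533745838041718660238750199428143023762458435714808449174466146805844118994811039386317301249987606389372466999368883423156178327511892719708872177273009964559795801529411636127357376728030076697820206303036058711005624157542278797902246257053981760916666083897468121015966450442681201599427725791887451757693010246589941561939356454951902040859734414029608026424873479957361611040373563470901506798427125936995479335863975448451214838846259020024025877552305869759797317597147265206948816921916082283282272994569277811607010291381595271880524744482842173449463320115503017693956520421756561771211591532850397823292401418870786008639368037149338169066317163622716984851983065737821732958243761239944486295139600670721398153708095266274331196128558514708533413940158297023838702008526154748297643889271526289935770862478898684116597489789128854214271934635096816438596924004608012283652050504417337677922543940473293618677455290943757886668595166823831635186182357964289998848)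

noncomputable def rc16 : Nat := (nat_lit 52710021802490463627464130891474647641429002010649882701205813420610811486651733197044193432650997827709418728803784399209151187413625108045632845723525964615942479987955035296734705542755342079442836434599063908297577553689375454579765283799420530588889261711421110497175084406055981562218789558719917308790936310547035117527424505387985369366063886259659215304097708485173017070905817165540082270414459243178401072829620551134114688696494796477717986879195241873040251938224099122857997337269420255541347193899369743080621326615433249803883329344725554655109424497815415210901955442658880469982270374182860945670753578050728248157546361165593666696082950823701770893889051301403802400124981455588228097593682135528481771840807214278179162095244753395904308155477127966255858647242283534072470152147331491862235058907516360250974795102635302786002889308781539780671212298123049222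388837332825183333145301842948120559080007827378550411519245090323152618032244413003031127770148477532701551018468221205396706134408590209688457908020990436681192629439218310509997938533637023612570760641924857265844789889589367686171863018347043230474866880252457706565715524000222702089191571896830249942283714222283107162520093651933149963788063905650034545788829081163260498982101537286708151161983629947956476959068331146834162038736685663490194886332277441680847882921849077876574015332713673408878641282552674640569552967136333188682641563404341976517355968920744152365815808337049813783371459056413501229572727160770692185675644438154312674778105684608322605493962375049081660285441137568447065480796850511109296952352002073360986643573229423313168349781549531288011502851154299265884429925791955550282635454728459931564570690062050609843688461693718332396959913218098490773505818667327007964614489590870105855266162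289869725277319690726989094095638428374195400630084334629580867145593038672484436062135152187638553127960914467585243307688851201105207711010773523732253042709673554038583865447738349173894302551191196807193644332634895762943054768219582821053853666241217372431245473996595052767722883089177330193825971351770232809268727209425240098850138500741815667938513922045168019229361178049264939684443527246822868619520656439236111502569137751465458850903099349977419323498797059359695828068519821750532268418687312009632861407042520222193856553046286151124248160738995037974752556285521629880806416661732862111217161045958754767625686230467295480749121150045354521924640771824961448366199617645831535908234094049416179842182834313802975968081545161596851315258927499733791728994789977282347040342412778503252895271856232373612784948379694080381335696070362967474942986575005109919895165979810503776033808957150846152858316402349127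751987006212942692086669303645325282847239871374558576361649847771201631910073339505801307283280152061299583809734997959127821673410859685097913702735504770830398573237413376479424022887639027468053495000223238509295274459018916537806252986668675812347712163093608295825198444413771313893028759339332202998735293939350142473045685233558692592304228642330064865412019775559372041015003850811246639594400983003352170658430959921855499095019886100482087387276622853880327788357960264553421431129017148075161676963123717337646297314443273947047270845025258356068819864714578785984819233049146493707295547005244810160093816259363652966143181984719275154037312910037451571149319889418255177196545607228390286179249557970155529961056573674112431508289010513944194303473910770834631524686499019832560501097099641101969834911945966935960483925319751201218976102276463134223179533275692057860778120260001226322532394784310924131704641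144982251116519830818746914571251065474153348759267995229320349094242262124127357037808703325197023260906135612625527219996329062441568318855414636780963818358635843284033780192868872248312277828034623431683730305737287706097857715621575261196693661014422329397926400202012739962369833523527575770440494918372450883826683833078669998541887322699849323767339421348114709577144702738581188979975739553849921075908777352368377156638342282310894761529907873961923995176626970913397323745597159771996064668525048232531435237686503624685981754470062677546004235617640581954301556417914360867515086366014282676643255660690584068903433984564925244733810306116187772827314243460993254553052539196926600619236240412945626434211829356339192821650745638838776520674093397751126719136320355913441289591276457580595979787332162384017820896408418819695795818930176293115552065598603658899943533117386587230570451903852017775362526707089959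317193224733346343265777811765207202689434105197413294034740445863857320989741877172302574349179921646733283427000211508817143679592961704971037971964070324301244469907362974541150161792500191641223674348407088166978991434906438468661032567745774112689036712846287629476095878365176653983542638850995821398912842779642352461744667952862533277590047298983049696396322441352679384095132558575612694253564916464267102704814996926498432968830998963856936744104315765280455923987997165446588044402847750555169249674203966803103629276589345431967369586185520699387370324479658921615530035914563834910957198295245695177065935251792679086042554505768280887975938501249042613239503607689705870439282253281251253909730543361128791862877396230783899718182240575041535129042559800772100634811936299080226675459155914031194399429256461430679200454566103127357417633127419132207904874667719181311167186408274571289808662570339270289777263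485278505227734450919992856332824130005722808401838079250063440513445144152466255253334619641834939191720529381803077634793658610540013616165173925239614415978375314540853198877869752064899292550408418123662042630490026711773607308666971647715424300115670587379384775330726832989508792865065059216762274037533291720259609292537282152835459719017662365282440931796722263309910394162566728268468062130201304813393334219283889921031690570328066234118757949014161228632618626230664709557378925232467860025685090383476469961960926677598933196797723713952815121558603992619197440561703719816629595826946320343349035508096038036103309747789086210258676639574562633165242339073103453216850231628081071576058573194350338064114378437682608755238323580029421566587604402703538109065009737085707167580706395539938377303364298164866129210655203413651549866887325000759187451130054672497033208132420437471237599724211418441218103303320739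929642951854888183164737563144416596846905806534943630641210596840559462523069545866078822092336770591043334216475897224726234933082192944442199160616000612227388018023891883361143361244300664241558072204171801201613061633969884625958555302855144818335364828100793076048824708258948654324765579071789785460055995827485423048976407103273327443852908505421611534093947140354416851706907691763642669430124044316736867424772759816481111393652898353622344051228246938903644821306195851971206530417832247768749283185583709385977051705711211341023292140670335856980514927108027434889671968472495980169923187644177820320710322266410423672493582269101430516136941520268484037770333446823229510039604359733408978504800501915259659256043709809673081804944973981402543776174286299260691970214962959875661846909976513385686512302279663715789752717571489536799480483132471824741173503884690831918831197857063425159801511867258833904287232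436798254980558244579049194829542706995417436698403492092291505076913601739126136585513507748349297537692066540571106897716694868644277926621607246963854953708498967122456741698342113842405378053825655296226309208483179500575678939824329187927885938309960389106774519321236605992656689739215219145023846570816909527854301659997772713805029628378022908451281478019438164150628561160447335019867217522585004558670783756756321452793138000756744180423948598045692704242357551165253914486263464096958753658751178996958029407900302026537316428540034727619537199850509503336394972233019183061120486025704643768891956421706998760028136398504569928153410543341237063590904036030726378775403912322973272960484372228896332800051973536373794230362304524014882930348538309072542926468380374849727783112092262021679051492827405075940955086487898805510191253946575908177352827816983639812070356133485089646657572283342078254829807325935288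700880348209816506074157681008779441865503153031703540610943778923317636467035786308237643539473581375974260411047184182943970253488465007356968467582843052862114324457439155174120253573704975962023150182106641004470021805240498020123018815240912202611877949053806071902967611744594586287395135462377216040150452067110084234933961266005151802743967640517385773623055749381986260640920597204392850173030804669483692927544312570990978620901760471966921082270062630878807521878552903202830969918717941404253133243050908888603432882486133791238170792717868741860252870620421046196961790653546298139007400347186992282887766366942694673384035609359656826464880181299176017981843125463561583658432298183126185973916596551409675680904417825546299509210569746902064754324097987576165549876251128702101385216600334053178261379015971841825384025337162171627280562020064430287223953719645617496684884032768291660011024439299053359377962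8385825913557836522765124689783551503190078885097977191449648854798385633250343579938947308063920259659758038059933275448859091502292604058682062863523110082311371563293783570837732700073355699696346699555590030472720378622329037454858751395405070957639581228034555741099184094323032975820936517866121073688495364697054300385014014009281209199436213592536592367853091252974740189076773935198653589948212673634593217155593293199912082257344616777495306340394076170250404407523649080498452756773661694183105628138766827192666026423542274129569291713456728652633375323818583687664373398873023419476846473303296730520242293086716562524179030519977398579873614307705062188120236536953231506303146905271052932676072550104463165200370204874341490193892535259047654260185468682297839345338768660389644939844736421580971865682733633669686455371681999567421542149279147786595937096498263413115426953403702365906599340797208419474944473180176117537947430444240097550501153294513812665322345222096931216880636947214968379028816723026281466000947645200050421676768753358210559278051930286874537128228915867237931429925151760401555057859445313325921932287685405183104871558632593315084096359171620864)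

noncomputable def rc17 : Nat := (nat_lit 53267521262854835452156068692581695842341098408571337025193404717670666977638033126742613944446240921234024819519664498963636199196896513810163826451018114784334286884705164600510137232268853120543245641986347344842095335245538711663385535697821937889649222104210947511159135895202180823240358220177973508411500907478230703784075390804683245058045686925044202645753664149867747177525658114946121829400097163611344784058920848455668286283776539443049634058434714011304593407669262123941655943142892413047380000709184376887287859445901472417715337831968358457553801546937875916515694035472357074512073130520571571301974829905369756160947393958125565989176555546100764455725109442083656819390113937993139179213611702613800235525404693839362180501214887392052542996201327091031661516465758171895191348067620353156070060460884037609293075009716640106755310640204388978648273063967932049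783350306760413664013285783643644710840399600707817060002252752915827860197566925271073086550261321713320530870684773440587549011680633237298751128706625780650784370944897919524046128420181411382748531033868939082606554747220536321103993056066595643004648570399302946186450899939044346730934608409653717409814995028629079776116066342163274860178959846125670572504700949675692489065237817882821684555497587668408527805142858410186206408319012408921812324678409200753127515688817516711614157956135809566564949862279213607629385496769075803942330716823543690575894811690870517502726251530195600161519791035184772679268344560781922986785497822807754559606641748834600044518621405255676861535337655677228060562940955352984332125400884149129648742487885259236685176079174458098590222457565558247668801999339646854614598637963021712520784078288985809511397873969067728225446140014465207921692093763689015637336059590402713752470104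330249259710659898156202720942149036251274349924939073755843921431102887108409461408855454549882550657386027248856675282966760152910500267744831999480426253405704475629454569374431866729123867615283545729622175718852977707853969099346111506652702186793187281287765028337851482910962999859586437642377253889946926453681154112447754364134128153107367247093881446903216825080376318954382804468065371734105216337682458302451656632940717505021715179765604103539851974837532346215640427703908518886619354574901922236171718336498321475435237366131029638439684467297611711875360162657391079146187673161632360576508563081035158520903132192385675538173791147809973332967121110024466681122688256449573237355959212773148123719179518058140044842480086836662308842004908750430377213981587807770144475078369594098922603678986455152631683396444220334388886520666152627986289060659242717803007253109645577404778580832694842477056400148421665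880837428218602481808844975000778506354244487155257248975149722506688680855075273845092991905049590505343434139873474086743791270186272473268577112456614366033671367924425496862088103946983969786732726847809479469433425315160604756531504698125159527693251265092732233053025652581574401148740074185944586134364885732846939816513694123649954129999236943285371322989898614436062141044374159193853873932680199798762822684235984684803651263195949397961236678839416784782240455109640454507367664333153594073610895068373583322241099308705469804307343282207915550498329184136057247061495932524913681421454038769020658538096724616345162567904632857022581660307011335595433938021672692471524028300253524034510285003855268257462509176369524099957996833947694308441076751490396338463734285280724282178010690747858237122361755441002756608147472106106976924788513259544662145183957766201776687776713823122453800823519966970943417531946027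458212702551212483824621434045356583378167204114837812206040394987873677100294556549866818420508045643885067371967448578193697114176018137130617221961150714192124213971433910782365871353853151828781756172516891545916831813279260581774607888476517362927357093965295368696694815442510326927522809378738626919937172168390359695202906829334427767269386640052345892860563226321110705824357085529658480803875341432436156106203271189061062422725241223682370682207574483589844633067977204690282073483060409075128111193876125469481619417690939092851052597851107408846635550638974737237745680628047077756639165470677959656848056179417960072256546152959656477132319101656626855332145698135026510288138784730631277363237681408997625201000945675427092469889037379387593296657911195074194886971582844619988549051068357546872269517857619524279259307215208658605384299307325896369782975237623074524322532959517492284089730059586210148199959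683003161065787742363256021372624249853971137411576050053044970393733159918619381982070875666606810046416702809039509033266912199043377649258276492361728057121208833865957850650291184927497502774798646792852378425921770397667658539479166276281768069881404663992330082566867242857890594938962757694687468532279919393599452410390512438371716000977234045385217802698818338561590600862125211257885787744783279233964604504812380240236458893799095871536117120952898450365002574646525453955216978030192332921115933894083087839061140728468162640925587388377374208672963744287241027072540491418340568990051640123337417742444456735951249799438458681443915115730611911656898133974275130520887007693486533178242736650355195475098560014456089150269628759292076163043820433734623713449224050812822977234120684534544519128466665050059746187087900372747848179660426900217444136537984251349399607380857857030943425822976518911022549546440034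783168967541267090834066247494026868137929931996165285506342344296110734023937690130966474497284765687803231209096299715571377046005442655917799257610139142170307807265076121647941719041661075128259037024570430606635726262406594067738024268328716727856486411254241039257489720325586407410863766336044910795615110677588989895644091201725149059212430243252953748815345039821969078958964873514270427333317834903367002119328399899460372580544445912989311621972240605139780094435605421511704762569393351806794982184066276154419858343411670613716855941504024072524953724662857343967191686050899224885060885787307599069034846752932780769256015435220536042110521677694909976593136382851011683725964502158913854561591244427664932247263685332182538576891845917455696059782394132472345914221263468153086840724490213843337089422629590131404717792316713503256414255522253584840570308737006154746784583880803528714196901321677505045126449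945682767978012353609737542552278541042652102766470539133703118292405519762984490657473009023330419511053047017451732282571892482395926264992087134093725815280009659046377604759277790333828708299964396841617402259231546136811318674187570766516142066933434599264124299941316224483560684776275095948321627250130866793636003916042488016090761483600486887639429071353240293759881606633048919571909655859722091418359312165150879411647158279469473608424632774893154965566681946159518996357159261266110310213430105088537495778518199416531131503504499925212719225405592188628050450210295010619334365933180156903509715977256365794433935084427603598105688732577169333648994903801505721640681263669069822256197370671135763390728025962042083879330204669634443948749536012268121813278637743110756138372473401951680392664739005239467012445237912520247739244804841363521773198478823072696385148656337016196275636209584237405328945170666792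094620281598613172991469565759396711660220427213152258072766249181089504273580929052090289414302340972102728768737333894923193914524363619131310848168308540174887137910891233167014763085719595450325865184971659373752030525193099163144189800085552005813087835387166111095515701175244832029358678180586429667687446861433380024733059717699156937662528675990173146149314330610433823166588711671347988765669403412273975236548757187365725308518663274764045286233531137698200541205769680504377649293322008257360699856581942419269456663025629369557315463090370090454766046607010217534380162328066615260758728605475808029020494503814147295556102093737400413278012083850688034273177106547350893946179485067285594245510637716112255617496746033615308896670683502978084371922750132781958309124868917058336735933436037831220833309657313477982510975137960108738934839431518083529852288223633118136870298835865728524314563753557669112499002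430702195426327490544816857214926154002502171204182872636193885020406469028019851855061229651692675380707348734054949858694362824495326474799954674706348491901523448791706438200546537237683835447941588021956072384030798825550449896194754669324716674939211122274085757357126495691555643398836628059540382027849549035991620809728273428843177700766811456417872830526127434027942427188081665142651833115512400751209229401759883276971757099904016345235063716760783185562849435248764238548001334864987694923703303123880977535432261742686686460322053209809983617278218684656843077092560859000765017444208986553071535377666220431716490673034096350950954390655570328651032204862014793732050215728727311661657764860586293532858526820299548701687996965628352145578136878413705189816582878742981193514798436535947456779599560669505760280150914670482948942736637239430888865342599451003350231255269738624808440877184245528108852047139515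6033684420326791242274799842470660950459859937669378108609832215539607730529538416524610458700897895490043868953824339032900191569526071617492855484826018346435511815108831723256387020959854735574558085395178719316794434266576672785419712962688831361634729797232268585239352423279916858802287881064301879991414350571463162490850688424942223277939790030631533582981722193865805328468456984273886860810452512258957535591685700790367469054955955026512471524165117535495967754713053399016964779118544005063280581962838436788704150509242364192592517240973975123903328733203753059416391720511754734269330066456651951413359005990353276924638404917282863832009146120565130989067745861098745753505230269653473058758847421031278754407140637282047092411273835823049550842354178448863271226795371825052030014060764501541732035539516090175643501690017226999799714070370705146505072766118917525637905318575313146400906384921502542881772281719969461261894516586833689744071863481439306479075536861994549378135153593872277563244629326828758210819582366378899915340087247411202843565030475960656787818310003678465221138213463147561043585977398312062915644927148483089970006720063439294600630373130960896)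

noncomputable def rc18 : Nat := (nat_lit 53818723330581573675212033825380351515672141989520888193596758539274856199908892322078820811593649960190974397225129523169906081198971788274731870131004560393763850938958600065726383175013032561966017026719392622689799211819094634526179361284131353346225049092974880195121638596866715908272995828126084945321274182948826820818669459447092670470431855409483642487733442253067020545083280516411878238579336379000719999563393858337044436859709134680129811663863436780415492367348796641202507400556785724941335295821009402735517851258009857385706483091329364833759468078984581011144664992810934309933632386647378656205641168497065349700554550665327933177268139110701588851125028485631943309716132962681705053536112950919966047623008977301715477781168985169569583834299183660549252572227117753481778086628619754430978528406662922415789973790638931498778606469581375510204043731523546835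411790028933537977974409673328606275422031137508535099567335281129917756603361145745236335563391735862627498572100290282323126995290798730522915568206092024221752019678475612694663821920707152185409986582329192488314521030053715628267836969825325395075129797339329723540543542482153600536931097418054388880884372524756321067067502420802046883037941787167746572540489539487086090709520688857428164617163904004249254198312193810509976653368173242342218865331673323092984350054497035926519569934503076185789472330607576954712754701232025667409391224598153909903859172381860062195002732873892815372463859388988323107634327518201122051443503694172331310349684921159822002406016049270480173108774866922334491881480984764708707502889892486743112281007672094985792786611232804088185839404561695840425135844320737001467384613813546163301295479236116791022946604152945832423082668094662136140575774096658259084930072518691456368735363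007630323024124825008187363441673934047414196817715559695295160293362893156867123002802359128008029237618016640066806463773434459717707840018037189388169334322947732266052164015967063350751507700250815001635534478172271212257432234037452109502148782113440872083829747567486551128243538593660868918581069516437060909316747161858799553588862346212813094604407689099942365083994796678637329634086232500434046836004032479825291060851732762188965134257443578502947156098428834549443615611858409551640159777562196948001306592135586968021453518161322119375471226498221175000857847453684542214987916437093647688164200813649797116138450240575547935038792574809167577332921716348432906811796425325622119663839011437439479477379128381152837498087876028233501035539879718582602601201949099466990242598284970667343738919333470670436593683558982497379381606197317115051553560176512423051654812215989197541203476192205189361534449026446610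857325784881496943536088045828703335585824059419967201891344832292580531412056493829404783727970821452827750218949558593646888636260501732304511405127002922353667362683093037038846965511220377605020062481974695675715357282566190756173223358404704368741474043073700957687258311456160785304411764345313592372253216777665019281006278225888941004518422680679285304090856061695783559942354913228814253424885028664155748814961514338650446086820478296747051317363023924662930127363620542221012359451932435280316171579365940640866365408425097946293060071818060105986666666231661474915527018928729919762131449536592655806891605402987901550673569585106308068947740848284067530355126744379653230988048990337712210666326420112942686519509316935334888803254182520175441278397767146400211946028704993653213825089572053419137537431690367355179176299066676539342258984483922842879644106136923010821239490485462792226451113600183593065585010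036846179341924575763553490128947662613181655166786726988163771544738874639752151978843534928965838090071757824129710602786737198968514393252400922569464707322852868101813075058977596803135572818763177912222158950608754626478500630022393949711168563475924918228531342347145423770065859206053972783111722157582722827247715566687061764673188665912837291954695202121842535089539993832360216730209420603734682009265299641195869116107126506754193788641495904786291008082961204739164449253213692572289484476086298647911924912521856578147157731129142549242792549468399306457085629911355050477959729285845097592975472562399764640212252216845445424242168254600801294445321943167228075608673859957563372740442521102648342842477883150929919122184418344437066693615229687118699780276077563641906265170092468983845067547942043863827266287096133851529958565947121785138965351296019787818848540618316752291496372741683894813340071791158720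718908070931271582030282569051003182782118810266676573959790991633777792254465004025496352677978791354625886126050267120321431207075880730692530954790363741995459479194340289415426397811135610983262163018967369965813225773015921039117186960341350581066976009640442964625125609668032874304900813884929184651947862676523317734600133635533898670786335124553204893670596036302852660984342597228210108768757510210238322082704821302399953584561585933980816565783101246134699550877170943252008885197731425094252943074977607542931042683609532367120997493752653579394065685674600659735758727244050728237384008306336836758857028568558048114705635155036427849751030412709158182610627584974993702659366954525996643020560621893760434112979167632980846968143843328539017123808799211234454602007213813268345290678058323861146091899078297859354908412227245970772210580220371350287384362597585764343497331208525883526766979577950569101307352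695673640043724349587169859181692677719254115727374631351771343526181931892237689101288012870679813967034018855957523558072961231608717832306985232314395547019629055711752273544407661854544677609094420371457898060346739901327669713266785007042651840892866315742015217164839321211621260814539419075501940108825587320795792457084951851969961172521137890981314939749506249460656851557965461935557431050508953291435435324177143987369555110466151888742627495550248341094803019270958018704444969472692254235388772248556878505798972361132319405012617970470280901264274115545694701041773939762491229329082468507535642750612190982737752818480558206990090622561891003212933209885841895489944061136813355528742486595237442383795790354905395715191643716282330964583372147812378527169799927760201747490142994843279545031188949448706784523335392893569186118769979982389240825047504098510779254961499222748280195508450515416234338702630930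151916258773495415614552369376413982741180541265312911163381261052760184852317098100097472821395321677118110657408191815535738809122029701676273015242119599214514751757996812186839587523898135600870293525690204694166064865631514326825759641277621297810854782055643593637880685748595764432364784110277513178757992894026432242993477658554031753021714629118641774852817692696929969464197364370275787642703504334695517479814402900818882438016171990580994991261343759434887068665733768942169108852170176215450156496769750201284251735441523635491702336904748034404023567909051198671042405582617939494103564293542758723718169829387218058169172661185018312863365349573554912373315685031129634727061225959158670092771147086180605345057693752255000489839446457909662322327635123790229114539051153817814888002581471977628261843349441407936764240098463975134686924544273152353363622106082514611764737814080065233816051388046019821310577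675142549216201168398159298547427692730283496392976455084301814086386421513198908511979905724324540844464838460828438610106997226272881077316318451239397207591995700282601001217418954884896835281293796007867436900901012703086921539785312474646659266519523069819569283860134062002309957514688346070188331048317239927008280336002386707212517967330860974645760284707582652243038618126418925004483183854246418760249977634395079071559870913629069581358484349422009808295534624623243773290549744820449191252979580430736521296525710913356644554592555529317971351372163091217337003211574646489752996150887716448074156140423267669875897390208615184603355575579130246965355440938993691534312610211124236592983805154395326362411844875545416315312863601970938057176931716654146097648334076424629806405710828951284908483161387290309392733608859779444051308246624896582491424643352163192766281543338416154149657156467540310983053517212962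350331269977876429482997645936831724532397510496431789711687771423633014561654816041049683406100508453179260653800957887832933035864323748613997375248250383895837284333562020563851839446336870560051981479640547490143906873039961484114069509847012995248248511159605862013577379681894738931342016911309749457493795182157548041869152568987931484930560329614550541634920513861737305106726915792310090046879807990165587294202973502196210010834909893968932982516253651577938044584888054904258213286821551150405847883795640964312352001822817552010843851041231757129007989186770767422821901148335003757791248868819639017948928526025802639326783821995735770833680599760644286144633439498565745970732687979905161373828203050455622323029510435241231615046373237530092969398594734390752827394943495339164556869711130054226629719389948183314549968948778683443678722265105534704601591408840016992100869869162153381010522019463425246559342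4689622282085037140025018057735187830191942727246457201541659422605823928461578957662120955191882335424088324936624318272884356705839298596432066076849126298721811786712931092636276547463936195017928271540987153765587094215593968338202722987446862222740127831292170226357452477579848834022832169832177539364745554267058580409024807940009211368456215801148144538720558594595744677745342651777549074551788122899068565206615669693390282721405547782318860030160794571013533046468151673502362589038420681778717730364523854501308514955228477736952955011257319463283725794412771259114498076907323269725733536868028128465050854171041491240065992546497975157763617847153351521556092442513252005365815579940959086813269903701678544711163822221444662205097905145238626675265758088456605842588279181289095851186934092722848393220085556407372689138603451968756963172691822639336238297006323292233443679812246488513610910520380848207709556622039239018420180079600972914274365329859446524156842584634421137448812138821305266864956491415540602207397338705737800836166624211993830126012324554917113157709723429939818713506072880327604478223402712660919591610785501602011912589349683318330114918024478720)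

noncomputable def rc19 : Nat := (nat_lit 54362955634728842142516618001417057891946916045154152499326507664513298969384665075825315487950137046658126052679145200680809535719262975991166625925856415750440414086508966023037981230809989929808431177926357265894420750637891316498528929705577946533299434252953009598980230873644579828044491581606171242541772654130534820857914709935078503019805434004456192071978993720215116102971562485862604910275396147879067775908264333906409819790060048351979866552247790822260693095718835487619397259081348837081398106891349318885027990818981448990005849179106238354154885695652604440815088270940565801360780688263519069885036720344201243520576676551492898794465434710199405994398133915875990079426334173384872144352466420827569102756645364045587598491588695016635710462850593502490997340225219078409075840364657832300942590670496595943816414428106484242301183678916878339429544433857627073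235494814237550103104596062436969708725484452266925902044978044512791738801003915705357295027735877494966842590029234855922687395177675747308343616231329347199520121749189500803744569744305911840605358715538248314564226667053380248137913182948517317990930665294949983078701949806416543266098687729558352872615121775809451312145386872579082608061616079650513512826105822481351094575539157347884072960815134316362681689921730571782304847906876419079951991806187882866100261134703447755797998479407745027906793390301687714370562047568770601009792192090321154701512894282518445765828052798998327024220989578052792280369187462899309752149821370419769215163292878144878827688752553797101208813408384975345606247121316049552502795043926847748309378448427118855306691619187672686341184055711068562946642002078500973094796136588124156279122064576950526391305748168384196058660829682639346668536412353947400306081457846570082548820058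187870432020865312509343147843097409258588017543482920991923699924543703561856802483378976562180517749502155875648687907929697186202148467127534571605396900090784782467281513872947121527439979052275022131295199955629341047143110762557758111627812810488449647812095540802210550418127962655387841745452811614216253722637182714867839994274328365513389369909097477381981963501897986277477063824868695175974294886448920197042837382478625447687211376514177441761664893741466955505088531147442218100334343022917028893884395686152295155288791338995365277493089198686490531013219504320201142870480190735571188719311900843563094573607969941853027573520103517807302762025612026970096919258233495722906853682984957796237051048755937701897691104919425181693890069328209626009231374481056021199567212116927055511948758823559636566196946361653202240038227263350816340162996209232890823942499457843431882388291882283443777297161512990063271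601335339095049142722606081333929900630966956543901298928668265575128123966977666824436398837382815761740551039527821156365239984581826691949780104454260240180530320380536908275968796710204523404052877032304056342394466038070283904074773253497293277341313755727468610151329109934563088718186220586027210193425175438468156134751618239881013072048275629200781106285488949715456964204024192823236748703272041468035242361939333911972223780822782874568436681859058851055335765363858430433085181345254841309603319175348756371534585259695681602173350129994030731477512996672480366880142426958473052570269624021198034382646387960780245382038927630077005972721206413314808931800649360856091581832185065972738140132819994394929176575982702720201946326335960612583420932976358496215684539995723427597284806751092311090042146305376412367408341308094457775528503206408854998501334327007851778307669112100327665913667968953480583114223953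437267313764751083233259863226211369922577785677202145182487882623133597037313132925924525578117400166829776635121150288312069626606821764481201714879953902630357229336739218767294442580950809112526434821776452258126411048466272833121661280955707474121782033089304267596131962828238949646494982971305212126931584604989886789827283921886229374126116484425104387583066450538983970306683724942622573562255261955845129543298403199434952232585877712253164391481595243113754537374666885749322448655087519979553861554327588075440590701146438606283874558028728337004448327547327560424708553909811191559090347758817463274538829228329250971857025437007280546341612429970759166442104743789348984903632778114272310990650344074377964166488520373400838019760159359028499892240006174199914933074166248529195276021298508515013226356204338957532358718506850390706881128756050860504378909482304311532714591566681707397837426139042533367379349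665489289010895722743196648623597638237224937525324071412834763175746637059307996988750670616230983138873700944406206243564920817415512754823321569212397220096132968246384165006359513779941418823753663211008923424964032610152303520593039933505739369342699355250604397490168019641339428750033633604745791495836742384828645191038224941673248127299431321768335480695063595065139367965292303655415305315347761135231325740463035839652652276002925811950480697477673853418428540748068096826017119053903980106251968889860864017803228954245809440720939238761904699242646102643439265621314872147456568669276629854469243624465272456553371194148484315663387804642216485711278627118747964107523313303929668876194453229802466277467985259592775401071985546612493401112537758544895751105039173243796139017613311641622832877249455814759599362115218603358233306161709279944564282379158287305372380764935965061660635560675630081009563762575362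042762778792051764094639141998691439462745965774400940699631109746887059729279623491861388592991124611914027528180306349188772759824595256394241357328245246816752378059082666093358830862678360598305631197023732454046033052886847457410541078222896433117813293401707362195135655560265347546024138986697124312489453496343562936295738363861183615446452459107643468592745904965594856968396528195073555124316012206460690084528320646661500055284340308350261471021593795596067167108858454004882260175711338282267603975963316744752083435571721975816613155126616985290068950404235072217955976897308748776861532116629481314291319950450715832793801964710657333727441786056278801547749573869628356142756721370556525486327383921551982744518490126289615463528307485328004734085692906043455110930766062259192070845917236459111858773294510680017213044462791556382997622050826644119815702005174608707130670122852673883568983894898641945511839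793260562304824467988437307697268714176298385144402434732471310915124609792021201408730960610023321626375437301572428480775435391872616085392513860351402469433901807109575878551769931733565132490357616146104118874075804445095092254792034548919247487015054898569577274815849054342015787089519250783387340067633757040028104581827396725997394352398578705883488762911700457224795777739202472290926944498510162520376564288576743269126431595923880969229905796802497417119156177797919385070257293415014169835425594773607544730596657240286816146836644130452297864470617099349929430145971604740041091307992734060932337689723262411378047270502215123255890621908585009583242219677445225377254300078213867928381327165124919864469355550957674837908150865478788117547717887628713035485689499850632062899034756872533133290992183347488618817287401235094998026948505475425571952784741677035768064404635184581416578930883350166432585873993973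353931383863524052949460202015909886428279833329600075499362354493044811714850938119875966473354891541942994154544730876944640641216524563193407198902936145814543178651511847558339202285157540572923756507078235829841370970331902583727703573003012121175440442881203978253770028304498332696479110309641530724574924232730175091902430766548567982219127550664247992933235141807066392248990911659930279838236168515050190462646379490970077689636068648542384619536286525384287128835494121673131961214818946890821720364337514759411498633363144195384098810660227447199230441926612610570007281759741607880193609226481507609011012032782248747192749668295939402455399455544456926145618324250411226550931099769401544610684506931545224148566387318724662074926102596733476990519662244584543014385631356333700525594898088333501833036499410833501098838037046403849600078785510411647697838365127451218745555220592555218110744309831561070622453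475895857934632037315541565064067213882805648116486658510833418100900892228166531165842326126201244874550777772394948129246409045594342593797290705823344493871345921481907581863846463235991245000914543531148158492438098360351197483897378373847192989877336888077816127726164010594105424734620437011166590727624587004516598662142706548182324664956961657387126132759531942884975015531899028815111888961043904882792987092387631457661411748942259719680134562813942117267916818060107976453964924840169310603723133130210063590760365062677606147274068569954264992822248485706663081105326890855955899998761379930053256790903585545330942491594650962633701838642574942170058059397981281101510253197494373131382690841354763726034573863713494593409116621062280255216281994893554333907886195934951162315988302629603989645663403954363121218038820003390854381896009999121225128659398551744305605647746330634926711401313683120315977747237929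7744022831842428676067874959298504930344385637205536406794282501487318565539768721785992504427393228325591178773424015037896472615793322664628576684332153132027136118115001351473456015154640050927488823256378111282065443356407795892482007745991814953037447236450688945001125777117851966669452342618562558258157805292852240588556246779751509420343666833352186286300565544519984448803090246248976443379014339640364268004644737190738866416700221341455571101949477566620674587887255825208333647013717992248045794984150353360710698317966970613020094966669287232438306907504828773346825163321316223898275114364082906139622905493391079474283402464966640117465386234538446838909002719391870444858332746222557533007157945581577186211183996126093811923554907846059724068455263379502419777304842810443889510850277006779247980774935088390254288432469172859594323946573872278935147742873227271345761765559546093938991534816493884469980667325476878532967814986804987395170179468428670430314325347552206456711058135743727402694008469337487585930401029416640701724344949871606015739693684057881749072418844746052556863977454261816250112130009413777911978700405520640616087952562371840474124717603684352)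

noncomputable def rc20 : Nat := (nat_lit 54632269090752634209682110197307932199662601611964270303209551060763342480970448153420399030066137434879021178771585907274085603439168360268960151464897241323068334570977718152470981078759466571721032124677204637567181620316480504268620785066068447411270007223562357130833087764657083346319953509532135372965490356363726653445690945163872552922043231764870214786206062325685935724711420290688491006636276812476911484547913533611517892014478165177367835699936918995692074913313010162596144859430529381813270492483082411733893594156631223150294111295638636947451486702361258983380185540499385605313480508689544073154013708520728270539412991553259467679759510372357638719330376441690304255803741734837909083184412659092395442582181004460155872544144220429659281782653041734330559631749392185167319117660715779821421114529661181261399544478031599136899279268651499015275318859746142606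886420913150816109381395864497981968702453089652374061110800874066591465392039489460760939481126149167046382984318811376137973157179934417843850270981579197916653600236812822554292246550990005891320484582805798556801997431531849533008051342328523860511670045668528193379352171008585766760620379651952806692168474518555580856686543128169175551147676238589897985010769479855043122378756526108113717354970957012171742385426528856907382701007209226124188096304491663980289164675488745196039294657904087500106633529241245573026754908150855646549771969688373301724067985131517750853344939894102262098131590124035289554814910643784204015293767944073158532084440956486599053436181641996915315803094631367475303414655022009378513467559468743897719323304679720595981245708398278603835628522886881350302867493269533018556700582387267348221918821740622194097586656678581824144674705215654089688636244750128732296016004109925531987994350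302590589688520097183153439743296010219119329302272850723309989597534331510292304773105698364228807474365505307572133879920600964985400051852979428373310803832303346960788974209044240201721983887894084381497407518734706800994299752952928552559521385168578207501779921873987741816450398505580367578690225575658659277012552170073021524136626995666864693293059335306379718511999109648492710417713600267714288903921913800045683741515377993879659085170965688046448341058335411860287550784192939075150925478397545239555817419189765053870248328878231104712397544761442735436339951942973418913664408701474506871159075351082950043491955946047018457554600712249181341427801784703528320626279480236501432340035199236699424522219265748841161819818460598959999537642367564846256620830706327081427371372644056418045090529052635181385700553895427650306448249998196431622202745422149597074649900011502297449621424480857426498532971108374855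213325525008092577878080781208022108813270775228034913000630150549705621072501156624887329363754285993186413555830692762702653959591448927449796540076671886923565538230351443806309282094590198977850648876935647205855864145445373045811004071085013504112056674403860908309242732658267866922447152735253833909839686903041445137521797265771771433015249914226233773800877595390609540650423886012198282882433972683899975468169266163768151833405645780823800771040476530332888547531028091980962439922854546402309903209923386888560556870036114578079980538582942499368440862281142580692006316613669812858567817303318439919678098685319703727955731815894307395452197643733966035153822245269262058794056274927669015388392568868566964183927331098263750262983749877887933919659222360423028441715363109622712377459511516386743858446371640247623607591397828182412094091713909867797626884992888691329173928244760269507403761974506508429812837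965417355351320252953405896016487685328719061011894988905219671483308096056095126207310654704669658613318320303899026816613965270654140858144876883258386647948557037381770698606515975859862301352822542464343992506940829080367475994368547392522843665008561261163745057308193966342202552741432077341960037362438193084324655798962646941955493564119107966096578641006027209565071431135349231768587066930681091984568035448239426496066987525382147844090191997801622865559730528544752628879848502197418493911014028933846417526555542504883320812381291359748127003117992089505490877169338848282927391705609479973541963034158472013569048903838014061869194123440466104676385694281279190872815785546553022769793628169227689559564368193299420711394841478576066101137947614036522106439835268320961114073702080825228852593544524164442702525068199804792611454284216370951876765112725953083192072639079927308673001974597326173066636596654088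959364803818707363705392177814060090855817670190652451333184292222138526914290533379381967256584475123422584798428476979524821094071702847158647116769828569858646578297129985601084485539580345296792130475048831514705521557615785941258203540244419296852142759502652388598879158456897315406016707153050100910848022000350091401674875175565517692628257015820692314357045846963792449300772970668395654536134647448003450364151660642483372394695699100324775667147470650461159324629544372416428329062193580881109898563129193679216856602293906128960210893065933715133576180640981518754596353034895706269087330916282700800405542234240532199410993184641676981646320906160161546731174918913621443397308870956113794811404123959144108060827666546932828448166275399170387673469309791665833677223997824994357247401193622123641754118227747343837339554963579902000514807469465457486531369947833150083445049074524150527169424622126538681269783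415898795883392251250582788910065565369521219131756968219234454411773301219557126021909225174743781395655147689553340894806103382007309849179712000791160957666511514837352782371861771197274782569674917744591210669810501923632338644270425440252208246009392233712109947805940136289817081734445280758994202494373271227796891281351852373074920314087541842254336338945800478077071394047985188110717899447471883427624192938654606806904859919164552602835009637920307885627792213886899004017762111365639741353451114804798036269007841417106336116961290345965901550573246633822952887615793378269705002574180326228731237084235428242146198538645117017462700812965479178885118016403625252819930292263635329485000602389619416186160021252021177126636895490665368711332591315090840629859991208050679810185535817328271134939250704686897496982901741334977701450271876296518337362996009206895925725741554437836879666327206735652928042971122619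288240105281404220239727616487570363979314385127905514360347516761877333631750469775274743190743918993554379723824582800179408052674069040245694468018817662579257961477565592692502918410139437026371456037482280770810561297053511379149899813680374851072368048388041984014070549862376925293786683303825996120542782533690268147729691701060611213407724989810358574526861678949438833531538871951310105679325105547530601955858422276208055393286652239162619919015413309034726240487792686684820026319503797453049271305584924910234511900858419514227503899884513821451228722770614840600189508918922838295648815149674576932461055215091348020204948041678197446012194676297360135173170155270787774741953101729512725129366668476733075804859200285283921196413845496903530183579210468979322037088581041120897975704547854835704167898388111762378254498386215897292425494429739581940090918457704551501127159307235748401383360548657885674193518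599096847181431970720042841162603011662042721752634521870801336228688573671255317202794488946225662001062512752072545225983877880864553044707080520872268640636465343810454059780133109228427409293009408554774400306358456621000683655691551659656159713615101804275830060948998522836975108049628275267464141900528583383187864055011694032432144570906412641081950482820173576589160265291132923392338528004959107182920994544728875441448027323143175628331700477073036837481081089896089593290741674019202268759767071158457017453875226159964171744457434058288247295126570987144644416568068867875098950851014694598718308962522662657596468067516286389486949155143299231154384262994279338616700863247721752742696187385091733901598850961739360539648644833324924475370714076283251945354124847342553487424162286939785333675493943040660724521039499245457025867315112103851444117054637293126363289303844701361738149755065753339123709887630242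863560158630967827169420919364673508274425728691809382631656351233911493271474869798252595156394229919378500770827038112385107993211777757171878307161196727564525670346052163128185352179038439680517831276528398838381722163751025809911825514031854804040603607113698082012576900249124337419602606450792849349840175955078140674219465064520222172823713228197756197150051169720738578482332007302844447272588203396171674612661384442898435730679750488153955391148595545056603283585927294014324957901297777190436685971194101192445829432318035035581873047847614272752588452714659916791553945305878519780439780649116620207969634007885071998180117506804186792559701117848901321146673695765110303727854197220064176664496068080995304349872122096415671472929013113231501219783693034013725738584653112432397545348572370572527150048292457321042166276802770743059194627086494538541279313845209903845078502465249307729161477777399789384019525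7106329559072348077112270112970832427545648360596137854865719158580607761933536785146954409595436455746022429162632331775363522367034103262099960761951653304596472621328946038440380034612322716545467870922365732935766610500166052125170885815948361197953503244134738714629602215443083172111083523427530461560821138192287930838101953627431964605852390255165225168653053981462768311511948096579121865705550958977374185231801769337293241859366426331895704996870716930416586836275553687957894887180758106185269210668257513708850897072380738653087615381133773005287688062843557257704386404910834097883061207480079695074441274749226662803223426882656448797269939702388638615136370472828912358053691927248575155584592040294814473568640875743395051020295493187170339695609896951183124055646951693382408653312886414893551271165940585625022041303613053729518272172550692302257174652703810511488480847975685008983334358255308385602946622367191906404979616391962640485134866077368048484601329137926856779486819737888636479181683267733215046284925763264265829105858871585348678242694951777178099220527944016992227188161859008013744479899583021691220924457467447818836921285955358113467537287792295936)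

end Vale.Agent.Lib.P154.PChain.BC.S6
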