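import Vale.Agent.Lib.P154.PChain.BC.R6_2

set_option linter.all false

namespace Vale.Agent.Lib.P154.PChain.BC.S7

open Vale.Agent.Lib.P154.Chain

noncomputable def pc0 : PT := (PT.nd (nat_lit 8265348) (PT.nd (nat_lit 8077992) (PT.nd (nat_lit 7953192) (PT.nd (nat_lit 4768764) (PT.nd (nat_lit 4706364) (PT.nd (nat_lit 4706286) PT.nil (PT.lf (nat_lit 76) (nat_lit 6) (nat_lit 1) (nat_lit 3) (nat_lit 262) (nat_lit 75) (nat_lit 263))) (PT.lf (nat_lit 76) (nat_lit 6) (nat_lit 1) (nat_lit 1) (nat_lit 263) (nat_lit 75) (nat_lit 262))) (PT.nd (nat_lit 3184350) (PT.lf (nat_lit 152) (nat_lit 3) (nat_lit 2) (nat_lit 1) (nat_lit 262) (nat_lit 76) (nat_lit 262)) (PT.lf (nat_lit 5548) (nat_lit 6) (nat_lit 73) (nat_lit 3) (nat_lit 236) (nat_lit 127) (nat_lit 237)))) (PT.nd (nat_lit 62400) (PT.nd (nat_lit 62322) (PT.lf (nat_lit 5548) (nat_lit 6) (nat_lit 73) (nat_lit 1) (nat_lit 237) (nat_lit 127) (nat_lit 236)) (PT.lf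 (nat_lit 5624) (nat_lit 6) (nat_lit 74) (nat_lit 3) (nat_lit 235) (nat_lit 128) (nat_lit 237))) (PT.nd (nat_lit 78) (PT.lf (nat_lit 5700) (nat_lit 3) (nat_lit 75) (nat_lit 1) (nat_lit 236) (nat_lit 128) (nat_lit 236)) (PT.lf (nat_lit 5624) (nat_lit 6) (nat_lit 74) (nat_lit 1) (nat_lit 237) (nat_lit 128) (nat_lit 235))))) (PT.nd (nat_lit 62556) (PT.nd (nat_lit 62400) (PT.nd (nat_lit 78) (PT.lf (nat_lit 5852) (nat_lit 6) (nat_lit 77) (nat_lit 3) (nat_lit 235) (nat_lit 129) (nat_lit 236)) (PT.lf (nat_lit 5852) (nat_lit 6) (nat_lit 77) (nat_lit 1) (nat_lit 236) (nat_lit 129) (nat_lit 235))) (PT.nd (nat_lit 78) (PT.lf (nat_lit 5928) (nat_lit 6) (nat_lit 78) (nat_lit 3) (nat_lit 234) (nat_lit 130) (nat_lit 236)) (PT.lf (nat_lit 6004) (nat_lit 3) (nat_lit 79) (nat_lit 1) (nat_lit 235) (nat_lit 130) (nat_lit 235)))) (PT.nd (nat_lit 62400) (PT.nd (nat_lit 62322) (PT.lf (nat_lit 5928) (nat_lit 6) (nat_lit 78)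 (nat_lit 1) (nat_lit 236) (nat_lit 130) (nat_lit 234)) (PT.lf (nat_lit 6156) (nat_lit 6) (nat_lit 81) (nat_lit 3) (nat_lit 234) (nat_lit 131) (nat_lit 235))) (PT.nd (nat_lit 62322) (PT.lf (nat_lit 6156) (nat_lit 6) (nat_lit 81) (nat_lit 1) (nat_lit 235) (nat_lit 131) (nat_lit 234)) (PT.lf (nat_lit 6232) (nat_lit 6) (nat_lit 82) (nat_lit 3) (nat_lit 233) (nat_lit 132) (nat_lit 235)))))) (PT.nd (nat_lit 187356) (PT.nd (nat_lit 124800) (PT.nd (nat_lit 62400) (PT.nd (nat_lit 78) (PT.lf (nat_lit 6308) (nat_lit 3) (nat_lit 83) (nat_lit 1) (nat_lit 234) (nat_lit 132) (nat_lit 234)) (PT.lf (nat_lit 6232) (nat_lit 6) (nat_lit 82) (nat_lit 1) (nat_lit 235) (nat_lit 132) (nat_lit 233))) (PT.nd (nat_lit 78) (PT.lf (nat_lit 6460) (nat_lit 6) (nat_lit 85) (nat_lit 3) (nat_lit 233) (nat_lit 133) (nat_lit 234)) (PT.lf (nat_lit 6460) (nat_lit 6) (nat_lit 85) (nat_lit 1) (nat_lit 234) (nat_lit 133) (nat_lit 233))))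 (PT.nd (nat_lit 156) (PT.nd (nat_lit 78) (PT.lf (nat_lit 6536) (nat_lit 6) (nat_lit 86) (nat_lit 3) (nat_lit 232) (nat_lit 134) (nat_lit 234)) (PT.lf (nat_lit 6612) (nat_lit 3) (nat_lit 87) (nat_lit 1) (nat_lit 233) (nat_lit 134) (nat_lit 233))) (PT.nd (nat_lit 62322) (PT.lf (nat_lit 6536) (nat_lit 6) (nat_lit 86) (nat_lit 1) (nat_lit 234) (nat_lit 134) (nat_lit 232)) (PT.lf (nat_lit 6764) (nat_lit 6) (nat_lit 89) (nat_lit 3) (nat_lit 232) (nat_lit 135) (nat_lit 233))))) (PT.nd (nat_lit 124722) (PT.nd (nat_lit 62400) (PT.nd (nat_lit 62322) (PT.lf (nat_lit 6764) (nat_lit 6) (nat_lit 89) (nat_lit 1) (nat_lit 233) (nat_lit 135) (nat_lit 232)) (PT.lf (nat_lit 6840) (nat_lit 6) (nat_lit 90) (nat_lit 3) (nat_lit 231) (nat_lit 136) (nat_lit 233))) (PT.nd (nat_lit 78) (PT.lf (nat_lit 6916) (nat_lit 3) (nat_lit 91) (nat_lit 1) (nat_lit 232) (nat_lit 136) (nat_lit 232)) (PT.lf (nat_lit 6840) (nat_lit 6) (nat_lit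 90) (nat_lit 1) (nat_lit 233) (nat_lit 136) (nat_lit 231)))) (PT.nd (nat_lit 156) (PT.nd (nat_lit 78) (PT.lf (nat_lit 6992) (nat_lit 6) (nat_lit 92) (nat_lit 3) (nat_lit 230) (nat_lit 137) (nat_lit 233)) (PT.lf (nat_lit 7068) (nat_lit 6) (nat_lit 93) (nat_lit 3) (nat_lit 231) (nat_lit 137) (nat_lit 232))) (PT.nd (nat_lit 78) (PT.lf (nat_lit 7068) (nat_lit 6) (nat_lit 93) (nat_lit 1) (nat_lit 232) (nat_lit 137) (nat_lit 231)) (PT.lf (nat_lit 6992) (nat_lit 6) (nat_lit 92) (nat_lit 1) (nat_lit 233) (nat_lit 137) (nat_lit 230)))))))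
noncomputable def pc1 : PT := (PT.nd (nat_lit 249912) (PT.nd (nat_lit 124956) (PT.nd (nat_lit 62478) (PT.nd (nat_lit 156) (PT.nd (nat_lit 78) (PT.lf (nat_lit 7220) (nat_lit 6) (nat_lit 95) (nat_lit 3) (nat_lit 230) (nat_lit 138) (nat_lit 232)) (PT.lf (nat_lit 7296) (nat_lit 3) (nat_lit 96) (nat_lit 1) (nat_lit 231) (nat_lit 138) (nat_lit 231))) (PT.nd (nat_lit 62244) (PT.lf (nat_lit 7220) (nat_lit 6) (nat_lit 95) (nat_lit 1) (nat_lit 232) (nat_lit 138) (nat_lit 230)) (PT.lf (nat_lit 7372) (nat_lit 6) (nat_lit 97) (nat_lit 3) (nat_lit 229) (nat_lit 139) (nat_lit 232)))) (PT.nd (nat_lit 156) (PT.nd (nat_lit 78) (PT.lf (nat_lit 7448) (nat_lit 6) (nat_lit 98) (nat_lit 3) (nat_lit 230) (nat_lit 139) (nat_lit 231)) (PT.lf (nat_lit 7448) (nat_lit 6) (nat_lit 98) (nat_lit 1) (nat_lit 231) (nat_lit 139) (nat_lit 230))) (PT.nd (nat_lit 62244) (PT.lf (nat_lit 7372) (nat_lit 6) (nat_lit 97) (nat_lit 1) (nat_lit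 232) (nat_lit 139) (nat_lit 229)) (PT.lf (nat_lit 7600) (nat_lit 6) (nat_lit 100) (nat_lit 3) (nat_lit 229) (nat_lit 140) (nat_lit 231))))) (PT.nd (nat_lit 62478) (PT.nd (nat_lit 62322) (PT.nd (nat_lit 78) (PT.lf (nat_lit 7676) (nat_lit 3) (nat_lit 101) (nat_lit 1) (nat_lit 230) (nat_lit 140) (nat_lit 230)) (PT.lf (nat_lit 7600) (nat_lit 6) (nat_lit 100) (nat_lit 1) (nat_lit 231) (nat_lit 140) (nat_lit 229))) (PT.nd (nat_lit 78) (PT.lf (nat_lit 7752) (nat_lit 6) (nat_lit 102) (nat_lit 3) (nat_lit 228) (nat_lit 141) (nat_lit 231)) (PT.lf (nat_lit 7828) (nat_lit 6) (nat_lit 103) (nat_lit 3) (nat_lit 229) (nat_lit 141) (nat_lit 230)))) (PT.nd (nat_lit 62322) (PT.nd (nat_lit 78) (PT.lf (nat_lit 7828) (nat_lit 6) (nat_lit 103) (nat_lit 1) (nat_lit 230) (nat_lit 141) (nat_lit 229)) (PT.lf (nat_lit 7752) (nat_lit 6) (nat_lit 102) (nat_lit 1) (nat_lit 231) (nat_lit 141) (nat_lit 228))) (PT.nd (nat_lit 78)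 (PT.lf (nat_lit 7980) (nat_lit 6) (nat_lit 105) (nat_lit 3) (nat_lit 228) (nat_lit 142) (nat_lit 230)) (PT.lf (nat_lit 8056) (nat_lit 3) (nat_lit 106) (nat_lit 1) (nat_lit 229) (nat_lit 142) (nat_lit 229)))))) (PT.nd (nat_lit 124878) (PT.nd (nat_lit 62478) (PT.nd (nat_lit 62322) (PT.nd (nat_lit 62244) (PT.lf (nat_lit 7980) (nat_lit 6) (nat_lit 105) (nat_lit 1) (nat_lit 230) (nat_lit 142) (nat_lit 228)) (PT.lf (nat_lit 8132) (nat_lit 6) (nat_lit 107) (nat_lit 3) (nat_lit 227) (nat_lit 143) (nat_lit 230))) (PT.nd (nat_lit 78) (PT.lf (nat_lit 8208) (nat_lit 6) (nat_lit 108) (nat_lit 3) (nat_lit 228) (nat_lit 143) (nat_lit 229)) (PT.lf (nat_lit 8208) (nat_lit 6) (nat_lit 108) (nat_lit 1) (nat_lit 229) (nat_lit 143) (nat_lit 228)))) (PT.nd (nat_lit 62244) (PT.nd (nat_lit 62166) (PT.lf (nat_lit 8132) (nat_lit 6) (nat_lit 107) (nat_lit 1) (nat_lit 230) (nat_lit 143) (nat_lit 227)) (PT.lf (nat_lit 8284) (nat_lit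 6) (nat_lit 109) (nat_lit 3) (nat_lit 226) (nat_lit 144) (nat_lit 230))) (PT.nd (nat_lit 78) (PT.lf (nat_lit 8360) (nat_lit 6) (nat_lit 110) (nat_lit 3) (nat_lit 227) (nat_lit 144) (nat_lit 229)) (PT.lf (nat_lit 8436) (nat_lit 3) (nat_lit 111) (nat_lit 1) (nat_lit 228) (nat_lit 144) (nat_lit 228))))) (PT.nd (nat_lit 62400) (PT.nd (nat_lit 62244) (PT.nd (nat_lit 78) (PT.lf (nat_lit 8360) (nat_lit 6) (nat_lit 110) (nat_lit 1) (nat_lit 229) (nat_lit 144) (nat_lit 227)) (PT.lf (nat_lit 8284) (nat_lit 6) (nat_lit 109) (nat_lit 1) (nat_lit 230) (nat_lit 144) (nat_lit 226))) (PT.nd (nat_lit 78) (PT.lf (nat_lit 8512) (nat_lit 6) (nat_lit 112) (nat_lit 3) (nat_lit 226) (nat_lit 145) (nat_lit 229)) (PT.lf (nat_lit 8588) (nat_lit 6) (nat_lit 113) (nat_lit 3) (nat_lit 227) (nat_lit 145) (nat_lit 228)))) (PT.nd (nat_lit 62244) (PT.nd (nat_lit 78) (PT.lf (nat_lit 8588) (nat_lit 6) (nat_lit 113) (nat_lit 1) (nat_lit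 228) (nat_lit 145) (nat_lit 227)) (PT.lf (nat_lit 8512) (nat_lit 6) (nat_lit 112) (nat_lit 1) (nat_lit 229) (nat_lit 145) (nat_lit 226))) (PT.nd (nat_lit 78) (PT.lf (nat_lit 8664) (nat_lit 6) (nat_lit 114) (nat_lit 3) (nat_lit 225) (nat_lit 146) (nat_lit 229)) (PT.nd (nat_lit 78) (PT.lf (nat_lit 8740) (nat_lit 6) (nat_lit 115) (nat_lit 3) (nat_lit 226) (nat_lit 146) (nat_lit 228)) (PT.lf (nat_lit 8816) (nat_lit 3) (nat_lit 116) (nat_lit 1) (nat_lit 227) (nat_lit 146) (nat_lit 227))))))))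
noncomputable def pc2 : PT := (PT.nd (nat_lit 187434) (PT.nd (nat_lit 124800) (PT.nd (nat_lit 62400) (PT.nd (nat_lit 62244) (PT.nd (nat_lit 78) (PT.lf (nat_lit 8740) (nat_lit 6) (nat_lit 115) (nat_lit 1) (nat_lit 228) (nat_lit 146) (nat_lit 226)) (PT.lf (nat_lit 8664) (nat_lit 6) (nat_lit 114) (nat_lit 1) (nat_lit 229) (nat_lit 146) (nat_lit 225))) (PT.nd (nat_lit 78) (PT.lf (nat_lit 8968) (nat_lit 6) (nat_lit 118) (nat_lit 3) (nat_lit 225) (nat_lit 147) (nat_lit 228)) (PT.lf (nat_lit 9044) (nat_lit 6) (nat_lit 119) (nat_lit 3) (nat_lit 226) (nat_lit 147) (nat_lit 227)))) (PT.nd (nat_lit 62244) (PT.nd (nat_lit 78) (PT.lf (nat_lit 9044) (nat_lit 6) (nat_lit 119) (nat_lit 1) (nat_lit 227) (nat_lit 147) (nat_lit 226)) (PT.lf (nat_lit 8968) (nat_lit 6) (nat_lit 118) (nat_lit 1) (nat_lit 228) (nat_lit 147) (nat_lit 225))) (PT.nd (nat_lit 78) (PT.lf (nat_lit 9120) (nat_lit 6) (nat_lit 120) (nat_lit 3) (nat_lit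 224) (nat_lit 148) (nat_lit 228)) (PT.lf (nat_lit 9196) (nat_lit 6) (nat_lit 121) (nat_lit 3) (nat_lit 225) (nat_lit 148) (nat_lit 227))))) (PT.nd (nat_lit 62322) (PT.nd (nat_lit 156) (PT.nd (nat_lit 78) (PT.lf (nat_lit 9272) (nat_lit 3) (nat_lit 122) (nat_lit 1) (nat_lit 226) (nat_lit 148) (nat_lit 226)) (PT.lf (nat_lit 9196) (nat_lit 6) (nat_lit 121) (nat_lit 1) (nat_lit 227) (nat_lit 148) (nat_lit 225))) (PT.nd (nat_lit 62088) (PT.lf (nat_lit 9120) (nat_lit 6) (nat_lit 120) (nat_lit 1) (nat_lit 228) (nat_lit 148) (nat_lit 224)) (PT.lf (nat_lit 9348) (nat_lit 6) (nat_lit 123) (nat_lit 3) (nat_lit 223) (nat_lit 149) (nat_lit 228)))) (PT.nd (nat_lit 156) (PT.nd (nat_lit 78) (PT.lf (nat_lit 9424) (nat_lit 6) (nat_lit 124) (nat_lit 3) (nat_lit 224) (nat_lit 149) (nat_lit 227)) (PT.lf (nat_lit 9500) (nat_lit 6) (nat_lit 125) (nat_lit 3) (nat_lit 225) (nat_lit 149) (nat_lit 226))) (PT.nd (nat_lit 78) (PT.lf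 (nat_lit 9500) (nat_lit 6) (nat_lit 125) (nat_lit 1) (nat_lit 226) (nat_lit 149) (nat_lit 225)) (PT.lf (nat_lit 9424) (nat_lit 6) (nat_lit 124) (nat_lit 1) (nat_lit 227) (nat_lit 149) (nat_lit 224)))))) (PT.nd (nat_lit 124644) (PT.nd (nat_lit 62322) (PT.nd (nat_lit 62166) (PT.nd (nat_lit 62088) (PT.lf (nat_lit 9348) (nat_lit 6) (nat_lit 123) (nat_lit 1) (nat_lit 228) (nat_lit 149) (nat_lit 223)) (PT.lf (nat_lit 9576) (nat_lit 6) (nat_lit 126) (nat_lit 3) (nat_lit 223) (nat_lit 150) (nat_lit 227))) (PT.nd (nat_lit 78) (PT.lf (nat_lit 9652) (nat_lit 6) (nat_lit 127) (nat_lit 3) (nat_lit 224) (nat_lit 150) (nat_lit 226)) (PT.lf (nat_lit 9728) (nat_lit 3) (nat_lit 128) (nat_lit 1) (nat_lit 225) (nat_lit 150) (nat_lit 225)))) (PT.nd (nat_lit 62166) (PT.nd (nat_lit 78) (PT.lf (nat_lit 9652) (nat_lit 6) (nat_lit 127) (nat_lit 1) (nat_lit 226) (nat_lit 150) (nat_lit 224)) (PT.lf (nat_lit 9576) (nat_lit 6)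 (nat_lit 126) (nat_lit 1) (nat_lit 227) (nat_lit 150) (nat_lit 223))) (PT.nd (nat_lit 78) (PT.lf (nat_lit 9804) (nat_lit 6) (nat_lit 129) (nat_lit 3) (nat_lit 222) (nat_lit 151) (nat_lit 227)) (PT.lf (nat_lit 9880) (nat_lit 6) (nat_lit 130) (nat_lit 3) (nat_lit 223) (nat_lit 151) (nat_lit 226))))) (PT.nd (nat_lit 62322) (PT.nd (nat_lit 156) (PT.nd (nat_lit 78) (PT.lf (nat_lit 9956) (nat_lit 6) (nat_lit 131) (nat_lit 3) (nat_lit 224) (nat_lit 151) (nat_lit 225)) (PT.lf (nat_lit 9956) (nat_lit 6) (nat_lit 131) (nat_lit 1) (nat_lit 225) (nat_lit 151) (nat_lit 224))) (PT.nd (nat_lit 78) (PT.lf (nat_lit 9880) (nat_lit 6) (nat_lit 130) (nat_lit 1) (nat_lit 226) (nat_lit 151) (nat_lit 223)) (PT.lf (nat_lit 9804) (nat_lit 6) (nat_lit 129) (nat_lit 1) (nat_lit 227) (nat_lit 151) (nat_lit 222)))) (PT.nd (nat_lit 156) (PT.nd (nat_lit 78) (PT.lf (nat_lit 10032) (nat_lit 6) (nat_lit 132) (nat_lit 3) (nat_lit 222)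 (nat_lit 152) (nat_lit 226)) (PT.lf (nat_lit 10108) (nat_lit 6) (nat_lit 133) (nat_lit 3) (nat_lit 223) (nat_lit 152) (nat_lit 225))) (PT.nd (nat_lit 78) (PT.lf (nat_lit 10184) (nat_lit 3) (nat_lit 134) (nat_lit 1) (nat_lit 224) (nat_lit 152) (nat_lit 224)) (PT.nd (nat_lit 78) (PT.lf (nat_lit 10108) (nat_lit 6) (nat_lit 133) (nat_lit 1) (nat_lit 225) (nat_lit 152) (nat_lit 223)) (PT.lf (nat_lit 10032) (nat_lit 6) (nat_lit 132) (nat_lit 1) (nat_lit 226) (nat_lit 152) (nat_lit 222))))))))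
noncomputable def pc3 : PT := (PT.nd (nat_lit 125112) (PT.nd (nat_lit 62556) (PT.nd (nat_lit 312) (PT.nd (nat_lit 156) (PT.nd (nat_lit 78) (PT.lf (nat_lit 10260) (nat_lit 6) (nat_lit 135) (nat_lit 3) (nat_lit 221) (nat_lit 153) (nat_lit 226)) (PT.lf (nat_lit 10336) (nat_lit 6) (nat_lit 136) (nat_lit 3) (nat_lit 222) (nat_lit 153) (nat_lit 225))) (PT.nd (nat_lit 78) (PT.lf (nat_lit 10412) (nat_lit 6) (nat_lit 137) (nat_lit 3) (nat_lit 223) (nat_lit 153) (nat_lit 224)) (PT.lf (nat_lit 10412) (nat_lit 6) (nat_lit 137) (nat_lit 1) (nat_lit 224) (nat_lit 153) (nat_lit 223)))) (PT.nd (nat_lit 62088) (PT.nd (nat_lit 78) (PT.lf (nat_lit 10336) (nat_lit 6) (nat_lit 136) (nat_lit 1) (nat_lit 225) (nat_lit 153) (nat_lit 222)) (PT.lf (nat_lit 10260) (nat_lit 6) (nat_lit 135) (nat_lit 1) (nat_lit 226) (nat_lit 153) (nat_lit 221))) (PT.nd (nat_lit 78) (PT.lf (nat_lit 10488) (nat_lit 6) (nat_lit 138) (nat_lit 3)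 (nat_lit 220) (nat_lit 154) (nat_lit 226)) (PT.lf (nat_lit 10564) (nat_lit 6) (nat_lit 139) (nat_lit 3) (nat_lit 221) (nat_lit 154) (nat_lit 225))))) (PT.nd (nat_lit 312) (PT.nd (nat_lit 156) (PT.nd (nat_lit 78) (PT.lf (nat_lit 10640) (nat_lit 6) (nat_lit 140) (nat_lit 3) (nat_lit 222) (nat_lit 154) (nat_lit 224)) (PT.lf (nat_lit 10716) (nat_lit 3) (nat_lit 141) (nat_lit 1) (nat_lit 223) (nat_lit 154) (nat_lit 223))) (PT.nd (nat_lit 78) (PT.lf (nat_lit 10640) (nat_lit 6) (nat_lit 140) (nat_lit 1) (nat_lit 224) (nat_lit 154) (nat_lit 222)) (PT.lf (nat_lit 10564) (nat_lit 6) (nat_lit 139) (nat_lit 1) (nat_lit 225) (nat_lit 154) (nat_lit 221)))) (PT.nd (nat_lit 62088) (PT.nd (nat_lit 62010) (PT.lf (nat_lit 10488) (nat_lit 6) (nat_lit 138) (nat_lit 1) (nat_lit 226) (nat_lit 154) (nat_lit 220)) (PT.lf (nat_lit 10792) (nat_lit 6) (nat_lit 142) (nat_lit 3) (nat_lit 220) (nat_lit 155) (nat_lit 225))) (PT.nd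 (nat_lit 78) (PT.lf (nat_lit 10868) (nat_lit 6) (nat_lit 143) (nat_lit 3) (nat_lit 221) (nat_lit 155) (nat_lit 224)) (PT.lf (nat_lit 10944) (nat_lit 6) (nat_lit 144) (nat_lit 3) (nat_lit 222) (nat_lit 155) (nat_lit 223)))))) (PT.nd (nat_lit 62556) (PT.nd (nat_lit 62244) (PT.nd (nat_lit 156) (PT.nd (nat_lit 78) (PT.lf (nat_lit 10944) (nat_lit 6) (nat_lit 144) (nat_lit 1) (nat_lit 223) (nat_lit 155) (nat_lit 222)) (PT.lf (nat_lit 10868) (nat_lit 6) (nat_lit 143) (nat_lit 1) (nat_lit 224) (nat_lit 155) (nat_lit 221))) (PT.nd (nat_lit 62010) (PT.lf (nat_lit 10792) (nat_lit 6) (nat_lit 142) (nat_lit 1) (nat_lit 225) (nat_lit 155) (nat_lit 220)) (PT.lf (nat_lit 11020) (nat_lit 6) (nat_lit 145) (nat_lit 3) (nat_lit 219) (nat_lit 156) (nat_lit 225)))) (PT.nd (nat_lit 156) (PT.nd (nat_lit 78) (PT.lf (nat_lit 11096) (nat_lit 6) (nat_lit 146) (nat_lit 3) (nat_lit 220) (nat_lit 156) (nat_lit 224)) (PT.lf (nat_lit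 11172) (nat_lit 6) (nat_lit 147) (nat_lit 3) (nat_lit 221) (nat_lit 156) (nat_lit 223))) (PT.nd (nat_lit 78) (PT.lf (nat_lit 11248) (nat_lit 3) (nat_lit 148) (nat_lit 1) (nat_lit 222) (nat_lit 156) (nat_lit 222)) (PT.lf (nat_lit 11172) (nat_lit 6) (nat_lit 147) (nat_lit 1) (nat_lit 223) (nat_lit 156) (nat_lit 221))))) (PT.nd (nat_lit 62244) (PT.nd (nat_lit 62088) (PT.nd (nat_lit 78) (PT.lf (nat_lit 11096) (nat_lit 6) (nat_lit 146) (nat_lit 1) (nat_lit 224) (nat_lit 156) (nat_lit 220)) (PT.lf (nat_lit 11020) (nat_lit 6) (nat_lit 145) (nat_lit 1) (nat_lit 225) (nat_lit 156) (nat_lit 219))) (PT.nd (nat_lit 78) (PT.lf (nat_lit 11324) (nat_lit 6) (nat_lit 149) (nat_lit 3) (nat_lit 219) (nat_lit 157) (nat_lit 224)) (PT.lf (nat_lit 11400) (nat_lit 6) (nat_lit 150) (nat_lit 3) (nat_lit 220) (nat_lit 157) (nat_lit 223)))) (PT.nd (nat_lit 156) (PT.nd (nat_lit 78) (PT.lf (nat_lit 11476) (nat_lit 6) (nat_lit 151)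 (nat_lit 3) (nat_lit 221) (nat_lit 157) (nat_lit 222)) (PT.lf (nat_lit 11476) (nat_lit 6) (nat_lit 151) (nat_lit 1) (nat_lit 222) (nat_lit 157) (nat_lit 221))) (PT.nd (nat_lit 78) (PT.lf (nat_lit 11400) (nat_lit 6) (nat_lit 150) (nat_lit 1) (nat_lit 223) (nat_lit 157) (nat_lit 220)) (PT.nd (nat_lit 62010) (PT.lf (nat_lit 11324) (nat_lit 6) (nat_lit 149) (nat_lit 1) (nat_lit 224) (nat_lit 157) (nat_lit 219)) (PT.lf (nat_lit 11552) (nat_lit 6) (nat_lit 152) (nat_lit 3) (nat_lit 218) (nat_lit 158) (nat_lit 224))))))))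
noncomputable def pc4 : PT := (PT.nd (nat_lit 124956) (PT.nd (nat_lit 62478) (PT.nd (nat_lit 312) (PT.nd (nat_lit 156) (PT.nd (nat_lit 78) (PT.lf (nat_lit 11628) (nat_lit 6) (nat_lit 153) (nat_lit 3) (nat_lit 219) (nat_lit 158) (nat_lit 223)) (PT.lf (nat_lit 11704) (nat_lit 6) (nat_lit 154) (nat_lit 3) (nat_lit 220) (nat_lit 158) (nat_lit 222))) (PT.nd (nat_lit 78) (PT.lf (nat_lit 11780) (nat_lit 3) (nat_lit 155) (nat_lit 1) (nat_lit 221) (nat_lit 158) (nat_lit 221)) (PT.lf (nat_lit 11704) (nat_lit 6) (nat_lit 154) (nat_lit 1) (nat_lit 222) (nat_lit 158) (nat_lit 220)))) (PT.nd (nat_lit 62010) (PT.nd (nat_lit 78) (PT.lf (nat_lit 11628) (nat_lit 6) (nat_lit 153) (nat_lit 1) (nat_lit 223) (nat_lit 158) (nat_lit 219)) (PT.lf (nat_lit 11552) (nat_lit 6) (nat_lit 152) (nat_lit 1) (nat_lit 224) (nat_lit 158) (nat_lit 218))) (PT.nd (nat_lit 78) (PT.lf (nat_lit 11856) (nat_lit 6) (nat_lit 156) (nat_lit 3)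 (nat_lit 217) (nat_lit 159) (nat_lit 224)) (PT.lf (nat_lit 11932) (nat_lit 6) (nat_lit 157) (nat_lit 3) (nat_lit 218) (nat_lit 159) (nat_lit 223))))) (PT.nd (nat_lit 312) (PT.nd (nat_lit 156) (PT.nd (nat_lit 78) (PT.lf (nat_lit 12008) (nat_lit 6) (nat_lit 158) (nat_lit 3) (nat_lit 219) (nat_lit 159) (nat_lit 222)) (PT.lf (nat_lit 12084) (nat_lit 6) (nat_lit 159) (nat_lit 3) (nat_lit 220) (nat_lit 159) (nat_lit 221))) (PT.nd (nat_lit 78) (PT.lf (nat_lit 12084) (nat_lit 6) (nat_lit 159) (nat_lit 1) (nat_lit 221) (nat_lit 159) (nat_lit 220)) (PT.lf (nat_lit 12008) (nat_lit 6) (nat_lit 158) (nat_lit 1) (nat_lit 222) (nat_lit 159) (nat_lit 219)))) (PT.nd (nat_lit 62010) (PT.nd (nat_lit 78) (PT.lf (nat_lit 11932) (nat_lit 6) (nat_lit 157) (nat_lit 1) (nat_lit 223) (nat_lit 159) (nat_lit 218)) (PT.lf (nat_lit 11856) (nat_lit 6) (nat_lit 156) (nat_lit 1) (nat_lit 224) (nat_lit 159) (nat_lit 217))) (PT.nd (nat_lit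 78) (PT.lf (nat_lit 12160) (nat_lit 6) (nat_lit 160) (nat_lit 3) (nat_lit 217) (nat_lit 160) (nat_lit 223)) (PT.lf (nat_lit 12236) (nat_lit 6) (nat_lit 161) (nat_lit 3) (nat_lit 218) (nat_lit 160) (nat_lit 222)))))) (PT.nd (nat_lit 62478) (PT.nd (nat_lit 312) (PT.nd (nat_lit 156) (PT.nd (nat_lit 78) (PT.lf (nat_lit 12312) (nat_lit 6) (nat_lit 162) (nat_lit 3) (nat_lit 219) (nat_lit 160) (nat_lit 221)) (PT.lf (nat_lit 12388) (nat_lit 3) (nat_lit 163) (nat_lit 1) (nat_lit 220) (nat_lit 160) (nat_lit 220))) (PT.nd (nat_lit 78) (PT.lf (nat_lit 12312) (nat_lit 6) (nat_lit 162) (nat_lit 1) (nat_lit 221) (nat_lit 160) (nat_lit 219)) (PT.lf (nat_lit 12236) (nat_lit 6) (nat_lit 161) (nat_lit 1) (nat_lit 222) (nat_lit 160) (nat_lit 218)))) (PT.nd (nat_lit 62010) (PT.nd (nat_lit 61932) (PT.lf (nat_lit 12160) (nat_lit 6) (nat_lit 160) (nat_lit 1) (nat_lit 223) (nat_lit 160) (nat_lit 217)) (PT.lf (nat_lit 12464)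 (nat_lit 6) (nat_lit 164) (nat_lit 3) (nat_lit 216) (nat_lit 161) (nat_lit 223))) (PT.nd (nat_lit 78) (PT.lf (nat_lit 12540) (nat_lit 6) (nat_lit 165) (nat_lit 3) (nat_lit 217) (nat_lit 161) (nat_lit 222)) (PT.lf (nat_lit 12616) (nat_lit 6) (nat_lit 166) (nat_lit 3) (nat_lit 218) (nat_lit 161) (nat_lit 221))))) (PT.nd (nat_lit 312) (PT.nd (nat_lit 156) (PT.nd (nat_lit 78) (PT.lf (nat_lit 12692) (nat_lit 6) (nat_lit 167) (nat_lit 3) (nat_lit 219) (nat_lit 161) (nat_lit 220)) (PT.lf (nat_lit 12692) (nat_lit 6) (nat_lit 167) (nat_lit 1) (nat_lit 220) (nat_lit 161) (nat_lit 219))) (PT.nd (nat_lit 78) (PT.lf (nat_lit 12616) (nat_lit 6) (nat_lit 166) (nat_lit 1) (nat_lit 221) (nat_lit 161) (nat_lit 218)) (PT.lf (nat_lit 12540) (nat_lit 6) (nat_lit 165) (nat_lit 1) (nat_lit 222) (nat_lit 161) (nat_lit 217)))) (PT.nd (nat_lit 62010) (PT.nd (nat_lit 61932) (PT.lf (nat_lit 12464) (nat_lit 6) (nat_lit 164) (nat_lit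 1) (nat_lit 223) (nat_lit 161) (nat_lit 216)) (PT.lf (nat_lit 12844) (nat_lit 6) (nat_lit 169) (nat_lit 3) (nat_lit 216) (nat_lit 162) (nat_lit 222))) (PT.nd (nat_lit 78) (PT.lf (nat_lit 12920) (nat_lit 6) (nat_lit 170) (nat_lit 3) (nat_lit 217) (nat_lit 162) (nat_lit 221)) (PT.nd (nat_lit 78) (PT.lf (nat_lit 12996) (nat_lit 6) (nat_lit 171) (nat_lit 3) (nat_lit 218) (nat_lit 162) (nat_lit 220)) (PT.lf (nat_lit 13072) (nat_lit 3) (nat_lit 172) (nat_lit 1) (nat_lit 219) (nat_lit 162) (nat_lit 219))))))))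
noncomputable def pc5 : PT := (PT.nd (nat_lit 124878) (PT.nd (nat_lit 62478) (PT.nd (nat_lit 62166) (PT.nd (nat_lit 156) (PT.nd (nat_lit 78) (PT.lf (nat_lit 12996) (nat_lit 6) (nat_lit 171) (nat_lit 1) (nat_lit 220) (nat_lit 162) (nat_lit 218)) (PT.lf (nat_lit 12920) (nat_lit 6) (nat_lit 170) (nat_lit 1) (nat_lit 221) (nat_lit 162) (nat_lit 217))) (PT.nd (nat_lit 61932) (PT.lf (nat_lit 12844) (nat_lit 6) (nat_lit 169) (nat_lit 1) (nat_lit 222) (nat_lit 162) (nat_lit 216)) (PT.lf (nat_lit 13148) (nat_lit 6) (nat_lit 173) (nat_lit 3) (nat_lit 215) (nat_lit 163) (nat_lit 222)))) (PT.nd (nat_lit 156) (PT.nd (nat_lit 78) (PT.lf (nat_lit 13224) (nat_lit 6) (nat_lit 174) (nat_lit 3) (nat_lit 216) (nat_lit 163) (nat_lit 221)) (PT.lf (nat_lit 13300) (nat_lit 6) (nat_lit 175) (nat_lit 3) (nat_lit 217) (nat_lit 163) (nat_lit 220))) (PT.nd (nat_lit 78) (PT.lf (nat_lit 13376) (nat_lit 6) (nat_lit 176) (nat_lit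 3) (nat_lit 218) (nat_lit 163) (nat_lit 219)) (PT.lf (nat_lit 13376) (nat_lit 6) (nat_lit 176) (nat_lit 1) (nat_lit 219) (nat_lit 163) (nat_lit 218))))) (PT.nd (nat_lit 62088) (PT.nd (nat_lit 156) (PT.nd (nat_lit 78) (PT.lf (nat_lit 13300) (nat_lit 6) (nat_lit 175) (nat_lit 1) (nat_lit 220) (nat_lit 163) (nat_lit 217)) (PT.lf (nat_lit 13224) (nat_lit 6) (nat_lit 174) (nat_lit 1) (nat_lit 221) (nat_lit 163) (nat_lit 216))) (PT.nd (nat_lit 61854) (PT.lf (nat_lit 13148) (nat_lit 6) (nat_lit 173) (nat_lit 1) (nat_lit 222) (nat_lit 163) (nat_lit 215)) (PT.lf (nat_lit 13452) (nat_lit 6) (nat_lit 177) (nat_lit 3) (nat_lit 214) (nat_lit 164) (nat_lit 222)))) (PT.nd (nat_lit 156) (PT.nd (nat_lit 78) (PT.lf (nat_lit 13528) (nat_lit 6) (nat_lit 178) (nat_lit 3) (nat_lit 215) (nat_lit 164) (nat_lit 221)) (PT.lf (nat_lit 13604) (nat_lit 6) (nat_lit 179) (nat_lit 3) (nat_lit 216) (nat_lit 164) (nat_lit 220))) (PT.nd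 (nat_lit 78) (PT.lf (nat_lit 13680) (nat_lit 6) (nat_lit 180) (nat_lit 3) (nat_lit 217) (nat_lit 164) (nat_lit 219)) (PT.lf (nat_lit 13756) (nat_lit 3) (nat_lit 181) (nat_lit 1) (nat_lit 218) (nat_lit 164) (nat_lit 218)))))) (PT.nd (nat_lit 62400) (PT.nd (nat_lit 62088) (PT.nd (nat_lit 156) (PT.nd (nat_lit 78) (PT.lf (nat_lit 13680) (nat_lit 6) (nat_lit 180) (nat_lit 1) (nat_lit 219) (nat_lit 164) (nat_lit 217)) (PT.lf (nat_lit 13604) (nat_lit 6) (nat_lit 179) (nat_lit 1) (nat_lit 220) (nat_lit 164) (nat_lit 216))) (PT.nd (nat_lit 78) (PT.lf (nat_lit 13528) (nat_lit 6) (nat_lit 178) (nat_lit 1) (nat_lit 221) (nat_lit 164) (nat_lit 215)) (PT.lf (nat_lit 13452) (nat_lit 6) (nat_lit 177) (nat_lit 1) (nat_lit 222) (nat_lit 164) (nat_lit 214)))) (PT.nd (nat_lit 156) (PT.nd (nat_lit 78) (PT.lf (nat_lit 13832) (nat_lit 6) (nat_lit 182) (nat_lit 3) (nat_lit 214) (nat_lit 165) (nat_lit 221)) (PT.lf (nat_lit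 13908) (nat_lit 6) (nat_lit 183) (nat_lit 3) (nat_lit 215) (nat_lit 165) (nat_lit 220))) (PT.nd (nat_lit 78) (PT.lf (nat_lit 13984) (nat_lit 6) (nat_lit 184) (nat_lit 3) (nat_lit 216) (nat_lit 165) (nat_lit 219)) (PT.lf (nat_lit 14060) (nat_lit 6) (nat_lit 185) (nat_lit 3) (nat_lit 217) (nat_lit 165) (nat_lit 218))))) (PT.nd (nat_lit 62088) (PT.nd (nat_lit 156) (PT.nd (nat_lit 78) (PT.lf (nat_lit 14060) (nat_lit 6) (nat_lit 185) (nat_lit 1) (nat_lit 218) (nat_lit 165) (nat_lit 217)) (PT.lf (nat_lit 13984) (nat_lit 6) (nat_lit 184) (nat_lit 1) (nat_lit 219) (nat_lit 165) (nat_lit 216))) (PT.nd (nat_lit 78) (PT.lf (nat_lit 13908) (nat_lit 6) (nat_lit 183) (nat_lit 1) (nat_lit 220) (nat_lit 165) (nat_lit 215)) (PT.lf (nat_lit 13832) (nat_lit 6) (nat_lit 182) (nat_lit 1) (nat_lit 221) (nat_lit 165) (nat_lit 214)))) (PT.nd (nat_lit 156) (PT.nd (nat_lit 78) (PT.lf (nat_lit 14136) (nat_lit 6) (nat_lit 186)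 (nat_lit 3) (nat_lit 213) (nat_lit 166) (nat_lit 221)) (PT.lf (nat_lit 14212) (nat_lit 6) (nat_lit 187) (nat_lit 3) (nat_lit 214) (nat_lit 166) (nat_lit 220))) (PT.nd (nat_lit 78) (PT.lf (nat_lit 14288) (nat_lit 6) (nat_lit 188) (nat_lit 3) (nat_lit 215) (nat_lit 166) (nat_lit 219)) (PT.nd (nat_lit 78) (PT.lf (nat_lit 14364) (nat_lit 6) (nat_lit 189) (nat_lit 3) (nat_lit 216) (nat_lit 166) (nat_lit 218)) (PT.lf (nat_lit 14440) (nat_lit 3) (nat_lit 190) (nat_lit 1) (nat_lit 217) (nat_lit 166) (nat_lit 217))))))))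
noncomputable def pc6 : PT := (PT.nd (nat_lit 124644) (PT.nd (nat_lit 62322) (PT.nd (nat_lit 62010) (PT.nd (nat_lit 156) (PT.nd (nat_lit 78) (PT.lf (nat_lit 14364) (nat_lit 6) (nat_lit 189) (nat_lit 1) (nat_lit 218) (nat_lit 166) (nat_lit 216)) (PT.lf (nat_lit 14288) (nat_lit 6) (nat_lit 188) (nat_lit 1) (nat_lit 219) (nat_lit 166) (nat_lit 215))) (PT.nd (nat_lit 78) (PT.lf (nat_lit 14212) (nat_lit 6) (nat_lit 187) (nat_lit 1) (nat_lit 220) (nat_lit 166) (nat_lit 214)) (PT.lf (nat_lit 14136) (nat_lit 6) (nat_lit 186) (nat_lit 1) (nat_lit 221) (nat_lit 166) (nat_lit 213)))) (PT.nd (nat_lit 156) (PT.nd (nat_lit 78) (PT.lf (nat_lit 14516) (nat_lit 6) (nat_lit 191) (nat_lit 3) (nat_lit 212) (nat_lit 167) (nat_lit 221)) (PT.lf (nat_lit 14592) (nat_lit 6) (nat_lit 192) (nat_lit 3) (nat_lit 213) (nat_lit 167) (nat_lit 220))) (PT.nd (nat_lit 78) (PT.lf (nat_lit 14668) (nat_lit 6) (nat_lit 193) (nat_lit 3)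 (nat_lit 214) (nat_lit 167) (nat_lit 219)) (PT.lf (nat_lit 14744) (nat_lit 6) (nat_lit 194) (nat_lit 3) (nat_lit 215) (nat_lit 167) (nat_lit 218))))) (PT.nd (nat_lit 312) (PT.nd (nat_lit 156) (PT.nd (nat_lit 78) (PT.lf (nat_lit 14820) (nat_lit 6) (nat_lit 195) (nat_lit 3) (nat_lit 216) (nat_lit 167) (nat_lit 217)) (PT.lf (nat_lit 14820) (nat_lit 6) (nat_lit 195) (nat_lit 1) (nat_lit 217) (nat_lit 167) (nat_lit 216))) (PT.nd (nat_lit 78) (PT.lf (nat_lit 14744) (nat_lit 6) (nat_lit 194) (nat_lit 1) (nat_lit 218) (nat_lit 167) (nat_lit 215)) (PT.lf (nat_lit 14668) (nat_lit 6) (nat_lit 193) (nat_lit 1) (nat_lit 219) (nat_lit 167) (nat_lit 214)))) (PT.nd (nat_lit 61854) (PT.nd (nat_lit 78) (PT.lf (nat_lit 14592) (nat_lit 6) (nat_lit 192) (nat_lit 1) (nat_lit 220) (nat_lit 167) (nat_lit 213)) (PT.lf (nat_lit 14516) (nat_lit 6) (nat_lit 191) (nat_lit 1) (nat_lit 221) (nat_lit 167) (nat_lit 212))) (PT.nd (nat_lit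 78) (PT.lf (nat_lit 14896) (nat_lit 6) (nat_lit 196) (nat_lit 3) (nat_lit 212) (nat_lit 168) (nat_lit 220)) (PT.lf (nat_lit 14972) (nat_lit 6) (nat_lit 197) (nat_lit 3) (nat_lit 213) (nat_lit 168) (nat_lit 219)))))) (PT.nd (nat_lit 62322) (PT.nd (nat_lit 312) (PT.nd (nat_lit 156) (PT.nd (nat_lit 78) (PT.lf (nat_lit 15048) (nat_lit 6) (nat_lit 198) (nat_lit 3) (nat_lit 214) (nat_lit 168) (nat_lit 218)) (PT.lf (nat_lit 15124) (nat_lit 6) (nat_lit 199) (nat_lit 3) (nat_lit 215) (nat_lit 168) (nat_lit 217))) (PT.nd (nat_lit 78) (PT.lf (nat_lit 15200) (nat_lit 3) (nat_lit 200) (nat_lit 1) (nat_lit 216) (nat_lit 168) (nat_lit 216)) (PT.lf (nat_lit 15124) (nat_lit 6) (nat_lit 199) (nat_lit 1) (nat_lit 217) (nat_lit 168) (nat_lit 215)))) (PT.nd (nat_lit 156) (PT.nd (nat_lit 78) (PT.lf (nat_lit 15048) (nat_lit 6) (nat_lit 198) (nat_lit 1) (nat_lit 218) (nat_lit 168) (nat_lit 214)) (PT.lf (nat_lit 14972) (nat_lit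 6) (nat_lit 197) (nat_lit 1) (nat_lit 219) (nat_lit 168) (nat_lit 213))) (PT.nd (nat_lit 61776) (PT.lf (nat_lit 14896) (nat_lit 6) (nat_lit 196) (nat_lit 1) (nat_lit 220) (nat_lit 168) (nat_lit 212)) (PT.lf (nat_lit 15276) (nat_lit 6) (nat_lit 201) (nat_lit 3) (nat_lit 211) (nat_lit 169) (nat_lit 220))))) (PT.nd (nat_lit 312) (PT.nd (nat_lit 156) (PT.nd (nat_lit 78) (PT.lf (nat_lit 15352) (nat_lit 6) (nat_lit 202) (nat_lit 3) (nat_lit 212) (nat_lit 169) (nat_lit 219)) (PT.lf (nat_lit 15428) (nat_lit 6) (nat_lit 203) (nat_lit 3) (nat_lit 213) (nat_lit 169) (nat_lit 218))) (PT.nd (nat_lit 78) (PT.lf (nat_lit 15504) (nat_lit 6) (nat_lit 204) (nat_lit 3) (nat_lit 214) (nat_lit 169) (nat_lit 217)) (PT.lf (nat_lit 15580) (nat_lit 6) (nat_lit 205) (nat_lit 3) (nat_lit 215) (nat_lit 169) (nat_lit 216)))) (PT.nd (nat_lit 156) (PT.nd (nat_lit 78) (PT.lf (nat_lit 15580) (nat_lit 6) (nat_lit 205) (nat_lit 1) (nat_lit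 216) (nat_lit 169) (nat_lit 215)) (PT.lf (nat_lit 15504) (nat_lit 6) (nat_lit 204) (nat_lit 1) (nat_lit 217) (nat_lit 169) (nat_lit 214))) (PT.nd (nat_lit 78) (PT.lf (nat_lit 15428) (nat_lit 6) (nat_lit 203) (nat_lit 1) (nat_lit 218) (nat_lit 169) (nat_lit 213)) (PT.nd (nat_lit 78) (PT.lf (nat_lit 15352) (nat_lit 6) (nat_lit 202) (nat_lit 1) (nat_lit 219) (nat_lit 169) (nat_lit 212)) (PT.lf (nat_lit 15276) (nat_lit 6) (nat_lit 201) (nat_lit 1) (nat_lit 220) (nat_lit 169) (nat_lit 211))))))))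
noncomputable def pc7 : PT := (PT.nd (nat_lit 62790) (PT.nd (nat_lit 624) (PT.nd (nat_lit 312) (PT.nd (nat_lit 156) (PT.nd (nat_lit 78) (PT.lf (nat_lit 15656) (nat_lit 6) (nat_lit 206) (nat_lit 3) (nat_lit 210) (nat_lit 170) (nat_lit 220)) (PT.lf (nat_lit 15732) (nat_lit 6) (nat_lit 207) (nat_lit 3) (nat_lit 211) (nat_lit 170) (nat_lit 219))) (PT.nd (nat_lit 78) (PT.lf (nat_lit 15808) (nat_lit 6) (nat_lit 208) (nat_lit 3) (nat_lit 212) (nat_lit 170) (nat_lit 218)) (PT.lf (nat_lit 15884) (nat_lit 6) (nat_lit 209) (nat_lit 3) (nat_lit 213) (nat_lit 170) (nat_lit 217)))) (PT.nd (nat_lit 156) (PT.nd (nat_lit 78) (PT.lf (nat_lit 15960) (nat_lit 6) (nat_lit 210) (nat_lit 3) (nat_lit 214) (nat_lit 170) (nat_lit 216)) (PT.lf (nat_lit 16036) (nat_lit 3) (nat_lit 211) (nat_lit 1) (nat_lit 215) (nat_lit 170) (nat_lit 215))) (PT.nd (nat_lit 78) (PT.lf (nat_lit 15960) (nat_lit 6) (nat_lit 210) (nat_lit 1) (nat_lit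 216) (nat_lit 170) (nat_lit 214)) (PT.lf (nat_lit 15884) (nat_lit 6) (nat_lit 209) (nat_lit 1) (nat_lit 217) (nat_lit 170) (nat_lit 213))))) (PT.nd (nat_lit 61854) (PT.nd (nat_lit 156) (PT.nd (nat_lit 78) (PT.lf (nat_lit 15808) (nat_lit 6) (nat_lit 208) (nat_lit 1) (nat_lit 218) (nat_lit 170) (nat_lit 212)) (PT.lf (nat_lit 15732) (nat_lit 6) (nat_lit 207) (nat_lit 1) (nat_lit 219) (nat_lit 170) (nat_lit 211))) (PT.nd (nat_lit 61620) (PT.lf (nat_lit 15656) (nat_lit 6) (nat_lit 206) (nat_lit 1) (nat_lit 220) (nat_lit 170) (nat_lit 210)) (PT.lf (nat_lit 16112) (nat_lit 6) (nat_lit 212) (nat_lit 3) (nat_lit 209) (nat_lit 171) (nat_lit 220)))) (PT.nd (nat_lit 156) (PT.nd (nat_lit 78) (PT.lf (nat_lit 16188) (nat_lit 6) (nat_lit 213) (nat_lit 3) (nat_lit 210) (nat_lit 171) (nat_lit 219)) (PT.lf (nat_lit 16264) (nat_lit 6) (nat_lit 214) (nat_lit 3) (nat_lit 211) (nat_lit 171) (nat_lit 218))) (PT.nd (nat_lit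 78) (PT.lf (nat_lit 16340) (nat_lit 6) (nat_lit 215) (nat_lit 3) (nat_lit 212) (nat_lit 171) (nat_lit 217)) (PT.lf (nat_lit 16416) (nat_lit 6) (nat_lit 216) (nat_lit 3) (nat_lit 213) (nat_lit 171) (nat_lit 216)))))) (PT.nd (nat_lit 62166) (PT.nd (nat_lit 312) (PT.nd (nat_lit 156) (PT.nd (nat_lit 78) (PT.lf (nat_lit 16492) (nat_lit 6) (nat_lit 217) (nat_lit 3) (nat_lit 214) (nat_lit 171) (nat_lit 215)) (PT.lf (nat_lit 16492) (nat_lit 6) (nat_lit 217) (nat_lit 1) (nat_lit 215) (nat_lit 171) (nat_lit 214))) (PT.nd (nat_lit 78) (PT.lf (nat_lit 16416) (nat_lit 6) (nat_lit 216) (nat_lit 1) (nat_lit 216) (nat_lit 171) (nat_lit 213)) (PT.lf (nat_lit 16340) (nat_lit 6) (nat_lit 215) (nat_lit 1) (nat_lit 217) (nat_lit 171) (nat_lit 212)))) (PT.nd (nat_lit 156) (PT.nd (nat_lit 78) (PT.lf (nat_lit 16264) (nat_lit 6) (nat_lit 214) (nat_lit 1) (nat_lit 218) (nat_lit 171) (nat_lit 211)) (PT.lf (nat_lit 16188) (nat_lit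 6) (nat_lit 213) (nat_lit 1) (nat_lit 219) (nat_lit 171) (nat_lit 210))) (PT.nd (nat_lit 61620) (PT.lf (nat_lit 16112) (nat_lit 6) (nat_lit 212) (nat_lit 1) (nat_lit 220) (nat_lit 171) (nat_lit 209)) (PT.lf (nat_lit 16568) (nat_lit 6) (nat_lit 218) (nat_lit 3) (nat_lit 209) (nat_lit 172) (nat_lit 219))))) (PT.nd (nat_lit 312) (PT.nd (nat_lit 156) (PT.nd (nat_lit 78) (PT.lf (nat_lit 16644) (nat_lit 6) (nat_lit 219) (nat_lit 3) (nat_lit 210) (nat_lit 172) (nat_lit 218)) (PT.lf (nat_lit 16720) (nat_lit 6) (nat_lit 220) (nat_lit 3) (nat_lit 211) (nat_lit 172) (nat_lit 217))) (PT.nd (nat_lit 78) (PT.lf (nat_lit 16796) (nat_lit 6) (nat_lit 221) (nat_lit 3) (nat_lit 212) (nat_lit 172) (nat_lit 216)) (PT.lf (nat_lit 16872) (nat_lit 6) (nat_lit 222) (nat_lit 3) (nat_lit 213) (nat_lit 172) (nat_lit 215)))) (PT.nd (nat_lit 156) (PT.nd (nat_lit 78) (PT.lf (nat_lit 16948) (nat_lit 3) (nat_lit 223) (nat_lit 1) (nat_lit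 214) (nat_lit 172) (nat_lit 214)) (PT.lf (nat_lit 16872) (nat_lit 6) (nat_lit 222) (nat_lit 1) (nat_lit 215) (nat_lit 172) (nat_lit 213))) (PT.nd (nat_lit 78) (PT.lf (nat_lit 16796) (nat_lit 6) (nat_lit 221) (nat_lit 1) (nat_lit 216) (nat_lit 172) (nat_lit 212)) (PT.nd (nat_lit 78) (PT.lf (nat_lit 16720) (nat_lit 6) (nat_lit 220) (nat_lit 1) (nat_lit 217) (nat_lit 172) (nat_lit 211)) (PT.lf (nat_lit 16644) (nat_lit 6) (nat_lit 219) (nat_lit 1) (nat_lit 218) (nat_lit 172) (nat_lit 210))))))))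
noncomputable def pc8 : PT := (PT.nd (nat_lit 124254) (PT.nd (nat_lit 62166) (PT.nd (nat_lit 61854) (PT.nd (nat_lit 61698) (PT.nd (nat_lit 61620) (PT.lf (nat_lit 16568) (nat_lit 6) (nat_lit 218) (nat_lit 1) (nat_lit 219) (nat_lit 172) (nat_lit 209)) (PT.lf (nat_lit 17024) (nat_lit 6) (nat_lit 224) (nat_lit 3) (nat_lit 208) (nat_lit 173) (nat_lit 219))) (PT.nd (nat_lit 78) (PT.lf (nat_lit 17100) (nat_lit 6) (nat_lit 225) (nat_lit 3) (nat_lit 209) (nat_lit 173) (nat_lit 218)) (PT.lf (nat_lit 17176) (nat_lit 6) (nat_lit 226) (nat_lit 3) (nat_lit 210) (nat_lit 173) (nat_lit 217)))) (PT.nd (nat_lit 156) (PT.nd (nat_lit 78) (PT.lf (nat_lit 17252) (nat_lit 6) (nat_lit 227) (nat_lit 3) (nat_lit 211) (nat_lit 173) (nat_lit 216)) (PT.lf (nat_lit 17328) (nat_lit 6) (nat_lit 228) (nat_lit 3) (nat_lit 212) (nat_lit 173) (nat_lit 215))) (PT.nd (nat_lit 78) (PT.lf (nat_lit 17404) (nat_lit 6) (nat_lit 229) (nat_lit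 3) (nat_lit 213) (nat_lit 173) (nat_lit 214)) (PT.lf (nat_lit 17404) (nat_lit 6) (nat_lit 229) (nat_lit 1) (nat_lit 214) (nat_lit 173) (nat_lit 213))))) (PT.nd (nat_lit 312) (PT.nd (nat_lit 156) (PT.nd (nat_lit 78) (PT.lf (nat_lit 17328) (nat_lit 6) (nat_lit 228) (nat_lit 1) (nat_lit 215) (nat_lit 173) (nat_lit 212)) (PT.lf (nat_lit 17252) (nat_lit 6) (nat_lit 227) (nat_lit 1) (nat_lit 216) (nat_lit 173) (nat_lit 211))) (PT.nd (nat_lit 78) (PT.lf (nat_lit 17176) (nat_lit 6) (nat_lit 226) (nat_lit 1) (nat_lit 217) (nat_lit 173) (nat_lit 210)) (PT.lf (nat_lit 17100) (nat_lit 6) (nat_lit 225) (nat_lit 1) (nat_lit 218) (nat_lit 173) (nat_lit 209)))) (PT.nd (nat_lit 61620) (PT.nd (nat_lit 61542) (PT.lf (nat_lit 17024) (nat_lit 6) (nat_lit 224) (nat_lit 1) (nat_lit 219) (nat_lit 173) (nat_lit 208)) (PT.lf (nat_lit 17480) (nat_lit 6) (nat_lit 230) (nat_lit 3) (nat_lit 207) (nat_lit 174) (nat_lit 219))) (PT.nd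 (nat_lit 78) (PT.lf (nat_lit 17556) (nat_lit 6) (nat_lit 231) (nat_lit 3) (nat_lit 208) (nat_lit 174) (nat_lit 218)) (PT.lf (nat_lit 17632) (nat_lit 6) (nat_lit 232) (nat_lit 3) (nat_lit 209) (nat_lit 174) (nat_lit 217)))))) (PT.nd (nat_lit 624) (PT.nd (nat_lit 312) (PT.nd (nat_lit 156) (PT.nd (nat_lit 78) (PT.lf (nat_lit 17708) (nat_lit 6) (nat_lit 233) (nat_lit 3) (nat_lit 210) (nat_lit 174) (nat_lit 216)) (PT.lf (nat_lit 17784) (nat_lit 6) (nat_lit 234) (nat_lit 3) (nat_lit 211) (nat_lit 174) (nat_lit 215))) (PT.nd (nat_lit 78) (PT.lf (nat_lit 17860) (nat_lit 6) (nat_lit 235) (nat_lit 3) (nat_lit 212) (nat_lit 174) (nat_lit 214)) (PT.lf (nat_lit 17936) (nat_lit 3) (nat_lit 236) (nat_lit 1) (nat_lit 213) (nat_lit 174) (nat_lit 213)))) (PT.nd (nat_lit 156) (PT.nd (nat_lit 78) (PT.lf (nat_lit 17860) (nat_lit 6) (nat_lit 235) (nat_lit 1) (nat_lit 214) (nat_lit 174) (nat_lit 212)) (PT.lf (nat_lit 17784)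 (nat_lit 6) (nat_lit 234) (nat_lit 1) (nat_lit 215) (nat_lit 174) (nat_lit 211))) (PT.nd (nat_lit 78) (PT.lf (nat_lit 17708) (nat_lit 6) (nat_lit 233) (nat_lit 1) (nat_lit 216) (nat_lit 174) (nat_lit 210)) (PT.lf (nat_lit 17632) (nat_lit 6) (nat_lit 232) (nat_lit 1) (nat_lit 217) (nat_lit 174) (nat_lit 209))))) (PT.nd (nat_lit 61776) (PT.nd (nat_lit 61620) (PT.nd (nat_lit 78) (PT.lf (nat_lit 17556) (nat_lit 6) (nat_lit 231) (nat_lit 1) (nat_lit 218) (nat_lit 174) (nat_lit 208)) (PT.lf (nat_lit 17480) (nat_lit 6) (nat_lit 230) (nat_lit 1) (nat_lit 219) (nat_lit 174) (nat_lit 207))) (PT.nd (nat_lit 78) (PT.lf (nat_lit 18012) (nat_lit 6) (nat_lit 237) (nat_lit 3) (nat_lit 207) (nat_lit 175) (nat_lit 218)) (PT.lf (nat_lit 18088) (nat_lit 6) (nat_lit 238) (nat_lit 3) (nat_lit 208) (nat_lit 175) (nat_lit 217)))) (PT.nd (nat_lit 156) (PT.nd (nat_lit 78) (PT.lf (nat_lit 18164) (nat_lit 6) (nat_lit 239) (nat_lit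 3) (nat_lit 209) (nat_lit 175) (nat_lit 216)) (PT.lf (nat_lit 18240) (nat_lit 6) (nat_lit 240) (nat_lit 3) (nat_lit 210) (nat_lit 175) (nat_lit 215))) (PT.nd (nat_lit 78) (PT.lf (nat_lit 18316) (nat_lit 6) (nat_lit 241) (nat_lit 3) (nat_lit 211) (nat_lit 175) (nat_lit 214)) (PT.lf (nat_lit 18392) (nat_lit 6) (nat_lit 242) (nat_lit 3) (nat_lit 212) (nat_lit 175) (nat_lit 213)))))))
noncomputable def pc9 : PT := (PT.nd (nat_lit 62712) (PT.nd (nat_lit 62088) (PT.nd (nat_lit 312) (PT.nd (nat_lit 156) (PT.nd (nat_lit 78) (PT.lf (nat_lit 18392) (nat_lit 6) (nat_lit 242) (nat_lit 1) (nat_lit 213) (nat_lit 175) (nat_lit 212)) (PT.lf (nat_lit 18316) (nat_lit 6) (nat_lit 241) (nat_lit 1) (nat_lit 214) (nat_lit 175) (nat_lit 211))) (PT.nd (nat_lit 78) (PT.lf (nat_lit 18240) (nat_lit 6) (nat_lit 240) (nat_lit 1) (nat_lit 215) (nat_lit 175) (nat_lit 210)) (PT.lf (nat_lit 18164) (nat_lit 6) (nat_lit 239) (nat_lit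 1) (nat_lit 216) (nat_lit 175) (nat_lit 209)))) (PT.nd (nat_lit 61620) (PT.nd (nat_lit 78) (PT.lf (nat_lit 18088) (nat_lit 6) (nat_lit 238) (nat_lit 1) (nat_lit 217) (nat_lit 175) (nat_lit 208)) (PT.lf (nat_lit 18012) (nat_lit 6) (nat_lit 237) (nat_lit 1) (nat_lit 218) (nat_lit 175) (nat_lit 207))) (PT.nd (nat_lit 78) (PT.lf (nat_lit 18468) (nat_lit 6) (nat_lit 243) (nat_lit 3) (nat_lit 206) (nat_lit 176) (nat_lit 218)) (PT.lf (nat_lit 18544) (nat_lit 6) (nat_lit 244) (nat_lit 3) (nat_lit 207) (nat_lit 176) (nat_lit 217))))) (PT.nd (nat_lit 312) (PT.nd (nat_lit 156) (PT.nd (nat_lit 78) (PT.lf (nat_lit 18620) (nat_lit 6) (nat_lit 245) (nat_lit 3) (nat_lit 208) (nat_lit 176) (nat_lit 216)) (PT.lf (nat_lit 18696) (nat_lit 6) (nat_lit 246) (nat_lit 3) (nat_lit 209) (nat_lit 176) (nat_lit 215))) (PT.nd (nat_lit 78) (PT.lf (nat_lit 18772) (nat_lit 6) (nat_lit 247) (nat_lit 3) (nat_lit 210) (nat_lit 176)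 (nat_lit 214)) (PT.lf (nat_lit 18848) (nat_lit 6) (nat_lit 248) (nat_lit 3) (nat_lit 211) (nat_lit 176) (nat_lit 213)))) (PT.nd (nat_lit 156) (PT.nd (nat_lit 78) (PT.lf (nat_lit 18924) (nat_lit 3) (nat_lit 249) (nat_lit 1) (nat_lit 212) (nat_lit 176) (nat_lit 212)) (PT.lf (nat_lit 18848) (nat_lit 6) (nat_lit 248) (nat_lit 1) (nat_lit 213) (nat_lit 176) (nat_lit 211))) (PT.nd (nat_lit 78) (PT.lf (nat_lit 18772) (nat_lit 6) (nat_lit 247) (nat_lit 1) (nat_lit 214) (nat_lit 176) (nat_lit 210)) (PT.lf (nat_lit 18696) (nat_lit 6) (nat_lit 246) (nat_lit 1) (nat_lit 215) (nat_lit 176) (nat_lit 209)))))) (PT.nd (nat_lit 62010) (PT.nd (nat_lit 61698) (PT.nd (nat_lit 156) (PT.nd (nat_lit 78) (PT.lf (nat_lit 18620) (nat_lit 6) (nat_lit 245) (nat_lit 1) (nat_lit 216) (nat_lit 176) (nat_lit 208)) (PT.lf (nat_lit 18544) (nat_lit 6) (nat_lit 244) (nat_lit 1) (nat_lit 217) (nat_lit 176) (nat_lit 207))) (PT.nd (nat_lit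 61464) (PT.lf (nat_lit 18468) (nat_lit 6) (nat_lit 243) (nat_lit 1) (nat_lit 218) (nat_lit 176) (nat_lit 206)) (PT.lf (nat_lit 19000) (nat_lit 6) (nat_lit 250) (nat_lit 3) (nat_lit 205) (nat_lit 177) (nat_lit 218)))) (PT.nd (nat_lit 156) (PT.nd (nat_lit 78) (PT.lf (nat_lit 19076) (nat_lit 6) (nat_lit 251) (nat_lit 3) (nat_lit 206) (nat_lit 177) (nat_lit 217)) (PT.lf (nat_lit 19152) (nat_lit 6) (nat_lit 252) (nat_lit 3) (nat_lit 207) (nat_lit 177) (nat_lit 216))) (PT.nd (nat_lit 78) (PT.lf (nat_lit 19228) (nat_lit 6) (nat_lit 253) (nat_lit 3) (nat_lit 208) (nat_lit 177) (nat_lit 215)) (PT.lf (nat_lit 19304) (nat_lit 6) (nat_lit 254) (nat_lit 3) (nat_lit 209) (nat_lit 177) (nat_lit 214))))) (PT.nd (nat_lit 312) (PT.nd (nat_lit 156) (PT.nd (nat_lit 78) (PT.lf (nat_lit 19380) (nat_lit 6) (nat_lit 255) (nat_lit 3) (nat_lit 210) (nat_lit 177) (nat_lit 213)) (PT.lf (nat_lit 19456) (nat_lit 6) (nat_lit 256)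 (nat_lit 3) (nat_lit 211) (nat_lit 177) (nat_lit 212))) (PT.nd (nat_lit 78) (PT.lf (nat_lit 19456) (nat_lit 6) (nat_lit 256) (nat_lit 1) (nat_lit 212) (nat_lit 177) (nat_lit 211)) (PT.lf (nat_lit 19380) (nat_lit 6) (nat_lit 255) (nat_lit 1) (nat_lit 213) (nat_lit 177) (nat_lit 210)))) (PT.nd (nat_lit 156) (PT.nd (nat_lit 78) (PT.lf (nat_lit 19304) (nat_lit 6) (nat_lit 254) (nat_lit 1) (nat_lit 214) (nat_lit 177) (nat_lit 209)) (PT.lf (nat_lit 19228) (nat_lit 6) (nat_lit 253) (nat_lit 1) (nat_lit 215) (nat_lit 177) (nat_lit 208))) (PT.nd (nat_lit 78) (PT.lf (nat_lit 19152) (nat_lit 6) (nat_lit 252) (nat_lit 1) (nat_lit 216) (nat_lit 177) (nat_lit 207)) (PT.nd (nat_lit 78) (PT.lf (nat_lit 19076) (nat_lit 6) (nat_lit 251) (nat_lit 1) (nat_lit 217) (nat_lit 177) (nat_lit 206)) (PT.lf (nat_lit 19000) (nat_lit 6) (nat_lit 250) (nat_lit 1) (nat_lit 218) (nat_lit 177) (nat_lit 205))))))))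
noncomputable def pc10 : PT := (PT.nd (nat_lit 62478) (PT.nd (nat_lit 624) (PT.nd (nat_lit 312) (PT.nd (nat_lit 156) (PT.nd (nat_lit 78) (PT.lf (nat_lit 19532) (nat_lit 6) (nat_lit 257) (nat_lit 3) (nat_lit 204) (nat_lit 178) (nat_lit 218)) (PT.lf (nat_lit 19608) (nat_lit 6) (nat_lit 258) (nat_lit 3) (nat_lit 205) (nat_lit 178) (nat_lit 217))) (PT.nd (nat_lit 78) (PT.lf (nat_lit 19684) (nat_lit 6) (nat_lit 259) (nat_lit 3) (nat_lit 206) (nat_lit 178) (nat_lit 216)) (PT.lf (nat_lit 19760) (nat_lit 6) (nat_lit 260) (nat_lit 3) (nat_lit 207) (nat_lit 178) (nat_lit 215)))) (PT.nd (nat_lit 156) (PT.nd (nat_lit 78) (PT.lf (nat_lit 19836) (nat_lit 6) (nat_lit 261) (nat_lit 3) (nat_lit 208) (nat_lit 178) (nat_lit 214)) (PT.lf (nat_lit 19912) (nat_lit 6) (nat_lit 262) (nat_lit 3) (nat_lit 209) (nat_lit 178) (nat_lit 213))) (PT.nd (nat_lit 78) (PT.lf (nat_lit 19988) (nat_lit 6) (nat_lit 263) (nat_lit 3) (nat_lit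 210) (nat_lit 178) (nat_lit 212)) (PT.lf (nat_lit 20064) (nat_lit 3) (nat_lit 264) (nat_lit 1) (nat_lit 211) (nat_lit 178) (nat_lit 211))))) (PT.nd (nat_lit 312) (PT.nd (nat_lit 156) (PT.nd (nat_lit 78) (PT.lf (nat_lit 19988) (nat_lit 6) (nat_lit 263) (nat_lit 1) (nat_lit 212) (nat_lit 178) (nat_lit 210)) (PT.lf (nat_lit 19912) (nat_lit 6) (nat_lit 262) (nat_lit 1) (nat_lit 213) (nat_lit 178) (nat_lit 209))) (PT.nd (nat_lit 78) (PT.lf (nat_lit 19836) (nat_lit 6) (nat_lit 261) (nat_lit 1) (nat_lit 214) (nat_lit 178) (nat_lit 208)) (PT.lf (nat_lit 19760) (nat_lit 6) (nat_lit 260) (nat_lit 1) (nat_lit 215) (nat_lit 178) (nat_lit 207)))) (PT.nd (nat_lit 156) (PT.nd (nat_lit 78) (PT.lf (nat_lit 19684) (nat_lit 6) (nat_lit 259) (nat_lit 1) (nat_lit 216) (nat_lit 178) (nat_lit 206)) (PT.lf (nat_lit 19608) (nat_lit 6) (nat_lit 258) (nat_lit 1) (nat_lit 217) (nat_lit 178) (nat_lit 205))) (PT.nd (nat_lit 61308)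 (PT.lf (nat_lit 19532) (nat_lit 6) (nat_lit 257) (nat_lit 1) (nat_lit 218) (nat_lit 178) (nat_lit 204)) (PT.lf (nat_lit 20140) (nat_lit 6) (nat_lit 265) (nat_lit 3) (nat_lit 203) (nat_lit 179) (nat_lit 218)))))) (PT.nd (nat_lit 624) (PT.nd (nat_lit 312) (PT.nd (nat_lit 156) (PT.nd (nat_lit 78) (PT.lf (nat_lit 20216) (nat_lit 6) (nat_lit 266) (nat_lit 3) (nat_lit 204) (nat_lit 179) (nat_lit 217)) (PT.lf (nat_lit 20292) (nat_lit 6) (nat_lit 267) (nat_lit 3) (nat_lit 205) (nat_lit 179) (nat_lit 216))) (PT.nd (nat_lit 78) (PT.lf (nat_lit 20368) (nat_lit 6) (nat_lit 268) (nat_lit 3) (nat_lit 206) (nat_lit 179) (nat_lit 215)) (PT.lf (nat_lit 20444) (nat_lit 6) (nat_lit 269) (nat_lit 3) (nat_lit 207) (nat_lit 179) (nat_lit 214)))) (PT.nd (nat_lit 156) (PT.nd (nat_lit 78) (PT.lf (nat_lit 20520) (nat_lit 6) (nat_lit 270) (nat_lit 3) (nat_lit 208) (nat_lit 179) (nat_lit 213)) (PT.lf (nat_lit 20596) (nat_lit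 6) (nat_lit 271) (nat_lit 3) (nat_lit 209) (nat_lit 179) (nat_lit 212))) (PT.nd (nat_lit 78) (PT.lf (nat_lit 20672) (nat_lit 6) (nat_lit 272) (nat_lit 3) (nat_lit 210) (nat_lit 179) (nat_lit 211)) (PT.lf (nat_lit 20672) (nat_lit 6) (nat_lit 272) (nat_lit 1) (nat_lit 211) (nat_lit 179) (nat_lit 210))))) (PT.nd (nat_lit 312) (PT.nd (nat_lit 156) (PT.nd (nat_lit 78) (PT.lf (nat_lit 20596) (nat_lit 6) (nat_lit 271) (nat_lit 1) (nat_lit 212) (nat_lit 179) (nat_lit 209)) (PT.lf (nat_lit 20520) (nat_lit 6) (nat_lit 270) (nat_lit 1) (nat_lit 213) (nat_lit 179) (nat_lit 208))) (PT.nd (nat_lit 78) (PT.lf (nat_lit 20444) (nat_lit 6) (nat_lit 269) (nat_lit 1) (nat_lit 214) (nat_lit 179) (nat_lit 207)) (PT.lf (nat_lit 20368) (nat_lit 6) (nat_lit 268) (nat_lit 1) (nat_lit 215) (nat_lit 179) (nat_lit 206)))) (PT.nd (nat_lit 156) (PT.nd (nat_lit 78) (PT.lf (nat_lit 20292) (nat_lit 6) (nat_lit 267) (nat_lit 1) (nat_lit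 216) (nat_lit 179) (nat_lit 205)) (PT.lf (nat_lit 20216) (nat_lit 6) (nat_lit 266) (nat_lit 1) (nat_lit 217) (nat_lit 179) (nat_lit 204))) (PT.nd (nat_lit 61308) (PT.lf (nat_lit 20140) (nat_lit 6) (nat_lit 265) (nat_lit 1) (nat_lit 218) (nat_lit 179) (nat_lit 203)) (PT.nd (nat_lit 78) (PT.lf (nat_lit 20748) (nat_lit 6) (nat_lit 273) (nat_lit 3) (nat_lit 203) (nat_lit 180) (nat_lit 217)) (PT.lf (nat_lit 20824) (nat_lit 6) (nat_lit 274) (nat_lit 3) (nat_lit 204) (nat_lit 180) (nat_lit 216))))))))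
noncomputable def pc11 : PT := (PT.nd (nat_lit 62478) (PT.nd (nat_lit 624) (PT.nd (nat_lit 312) (PT.nd (nat_lit 156) (PT.nd (nat_lit 78) (PT.lf (nat_lit 20900) (nat_lit 6) (nat_lit 275) (nat_lit 3) (nat_lit 205) (nat_lit 180) (nat_lit 215)) (PT.lf (nat_lit 20976) (nat_lit 6) (nat_lit 276) (nat_lit 3) (nat_lit 206) (nat_lit 180) (nat_lit 214))) (PT.nd (nat_lit 78) (PT.lf (nat_lit 21052) (nat_lit 6) (nat_lit 277) (nat_lit 3) (nat_lit 207) (nat_lit 180) (nat_lit 213)) (PT.lf (nat_lit 21128) (nat_lit 6) (nat_lit 278) (nat_lit 3) (nat_lit 208) (nat_lit 180) (nat_lit 212)))) (PT.nd (nat_lit 156) (PT.nd (nat_lit 78) (PT.lf (nat_lit 21204) (nat_lit 6) (nat_lit 279) (nat_lit 3) (nat_lit 209) (nat_lit 180) (nat_lit 211)) (PT.lf (nat_lit 21280) (nat_lit 3) (nat_lit 280) (nat_lit 1) (nat_lit 210) (nat_lit 180) (nat_lit 210))) (PT.nd (nat_lit 78) (PT.lf (nat_lit 21204) (nat_lit 6) (nat_lit 279) (nat_lit 1) (nat_lit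 211) (nat_lit 180) (nat_lit 209)) (PT.lf (nat_lit 21128) (nat_lit 6) (nat_lit 278) (nat_lit 1) (nat_lit 212) (nat_lit 180) (nat_lit 208))))) (PT.nd (nat_lit 312) (PT.nd (nat_lit 156) (PT.nd (nat_lit 78) (PT.lf (nat_lit 21052) (nat_lit 6) (nat_lit 277) (nat_lit 1) (nat_lit 213) (nat_lit 180) (nat_lit 207)) (PT.lf (nat_lit 20976) (nat_lit 6) (nat_lit 276) (nat_lit 1) (nat_lit 214) (nat_lit 180) (nat_lit 206))) (PT.nd (nat_lit 78) (PT.lf (nat_lit 20900) (nat_lit 6) (nat_lit 275) (nat_lit 1) (nat_lit 215) (nat_lit 180) (nat_lit 205)) (PT.lf (nat_lit 20824) (nat_lit 6) (nat_lit 274) (nat_lit 1) (nat_lit 216) (nat_lit 180) (nat_lit 204)))) (PT.nd (nat_lit 61386) (PT.nd (nat_lit 61308) (PT.lf (nat_lit 20748) (nat_lit 6) (nat_lit 273) (nat_lit 1) (nat_lit 217) (nat_lit 180) (nat_lit 203)) (PT.lf (nat_lit 21356) (nat_lit 6) (nat_lit 281) (nat_lit 3) (nat_lit 202) (nat_lit 181) (nat_lit 217))) (PT.nd (nat_lit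 78) (PT.lf (nat_lit 21432) (nat_lit 6) (nat_lit 282) (nat_lit 3) (nat_lit 203) (nat_lit 181) (nat_lit 216)) (PT.lf (nat_lit 21508) (nat_lit 6) (nat_lit 283) (nat_lit 3) (nat_lit 204) (nat_lit 181) (nat_lit 215)))))) (PT.nd (nat_lit 624) (PT.nd (nat_lit 312) (PT.nd (nat_lit 156) (PT.nd (nat_lit 78) (PT.lf (nat_lit 21584) (nat_lit 6) (nat_lit 284) (nat_lit 3) (nat_lit 205) (nat_lit 181) (nat_lit 214)) (PT.lf (nat_lit 21660) (nat_lit 6) (nat_lit 285) (nat_lit 3) (nat_lit 206) (nat_lit 181) (nat_lit 213))) (PT.nd (nat_lit 78) (PT.lf (nat_lit 21736) (nat_lit 6) (nat_lit 286) (nat_lit 3) (nat_lit 207) (nat_lit 181) (nat_lit 212)) (PT.lf (nat_lit 21812) (nat_lit 6) (nat_lit 287) (nat_lit 3) (nat_lit 208) (nat_lit 181) (nat_lit 211)))) (PT.nd (nat_lit 156) (PT.nd (nat_lit 78) (PT.lf (nat_lit 21888) (nat_lit 6) (nat_lit 288) (nat_lit 3) (nat_lit 209) (nat_lit 181) (nat_lit 210)) (PT.lf (nat_lit 21888) (nat_lit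 6) (nat_lit 288) (nat_lit 1) (nat_lit 210) (nat_lit 181) (nat_lit 209))) (PT.nd (nat_lit 78) (PT.lf (nat_lit 21812) (nat_lit 6) (nat_lit 287) (nat_lit 1) (nat_lit 211) (nat_lit 181) (nat_lit 208)) (PT.lf (nat_lit 21736) (nat_lit 6) (nat_lit 286) (nat_lit 1) (nat_lit 212) (nat_lit 181) (nat_lit 207))))) (PT.nd (nat_lit 312) (PT.nd (nat_lit 156) (PT.nd (nat_lit 78) (PT.lf (nat_lit 21660) (nat_lit 6) (nat_lit 285) (nat_lit 1) (nat_lit 213) (nat_lit 181) (nat_lit 206)) (PT.lf (nat_lit 21584) (nat_lit 6) (nat_lit 284) (nat_lit 1) (nat_lit 214) (nat_lit 181) (nat_lit 205))) (PT.nd (nat_lit 78) (PT.lf (nat_lit 21508) (nat_lit 6) (nat_lit 283) (nat_lit 1) (nat_lit 215) (nat_lit 181) (nat_lit 204)) (PT.lf (nat_lit 21432) (nat_lit 6) (nat_lit 282) (nat_lit 1) (nat_lit 216) (nat_lit 181) (nat_lit 203)))) (PT.nd (nat_lit 61308) (PT.nd (nat_lit 61230) (PT.lf (nat_lit 21356) (nat_lit 6) (nat_lit 281) (nat_lit 1)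 (nat_lit 217) (nat_lit 181) (nat_lit 202)) (PT.lf (nat_lit 21964) (nat_lit 6) (nat_lit 289) (nat_lit 3) (nat_lit 201) (nat_lit 182) (nat_lit 217))) (PT.nd (nat_lit 78) (PT.lf (nat_lit 22040) (nat_lit 6) (nat_lit 290) (nat_lit 3) (nat_lit 202) (nat_lit 182) (nat_lit 216)) (PT.nd (nat_lit 78) (PT.lf (nat_lit 22116) (nat_lit 6) (nat_lit 291) (nat_lit 3) (nat_lit 203) (nat_lit 182) (nat_lit 215)) (PT.lf (nat_lit 22192) (nat_lit 6) (nat_lit 292) (nat_lit 3) (nat_lit 204) (nat_lit 182) (nat_lit 214))))))))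
noncomputable def pc12 : PT := (PT.nd (nat_lit 62322) (PT.nd (nat_lit 624) (PT.nd (nat_lit 312) (PT.nd (nat_lit 156) (PT.nd (nat_lit 78) (PT.lf (nat_lit 22268) (nat_lit 6) (nat_lit 293) (nat_lit 3) (nat_lit 205) (nat_lit 182) (nat_lit 213)) (PT.lf (nat_lit 22344) (nat_lit 6) (nat_lit 294) (nat_lit 3) (nat_lit 206) (nat_lit 182) (nat_lit 212))) (PT.nd (nat_lit 78) (PT.lf (nat_lit 22420) (nat_lit 6) (nat_lit 295) (nat_lit 3) (nat_lit 207) (nat_lit 182) (nat_lit 211)) (PT.lf (nat_lit 22496) (nat_lit 6) (nat_lit 296) (nat_lit 3) (nat_lit 208) (nat_lit 182) (nat_lit 210)))) (PT.nd (nat_lit 156) (PT.nd (nat_lit 78) (PT.lf (nat_lit 22572) (nat_lit 3) (nat_lit 297) (nat_lit 1) (nat_lit 209) (nat_lit 182) (nat_lit 209)) (PT.lf (nat_lit 22496) (nat_lit 6) (nat_lit 296) (nat_lit 1) (nat_lit 210) (nat_lit 182) (nat_lit 208))) (PT.nd (nat_lit 78) (PT.lf (nat_lit 22420) (nat_lit 6) (nat_lit 295) (nat_lit 1) (nat_lit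 211) (nat_lit 182) (nat_lit 207)) (PT.lf (nat_lit 22344) (nat_lit 6) (nat_lit 294) (nat_lit 1) (nat_lit 212) (nat_lit 182) (nat_lit 206))))) (PT.nd (nat_lit 312) (PT.nd (nat_lit 156) (PT.nd (nat_lit 78) (PT.lf (nat_lit 22268) (nat_lit 6) (nat_lit 293) (nat_lit 1) (nat_lit 213) (nat_lit 182) (nat_lit 205)) (PT.lf (nat_lit 22192) (nat_lit 6) (nat_lit 292) (nat_lit 1) (nat_lit 214) (nat_lit 182) (nat_lit 204))) (PT.nd (nat_lit 78) (PT.lf (nat_lit 22116) (nat_lit 6) (nat_lit 291) (nat_lit 1) (nat_lit 215) (nat_lit 182) (nat_lit 203)) (PT.lf (nat_lit 22040) (nat_lit 6) (nat_lit 290) (nat_lit 1) (nat_lit 216) (nat_lit 182) (nat_lit 202)))) (PT.nd (nat_lit 61230) (PT.nd (nat_lit 61152) (PT.lf (nat_lit 21964) (nat_lit 6) (nat_lit 289) (nat_lit 1) (nat_lit 217) (nat_lit 182) (nat_lit 201)) (PT.lf (nat_lit 22800) (nat_lit 6) (nat_lit 300) (nat_lit 3) (nat_lit 200) (nat_lit 183) (nat_lit 217))) (PT.nd (nat_lit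 78) (PT.lf (nat_lit 22876) (nat_lit 6) (nat_lit 301) (nat_lit 3) (nat_lit 201) (nat_lit 183) (nat_lit 216)) (PT.lf (nat_lit 22952) (nat_lit 6) (nat_lit 302) (nat_lit 3) (nat_lit 202) (nat_lit 183) (nat_lit 215)))))) (PT.nd (nat_lit 624) (PT.nd (nat_lit 312) (PT.nd (nat_lit 156) (PT.nd (nat_lit 78) (PT.lf (nat_lit 23028) (nat_lit 6) (nat_lit 303) (nat_lit 3) (nat_lit 203) (nat_lit 183) (nat_lit 214)) (PT.lf (nat_lit 23104) (nat_lit 6) (nat_lit 304) (nat_lit 3) (nat_lit 204) (nat_lit 183) (nat_lit 213))) (PT.nd (nat_lit 78) (PT.lf (nat_lit 23180) (nat_lit 6) (nat_lit 305) (nat_lit 3) (nat_lit 205) (nat_lit 183) (nat_lit 212)) (PT.lf (nat_lit 23256) (nat_lit 6) (nat_lit 306) (nat_lit 3) (nat_lit 206) (nat_lit 183) (nat_lit 211)))) (PT.nd (nat_lit 156) (PT.nd (nat_lit 78) (PT.lf (nat_lit 23332) (nat_lit 6) (nat_lit 307) (nat_lit 3) (nat_lit 207) (nat_lit 183) (nat_lit 210)) (PT.lf (nat_lit 23408) (nat_lit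 6) (nat_lit 308) (nat_lit 3) (nat_lit 208) (nat_lit 183) (nat_lit 209))) (PT.nd (nat_lit 78) (PT.lf (nat_lit 23408) (nat_lit 6) (nat_lit 308) (nat_lit 1) (nat_lit 209) (nat_lit 183) (nat_lit 208)) (PT.lf (nat_lit 23332) (nat_lit 6) (nat_lit 307) (nat_lit 1) (nat_lit 210) (nat_lit 183) (nat_lit 207))))) (PT.nd (nat_lit 312) (PT.nd (nat_lit 156) (PT.nd (nat_lit 78) (PT.lf (nat_lit 23256) (nat_lit 6) (nat_lit 306) (nat_lit 1) (nat_lit 211) (nat_lit 183) (nat_lit 206)) (PT.lf (nat_lit 23180) (nat_lit 6) (nat_lit 305) (nat_lit 1) (nat_lit 212) (nat_lit 183) (nat_lit 205))) (PT.nd (nat_lit 78) (PT.lf (nat_lit 23104) (nat_lit 6) (nat_lit 304) (nat_lit 1) (nat_lit 213) (nat_lit 183) (nat_lit 204)) (PT.lf (nat_lit 23028) (nat_lit 6) (nat_lit 303) (nat_lit 1) (nat_lit 214) (nat_lit 183) (nat_lit 203)))) (PT.nd (nat_lit 156) (PT.nd (nat_lit 78) (PT.lf (nat_lit 22952) (nat_lit 6) (nat_lit 302) (nat_lit 1) (nat_lit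 215) (nat_lit 183) (nat_lit 202)) (PT.lf (nat_lit 22876) (nat_lit 6) (nat_lit 301) (nat_lit 1) (nat_lit 216) (nat_lit 183) (nat_lit 201))) (PT.nd (nat_lit 61074) (PT.lf (nat_lit 22800) (nat_lit 6) (nat_lit 300) (nat_lit 1) (nat_lit 217) (nat_lit 183) (nat_lit 200)) (PT.nd (nat_lit 78) (PT.lf (nat_lit 22724) (nat_lit 6) (nat_lit 299) (nat_lit 3) (nat_lit 199) (nat_lit 184) (nat_lit 217)) (PT.lf (nat_lit 24092) (nat_lit 6) (nat_lit 317) (nat_lit 3) (nat_lit 200) (nat_lit 184) (nat_lit 216))))))))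
noncomputable def pc13 : PT := (PT.nd (nat_lit 1248) (PT.nd (nat_lit 624) (PT.nd (nat_lit 312) (PT.nd (nat_lit 156) (PT.nd (nat_lit 78) (PT.lf (nat_lit 24168) (nat_lit 6) (nat_lit 318) (nat_lit 3) (nat_lit 201) (nat_lit 184) (nat_lit 215)) (PT.lf (nat_lit 24244) (nat_lit 6) (nat_lit 319) (nat_lit 3) (nat_lit 202) (nat_lit 184) (nat_lit 214))) (PT.nd (nat_lit 78) (PT.lf (nat_lit 24320) (nat_lit 6) (nat_lit 320) (nat_lit 3) (nat_lit 203) (nat_lit 184) (nat_lit 213)) (PT.lf (nat_lit 24396) (nat_lit 6) (nat_lit 321) (nat_lit 3) (nat_lit 204) (nat_lit 184) (nat_lit 212)))) (PT.nd (nat_lit 156) (PT.nd (nat_lit 78) (PT.lf (nat_lit 24472) (nat_lit 6) (nat_lit 322) (nat_lit 3) (nat_lit 205) (nat_lit 184) (nat_lit 211)) (PT.lf (nat_lit 24548) (nat_lit 6) (nat_lit 323) (nat_lit 3) (nat_lit 206) (nat_lit 184) (nat_lit 210))) (PT.nd (nat_lit 78) (PT.lf (nat_lit 24624) (nat_lit 6) (nat_lit 324) (nat_lit 3) (nat_lit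 207) (nat_lit 184) (nat_lit 209)) (PT.lf (nat_lit 24700) (nat_lit 3) (nat_lit 325) (nat_lit 1) (nat_lit 208) (nat_lit 184) (nat_lit 208))))) (PT.nd (nat_lit 312) (PT.nd (nat_lit 156) (PT.nd (nat_lit 78) (PT.lf (nat_lit 24624) (nat_lit 6) (nat_lit 324) (nat_lit 1) (nat_lit 209) (nat_lit 184) (nat_lit 207)) (PT.lf (nat_lit 24548) (nat_lit 6) (nat_lit 323) (nat_lit 1) (nat_lit 210) (nat_lit 184) (nat_lit 206))) (PT.nd (nat_lit 78) (PT.lf (nat_lit 24472) (nat_lit 6) (nat_lit 322) (nat_lit 1) (nat_lit 211) (nat_lit 184) (nat_lit 205)) (PT.lf (nat_lit 24396) (nat_lit 6) (nat_lit 321) (nat_lit 1) (nat_lit 212) (nat_lit 184) (nat_lit 204)))) (PT.nd (nat_lit 156) (PT.nd (nat_lit 78) (PT.lf (nat_lit 24320) (nat_lit 6) (nat_lit 320) (nat_lit 1) (nat_lit 213) (nat_lit 184) (nat_lit 203)) (PT.lf (nat_lit 24244) (nat_lit 6) (nat_lit 319) (nat_lit 1) (nat_lit 214) (nat_lit 184) (nat_lit 202))) (PT.nd (nat_lit 78)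 (PT.lf (nat_lit 24168) (nat_lit 6) (nat_lit 318) (nat_lit 1) (nat_lit 215) (nat_lit 184) (nat_lit 201)) (PT.lf (nat_lit 24092) (nat_lit 6) (nat_lit 317) (nat_lit 1) (nat_lit 216) (nat_lit 184) (nat_lit 200)))))) (PT.nd (nat_lit 61542) (PT.nd (nat_lit 61230) (PT.nd (nat_lit 61074) (PT.nd (nat_lit 60996) (PT.lf (nat_lit 22724) (nat_lit 6) (nat_lit 299) (nat_lit 1) (nat_lit 217) (nat_lit 184) (nat_lit 199)) (PT.lf (nat_lit 22648) (nat_lit 6) (nat_lit 298) (nat_lit 3) (nat_lit 198) (nat_lit 185) (nat_lit 217))) (PT.nd (nat_lit 78) (PT.lf (nat_lit 24016) (nat_lit 6) (nat_lit 316) (nat_lit 3) (nat_lit 199) (nat_lit 185) (nat_lit 216)) (PT.lf (nat_lit 25308) (nat_lit 6) (nat_lit 333) (nat_lit 3) (nat_lit 200) (nat_lit 185) (nat_lit 215)))) (PT.nd (nat_lit 156) (PT.nd (nat_lit 78) (PT.lf (nat_lit 25384) (nat_lit 6) (nat_lit 334) (nat_lit 3) (nat_lit 201) (nat_lit 185) (nat_lit 214)) (PT.lf (nat_lit 25460)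 (nat_lit 6) (nat_lit 335) (nat_lit 3) (nat_lit 202) (nat_lit 185) (nat_lit 213))) (PT.nd (nat_lit 78) (PT.lf (nat_lit 25536) (nat_lit 6) (nat_lit 336) (nat_lit 3) (nat_lit 203) (nat_lit 185) (nat_lit 212)) (PT.lf (nat_lit 25612) (nat_lit 6) (nat_lit 337) (nat_lit 3) (nat_lit 204) (nat_lit 185) (nat_lit 211))))) (PT.nd (nat_lit 312) (PT.nd (nat_lit 156) (PT.nd (nat_lit 78) (PT.lf (nat_lit 25688) (nat_lit 6) (nat_lit 338) (nat_lit 3) (nat_lit 205) (nat_lit 185) (nat_lit 210)) (PT.lf (nat_lit 25764) (nat_lit 6) (nat_lit 339) (nat_lit 3) (nat_lit 206) (nat_lit 185) (nat_lit 209))) (PT.nd (nat_lit 78) (PT.lf (nat_lit 25840) (nat_lit 6) (nat_lit 340) (nat_lit 3) (nat_lit 207) (nat_lit 185) (nat_lit 208)) (PT.lf (nat_lit 25840) (nat_lit 6) (nat_lit 340) (nat_lit 1) (nat_lit 208) (nat_lit 185) (nat_lit 207)))) (PT.nd (nat_lit 156) (PT.nd (nat_lit 78) (PT.lf (nat_lit 25764) (nat_lit 6) (nat_lit 339) (nat_lit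 1) (nat_lit 209) (nat_lit 185) (nat_lit 206)) (PT.lf (nat_lit 25688) (nat_lit 6) (nat_lit 338) (nat_lit 1) (nat_lit 210) (nat_lit 185) (nat_lit 205))) (PT.nd (nat_lit 78) (PT.lf (nat_lit 25612) (nat_lit 6) (nat_lit 337) (nat_lit 1) (nat_lit 211) (nat_lit 185) (nat_lit 204)) (PT.nd (nat_lit 78) (PT.lf (nat_lit 25536) (nat_lit 6) (nat_lit 336) (nat_lit 1) (nat_lit 212) (nat_lit 185) (nat_lit 203)) (PT.lf (nat_lit 25460) (nat_lit 6) (nat_lit 335) (nat_lit 1) (nat_lit 213) (nat_lit 185) (nat_lit 202))))))))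
noncomputable def pc14 : PT := (PT.nd (nat_lit 62166) (PT.nd (nat_lit 61542) (PT.nd (nat_lit 61230) (PT.nd (nat_lit 156) (PT.nd (nat_lit 78) (PT.lf (nat_lit 25384) (nat_lit 6) (nat_lit 334) (nat_lit 1) (nat_lit 214) (nat_lit 185) (nat_lit 201)) (PT.lf (nat_lit 25308) (nat_lit 6) (nat_lit 333) (nat_lit 1) (nat_lit 215) (nat_lit 185) (nat_lit 200))) (PT.nd (nat_lit 78) (PT.lf (nat_lit 24016) (nat_lit 6) (nat_lit 316) (nat_lit 1) (nat_lit 216) (nat_lit 185) (nat_lit 199)) (PT.lf (nat_lit 22648) (nat_lit 6) (nat_lit 298) (nat_lit 1) (nat_lit 217) (nat_lit 185) (nat_lit 198)))) (PT.nd (nat_lit 156) (PT.nd (nat_lit 78) (PT.lf (nat_lit 23940) (nat_lit 6) (nat_lit 315) (nat_lit 3) (nat_lit 198) (nat_lit 186) (nat_lit 216)) (PT.lf (nat_lit 25232) (nat_lit 6) (nat_lit 332) (nat_lit 3) (nat_lit 199) (nat_lit 186) (nat_lit 215))) (PT.nd (nat_lit 78) (PT.lf (nat_lit 26448) (nat_lit 6) (nat_lit 348) (nat_lit 3)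 (nat_lit 200) (nat_lit 186) (nat_lit 214)) (PT.lf (nat_lit 26524) (nat_lit 6) (nat_lit 349) (nat_lit 3) (nat_lit 201) (nat_lit 186) (nat_lit 213))))) (PT.nd (nat_lit 312) (PT.nd (nat_lit 156) (PT.nd (nat_lit 78) (PT.lf (nat_lit 26600) (nat_lit 6) (nat_lit 350) (nat_lit 3) (nat_lit 202) (nat_lit 186) (nat_lit 212)) (PT.lf (nat_lit 26676) (nat_lit 6) (nat_lit 351) (nat_lit 3) (nat_lit 203) (nat_lit 186) (nat_lit 211))) (PT.nd (nat_lit 78) (PT.lf (nat_lit 26752) (nat_lit 6) (nat_lit 352) (nat_lit 3) (nat_lit 204) (nat_lit 186) (nat_lit 210)) (PT.lf (nat_lit 26828) (nat_lit 6) (nat_lit 353) (nat_lit 3) (nat_lit 205) (nat_lit 186) (nat_lit 209)))) (PT.nd (nat_lit 156) (PT.nd (nat_lit 78) (PT.lf (nat_lit 26904) (nat_lit 6) (nat_lit 354) (nat_lit 3) (nat_lit 206) (nat_lit 186) (nat_lit 208)) (PT.lf (nat_lit 26980) (nat_lit 3) (nat_lit 355) (nat_lit 1) (nat_lit 207) (nat_lit 186) (nat_lit 207))) (PT.nd (nat_lit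 78) (PT.lf (nat_lit 26904) (nat_lit 6) (nat_lit 354) (nat_lit 1) (nat_lit 208) (nat_lit 186) (nat_lit 206)) (PT.lf (nat_lit 26828) (nat_lit 6) (nat_lit 353) (nat_lit 1) (nat_lit 209) (nat_lit 186) (nat_lit 205)))))) (PT.nd (nat_lit 61542) (PT.nd (nat_lit 312) (PT.nd (nat_lit 156) (PT.nd (nat_lit 78) (PT.lf (nat_lit 26752) (nat_lit 6) (nat_lit 352) (nat_lit 1) (nat_lit 210) (nat_lit 186) (nat_lit 204)) (PT.lf (nat_lit 26676) (nat_lit 6) (nat_lit 351) (nat_lit 1) (nat_lit 211) (nat_lit 186) (nat_lit 203))) (PT.nd (nat_lit 78) (PT.lf (nat_lit 26600) (nat_lit 6) (nat_lit 350) (nat_lit 1) (nat_lit 212) (nat_lit 186) (nat_lit 202)) (PT.lf (nat_lit 26524) (nat_lit 6) (nat_lit 349) (nat_lit 1) (nat_lit 213) (nat_lit 186) (nat_lit 201)))) (PT.nd (nat_lit 156) (PT.nd (nat_lit 78) (PT.lf (nat_lit 26448) (nat_lit 6) (nat_lit 348) (nat_lit 1) (nat_lit 214) (nat_lit 186) (nat_lit 200)) (PT.lf (nat_lit 25232) (nat_lit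 6) (nat_lit 332) (nat_lit 1) (nat_lit 215) (nat_lit 186) (nat_lit 199))) (PT.nd (nat_lit 60996) (PT.lf (nat_lit 23940) (nat_lit 6) (nat_lit 315) (nat_lit 1) (nat_lit 216) (nat_lit 186) (nat_lit 198)) (PT.lf (nat_lit 23864) (nat_lit 6) (nat_lit 314) (nat_lit 3) (nat_lit 197) (nat_lit 187) (nat_lit 216))))) (PT.nd (nat_lit 312) (PT.nd (nat_lit 156) (PT.nd (nat_lit 78) (PT.lf (nat_lit 25156) (nat_lit 6) (nat_lit 331) (nat_lit 3) (nat_lit 198) (nat_lit 187) (nat_lit 215)) (PT.lf (nat_lit 26372) (nat_lit 6) (nat_lit 347) (nat_lit 3) (nat_lit 199) (nat_lit 187) (nat_lit 214))) (PT.nd (nat_lit 78) (PT.lf (nat_lit 27512) (nat_lit 6) (nat_lit 362) (nat_lit 3) (nat_lit 200) (nat_lit 187) (nat_lit 213)) (PT.lf (nat_lit 27588) (nat_lit 6) (nat_lit 363) (nat_lit 3) (nat_lit 201) (nat_lit 187) (nat_lit 212)))) (PT.nd (nat_lit 156) (PT.nd (nat_lit 78) (PT.lf (nat_lit 27664) (nat_lit 6) (nat_lit 364) (nat_lit 3) (nat_lit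 202) (nat_lit 187) (nat_lit 211)) (PT.lf (nat_lit 27740) (nat_lit 6) (nat_lit 365) (nat_lit 3) (nat_lit 203) (nat_lit 187) (nat_lit 210))) (PT.nd (nat_lit 78) (PT.lf (nat_lit 27816) (nat_lit 6) (nat_lit 366) (nat_lit 3) (nat_lit 204) (nat_lit 187) (nat_lit 209)) (PT.nd (nat_lit 78) (PT.lf (nat_lit 27892) (nat_lit 6) (nat_lit 367) (nat_lit 3) (nat_lit 205) (nat_lit 187) (nat_lit 208)) (PT.lf (nat_lit 27968) (nat_lit 6) (nat_lit 368) (nat_lit 3) (nat_lit 206) (nat_lit 187) (nat_lit 207))))))))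
noncomputable def pc15 : PT := (PT.nd (nat_lit 62088) (PT.nd (nat_lit 624) (PT.nd (nat_lit 312) (PT.nd (nat_lit 156) (PT.nd (nat_lit 78) (PT.lf (nat_lit 27968) (nat_lit 6) (nat_lit 368) (nat_lit 1) (nat_lit 207) (nat_lit 187) (nat_lit 206)) (PT.lf (nat_lit 27892) (nat_lit 6) (nat_lit 367) (nat_lit 1) (nat_lit 208) (nat_lit 187) (nat_lit 205))) (PT.nd (nat_lit 78) (PT.lf (nat_lit 27816) (nat_lit 6) (nat_lit 366) (nat_lit 1) (nat_lit 209) (nat_lit 187) (nat_lit 204)) (PT.lf (nat_lit 27740) (nat_lit 6) (nat_lit 365) (nat_lit 1) (nat_lit 210) (nat_lit 187) (nat_lit 203)))) (PT.nd (nat_lit 156) (PT.nd (nat_lit 78) (PT.lf (nat_lit 27664) (nat_lit 6) (nat_lit 364) (nat_lit 1) (nat_lit 211) (nat_lit 187) (nat_lit 202)) (PT.lf (nat_lit 27588) (nat_lit 6) (nat_lit 363) (nat_lit 1) (nat_lit 212) (nat_lit 187) (nat_lit 201))) (PT.nd (nat_lit 78) (PT.lf (nat_lit 27512) (nat_lit 6) (nat_lit 362) (nat_lit 1) (nat_lit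 213) (nat_lit 187) (nat_lit 200)) (PT.lf (nat_lit 26372) (nat_lit 6) (nat_lit 347) (nat_lit 1) (nat_lit 214) (nat_lit 187) (nat_lit 199))))) (PT.nd (nat_lit 61152) (PT.nd (nat_lit 60996) (PT.nd (nat_lit 78) (PT.lf (nat_lit 25156) (nat_lit 6) (nat_lit 331) (nat_lit 1) (nat_lit 215) (nat_lit 187) (nat_lit 198)) (PT.lf (nat_lit 23864) (nat_lit 6) (nat_lit 314) (nat_lit 1) (nat_lit 216) (nat_lit 187) (nat_lit 197))) (PT.nd (nat_lit 78) (PT.lf (nat_lit 23788) (nat_lit 6) (nat_lit 313) (nat_lit 3) (nat_lit 196) (nat_lit 188) (nat_lit 216)) (PT.lf (nat_lit 25080) (nat_lit 6) (nat_lit 330) (nat_lit 3) (nat_lit 197) (nat_lit 188) (nat_lit 215)))) (PT.nd (nat_lit 156) (PT.nd (nat_lit 78) (PT.lf (nat_lit 26296) (nat_lit 6) (nat_lit 346) (nat_lit 3) (nat_lit 198) (nat_lit 188) (nat_lit 214)) (PT.lf (nat_lit 27436) (nat_lit 6) (nat_lit 361) (nat_lit 3) (nat_lit 199) (nat_lit 188) (nat_lit 213))) (PT.nd (nat_lit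 78) (PT.lf (nat_lit 28500) (nat_lit 6) (nat_lit 375) (nat_lit 3) (nat_lit 200) (nat_lit 188) (nat_lit 212)) (PT.lf (nat_lit 28576) (nat_lit 6) (nat_lit 376) (nat_lit 3) (nat_lit 201) (nat_lit 188) (nat_lit 211)))))) (PT.nd (nat_lit 624) (PT.nd (nat_lit 312) (PT.nd (nat_lit 156) (PT.nd (nat_lit 78) (PT.lf (nat_lit 28652) (nat_lit 6) (nat_lit 377) (nat_lit 3) (nat_lit 202) (nat_lit 188) (nat_lit 210)) (PT.lf (nat_lit 28728) (nat_lit 6) (nat_lit 378) (nat_lit 3) (nat_lit 203) (nat_lit 188) (nat_lit 209))) (PT.nd (nat_lit 78) (PT.lf (nat_lit 28804) (nat_lit 6) (nat_lit 379) (nat_lit 3) (nat_lit 204) (nat_lit 188) (nat_lit 208)) (PT.lf (nat_lit 28880) (nat_lit 6) (nat_lit 380) (nat_lit 3) (nat_lit 205) (nat_lit 188) (nat_lit 207)))) (PT.nd (nat_lit 156) (PT.nd (nat_lit 78) (PT.lf (nat_lit 28956) (nat_lit 3) (nat_lit 381) (nat_lit 1) (nat_lit 206) (nat_lit 188) (nat_lit 206)) (PT.lf (nat_lit 28880) (nat_lit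 6) (nat_lit 380) (nat_lit 1) (nat_lit 207) (nat_lit 188) (nat_lit 205))) (PT.nd (nat_lit 78) (PT.lf (nat_lit 28804) (nat_lit 6) (nat_lit 379) (nat_lit 1) (nat_lit 208) (nat_lit 188) (nat_lit 204)) (PT.lf (nat_lit 28728) (nat_lit 6) (nat_lit 378) (nat_lit 1) (nat_lit 209) (nat_lit 188) (nat_lit 203))))) (PT.nd (nat_lit 312) (PT.nd (nat_lit 156) (PT.nd (nat_lit 78) (PT.lf (nat_lit 28652) (nat_lit 6) (nat_lit 377) (nat_lit 1) (nat_lit 210) (nat_lit 188) (nat_lit 202)) (PT.lf (nat_lit 28576) (nat_lit 6) (nat_lit 376) (nat_lit 1) (nat_lit 211) (nat_lit 188) (nat_lit 201))) (PT.nd (nat_lit 78) (PT.lf (nat_lit 28500) (nat_lit 6) (nat_lit 375) (nat_lit 1) (nat_lit 212) (nat_lit 188) (nat_lit 200)) (PT.lf (nat_lit 27436) (nat_lit 6) (nat_lit 361) (nat_lit 1) (nat_lit 213) (nat_lit 188) (nat_lit 199)))) (PT.nd (nat_lit 156) (PT.nd (nat_lit 78) (PT.lf (nat_lit 26296) (nat_lit 6) (nat_lit 346) (nat_lit 1) (nat_lit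 214) (nat_lit 188) (nat_lit 198)) (PT.lf (nat_lit 25080) (nat_lit 6) (nat_lit 330) (nat_lit 1) (nat_lit 215) (nat_lit 188) (nat_lit 197))) (PT.nd (nat_lit 60840) (PT.lf (nat_lit 23788) (nat_lit 6) (nat_lit 313) (nat_lit 1) (nat_lit 216) (nat_lit 188) (nat_lit 196)) (PT.nd (nat_lit 78) (PT.lf (nat_lit 23712) (nat_lit 6) (nat_lit 312) (nat_lit 3) (nat_lit 195) (nat_lit 189) (nat_lit 216)) (PT.lf (nat_lit 25004) (nat_lit 6) (nat_lit 329) (nat_lit 3) (nat_lit 196) (nat_lit 189) (nat_lit 215))))))))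
noncomputable def pc16 : PT := (PT.nd (nat_lit 1248) (PT.nd (nat_lit 624) (PT.nd (nat_lit 312) (PT.nd (nat_lit 156) (PT.nd (nat_lit 78) (PT.lf (nat_lit 26220) (nat_lit 6) (nat_lit 345) (nat_lit 3) (nat_lit 197) (nat_lit 189) (nat_lit 214)) (PT.lf (nat_lit 27360) (nat_lit 6) (nat_lit 360) (nat_lit 3) (nat_lit 198) (nat_lit 189) (nat_lit 213))) (PT.nd (nat_lit 78) (PT.lf (nat_lit 28424) (nat_lit 6) (nat_lit 374) (nat_lit 3) (nat_lit 199) (nat_lit 189) (nat_lit 212)) (PT.lf (nat_lit 29412) (nat_lit 6) (nat_lit 387) (nat_lit 3) (nat_lit 200) (nat_lit 189) (nat_lit 211)))) (PT.nd (nat_lit 156) (PT.nd (nat_lit 78) (PT.lf (nat_lit 29488) (nat_lit 6) (nat_lit 388) (nat_lit 3) (nat_lit 201) (nat_lit 189) (nat_lit 210)) (PT.lf (nat_lit 29564) (nat_lit 6) (nat_lit 389) (nat_lit 3) (nat_lit 202) (nat_lit 189) (nat_lit 209))) (PT.nd (nat_lit 78) (PT.lf (nat_lit 29640) (nat_lit 6) (nat_lit 390) (nat_lit 3) (nat_lit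 203) (nat_lit 189) (nat_lit 208)) (PT.lf (nat_lit 29716) (nat_lit 6) (nat_lit 391) (nat_lit 3) (nat_lit 204) (nat_lit 189) (nat_lit 207))))) (PT.nd (nat_lit 312) (PT.nd (nat_lit 156) (PT.nd (nat_lit 78) (PT.lf (nat_lit 29792) (nat_lit 6) (nat_lit 392) (nat_lit 3) (nat_lit 205) (nat_lit 189) (nat_lit 206)) (PT.lf (nat_lit 29792) (nat_lit 6) (nat_lit 392) (nat_lit 1) (nat_lit 206) (nat_lit 189) (nat_lit 205))) (PT.nd (nat_lit 78) (PT.lf (nat_lit 29716) (nat_lit 6) (nat_lit 391) (nat_lit 1) (nat_lit 207) (nat_lit 189) (nat_lit 204)) (PT.lf (nat_lit 29640) (nat_lit 6) (nat_lit 390) (nat_lit 1) (nat_lit 208) (nat_lit 189) (nat_lit 203)))) (PT.nd (nat_lit 156) (PT.nd (nat_lit 78) (PT.lf (nat_lit 29564) (nat_lit 6) (nat_lit 389) (nat_lit 1) (nat_lit 209) (nat_lit 189) (nat_lit 202)) (PT.lf (nat_lit 29488) (nat_lit 6) (nat_lit 388) (nat_lit 1) (nat_lit 210) (nat_lit 189) (nat_lit 201))) (PT.nd (nat_lit 78)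 (PT.lf (nat_lit 29412) (nat_lit 6) (nat_lit 387) (nat_lit 1) (nat_lit 211) (nat_lit 189) (nat_lit 200)) (PT.lf (nat_lit 28424) (nat_lit 6) (nat_lit 374) (nat_lit 1) (nat_lit 212) (nat_lit 189) (nat_lit 199)))))) (PT.nd (nat_lit 61308) (PT.nd (nat_lit 60996) (PT.nd (nat_lit 156) (PT.nd (nat_lit 78) (PT.lf (nat_lit 27360) (nat_lit 6) (nat_lit 360) (nat_lit 1) (nat_lit 213) (nat_lit 189) (nat_lit 198)) (PT.lf (nat_lit 26220) (nat_lit 6) (nat_lit 345) (nat_lit 1) (nat_lit 214) (nat_lit 189) (nat_lit 197))) (PT.nd (nat_lit 78) (PT.lf (nat_lit 25004) (nat_lit 6) (nat_lit 329) (nat_lit 1) (nat_lit 215) (nat_lit 189) (nat_lit 196)) (PT.lf (nat_lit 23712) (nat_lit 6) (nat_lit 312) (nat_lit 1) (nat_lit 216) (nat_lit 189) (nat_lit 195)))) (PT.nd (nat_lit 156) (PT.nd (nat_lit 78) (PT.lf (nat_lit 23636) (nat_lit 6) (nat_lit 311) (nat_lit 3) (nat_lit 194) (nat_lit 190) (nat_lit 216)) (PT.lf (nat_lit 24928) (nat_lit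 6) (nat_lit 328) (nat_lit 3) (nat_lit 195) (nat_lit 190) (nat_lit 215))) (PT.nd (nat_lit 78) (PT.lf (nat_lit 26144) (nat_lit 6) (nat_lit 344) (nat_lit 3) (nat_lit 196) (nat_lit 190) (nat_lit 214)) (PT.lf (nat_lit 27284) (nat_lit 6) (nat_lit 359) (nat_lit 3) (nat_lit 197) (nat_lit 190) (nat_lit 213))))) (PT.nd (nat_lit 312) (PT.nd (nat_lit 156) (PT.nd (nat_lit 78) (PT.lf (nat_lit 28348) (nat_lit 6) (nat_lit 373) (nat_lit 3) (nat_lit 198) (nat_lit 190) (nat_lit 212)) (PT.lf (nat_lit 29336) (nat_lit 6) (nat_lit 386) (nat_lit 3) (nat_lit 199) (nat_lit 190) (nat_lit 211))) (PT.nd (nat_lit 78) (PT.lf (nat_lit 30248) (nat_lit 6) (nat_lit 398) (nat_lit 3) (nat_lit 200) (nat_lit 190) (nat_lit 210)) (PT.lf (nat_lit 30324) (nat_lit 6) (nat_lit 399) (nat_lit 3) (nat_lit 201) (nat_lit 190) (nat_lit 209)))) (PT.nd (nat_lit 156) (PT.nd (nat_lit 78) (PT.lf (nat_lit 30400) (nat_lit 6) (nat_lit 400) (nat_lit 3) (nat_lit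 202) (nat_lit 190) (nat_lit 208)) (PT.lf (nat_lit 30476) (nat_lit 6) (nat_lit 401) (nat_lit 3) (nat_lit 203) (nat_lit 190) (nat_lit 207))) (PT.nd (nat_lit 78) (PT.lf (nat_lit 30552) (nat_lit 6) (nat_lit 402) (nat_lit 3) (nat_lit 204) (nat_lit 190) (nat_lit 206)) (PT.lf (nat_lit 30628) (nat_lit 3) (nat_lit 403) (nat_lit 1) (nat_lit 205) (nat_lit 190) (nat_lit 205)))))))
noncomputable def pc17 : PT := (PT.nd (nat_lit 61854) (PT.nd (nat_lit 624) (PT.nd (nat_lit 312) (PT.nd (nat_lit 156) (PT.nd (nat_lit 78) (PT.lf (nat_lit 30552) (nat_lit 6) (nat_lit 402) (nat_lit 1) (nat_lit 206) (nat_lit 190) (nat_lit 204)) (PT.lf (nat_lit 30476) (nat_lit 6) (nat_lit 401) (nat_lit 1) (nat_lit 207) (nat_lit 190) (nat_lit 203))) (PT.nd (nat_lit 78) (PT.lf (nat_lit 30400) (nat_lit 6) (nat_lit 400) (nat_lit 1) (nat_lit 208) (nat_lit 190) (nat_lit 202)) (PT.lf (nat_lit 30324) (nat_lit 6) (nat_lit 399) (nat_lit 1) (nat_lit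 209) (nat_lit 190) (nat_lit 201)))) (PT.nd (nat_lit 156) (PT.nd (nat_lit 78) (PT.lf (nat_lit 30248) (nat_lit 6) (nat_lit 398) (nat_lit 1) (nat_lit 210) (nat_lit 190) (nat_lit 200)) (PT.lf (nat_lit 29336) (nat_lit 6) (nat_lit 386) (nat_lit 1) (nat_lit 211) (nat_lit 190) (nat_lit 199))) (PT.nd (nat_lit 78) (PT.lf (nat_lit 28348) (nat_lit 6) (nat_lit 373) (nat_lit 1) (nat_lit 212) (nat_lit 190) (nat_lit 198)) (PT.lf (nat_lit 27284) (nat_lit 6) (nat_lit 359) (nat_lit 1) (nat_lit 213) (nat_lit 190) (nat_lit 197))))) (PT.nd (nat_lit 60918) (PT.nd (nat_lit 156) (PT.nd (nat_lit 78) (PT.lf (nat_lit 26144) (nat_lit 6) (nat_lit 344) (nat_lit 1) (nat_lit 214) (nat_lit 190) (nat_lit 196)) (PT.lf (nat_lit 24928) (nat_lit 6) (nat_lit 328) (nat_lit 1) (nat_lit 215) (nat_lit 190) (nat_lit 195))) (PT.nd (nat_lit 60684) (PT.lf (nat_lit 23636) (nat_lit 6) (nat_lit 311) (nat_lit 1) (nat_lit 216) (nat_lit 190) (nat_lit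 194)) (PT.lf (nat_lit 23560) (nat_lit 6) (nat_lit 310) (nat_lit 3) (nat_lit 193) (nat_lit 191) (nat_lit 216)))) (PT.nd (nat_lit 156) (PT.nd (nat_lit 78) (PT.lf (nat_lit 24852) (nat_lit 6) (nat_lit 327) (nat_lit 3) (nat_lit 194) (nat_lit 191) (nat_lit 215)) (PT.lf (nat_lit 26068) (nat_lit 6) (nat_lit 343) (nat_lit 3) (nat_lit 195) (nat_lit 191) (nat_lit 214))) (PT.nd (nat_lit 78) (PT.lf (nat_lit 27208) (nat_lit 6) (nat_lit 358) (nat_lit 3) (nat_lit 196) (nat_lit 191) (nat_lit 213)) (PT.lf (nat_lit 28272) (nat_lit 6) (nat_lit 372) (nat_lit 3) (nat_lit 197) (nat_lit 191) (nat_lit 212)))))) (PT.nd (nat_lit 624) (PT.nd (nat_lit 312) (PT.nd (nat_lit 156) (PT.nd (nat_lit 78) (PT.lf (nat_lit 29260) (nat_lit 6) (nat_lit 385) (nat_lit 3) (nat_lit 198) (nat_lit 191) (nat_lit 211)) (PT.lf (nat_lit 30172) (nat_lit 6) (nat_lit 397) (nat_lit 3) (nat_lit 199) (nat_lit 191) (nat_lit 210))) (PT.nd (nat_lit 78) (PT.lf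 (nat_lit 31008) (nat_lit 6) (nat_lit 408) (nat_lit 3) (nat_lit 200) (nat_lit 191) (nat_lit 209)) (PT.lf (nat_lit 31084) (nat_lit 6) (nat_lit 409) (nat_lit 3) (nat_lit 201) (nat_lit 191) (nat_lit 208)))) (PT.nd (nat_lit 156) (PT.nd (nat_lit 78) (PT.lf (nat_lit 31160) (nat_lit 6) (nat_lit 410) (nat_lit 3) (nat_lit 202) (nat_lit 191) (nat_lit 207)) (PT.lf (nat_lit 31236) (nat_lit 6) (nat_lit 411) (nat_lit 3) (nat_lit 203) (nat_lit 191) (nat_lit 206))) (PT.nd (nat_lit 78) (PT.lf (nat_lit 31312) (nat_lit 6) (nat_lit 412) (nat_lit 3) (nat_lit 204) (nat_lit 191) (nat_lit 205)) (PT.lf (nat_lit 31312) (nat_lit 6) (nat_lit 412) (nat_lit 1) (nat_lit 205) (nat_lit 191) (nat_lit 204))))) (PT.nd (nat_lit 312) (PT.nd (nat_lit 156) (PT.nd (nat_lit 78) (PT.lf (nat_lit 31236) (nat_lit 6) (nat_lit 411) (nat_lit 1) (nat_lit 206) (nat_lit 191) (nat_lit 203)) (PT.lf (nat_lit 31160) (nat_lit 6) (nat_lit 410) (nat_lit 1)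 (nat_lit 207) (nat_lit 191) (nat_lit 202))) (PT.nd (nat_lit 78) (PT.lf (nat_lit 31084) (nat_lit 6) (nat_lit 409) (nat_lit 1) (nat_lit 208) (nat_lit 191) (nat_lit 201)) (PT.lf (nat_lit 31008) (nat_lit 6) (nat_lit 408) (nat_lit 1) (nat_lit 209) (nat_lit 191) (nat_lit 200)))) (PT.nd (nat_lit 156) (PT.nd (nat_lit 78) (PT.lf (nat_lit 30172) (nat_lit 6) (nat_lit 397) (nat_lit 1) (nat_lit 210) (nat_lit 191) (nat_lit 199)) (PT.lf (nat_lit 29260) (nat_lit 6) (nat_lit 385) (nat_lit 1) (nat_lit 211) (nat_lit 191) (nat_lit 198))) (PT.nd (nat_lit 78) (PT.lf (nat_lit 28272) (nat_lit 6) (nat_lit 372) (nat_lit 1) (nat_lit 212) (nat_lit 191) (nat_lit 197)) (PT.nd (nat_lit 78) (PT.lf (nat_lit 27208) (nat_lit 6) (nat_lit 358) (nat_lit 1) (nat_lit 213) (nat_lit 191) (nat_lit 196)) (PT.lf (nat_lit 26068) (nat_lit 6) (nat_lit 343) (nat_lit 1) (nat_lit 214) (nat_lit 191) (nat_lit 195))))))))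
noncomputable def pc18 : PT := (PT.nd (nat_lit 61776) (PT.nd (nat_lit 61152) (PT.nd (nat_lit 60840) (PT.nd (nat_lit 60684) (PT.nd (nat_lit 78) (PT.lf (nat_lit 24852) (nat_lit 6) (nat_lit 327) (nat_lit 1) (nat_lit 215) (nat_lit 191) (nat_lit 194)) (PT.lf (nat_lit 23560) (nat_lit 6) (nat_lit 310) (nat_lit 1) (nat_lit 216) (nat_lit 191) (nat_lit 193))) (PT.nd (nat_lit 78) (PT.lf (nat_lit 23484) (nat_lit 3) (nat_lit 309) (nat_lit 3) (nat_lit 192) (nat_lit 192) (nat_lit 216)) (PT.lf (nat_lit 24776) (nat_lit 6) (nat_lit 326) (nat_lit 3) (nat_lit 193) (nat_lit 192) (nat_lit 215)))) (PT.nd (nat_lit 156) (PT.nd (nat_lit 78) (PT.lf (nat_lit 25992) (nat_lit 6) (nat_lit 342) (nat_lit 3) (nat_lit 194) (nat_lit 192) (nat_lit 214)) (PT.lf (nat_lit 27132) (nat_lit 6) (nat_lit 357) (nat_lit 3) (nat_lit 195) (nat_lit 192) (nat_lit 213))) (PT.nd (nat_lit 78) (PT.lf (nat_lit 28196) (nat_lit 6) (nat_lit 371) (nat_lit 3)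 (nat_lit 196) (nat_lit 192) (nat_lit 212)) (PT.lf (nat_lit 29184) (nat_lit 6) (nat_lit 384) (nat_lit 3) (nat_lit 197) (nat_lit 192) (nat_lit 211))))) (PT.nd (nat_lit 312) (PT.nd (nat_lit 156) (PT.nd (nat_lit 78) (PT.lf (nat_lit 30096) (nat_lit 6) (nat_lit 396) (nat_lit 3) (nat_lit 198) (nat_lit 192) (nat_lit 210)) (PT.lf (nat_lit 30932) (nat_lit 6) (nat_lit 407) (nat_lit 3) (nat_lit 199) (nat_lit 192) (nat_lit 209))) (PT.nd (nat_lit 78) (PT.lf (nat_lit 31692) (nat_lit 6) (nat_lit 417) (nat_lit 3) (nat_lit 200) (nat_lit 192) (nat_lit 208)) (PT.lf (nat_lit 31768) (nat_lit 6) (nat_lit 418) (nat_lit 3) (nat_lit 201) (nat_lit 192) (nat_lit 207)))) (PT.nd (nat_lit 156) (PT.nd (nat_lit 78) (PT.lf (nat_lit 31844) (nat_lit 6) (nat_lit 419) (nat_lit 3) (nat_lit 202) (nat_lit 192) (nat_lit 206)) (PT.lf (nat_lit 31920) (nat_lit 6) (nat_lit 420) (nat_lit 3) (nat_lit 203) (nat_lit 192) (nat_lit 205))) (PT.nd (nat_lit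 78) (PT.lf (nat_lit 31996) (nat_lit 3) (nat_lit 421) (nat_lit 1) (nat_lit 204) (nat_lit 192) (nat_lit 204)) (PT.lf (nat_lit 31920) (nat_lit 6) (nat_lit 420) (nat_lit 1) (nat_lit 205) (nat_lit 192) (nat_lit 203)))))) (PT.nd (nat_lit 624) (PT.nd (nat_lit 312) (PT.nd (nat_lit 156) (PT.nd (nat_lit 78) (PT.lf (nat_lit 31844) (nat_lit 6) (nat_lit 419) (nat_lit 1) (nat_lit 206) (nat_lit 192) (nat_lit 202)) (PT.lf (nat_lit 31768) (nat_lit 6) (nat_lit 418) (nat_lit 1) (nat_lit 207) (nat_lit 192) (nat_lit 201))) (PT.nd (nat_lit 78) (PT.lf (nat_lit 31692) (nat_lit 6) (nat_lit 417) (nat_lit 1) (nat_lit 208) (nat_lit 192) (nat_lit 200)) (PT.lf (nat_lit 30932) (nat_lit 6) (nat_lit 407) (nat_lit 1) (nat_lit 209) (nat_lit 192) (nat_lit 199)))) (PT.nd (nat_lit 156) (PT.nd (nat_lit 78) (PT.lf (nat_lit 30096) (nat_lit 6) (nat_lit 396) (nat_lit 1) (nat_lit 210) (nat_lit 192) (nat_lit 198)) (PT.lf (nat_lit 29184) (nat_lit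 6) (nat_lit 384) (nat_lit 1) (nat_lit 211) (nat_lit 192) (nat_lit 197))) (PT.nd (nat_lit 78) (PT.lf (nat_lit 28196) (nat_lit 6) (nat_lit 371) (nat_lit 1) (nat_lit 212) (nat_lit 192) (nat_lit 196)) (PT.lf (nat_lit 27132) (nat_lit 6) (nat_lit 357) (nat_lit 1) (nat_lit 213) (nat_lit 192) (nat_lit 195))))) (PT.nd (nat_lit 60762) (PT.nd (nat_lit 156) (PT.nd (nat_lit 78) (PT.lf (nat_lit 25992) (nat_lit 6) (nat_lit 342) (nat_lit 1) (nat_lit 214) (nat_lit 192) (nat_lit 194)) (PT.lf (nat_lit 24776) (nat_lit 6) (nat_lit 326) (nat_lit 1) (nat_lit 215) (nat_lit 192) (nat_lit 193))) (PT.nd (nat_lit 60528) (PT.lf (nat_lit 23484) (nat_lit 3) (nat_lit 309) (nat_lit 0) (nat_lit 216) (nat_lit 192) (nat_lit 192)) (PT.lf (nat_lit 23560) (nat_lit 6) (nat_lit 310) (nat_lit 5) (nat_lit 191) (nat_lit 193) (nat_lit 216)))) (PT.nd (nat_lit 156) (PT.nd (nat_lit 78) (PT.lf (nat_lit 24776) (nat_lit 6) (nat_lit 326) (nat_lit 5)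 (nat_lit 192) (nat_lit 193) (nat_lit 215)) (PT.lf (nat_lit 25916) (nat_lit 3) (nat_lit 341) (nat_lit 3) (nat_lit 193) (nat_lit 193) (nat_lit 214))) (PT.nd (nat_lit 78) (PT.lf (nat_lit 27056) (nat_lit 6) (nat_lit 356) (nat_lit 3) (nat_lit 194) (nat_lit 193) (nat_lit 213)) (PT.nd (nat_lit 78) (PT.lf (nat_lit 28120) (nat_lit 6) (nat_lit 370) (nat_lit 3) (nat_lit 195) (nat_lit 193) (nat_lit 212)) (PT.lf (nat_lit 29108) (nat_lit 6) (nat_lit 383) (nat_lit 3) (nat_lit 196) (nat_lit 193) (nat_lit 211))))))))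
noncomputable def pc19 : PT := (PT.nd (nat_lit 1248) (PT.nd (nat_lit 624) (PT.nd (nat_lit 312) (PT.nd (nat_lit 156) (PT.nd (nat_lit 78) (PT.lf (nat_lit 30020) (nat_lit 6) (nat_lit 395) (nat_lit 3) (nat_lit 197) (nat_lit 193) (nat_lit 210)) (PT.lf (nat_lit 30856) (nat_lit 6) (nat_lit 406) (nat_lit 3) (nat_lit 198) (nat_lit 193) (nat_lit 209))) (PT.nd (nat_lit 78) (PT.lf (nat_lit 31616) (nat_lit 6) (nat_lit 416) (nat_lit 3) (nat_lit 199) (nat_lit 193) (nat_lit 208)) (PT.lf (nat_lit 32300) (nat_lit 6) (nat_lit 425) (nat_lit 3) (nat_lit 200) (nat_lit 193) (nat_lit 207)))) (PT.nd (nat_lit 156) (PT.nd (nat_lit 78) (PT.lf (nat_lit 32376) (nat_lit 6) (nat_lit 426) (nat_lit 3) (nat_lit 201) (nat_lit 193) (nat_lit 206)) (PT.lf (nat_lit 32452) (nat_lit 6) (nat_lit 427) (nat_lit 3) (nat_lit 202) (nat_lit 193) (nat_lit 205))) (PT.nd (nat_lit 78) (PT.lf (nat_lit 32528) (nat_lit 6) (nat_lit 428) (nat_lit 3) (nat_lit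 203) (nat_lit 193) (nat_lit 204)) (PT.lf (nat_lit 32528) (nat_lit 6) (nat_lit 428) (nat_lit 1) (nat_lit 204) (nat_lit 193) (nat_lit 203))))) (PT.nd (nat_lit 312) (PT.nd (nat_lit 156) (PT.nd (nat_lit 78) (PT.lf (nat_lit 32452) (nat_lit 6) (nat_lit 427) (nat_lit 1) (nat_lit 205) (nat_lit 193) (nat_lit 202)) (PT.lf (nat_lit 32376) (nat_lit 6) (nat_lit 426) (nat_lit 1) (nat_lit 206) (nat_lit 193) (nat_lit 201))) (PT.nd (nat_lit 78) (PT.lf (nat_lit 32300) (nat_lit 6) (nat_lit 425) (nat_lit 1) (nat_lit 207) (nat_lit 193) (nat_lit 200)) (PT.lf (nat_lit 31616) (nat_lit 6) (nat_lit 416) (nat_lit 1) (nat_lit 208) (nat_lit 193) (nat_lit 199)))) (PT.nd (nat_lit 156) (PT.nd (nat_lit 78) (PT.lf (nat_lit 30856) (nat_lit 6) (nat_lit 406) (nat_lit 1) (nat_lit 209) (nat_lit 193) (nat_lit 198)) (PT.lf (nat_lit 30020) (nat_lit 6) (nat_lit 395) (nat_lit 1) (nat_lit 210) (nat_lit 193) (nat_lit 197))) (PT.nd (nat_lit 78)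 (PT.lf (nat_lit 29108) (nat_lit 6) (nat_lit 383) (nat_lit 1) (nat_lit 211) (nat_lit 193) (nat_lit 196)) (PT.lf (nat_lit 28120) (nat_lit 6) (nat_lit 370) (nat_lit 1) (nat_lit 212) (nat_lit 193) (nat_lit 195)))))) (PT.nd (nat_lit 60996) (PT.nd (nat_lit 60684) (PT.nd (nat_lit 156) (PT.nd (nat_lit 78) (PT.lf (nat_lit 27056) (nat_lit 6) (nat_lit 356) (nat_lit 1) (nat_lit 213) (nat_lit 193) (nat_lit 194)) (PT.lf (nat_lit 25916) (nat_lit 3) (nat_lit 341) (nat_lit 0) (nat_lit 214) (nat_lit 193) (nat_lit 193))) (PT.nd (nat_lit 78) (PT.lf (nat_lit 24776) (nat_lit 6) (nat_lit 326) (nat_lit 0) (nat_lit 215) (nat_lit 193) (nat_lit 192)) (PT.lf (nat_lit 23560) (nat_lit 6) (nat_lit 310) (nat_lit 0) (nat_lit 216) (nat_lit 193) (nat_lit 191)))) (PT.nd (nat_lit 156) (PT.nd (nat_lit 78) (PT.lf (nat_lit 23636) (nat_lit 6) (nat_lit 311) (nat_lit 5) (nat_lit 190) (nat_lit 194) (nat_lit 216)) (PT.lf (nat_lit 24852) (nat_lit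 6) (nat_lit 327) (nat_lit 5) (nat_lit 191) (nat_lit 194) (nat_lit 215))) (PT.nd (nat_lit 78) (PT.lf (nat_lit 25992) (nat_lit 6) (nat_lit 342) (nat_lit 5) (nat_lit 192) (nat_lit 194) (nat_lit 214)) (PT.lf (nat_lit 27056) (nat_lit 6) (nat_lit 356) (nat_lit 5) (nat_lit 193) (nat_lit 194) (nat_lit 213))))) (PT.nd (nat_lit 312) (PT.nd (nat_lit 156) (PT.nd (nat_lit 78) (PT.lf (nat_lit 28044) (nat_lit 3) (nat_lit 369) (nat_lit 3) (nat_lit 194) (nat_lit 194) (nat_lit 212)) (PT.lf (nat_lit 29032) (nat_lit 6) (nat_lit 382) (nat_lit 3) (nat_lit 195) (nat_lit 194) (nat_lit 211))) (PT.nd (nat_lit 78) (PT.lf (nat_lit 29944) (nat_lit 6) (nat_lit 394) (nat_lit 3) (nat_lit 196) (nat_lit 194) (nat_lit 210)) (PT.lf (nat_lit 30780) (nat_lit 6) (nat_lit 405) (nat_lit 3) (nat_lit 197) (nat_lit 194) (nat_lit 209)))) (PT.nd (nat_lit 156) (PT.nd (nat_lit 78) (PT.lf (nat_lit 31540) (nat_lit 6) (nat_lit 415) (nat_lit 3) (nat_lit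 198) (nat_lit 194) (nat_lit 208)) (PT.lf (nat_lit 32224) (nat_lit 6) (nat_lit 424) (nat_lit 3) (nat_lit 199) (nat_lit 194) (nat_lit 207))) (PT.nd (nat_lit 78) (PT.lf (nat_lit 32832) (nat_lit 6) (nat_lit 432) (nat_lit 3) (nat_lit 200) (nat_lit 194) (nat_lit 206)) (PT.nd (nat_lit 78) (PT.lf (nat_lit 32908) (nat_lit 6) (nat_lit 433) (nat_lit 3) (nat_lit 201) (nat_lit 194) (nat_lit 205)) (PT.lf (nat_lit 32984) (nat_lit 6) (nat_lit 434) (nat_lit 3) (nat_lit 202) (nat_lit 194) (nat_lit 204))))))))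
noncomputable def pc20 : PT := (PT.nd (nat_lit 61542) (PT.nd (nat_lit 624) (PT.nd (nat_lit 312) (PT.nd (nat_lit 156) (PT.nd (nat_lit 78) (PT.lf (nat_lit 33060) (nat_lit 3) (nat_lit 435) (nat_lit 1) (nat_lit 203) (nat_lit 194) (nat_lit 203)) (PT.lf (nat_lit 32984) (nat_lit 6) (nat_lit 434) (nat_lit 1) (nat_lit 204) (nat_lit 194) (nat_lit 202))) (PT.nd (nat_lit 78) (PT.lf (nat_lit 32908) (nat_lit 6) (nat_lit 433) (nat_lit 1) (nat_lit 205) (nat_lit 194) (nat_lit 201)) (PT.lf (nat_lit 32832) (nat_lit 6) (nat_lit 432) (nat_lit 1) (nat_lit 206) (nat_lit 194) (nat_lit 200)))) (PT.nd (nat_lit 156) (PT.nd (nat_lit 78) (PT.lf (nat_lit 32224) (nat_lit 6) (nat_lit 424) (nat_lit 1) (nat_lit 207) (nat_lit 194) (nat_lit 199)) (PT.lf (nat_lit 31540) (nat_lit 6) (nat_lit 415) (nat_lit 1) (nat_lit 208) (nat_lit 194) (nat_lit 198))) (PT.nd (nat_lit 78) (PT.lf (nat_lit 30780) (nat_lit 6) (nat_lit 405) (nat_lit 1) (nat_lit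 209) (nat_lit 194) (nat_lit 197)) (PT.lf (nat_lit 29944) (nat_lit 6) (nat_lit 394) (nat_lit 1) (nat_lit 210) (nat_lit 194) (nat_lit 196))))) (PT.nd (nat_lit 312) (PT.nd (nat_lit 156) (PT.nd (nat_lit 78) (PT.lf (nat_lit 29032) (nat_lit 6) (nat_lit 382) (nat_lit 1) (nat_lit 211) (nat_lit 194) (nat_lit 195)) (PT.lf (nat_lit 28044) (nat_lit 3) (nat_lit 369) (nat_lit 0) (nat_lit 212) (nat_lit 194) (nat_lit 194))) (PT.nd (nat_lit 78) (PT.lf (nat_lit 27056) (nat_lit 6) (nat_lit 356) (nat_lit 0) (nat_lit 213) (nat_lit 194) (nat_lit 193)) (PT.lf (nat_lit 25992) (nat_lit 6) (nat_lit 342) (nat_lit 0) (nat_lit 214) (nat_lit 194) (nat_lit 192)))) (PT.nd (nat_lit 60450) (PT.nd (nat_lit 78) (PT.lf (nat_lit 24852) (nat_lit 6) (nat_lit 327) (nat_lit 0) (nat_lit 215) (nat_lit 194) (nat_lit 191)) (PT.lf (nat_lit 23636) (nat_lit 6) (nat_lit 311) (nat_lit 0) (nat_lit 216) (nat_lit 194) (nat_lit 190))) (PT.nd (nat_lit 78)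 (PT.lf (nat_lit 23712) (nat_lit 6) (nat_lit 312) (nat_lit 5) (nat_lit 189) (nat_lit 195) (nat_lit 216)) (PT.lf (nat_lit 24928) (nat_lit 6) (nat_lit 328) (nat_lit 5) (nat_lit 190) (nat_lit 195) (nat_lit 215)))))) (PT.nd (nat_lit 624) (PT.nd (nat_lit 312) (PT.nd (nat_lit 156) (PT.nd (nat_lit 78) (PT.lf (nat_lit 26068) (nat_lit 6) (nat_lit 343) (nat_lit 5) (nat_lit 191) (nat_lit 195) (nat_lit 214)) (PT.lf (nat_lit 27132) (nat_lit 6) (nat_lit 357) (nat_lit 5) (nat_lit 192) (nat_lit 195) (nat_lit 213))) (PT.nd (nat_lit 78) (PT.lf (nat_lit 28120) (nat_lit 6) (nat_lit 370) (nat_lit 5) (nat_lit 193) (nat_lit 195) (nat_lit 212)) (PT.lf (nat_lit 29032) (nat_lit 6) (nat_lit 382) (nat_lit 5) (nat_lit 194) (nat_lit 195) (nat_lit 211)))) (PT.nd (nat_lit 156) (PT.nd (nat_lit 78) (PT.lf (nat_lit 29868) (nat_lit 3) (nat_lit 393) (nat_lit 3) (nat_lit 195) (nat_lit 195) (nat_lit 210)) (PT.lf (nat_lit 30704) (nat_lit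 6) (nat_lit 404) (nat_lit 3) (nat_lit 196) (nat_lit 195) (nat_lit 209))) (PT.nd (nat_lit 78) (PT.lf (nat_lit 31464) (nat_lit 6) (nat_lit 414) (nat_lit 3) (nat_lit 197) (nat_lit 195) (nat_lit 208)) (PT.lf (nat_lit 32148) (nat_lit 6) (nat_lit 423) (nat_lit 3) (nat_lit 198) (nat_lit 195) (nat_lit 207))))) (PT.nd (nat_lit 312) (PT.nd (nat_lit 156) (PT.nd (nat_lit 78) (PT.lf (nat_lit 32756) (nat_lit 6) (nat_lit 431) (nat_lit 3) (nat_lit 199) (nat_lit 195) (nat_lit 206)) (PT.lf (nat_lit 33288) (nat_lit 6) (nat_lit 438) (nat_lit 3) (nat_lit 200) (nat_lit 195) (nat_lit 205))) (PT.nd (nat_lit 78) (PT.lf (nat_lit 33364) (nat_lit 6) (nat_lit 439) (nat_lit 3) (nat_lit 201) (nat_lit 195) (nat_lit 204)) (PT.lf (nat_lit 33440) (nat_lit 6) (nat_lit 440) (nat_lit 3) (nat_lit 202) (nat_lit 195) (nat_lit 203)))) (PT.nd (nat_lit 156) (PT.nd (nat_lit 78) (PT.lf (nat_lit 33440) (nat_lit 6) (nat_lit 440) (nat_lit 1) (nat_lit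 203) (nat_lit 195) (nat_lit 202)) (PT.lf (nat_lit 33364) (nat_lit 6) (nat_lit 439) (nat_lit 1) (nat_lit 204) (nat_lit 195) (nat_lit 201))) (PT.nd (nat_lit 78) (PT.lf (nat_lit 33288) (nat_lit 6) (nat_lit 438) (nat_lit 1) (nat_lit 205) (nat_lit 195) (nat_lit 200)) (PT.nd (nat_lit 78) (PT.lf (nat_lit 32756) (nat_lit 6) (nat_lit 431) (nat_lit 1) (nat_lit 206) (nat_lit 195) (nat_lit 199)) (PT.lf (nat_lit 32148) (nat_lit 6) (nat_lit 423) (nat_lit 1) (nat_lit 207) (nat_lit 195) (nat_lit 198))))))))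
noncomputable def pc21 : PT := (PT.nd (nat_lit 61464) (PT.nd (nat_lit 624) (PT.nd (nat_lit 312) (PT.nd (nat_lit 156) (PT.nd (nat_lit 78) (PT.lf (nat_lit 31464) (nat_lit 6) (nat_lit 414) (nat_lit 1) (nat_lit 208) (nat_lit 195) (nat_lit 197)) (PT.lf (nat_lit 30704) (nat_lit 6) (nat_lit 404) (nat_lit 1) (nat_lit 209) (nat_lit 195) (nat_lit 196))) (PT.nd (nat_lit 78) (PT.lf (nat_lit 29868) (nat_lit 3) (nat_lit 393) (nat_lit 0) (nat_lit 210) (nat_lit 195) (nat_lit 195)) (PT.lf (nat_lit 29032) (nat_lit 6) (nat_lit 382) (nat_lit 0) (nat_lit 211) (nat_lit 195) (nat_lit 194)))) (PT.nd (nat_lit 156) (PT.nd (nat_lit 78) (PT.lf (nat_lit 28120) (nat_lit 6) (nat_lit 370) (nat_lit 0) (nat_lit 212) (nat_lit 195) (nat_lit 193)) (PT.lf (nat_lit 27132) (nat_lit 6) (nat_lit 357) (nat_lit 0) (nat_lit 213) (nat_lit 195) (nat_lit 192))) (PT.nd (nat_lit 78) (PT.lf (nat_lit 26068) (nat_lit 6) (nat_lit 343) (nat_lit 0) (nat_lit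 214) (nat_lit 195) (nat_lit 191)) (PT.lf (nat_lit 24928) (nat_lit 6) (nat_lit 328) (nat_lit 0) (nat_lit 215) (nat_lit 195) (nat_lit 190))))) (PT.nd (nat_lit 60528) (PT.nd (nat_lit 60372) (PT.nd (nat_lit 60294) (PT.lf (nat_lit 23712) (nat_lit 6) (nat_lit 312) (nat_lit 0) (nat_lit 216) (nat_lit 195) (nat_lit 189)) (PT.lf (nat_lit 23788) (nat_lit 6) (nat_lit 313) (nat_lit 5) (nat_lit 188) (nat_lit 196) (nat_lit 216))) (PT.nd (nat_lit 78) (PT.lf (nat_lit 25004) (nat_lit 6) (nat_lit 329) (nat_lit 5) (nat_lit 189) (nat_lit 196) (nat_lit 215)) (PT.lf (nat_lit 26144) (nat_lit 6) (nat_lit 344) (nat_lit 5) (nat_lit 190) (nat_lit 196) (nat_lit 214)))) (PT.nd (nat_lit 156) (PT.nd (nat_lit 78) (PT.lf (nat_lit 27208) (nat_lit 6) (nat_lit 358) (nat_lit 5) (nat_lit 191) (nat_lit 196) (nat_lit 213)) (PT.lf (nat_lit 28196) (nat_lit 6) (nat_lit 371) (nat_lit 5) (nat_lit 192) (nat_lit 196) (nat_lit 212))) (PT.nd (nat_lit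 78) (PT.lf (nat_lit 29108) (nat_lit 6) (nat_lit 383) (nat_lit 5) (nat_lit 193) (nat_lit 196) (nat_lit 211)) (PT.lf (nat_lit 29944) (nat_lit 6) (nat_lit 394) (nat_lit 5) (nat_lit 194) (nat_lit 196) (nat_lit 210)))))) (PT.nd (nat_lit 624) (PT.nd (nat_lit 312) (PT.nd (nat_lit 156) (PT.nd (nat_lit 78) (PT.lf (nat_lit 30704) (nat_lit 6) (nat_lit 404) (nat_lit 5) (nat_lit 195) (nat_lit 196) (nat_lit 209)) (PT.lf (nat_lit 31388) (nat_lit 3) (nat_lit 413) (nat_lit 3) (nat_lit 196) (nat_lit 196) (nat_lit 208))) (PT.nd (nat_lit 78) (PT.lf (nat_lit 32072) (nat_lit 6) (nat_lit 422) (nat_lit 3) (nat_lit 197) (nat_lit 196) (nat_lit 207)) (PT.lf (nat_lit 32680) (nat_lit 6) (nat_lit 430) (nat_lit 3) (nat_lit 198) (nat_lit 196) (nat_lit 206)))) (PT.nd (nat_lit 156) (PT.nd (nat_lit 78) (PT.lf (nat_lit 33212) (nat_lit 6) (nat_lit 437) (nat_lit 3) (nat_lit 199) (nat_lit 196) (nat_lit 205)) (PT.lf (nat_lit 33668) (nat_lit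 6) (nat_lit 443) (nat_lit 3) (nat_lit 200) (nat_lit 196) (nat_lit 204))) (PT.nd (nat_lit 78) (PT.lf (nat_lit 33744) (nat_lit 6) (nat_lit 444) (nat_lit 3) (nat_lit 201) (nat_lit 196) (nat_lit 203)) (PT.lf (nat_lit 33820) (nat_lit 3) (nat_lit 445) (nat_lit 1) (nat_lit 202) (nat_lit 196) (nat_lit 202))))) (PT.nd (nat_lit 312) (PT.nd (nat_lit 156) (PT.nd (nat_lit 78) (PT.lf (nat_lit 33744) (nat_lit 6) (nat_lit 444) (nat_lit 1) (nat_lit 203) (nat_lit 196) (nat_lit 201)) (PT.lf (nat_lit 33668) (nat_lit 6) (nat_lit 443) (nat_lit 1) (nat_lit 204) (nat_lit 196) (nat_lit 200))) (PT.nd (nat_lit 78) (PT.lf (nat_lit 33212) (nat_lit 6) (nat_lit 437) (nat_lit 1) (nat_lit 205) (nat_lit 196) (nat_lit 199)) (PT.lf (nat_lit 32680) (nat_lit 6) (nat_lit 430) (nat_lit 1) (nat_lit 206) (nat_lit 196) (nat_lit 198)))) (PT.nd (nat_lit 156) (PT.nd (nat_lit 78) (PT.lf (nat_lit 32072) (nat_lit 6) (nat_lit 422) (nat_lit 1) (nat_lit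 207) (nat_lit 196) (nat_lit 197)) (PT.lf (nat_lit 31388) (nat_lit 3) (nat_lit 413) (nat_lit 0) (nat_lit 208) (nat_lit 196) (nat_lit 196))) (PT.nd (nat_lit 78) (PT.lf (nat_lit 30704) (nat_lit 6) (nat_lit 404) (nat_lit 0) (nat_lit 209) (nat_lit 196) (nat_lit 195)) (PT.nd (nat_lit 78) (PT.lf (nat_lit 29944) (nat_lit 6) (nat_lit 394) (nat_lit 0) (nat_lit 210) (nat_lit 196) (nat_lit 194)) (PT.lf (nat_lit 29108) (nat_lit 6) (nat_lit 383) (nat_lit 0) (nat_lit 211) (nat_lit 196) (nat_lit 193))))))))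
noncomputable def pc22 : PT := (PT.nd (nat_lit 61386) (PT.nd (nat_lit 60762) (PT.nd (nat_lit 312) (PT.nd (nat_lit 156) (PT.nd (nat_lit 78) (PT.lf (nat_lit 28196) (nat_lit 6) (nat_lit 371) (nat_lit 0) (nat_lit 212) (nat_lit 196) (nat_lit 192)) (PT.lf (nat_lit 27208) (nat_lit 6) (nat_lit 358) (nat_lit 0) (nat_lit 213) (nat_lit 196) (nat_lit 191))) (PT.nd (nat_lit 78) (PT.lf (nat_lit 26144) (nat_lit 6) (nat_lit 344) (nat_lit 0) (nat_lit 214) (nat_lit 196) (nat_lit 190)) (PT.lf (nat_lit 25004) (nat_lit 6) (nat_lit 329) (nat_lit 0) (nat_lit 215) (nat_lit 196) (nat_lit 189)))) (PT.nd (nat_lit 60294) (PT.nd (nat_lit 60216) (PT.lf (nat_lit 23788) (nat_lit 6) (nat_lit 313) (nat_lit 0) (nat_lit 216) (nat_lit 196) (nat_lit 188)) (PT.lf (nat_lit 23864) (nat_lit 6) (nat_lit 314) (nat_lit 5) (nat_lit 187) (nat_lit 197) (nat_lit 216))) (PT.nd (nat_lit 78) (PT.lf (nat_lit 25080) (nat_lit 6) (nat_lit 330) (nat_lit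 5) (nat_lit 188) (nat_lit 197) (nat_lit 215)) (PT.lf (nat_lit 26220) (nat_lit 6) (nat_lit 345) (nat_lit 5) (nat_lit 189) (nat_lit 197) (nat_lit 214))))) (PT.nd (nat_lit 312) (PT.nd (nat_lit 156) (PT.nd (nat_lit 78) (PT.lf (nat_lit 27284) (nat_lit 6) (nat_lit 359) (nat_lit 5) (nat_lit 190) (nat_lit 197) (nat_lit 213)) (PT.lf (nat_lit 28272) (nat_lit 6) (nat_lit 372) (nat_lit 5) (nat_lit 191) (nat_lit 197) (nat_lit 212))) (PT.nd (nat_lit 78) (PT.lf (nat_lit 29184) (nat_lit 6) (nat_lit 384) (nat_lit 5) (nat_lit 192) (nat_lit 197) (nat_lit 211)) (PT.lf (nat_lit 30020) (nat_lit 6) (nat_lit 395) (nat_lit 5) (nat_lit 193) (nat_lit 197) (nat_lit 210)))) (PT.nd (nat_lit 156) (PT.nd (nat_lit 78) (PT.lf (nat_lit 30780) (nat_lit 6) (nat_lit 405) (nat_lit 5) (nat_lit 194) (nat_lit 197) (nat_lit 209)) (PT.lf (nat_lit 31464) (nat_lit 6) (nat_lit 414) (nat_lit 5) (nat_lit 195) (nat_lit 197) (nat_lit 208))) (PT.nd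 (nat_lit 78) (PT.lf (nat_lit 32072) (nat_lit 6) (nat_lit 422) (nat_lit 5) (nat_lit 196) (nat_lit 197) (nat_lit 207)) (PT.lf (nat_lit 32604) (nat_lit 3) (nat_lit 429) (nat_lit 3) (nat_lit 197) (nat_lit 197) (nat_lit 206)))))) (PT.nd (nat_lit 624) (PT.nd (nat_lit 312) (PT.nd (nat_lit 156) (PT.nd (nat_lit 78) (PT.lf (nat_lit 33136) (nat_lit 6) (nat_lit 436) (nat_lit 3) (nat_lit 198) (nat_lit 197) (nat_lit 205)) (PT.lf (nat_lit 33592) (nat_lit 6) (nat_lit 442) (nat_lit 3) (nat_lit 199) (nat_lit 197) (nat_lit 204))) (PT.nd (nat_lit 78) (PT.lf (nat_lit 33972) (nat_lit 6) (nat_lit 447) (nat_lit 3) (nat_lit 200) (nat_lit 197) (nat_lit 203)) (PT.lf (nat_lit 34048) (nat_lit 6) (nat_lit 448) (nat_lit 3) (nat_lit 201) (nat_lit 197) (nat_lit 202)))) (PT.nd (nat_lit 156) (PT.nd (nat_lit 78) (PT.lf (nat_lit 34048) (nat_lit 6) (nat_lit 448) (nat_lit 1) (nat_lit 202) (nat_lit 197) (nat_lit 201)) (PT.lf (nat_lit 33972)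 (nat_lit 6) (nat_lit 447) (nat_lit 1) (nat_lit 203) (nat_lit 197) (nat_lit 200))) (PT.nd (nat_lit 78) (PT.lf (nat_lit 33592) (nat_lit 6) (nat_lit 442) (nat_lit 1) (nat_lit 204) (nat_lit 197) (nat_lit 199)) (PT.lf (nat_lit 33136) (nat_lit 6) (nat_lit 436) (nat_lit 1) (nat_lit 205) (nat_lit 197) (nat_lit 198))))) (PT.nd (nat_lit 312) (PT.nd (nat_lit 156) (PT.nd (nat_lit 78) (PT.lf (nat_lit 32604) (nat_lit 3) (nat_lit 429) (nat_lit 0) (nat_lit 206) (nat_lit 197) (nat_lit 197)) (PT.lf (nat_lit 32072) (nat_lit 6) (nat_lit 422) (nat_lit 0) (nat_lit 207) (nat_lit 197) (nat_lit 196))) (PT.nd (nat_lit 78) (PT.lf (nat_lit 31464) (nat_lit 6) (nat_lit 414) (nat_lit 0) (nat_lit 208) (nat_lit 197) (nat_lit 195)) (PT.lf (nat_lit 30780) (nat_lit 6) (nat_lit 405) (nat_lit 0) (nat_lit 209) (nat_lit 197) (nat_lit 194)))) (PT.nd (nat_lit 156) (PT.nd (nat_lit 78) (PT.lf (nat_lit 30020) (nat_lit 6) (nat_lit 395) (nat_lit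 0) (nat_lit 210) (nat_lit 197) (nat_lit 193)) (PT.lf (nat_lit 29184) (nat_lit 6) (nat_lit 384) (nat_lit 0) (nat_lit 211) (nat_lit 197) (nat_lit 192))) (PT.nd (nat_lit 78) (PT.lf (nat_lit 28272) (nat_lit 6) (nat_lit 372) (nat_lit 0) (nat_lit 212) (nat_lit 197) (nat_lit 191)) (PT.nd (nat_lit 78) (PT.lf (nat_lit 27284) (nat_lit 6) (nat_lit 359) (nat_lit 0) (nat_lit 213) (nat_lit 197) (nat_lit 190)) (PT.lf (nat_lit 26220) (nat_lit 6) (nat_lit 345) (nat_lit 0) (nat_lit 214) (nat_lit 197) (nat_lit 189))))))))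
noncomputable def pc23 : PT := (PT.nd (nat_lit 61230) (PT.nd (nat_lit 60606) (PT.nd (nat_lit 60294) (PT.nd (nat_lit 60138) (PT.nd (nat_lit 78) (PT.lf (nat_lit 25080) (nat_lit 6) (nat_lit 330) (nat_lit 0) (nat_lit 215) (nat_lit 197) (nat_lit 188)) (PT.lf (nat_lit 23864) (nat_lit 6) (nat_lit 314) (nat_lit 0) (nat_lit 216) (nat_lit 197) (nat_lit 187))) (PT.nd (nat_lit 78) (PT.lf (nat_lit 22648) (nat_lit 6) (nat_lit 298) (nat_lit 5) (nat_lit 185) (nat_lit 198) (nat_lit 217)) (PT.lf (nat_lit 23940) (nat_lit 6) (nat_lit 315) (nat_lit 5) (nat_lit 186) (nat_lit 198) (nat_lit 216)))) (PT.nd (nat_lit 156) (PT.nd (nat_lit 78) (PT.lf (nat_lit 25156) (nat_lit 6) (nat_lit 331) (nat_lit 5) (nat_lit 187) (nat_lit 198) (nat_lit 215)) (PT.lf (nat_lit 26296) (nat_lit 6) (nat_lit 346) (nat_lit 5) (nat_lit 188) (nat_lit 198) (nat_lit 214))) (PT.nd (nat_lit 78) (PT.lf (nat_lit 27360) (nat_lit 6) (nat_lit 360) (nat_lit 5)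 (nat_lit 189) (nat_lit 198) (nat_lit 213)) (PT.lf (nat_lit 28348) (nat_lit 6) (nat_lit 373) (nat_lit 5) (nat_lit 190) (nat_lit 198) (nat_lit 212))))) (PT.nd (nat_lit 312) (PT.nd (nat_lit 156) (PT.nd (nat_lit 78) (PT.lf (nat_lit 29260) (nat_lit 6) (nat_lit 385) (nat_lit 5) (nat_lit 191) (nat_lit 198) (nat_lit 211)) (PT.lf (nat_lit 30096) (nat_lit 6) (nat_lit 396) (nat_lit 5) (nat_lit 192) (nat_lit 198) (nat_lit 210))) (PT.nd (nat_lit 78) (PT.lf (nat_lit 30856) (nat_lit 6) (nat_lit 406) (nat_lit 5) (nat_lit 193) (nat_lit 198) (nat_lit 209)) (PT.lf (nat_lit 31540) (nat_lit 6) (nat_lit 415) (nat_lit 5) (nat_lit 194) (nat_lit 198) (nat_lit 208)))) (PT.nd (nat_lit 156) (PT.nd (nat_lit 78) (PT.lf (nat_lit 32148) (nat_lit 6) (nat_lit 423) (nat_lit 5) (nat_lit 195) (nat_lit 198) (nat_lit 207)) (PT.lf (nat_lit 32680) (nat_lit 6) (nat_lit 430) (nat_lit 5) (nat_lit 196) (nat_lit 198) (nat_lit 206))) (PT.nd (nat_lit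 78) (PT.lf (nat_lit 33136) (nat_lit 6) (nat_lit 436) (nat_lit 5) (nat_lit 197) (nat_lit 198) (nat_lit 205)) (PT.lf (nat_lit 33516) (nat_lit 3) (nat_lit 441) (nat_lit 3) (nat_lit 198) (nat_lit 198) (nat_lit 204)))))) (PT.nd (nat_lit 624) (PT.nd (nat_lit 312) (PT.nd (nat_lit 156) (PT.nd (nat_lit 78) (PT.lf (nat_lit 33896) (nat_lit 6) (nat_lit 446) (nat_lit 3) (nat_lit 199) (nat_lit 198) (nat_lit 203)) (PT.lf (nat_lit 34200) (nat_lit 6) (nat_lit 450) (nat_lit 3) (nat_lit 200) (nat_lit 198) (nat_lit 202))) (PT.nd (nat_lit 78) (PT.lf (nat_lit 34276) (nat_lit 3) (nat_lit 451) (nat_lit 1) (nat_lit 201) (nat_lit 198) (nat_lit 201)) (PT.lf (nat_lit 34200) (nat_lit 6) (nat_lit 450) (nat_lit 1) (nat_lit 202) (nat_lit 198) (nat_lit 200)))) (PT.nd (nat_lit 156) (PT.nd (nat_lit 78) (PT.lf (nat_lit 33896) (nat_lit 6) (nat_lit 446) (nat_lit 1) (nat_lit 203) (nat_lit 198) (nat_lit 199)) (PT.lf (nat_lit 33516) (nat_lit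 3) (nat_lit 441) (nat_lit 0) (nat_lit 204) (nat_lit 198) (nat_lit 198))) (PT.nd (nat_lit 78) (PT.lf (nat_lit 33136) (nat_lit 6) (nat_lit 436) (nat_lit 0) (nat_lit 205) (nat_lit 198) (nat_lit 197)) (PT.lf (nat_lit 32680) (nat_lit 6) (nat_lit 430) (nat_lit 0) (nat_lit 206) (nat_lit 198) (nat_lit 196))))) (PT.nd (nat_lit 312) (PT.nd (nat_lit 156) (PT.nd (nat_lit 78) (PT.lf (nat_lit 32148) (nat_lit 6) (nat_lit 423) (nat_lit 0) (nat_lit 207) (nat_lit 198) (nat_lit 195)) (PT.lf (nat_lit 31540) (nat_lit 6) (nat_lit 415) (nat_lit 0) (nat_lit 208) (nat_lit 198) (nat_lit 194))) (PT.nd (nat_lit 78) (PT.lf (nat_lit 30856) (nat_lit 6) (nat_lit 406) (nat_lit 0) (nat_lit 209) (nat_lit 198) (nat_lit 193)) (PT.lf (nat_lit 30096) (nat_lit 6) (nat_lit 396) (nat_lit 0) (nat_lit 210) (nat_lit 198) (nat_lit 192)))) (PT.nd (nat_lit 156) (PT.nd (nat_lit 78) (PT.lf (nat_lit 29260) (nat_lit 6) (nat_lit 385) (nat_lit 0) (nat_lit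 211) (nat_lit 198) (nat_lit 191)) (PT.lf (nat_lit 28348) (nat_lit 6) (nat_lit 373) (nat_lit 0) (nat_lit 212) (nat_lit 198) (nat_lit 190))) (PT.nd (nat_lit 78) (PT.lf (nat_lit 27360) (nat_lit 6) (nat_lit 360) (nat_lit 0) (nat_lit 213) (nat_lit 198) (nat_lit 189)) (PT.nd (nat_lit 78) (PT.lf (nat_lit 26296) (nat_lit 6) (nat_lit 346) (nat_lit 0) (nat_lit 214) (nat_lit 198) (nat_lit 188)) (PT.lf (nat_lit 25156) (nat_lit 6) (nat_lit 331) (nat_lit 0) (nat_lit 215) (nat_lit 198) (nat_lit 187))))))))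
noncomputable def pc24 : PT := (PT.nd (nat_lit 61074) (PT.nd (nat_lit 60450) (PT.nd (nat_lit 60138) (PT.nd (nat_lit 59982) (PT.nd (nat_lit 78) (PT.lf (nat_lit 23940) (nat_lit 6) (nat_lit 315) (nat_lit 0) (nat_lit 216) (nat_lit 198) (nat_lit 186)) (PT.lf (nat_lit 22648) (nat_lit 6) (nat_lit 298) (nat_lit 0) (nat_lit 217) (nat_lit 198) (nat_lit 185))) (PT.nd (nat_lit 78) (PT.lf (nat_lit 22724) (nat_lit 6) (nat_lit 299) (nat_lit 5) (nat_lit 184) (nat_lit 199) (nat_lit 217)) (PT.lf (nat_lit 24016) (nat_lit 6) (nat_lit 316) (nat_lit 5) (nat_lit 185) (nat_lit 199) (nat_lit 216)))) (PT.nd (nat_lit 156) (PT.nd (nat_lit 78) (PT.lf (nat_lit 25232) (nat_lit 6) (nat_lit 332) (nat_lit 5) (nat_lit 186) (nat_lit 199) (nat_lit 215)) (PT.lf (nat_lit 26372) (nat_lit 6) (nat_lit 347) (nat_lit 5) (nat_lit 187) (nat_lit 199) (nat_lit 214))) (PT.nd (nat_lit 78) (PT.lf (nat_lit 27436) (nat_lit 6) (nat_lit 361) (nat_lit 5)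 (nat_lit 188) (nat_lit 199) (nat_lit 213)) (PT.lf (nat_lit 28424) (nat_lit 6) (nat_lit 374) (nat_lit 5) (nat_lit 189) (nat_lit 199) (nat_lit 212))))) (PT.nd (nat_lit 312) (PT.nd (nat_lit 156) (PT.nd (nat_lit 78) (PT.lf (nat_lit 29336) (nat_lit 6) (nat_lit 386) (nat_lit 5) (nat_lit 190) (nat_lit 199) (nat_lit 211)) (PT.lf (nat_lit 30172) (nat_lit 6) (nat_lit 397) (nat_lit 5) (nat_lit 191) (nat_lit 199) (nat_lit 210))) (PT.nd (nat_lit 78) (PT.lf (nat_lit 30932) (nat_lit 6) (nat_lit 407) (nat_lit 5) (nat_lit 192) (nat_lit 199) (nat_lit 209)) (PT.lf (nat_lit 31616) (nat_lit 6) (nat_lit 416) (nat_lit 5) (nat_lit 193) (nat_lit 199) (nat_lit 208)))) (PT.nd (nat_lit 156) (PT.nd (nat_lit 78) (PT.lf (nat_lit 32224) (nat_lit 6) (nat_lit 424) (nat_lit 5) (nat_lit 194) (nat_lit 199) (nat_lit 207)) (PT.lf (nat_lit 32756) (nat_lit 6) (nat_lit 431) (nat_lit 5) (nat_lit 195) (nat_lit 199) (nat_lit 206))) (PT.nd (nat_lit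 78) (PT.lf (nat_lit 33212) (nat_lit 6) (nat_lit 437) (nat_lit 5) (nat_lit 196) (nat_lit 199) (nat_lit 205)) (PT.lf (nat_lit 33592) (nat_lit 6) (nat_lit 442) (nat_lit 5) (nat_lit 197) (nat_lit 199) (nat_lit 204)))))) (PT.nd (nat_lit 624) (PT.nd (nat_lit 312) (PT.nd (nat_lit 156) (PT.nd (nat_lit 78) (PT.lf (nat_lit 33896) (nat_lit 6) (nat_lit 446) (nat_lit 5) (nat_lit 198) (nat_lit 199) (nat_lit 203)) (PT.lf (nat_lit 34124) (nat_lit 3) (nat_lit 449) (nat_lit 3) (nat_lit 199) (nat_lit 199) (nat_lit 202))) (PT.nd (nat_lit 78) (PT.lf (nat_lit 34352) (nat_lit 6) (nat_lit 452) (nat_lit 3) (nat_lit 200) (nat_lit 199) (nat_lit 201)) (PT.lf (nat_lit 34352) (nat_lit 6) (nat_lit 452) (nat_lit 1) (nat_lit 201) (nat_lit 199) (nat_lit 200)))) (PT.nd (nat_lit 156) (PT.nd (nat_lit 78) (PT.lf (nat_lit 34124) (nat_lit 3) (nat_lit 449) (nat_lit 0) (nat_lit 202) (nat_lit 199) (nat_lit 199)) (PT.lf (nat_lit 33896) (nat_lit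 6) (nat_lit 446) (nat_lit 0) (nat_lit 203) (nat_lit 199) (nat_lit 198))) (PT.nd (nat_lit 78) (PT.lf (nat_lit 33592) (nat_lit 6) (nat_lit 442) (nat_lit 0) (nat_lit 204) (nat_lit 199) (nat_lit 197)) (PT.lf (nat_lit 33212) (nat_lit 6) (nat_lit 437) (nat_lit 0) (nat_lit 205) (nat_lit 199) (nat_lit 196))))) (PT.nd (nat_lit 312) (PT.nd (nat_lit 156) (PT.nd (nat_lit 78) (PT.lf (nat_lit 32756) (nat_lit 6) (nat_lit 431) (nat_lit 0) (nat_lit 206) (nat_lit 199) (nat_lit 195)) (PT.lf (nat_lit 32224) (nat_lit 6) (nat_lit 424) (nat_lit 0) (nat_lit 207) (nat_lit 199) (nat_lit 194))) (PT.nd (nat_lit 78) (PT.lf (nat_lit 31616) (nat_lit 6) (nat_lit 416) (nat_lit 0) (nat_lit 208) (nat_lit 199) (nat_lit 193)) (PT.lf (nat_lit 30932) (nat_lit 6) (nat_lit 407) (nat_lit 0) (nat_lit 209) (nat_lit 199) (nat_lit 192)))) (PT.nd (nat_lit 156) (PT.nd (nat_lit 78) (PT.lf (nat_lit 30172) (nat_lit 6) (nat_lit 397) (nat_lit 0) (nat_lit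 210) (nat_lit 199) (nat_lit 191)) (PT.lf (nat_lit 29336) (nat_lit 6) (nat_lit 386) (nat_lit 0) (nat_lit 211) (nat_lit 199) (nat_lit 190))) (PT.nd (nat_lit 78) (PT.lf (nat_lit 28424) (nat_lit 6) (nat_lit 374) (nat_lit 0) (nat_lit 212) (nat_lit 199) (nat_lit 189)) (PT.lf (nat_lit 27436) (nat_lit 6) (nat_lit 361) (nat_lit 0) (nat_lit 213) (nat_lit 199) (nat_lit 188)))))))
noncomputable def pc25 : PT := (PT.nd (nat_lit 60996) (PT.nd (nat_lit 60372) (PT.nd (nat_lit 60060) (PT.nd (nat_lit 156) (PT.nd (nat_lit 78) (PT.lf (nat_lit 26372) (nat_lit 6) (nat_lit 347) (nat_lit 0) (nat_lit 214) (nat_lit 199) (nat_lit 187)) (PT.lf (nat_lit 25232) (nat_lit 6) (nat_lit 332) (nat_lit 0) (nat_lit 215) (nat_lit 199) (nat_lit 186))) (PT.nd (nat_lit 78) (PT.lf (nat_lit 24016) (nat_lit 6) (nat_lit 316) (nat_lit 0) (nat_lit 216) (nat_lit 199) (nat_lit 185)) (PT.lf (nat_lit 22724) (nat_lit 6) (nat_lit 299) (nat_lit 0) (nat_lit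 217) (nat_lit 199) (nat_lit 184)))) (PT.nd (nat_lit 156) (PT.nd (nat_lit 78) (PT.lf (nat_lit 22800) (nat_lit 6) (nat_lit 300) (nat_lit 5) (nat_lit 183) (nat_lit 200) (nat_lit 217)) (PT.lf (nat_lit 24092) (nat_lit 6) (nat_lit 317) (nat_lit 5) (nat_lit 184) (nat_lit 200) (nat_lit 216))) (PT.nd (nat_lit 78) (PT.lf (nat_lit 25308) (nat_lit 6) (nat_lit 333) (nat_lit 5) (nat_lit 185) (nat_lit 200) (nat_lit 215)) (PT.lf (nat_lit 26448) (nat_lit 6) (nat_lit 348) (nat_lit 5) (nat_lit 186) (nat_lit 200) (nat_lit 214))))) (PT.nd (nat_lit 312) (PT.nd (nat_lit 156) (PT.nd (nat_lit 78) (PT.lf (nat_lit 27512) (nat_lit 6) (nat_lit 362) (nat_lit 5) (nat_lit 187) (nat_lit 200) (nat_lit 213)) (PT.lf (nat_lit 28500) (nat_lit 6) (nat_lit 375) (nat_lit 5) (nat_lit 188) (nat_lit 200) (nat_lit 212))) (PT.nd (nat_lit 78) (PT.lf (nat_lit 29412) (nat_lit 6) (nat_lit 387) (nat_lit 5) (nat_lit 189) (nat_lit 200) (nat_lit 211))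 (PT.lf (nat_lit 30248) (nat_lit 6) (nat_lit 398) (nat_lit 5) (nat_lit 190) (nat_lit 200) (nat_lit 210)))) (PT.nd (nat_lit 156) (PT.nd (nat_lit 78) (PT.lf (nat_lit 31008) (nat_lit 6) (nat_lit 408) (nat_lit 5) (nat_lit 191) (nat_lit 200) (nat_lit 209)) (PT.lf (nat_lit 31692) (nat_lit 6) (nat_lit 417) (nat_lit 5) (nat_lit 192) (nat_lit 200) (nat_lit 208))) (PT.nd (nat_lit 78) (PT.lf (nat_lit 32300) (nat_lit 6) (nat_lit 425) (nat_lit 5) (nat_lit 193) (nat_lit 200) (nat_lit 207)) (PT.lf (nat_lit 32832) (nat_lit 6) (nat_lit 432) (nat_lit 5) (nat_lit 194) (nat_lit 200) (nat_lit 206)))))) (PT.nd (nat_lit 624) (PT.nd (nat_lit 312) (PT.nd (nat_lit 156) (PT.nd (nat_lit 78) (PT.lf (nat_lit 33288) (nat_lit 6) (nat_lit 438) (nat_lit 5) (nat_lit 195) (nat_lit 200) (nat_lit 205)) (PT.lf (nat_lit 33668) (nat_lit 6) (nat_lit 443) (nat_lit 5) (nat_lit 196) (nat_lit 200) (nat_lit 204))) (PT.nd (nat_lit 78) (PT.lf (nat_lit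 33972) (nat_lit 6) (nat_lit 447) (nat_lit 5) (nat_lit 197) (nat_lit 200) (nat_lit 203)) (PT.lf (nat_lit 34200) (nat_lit 6) (nat_lit 450) (nat_lit 5) (nat_lit 198) (nat_lit 200) (nat_lit 202)))) (PT.nd (nat_lit 156) (PT.nd (nat_lit 78) (PT.lf (nat_lit 34352) (nat_lit 6) (nat_lit 452) (nat_lit 5) (nat_lit 199) (nat_lit 200) (nat_lit 201)) (PT.lf (nat_lit 34428) (nat_lit 1) (nat_lit 453) (nat_lit 0) (nat_lit 200) (nat_lit 200) (nat_lit 200))) (PT.nd (nat_lit 78) (PT.lf (nat_lit 34352) (nat_lit 6) (nat_lit 452) (nat_lit 0) (nat_lit 201) (nat_lit 200) (nat_lit 199)) (PT.lf (nat_lit 34200) (nat_lit 6) (nat_lit 450) (nat_lit 0) (nat_lit 202) (nat_lit 200) (nat_lit 198))))) (PT.nd (nat_lit 312) (PT.nd (nat_lit 156) (PT.nd (nat_lit 78) (PT.lf (nat_lit 33972) (nat_lit 6) (nat_lit 447) (nat_lit 0) (nat_lit 203) (nat_lit 200) (nat_lit 197)) (PT.lf (nat_lit 33668) (nat_lit 6) (nat_lit 443) (nat_lit 0) (nat_lit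 204) (nat_lit 200) (nat_lit 196))) (PT.nd (nat_lit 78) (PT.lf (nat_lit 33288) (nat_lit 6) (nat_lit 438) (nat_lit 0) (nat_lit 205) (nat_lit 200) (nat_lit 195)) (PT.lf (nat_lit 32832) (nat_lit 6) (nat_lit 432) (nat_lit 0) (nat_lit 206) (nat_lit 200) (nat_lit 194)))) (PT.nd (nat_lit 156) (PT.nd (nat_lit 78) (PT.lf (nat_lit 32300) (nat_lit 6) (nat_lit 425) (nat_lit 0) (nat_lit 207) (nat_lit 200) (nat_lit 193)) (PT.lf (nat_lit 31692) (nat_lit 6) (nat_lit 417) (nat_lit 0) (nat_lit 208) (nat_lit 200) (nat_lit 192))) (PT.nd (nat_lit 78) (PT.lf (nat_lit 31008) (nat_lit 6) (nat_lit 408) (nat_lit 0) (nat_lit 209) (nat_lit 200) (nat_lit 191)) (PT.nd (nat_lit 78) (PT.lf (nat_lit 30248) (nat_lit 6) (nat_lit 398) (nat_lit 0) (nat_lit 210) (nat_lit 200) (nat_lit 190)) (PT.lf (nat_lit 29412) (nat_lit 6) (nat_lit 387) (nat_lit 0) (nat_lit 211) (nat_lit 200) (nat_lit 189))))))))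
noncomputable def pc26 : PT := (PT.nd (nat_lit 60918) (PT.nd (nat_lit 60294) (PT.nd (nat_lit 312) (PT.nd (nat_lit 156) (PT.nd (nat_lit 78) (PT.lf (nat_lit 28500) (nat_lit 6) (nat_lit 375) (nat_lit 0) (nat_lit 212) (nat_lit 200) (nat_lit 188)) (PT.lf (nat_lit 27512) (nat_lit 6) (nat_lit 362) (nat_lit 0) (nat_lit 213) (nat_lit 200) (nat_lit 187))) (PT.nd (nat_lit 78) (PT.lf (nat_lit 26448) (nat_lit 6) (nat_lit 348) (nat_lit 0) (nat_lit 214) (nat_lit 200) (nat_lit 186)) (PT.lf (nat_lit 25308) (nat_lit 6) (nat_lit 333) (nat_lit 0) (nat_lit 215) (nat_lit 200) (nat_lit 185)))) (PT.nd (nat_lit 59826) (PT.nd (nat_lit 78) (PT.lf (nat_lit 24092) (nat_lit 6) (nat_lit 317) (nat_lit 0) (nat_lit 216) (nat_lit 200) (nat_lit 184)) (PT.lf (nat_lit 22800) (nat_lit 6) (nat_lit 300) (nat_lit 0) (nat_lit 217) (nat_lit 200) (nat_lit 183))) (PT.nd (nat_lit 78) (PT.lf (nat_lit 21964) (nat_lit 6) (nat_lit 289) (nat_lit 5)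 (nat_lit 182) (nat_lit 201) (nat_lit 217)) (PT.lf (nat_lit 22876) (nat_lit 6) (nat_lit 301) (nat_lit 5) (nat_lit 183) (nat_lit 201) (nat_lit 216))))) (PT.nd (nat_lit 312) (PT.nd (nat_lit 156) (PT.nd (nat_lit 78) (PT.lf (nat_lit 24168) (nat_lit 6) (nat_lit 318) (nat_lit 5) (nat_lit 184) (nat_lit 201) (nat_lit 215)) (PT.lf (nat_lit 25384) (nat_lit 6) (nat_lit 334) (nat_lit 5) (nat_lit 185) (nat_lit 201) (nat_lit 214))) (PT.nd (nat_lit 78) (PT.lf (nat_lit 26524) (nat_lit 6) (nat_lit 349) (nat_lit 5) (nat_lit 186) (nat_lit 201) (nat_lit 213)) (PT.lf (nat_lit 27588) (nat_lit 6) (nat_lit 363) (nat_lit 5) (nat_lit 187) (nat_lit 201) (nat_lit 212)))) (PT.nd (nat_lit 156) (PT.nd (nat_lit 78) (PT.lf (nat_lit 28576) (nat_lit 6) (nat_lit 376) (nat_lit 5) (nat_lit 188) (nat_lit 201) (nat_lit 211)) (PT.lf (nat_lit 29488) (nat_lit 6) (nat_lit 388) (nat_lit 5) (nat_lit 189) (nat_lit 201) (nat_lit 210))) (PT.nd (nat_lit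 78) (PT.lf (nat_lit 30324) (nat_lit 6) (nat_lit 399) (nat_lit 5) (nat_lit 190) (nat_lit 201) (nat_lit 209)) (PT.lf (nat_lit 31084) (nat_lit 6) (nat_lit 409) (nat_lit 5) (nat_lit 191) (nat_lit 201) (nat_lit 208)))))) (PT.nd (nat_lit 624) (PT.nd (nat_lit 312) (PT.nd (nat_lit 156) (PT.nd (nat_lit 78) (PT.lf (nat_lit 31768) (nat_lit 6) (nat_lit 418) (nat_lit 5) (nat_lit 192) (nat_lit 201) (nat_lit 207)) (PT.lf (nat_lit 32376) (nat_lit 6) (nat_lit 426) (nat_lit 5) (nat_lit 193) (nat_lit 201) (nat_lit 206))) (PT.nd (nat_lit 78) (PT.lf (nat_lit 32908) (nat_lit 6) (nat_lit 433) (nat_lit 5) (nat_lit 194) (nat_lit 201) (nat_lit 205)) (PT.lf (nat_lit 33364) (nat_lit 6) (nat_lit 439) (nat_lit 5) (nat_lit 195) (nat_lit 201) (nat_lit 204)))) (PT.nd (nat_lit 156) (PT.nd (nat_lit 78) (PT.lf (nat_lit 33744) (nat_lit 6) (nat_lit 444) (nat_lit 5) (nat_lit 196) (nat_lit 201) (nat_lit 203)) (PT.lf (nat_lit 34048) (nat_lit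 6) (nat_lit 448) (nat_lit 5) (nat_lit 197) (nat_lit 201) (nat_lit 202))) (PT.nd (nat_lit 78) (PT.lf (nat_lit 34276) (nat_lit 3) (nat_lit 451) (nat_lit 4) (nat_lit 198) (nat_lit 201) (nat_lit 201)) (PT.lf (nat_lit 34352) (nat_lit 6) (nat_lit 452) (nat_lit 4) (nat_lit 199) (nat_lit 201) (nat_lit 200))))) (PT.nd (nat_lit 312) (PT.nd (nat_lit 156) (PT.nd (nat_lit 78) (PT.lf (nat_lit 34352) (nat_lit 6) (nat_lit 452) (nat_lit 2) (nat_lit 200) (nat_lit 201) (nat_lit 199)) (PT.lf (nat_lit 34276) (nat_lit 3) (nat_lit 451) (nat_lit 0) (nat_lit 201) (nat_lit 201) (nat_lit 198))) (PT.nd (nat_lit 78) (PT.lf (nat_lit 34048) (nat_lit 6) (nat_lit 448) (nat_lit 0) (nat_lit 202) (nat_lit 201) (nat_lit 197)) (PT.lf (nat_lit 33744) (nat_lit 6) (nat_lit 444) (nat_lit 0) (nat_lit 203) (nat_lit 201) (nat_lit 196)))) (PT.nd (nat_lit 156) (PT.nd (nat_lit 78) (PT.lf (nat_lit 33364) (nat_lit 6) (nat_lit 439) (nat_lit 0) (nat_lit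 204) (nat_lit 201) (nat_lit 195)) (PT.lf (nat_lit 32908) (nat_lit 6) (nat_lit 433) (nat_lit 0) (nat_lit 205) (nat_lit 201) (nat_lit 194))) (PT.nd (nat_lit 78) (PT.lf (nat_lit 32376) (nat_lit 6) (nat_lit 426) (nat_lit 0) (nat_lit 206) (nat_lit 201) (nat_lit 193)) (PT.nd (nat_lit 78) (PT.lf (nat_lit 31768) (nat_lit 6) (nat_lit 418) (nat_lit 0) (nat_lit 207) (nat_lit 201) (nat_lit 192)) (PT.lf (nat_lit 31084) (nat_lit 6) (nat_lit 409) (nat_lit 0) (nat_lit 208) (nat_lit 201) (nat_lit 191))))))))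
noncomputable def pc27 : PT := (PT.nd (nat_lit 60840) (PT.nd (nat_lit 624) (PT.nd (nat_lit 312) (PT.nd (nat_lit 156) (PT.nd (nat_lit 78) (PT.lf (nat_lit 30324) (nat_lit 6) (nat_lit 399) (nat_lit 0) (nat_lit 209) (nat_lit 201) (nat_lit 190)) (PT.lf (nat_lit 29488) (nat_lit 6) (nat_lit 388) (nat_lit 0) (nat_lit 210) (nat_lit 201) (nat_lit 189))) (PT.nd (nat_lit 78) (PT.lf (nat_lit 28576) (nat_lit 6) (nat_lit 376) (nat_lit 0) (nat_lit 211) (nat_lit 201) (nat_lit 188)) (PT.lf (nat_lit 27588) (nat_lit 6) (nat_lit 363) (nat_lit 0) (nat_lit 212) (nat_lit 201) (nat_lit 187)))) (PT.nd (nat_lit 156) (PT.nd (nat_lit 78) (PT.lf (nat_lit 26524) (nat_lit 6) (nat_lit 349) (nat_lit 0) (nat_lit 213) (nat_lit 201) (nat_lit 186)) (PT.lf (nat_lit 25384) (nat_lit 6) (nat_lit 334) (nat_lit 0) (nat_lit 214) (nat_lit 201) (nat_lit 185))) (PT.nd (nat_lit 78) (PT.lf (nat_lit 24168) (nat_lit 6) (nat_lit 318) (nat_lit 0) (nat_lit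 215) (nat_lit 201) (nat_lit 184)) (PT.lf (nat_lit 22876) (nat_lit 6) (nat_lit 301) (nat_lit 0) (nat_lit 216) (nat_lit 201) (nat_lit 183))))) (PT.nd (nat_lit 59904) (PT.nd (nat_lit 59748) (PT.nd (nat_lit 59670) (PT.lf (nat_lit 21964) (nat_lit 6) (nat_lit 289) (nat_lit 0) (nat_lit 217) (nat_lit 201) (nat_lit 182)) (PT.lf (nat_lit 21356) (nat_lit 6) (nat_lit 281) (nat_lit 5) (nat_lit 181) (nat_lit 202) (nat_lit 217))) (PT.nd (nat_lit 78) (PT.lf (nat_lit 22040) (nat_lit 6) (nat_lit 290) (nat_lit 5) (nat_lit 182) (nat_lit 202) (nat_lit 216)) (PT.lf (nat_lit 22952) (nat_lit 6) (nat_lit 302) (nat_lit 5) (nat_lit 183) (nat_lit 202) (nat_lit 215)))) (PT.nd (nat_lit 156) (PT.nd (nat_lit 78) (PT.lf (nat_lit 24244) (nat_lit 6) (nat_lit 319) (nat_lit 5) (nat_lit 184) (nat_lit 202) (nat_lit 214)) (PT.lf (nat_lit 25460) (nat_lit 6) (nat_lit 335) (nat_lit 5) (nat_lit 185) (nat_lit 202) (nat_lit 213))) (PT.nd (nat_lit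 78) (PT.lf (nat_lit 26600) (nat_lit 6) (nat_lit 350) (nat_lit 5) (nat_lit 186) (nat_lit 202) (nat_lit 212)) (PT.lf (nat_lit 27664) (nat_lit 6) (nat_lit 364) (nat_lit 5) (nat_lit 187) (nat_lit 202) (nat_lit 211)))))) (PT.nd (nat_lit 624) (PT.nd (nat_lit 312) (PT.nd (nat_lit 156) (PT.nd (nat_lit 78) (PT.lf (nat_lit 28652) (nat_lit 6) (nat_lit 377) (nat_lit 5) (nat_lit 188) (nat_lit 202) (nat_lit 210)) (PT.lf (nat_lit 29564) (nat_lit 6) (nat_lit 389) (nat_lit 5) (nat_lit 189) (nat_lit 202) (nat_lit 209))) (PT.nd (nat_lit 78) (PT.lf (nat_lit 30400) (nat_lit 6) (nat_lit 400) (nat_lit 5) (nat_lit 190) (nat_lit 202) (nat_lit 208)) (PT.lf (nat_lit 31160) (nat_lit 6) (nat_lit 410) (nat_lit 5) (nat_lit 191) (nat_lit 202) (nat_lit 207)))) (PT.nd (nat_lit 156) (PT.nd (nat_lit 78) (PT.lf (nat_lit 31844) (nat_lit 6) (nat_lit 419) (nat_lit 5) (nat_lit 192) (nat_lit 202) (nat_lit 206)) (PT.lf (nat_lit 32452) (nat_lit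 6) (nat_lit 427) (nat_lit 5) (nat_lit 193) (nat_lit 202) (nat_lit 205))) (PT.nd (nat_lit 78) (PT.lf (nat_lit 32984) (nat_lit 6) (nat_lit 434) (nat_lit 5) (nat_lit 194) (nat_lit 202) (nat_lit 204)) (PT.lf (nat_lit 33440) (nat_lit 6) (nat_lit 440) (nat_lit 5) (nat_lit 195) (nat_lit 202) (nat_lit 203))))) (PT.nd (nat_lit 312) (PT.nd (nat_lit 156) (PT.nd (nat_lit 78) (PT.lf (nat_lit 33820) (nat_lit 3) (nat_lit 445) (nat_lit 4) (nat_lit 196) (nat_lit 202) (nat_lit 202)) (PT.lf (nat_lit 34048) (nat_lit 6) (nat_lit 448) (nat_lit 4) (nat_lit 197) (nat_lit 202) (nat_lit 201))) (PT.nd (nat_lit 78) (PT.lf (nat_lit 34200) (nat_lit 6) (nat_lit 450) (nat_lit 4) (nat_lit 198) (nat_lit 202) (nat_lit 200)) (PT.lf (nat_lit 34124) (nat_lit 3) (nat_lit 449) (nat_lit 2) (nat_lit 199) (nat_lit 202) (nat_lit 199)))) (PT.nd (nat_lit 156) (PT.nd (nat_lit 78) (PT.lf (nat_lit 34200) (nat_lit 6) (nat_lit 450) (nat_lit 2) (nat_lit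 200) (nat_lit 202) (nat_lit 198)) (PT.lf (nat_lit 34048) (nat_lit 6) (nat_lit 448) (nat_lit 2) (nat_lit 201) (nat_lit 202) (nat_lit 197))) (PT.nd (nat_lit 78) (PT.lf (nat_lit 33820) (nat_lit 3) (nat_lit 445) (nat_lit 0) (nat_lit 202) (nat_lit 202) (nat_lit 196)) (PT.nd (nat_lit 78) (PT.lf (nat_lit 33440) (nat_lit 6) (nat_lit 440) (nat_lit 0) (nat_lit 203) (nat_lit 202) (nat_lit 195)) (PT.lf (nat_lit 32984) (nat_lit 6) (nat_lit 434) (nat_lit 0) (nat_lit 204) (nat_lit 202) (nat_lit 194))))))))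
noncomputable def pc28 : PT := (PT.nd (nat_lit 60684) (PT.nd (nat_lit 624) (PT.nd (nat_lit 312) (PT.nd (nat_lit 156) (PT.nd (nat_lit 78) (PT.lf (nat_lit 32452) (nat_lit 6) (nat_lit 427) (nat_lit 0) (nat_lit 205) (nat_lit 202) (nat_lit 193)) (PT.lf (nat_lit 31844) (nat_lit 6) (nat_lit 419) (nat_lit 0) (nat_lit 206) (nat_lit 202) (nat_lit 192))) (PT.nd (nat_lit 78) (PT.lf (nat_lit 31160) (nat_lit 6) (nat_lit 410) (nat_lit 0) (nat_lit 207) (nat_lit 202) (nat_lit 191)) (PT.lf (nat_lit 30400) (nat_lit 6) (nat_lit 400) (nat_lit 0) (nat_lit 208) (nat_lit 202) (nat_lit 190)))) (PT.nd (nat_lit 156) (PT.nd (nat_lit 78) (PT.lf (nat_lit 29564) (nat_lit 6) (nat_lit 389) (nat_lit 0) (nat_lit 209) (nat_lit 202) (nat_lit 189)) (PT.lf (nat_lit 28652) (nat_lit 6) (nat_lit 377) (nat_lit 0) (nat_lit 210) (nat_lit 202) (nat_lit 188))) (PT.nd (nat_lit 78) (PT.lf (nat_lit 27664) (nat_lit 6) (nat_lit 364) (nat_lit 0) (nat_lit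 211) (nat_lit 202) (nat_lit 187)) (PT.lf (nat_lit 26600) (nat_lit 6) (nat_lit 350) (nat_lit 0) (nat_lit 212) (nat_lit 202) (nat_lit 186))))) (PT.nd (nat_lit 312) (PT.nd (nat_lit 156) (PT.nd (nat_lit 78) (PT.lf (nat_lit 25460) (nat_lit 6) (nat_lit 335) (nat_lit 0) (nat_lit 213) (nat_lit 202) (nat_lit 185)) (PT.lf (nat_lit 24244) (nat_lit 6) (nat_lit 319) (nat_lit 0) (nat_lit 214) (nat_lit 202) (nat_lit 184))) (PT.nd (nat_lit 78) (PT.lf (nat_lit 22952) (nat_lit 6) (nat_lit 302) (nat_lit 0) (nat_lit 215) (nat_lit 202) (nat_lit 183)) (PT.lf (nat_lit 22040) (nat_lit 6) (nat_lit 290) (nat_lit 0) (nat_lit 216) (nat_lit 202) (nat_lit 182)))) (PT.nd (nat_lit 59592) (PT.nd (nat_lit 59514) (PT.lf (nat_lit 21356) (nat_lit 6) (nat_lit 281) (nat_lit 0) (nat_lit 217) (nat_lit 202) (nat_lit 181)) (PT.lf (nat_lit 20140) (nat_lit 6) (nat_lit 265) (nat_lit 5) (nat_lit 179) (nat_lit 203) (nat_lit 218))) (PT.nd (nat_lit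 78) (PT.lf (nat_lit 20748) (nat_lit 6) (nat_lit 273) (nat_lit 5) (nat_lit 180) (nat_lit 203) (nat_lit 217)) (PT.lf (nat_lit 21432) (nat_lit 6) (nat_lit 282) (nat_lit 5) (nat_lit 181) (nat_lit 203) (nat_lit 216)))))) (PT.nd (nat_lit 624) (PT.nd (nat_lit 312) (PT.nd (nat_lit 156) (PT.nd (nat_lit 78) (PT.lf (nat_lit 22116) (nat_lit 6) (nat_lit 291) (nat_lit 5) (nat_lit 182) (nat_lit 203) (nat_lit 215)) (PT.lf (nat_lit 23028) (nat_lit 6) (nat_lit 303) (nat_lit 5) (nat_lit 183) (nat_lit 203) (nat_lit 214))) (PT.nd (nat_lit 78) (PT.lf (nat_lit 24320) (nat_lit 6) (nat_lit 320) (nat_lit 5) (nat_lit 184) (nat_lit 203) (nat_lit 213)) (PT.lf (nat_lit 25536) (nat_lit 6) (nat_lit 336) (nat_lit 5) (nat_lit 185) (nat_lit 203) (nat_lit 212)))) (PT.nd (nat_lit 156) (PT.nd (nat_lit 78) (PT.lf (nat_lit 26676) (nat_lit 6) (nat_lit 351) (nat_lit 5) (nat_lit 186) (nat_lit 203) (nat_lit 211)) (PT.lf (nat_lit 27740) (nat_lit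 6) (nat_lit 365) (nat_lit 5) (nat_lit 187) (nat_lit 203) (nat_lit 210))) (PT.nd (nat_lit 78) (PT.lf (nat_lit 28728) (nat_lit 6) (nat_lit 378) (nat_lit 5) (nat_lit 188) (nat_lit 203) (nat_lit 209)) (PT.lf (nat_lit 29640) (nat_lit 6) (nat_lit 390) (nat_lit 5) (nat_lit 189) (nat_lit 203) (nat_lit 208))))) (PT.nd (nat_lit 312) (PT.nd (nat_lit 156) (PT.nd (nat_lit 78) (PT.lf (nat_lit 30476) (nat_lit 6) (nat_lit 401) (nat_lit 5) (nat_lit 190) (nat_lit 203) (nat_lit 207)) (PT.lf (nat_lit 31236) (nat_lit 6) (nat_lit 411) (nat_lit 5) (nat_lit 191) (nat_lit 203) (nat_lit 206))) (PT.nd (nat_lit 78) (PT.lf (nat_lit 31920) (nat_lit 6) (nat_lit 420) (nat_lit 5) (nat_lit 192) (nat_lit 203) (nat_lit 205)) (PT.lf (nat_lit 32528) (nat_lit 6) (nat_lit 428) (nat_lit 5) (nat_lit 193) (nat_lit 203) (nat_lit 204)))) (PT.nd (nat_lit 156) (PT.nd (nat_lit 78) (PT.lf (nat_lit 33060) (nat_lit 3) (nat_lit 435) (nat_lit 4) (nat_lit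 194) (nat_lit 203) (nat_lit 203)) (PT.lf (nat_lit 33440) (nat_lit 6) (nat_lit 440) (nat_lit 4) (nat_lit 195) (nat_lit 203) (nat_lit 202))) (PT.nd (nat_lit 78) (PT.lf (nat_lit 33744) (nat_lit 6) (nat_lit 444) (nat_lit 4) (nat_lit 196) (nat_lit 203) (nat_lit 201)) (PT.nd (nat_lit 78) (PT.lf (nat_lit 33972) (nat_lit 6) (nat_lit 447) (nat_lit 4) (nat_lit 197) (nat_lit 203) (nat_lit 200)) (PT.lf (nat_lit 33896) (nat_lit 6) (nat_lit 446) (nat_lit 4) (nat_lit 198) (nat_lit 203) (nat_lit 199))))))))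
noncomputable def pc29 : PT := (PT.nd (nat_lit 1248) (PT.nd (nat_lit 624) (PT.nd (nat_lit 312) (PT.nd (nat_lit 156) (PT.nd (nat_lit 78) (PT.lf (nat_lit 33896) (nat_lit 6) (nat_lit 446) (nat_lit 2) (nat_lit 199) (nat_lit 203) (nat_lit 198)) (PT.lf (nat_lit 33972) (nat_lit 6) (nat_lit 447) (nat_lit 2) (nat_lit 200) (nat_lit 203) (nat_lit 197))) (PT.nd (nat_lit 78) (PT.lf (nat_lit 33744) (nat_lit 6) (nat_lit 444) (nat_lit 2) (nat_lit 201) (nat_lit 203) (nat_lit 196)) (PT.lf (nat_lit 33440) (nat_lit 6) (nat_lit 440) (nat_lit 2) (nat_lit 202) (nat_lit 203) (nat_lit 195)))) (PT.nd (nat_lit 156) (PT.nd (nat_lit 78) (PT.lf (nat_lit 33060) (nat_lit 3) (nat_lit 435) (nat_lit 0) (nat_lit 203) (nat_lit 203) (nat_lit 194)) (PT.lf (nat_lit 32528) (nat_lit 6) (nat_lit 428) (nat_lit 0) (nat_lit 204) (nat_lit 203) (nat_lit 193))) (PT.nd (nat_lit 78) (PT.lf (nat_lit 31920) (nat_lit 6) (nat_lit 420) (nat_lit 0) (nat_lit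 205) (nat_lit 203) (nat_lit 192)) (PT.lf (nat_lit 31236) (nat_lit 6) (nat_lit 411) (nat_lit 0) (nat_lit 206) (nat_lit 203) (nat_lit 191))))) (PT.nd (nat_lit 312) (PT.nd (nat_lit 156) (PT.nd (nat_lit 78) (PT.lf (nat_lit 30476) (nat_lit 6) (nat_lit 401) (nat_lit 0) (nat_lit 207) (nat_lit 203) (nat_lit 190)) (PT.lf (nat_lit 29640) (nat_lit 6) (nat_lit 390) (nat_lit 0) (nat_lit 208) (nat_lit 203) (nat_lit 189))) (PT.nd (nat_lit 78) (PT.lf (nat_lit 28728) (nat_lit 6) (nat_lit 378) (nat_lit 0) (nat_lit 209) (nat_lit 203) (nat_lit 188)) (PT.lf (nat_lit 27740) (nat_lit 6) (nat_lit 365) (nat_lit 0) (nat_lit 210) (nat_lit 203) (nat_lit 187)))) (PT.nd (nat_lit 156) (PT.nd (nat_lit 78) (PT.lf (nat_lit 26676) (nat_lit 6) (nat_lit 351) (nat_lit 0) (nat_lit 211) (nat_lit 203) (nat_lit 186)) (PT.lf (nat_lit 25536) (nat_lit 6) (nat_lit 336) (nat_lit 0) (nat_lit 212) (nat_lit 203) (nat_lit 185))) (PT.nd (nat_lit 78)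 (PT.lf (nat_lit 24320) (nat_lit 6) (nat_lit 320) (nat_lit 0) (nat_lit 213) (nat_lit 203) (nat_lit 184)) (PT.lf (nat_lit 23028) (nat_lit 6) (nat_lit 303) (nat_lit 0) (nat_lit 214) (nat_lit 203) (nat_lit 183)))))) (PT.nd (nat_lit 59904) (PT.nd (nat_lit 59592) (PT.nd (nat_lit 156) (PT.nd (nat_lit 78) (PT.lf (nat_lit 22116) (nat_lit 6) (nat_lit 291) (nat_lit 0) (nat_lit 215) (nat_lit 203) (nat_lit 182)) (PT.lf (nat_lit 21432) (nat_lit 6) (nat_lit 282) (nat_lit 0) (nat_lit 216) (nat_lit 203) (nat_lit 181))) (PT.nd (nat_lit 78) (PT.lf (nat_lit 20748) (nat_lit 6) (nat_lit 273) (nat_lit 0) (nat_lit 217) (nat_lit 203) (nat_lit 180)) (PT.lf (nat_lit 20140) (nat_lit 6) (nat_lit 265) (nat_lit 0) (nat_lit 218) (nat_lit 203) (nat_lit 179)))) (PT.nd (nat_lit 156) (PT.nd (nat_lit 78) (PT.lf (nat_lit 19532) (nat_lit 6) (nat_lit 257) (nat_lit 5) (nat_lit 178) (nat_lit 204) (nat_lit 218)) (PT.lf (nat_lit 20216) (nat_lit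 6) (nat_lit 266) (nat_lit 5) (nat_lit 179) (nat_lit 204) (nat_lit 217))) (PT.nd (nat_lit 78) (PT.lf (nat_lit 20824) (nat_lit 6) (nat_lit 274) (nat_lit 5) (nat_lit 180) (nat_lit 204) (nat_lit 216)) (PT.lf (nat_lit 21508) (nat_lit 6) (nat_lit 283) (nat_lit 5) (nat_lit 181) (nat_lit 204) (nat_lit 215))))) (PT.nd (nat_lit 312) (PT.nd (nat_lit 156) (PT.nd (nat_lit 78) (PT.lf (nat_lit 22192) (nat_lit 6) (nat_lit 292) (nat_lit 5) (nat_lit 182) (nat_lit 204) (nat_lit 214)) (PT.lf (nat_lit 23104) (nat_lit 6) (nat_lit 304) (nat_lit 5) (nat_lit 183) (nat_lit 204) (nat_lit 213))) (PT.nd (nat_lit 78) (PT.lf (nat_lit 24396) (nat_lit 6) (nat_lit 321) (nat_lit 5) (nat_lit 184) (nat_lit 204) (nat_lit 212)) (PT.lf (nat_lit 25612) (nat_lit 6) (nat_lit 337) (nat_lit 5) (nat_lit 185) (nat_lit 204) (nat_lit 211)))) (PT.nd (nat_lit 156) (PT.nd (nat_lit 78) (PT.lf (nat_lit 26752) (nat_lit 6) (nat_lit 352) (nat_lit 5) (nat_lit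 186) (nat_lit 204) (nat_lit 210)) (PT.lf (nat_lit 27816) (nat_lit 6) (nat_lit 366) (nat_lit 5) (nat_lit 187) (nat_lit 204) (nat_lit 209))) (PT.nd (nat_lit 78) (PT.lf (nat_lit 28804) (nat_lit 6) (nat_lit 379) (nat_lit 5) (nat_lit 188) (nat_lit 204) (nat_lit 208)) (PT.nd (nat_lit 78) (PT.lf (nat_lit 29716) (nat_lit 6) (nat_lit 391) (nat_lit 5) (nat_lit 189) (nat_lit 204) (nat_lit 207)) (PT.lf (nat_lit 30552) (nat_lit 6) (nat_lit 402) (nat_lit 5) (nat_lit 190) (nat_lit 204) (nat_lit 206))))))))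
noncomputable def pc30 : PT := (PT.nd (nat_lit 1248) (PT.nd (nat_lit 624) (PT.nd (nat_lit 312) (PT.nd (nat_lit 156) (PT.nd (nat_lit 78) (PT.lf (nat_lit 31312) (nat_lit 6) (nat_lit 412) (nat_lit 5) (nat_lit 191) (nat_lit 204) (nat_lit 205)) (PT.lf (nat_lit 31996) (nat_lit 3) (nat_lit 421) (nat_lit 4) (nat_lit 192) (nat_lit 204) (nat_lit 204))) (PT.nd (nat_lit 78) (PT.lf (nat_lit 32528) (nat_lit 6) (nat_lit 428) (nat_lit 4) (nat_lit 193) (nat_lit 204) (nat_lit 203)) (PT.lf (nat_lit 32984) (nat_lit 6) (nat_lit 434) (nat_lit 4) (nat_lit 194) (nat_lit 204) (nat_lit 202)))) (PT.nd (nat_lit 156) (PT.nd (nat_lit 78) (PT.lf (nat_lit 33364) (nat_lit 6) (nat_lit 439) (nat_lit 4) (nat_lit 195) (nat_lit 204) (nat_lit 201)) (PT.lf (nat_lit 33668) (nat_lit 6) (nat_lit 443) (nat_lit 4) (nat_lit 196) (nat_lit 204) (nat_lit 200))) (PT.nd (nat_lit 78) (PT.lf (nat_lit 33592) (nat_lit 6) (nat_lit 442) (nat_lit 4) (nat_lit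 197) (nat_lit 204) (nat_lit 199)) (PT.lf (nat_lit 33516) (nat_lit 3) (nat_lit 441) (nat_lit 2) (nat_lit 198) (nat_lit 204) (nat_lit 198))))) (PT.nd (nat_lit 312) (PT.nd (nat_lit 156) (PT.nd (nat_lit 78) (PT.lf (nat_lit 33592) (nat_lit 6) (nat_lit 442) (nat_lit 2) (nat_lit 199) (nat_lit 204) (nat_lit 197)) (PT.lf (nat_lit 33668) (nat_lit 6) (nat_lit 443) (nat_lit 2) (nat_lit 200) (nat_lit 204) (nat_lit 196))) (PT.nd (nat_lit 78) (PT.lf (nat_lit 33364) (nat_lit 6) (nat_lit 439) (nat_lit 2) (nat_lit 201) (nat_lit 204) (nat_lit 195)) (PT.lf (nat_lit 32984) (nat_lit 6) (nat_lit 434) (nat_lit 2) (nat_lit 202) (nat_lit 204) (nat_lit 194)))) (PT.nd (nat_lit 156) (PT.nd (nat_lit 78) (PT.lf (nat_lit 32528) (nat_lit 6) (nat_lit 428) (nat_lit 2) (nat_lit 203) (nat_lit 204) (nat_lit 193)) (PT.lf (nat_lit 31996) (nat_lit 3) (nat_lit 421) (nat_lit 0) (nat_lit 204) (nat_lit 204) (nat_lit 192))) (PT.nd (nat_lit 78)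 (PT.lf (nat_lit 31312) (nat_lit 6) (nat_lit 412) (nat_lit 0) (nat_lit 205) (nat_lit 204) (nat_lit 191)) (PT.lf (nat_lit 30552) (nat_lit 6) (nat_lit 402) (nat_lit 0) (nat_lit 206) (nat_lit 204) (nat_lit 190)))))) (PT.nd (nat_lit 624) (PT.nd (nat_lit 312) (PT.nd (nat_lit 156) (PT.nd (nat_lit 78) (PT.lf (nat_lit 29716) (nat_lit 6) (nat_lit 391) (nat_lit 0) (nat_lit 207) (nat_lit 204) (nat_lit 189)) (PT.lf (nat_lit 28804) (nat_lit 6) (nat_lit 379) (nat_lit 0) (nat_lit 208) (nat_lit 204) (nat_lit 188))) (PT.nd (nat_lit 78) (PT.lf (nat_lit 27816) (nat_lit 6) (nat_lit 366) (nat_lit 0) (nat_lit 209) (nat_lit 204) (nat_lit 187)) (PT.lf (nat_lit 26752) (nat_lit 6) (nat_lit 352) (nat_lit 0) (nat_lit 210) (nat_lit 204) (nat_lit 186)))) (PT.nd (nat_lit 156) (PT.nd (nat_lit 78) (PT.lf (nat_lit 25612) (nat_lit 6) (nat_lit 337) (nat_lit 0) (nat_lit 211) (nat_lit 204) (nat_lit 185)) (PT.lf (nat_lit 24396) (nat_lit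 6) (nat_lit 321) (nat_lit 0) (nat_lit 212) (nat_lit 204) (nat_lit 184))) (PT.nd (nat_lit 78) (PT.lf (nat_lit 23104) (nat_lit 6) (nat_lit 304) (nat_lit 0) (nat_lit 213) (nat_lit 204) (nat_lit 183)) (PT.lf (nat_lit 22192) (nat_lit 6) (nat_lit 292) (nat_lit 0) (nat_lit 214) (nat_lit 204) (nat_lit 182))))) (PT.nd (nat_lit 59514) (PT.nd (nat_lit 156) (PT.nd (nat_lit 78) (PT.lf (nat_lit 21508) (nat_lit 6) (nat_lit 283) (nat_lit 0) (nat_lit 215) (nat_lit 204) (nat_lit 181)) (PT.lf (nat_lit 20824) (nat_lit 6) (nat_lit 274) (nat_lit 0) (nat_lit 216) (nat_lit 204) (nat_lit 180))) (PT.nd (nat_lit 78) (PT.lf (nat_lit 20216) (nat_lit 6) (nat_lit 266) (nat_lit 0) (nat_lit 217) (nat_lit 204) (nat_lit 179)) (PT.lf (nat_lit 19532) (nat_lit 6) (nat_lit 257) (nat_lit 0) (nat_lit 218) (nat_lit 204) (nat_lit 178)))) (PT.nd (nat_lit 156) (PT.nd (nat_lit 78) (PT.lf (nat_lit 19000) (nat_lit 6) (nat_lit 250) (nat_lit 5) (nat_lit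 177) (nat_lit 205) (nat_lit 218)) (PT.lf (nat_lit 19608) (nat_lit 6) (nat_lit 258) (nat_lit 5) (nat_lit 178) (nat_lit 205) (nat_lit 217))) (PT.nd (nat_lit 78) (PT.lf (nat_lit 20292) (nat_lit 6) (nat_lit 267) (nat_lit 5) (nat_lit 179) (nat_lit 205) (nat_lit 216)) (PT.nd (nat_lit 78) (PT.lf (nat_lit 20900) (nat_lit 6) (nat_lit 275) (nat_lit 5) (nat_lit 180) (nat_lit 205) (nat_lit 215)) (PT.lf (nat_lit 21584) (nat_lit 6) (nat_lit 284) (nat_lit 5) (nat_lit 181) (nat_lit 205) (nat_lit 214))))))))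
noncomputable def pc31 : PT := (PT.nd (nat_lit 1248) (PT.nd (nat_lit 624) (PT.nd (nat_lit 312) (PT.nd (nat_lit 156) (PT.nd (nat_lit 78) (PT.lf (nat_lit 22268) (nat_lit 6) (nat_lit 293) (nat_lit 5) (nat_lit 182) (nat_lit 205) (nat_lit 213)) (PT.lf (nat_lit 23180) (nat_lit 6) (nat_lit 305) (nat_lit 5) (nat_lit 183) (nat_lit 205) (nat_lit 212))) (PT.nd (nat_lit 78) (PT.lf (nat_lit 24472) (nat_lit 6) (nat_lit 322) (nat_lit 5) (nat_lit 184) (nat_lit 205) (nat_lit 211)) (PT.lf (nat_lit 25688) (nat_lit 6) (nat_lit 338) (nat_lit 5) (nat_lit 185) (nat_lit 205) (nat_lit 210)))) (PT.nd (nat_lit 156) (PT.nd (nat_lit 78) (PT.lf (nat_lit 26828) (nat_lit 6) (nat_lit 353) (nat_lit 5) (nat_lit 186) (nat_lit 205) (nat_lit 209)) (PT.lf (nat_lit 27892) (nat_lit 6) (nat_lit 367) (nat_lit 5) (nat_lit 187) (nat_lit 205) (nat_lit 208))) (PT.nd (nat_lit 78) (PT.lf (nat_lit 28880) (nat_lit 6) (nat_lit 380) (nat_lit 5) (nat_lit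 188) (nat_lit 205) (nat_lit 207)) (PT.lf (nat_lit 29792) (nat_lit 6) (nat_lit 392) (nat_lit 5) (nat_lit 189) (nat_lit 205) (nat_lit 206))))) (PT.nd (nat_lit 312) (PT.nd (nat_lit 156) (PT.nd (nat_lit 78) (PT.lf (nat_lit 30628) (nat_lit 3) (nat_lit 403) (nat_lit 4) (nat_lit 190) (nat_lit 205) (nat_lit 205)) (PT.lf (nat_lit 31312) (nat_lit 6) (nat_lit 412) (nat_lit 4) (nat_lit 191) (nat_lit 205) (nat_lit 204))) (PT.nd (nat_lit 78) (PT.lf (nat_lit 31920) (nat_lit 6) (nat_lit 420) (nat_lit 4) (nat_lit 192) (nat_lit 205) (nat_lit 203)) (PT.lf (nat_lit 32452) (nat_lit 6) (nat_lit 427) (nat_lit 4) (nat_lit 193) (nat_lit 205) (nat_lit 202)))) (PT.nd (nat_lit 156) (PT.nd (nat_lit 78) (PT.lf (nat_lit 32908) (nat_lit 6) (nat_lit 433) (nat_lit 4) (nat_lit 194) (nat_lit 205) (nat_lit 201)) (PT.lf (nat_lit 33288) (nat_lit 6) (nat_lit 438) (nat_lit 4) (nat_lit 195) (nat_lit 205) (nat_lit 200))) (PT.nd (nat_lit 78)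 (PT.lf (nat_lit 33212) (nat_lit 6) (nat_lit 437) (nat_lit 4) (nat_lit 196) (nat_lit 205) (nat_lit 199)) (PT.lf (nat_lit 33136) (nat_lit 6) (nat_lit 436) (nat_lit 4) (nat_lit 197) (nat_lit 205) (nat_lit 198)))))) (PT.nd (nat_lit 624) (PT.nd (nat_lit 312) (PT.nd (nat_lit 156) (PT.nd (nat_lit 78) (PT.lf (nat_lit 33136) (nat_lit 6) (nat_lit 436) (nat_lit 2) (nat_lit 198) (nat_lit 205) (nat_lit 197)) (PT.lf (nat_lit 33212) (nat_lit 6) (nat_lit 437) (nat_lit 2) (nat_lit 199) (nat_lit 205) (nat_lit 196))) (PT.nd (nat_lit 78) (PT.lf (nat_lit 33288) (nat_lit 6) (nat_lit 438) (nat_lit 2) (nat_lit 200) (nat_lit 205) (nat_lit 195)) (PT.lf (nat_lit 32908) (nat_lit 6) (nat_lit 433) (nat_lit 2) (nat_lit 201) (nat_lit 205) (nat_lit 194)))) (PT.nd (nat_lit 156) (PT.nd (nat_lit 78) (PT.lf (nat_lit 32452) (nat_lit 6) (nat_lit 427) (nat_lit 2) (nat_lit 202) (nat_lit 205) (nat_lit 193)) (PT.lf (nat_lit 31920) (nat_lit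 6) (nat_lit 420) (nat_lit 2) (nat_lit 203) (nat_lit 205) (nat_lit 192))) (PT.nd (nat_lit 78) (PT.lf (nat_lit 31312) (nat_lit 6) (nat_lit 412) (nat_lit 2) (nat_lit 204) (nat_lit 205) (nat_lit 191)) (PT.lf (nat_lit 30628) (nat_lit 3) (nat_lit 403) (nat_lit 0) (nat_lit 205) (nat_lit 205) (nat_lit 190))))) (PT.nd (nat_lit 312) (PT.nd (nat_lit 156) (PT.nd (nat_lit 78) (PT.lf (nat_lit 29792) (nat_lit 6) (nat_lit 392) (nat_lit 0) (nat_lit 206) (nat_lit 205) (nat_lit 189)) (PT.lf (nat_lit 28880) (nat_lit 6) (nat_lit 380) (nat_lit 0) (nat_lit 207) (nat_lit 205) (nat_lit 188))) (PT.nd (nat_lit 78) (PT.lf (nat_lit 27892) (nat_lit 6) (nat_lit 367) (nat_lit 0) (nat_lit 208) (nat_lit 205) (nat_lit 187)) (PT.lf (nat_lit 26828) (nat_lit 6) (nat_lit 353) (nat_lit 0) (nat_lit 209) (nat_lit 205) (nat_lit 186)))) (PT.nd (nat_lit 156) (PT.nd (nat_lit 78) (PT.lf (nat_lit 25688) (nat_lit 6) (nat_lit 338) (nat_lit 0) (nat_lit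 210) (nat_lit 205) (nat_lit 185)) (PT.lf (nat_lit 24472) (nat_lit 6) (nat_lit 322) (nat_lit 0) (nat_lit 211) (nat_lit 205) (nat_lit 184))) (PT.nd (nat_lit 78) (PT.lf (nat_lit 23180) (nat_lit 6) (nat_lit 305) (nat_lit 0) (nat_lit 212) (nat_lit 205) (nat_lit 183)) (PT.nd (nat_lit 78) (PT.lf (nat_lit 22268) (nat_lit 6) (nat_lit 293) (nat_lit 0) (nat_lit 213) (nat_lit 205) (nat_lit 182)) (PT.lf (nat_lit 21584) (nat_lit 6) (nat_lit 284) (nat_lit 0) (nat_lit 214) (nat_lit 205) (nat_lit 181))))))))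
noncomputable def pc32 : PT := (PT.nd (nat_lit 60372) (PT.nd (nat_lit 59748) (PT.nd (nat_lit 59436) (PT.nd (nat_lit 156) (PT.nd (nat_lit 78) (PT.lf (nat_lit 20900) (nat_lit 6) (nat_lit 275) (nat_lit 0) (nat_lit 215) (nat_lit 205) (nat_lit 180)) (PT.lf (nat_lit 20292) (nat_lit 6) (nat_lit 267) (nat_lit 0) (nat_lit 216) (nat_lit 205) (nat_lit 179))) (PT.nd (nat_lit 78) (PT.lf (nat_lit 19608) (nat_lit 6) (nat_lit 258) (nat_lit 0) (nat_lit 217) (nat_lit 205) (nat_lit 178)) (PT.lf (nat_lit 19000) (nat_lit 6) (nat_lit 250) (nat_lit 0) (nat_lit 218) (nat_lit 205) (nat_lit 177)))) (PT.nd (nat_lit 156) (PT.nd (nat_lit 78) (PT.lf (nat_lit 18468) (nat_lit 6) (nat_lit 243) (nat_lit 5) (nat_lit 176) (nat_lit 206) (nat_lit 218)) (PT.lf (nat_lit 19076) (nat_lit 6) (nat_lit 251) (nat_lit 5) (nat_lit 177) (nat_lit 206) (nat_lit 217))) (PT.nd (nat_lit 78) (PT.lf (nat_lit 19684) (nat_lit 6) (nat_lit 259) (nat_lit 5)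 (nat_lit 178) (nat_lit 206) (nat_lit 216)) (PT.lf (nat_lit 20368) (nat_lit 6) (nat_lit 268) (nat_lit 5) (nat_lit 179) (nat_lit 206) (nat_lit 215))))) (PT.nd (nat_lit 312) (PT.nd (nat_lit 156) (PT.nd (nat_lit 78) (PT.lf (nat_lit 20976) (nat_lit 6) (nat_lit 276) (nat_lit 5) (nat_lit 180) (nat_lit 206) (nat_lit 214)) (PT.lf (nat_lit 21660) (nat_lit 6) (nat_lit 285) (nat_lit 5) (nat_lit 181) (nat_lit 206) (nat_lit 213))) (PT.nd (nat_lit 78) (PT.lf (nat_lit 22344) (nat_lit 6) (nat_lit 294) (nat_lit 5) (nat_lit 182) (nat_lit 206) (nat_lit 212)) (PT.lf (nat_lit 23256) (nat_lit 6) (nat_lit 306) (nat_lit 5) (nat_lit 183) (nat_lit 206) (nat_lit 211)))) (PT.nd (nat_lit 156) (PT.nd (nat_lit 78) (PT.lf (nat_lit 24548) (nat_lit 6) (nat_lit 323) (nat_lit 5) (nat_lit 184) (nat_lit 206) (nat_lit 210)) (PT.lf (nat_lit 25764) (nat_lit 6) (nat_lit 339) (nat_lit 5) (nat_lit 185) (nat_lit 206) (nat_lit 209))) (PT.nd (nat_lit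 78) (PT.lf (nat_lit 26904) (nat_lit 6) (nat_lit 354) (nat_lit 5) (nat_lit 186) (nat_lit 206) (nat_lit 208)) (PT.lf (nat_lit 27968) (nat_lit 6) (nat_lit 368) (nat_lit 5) (nat_lit 187) (nat_lit 206) (nat_lit 207)))))) (PT.nd (nat_lit 624) (PT.nd (nat_lit 312) (PT.nd (nat_lit 156) (PT.nd (nat_lit 78) (PT.lf (nat_lit 28956) (nat_lit 3) (nat_lit 381) (nat_lit 4) (nat_lit 188) (nat_lit 206) (nat_lit 206)) (PT.lf (nat_lit 29792) (nat_lit 6) (nat_lit 392) (nat_lit 4) (nat_lit 189) (nat_lit 206) (nat_lit 205))) (PT.nd (nat_lit 78) (PT.lf (nat_lit 30552) (nat_lit 6) (nat_lit 402) (nat_lit 4) (nat_lit 190) (nat_lit 206) (nat_lit 204)) (PT.lf (nat_lit 31236) (nat_lit 6) (nat_lit 411) (nat_lit 4) (nat_lit 191) (nat_lit 206) (nat_lit 203)))) (PT.nd (nat_lit 156) (PT.nd (nat_lit 78) (PT.lf (nat_lit 31844) (nat_lit 6) (nat_lit 419) (nat_lit 4) (nat_lit 192) (nat_lit 206) (nat_lit 202)) (PT.lf (nat_lit 32376) (nat_lit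 6) (nat_lit 426) (nat_lit 4) (nat_lit 193) (nat_lit 206) (nat_lit 201))) (PT.nd (nat_lit 78) (PT.lf (nat_lit 32832) (nat_lit 6) (nat_lit 432) (nat_lit 4) (nat_lit 194) (nat_lit 206) (nat_lit 200)) (PT.lf (nat_lit 32756) (nat_lit 6) (nat_lit 431) (nat_lit 4) (nat_lit 195) (nat_lit 206) (nat_lit 199))))) (PT.nd (nat_lit 312) (PT.nd (nat_lit 156) (PT.nd (nat_lit 78) (PT.lf (nat_lit 32680) (nat_lit 6) (nat_lit 430) (nat_lit 4) (nat_lit 196) (nat_lit 206) (nat_lit 198)) (PT.lf (nat_lit 32604) (nat_lit 3) (nat_lit 429) (nat_lit 2) (nat_lit 197) (nat_lit 206) (nat_lit 197))) (PT.nd (nat_lit 78) (PT.lf (nat_lit 32680) (nat_lit 6) (nat_lit 430) (nat_lit 2) (nat_lit 198) (nat_lit 206) (nat_lit 196)) (PT.lf (nat_lit 32756) (nat_lit 6) (nat_lit 431) (nat_lit 2) (nat_lit 199) (nat_lit 206) (nat_lit 195)))) (PT.nd (nat_lit 156) (PT.nd (nat_lit 78) (PT.lf (nat_lit 32832) (nat_lit 6) (nat_lit 432) (nat_lit 2) (nat_lit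 200) (nat_lit 206) (nat_lit 194)) (PT.lf (nat_lit 32376) (nat_lit 6) (nat_lit 426) (nat_lit 2) (nat_lit 201) (nat_lit 206) (nat_lit 193))) (PT.nd (nat_lit 78) (PT.lf (nat_lit 31844) (nat_lit 6) (nat_lit 419) (nat_lit 2) (nat_lit 202) (nat_lit 206) (nat_lit 192)) (PT.lf (nat_lit 31236) (nat_lit 6) (nat_lit 411) (nat_lit 2) (nat_lit 203) (nat_lit 206) (nat_lit 191)))))))
noncomputable def pc33 : PT := (PT.nd (nat_lit 60216) (PT.nd (nat_lit 624) (PT.nd (nat_lit 312) (PT.nd (nat_lit 156) (PT.nd (nat_lit 78) (PT.lf (nat_lit 30552) (nat_lit 6) (nat_lit 402) (nat_lit 2) (nat_lit 204) (nat_lit 206) (nat_lit 190)) (PT.lf (nat_lit 29792) (nat_lit 6) (nat_lit 392) (nat_lit 2) (nat_lit 205) (nat_lit 206) (nat_lit 189))) (PT.nd (nat_lit 78) (PT.lf (nat_lit 28956) (nat_lit 3) (nat_lit 381) (nat_lit 0) (nat_lit 206) (nat_lit 206) (nat_lit 188)) (PT.lf (nat_lit 27968) (nat_lit 6) (nat_lit 368) (nat_lit 0) (nat_lit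 207) (nat_lit 206) (nat_lit 187)))) (PT.nd (nat_lit 156) (PT.nd (nat_lit 78) (PT.lf (nat_lit 26904) (nat_lit 6) (nat_lit 354) (nat_lit 0) (nat_lit 208) (nat_lit 206) (nat_lit 186)) (PT.lf (nat_lit 25764) (nat_lit 6) (nat_lit 339) (nat_lit 0) (nat_lit 209) (nat_lit 206) (nat_lit 185))) (PT.nd (nat_lit 78) (PT.lf (nat_lit 24548) (nat_lit 6) (nat_lit 323) (nat_lit 0) (nat_lit 210) (nat_lit 206) (nat_lit 184)) (PT.lf (nat_lit 23256) (nat_lit 6) (nat_lit 306) (nat_lit 0) (nat_lit 211) (nat_lit 206) (nat_lit 183))))) (PT.nd (nat_lit 312) (PT.nd (nat_lit 156) (PT.nd (nat_lit 78) (PT.lf (nat_lit 22344) (nat_lit 6) (nat_lit 294) (nat_lit 0) (nat_lit 212) (nat_lit 206) (nat_lit 182)) (PT.lf (nat_lit 21660) (nat_lit 6) (nat_lit 285) (nat_lit 0) (nat_lit 213) (nat_lit 206) (nat_lit 181))) (PT.nd (nat_lit 78) (PT.lf (nat_lit 20976) (nat_lit 6) (nat_lit 276) (nat_lit 0) (nat_lit 214) (nat_lit 206) (nat_lit 180))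 (PT.lf (nat_lit 20368) (nat_lit 6) (nat_lit 268) (nat_lit 0) (nat_lit 215) (nat_lit 206) (nat_lit 179)))) (PT.nd (nat_lit 156) (PT.nd (nat_lit 78) (PT.lf (nat_lit 19684) (nat_lit 6) (nat_lit 259) (nat_lit 0) (nat_lit 216) (nat_lit 206) (nat_lit 178)) (PT.lf (nat_lit 19076) (nat_lit 6) (nat_lit 251) (nat_lit 0) (nat_lit 217) (nat_lit 206) (nat_lit 177))) (PT.nd (nat_lit 59046) (PT.lf (nat_lit 18468) (nat_lit 6) (nat_lit 243) (nat_lit 0) (nat_lit 218) (nat_lit 206) (nat_lit 176)) (PT.lf (nat_lit 17480) (nat_lit 6) (nat_lit 230) (nat_lit 5) (nat_lit 174) (nat_lit 207) (nat_lit 219)))))) (PT.nd (nat_lit 624) (PT.nd (nat_lit 312) (PT.nd (nat_lit 156) (PT.nd (nat_lit 78) (PT.lf (nat_lit 18012) (nat_lit 6) (nat_lit 237) (nat_lit 5) (nat_lit 175) (nat_lit 207) (nat_lit 218)) (PT.lf (nat_lit 18544) (nat_lit 6) (nat_lit 244) (nat_lit 5) (nat_lit 176) (nat_lit 207) (nat_lit 217))) (PT.nd (nat_lit 78) (PT.lf (nat_lit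 19152) (nat_lit 6) (nat_lit 252) (nat_lit 5) (nat_lit 177) (nat_lit 207) (nat_lit 216)) (PT.lf (nat_lit 19760) (nat_lit 6) (nat_lit 260) (nat_lit 5) (nat_lit 178) (nat_lit 207) (nat_lit 215)))) (PT.nd (nat_lit 156) (PT.nd (nat_lit 78) (PT.lf (nat_lit 20444) (nat_lit 6) (nat_lit 269) (nat_lit 5) (nat_lit 179) (nat_lit 207) (nat_lit 214)) (PT.lf (nat_lit 21052) (nat_lit 6) (nat_lit 277) (nat_lit 5) (nat_lit 180) (nat_lit 207) (nat_lit 213))) (PT.nd (nat_lit 78) (PT.lf (nat_lit 21736) (nat_lit 6) (nat_lit 286) (nat_lit 5) (nat_lit 181) (nat_lit 207) (nat_lit 212)) (PT.lf (nat_lit 22420) (nat_lit 6) (nat_lit 295) (nat_lit 5) (nat_lit 182) (nat_lit 207) (nat_lit 211))))) (PT.nd (nat_lit 312) (PT.nd (nat_lit 156) (PT.nd (nat_lit 78) (PT.lf (nat_lit 23332) (nat_lit 6) (nat_lit 307) (nat_lit 5) (nat_lit 183) (nat_lit 207) (nat_lit 210)) (PT.lf (nat_lit 24624) (nat_lit 6) (nat_lit 324) (nat_lit 5) (nat_lit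 184) (nat_lit 207) (nat_lit 209))) (PT.nd (nat_lit 78) (PT.lf (nat_lit 25840) (nat_lit 6) (nat_lit 340) (nat_lit 5) (nat_lit 185) (nat_lit 207) (nat_lit 208)) (PT.lf (nat_lit 26980) (nat_lit 3) (nat_lit 355) (nat_lit 4) (nat_lit 186) (nat_lit 207) (nat_lit 207)))) (PT.nd (nat_lit 156) (PT.nd (nat_lit 78) (PT.lf (nat_lit 27968) (nat_lit 6) (nat_lit 368) (nat_lit 4) (nat_lit 187) (nat_lit 207) (nat_lit 206)) (PT.lf (nat_lit 28880) (nat_lit 6) (nat_lit 380) (nat_lit 4) (nat_lit 188) (nat_lit 207) (nat_lit 205))) (PT.nd (nat_lit 78) (PT.lf (nat_lit 29716) (nat_lit 6) (nat_lit 391) (nat_lit 4) (nat_lit 189) (nat_lit 207) (nat_lit 204)) (PT.nd (nat_lit 78) (PT.lf (nat_lit 30476) (nat_lit 6) (nat_lit 401) (nat_lit 4) (nat_lit 190) (nat_lit 207) (nat_lit 203)) (PT.lf (nat_lit 31160) (nat_lit 6) (nat_lit 410) (nat_lit 4) (nat_lit 191) (nat_lit 207) (nat_lit 202))))))))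
noncomputable def pc34 : PT := (PT.nd (nat_lit 1248) (PT.nd (nat_lit 624) (PT.nd (nat_lit 312) (PT.nd (nat_lit 156) (PT.nd (nat_lit 78) (PT.lf (nat_lit 31768) (nat_lit 6) (nat_lit 418) (nat_lit 4) (nat_lit 192) (nat_lit 207) (nat_lit 201)) (PT.lf (nat_lit 32300) (nat_lit 6) (nat_lit 425) (nat_lit 4) (nat_lit 193) (nat_lit 207) (nat_lit 200))) (PT.nd (nat_lit 78) (PT.lf (nat_lit 32224) (nat_lit 6) (nat_lit 424) (nat_lit 4) (nat_lit 194) (nat_lit 207) (nat_lit 199)) (PT.lf (nat_lit 32148) (nat_lit 6) (nat_lit 423) (nat_lit 4) (nat_lit 195) (nat_lit 207) (nat_lit 198)))) (PT.nd (nat_lit 156) (PT.nd (nat_lit 78) (PT.lf (nat_lit 32072) (nat_lit 6) (nat_lit 422) (nat_lit 4) (nat_lit 196) (nat_lit 207) (nat_lit 197)) (PT.lf (nat_lit 32072) (nat_lit 6) (nat_lit 422) (nat_lit 2) (nat_lit 197) (nat_lit 207) (nat_lit 196))) (PT.nd (nat_lit 78) (PT.lf (nat_lit 32148) (nat_lit 6) (nat_lit 423) (nat_lit 2) (nat_lit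 198) (nat_lit 207) (nat_lit 195)) (PT.lf (nat_lit 32224) (nat_lit 6) (nat_lit 424) (nat_lit 2) (nat_lit 199) (nat_lit 207) (nat_lit 194))))) (PT.nd (nat_lit 312) (PT.nd (nat_lit 156) (PT.nd (nat_lit 78) (PT.lf (nat_lit 32300) (nat_lit 6) (nat_lit 425) (nat_lit 2) (nat_lit 200) (nat_lit 207) (nat_lit 193)) (PT.lf (nat_lit 31768) (nat_lit 6) (nat_lit 418) (nat_lit 2) (nat_lit 201) (nat_lit 207) (nat_lit 192))) (PT.nd (nat_lit 78) (PT.lf (nat_lit 31160) (nat_lit 6) (nat_lit 410) (nat_lit 2) (nat_lit 202) (nat_lit 207) (nat_lit 191)) (PT.lf (nat_lit 30476) (nat_lit 6) (nat_lit 401) (nat_lit 2) (nat_lit 203) (nat_lit 207) (nat_lit 190)))) (PT.nd (nat_lit 156) (PT.nd (nat_lit 78) (PT.lf (nat_lit 29716) (nat_lit 6) (nat_lit 391) (nat_lit 2) (nat_lit 204) (nat_lit 207) (nat_lit 189)) (PT.lf (nat_lit 28880) (nat_lit 6) (nat_lit 380) (nat_lit 2) (nat_lit 205) (nat_lit 207) (nat_lit 188))) (PT.nd (nat_lit 78)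 (PT.lf (nat_lit 27968) (nat_lit 6) (nat_lit 368) (nat_lit 2) (nat_lit 206) (nat_lit 207) (nat_lit 187)) (PT.lf (nat_lit 26980) (nat_lit 3) (nat_lit 355) (nat_lit 0) (nat_lit 207) (nat_lit 207) (nat_lit 186)))))) (PT.nd (nat_lit 624) (PT.nd (nat_lit 312) (PT.nd (nat_lit 156) (PT.nd (nat_lit 78) (PT.lf (nat_lit 25840) (nat_lit 6) (nat_lit 340) (nat_lit 0) (nat_lit 208) (nat_lit 207) (nat_lit 185)) (PT.lf (nat_lit 24624) (nat_lit 6) (nat_lit 324) (nat_lit 0) (nat_lit 209) (nat_lit 207) (nat_lit 184))) (PT.nd (nat_lit 78) (PT.lf (nat_lit 23332) (nat_lit 6) (nat_lit 307) (nat_lit 0) (nat_lit 210) (nat_lit 207) (nat_lit 183)) (PT.lf (nat_lit 22420) (nat_lit 6) (nat_lit 295) (nat_lit 0) (nat_lit 211) (nat_lit 207) (nat_lit 182)))) (PT.nd (nat_lit 156) (PT.nd (nat_lit 78) (PT.lf (nat_lit 21736) (nat_lit 6) (nat_lit 286) (nat_lit 0) (nat_lit 212) (nat_lit 207) (nat_lit 181)) (PT.lf (nat_lit 21052) (nat_lit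 6) (nat_lit 277) (nat_lit 0) (nat_lit 213) (nat_lit 207) (nat_lit 180))) (PT.nd (nat_lit 78) (PT.lf (nat_lit 20444) (nat_lit 6) (nat_lit 269) (nat_lit 0) (nat_lit 214) (nat_lit 207) (nat_lit 179)) (PT.lf (nat_lit 19760) (nat_lit 6) (nat_lit 260) (nat_lit 0) (nat_lit 215) (nat_lit 207) (nat_lit 178))))) (PT.nd (nat_lit 59124) (PT.nd (nat_lit 156) (PT.nd (nat_lit 78) (PT.lf (nat_lit 19152) (nat_lit 6) (nat_lit 252) (nat_lit 0) (nat_lit 216) (nat_lit 207) (nat_lit 177)) (PT.lf (nat_lit 18544) (nat_lit 6) (nat_lit 244) (nat_lit 0) (nat_lit 217) (nat_lit 207) (nat_lit 176))) (PT.nd (nat_lit 78) (PT.lf (nat_lit 18012) (nat_lit 6) (nat_lit 237) (nat_lit 0) (nat_lit 218) (nat_lit 207) (nat_lit 175)) (PT.lf (nat_lit 17480) (nat_lit 6) (nat_lit 230) (nat_lit 0) (nat_lit 219) (nat_lit 207) (nat_lit 174)))) (PT.nd (nat_lit 156) (PT.nd (nat_lit 78) (PT.lf (nat_lit 17024) (nat_lit 6) (nat_lit 224) (nat_lit 5) (nat_lit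 173) (nat_lit 208) (nat_lit 219)) (PT.lf (nat_lit 17556) (nat_lit 6) (nat_lit 231) (nat_lit 5) (nat_lit 174) (nat_lit 208) (nat_lit 218))) (PT.nd (nat_lit 78) (PT.lf (nat_lit 18088) (nat_lit 6) (nat_lit 238) (nat_lit 5) (nat_lit 175) (nat_lit 208) (nat_lit 217)) (PT.nd (nat_lit 78) (PT.lf (nat_lit 18620) (nat_lit 6) (nat_lit 245) (nat_lit 5) (nat_lit 176) (nat_lit 208) (nat_lit 216)) (PT.lf (nat_lit 19228) (nat_lit 6) (nat_lit 253) (nat_lit 5) (nat_lit 177) (nat_lit 208) (nat_lit 215))))))))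
noncomputable def pc35 : PT := (PT.nd (nat_lit 1248) (PT.nd (nat_lit 624) (PT.nd (nat_lit 312) (PT.nd (nat_lit 156) (PT.nd (nat_lit 78) (PT.lf (nat_lit 19836) (nat_lit 6) (nat_lit 261) (nat_lit 5) (nat_lit 178) (nat_lit 208) (nat_lit 214)) (PT.lf (nat_lit 20520) (nat_lit 6) (nat_lit 270) (nat_lit 5) (nat_lit 179) (nat_lit 208) (nat_lit 213))) (PT.nd (nat_lit 78) (PT.lf (nat_lit 21128) (nat_lit 6) (nat_lit 278) (nat_lit 5) (nat_lit 180) (nat_lit 208) (nat_lit 212)) (PT.lf (nat_lit 21812) (nat_lit 6) (nat_lit 287) (nat_lit 5) (nat_lit 181) (nat_lit 208) (nat_lit 211)))) (PT.nd (nat_lit 156) (PT.nd (nat_lit 78) (PT.lf (nat_lit 22496) (nat_lit 6) (nat_lit 296) (nat_lit 5) (nat_lit 182) (nat_lit 208) (nat_lit 210)) (PT.lf (nat_lit 23408) (nat_lit 6) (nat_lit 308) (nat_lit 5) (nat_lit 183) (nat_lit 208) (nat_lit 209))) (PT.nd (nat_lit 78) (PT.lf (nat_lit 24700) (nat_lit 3) (nat_lit 325) (nat_lit 4) (nat_lit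 184) (nat_lit 208) (nat_lit 208)) (PT.lf (nat_lit 25840) (nat_lit 6) (nat_lit 340) (nat_lit 4) (nat_lit 185) (nat_lit 208) (nat_lit 207))))) (PT.nd (nat_lit 312) (PT.nd (nat_lit 156) (PT.nd (nat_lit 78) (PT.lf (nat_lit 26904) (nat_lit 6) (nat_lit 354) (nat_lit 4) (nat_lit 186) (nat_lit 208) (nat_lit 206)) (PT.lf (nat_lit 27892) (nat_lit 6) (nat_lit 367) (nat_lit 4) (nat_lit 187) (nat_lit 208) (nat_lit 205))) (PT.nd (nat_lit 78) (PT.lf (nat_lit 28804) (nat_lit 6) (nat_lit 379) (nat_lit 4) (nat_lit 188) (nat_lit 208) (nat_lit 204)) (PT.lf (nat_lit 29640) (nat_lit 6) (nat_lit 390) (nat_lit 4) (nat_lit 189) (nat_lit 208) (nat_lit 203)))) (PT.nd (nat_lit 156) (PT.nd (nat_lit 78) (PT.lf (nat_lit 30400) (nat_lit 6) (nat_lit 400) (nat_lit 4) (nat_lit 190) (nat_lit 208) (nat_lit 202)) (PT.lf (nat_lit 31084) (nat_lit 6) (nat_lit 409) (nat_lit 4) (nat_lit 191) (nat_lit 208) (nat_lit 201))) (PT.nd (nat_lit 78)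 (PT.lf (nat_lit 31692) (nat_lit 6) (nat_lit 417) (nat_lit 4) (nat_lit 192) (nat_lit 208) (nat_lit 200)) (PT.lf (nat_lit 31616) (nat_lit 6) (nat_lit 416) (nat_lit 4) (nat_lit 193) (nat_lit 208) (nat_lit 199)))))) (PT.nd (nat_lit 624) (PT.nd (nat_lit 312) (PT.nd (nat_lit 156) (PT.nd (nat_lit 78) (PT.lf (nat_lit 31540) (nat_lit 6) (nat_lit 415) (nat_lit 4) (nat_lit 194) (nat_lit 208) (nat_lit 198)) (PT.lf (nat_lit 31464) (nat_lit 6) (nat_lit 414) (nat_lit 4) (nat_lit 195) (nat_lit 208) (nat_lit 197))) (PT.nd (nat_lit 78) (PT.lf (nat_lit 31388) (nat_lit 3) (nat_lit 413) (nat_lit 2) (nat_lit 196) (nat_lit 208) (nat_lit 196)) (PT.lf (nat_lit 31464) (nat_lit 6) (nat_lit 414) (nat_lit 2) (nat_lit 197) (nat_lit 208) (nat_lit 195)))) (PT.nd (nat_lit 156) (PT.nd (nat_lit 78) (PT.lf (nat_lit 31540) (nat_lit 6) (nat_lit 415) (nat_lit 2) (nat_lit 198) (nat_lit 208) (nat_lit 194)) (PT.lf (nat_lit 31616) (nat_lit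 6) (nat_lit 416) (nat_lit 2) (nat_lit 199) (nat_lit 208) (nat_lit 193))) (PT.nd (nat_lit 78) (PT.lf (nat_lit 31692) (nat_lit 6) (nat_lit 417) (nat_lit 2) (nat_lit 200) (nat_lit 208) (nat_lit 192)) (PT.lf (nat_lit 31084) (nat_lit 6) (nat_lit 409) (nat_lit 2) (nat_lit 201) (nat_lit 208) (nat_lit 191))))) (PT.nd (nat_lit 312) (PT.nd (nat_lit 156) (PT.nd (nat_lit 78) (PT.lf (nat_lit 30400) (nat_lit 6) (nat_lit 400) (nat_lit 2) (nat_lit 202) (nat_lit 208) (nat_lit 190)) (PT.lf (nat_lit 29640) (nat_lit 6) (nat_lit 390) (nat_lit 2) (nat_lit 203) (nat_lit 208) (nat_lit 189))) (PT.nd (nat_lit 78) (PT.lf (nat_lit 28804) (nat_lit 6) (nat_lit 379) (nat_lit 2) (nat_lit 204) (nat_lit 208) (nat_lit 188)) (PT.lf (nat_lit 27892) (nat_lit 6) (nat_lit 367) (nat_lit 2) (nat_lit 205) (nat_lit 208) (nat_lit 187)))) (PT.nd (nat_lit 156) (PT.nd (nat_lit 78) (PT.lf (nat_lit 26904) (nat_lit 6) (nat_lit 354) (nat_lit 2) (nat_lit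 206) (nat_lit 208) (nat_lit 186)) (PT.lf (nat_lit 25840) (nat_lit 6) (nat_lit 340) (nat_lit 2) (nat_lit 207) (nat_lit 208) (nat_lit 185))) (PT.nd (nat_lit 78) (PT.lf (nat_lit 24700) (nat_lit 3) (nat_lit 325) (nat_lit 0) (nat_lit 208) (nat_lit 208) (nat_lit 184)) (PT.nd (nat_lit 78) (PT.lf (nat_lit 23408) (nat_lit 6) (nat_lit 308) (nat_lit 0) (nat_lit 209) (nat_lit 208) (nat_lit 183)) (PT.lf (nat_lit 22496) (nat_lit 6) (nat_lit 296) (nat_lit 0) (nat_lit 210) (nat_lit 208) (nat_lit 182))))))))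
noncomputable def pc36 : PT := (PT.nd (nat_lit 59904) (PT.nd (nat_lit 624) (PT.nd (nat_lit 312) (PT.nd (nat_lit 156) (PT.nd (nat_lit 78) (PT.lf (nat_lit 21812) (nat_lit 6) (nat_lit 287) (nat_lit 0) (nat_lit 211) (nat_lit 208) (nat_lit 181)) (PT.lf (nat_lit 21128) (nat_lit 6) (nat_lit 278) (nat_lit 0) (nat_lit 212) (nat_lit 208) (nat_lit 180))) (PT.nd (nat_lit 78) (PT.lf (nat_lit 20520) (nat_lit 6) (nat_lit 270) (nat_lit 0) (nat_lit 213) (nat_lit 208) (nat_lit 179)) (PT.lf (nat_lit 19836) (nat_lit 6) (nat_lit 261) (nat_lit 0) (nat_lit 214) (nat_lit 208) (nat_lit 178)))) (PT.nd (nat_lit 156) (PT.nd (nat_lit 78) (PT.lf (nat_lit 19228) (nat_lit 6) (nat_lit 253) (nat_lit 0) (nat_lit 215) (nat_lit 208) (nat_lit 177)) (PT.lf (nat_lit 18620) (nat_lit 6) (nat_lit 245) (nat_lit 0) (nat_lit 216) (nat_lit 208) (nat_lit 176))) (PT.nd (nat_lit 78) (PT.lf (nat_lit 18088) (nat_lit 6) (nat_lit 238) (nat_lit 0) (nat_lit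 217) (nat_lit 208) (nat_lit 175)) (PT.lf (nat_lit 17556) (nat_lit 6) (nat_lit 231) (nat_lit 0) (nat_lit 218) (nat_lit 208) (nat_lit 174))))) (PT.nd (nat_lit 58968) (PT.nd (nat_lit 58812) (PT.nd (nat_lit 58734) (PT.lf (nat_lit 17024) (nat_lit 6) (nat_lit 224) (nat_lit 0) (nat_lit 219) (nat_lit 208) (nat_lit 173)) (PT.lf (nat_lit 16112) (nat_lit 6) (nat_lit 212) (nat_lit 5) (nat_lit 171) (nat_lit 209) (nat_lit 220))) (PT.nd (nat_lit 78) (PT.lf (nat_lit 16568) (nat_lit 6) (nat_lit 218) (nat_lit 5) (nat_lit 172) (nat_lit 209) (nat_lit 219)) (PT.lf (nat_lit 17100) (nat_lit 6) (nat_lit 225) (nat_lit 5) (nat_lit 173) (nat_lit 209) (nat_lit 218)))) (PT.nd (nat_lit 156) (PT.nd (nat_lit 78) (PT.lf (nat_lit 17632) (nat_lit 6) (nat_lit 232) (nat_lit 5) (nat_lit 174) (nat_lit 209) (nat_lit 217)) (PT.lf (nat_lit 18164) (nat_lit 6) (nat_lit 239) (nat_lit 5) (nat_lit 175) (nat_lit 209) (nat_lit 216))) (PT.nd (nat_lit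 78) (PT.lf (nat_lit 18696) (nat_lit 6) (nat_lit 246) (nat_lit 5) (nat_lit 176) (nat_lit 209) (nat_lit 215)) (PT.lf (nat_lit 19304) (nat_lit 6) (nat_lit 254) (nat_lit 5) (nat_lit 177) (nat_lit 209) (nat_lit 214)))))) (PT.nd (nat_lit 624) (PT.nd (nat_lit 312) (PT.nd (nat_lit 156) (PT.nd (nat_lit 78) (PT.lf (nat_lit 19912) (nat_lit 6) (nat_lit 262) (nat_lit 5) (nat_lit 178) (nat_lit 209) (nat_lit 213)) (PT.lf (nat_lit 20596) (nat_lit 6) (nat_lit 271) (nat_lit 5) (nat_lit 179) (nat_lit 209) (nat_lit 212))) (PT.nd (nat_lit 78) (PT.lf (nat_lit 21204) (nat_lit 6) (nat_lit 279) (nat_lit 5) (nat_lit 180) (nat_lit 209) (nat_lit 211)) (PT.lf (nat_lit 21888) (nat_lit 6) (nat_lit 288) (nat_lit 5) (nat_lit 181) (nat_lit 209) (nat_lit 210)))) (PT.nd (nat_lit 156) (PT.nd (nat_lit 78) (PT.lf (nat_lit 22572) (nat_lit 3) (nat_lit 297) (nat_lit 4) (nat_lit 182) (nat_lit 209) (nat_lit 209)) (PT.lf (nat_lit 23408) (nat_lit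 6) (nat_lit 308) (nat_lit 4) (nat_lit 183) (nat_lit 209) (nat_lit 208))) (PT.nd (nat_lit 78) (PT.lf (nat_lit 24624) (nat_lit 6) (nat_lit 324) (nat_lit 4) (nat_lit 184) (nat_lit 209) (nat_lit 207)) (PT.lf (nat_lit 25764) (nat_lit 6) (nat_lit 339) (nat_lit 4) (nat_lit 185) (nat_lit 209) (nat_lit 206))))) (PT.nd (nat_lit 312) (PT.nd (nat_lit 156) (PT.nd (nat_lit 78) (PT.lf (nat_lit 26828) (nat_lit 6) (nat_lit 353) (nat_lit 4) (nat_lit 186) (nat_lit 209) (nat_lit 205)) (PT.lf (nat_lit 27816) (nat_lit 6) (nat_lit 366) (nat_lit 4) (nat_lit 187) (nat_lit 209) (nat_lit 204))) (PT.nd (nat_lit 78) (PT.lf (nat_lit 28728) (nat_lit 6) (nat_lit 378) (nat_lit 4) (nat_lit 188) (nat_lit 209) (nat_lit 203)) (PT.lf (nat_lit 29564) (nat_lit 6) (nat_lit 389) (nat_lit 4) (nat_lit 189) (nat_lit 209) (nat_lit 202)))) (PT.nd (nat_lit 156) (PT.nd (nat_lit 78) (PT.lf (nat_lit 30324) (nat_lit 6) (nat_lit 399) (nat_lit 4) (nat_lit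 190) (nat_lit 209) (nat_lit 201)) (PT.lf (nat_lit 31008) (nat_lit 6) (nat_lit 408) (nat_lit 4) (nat_lit 191) (nat_lit 209) (nat_lit 200))) (PT.nd (nat_lit 78) (PT.lf (nat_lit 30932) (nat_lit 6) (nat_lit 407) (nat_lit 4) (nat_lit 192) (nat_lit 209) (nat_lit 199)) (PT.nd (nat_lit 78) (PT.lf (nat_lit 30856) (nat_lit 6) (nat_lit 406) (nat_lit 4) (nat_lit 193) (nat_lit 209) (nat_lit 198)) (PT.lf (nat_lit 30780) (nat_lit 6) (nat_lit 405) (nat_lit 4) (nat_lit 194) (nat_lit 209) (nat_lit 197))))))))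
noncomputable def pc37 : PT := (PT.nd (nat_lit 1248) (PT.nd (nat_lit 624) (PT.nd (nat_lit 312) (PT.nd (nat_lit 156) (PT.nd (nat_lit 78) (PT.lf (nat_lit 30704) (nat_lit 6) (nat_lit 404) (nat_lit 4) (nat_lit 195) (nat_lit 209) (nat_lit 196)) (PT.lf (nat_lit 30704) (nat_lit 6) (nat_lit 404) (nat_lit 2) (nat_lit 196) (nat_lit 209) (nat_lit 195))) (PT.nd (nat_lit 78) (PT.lf (nat_lit 30780) (nat_lit 6) (nat_lit 405) (nat_lit 2) (nat_lit 197) (nat_lit 209) (nat_lit 194)) (PT.lf (nat_lit 30856) (nat_lit 6) (nat_lit 406) (nat_lit 2) (nat_lit 198) (nat_lit 209) (nat_lit 193)))) (PT.nd (nat_lit 156) (PT.nd (nat_lit 78) (PT.lf (nat_lit 30932) (nat_lit 6) (nat_lit 407) (nat_lit 2) (nat_lit 199) (nat_lit 209) (nat_lit 192)) (PT.lf (nat_lit 31008) (nat_lit 6) (nat_lit 408) (nat_lit 2) (nat_lit 200) (nat_lit 209) (nat_lit 191))) (PT.nd (nat_lit 78) (PT.lf (nat_lit 30324) (nat_lit 6) (nat_lit 399) (nat_lit 2) (nat_lit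 201) (nat_lit 209) (nat_lit 190)) (PT.lf (nat_lit 29564) (nat_lit 6) (nat_lit 389) (nat_lit 2) (nat_lit 202) (nat_lit 209) (nat_lit 189))))) (PT.nd (nat_lit 312) (PT.nd (nat_lit 156) (PT.nd (nat_lit 78) (PT.lf (nat_lit 28728) (nat_lit 6) (nat_lit 378) (nat_lit 2) (nat_lit 203) (nat_lit 209) (nat_lit 188)) (PT.lf (nat_lit 27816) (nat_lit 6) (nat_lit 366) (nat_lit 2) (nat_lit 204) (nat_lit 209) (nat_lit 187))) (PT.nd (nat_lit 78) (PT.lf (nat_lit 26828) (nat_lit 6) (nat_lit 353) (nat_lit 2) (nat_lit 205) (nat_lit 209) (nat_lit 186)) (PT.lf (nat_lit 25764) (nat_lit 6) (nat_lit 339) (nat_lit 2) (nat_lit 206) (nat_lit 209) (nat_lit 185)))) (PT.nd (nat_lit 156) (PT.nd (nat_lit 78) (PT.lf (nat_lit 24624) (nat_lit 6) (nat_lit 324) (nat_lit 2) (nat_lit 207) (nat_lit 209) (nat_lit 184)) (PT.lf (nat_lit 23408) (nat_lit 6) (nat_lit 308) (nat_lit 2) (nat_lit 208) (nat_lit 209) (nat_lit 183))) (PT.nd (nat_lit 78)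 (PT.lf (nat_lit 22572) (nat_lit 3) (nat_lit 297) (nat_lit 0) (nat_lit 209) (nat_lit 209) (nat_lit 182)) (PT.lf (nat_lit 21888) (nat_lit 6) (nat_lit 288) (nat_lit 0) (nat_lit 210) (nat_lit 209) (nat_lit 181)))))) (PT.nd (nat_lit 624) (PT.nd (nat_lit 312) (PT.nd (nat_lit 156) (PT.nd (nat_lit 78) (PT.lf (nat_lit 21204) (nat_lit 6) (nat_lit 279) (nat_lit 0) (nat_lit 211) (nat_lit 209) (nat_lit 180)) (PT.lf (nat_lit 20596) (nat_lit 6) (nat_lit 271) (nat_lit 0) (nat_lit 212) (nat_lit 209) (nat_lit 179))) (PT.nd (nat_lit 78) (PT.lf (nat_lit 19912) (nat_lit 6) (nat_lit 262) (nat_lit 0) (nat_lit 213) (nat_lit 209) (nat_lit 178)) (PT.lf (nat_lit 19304) (nat_lit 6) (nat_lit 254) (nat_lit 0) (nat_lit 214) (nat_lit 209) (nat_lit 177)))) (PT.nd (nat_lit 156) (PT.nd (nat_lit 78) (PT.lf (nat_lit 18696) (nat_lit 6) (nat_lit 246) (nat_lit 0) (nat_lit 215) (nat_lit 209) (nat_lit 176)) (PT.lf (nat_lit 18164) (nat_lit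 6) (nat_lit 239) (nat_lit 0) (nat_lit 216) (nat_lit 209) (nat_lit 175))) (PT.nd (nat_lit 78) (PT.lf (nat_lit 17632) (nat_lit 6) (nat_lit 232) (nat_lit 0) (nat_lit 217) (nat_lit 209) (nat_lit 174)) (PT.lf (nat_lit 17100) (nat_lit 6) (nat_lit 225) (nat_lit 0) (nat_lit 218) (nat_lit 209) (nat_lit 173))))) (PT.nd (nat_lit 58812) (PT.nd (nat_lit 58656) (PT.nd (nat_lit 78) (PT.lf (nat_lit 16568) (nat_lit 6) (nat_lit 218) (nat_lit 0) (nat_lit 219) (nat_lit 209) (nat_lit 172)) (PT.lf (nat_lit 16112) (nat_lit 6) (nat_lit 212) (nat_lit 0) (nat_lit 220) (nat_lit 209) (nat_lit 171))) (PT.nd (nat_lit 78) (PT.lf (nat_lit 15656) (nat_lit 6) (nat_lit 206) (nat_lit 5) (nat_lit 170) (nat_lit 210) (nat_lit 220)) (PT.lf (nat_lit 16188) (nat_lit 6) (nat_lit 213) (nat_lit 5) (nat_lit 171) (nat_lit 210) (nat_lit 219)))) (PT.nd (nat_lit 156) (PT.nd (nat_lit 78) (PT.lf (nat_lit 16644) (nat_lit 6) (nat_lit 219) (nat_lit 5)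 (nat_lit 172) (nat_lit 210) (nat_lit 218)) (PT.lf (nat_lit 17176) (nat_lit 6) (nat_lit 226) (nat_lit 5) (nat_lit 173) (nat_lit 210) (nat_lit 217))) (PT.nd (nat_lit 78) (PT.lf (nat_lit 17708) (nat_lit 6) (nat_lit 233) (nat_lit 5) (nat_lit 174) (nat_lit 210) (nat_lit 216)) (PT.nd (nat_lit 78) (PT.lf (nat_lit 18240) (nat_lit 6) (nat_lit 240) (nat_lit 5) (nat_lit 175) (nat_lit 210) (nat_lit 215)) (PT.lf (nat_lit 18772) (nat_lit 6) (nat_lit 247) (nat_lit 5) (nat_lit 176) (nat_lit 210) (nat_lit 214))))))))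
noncomputable def pc38 : PT := (PT.nd (nat_lit 1248) (PT.nd (nat_lit 624) (PT.nd (nat_lit 312) (PT.nd (nat_lit 156) (PT.nd (nat_lit 78) (PT.lf (nat_lit 19380) (nat_lit 6) (nat_lit 255) (nat_lit 5) (nat_lit 177) (nat_lit 210) (nat_lit 213)) (PT.lf (nat_lit 19988) (nat_lit 6) (nat_lit 263) (nat_lit 5) (nat_lit 178) (nat_lit 210) (nat_lit 212))) (PT.nd (nat_lit 78) (PT.lf (nat_lit 20672) (nat_lit 6) (nat_lit 272) (nat_lit 5) (nat_lit 179) (nat_lit 210) (nat_lit 211)) (PT.lf (nat_lit 21280) (nat_lit 3) (nat_lit 280) (nat_lit 4) (nat_lit 180) (nat_lit 210) (nat_lit 210)))) (PT.nd (nat_lit 156) (PT.nd (nat_lit 78) (PT.lf (nat_lit 21888) (nat_lit 6) (nat_lit 288) (nat_lit 4) (nat_lit 181) (nat_lit 210) (nat_lit 209)) (PT.lf (nat_lit 22496) (nat_lit 6) (nat_lit 296) (nat_lit 4) (nat_lit 182) (nat_lit 210) (nat_lit 208))) (PT.nd (nat_lit 78) (PT.lf (nat_lit 23332) (nat_lit 6) (nat_lit 307) (nat_lit 4) (nat_lit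 183) (nat_lit 210) (nat_lit 207)) (PT.lf (nat_lit 24548) (nat_lit 6) (nat_lit 323) (nat_lit 4) (nat_lit 184) (nat_lit 210) (nat_lit 206))))) (PT.nd (nat_lit 312) (PT.nd (nat_lit 156) (PT.nd (nat_lit 78) (PT.lf (nat_lit 25688) (nat_lit 6) (nat_lit 338) (nat_lit 4) (nat_lit 185) (nat_lit 210) (nat_lit 205)) (PT.lf (nat_lit 26752) (nat_lit 6) (nat_lit 352) (nat_lit 4) (nat_lit 186) (nat_lit 210) (nat_lit 204))) (PT.nd (nat_lit 78) (PT.lf (nat_lit 27740) (nat_lit 6) (nat_lit 365) (nat_lit 4) (nat_lit 187) (nat_lit 210) (nat_lit 203)) (PT.lf (nat_lit 28652) (nat_lit 6) (nat_lit 377) (nat_lit 4) (nat_lit 188) (nat_lit 210) (nat_lit 202)))) (PT.nd (nat_lit 156) (PT.nd (nat_lit 78) (PT.lf (nat_lit 29488) (nat_lit 6) (nat_lit 388) (nat_lit 4) (nat_lit 189) (nat_lit 210) (nat_lit 201)) (PT.lf (nat_lit 30248) (nat_lit 6) (nat_lit 398) (nat_lit 4) (nat_lit 190) (nat_lit 210) (nat_lit 200))) (PT.nd (nat_lit 78)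 (PT.lf (nat_lit 30172) (nat_lit 6) (nat_lit 397) (nat_lit 4) (nat_lit 191) (nat_lit 210) (nat_lit 199)) (PT.lf (nat_lit 30096) (nat_lit 6) (nat_lit 396) (nat_lit 4) (nat_lit 192) (nat_lit 210) (nat_lit 198)))))) (PT.nd (nat_lit 624) (PT.nd (nat_lit 312) (PT.nd (nat_lit 156) (PT.nd (nat_lit 78) (PT.lf (nat_lit 30020) (nat_lit 6) (nat_lit 395) (nat_lit 4) (nat_lit 193) (nat_lit 210) (nat_lit 197)) (PT.lf (nat_lit 29944) (nat_lit 6) (nat_lit 394) (nat_lit 4) (nat_lit 194) (nat_lit 210) (nat_lit 196))) (PT.nd (nat_lit 78) (PT.lf (nat_lit 29868) (nat_lit 3) (nat_lit 393) (nat_lit 2) (nat_lit 195) (nat_lit 210) (nat_lit 195)) (PT.lf (nat_lit 29944) (nat_lit 6) (nat_lit 394) (nat_lit 2) (nat_lit 196) (nat_lit 210) (nat_lit 194)))) (PT.nd (nat_lit 156) (PT.nd (nat_lit 78) (PT.lf (nat_lit 30020) (nat_lit 6) (nat_lit 395) (nat_lit 2) (nat_lit 197) (nat_lit 210) (nat_lit 193)) (PT.lf (nat_lit 30096) (nat_lit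 6) (nat_lit 396) (nat_lit 2) (nat_lit 198) (nat_lit 210) (nat_lit 192))) (PT.nd (nat_lit 78) (PT.lf (nat_lit 30172) (nat_lit 6) (nat_lit 397) (nat_lit 2) (nat_lit 199) (nat_lit 210) (nat_lit 191)) (PT.lf (nat_lit 30248) (nat_lit 6) (nat_lit 398) (nat_lit 2) (nat_lit 200) (nat_lit 210) (nat_lit 190))))) (PT.nd (nat_lit 312) (PT.nd (nat_lit 156) (PT.nd (nat_lit 78) (PT.lf (nat_lit 29488) (nat_lit 6) (nat_lit 388) (nat_lit 2) (nat_lit 201) (nat_lit 210) (nat_lit 189)) (PT.lf (nat_lit 28652) (nat_lit 6) (nat_lit 377) (nat_lit 2) (nat_lit 202) (nat_lit 210) (nat_lit 188))) (PT.nd (nat_lit 78) (PT.lf (nat_lit 27740) (nat_lit 6) (nat_lit 365) (nat_lit 2) (nat_lit 203) (nat_lit 210) (nat_lit 187)) (PT.lf (nat_lit 26752) (nat_lit 6) (nat_lit 352) (nat_lit 2) (nat_lit 204) (nat_lit 210) (nat_lit 186)))) (PT.nd (nat_lit 156) (PT.nd (nat_lit 78) (PT.lf (nat_lit 25688) (nat_lit 6) (nat_lit 338) (nat_lit 2) (nat_lit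 205) (nat_lit 210) (nat_lit 185)) (PT.lf (nat_lit 24548) (nat_lit 6) (nat_lit 323) (nat_lit 2) (nat_lit 206) (nat_lit 210) (nat_lit 184))) (PT.nd (nat_lit 78) (PT.lf (nat_lit 23332) (nat_lit 6) (nat_lit 307) (nat_lit 2) (nat_lit 207) (nat_lit 210) (nat_lit 183)) (PT.nd (nat_lit 78) (PT.lf (nat_lit 22496) (nat_lit 6) (nat_lit 296) (nat_lit 2) (nat_lit 208) (nat_lit 210) (nat_lit 182)) (PT.lf (nat_lit 21888) (nat_lit 6) (nat_lit 288) (nat_lit 2) (nat_lit 209) (nat_lit 210) (nat_lit 181))))))))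
noncomputable def pc39 : PT := (PT.nd (nat_lit 59670) (PT.nd (nat_lit 624) (PT.nd (nat_lit 312) (PT.nd (nat_lit 156) (PT.nd (nat_lit 78) (PT.lf (nat_lit 21280) (nat_lit 3) (nat_lit 280) (nat_lit 0) (nat_lit 210) (nat_lit 210) (nat_lit 180)) (PT.lf (nat_lit 20672) (nat_lit 6) (nat_lit 272) (nat_lit 0) (nat_lit 211) (nat_lit 210) (nat_lit 179))) (PT.nd (nat_lit 78) (PT.lf (nat_lit 19988) (nat_lit 6) (nat_lit 263) (nat_lit 0) (nat_lit 212) (nat_lit 210) (nat_lit 178)) (PT.lf (nat_lit 19380) (nat_lit 6) (nat_lit 255) (nat_lit 0) (nat_lit 213) (nat_lit 210) (nat_lit 177)))) (PT.nd (nat_lit 156) (PT.nd (nat_lit 78) (PT.lf (nat_lit 18772) (nat_lit 6) (nat_lit 247) (nat_lit 0) (nat_lit 214) (nat_lit 210) (nat_lit 176)) (PT.lf (nat_lit 18240) (nat_lit 6) (nat_lit 240) (nat_lit 0) (nat_lit 215) (nat_lit 210) (nat_lit 175))) (PT.nd (nat_lit 78) (PT.lf (nat_lit 17708) (nat_lit 6) (nat_lit 233) (nat_lit 0) (nat_lit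 216) (nat_lit 210) (nat_lit 174)) (PT.lf (nat_lit 17176) (nat_lit 6) (nat_lit 226) (nat_lit 0) (nat_lit 217) (nat_lit 210) (nat_lit 173))))) (PT.nd (nat_lit 58734) (PT.nd (nat_lit 156) (PT.nd (nat_lit 78) (PT.lf (nat_lit 16644) (nat_lit 6) (nat_lit 219) (nat_lit 0) (nat_lit 218) (nat_lit 210) (nat_lit 172)) (PT.lf (nat_lit 16188) (nat_lit 6) (nat_lit 213) (nat_lit 0) (nat_lit 219) (nat_lit 210) (nat_lit 171))) (PT.nd (nat_lit 58500) (PT.lf (nat_lit 15656) (nat_lit 6) (nat_lit 206) (nat_lit 0) (nat_lit 220) (nat_lit 210) (nat_lit 170)) (PT.lf (nat_lit 15276) (nat_lit 6) (nat_lit 201) (nat_lit 5) (nat_lit 169) (nat_lit 211) (nat_lit 220)))) (PT.nd (nat_lit 156) (PT.nd (nat_lit 78) (PT.lf (nat_lit 15732) (nat_lit 6) (nat_lit 207) (nat_lit 5) (nat_lit 170) (nat_lit 211) (nat_lit 219)) (PT.lf (nat_lit 16264) (nat_lit 6) (nat_lit 214) (nat_lit 5) (nat_lit 171) (nat_lit 211) (nat_lit 218))) (PT.nd (nat_lit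 78) (PT.lf (nat_lit 16720) (nat_lit 6) (nat_lit 220) (nat_lit 5) (nat_lit 172) (nat_lit 211) (nat_lit 217)) (PT.lf (nat_lit 17252) (nat_lit 6) (nat_lit 227) (nat_lit 5) (nat_lit 173) (nat_lit 211) (nat_lit 216)))))) (PT.nd (nat_lit 624) (PT.nd (nat_lit 312) (PT.nd (nat_lit 156) (PT.nd (nat_lit 78) (PT.lf (nat_lit 17784) (nat_lit 6) (nat_lit 234) (nat_lit 5) (nat_lit 174) (nat_lit 211) (nat_lit 215)) (PT.lf (nat_lit 18316) (nat_lit 6) (nat_lit 241) (nat_lit 5) (nat_lit 175) (nat_lit 211) (nat_lit 214))) (PT.nd (nat_lit 78) (PT.lf (nat_lit 18848) (nat_lit 6) (nat_lit 248) (nat_lit 5) (nat_lit 176) (nat_lit 211) (nat_lit 213)) (PT.lf (nat_lit 19456) (nat_lit 6) (nat_lit 256) (nat_lit 5) (nat_lit 177) (nat_lit 211) (nat_lit 212)))) (PT.nd (nat_lit 156) (PT.nd (nat_lit 78) (PT.lf (nat_lit 20064) (nat_lit 3) (nat_lit 264) (nat_lit 4) (nat_lit 178) (nat_lit 211) (nat_lit 211)) (PT.lf (nat_lit 20672) (nat_lit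 6) (nat_lit 272) (nat_lit 4) (nat_lit 179) (nat_lit 211) (nat_lit 210))) (PT.nd (nat_lit 78) (PT.lf (nat_lit 21204) (nat_lit 6) (nat_lit 279) (nat_lit 4) (nat_lit 180) (nat_lit 211) (nat_lit 209)) (PT.lf (nat_lit 21812) (nat_lit 6) (nat_lit 287) (nat_lit 4) (nat_lit 181) (nat_lit 211) (nat_lit 208))))) (PT.nd (nat_lit 312) (PT.nd (nat_lit 156) (PT.nd (nat_lit 78) (PT.lf (nat_lit 22420) (nat_lit 6) (nat_lit 295) (nat_lit 4) (nat_lit 182) (nat_lit 211) (nat_lit 207)) (PT.lf (nat_lit 23256) (nat_lit 6) (nat_lit 306) (nat_lit 4) (nat_lit 183) (nat_lit 211) (nat_lit 206))) (PT.nd (nat_lit 78) (PT.lf (nat_lit 24472) (nat_lit 6) (nat_lit 322) (nat_lit 4) (nat_lit 184) (nat_lit 211) (nat_lit 205)) (PT.lf (nat_lit 25612) (nat_lit 6) (nat_lit 337) (nat_lit 4) (nat_lit 185) (nat_lit 211) (nat_lit 204)))) (PT.nd (nat_lit 156) (PT.nd (nat_lit 78) (PT.lf (nat_lit 26676) (nat_lit 6) (nat_lit 351) (nat_lit 4) (nat_lit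 186) (nat_lit 211) (nat_lit 203)) (PT.lf (nat_lit 27664) (nat_lit 6) (nat_lit 364) (nat_lit 4) (nat_lit 187) (nat_lit 211) (nat_lit 202))) (PT.nd (nat_lit 78) (PT.lf (nat_lit 28576) (nat_lit 6) (nat_lit 376) (nat_lit 4) (nat_lit 188) (nat_lit 211) (nat_lit 201)) (PT.nd (nat_lit 78) (PT.lf (nat_lit 29412) (nat_lit 6) (nat_lit 387) (nat_lit 4) (nat_lit 189) (nat_lit 211) (nat_lit 200)) (PT.lf (nat_lit 29336) (nat_lit 6) (nat_lit 386) (nat_lit 4) (nat_lit 190) (nat_lit 211) (nat_lit 199))))))))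
noncomputable def pc40 : PT := (PT.nd (nat_lit 1248) (PT.nd (nat_lit 624) (PT.nd (nat_lit 312) (PT.nd (nat_lit 156) (PT.nd (nat_lit 78) (PT.lf (nat_lit 29260) (nat_lit 6) (nat_lit 385) (nat_lit 4) (nat_lit 191) (nat_lit 211) (nat_lit 198)) (PT.lf (nat_lit 29184) (nat_lit 6) (nat_lit 384) (nat_lit 4) (nat_lit 192) (nat_lit 211) (nat_lit 197))) (PT.nd (nat_lit 78) (PT.lf (nat_lit 29108) (nat_lit 6) (nat_lit 383) (nat_lit 4) (nat_lit 193) (nat_lit 211) (nat_lit 196)) (PT.lf (nat_lit 29032) (nat_lit 6) (nat_lit 382) (nat_lit 4) (nat_lit 194) (nat_lit 211) (nat_lit 195)))) (PT.nd (nat_lit 156) (PT.nd (nat_lit 78) (PT.lf (nat_lit 29032) (nat_lit 6) (nat_lit 382) (nat_lit 2) (nat_lit 195) (nat_lit 211) (nat_lit 194)) (PT.lf (nat_lit 29108) (nat_lit 6) (nat_lit 383) (nat_lit 2) (nat_lit 196) (nat_lit 211) (nat_lit 193))) (PT.nd (nat_lit 78) (PT.lf (nat_lit 29184) (nat_lit 6) (nat_lit 384) (nat_lit 2) (nat_lit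 197) (nat_lit 211) (nat_lit 192)) (PT.lf (nat_lit 29260) (nat_lit 6) (nat_lit 385) (nat_lit 2) (nat_lit 198) (nat_lit 211) (nat_lit 191))))) (PT.nd (nat_lit 312) (PT.nd (nat_lit 156) (PT.nd (nat_lit 78) (PT.lf (nat_lit 29336) (nat_lit 6) (nat_lit 386) (nat_lit 2) (nat_lit 199) (nat_lit 211) (nat_lit 190)) (PT.lf (nat_lit 29412) (nat_lit 6) (nat_lit 387) (nat_lit 2) (nat_lit 200) (nat_lit 211) (nat_lit 189))) (PT.nd (nat_lit 78) (PT.lf (nat_lit 28576) (nat_lit 6) (nat_lit 376) (nat_lit 2) (nat_lit 201) (nat_lit 211) (nat_lit 188)) (PT.lf (nat_lit 27664) (nat_lit 6) (nat_lit 364) (nat_lit 2) (nat_lit 202) (nat_lit 211) (nat_lit 187)))) (PT.nd (nat_lit 156) (PT.nd (nat_lit 78) (PT.lf (nat_lit 26676) (nat_lit 6) (nat_lit 351) (nat_lit 2) (nat_lit 203) (nat_lit 211) (nat_lit 186)) (PT.lf (nat_lit 25612) (nat_lit 6) (nat_lit 337) (nat_lit 2) (nat_lit 204) (nat_lit 211) (nat_lit 185))) (PT.nd (nat_lit 78)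 (PT.lf (nat_lit 24472) (nat_lit 6) (nat_lit 322) (nat_lit 2) (nat_lit 205) (nat_lit 211) (nat_lit 184)) (PT.lf (nat_lit 23256) (nat_lit 6) (nat_lit 306) (nat_lit 2) (nat_lit 206) (nat_lit 211) (nat_lit 183)))))) (PT.nd (nat_lit 624) (PT.nd (nat_lit 312) (PT.nd (nat_lit 156) (PT.nd (nat_lit 78) (PT.lf (nat_lit 22420) (nat_lit 6) (nat_lit 295) (nat_lit 2) (nat_lit 207) (nat_lit 211) (nat_lit 182)) (PT.lf (nat_lit 21812) (nat_lit 6) (nat_lit 287) (nat_lit 2) (nat_lit 208) (nat_lit 211) (nat_lit 181))) (PT.nd (nat_lit 78) (PT.lf (nat_lit 21204) (nat_lit 6) (nat_lit 279) (nat_lit 2) (nat_lit 209) (nat_lit 211) (nat_lit 180)) (PT.lf (nat_lit 20672) (nat_lit 6) (nat_lit 272) (nat_lit 2) (nat_lit 210) (nat_lit 211) (nat_lit 179)))) (PT.nd (nat_lit 156) (PT.nd (nat_lit 78) (PT.lf (nat_lit 20064) (nat_lit 3) (nat_lit 264) (nat_lit 0) (nat_lit 211) (nat_lit 211) (nat_lit 178)) (PT.lf (nat_lit 19456) (nat_lit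 6) (nat_lit 256) (nat_lit 0) (nat_lit 212) (nat_lit 211) (nat_lit 177))) (PT.nd (nat_lit 78) (PT.lf (nat_lit 18848) (nat_lit 6) (nat_lit 248) (nat_lit 0) (nat_lit 213) (nat_lit 211) (nat_lit 176)) (PT.lf (nat_lit 18316) (nat_lit 6) (nat_lit 241) (nat_lit 0) (nat_lit 214) (nat_lit 211) (nat_lit 175))))) (PT.nd (nat_lit 312) (PT.nd (nat_lit 156) (PT.nd (nat_lit 78) (PT.lf (nat_lit 17784) (nat_lit 6) (nat_lit 234) (nat_lit 0) (nat_lit 215) (nat_lit 211) (nat_lit 174)) (PT.lf (nat_lit 17252) (nat_lit 6) (nat_lit 227) (nat_lit 0) (nat_lit 216) (nat_lit 211) (nat_lit 173))) (PT.nd (nat_lit 78) (PT.lf (nat_lit 16720) (nat_lit 6) (nat_lit 220) (nat_lit 0) (nat_lit 217) (nat_lit 211) (nat_lit 172)) (PT.lf (nat_lit 16264) (nat_lit 6) (nat_lit 214) (nat_lit 0) (nat_lit 218) (nat_lit 211) (nat_lit 171)))) (PT.nd (nat_lit 58422) (PT.nd (nat_lit 78) (PT.lf (nat_lit 15732) (nat_lit 6) (nat_lit 207) (nat_lit 0) (nat_lit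 219) (nat_lit 211) (nat_lit 170)) (PT.lf (nat_lit 15276) (nat_lit 6) (nat_lit 201) (nat_lit 0) (nat_lit 220) (nat_lit 211) (nat_lit 169))) (PT.nd (nat_lit 78) (PT.lf (nat_lit 14516) (nat_lit 6) (nat_lit 191) (nat_lit 5) (nat_lit 167) (nat_lit 212) (nat_lit 221)) (PT.lf (nat_lit 14896) (nat_lit 6) (nat_lit 196) (nat_lit 5) (nat_lit 168) (nat_lit 212) (nat_lit 220)))))))
noncomputable def pc41 : PT := (PT.nd (nat_lit 1248) (PT.nd (nat_lit 624) (PT.nd (nat_lit 312) (PT.nd (nat_lit 156) (PT.nd (nat_lit 78) (PT.lf (nat_lit 15352) (nat_lit 6) (nat_lit 202) (nat_lit 5) (nat_lit 169) (nat_lit 212) (nat_lit 219)) (PT.lf (nat_lit 15808) (nat_lit 6) (nat_lit 208) (nat_lit 5) (nat_lit 170) (nat_lit 212) (nat_lit 218))) (PT.nd (nat_lit 78) (PT.lf (nat_lit 16340) (nat_lit 6) (nat_lit 215) (nat_lit 5) (nat_lit 171) (nat_lit 212) (nat_lit 217)) (PT.lf (nat_lit 16796) (nat_lit 6) (nat_lit 221) (nat_lit 5) (nat_lit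 172) (nat_lit 212) (nat_lit 216)))) (PT.nd (nat_lit 156) (PT.nd (nat_lit 78) (PT.lf (nat_lit 17328) (nat_lit 6) (nat_lit 228) (nat_lit 5) (nat_lit 173) (nat_lit 212) (nat_lit 215)) (PT.lf (nat_lit 17860) (nat_lit 6) (nat_lit 235) (nat_lit 5) (nat_lit 174) (nat_lit 212) (nat_lit 214))) (PT.nd (nat_lit 78) (PT.lf (nat_lit 18392) (nat_lit 6) (nat_lit 242) (nat_lit 5) (nat_lit 175) (nat_lit 212) (nat_lit 213)) (PT.lf (nat_lit 18924) (nat_lit 3) (nat_lit 249) (nat_lit 4) (nat_lit 176) (nat_lit 212) (nat_lit 212))))) (PT.nd (nat_lit 312) (PT.nd (nat_lit 156) (PT.nd (nat_lit 78) (PT.lf (nat_lit 19456) (nat_lit 6) (nat_lit 256) (nat_lit 4) (nat_lit 177) (nat_lit 212) (nat_lit 211)) (PT.lf (nat_lit 19988) (nat_lit 6) (nat_lit 263) (nat_lit 4) (nat_lit 178) (nat_lit 212) (nat_lit 210))) (PT.nd (nat_lit 78) (PT.lf (nat_lit 20596) (nat_lit 6) (nat_lit 271) (nat_lit 4) (nat_lit 179) (nat_lit 212) (nat_lit 209))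 (PT.lf (nat_lit 21128) (nat_lit 6) (nat_lit 278) (nat_lit 4) (nat_lit 180) (nat_lit 212) (nat_lit 208)))) (PT.nd (nat_lit 156) (PT.nd (nat_lit 78) (PT.lf (nat_lit 21736) (nat_lit 6) (nat_lit 286) (nat_lit 4) (nat_lit 181) (nat_lit 212) (nat_lit 207)) (PT.lf (nat_lit 22344) (nat_lit 6) (nat_lit 294) (nat_lit 4) (nat_lit 182) (nat_lit 212) (nat_lit 206))) (PT.nd (nat_lit 78) (PT.lf (nat_lit 23180) (nat_lit 6) (nat_lit 305) (nat_lit 4) (nat_lit 183) (nat_lit 212) (nat_lit 205)) (PT.lf (nat_lit 24396) (nat_lit 6) (nat_lit 321) (nat_lit 4) (nat_lit 184) (nat_lit 212) (nat_lit 204)))))) (PT.nd (nat_lit 624) (PT.nd (nat_lit 312) (PT.nd (nat_lit 156) (PT.nd (nat_lit 78) (PT.lf (nat_lit 25536) (nat_lit 6) (nat_lit 336) (nat_lit 4) (nat_lit 185) (nat_lit 212) (nat_lit 203)) (PT.lf (nat_lit 26600) (nat_lit 6) (nat_lit 350) (nat_lit 4) (nat_lit 186) (nat_lit 212) (nat_lit 202))) (PT.nd (nat_lit 78) (PT.lf (nat_lit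 27588) (nat_lit 6) (nat_lit 363) (nat_lit 4) (nat_lit 187) (nat_lit 212) (nat_lit 201)) (PT.lf (nat_lit 28500) (nat_lit 6) (nat_lit 375) (nat_lit 4) (nat_lit 188) (nat_lit 212) (nat_lit 200)))) (PT.nd (nat_lit 156) (PT.nd (nat_lit 78) (PT.lf (nat_lit 28424) (nat_lit 6) (nat_lit 374) (nat_lit 4) (nat_lit 189) (nat_lit 212) (nat_lit 199)) (PT.lf (nat_lit 28348) (nat_lit 6) (nat_lit 373) (nat_lit 4) (nat_lit 190) (nat_lit 212) (nat_lit 198))) (PT.nd (nat_lit 78) (PT.lf (nat_lit 28272) (nat_lit 6) (nat_lit 372) (nat_lit 4) (nat_lit 191) (nat_lit 212) (nat_lit 197)) (PT.lf (nat_lit 28196) (nat_lit 6) (nat_lit 371) (nat_lit 4) (nat_lit 192) (nat_lit 212) (nat_lit 196))))) (PT.nd (nat_lit 312) (PT.nd (nat_lit 156) (PT.nd (nat_lit 78) (PT.lf (nat_lit 28120) (nat_lit 6) (nat_lit 370) (nat_lit 4) (nat_lit 193) (nat_lit 212) (nat_lit 195)) (PT.lf (nat_lit 28044) (nat_lit 3) (nat_lit 369) (nat_lit 2) (nat_lit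 194) (nat_lit 212) (nat_lit 194))) (PT.nd (nat_lit 78) (PT.lf (nat_lit 28120) (nat_lit 6) (nat_lit 370) (nat_lit 2) (nat_lit 195) (nat_lit 212) (nat_lit 193)) (PT.lf (nat_lit 28196) (nat_lit 6) (nat_lit 371) (nat_lit 2) (nat_lit 196) (nat_lit 212) (nat_lit 192)))) (PT.nd (nat_lit 156) (PT.nd (nat_lit 78) (PT.lf (nat_lit 28272) (nat_lit 6) (nat_lit 372) (nat_lit 2) (nat_lit 197) (nat_lit 212) (nat_lit 191)) (PT.lf (nat_lit 28348) (nat_lit 6) (nat_lit 373) (nat_lit 2) (nat_lit 198) (nat_lit 212) (nat_lit 190))) (PT.nd (nat_lit 78) (PT.lf (nat_lit 28424) (nat_lit 6) (nat_lit 374) (nat_lit 2) (nat_lit 199) (nat_lit 212) (nat_lit 189)) (PT.nd (nat_lit 78) (PT.lf (nat_lit 28500) (nat_lit 6) (nat_lit 375) (nat_lit 2) (nat_lit 200) (nat_lit 212) (nat_lit 188)) (PT.lf (nat_lit 27588) (nat_lit 6) (nat_lit 363) (nat_lit 2) (nat_lit 201) (nat_lit 212) (nat_lit 187))))))))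
noncomputable def pc42 : PT := (PT.nd (nat_lit 1248) (PT.nd (nat_lit 624) (PT.nd (nat_lit 312) (PT.nd (nat_lit 156) (PT.nd (nat_lit 78) (PT.lf (nat_lit 26600) (nat_lit 6) (nat_lit 350) (nat_lit 2) (nat_lit 202) (nat_lit 212) (nat_lit 186)) (PT.lf (nat_lit 25536) (nat_lit 6) (nat_lit 336) (nat_lit 2) (nat_lit 203) (nat_lit 212) (nat_lit 185))) (PT.nd (nat_lit 78) (PT.lf (nat_lit 24396) (nat_lit 6) (nat_lit 321) (nat_lit 2) (nat_lit 204) (nat_lit 212) (nat_lit 184)) (PT.lf (nat_lit 23180) (nat_lit 6) (nat_lit 305) (nat_lit 2) (nat_lit 205) (nat_lit 212) (nat_lit 183)))) (PT.nd (nat_lit 156) (PT.nd (nat_lit 78) (PT.lf (nat_lit 22344) (nat_lit 6) (nat_lit 294) (nat_lit 2) (nat_lit 206) (nat_lit 212) (nat_lit 182)) (PT.lf (nat_lit 21736) (nat_lit 6) (nat_lit 286) (nat_lit 2) (nat_lit 207) (nat_lit 212) (nat_lit 181))) (PT.nd (nat_lit 78) (PT.lf (nat_lit 21128) (nat_lit 6) (nat_lit 278) (nat_lit 2) (nat_lit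 208) (nat_lit 212) (nat_lit 180)) (PT.lf (nat_lit 20596) (nat_lit 6) (nat_lit 271) (nat_lit 2) (nat_lit 209) (nat_lit 212) (nat_lit 179))))) (PT.nd (nat_lit 312) (PT.nd (nat_lit 156) (PT.nd (nat_lit 78) (PT.lf (nat_lit 19988) (nat_lit 6) (nat_lit 263) (nat_lit 2) (nat_lit 210) (nat_lit 212) (nat_lit 178)) (PT.lf (nat_lit 19456) (nat_lit 6) (nat_lit 256) (nat_lit 2) (nat_lit 211) (nat_lit 212) (nat_lit 177))) (PT.nd (nat_lit 78) (PT.lf (nat_lit 18924) (nat_lit 3) (nat_lit 249) (nat_lit 0) (nat_lit 212) (nat_lit 212) (nat_lit 176)) (PT.lf (nat_lit 18392) (nat_lit 6) (nat_lit 242) (nat_lit 0) (nat_lit 213) (nat_lit 212) (nat_lit 175)))) (PT.nd (nat_lit 156) (PT.nd (nat_lit 78) (PT.lf (nat_lit 17860) (nat_lit 6) (nat_lit 235) (nat_lit 0) (nat_lit 214) (nat_lit 212) (nat_lit 174)) (PT.lf (nat_lit 17328) (nat_lit 6) (nat_lit 228) (nat_lit 0) (nat_lit 215) (nat_lit 212) (nat_lit 173))) (PT.nd (nat_lit 78)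 (PT.lf (nat_lit 16796) (nat_lit 6) (nat_lit 221) (nat_lit 0) (nat_lit 216) (nat_lit 212) (nat_lit 172)) (PT.lf (nat_lit 16340) (nat_lit 6) (nat_lit 215) (nat_lit 0) (nat_lit 217) (nat_lit 212) (nat_lit 171)))))) (PT.nd (nat_lit 58734) (PT.nd (nat_lit 58422) (PT.nd (nat_lit 156) (PT.nd (nat_lit 78) (PT.lf (nat_lit 15808) (nat_lit 6) (nat_lit 208) (nat_lit 0) (nat_lit 218) (nat_lit 212) (nat_lit 170)) (PT.lf (nat_lit 15352) (nat_lit 6) (nat_lit 202) (nat_lit 0) (nat_lit 219) (nat_lit 212) (nat_lit 169))) (PT.nd (nat_lit 78) (PT.lf (nat_lit 14896) (nat_lit 6) (nat_lit 196) (nat_lit 0) (nat_lit 220) (nat_lit 212) (nat_lit 168)) (PT.lf (nat_lit 14516) (nat_lit 6) (nat_lit 191) (nat_lit 0) (nat_lit 221) (nat_lit 212) (nat_lit 167)))) (PT.nd (nat_lit 156) (PT.nd (nat_lit 78) (PT.lf (nat_lit 14136) (nat_lit 6) (nat_lit 186) (nat_lit 5) (nat_lit 166) (nat_lit 213) (nat_lit 221)) (PT.lf (nat_lit 14592) (nat_lit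 6) (nat_lit 192) (nat_lit 5) (nat_lit 167) (nat_lit 213) (nat_lit 220))) (PT.nd (nat_lit 78) (PT.lf (nat_lit 14972) (nat_lit 6) (nat_lit 197) (nat_lit 5) (nat_lit 168) (nat_lit 213) (nat_lit 219)) (PT.lf (nat_lit 15428) (nat_lit 6) (nat_lit 203) (nat_lit 5) (nat_lit 169) (nat_lit 213) (nat_lit 218))))) (PT.nd (nat_lit 312) (PT.nd (nat_lit 156) (PT.nd (nat_lit 78) (PT.lf (nat_lit 15884) (nat_lit 6) (nat_lit 209) (nat_lit 5) (nat_lit 170) (nat_lit 213) (nat_lit 217)) (PT.lf (nat_lit 16416) (nat_lit 6) (nat_lit 216) (nat_lit 5) (nat_lit 171) (nat_lit 213) (nat_lit 216))) (PT.nd (nat_lit 78) (PT.lf (nat_lit 16872) (nat_lit 6) (nat_lit 222) (nat_lit 5) (nat_lit 172) (nat_lit 213) (nat_lit 215)) (PT.lf (nat_lit 17404) (nat_lit 6) (nat_lit 229) (nat_lit 5) (nat_lit 173) (nat_lit 213) (nat_lit 214)))) (PT.nd (nat_lit 156) (PT.nd (nat_lit 78) (PT.lf (nat_lit 17936) (nat_lit 3) (nat_lit 236) (nat_lit 4) (nat_lit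 174) (nat_lit 213) (nat_lit 213)) (PT.lf (nat_lit 18392) (nat_lit 6) (nat_lit 242) (nat_lit 4) (nat_lit 175) (nat_lit 213) (nat_lit 212))) (PT.nd (nat_lit 78) (PT.lf (nat_lit 18848) (nat_lit 6) (nat_lit 248) (nat_lit 4) (nat_lit 176) (nat_lit 213) (nat_lit 211)) (PT.nd (nat_lit 78) (PT.lf (nat_lit 19380) (nat_lit 6) (nat_lit 255) (nat_lit 4) (nat_lit 177) (nat_lit 213) (nat_lit 210)) (PT.lf (nat_lit 19912) (nat_lit 6) (nat_lit 262) (nat_lit 4) (nat_lit 178) (nat_lit 213) (nat_lit 209))))))))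
noncomputable def pc43 : PT := (PT.nd (nat_lit 1248) (PT.nd (nat_lit 624) (PT.nd (nat_lit 312) (PT.nd (nat_lit 156) (PT.nd (nat_lit 78) (PT.lf (nat_lit 20520) (nat_lit 6) (nat_lit 270) (nat_lit 4) (nat_lit 179) (nat_lit 213) (nat_lit 208)) (PT.lf (nat_lit 21052) (nat_lit 6) (nat_lit 277) (nat_lit 4) (nat_lit 180) (nat_lit 213) (nat_lit 207))) (PT.nd (nat_lit 78) (PT.lf (nat_lit 21660) (nat_lit 6) (nat_lit 285) (nat_lit 4) (nat_lit 181) (nat_lit 213) (nat_lit 206)) (PT.lf (nat_lit 22268) (nat_lit 6) (nat_lit 293) (nat_lit 4) (nat_lit 182) (nat_lit 213) (nat_lit 205)))) (PT.nd (nat_lit 156) (PT.nd (nat_lit 78) (PT.lf (nat_lit 23104) (nat_lit 6) (nat_lit 304) (nat_lit 4) (nat_lit 183) (nat_lit 213) (nat_lit 204)) (PT.lf (nat_lit 24320) (nat_lit 6) (nat_lit 320) (nat_lit 4) (nat_lit 184) (nat_lit 213) (nat_lit 203))) (PT.nd (nat_lit 78) (PT.lf (nat_lit 25460) (nat_lit 6) (nat_lit 335) (nat_lit 4) (nat_lit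 185) (nat_lit 213) (nat_lit 202)) (PT.lf (nat_lit 26524) (nat_lit 6) (nat_lit 349) (nat_lit 4) (nat_lit 186) (nat_lit 213) (nat_lit 201))))) (PT.nd (nat_lit 312) (PT.nd (nat_lit 156) (PT.nd (nat_lit 78) (PT.lf (nat_lit 27512) (nat_lit 6) (nat_lit 362) (nat_lit 4) (nat_lit 187) (nat_lit 213) (nat_lit 200)) (PT.lf (nat_lit 27436) (nat_lit 6) (nat_lit 361) (nat_lit 4) (nat_lit 188) (nat_lit 213) (nat_lit 199))) (PT.nd (nat_lit 78) (PT.lf (nat_lit 27360) (nat_lit 6) (nat_lit 360) (nat_lit 4) (nat_lit 189) (nat_lit 213) (nat_lit 198)) (PT.lf (nat_lit 27284) (nat_lit 6) (nat_lit 359) (nat_lit 4) (nat_lit 190) (nat_lit 213) (nat_lit 197)))) (PT.nd (nat_lit 156) (PT.nd (nat_lit 78) (PT.lf (nat_lit 27208) (nat_lit 6) (nat_lit 358) (nat_lit 4) (nat_lit 191) (nat_lit 213) (nat_lit 196)) (PT.lf (nat_lit 27132) (nat_lit 6) (nat_lit 357) (nat_lit 4) (nat_lit 192) (nat_lit 213) (nat_lit 195))) (PT.nd (nat_lit 78)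 (PT.lf (nat_lit 27056) (nat_lit 6) (nat_lit 356) (nat_lit 4) (nat_lit 193) (nat_lit 213) (nat_lit 194)) (PT.lf (nat_lit 27056) (nat_lit 6) (nat_lit 356) (nat_lit 2) (nat_lit 194) (nat_lit 213) (nat_lit 193)))))) (PT.nd (nat_lit 624) (PT.nd (nat_lit 312) (PT.nd (nat_lit 156) (PT.nd (nat_lit 78) (PT.lf (nat_lit 27132) (nat_lit 6) (nat_lit 357) (nat_lit 2) (nat_lit 195) (nat_lit 213) (nat_lit 192)) (PT.lf (nat_lit 27208) (nat_lit 6) (nat_lit 358) (nat_lit 2) (nat_lit 196) (nat_lit 213) (nat_lit 191))) (PT.nd (nat_lit 78) (PT.lf (nat_lit 27284) (nat_lit 6) (nat_lit 359) (nat_lit 2) (nat_lit 197) (nat_lit 213) (nat_lit 190)) (PT.lf (nat_lit 27360) (nat_lit 6) (nat_lit 360) (nat_lit 2) (nat_lit 198) (nat_lit 213) (nat_lit 189)))) (PT.nd (nat_lit 156) (PT.nd (nat_lit 78) (PT.lf (nat_lit 27436) (nat_lit 6) (nat_lit 361) (nat_lit 2) (nat_lit 199) (nat_lit 213) (nat_lit 188)) (PT.lf (nat_lit 27512) (nat_lit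 6) (nat_lit 362) (nat_lit 2) (nat_lit 200) (nat_lit 213) (nat_lit 187))) (PT.nd (nat_lit 78) (PT.lf (nat_lit 26524) (nat_lit 6) (nat_lit 349) (nat_lit 2) (nat_lit 201) (nat_lit 213) (nat_lit 186)) (PT.lf (nat_lit 25460) (nat_lit 6) (nat_lit 335) (nat_lit 2) (nat_lit 202) (nat_lit 213) (nat_lit 185))))) (PT.nd (nat_lit 312) (PT.nd (nat_lit 156) (PT.nd (nat_lit 78) (PT.lf (nat_lit 24320) (nat_lit 6) (nat_lit 320) (nat_lit 2) (nat_lit 203) (nat_lit 213) (nat_lit 184)) (PT.lf (nat_lit 23104) (nat_lit 6) (nat_lit 304) (nat_lit 2) (nat_lit 204) (nat_lit 213) (nat_lit 183))) (PT.nd (nat_lit 78) (PT.lf (nat_lit 22268) (nat_lit 6) (nat_lit 293) (nat_lit 2) (nat_lit 205) (nat_lit 213) (nat_lit 182)) (PT.lf (nat_lit 21660) (nat_lit 6) (nat_lit 285) (nat_lit 2) (nat_lit 206) (nat_lit 213) (nat_lit 181)))) (PT.nd (nat_lit 156) (PT.nd (nat_lit 78) (PT.lf (nat_lit 21052) (nat_lit 6) (nat_lit 277) (nat_lit 2) (nat_lit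 207) (nat_lit 213) (nat_lit 180)) (PT.lf (nat_lit 20520) (nat_lit 6) (nat_lit 270) (nat_lit 2) (nat_lit 208) (nat_lit 213) (nat_lit 179))) (PT.nd (nat_lit 78) (PT.lf (nat_lit 19912) (nat_lit 6) (nat_lit 262) (nat_lit 2) (nat_lit 209) (nat_lit 213) (nat_lit 178)) (PT.nd (nat_lit 78) (PT.lf (nat_lit 19380) (nat_lit 6) (nat_lit 255) (nat_lit 2) (nat_lit 210) (nat_lit 213) (nat_lit 177)) (PT.lf (nat_lit 18848) (nat_lit 6) (nat_lit 248) (nat_lit 2) (nat_lit 211) (nat_lit 213) (nat_lit 176))))))))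
noncomputable def pc44 : PT := (PT.nd (nat_lit 59202) (PT.nd (nat_lit 624) (PT.nd (nat_lit 312) (PT.nd (nat_lit 156) (PT.nd (nat_lit 78) (PT.lf (nat_lit 18392) (nat_lit 6) (nat_lit 242) (nat_lit 2) (nat_lit 212) (nat_lit 213) (nat_lit 175)) (PT.lf (nat_lit 17936) (nat_lit 3) (nat_lit 236) (nat_lit 0) (nat_lit 213) (nat_lit 213) (nat_lit 174))) (PT.nd (nat_lit 78) (PT.lf (nat_lit 17404) (nat_lit 6) (nat_lit 229) (nat_lit 0) (nat_lit 214) (nat_lit 213) (nat_lit 173)) (PT.lf (nat_lit 16872) (nat_lit 6) (nat_lit 222) (nat_lit 0) (nat_lit 215) (nat_lit 213) (nat_lit 172)))) (PT.nd (nat_lit 156) (PT.nd (nat_lit 78) (PT.lf (nat_lit 16416) (nat_lit 6) (nat_lit 216) (nat_lit 0) (nat_lit 216) (nat_lit 213) (nat_lit 171)) (PT.lf (nat_lit 15884) (nat_lit 6) (nat_lit 209) (nat_lit 0) (nat_lit 217) (nat_lit 213) (nat_lit 170))) (PT.nd (nat_lit 78) (PT.lf (nat_lit 15428) (nat_lit 6) (nat_lit 203) (nat_lit 0) (nat_lit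 218) (nat_lit 213) (nat_lit 169)) (PT.lf (nat_lit 14972) (nat_lit 6) (nat_lit 197) (nat_lit 0) (nat_lit 219) (nat_lit 213) (nat_lit 168))))) (PT.nd (nat_lit 58266) (PT.nd (nat_lit 58110) (PT.nd (nat_lit 78) (PT.lf (nat_lit 14592) (nat_lit 6) (nat_lit 192) (nat_lit 0) (nat_lit 220) (nat_lit 213) (nat_lit 167)) (PT.lf (nat_lit 14136) (nat_lit 6) (nat_lit 186) (nat_lit 0) (nat_lit 221) (nat_lit 213) (nat_lit 166))) (PT.nd (nat_lit 78) (PT.lf (nat_lit 13452) (nat_lit 6) (nat_lit 177) (nat_lit 5) (nat_lit 164) (nat_lit 214) (nat_lit 222)) (PT.lf (nat_lit 13832) (nat_lit 6) (nat_lit 182) (nat_lit 5) (nat_lit 165) (nat_lit 214) (nat_lit 221)))) (PT.nd (nat_lit 156) (PT.nd (nat_lit 78) (PT.lf (nat_lit 14212) (nat_lit 6) (nat_lit 187) (nat_lit 5) (nat_lit 166) (nat_lit 214) (nat_lit 220)) (PT.lf (nat_lit 14668) (nat_lit 6) (nat_lit 193) (nat_lit 5) (nat_lit 167) (nat_lit 214) (nat_lit 219))) (PT.nd (nat_lit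 78) (PT.lf (nat_lit 15048) (nat_lit 6) (nat_lit 198) (nat_lit 5) (nat_lit 168) (nat_lit 214) (nat_lit 218)) (PT.lf (nat_lit 15504) (nat_lit 6) (nat_lit 204) (nat_lit 5) (nat_lit 169) (nat_lit 214) (nat_lit 217)))))) (PT.nd (nat_lit 624) (PT.nd (nat_lit 312) (PT.nd (nat_lit 156) (PT.nd (nat_lit 78) (PT.lf (nat_lit 15960) (nat_lit 6) (nat_lit 210) (nat_lit 5) (nat_lit 170) (nat_lit 214) (nat_lit 216)) (PT.lf (nat_lit 16492) (nat_lit 6) (nat_lit 217) (nat_lit 5) (nat_lit 171) (nat_lit 214) (nat_lit 215))) (PT.nd (nat_lit 78) (PT.lf (nat_lit 16948) (nat_lit 3) (nat_lit 223) (nat_lit 4) (nat_lit 172) (nat_lit 214) (nat_lit 214)) (PT.lf (nat_lit 17404) (nat_lit 6) (nat_lit 229) (nat_lit 4) (nat_lit 173) (nat_lit 214) (nat_lit 213)))) (PT.nd (nat_lit 156) (PT.nd (nat_lit 78) (PT.lf (nat_lit 17860) (nat_lit 6) (nat_lit 235) (nat_lit 4) (nat_lit 174) (nat_lit 214) (nat_lit 212)) (PT.lf (nat_lit 18316) (nat_lit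 6) (nat_lit 241) (nat_lit 4) (nat_lit 175) (nat_lit 214) (nat_lit 211))) (PT.nd (nat_lit 78) (PT.lf (nat_lit 18772) (nat_lit 6) (nat_lit 247) (nat_lit 4) (nat_lit 176) (nat_lit 214) (nat_lit 210)) (PT.lf (nat_lit 19304) (nat_lit 6) (nat_lit 254) (nat_lit 4) (nat_lit 177) (nat_lit 214) (nat_lit 209))))) (PT.nd (nat_lit 312) (PT.nd (nat_lit 156) (PT.nd (nat_lit 78) (PT.lf (nat_lit 19836) (nat_lit 6) (nat_lit 261) (nat_lit 4) (nat_lit 178) (nat_lit 214) (nat_lit 208)) (PT.lf (nat_lit 20444) (nat_lit 6) (nat_lit 269) (nat_lit 4) (nat_lit 179) (nat_lit 214) (nat_lit 207))) (PT.nd (nat_lit 78) (PT.lf (nat_lit 20976) (nat_lit 6) (nat_lit 276) (nat_lit 4) (nat_lit 180) (nat_lit 214) (nat_lit 206)) (PT.lf (nat_lit 21584) (nat_lit 6) (nat_lit 284) (nat_lit 4) (nat_lit 181) (nat_lit 214) (nat_lit 205)))) (PT.nd (nat_lit 156) (PT.nd (nat_lit 78) (PT.lf (nat_lit 22192) (nat_lit 6) (nat_lit 292) (nat_lit 4) (nat_lit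 182) (nat_lit 214) (nat_lit 204)) (PT.lf (nat_lit 23028) (nat_lit 6) (nat_lit 303) (nat_lit 4) (nat_lit 183) (nat_lit 214) (nat_lit 203))) (PT.nd (nat_lit 78) (PT.lf (nat_lit 24244) (nat_lit 6) (nat_lit 319) (nat_lit 4) (nat_lit 184) (nat_lit 214) (nat_lit 202)) (PT.nd (nat_lit 78) (PT.lf (nat_lit 25384) (nat_lit 6) (nat_lit 334) (nat_lit 4) (nat_lit 185) (nat_lit 214) (nat_lit 201)) (PT.lf (nat_lit 26448) (nat_lit 6) (nat_lit 348) (nat_lit 4) (nat_lit 186) (nat_lit 214) (nat_lit 200))))))))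
noncomputable def pc45 : PT := (PT.nd (nat_lit 1248) (PT.nd (nat_lit 624) (PT.nd (nat_lit 312) (PT.nd (nat_lit 156) (PT.nd (nat_lit 78) (PT.lf (nat_lit 26372) (nat_lit 6) (nat_lit 347) (nat_lit 4) (nat_lit 187) (nat_lit 214) (nat_lit 199)) (PT.lf (nat_lit 26296) (nat_lit 6) (nat_lit 346) (nat_lit 4) (nat_lit 188) (nat_lit 214) (nat_lit 198))) (PT.nd (nat_lit 78) (PT.lf (nat_lit 26220) (nat_lit 6) (nat_lit 345) (nat_lit 4) (nat_lit 189) (nat_lit 214) (nat_lit 197)) (PT.lf (nat_lit 26144) (nat_lit 6) (nat_lit 344) (nat_lit 4) (nat_lit 190) (nat_lit 214) (nat_lit 196)))) (PT.nd (nat_lit 156) (PT.nd (nat_lit 78) (PT.lf (nat_lit 26068) (nat_lit 6) (nat_lit 343) (nat_lit 4) (nat_lit 191) (nat_lit 214) (nat_lit 195)) (PT.lf (nat_lit 25992) (nat_lit 6) (nat_lit 342) (nat_lit 4) (nat_lit 192) (nat_lit 214) (nat_lit 194))) (PT.nd (nat_lit 78) (PT.lf (nat_lit 25916) (nat_lit 3) (nat_lit 341) (nat_lit 2) (nat_lit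 193) (nat_lit 214) (nat_lit 193)) (PT.lf (nat_lit 25992) (nat_lit 6) (nat_lit 342) (nat_lit 2) (nat_lit 194) (nat_lit 214) (nat_lit 192))))) (PT.nd (nat_lit 312) (PT.nd (nat_lit 156) (PT.nd (nat_lit 78) (PT.lf (nat_lit 26068) (nat_lit 6) (nat_lit 343) (nat_lit 2) (nat_lit 195) (nat_lit 214) (nat_lit 191)) (PT.lf (nat_lit 26144) (nat_lit 6) (nat_lit 344) (nat_lit 2) (nat_lit 196) (nat_lit 214) (nat_lit 190))) (PT.nd (nat_lit 78) (PT.lf (nat_lit 26220) (nat_lit 6) (nat_lit 345) (nat_lit 2) (nat_lit 197) (nat_lit 214) (nat_lit 189)) (PT.lf (nat_lit 26296) (nat_lit 6) (nat_lit 346) (nat_lit 2) (nat_lit 198) (nat_lit 214) (nat_lit 188)))) (PT.nd (nat_lit 156) (PT.nd (nat_lit 78) (PT.lf (nat_lit 26372) (nat_lit 6) (nat_lit 347) (nat_lit 2) (nat_lit 199) (nat_lit 214) (nat_lit 187)) (PT.lf (nat_lit 26448) (nat_lit 6) (nat_lit 348) (nat_lit 2) (nat_lit 200) (nat_lit 214) (nat_lit 186))) (PT.nd (nat_lit 78)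 (PT.lf (nat_lit 25384) (nat_lit 6) (nat_lit 334) (nat_lit 2) (nat_lit 201) (nat_lit 214) (nat_lit 185)) (PT.lf (nat_lit 24244) (nat_lit 6) (nat_lit 319) (nat_lit 2) (nat_lit 202) (nat_lit 214) (nat_lit 184)))))) (PT.nd (nat_lit 624) (PT.nd (nat_lit 312) (PT.nd (nat_lit 156) (PT.nd (nat_lit 78) (PT.lf (nat_lit 23028) (nat_lit 6) (nat_lit 303) (nat_lit 2) (nat_lit 203) (nat_lit 214) (nat_lit 183)) (PT.lf (nat_lit 22192) (nat_lit 6) (nat_lit 292) (nat_lit 2) (nat_lit 204) (nat_lit 214) (nat_lit 182))) (PT.nd (nat_lit 78) (PT.lf (nat_lit 21584) (nat_lit 6) (nat_lit 284) (nat_lit 2) (nat_lit 205) (nat_lit 214) (nat_lit 181)) (PT.lf (nat_lit 20976) (nat_lit 6) (nat_lit 276) (nat_lit 2) (nat_lit 206) (nat_lit 214) (nat_lit 180)))) (PT.nd (nat_lit 156) (PT.nd (nat_lit 78) (PT.lf (nat_lit 20444) (nat_lit 6) (nat_lit 269) (nat_lit 2) (nat_lit 207) (nat_lit 214) (nat_lit 179)) (PT.lf (nat_lit 19836) (nat_lit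 6) (nat_lit 261) (nat_lit 2) (nat_lit 208) (nat_lit 214) (nat_lit 178))) (PT.nd (nat_lit 78) (PT.lf (nat_lit 19304) (nat_lit 6) (nat_lit 254) (nat_lit 2) (nat_lit 209) (nat_lit 214) (nat_lit 177)) (PT.lf (nat_lit 18772) (nat_lit 6) (nat_lit 247) (nat_lit 2) (nat_lit 210) (nat_lit 214) (nat_lit 176))))) (PT.nd (nat_lit 312) (PT.nd (nat_lit 156) (PT.nd (nat_lit 78) (PT.lf (nat_lit 18316) (nat_lit 6) (nat_lit 241) (nat_lit 2) (nat_lit 211) (nat_lit 214) (nat_lit 175)) (PT.lf (nat_lit 17860) (nat_lit 6) (nat_lit 235) (nat_lit 2) (nat_lit 212) (nat_lit 214) (nat_lit 174))) (PT.nd (nat_lit 78) (PT.lf (nat_lit 17404) (nat_lit 6) (nat_lit 229) (nat_lit 2) (nat_lit 213) (nat_lit 214) (nat_lit 173)) (PT.lf (nat_lit 16948) (nat_lit 3) (nat_lit 223) (nat_lit 0) (nat_lit 214) (nat_lit 214) (nat_lit 172)))) (PT.nd (nat_lit 156) (PT.nd (nat_lit 78) (PT.lf (nat_lit 16492) (nat_lit 6) (nat_lit 217) (nat_lit 0) (nat_lit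 215) (nat_lit 214) (nat_lit 171)) (PT.lf (nat_lit 15960) (nat_lit 6) (nat_lit 210) (nat_lit 0) (nat_lit 216) (nat_lit 214) (nat_lit 170))) (PT.nd (nat_lit 78) (PT.lf (nat_lit 15504) (nat_lit 6) (nat_lit 204) (nat_lit 0) (nat_lit 217) (nat_lit 214) (nat_lit 169)) (PT.nd (nat_lit 78) (PT.lf (nat_lit 15048) (nat_lit 6) (nat_lit 198) (nat_lit 0) (nat_lit 218) (nat_lit 214) (nat_lit 168)) (PT.lf (nat_lit 14668) (nat_lit 6) (nat_lit 193) (nat_lit 0) (nat_lit 219) (nat_lit 214) (nat_lit 167))))))))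
noncomputable def pc46 : PT := (PT.nd (nat_lit 59046) (PT.nd (nat_lit 58422) (PT.nd (nat_lit 58110) (PT.nd (nat_lit 156) (PT.nd (nat_lit 78) (PT.lf (nat_lit 14212) (nat_lit 6) (nat_lit 187) (nat_lit 0) (nat_lit 220) (nat_lit 214) (nat_lit 166)) (PT.lf (nat_lit 13832) (nat_lit 6) (nat_lit 182) (nat_lit 0) (nat_lit 221) (nat_lit 214) (nat_lit 165))) (PT.nd (nat_lit 57876) (PT.lf (nat_lit 13452) (nat_lit 6) (nat_lit 177) (nat_lit 0) (nat_lit 222) (nat_lit 214) (nat_lit 164)) (PT.lf (nat_lit 13148) (nat_lit 6) (nat_lit 173) (nat_lit 5) (nat_lit 163) (nat_lit 215) (nat_lit 222)))) (PT.nd (nat_lit 156) (PT.nd (nat_lit 78) (PT.lf (nat_lit 13528) (nat_lit 6) (nat_lit 178) (nat_lit 5) (nat_lit 164) (nat_lit 215) (nat_lit 221)) (PT.lf (nat_lit 13908) (nat_lit 6) (nat_lit 183) (nat_lit 5) (nat_lit 165) (nat_lit 215) (nat_lit 220))) (PT.nd (nat_lit 78) (PT.lf (nat_lit 14288) (nat_lit 6) (nat_lit 188) (nat_lit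 5) (nat_lit 166) (nat_lit 215) (nat_lit 219)) (PT.lf (nat_lit 14744) (nat_lit 6) (nat_lit 194) (nat_lit 5) (nat_lit 167) (nat_lit 215) (nat_lit 218))))) (PT.nd (nat_lit 312) (PT.nd (nat_lit 156) (PT.nd (nat_lit 78) (PT.lf (nat_lit 15124) (nat_lit 6) (nat_lit 199) (nat_lit 5) (nat_lit 168) (nat_lit 215) (nat_lit 217)) (PT.lf (nat_lit 15580) (nat_lit 6) (nat_lit 205) (nat_lit 5) (nat_lit 169) (nat_lit 215) (nat_lit 216))) (PT.nd (nat_lit 78) (PT.lf (nat_lit 16036) (nat_lit 3) (nat_lit 211) (nat_lit 4) (nat_lit 170) (nat_lit 215) (nat_lit 215)) (PT.lf (nat_lit 16492) (nat_lit 6) (nat_lit 217) (nat_lit 4) (nat_lit 171) (nat_lit 215) (nat_lit 214)))) (PT.nd (nat_lit 156) (PT.nd (nat_lit 78) (PT.lf (nat_lit 16872) (nat_lit 6) (nat_lit 222) (nat_lit 4) (nat_lit 172) (nat_lit 215) (nat_lit 213)) (PT.lf (nat_lit 17328) (nat_lit 6) (nat_lit 228) (nat_lit 4) (nat_lit 173) (nat_lit 215) (nat_lit 212))) (PT.nd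 (nat_lit 78) (PT.lf (nat_lit 17784) (nat_lit 6) (nat_lit 234) (nat_lit 4) (nat_lit 174) (nat_lit 215) (nat_lit 211)) (PT.lf (nat_lit 18240) (nat_lit 6) (nat_lit 240) (nat_lit 4) (nat_lit 175) (nat_lit 215) (nat_lit 210)))))) (PT.nd (nat_lit 624) (PT.nd (nat_lit 312) (PT.nd (nat_lit 156) (PT.nd (nat_lit 78) (PT.lf (nat_lit 18696) (nat_lit 6) (nat_lit 246) (nat_lit 4) (nat_lit 176) (nat_lit 215) (nat_lit 209)) (PT.lf (nat_lit 19228) (nat_lit 6) (nat_lit 253) (nat_lit 4) (nat_lit 177) (nat_lit 215) (nat_lit 208))) (PT.nd (nat_lit 78) (PT.lf (nat_lit 19760) (nat_lit 6) (nat_lit 260) (nat_lit 4) (nat_lit 178) (nat_lit 215) (nat_lit 207)) (PT.lf (nat_lit 20368) (nat_lit 6) (nat_lit 268) (nat_lit 4) (nat_lit 179) (nat_lit 215) (nat_lit 206)))) (PT.nd (nat_lit 156) (PT.nd (nat_lit 78) (PT.lf (nat_lit 20900) (nat_lit 6) (nat_lit 275) (nat_lit 4) (nat_lit 180) (nat_lit 215) (nat_lit 205)) (PT.lf (nat_lit 21508)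 (nat_lit 6) (nat_lit 283) (nat_lit 4) (nat_lit 181) (nat_lit 215) (nat_lit 204))) (PT.nd (nat_lit 78) (PT.lf (nat_lit 22116) (nat_lit 6) (nat_lit 291) (nat_lit 4) (nat_lit 182) (nat_lit 215) (nat_lit 203)) (PT.lf (nat_lit 22952) (nat_lit 6) (nat_lit 302) (nat_lit 4) (nat_lit 183) (nat_lit 215) (nat_lit 202))))) (PT.nd (nat_lit 312) (PT.nd (nat_lit 156) (PT.nd (nat_lit 78) (PT.lf (nat_lit 24168) (nat_lit 6) (nat_lit 318) (nat_lit 4) (nat_lit 184) (nat_lit 215) (nat_lit 201)) (PT.lf (nat_lit 25308) (nat_lit 6) (nat_lit 333) (nat_lit 4) (nat_lit 185) (nat_lit 215) (nat_lit 200))) (PT.nd (nat_lit 78) (PT.lf (nat_lit 25232) (nat_lit 6) (nat_lit 332) (nat_lit 4) (nat_lit 186) (nat_lit 215) (nat_lit 199)) (PT.lf (nat_lit 25156) (nat_lit 6) (nat_lit 331) (nat_lit 4) (nat_lit 187) (nat_lit 215) (nat_lit 198)))) (PT.nd (nat_lit 156) (PT.nd (nat_lit 78) (PT.lf (nat_lit 25080) (nat_lit 6) (nat_lit 330) (nat_lit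 4) (nat_lit 188) (nat_lit 215) (nat_lit 197)) (PT.lf (nat_lit 25004) (nat_lit 6) (nat_lit 329) (nat_lit 4) (nat_lit 189) (nat_lit 215) (nat_lit 196))) (PT.nd (nat_lit 78) (PT.lf (nat_lit 24928) (nat_lit 6) (nat_lit 328) (nat_lit 4) (nat_lit 190) (nat_lit 215) (nat_lit 195)) (PT.nd (nat_lit 78) (PT.lf (nat_lit 24852) (nat_lit 6) (nat_lit 327) (nat_lit 4) (nat_lit 191) (nat_lit 215) (nat_lit 194)) (PT.lf (nat_lit 24776) (nat_lit 6) (nat_lit 326) (nat_lit 4) (nat_lit 192) (nat_lit 215) (nat_lit 193))))))))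
noncomputable def pc47 : PT := (PT.nd (nat_lit 1248) (PT.nd (nat_lit 624) (PT.nd (nat_lit 312) (PT.nd (nat_lit 156) (PT.nd (nat_lit 78) (PT.lf (nat_lit 24776) (nat_lit 6) (nat_lit 326) (nat_lit 2) (nat_lit 193) (nat_lit 215) (nat_lit 192)) (PT.lf (nat_lit 24852) (nat_lit 6) (nat_lit 327) (nat_lit 2) (nat_lit 194) (nat_lit 215) (nat_lit 191))) (PT.nd (nat_lit 78) (PT.lf (nat_lit 24928) (nat_lit 6) (nat_lit 328) (nat_lit 2) (nat_lit 195) (nat_lit 215) (nat_lit 190)) (PT.lf (nat_lit 25004) (nat_lit 6) (nat_lit 329) (nat_lit 2) (nat_lit 196) (nat_lit 215) (nat_lit 189)))) (PT.nd (nat_lit 156) (PT.nd (nat_lit 78) (PT.lf (nat_lit 25080) (nat_lit 6) (nat_lit 330) (nat_lit 2) (nat_lit 197) (nat_lit 215) (nat_lit 188)) (PT.lf (nat_lit 25156) (nat_lit 6) (nat_lit 331) (nat_lit 2) (nat_lit 198) (nat_lit 215) (nat_lit 187))) (PT.nd (nat_lit 78) (PT.lf (nat_lit 25232) (nat_lit 6) (nat_lit 332) (nat_lit 2) (nat_lit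 199) (nat_lit 215) (nat_lit 186)) (PT.lf (nat_lit 25308) (nat_lit 6) (nat_lit 333) (nat_lit 2) (nat_lit 200) (nat_lit 215) (nat_lit 185))))) (PT.nd (nat_lit 312) (PT.nd (nat_lit 156) (PT.nd (nat_lit 78) (PT.lf (nat_lit 24168) (nat_lit 6) (nat_lit 318) (nat_lit 2) (nat_lit 201) (nat_lit 215) (nat_lit 184)) (PT.lf (nat_lit 22952) (nat_lit 6) (nat_lit 302) (nat_lit 2) (nat_lit 202) (nat_lit 215) (nat_lit 183))) (PT.nd (nat_lit 78) (PT.lf (nat_lit 22116) (nat_lit 6) (nat_lit 291) (nat_lit 2) (nat_lit 203) (nat_lit 215) (nat_lit 182)) (PT.lf (nat_lit 21508) (nat_lit 6) (nat_lit 283) (nat_lit 2) (nat_lit 204) (nat_lit 215) (nat_lit 181)))) (PT.nd (nat_lit 156) (PT.nd (nat_lit 78) (PT.lf (nat_lit 20900) (nat_lit 6) (nat_lit 275) (nat_lit 2) (nat_lit 205) (nat_lit 215) (nat_lit 180)) (PT.lf (nat_lit 20368) (nat_lit 6) (nat_lit 268) (nat_lit 2) (nat_lit 206) (nat_lit 215) (nat_lit 179))) (PT.nd (nat_lit 78)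 (PT.lf (nat_lit 19760) (nat_lit 6) (nat_lit 260) (nat_lit 2) (nat_lit 207) (nat_lit 215) (nat_lit 178)) (PT.lf (nat_lit 19228) (nat_lit 6) (nat_lit 253) (nat_lit 2) (nat_lit 208) (nat_lit 215) (nat_lit 177)))))) (PT.nd (nat_lit 624) (PT.nd (nat_lit 312) (PT.nd (nat_lit 156) (PT.nd (nat_lit 78) (PT.lf (nat_lit 18696) (nat_lit 6) (nat_lit 246) (nat_lit 2) (nat_lit 209) (nat_lit 215) (nat_lit 176)) (PT.lf (nat_lit 18240) (nat_lit 6) (nat_lit 240) (nat_lit 2) (nat_lit 210) (nat_lit 215) (nat_lit 175))) (PT.nd (nat_lit 78) (PT.lf (nat_lit 17784) (nat_lit 6) (nat_lit 234) (nat_lit 2) (nat_lit 211) (nat_lit 215) (nat_lit 174)) (PT.lf (nat_lit 17328) (nat_lit 6) (nat_lit 228) (nat_lit 2) (nat_lit 212) (nat_lit 215) (nat_lit 173)))) (PT.nd (nat_lit 156) (PT.nd (nat_lit 78) (PT.lf (nat_lit 16872) (nat_lit 6) (nat_lit 222) (nat_lit 2) (nat_lit 213) (nat_lit 215) (nat_lit 172)) (PT.lf (nat_lit 16492) (nat_lit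 6) (nat_lit 217) (nat_lit 2) (nat_lit 214) (nat_lit 215) (nat_lit 171))) (PT.nd (nat_lit 78) (PT.lf (nat_lit 16036) (nat_lit 3) (nat_lit 211) (nat_lit 0) (nat_lit 215) (nat_lit 215) (nat_lit 170)) (PT.lf (nat_lit 15580) (nat_lit 6) (nat_lit 205) (nat_lit 0) (nat_lit 216) (nat_lit 215) (nat_lit 169))))) (PT.nd (nat_lit 312) (PT.nd (nat_lit 156) (PT.nd (nat_lit 78) (PT.lf (nat_lit 15124) (nat_lit 6) (nat_lit 199) (nat_lit 0) (nat_lit 217) (nat_lit 215) (nat_lit 168)) (PT.lf (nat_lit 14744) (nat_lit 6) (nat_lit 194) (nat_lit 0) (nat_lit 218) (nat_lit 215) (nat_lit 167))) (PT.nd (nat_lit 78) (PT.lf (nat_lit 14288) (nat_lit 6) (nat_lit 188) (nat_lit 0) (nat_lit 219) (nat_lit 215) (nat_lit 166)) (PT.lf (nat_lit 13908) (nat_lit 6) (nat_lit 183) (nat_lit 0) (nat_lit 220) (nat_lit 215) (nat_lit 165)))) (PT.nd (nat_lit 57798) (PT.nd (nat_lit 78) (PT.lf (nat_lit 13528) (nat_lit 6) (nat_lit 178) (nat_lit 0) (nat_lit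 221) (nat_lit 215) (nat_lit 164)) (PT.lf (nat_lit 13148) (nat_lit 6) (nat_lit 173) (nat_lit 0) (nat_lit 222) (nat_lit 215) (nat_lit 163))) (PT.nd (nat_lit 78) (PT.lf (nat_lit 12464) (nat_lit 6) (nat_lit 164) (nat_lit 5) (nat_lit 161) (nat_lit 216) (nat_lit 223)) (PT.nd (nat_lit 78) (PT.lf (nat_lit 12844) (nat_lit 6) (nat_lit 169) (nat_lit 5) (nat_lit 162) (nat_lit 216) (nat_lit 222)) (PT.lf (nat_lit 13224) (nat_lit 6) (nat_lit 174) (nat_lit 5) (nat_lit 163) (nat_lit 216) (nat_lit 221))))))))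
noncomputable def pc48 : PT := (PT.nd (nat_lit 1248) (PT.nd (nat_lit 624) (PT.nd (nat_lit 312) (PT.nd (nat_lit 156) (PT.nd (nat_lit 78) (PT.lf (nat_lit 13604) (nat_lit 6) (nat_lit 179) (nat_lit 5) (nat_lit 164) (nat_lit 216) (nat_lit 220)) (PT.lf (nat_lit 13984) (nat_lit 6) (nat_lit 184) (nat_lit 5) (nat_lit 165) (nat_lit 216) (nat_lit 219))) (PT.nd (nat_lit 78) (PT.lf (nat_lit 14364) (nat_lit 6) (nat_lit 189) (nat_lit 5) (nat_lit 166) (nat_lit 216) (nat_lit 218)) (PT.lf (nat_lit 14820) (nat_lit 6) (nat_lit 195) (nat_lit 5) (nat_lit 167) (nat_lit 216) (nat_lit 217)))) (PT.nd (nat_lit 156) (PT.nd (nat_lit 78) (PT.lf (nat_lit 15200) (nat_lit 3) (nat_lit 200) (nat_lit 4) (nat_lit 168) (nat_lit 216) (nat_lit 216)) (PT.lf (nat_lit 15580) (nat_lit 6) (nat_lit 205) (nat_lit 4) (nat_lit 169) (nat_lit 216) (nat_lit 215))) (PT.nd (nat_lit 78) (PT.lf (nat_lit 15960) (nat_lit 6) (nat_lit 210) (nat_lit 4) (nat_lit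 170) (nat_lit 216) (nat_lit 214)) (PT.lf (nat_lit 16416) (nat_lit 6) (nat_lit 216) (nat_lit 4) (nat_lit 171) (nat_lit 216) (nat_lit 213))))) (PT.nd (nat_lit 312) (PT.nd (nat_lit 156) (PT.nd (nat_lit 78) (PT.lf (nat_lit 16796) (nat_lit 6) (nat_lit 221) (nat_lit 4) (nat_lit 172) (nat_lit 216) (nat_lit 212)) (PT.lf (nat_lit 17252) (nat_lit 6) (nat_lit 227) (nat_lit 4) (nat_lit 173) (nat_lit 216) (nat_lit 211))) (PT.nd (nat_lit 78) (PT.lf (nat_lit 17708) (nat_lit 6) (nat_lit 233) (nat_lit 4) (nat_lit 174) (nat_lit 216) (nat_lit 210)) (PT.lf (nat_lit 18164) (nat_lit 6) (nat_lit 239) (nat_lit 4) (nat_lit 175) (nat_lit 216) (nat_lit 209)))) (PT.nd (nat_lit 156) (PT.nd (nat_lit 78) (PT.lf (nat_lit 18620) (nat_lit 6) (nat_lit 245) (nat_lit 4) (nat_lit 176) (nat_lit 216) (nat_lit 208)) (PT.lf (nat_lit 19152) (nat_lit 6) (nat_lit 252) (nat_lit 4) (nat_lit 177) (nat_lit 216) (nat_lit 207))) (PT.nd (nat_lit 78)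 (PT.lf (nat_lit 19684) (nat_lit 6) (nat_lit 259) (nat_lit 4) (nat_lit 178) (nat_lit 216) (nat_lit 206)) (PT.lf (nat_lit 20292) (nat_lit 6) (nat_lit 267) (nat_lit 4) (nat_lit 179) (nat_lit 216) (nat_lit 205)))))) (PT.nd (nat_lit 624) (PT.nd (nat_lit 312) (PT.nd (nat_lit 156) (PT.nd (nat_lit 78) (PT.lf (nat_lit 20824) (nat_lit 6) (nat_lit 274) (nat_lit 4) (nat_lit 180) (nat_lit 216) (nat_lit 204)) (PT.lf (nat_lit 21432) (nat_lit 6) (nat_lit 282) (nat_lit 4) (nat_lit 181) (nat_lit 216) (nat_lit 203))) (PT.nd (nat_lit 78) (PT.lf (nat_lit 22040) (nat_lit 6) (nat_lit 290) (nat_lit 4) (nat_lit 182) (nat_lit 216) (nat_lit 202)) (PT.lf (nat_lit 22876) (nat_lit 6) (nat_lit 301) (nat_lit 4) (nat_lit 183) (nat_lit 216) (nat_lit 201)))) (PT.nd (nat_lit 156) (PT.nd (nat_lit 78) (PT.lf (nat_lit 24092) (nat_lit 6) (nat_lit 317) (nat_lit 4) (nat_lit 184) (nat_lit 216) (nat_lit 200)) (PT.lf (nat_lit 24016) (nat_lit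 6) (nat_lit 316) (nat_lit 4) (nat_lit 185) (nat_lit 216) (nat_lit 199))) (PT.nd (nat_lit 78) (PT.lf (nat_lit 23940) (nat_lit 6) (nat_lit 315) (nat_lit 4) (nat_lit 186) (nat_lit 216) (nat_lit 198)) (PT.lf (nat_lit 23864) (nat_lit 6) (nat_lit 314) (nat_lit 4) (nat_lit 187) (nat_lit 216) (nat_lit 197))))) (PT.nd (nat_lit 312) (PT.nd (nat_lit 156) (PT.nd (nat_lit 78) (PT.lf (nat_lit 23788) (nat_lit 6) (nat_lit 313) (nat_lit 4) (nat_lit 188) (nat_lit 216) (nat_lit 196)) (PT.lf (nat_lit 23712) (nat_lit 6) (nat_lit 312) (nat_lit 4) (nat_lit 189) (nat_lit 216) (nat_lit 195))) (PT.nd (nat_lit 78) (PT.lf (nat_lit 23636) (nat_lit 6) (nat_lit 311) (nat_lit 4) (nat_lit 190) (nat_lit 216) (nat_lit 194)) (PT.lf (nat_lit 23560) (nat_lit 6) (nat_lit 310) (nat_lit 4) (nat_lit 191) (nat_lit 216) (nat_lit 193)))) (PT.nd (nat_lit 156) (PT.nd (nat_lit 78) (PT.lf (nat_lit 23484) (nat_lit 3) (nat_lit 309) (nat_lit 2) (nat_lit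 192) (nat_lit 216) (nat_lit 192)) (PT.lf (nat_lit 23560) (nat_lit 6) (nat_lit 310) (nat_lit 2) (nat_lit 193) (nat_lit 216) (nat_lit 191))) (PT.nd (nat_lit 78) (PT.lf (nat_lit 23636) (nat_lit 6) (nat_lit 311) (nat_lit 2) (nat_lit 194) (nat_lit 216) (nat_lit 190)) (PT.lf (nat_lit 23712) (nat_lit 6) (nat_lit 312) (nat_lit 2) (nat_lit 195) (nat_lit 216) (nat_lit 189)))))))
noncomputable def pc49 : PT := (PT.nd (nat_lit 1248) (PT.nd (nat_lit 624) (PT.nd (nat_lit 312) (PT.nd (nat_lit 156) (PT.nd (nat_lit 78) (PT.lf (nat_lit 23788) (nat_lit 6) (nat_lit 313) (nat_lit 2) (nat_lit 196) (nat_lit 216) (nat_lit 188)) (PT.lf (nat_lit 23864) (nat_lit 6) (nat_lit 314) (nat_lit 2) (nat_lit 197) (nat_lit 216) (nat_lit 187))) (PT.nd (nat_lit 78) (PT.lf (nat_lit 23940) (nat_lit 6) (nat_lit 315) (nat_lit 2) (nat_lit 198) (nat_lit 216) (nat_lit 186)) (PT.lf (nat_lit 24016) (nat_lit 6) (nat_lit 316) (nat_lit 2) (nat_lit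 199) (nat_lit 216) (nat_lit 185)))) (PT.nd (nat_lit 156) (PT.nd (nat_lit 78) (PT.lf (nat_lit 24092) (nat_lit 6) (nat_lit 317) (nat_lit 2) (nat_lit 200) (nat_lit 216) (nat_lit 184)) (PT.lf (nat_lit 22876) (nat_lit 6) (nat_lit 301) (nat_lit 2) (nat_lit 201) (nat_lit 216) (nat_lit 183))) (PT.nd (nat_lit 78) (PT.lf (nat_lit 22040) (nat_lit 6) (nat_lit 290) (nat_lit 2) (nat_lit 202) (nat_lit 216) (nat_lit 182)) (PT.lf (nat_lit 21432) (nat_lit 6) (nat_lit 282) (nat_lit 2) (nat_lit 203) (nat_lit 216) (nat_lit 181))))) (PT.nd (nat_lit 312) (PT.nd (nat_lit 156) (PT.nd (nat_lit 78) (PT.lf (nat_lit 20824) (nat_lit 6) (nat_lit 274) (nat_lit 2) (nat_lit 204) (nat_lit 216) (nat_lit 180)) (PT.lf (nat_lit 20292) (nat_lit 6) (nat_lit 267) (nat_lit 2) (nat_lit 205) (nat_lit 216) (nat_lit 179))) (PT.nd (nat_lit 78) (PT.lf (nat_lit 19684) (nat_lit 6) (nat_lit 259) (nat_lit 2) (nat_lit 206) (nat_lit 216) (nat_lit 178))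 (PT.lf (nat_lit 19152) (nat_lit 6) (nat_lit 252) (nat_lit 2) (nat_lit 207) (nat_lit 216) (nat_lit 177)))) (PT.nd (nat_lit 156) (PT.nd (nat_lit 78) (PT.lf (nat_lit 18620) (nat_lit 6) (nat_lit 245) (nat_lit 2) (nat_lit 208) (nat_lit 216) (nat_lit 176)) (PT.lf (nat_lit 18164) (nat_lit 6) (nat_lit 239) (nat_lit 2) (nat_lit 209) (nat_lit 216) (nat_lit 175))) (PT.nd (nat_lit 78) (PT.lf (nat_lit 17708) (nat_lit 6) (nat_lit 233) (nat_lit 2) (nat_lit 210) (nat_lit 216) (nat_lit 174)) (PT.lf (nat_lit 17252) (nat_lit 6) (nat_lit 227) (nat_lit 2) (nat_lit 211) (nat_lit 216) (nat_lit 173)))))) (PT.nd (nat_lit 624) (PT.nd (nat_lit 312) (PT.nd (nat_lit 156) (PT.nd (nat_lit 78) (PT.lf (nat_lit 16796) (nat_lit 6) (nat_lit 221) (nat_lit 2) (nat_lit 212) (nat_lit 216) (nat_lit 172)) (PT.lf (nat_lit 16416) (nat_lit 6) (nat_lit 216) (nat_lit 2) (nat_lit 213) (nat_lit 216) (nat_lit 171))) (PT.nd (nat_lit 78) (PT.lf (nat_lit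 15960) (nat_lit 6) (nat_lit 210) (nat_lit 2) (nat_lit 214) (nat_lit 216) (nat_lit 170)) (PT.lf (nat_lit 15580) (nat_lit 6) (nat_lit 205) (nat_lit 2) (nat_lit 215) (nat_lit 216) (nat_lit 169)))) (PT.nd (nat_lit 156) (PT.nd (nat_lit 78) (PT.lf (nat_lit 15200) (nat_lit 3) (nat_lit 200) (nat_lit 0) (nat_lit 216) (nat_lit 216) (nat_lit 168)) (PT.lf (nat_lit 14820) (nat_lit 6) (nat_lit 195) (nat_lit 0) (nat_lit 217) (nat_lit 216) (nat_lit 167))) (PT.nd (nat_lit 78) (PT.lf (nat_lit 14364) (nat_lit 6) (nat_lit 189) (nat_lit 0) (nat_lit 218) (nat_lit 216) (nat_lit 166)) (PT.lf (nat_lit 13984) (nat_lit 6) (nat_lit 184) (nat_lit 0) (nat_lit 219) (nat_lit 216) (nat_lit 165))))) (PT.nd (nat_lit 57720) (PT.nd (nat_lit 156) (PT.nd (nat_lit 78) (PT.lf (nat_lit 13604) (nat_lit 6) (nat_lit 179) (nat_lit 0) (nat_lit 220) (nat_lit 216) (nat_lit 164)) (PT.lf (nat_lit 13224) (nat_lit 6) (nat_lit 174) (nat_lit 0) (nat_lit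 221) (nat_lit 216) (nat_lit 163))) (PT.nd (nat_lit 78) (PT.lf (nat_lit 12844) (nat_lit 6) (nat_lit 169) (nat_lit 0) (nat_lit 222) (nat_lit 216) (nat_lit 162)) (PT.lf (nat_lit 12464) (nat_lit 6) (nat_lit 164) (nat_lit 0) (nat_lit 223) (nat_lit 216) (nat_lit 161)))) (PT.nd (nat_lit 156) (PT.nd (nat_lit 78) (PT.lf (nat_lit 11856) (nat_lit 6) (nat_lit 156) (nat_lit 5) (nat_lit 159) (nat_lit 217) (nat_lit 224)) (PT.lf (nat_lit 12160) (nat_lit 6) (nat_lit 160) (nat_lit 5) (nat_lit 160) (nat_lit 217) (nat_lit 223))) (PT.nd (nat_lit 78) (PT.lf (nat_lit 12540) (nat_lit 6) (nat_lit 165) (nat_lit 5) (nat_lit 161) (nat_lit 217) (nat_lit 222)) (PT.nd (nat_lit 78) (PT.lf (nat_lit 12920) (nat_lit 6) (nat_lit 170) (nat_lit 5) (nat_lit 162) (nat_lit 217) (nat_lit 221)) (PT.lf (nat_lit 13300) (nat_lit 6) (nat_lit 175) (nat_lit 5) (nat_lit 163) (nat_lit 217) (nat_lit 220))))))))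
noncomputable def pc50 : PT := (PT.nd (nat_lit 1248) (PT.nd (nat_lit 624) (PT.nd (nat_lit 312) (PT.nd (nat_lit 156) (PT.nd (nat_lit 78) (PT.lf (nat_lit 13680) (nat_lit 6) (nat_lit 180) (nat_lit 5) (nat_lit 164) (nat_lit 217) (nat_lit 219)) (PT.lf (nat_lit 14060) (nat_lit 6) (nat_lit 185) (nat_lit 5) (nat_lit 165) (nat_lit 217) (nat_lit 218))) (PT.nd (nat_lit 78) (PT.lf (nat_lit 14440) (nat_lit 3) (nat_lit 190) (nat_lit 4) (nat_lit 166) (nat_lit 217) (nat_lit 217)) (PT.lf (nat_lit 14820) (nat_lit 6) (nat_lit 195) (nat_lit 4) (nat_lit 167) (nat_lit 217) (nat_lit 216)))) (PT.nd (nat_lit 156) (PT.nd (nat_lit 78) (PT.lf (nat_lit 15124) (nat_lit 6) (nat_lit 199) (nat_lit 4) (nat_lit 168) (nat_lit 217) (nat_lit 215)) (PT.lf (nat_lit 15504) (nat_lit 6) (nat_lit 204) (nat_lit 4) (nat_lit 169) (nat_lit 217) (nat_lit 214))) (PT.nd (nat_lit 78) (PT.lf (nat_lit 15884) (nat_lit 6) (nat_lit 209) (nat_lit 4) (nat_lit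 170) (nat_lit 217) (nat_lit 213)) (PT.lf (nat_lit 16340) (nat_lit 6) (nat_lit 215) (nat_lit 4) (nat_lit 171) (nat_lit 217) (nat_lit 212))))) (PT.nd (nat_lit 312) (PT.nd (nat_lit 156) (PT.nd (nat_lit 78) (PT.lf (nat_lit 16720) (nat_lit 6) (nat_lit 220) (nat_lit 4) (nat_lit 172) (nat_lit 217) (nat_lit 211)) (PT.lf (nat_lit 17176) (nat_lit 6) (nat_lit 226) (nat_lit 4) (nat_lit 173) (nat_lit 217) (nat_lit 210))) (PT.nd (nat_lit 78) (PT.lf (nat_lit 17632) (nat_lit 6) (nat_lit 232) (nat_lit 4) (nat_lit 174) (nat_lit 217) (nat_lit 209)) (PT.lf (nat_lit 18088) (nat_lit 6) (nat_lit 238) (nat_lit 4) (nat_lit 175) (nat_lit 217) (nat_lit 208)))) (PT.nd (nat_lit 156) (PT.nd (nat_lit 78) (PT.lf (nat_lit 18544) (nat_lit 6) (nat_lit 244) (nat_lit 4) (nat_lit 176) (nat_lit 217) (nat_lit 207)) (PT.lf (nat_lit 19076) (nat_lit 6) (nat_lit 251) (nat_lit 4) (nat_lit 177) (nat_lit 217) (nat_lit 206))) (PT.nd (nat_lit 78)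 (PT.lf (nat_lit 19608) (nat_lit 6) (nat_lit 258) (nat_lit 4) (nat_lit 178) (nat_lit 217) (nat_lit 205)) (PT.lf (nat_lit 20216) (nat_lit 6) (nat_lit 266) (nat_lit 4) (nat_lit 179) (nat_lit 217) (nat_lit 204)))))) (PT.nd (nat_lit 1560) (PT.nd (nat_lit 312) (PT.nd (nat_lit 156) (PT.nd (nat_lit 78) (PT.lf (nat_lit 20748) (nat_lit 6) (nat_lit 273) (nat_lit 4) (nat_lit 180) (nat_lit 217) (nat_lit 203)) (PT.lf (nat_lit 21356) (nat_lit 6) (nat_lit 281) (nat_lit 4) (nat_lit 181) (nat_lit 217) (nat_lit 202))) (PT.nd (nat_lit 78) (PT.lf (nat_lit 21964) (nat_lit 6) (nat_lit 289) (nat_lit 4) (nat_lit 182) (nat_lit 217) (nat_lit 201)) (PT.lf (nat_lit 22800) (nat_lit 6) (nat_lit 300) (nat_lit 4) (nat_lit 183) (nat_lit 217) (nat_lit 200)))) (PT.nd (nat_lit 1092) (PT.nd (nat_lit 78) (PT.lf (nat_lit 22724) (nat_lit 6) (nat_lit 299) (nat_lit 4) (nat_lit 184) (nat_lit 217) (nat_lit 199)) (PT.lf (nat_lit 22648) (nat_lit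 6) (nat_lit 298) (nat_lit 4) (nat_lit 185) (nat_lit 217) (nat_lit 198))) (PT.nd (nat_lit 78) (PT.lf (nat_lit 22648) (nat_lit 6) (nat_lit 298) (nat_lit 2) (nat_lit 198) (nat_lit 217) (nat_lit 185)) (PT.lf (nat_lit 22724) (nat_lit 6) (nat_lit 299) (nat_lit 2) (nat_lit 199) (nat_lit 217) (nat_lit 184))))) (PT.nd (nat_lit 312) (PT.nd (nat_lit 156) (PT.nd (nat_lit 78) (PT.lf (nat_lit 22800) (nat_lit 6) (nat_lit 300) (nat_lit 2) (nat_lit 200) (nat_lit 217) (nat_lit 183)) (PT.lf (nat_lit 21964) (nat_lit 6) (nat_lit 289) (nat_lit 2) (nat_lit 201) (nat_lit 217) (nat_lit 182))) (PT.nd (nat_lit 78) (PT.lf (nat_lit 21356) (nat_lit 6) (nat_lit 281) (nat_lit 2) (nat_lit 202) (nat_lit 217) (nat_lit 181)) (PT.lf (nat_lit 20748) (nat_lit 6) (nat_lit 273) (nat_lit 2) (nat_lit 203) (nat_lit 217) (nat_lit 180)))) (PT.nd (nat_lit 156) (PT.nd (nat_lit 78) (PT.lf (nat_lit 20216) (nat_lit 6) (nat_lit 266) (nat_lit 2) (nat_lit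 204) (nat_lit 217) (nat_lit 179)) (PT.lf (nat_lit 19608) (nat_lit 6) (nat_lit 258) (nat_lit 2) (nat_lit 205) (nat_lit 217) (nat_lit 178))) (PT.nd (nat_lit 78) (PT.lf (nat_lit 19076) (nat_lit 6) (nat_lit 251) (nat_lit 2) (nat_lit 206) (nat_lit 217) (nat_lit 177)) (PT.nd (nat_lit 78) (PT.lf (nat_lit 18544) (nat_lit 6) (nat_lit 244) (nat_lit 2) (nat_lit 207) (nat_lit 217) (nat_lit 176)) (PT.lf (nat_lit 18088) (nat_lit 6) (nat_lit 238) (nat_lit 2) (nat_lit 208) (nat_lit 217) (nat_lit 175))))))))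
noncomputable def pc51 : PT := (PT.nd (nat_lit 58500) (PT.nd (nat_lit 624) (PT.nd (nat_lit 312) (PT.nd (nat_lit 156) (PT.nd (nat_lit 78) (PT.lf (nat_lit 17632) (nat_lit 6) (nat_lit 232) (nat_lit 2) (nat_lit 209) (nat_lit 217) (nat_lit 174)) (PT.lf (nat_lit 17176) (nat_lit 6) (nat_lit 226) (nat_lit 2) (nat_lit 210) (nat_lit 217) (nat_lit 173))) (PT.nd (nat_lit 78) (PT.lf (nat_lit 16720) (nat_lit 6) (nat_lit 220) (nat_lit 2) (nat_lit 211) (nat_lit 217) (nat_lit 172)) (PT.lf (nat_lit 16340) (nat_lit 6) (nat_lit 215) (nat_lit 2) (nat_lit 212) (nat_lit 217) (nat_lit 171)))) (PT.nd (nat_lit 156) (PT.nd (nat_lit 78) (PT.lf (nat_lit 15884) (nat_lit 6) (nat_lit 209) (nat_lit 2) (nat_lit 213) (nat_lit 217) (nat_lit 170)) (PT.lf (nat_lit 15504) (nat_lit 6) (nat_lit 204) (nat_lit 2) (nat_lit 214) (nat_lit 217) (nat_lit 169))) (PT.nd (nat_lit 78) (PT.lf (nat_lit 15124) (nat_lit 6) (nat_lit 199) (nat_lit 2) (nat_lit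 215) (nat_lit 217) (nat_lit 168)) (PT.lf (nat_lit 14820) (nat_lit 6) (nat_lit 195) (nat_lit 2) (nat_lit 216) (nat_lit 217) (nat_lit 167))))) (PT.nd (nat_lit 312) (PT.nd (nat_lit 156) (PT.nd (nat_lit 78) (PT.lf (nat_lit 14440) (nat_lit 3) (nat_lit 190) (nat_lit 0) (nat_lit 217) (nat_lit 217) (nat_lit 166)) (PT.lf (nat_lit 14060) (nat_lit 6) (nat_lit 185) (nat_lit 0) (nat_lit 218) (nat_lit 217) (nat_lit 165))) (PT.nd (nat_lit 78) (PT.lf (nat_lit 13680) (nat_lit 6) (nat_lit 180) (nat_lit 0) (nat_lit 219) (nat_lit 217) (nat_lit 164)) (PT.lf (nat_lit 13300) (nat_lit 6) (nat_lit 175) (nat_lit 0) (nat_lit 220) (nat_lit 217) (nat_lit 163)))) (PT.nd (nat_lit 156) (PT.nd (nat_lit 78) (PT.lf (nat_lit 12920) (nat_lit 6) (nat_lit 170) (nat_lit 0) (nat_lit 221) (nat_lit 217) (nat_lit 162)) (PT.lf (nat_lit 12540) (nat_lit 6) (nat_lit 165) (nat_lit 0) (nat_lit 222) (nat_lit 217) (nat_lit 161))) (PT.nd (nat_lit 78)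 (PT.lf (nat_lit 12160) (nat_lit 6) (nat_lit 160) (nat_lit 0) (nat_lit 223) (nat_lit 217) (nat_lit 160)) (PT.lf (nat_lit 11856) (nat_lit 6) (nat_lit 156) (nat_lit 0) (nat_lit 224) (nat_lit 217) (nat_lit 159)))))) (PT.nd (nat_lit 624) (PT.nd (nat_lit 312) (PT.nd (nat_lit 156) (PT.nd (nat_lit 78) (PT.lf (nat_lit 11552) (nat_lit 6) (nat_lit 152) (nat_lit 5) (nat_lit 158) (nat_lit 218) (nat_lit 224)) (PT.lf (nat_lit 11932) (nat_lit 6) (nat_lit 157) (nat_lit 5) (nat_lit 159) (nat_lit 218) (nat_lit 223))) (PT.nd (nat_lit 78) (PT.lf (nat_lit 12236) (nat_lit 6) (nat_lit 161) (nat_lit 5) (nat_lit 160) (nat_lit 218) (nat_lit 222)) (PT.lf (nat_lit 12616) (nat_lit 6) (nat_lit 166) (nat_lit 5) (nat_lit 161) (nat_lit 218) (nat_lit 221)))) (PT.nd (nat_lit 156) (PT.nd (nat_lit 78) (PT.lf (nat_lit 12996) (nat_lit 6) (nat_lit 171) (nat_lit 5) (nat_lit 162) (nat_lit 218) (nat_lit 220)) (PT.lf (nat_lit 13376) (nat_lit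 6) (nat_lit 176) (nat_lit 5) (nat_lit 163) (nat_lit 218) (nat_lit 219))) (PT.nd (nat_lit 78) (PT.lf (nat_lit 13756) (nat_lit 3) (nat_lit 181) (nat_lit 4) (nat_lit 164) (nat_lit 218) (nat_lit 218)) (PT.lf (nat_lit 14060) (nat_lit 6) (nat_lit 185) (nat_lit 4) (nat_lit 165) (nat_lit 218) (nat_lit 217))))) (PT.nd (nat_lit 312) (PT.nd (nat_lit 156) (PT.nd (nat_lit 78) (PT.lf (nat_lit 14364) (nat_lit 6) (nat_lit 189) (nat_lit 4) (nat_lit 166) (nat_lit 218) (nat_lit 216)) (PT.lf (nat_lit 14744) (nat_lit 6) (nat_lit 194) (nat_lit 4) (nat_lit 167) (nat_lit 218) (nat_lit 215))) (PT.nd (nat_lit 78) (PT.lf (nat_lit 15048) (nat_lit 6) (nat_lit 198) (nat_lit 4) (nat_lit 168) (nat_lit 218) (nat_lit 214)) (PT.lf (nat_lit 15428) (nat_lit 6) (nat_lit 203) (nat_lit 4) (nat_lit 169) (nat_lit 218) (nat_lit 213)))) (PT.nd (nat_lit 156) (PT.nd (nat_lit 78) (PT.lf (nat_lit 15808) (nat_lit 6) (nat_lit 208) (nat_lit 4) (nat_lit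 170) (nat_lit 218) (nat_lit 212)) (PT.lf (nat_lit 16264) (nat_lit 6) (nat_lit 214) (nat_lit 4) (nat_lit 171) (nat_lit 218) (nat_lit 211))) (PT.nd (nat_lit 78) (PT.lf (nat_lit 16644) (nat_lit 6) (nat_lit 219) (nat_lit 4) (nat_lit 172) (nat_lit 218) (nat_lit 210)) (PT.nd (nat_lit 78) (PT.lf (nat_lit 17100) (nat_lit 6) (nat_lit 225) (nat_lit 4) (nat_lit 173) (nat_lit 218) (nat_lit 209)) (PT.lf (nat_lit 17556) (nat_lit 6) (nat_lit 231) (nat_lit 4) (nat_lit 174) (nat_lit 218) (nat_lit 208))))))))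
noncomputable def pc52 : PT := (PT.nd (nat_lit 3042) (PT.nd (nat_lit 2418) (PT.nd (nat_lit 312) (PT.nd (nat_lit 156) (PT.nd (nat_lit 78) (PT.lf (nat_lit 18012) (nat_lit 6) (nat_lit 237) (nat_lit 4) (nat_lit 175) (nat_lit 218) (nat_lit 207)) (PT.lf (nat_lit 18468) (nat_lit 6) (nat_lit 243) (nat_lit 4) (nat_lit 176) (nat_lit 218) (nat_lit 206))) (PT.nd (nat_lit 78) (PT.lf (nat_lit 19000) (nat_lit 6) (nat_lit 250) (nat_lit 4) (nat_lit 177) (nat_lit 218) (nat_lit 205)) (PT.lf (nat_lit 19532) (nat_lit 6) (nat_lit 257) (nat_lit 4) (nat_lit 178) (nat_lit 218) (nat_lit 204)))) (PT.nd (nat_lit 1950) (PT.nd (nat_lit 1872) (PT.lf (nat_lit 20140) (nat_lit 6) (nat_lit 265) (nat_lit 4) (nat_lit 179) (nat_lit 218) (nat_lit 203)) (PT.lf (nat_lit 20140) (nat_lit 6) (nat_lit 265) (nat_lit 2) (nat_lit 203) (nat_lit 218) (nat_lit 179))) (PT.nd (nat_lit 78) (PT.lf (nat_lit 19532) (nat_lit 6) (nat_lit 257) (nat_lit 2) (nat_lit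 204) (nat_lit 218) (nat_lit 178)) (PT.lf (nat_lit 19000) (nat_lit 6) (nat_lit 250) (nat_lit 2) (nat_lit 205) (nat_lit 218) (nat_lit 177))))) (PT.nd (nat_lit 312) (PT.nd (nat_lit 156) (PT.nd (nat_lit 78) (PT.lf (nat_lit 18468) (nat_lit 6) (nat_lit 243) (nat_lit 2) (nat_lit 206) (nat_lit 218) (nat_lit 176)) (PT.lf (nat_lit 18012) (nat_lit 6) (nat_lit 237) (nat_lit 2) (nat_lit 207) (nat_lit 218) (nat_lit 175))) (PT.nd (nat_lit 78) (PT.lf (nat_lit 17556) (nat_lit 6) (nat_lit 231) (nat_lit 2) (nat_lit 208) (nat_lit 218) (nat_lit 174)) (PT.lf (nat_lit 17100) (nat_lit 6) (nat_lit 225) (nat_lit 2) (nat_lit 209) (nat_lit 218) (nat_lit 173)))) (PT.nd (nat_lit 156) (PT.nd (nat_lit 78) (PT.lf (nat_lit 16644) (nat_lit 6) (nat_lit 219) (nat_lit 2) (nat_lit 210) (nat_lit 218) (nat_lit 172)) (PT.lf (nat_lit 16264) (nat_lit 6) (nat_lit 214) (nat_lit 2) (nat_lit 211) (nat_lit 218) (nat_lit 171))) (PT.nd (nat_lit 78)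 (PT.lf (nat_lit 15808) (nat_lit 6) (nat_lit 208) (nat_lit 2) (nat_lit 212) (nat_lit 218) (nat_lit 170)) (PT.lf (nat_lit 15428) (nat_lit 6) (nat_lit 203) (nat_lit 2) (nat_lit 213) (nat_lit 218) (nat_lit 169)))))) (PT.nd (nat_lit 624) (PT.nd (nat_lit 312) (PT.nd (nat_lit 156) (PT.nd (nat_lit 78) (PT.lf (nat_lit 15048) (nat_lit 6) (nat_lit 198) (nat_lit 2) (nat_lit 214) (nat_lit 218) (nat_lit 168)) (PT.lf (nat_lit 14744) (nat_lit 6) (nat_lit 194) (nat_lit 2) (nat_lit 215) (nat_lit 218) (nat_lit 167))) (PT.nd (nat_lit 78) (PT.lf (nat_lit 14364) (nat_lit 6) (nat_lit 189) (nat_lit 2) (nat_lit 216) (nat_lit 218) (nat_lit 166)) (PT.lf (nat_lit 14060) (nat_lit 6) (nat_lit 185) (nat_lit 2) (nat_lit 217) (nat_lit 218) (nat_lit 165)))) (PT.nd (nat_lit 156) (PT.nd (nat_lit 78) (PT.lf (nat_lit 13756) (nat_lit 3) (nat_lit 181) (nat_lit 0) (nat_lit 218) (nat_lit 218) (nat_lit 164)) (PT.lf (nat_lit 13376) (nat_lit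 6) (nat_lit 176) (nat_lit 0) (nat_lit 219) (nat_lit 218) (nat_lit 163))) (PT.nd (nat_lit 78) (PT.lf (nat_lit 12996) (nat_lit 6) (nat_lit 171) (nat_lit 0) (nat_lit 220) (nat_lit 218) (nat_lit 162)) (PT.lf (nat_lit 12616) (nat_lit 6) (nat_lit 166) (nat_lit 0) (nat_lit 221) (nat_lit 218) (nat_lit 161))))) (PT.nd (nat_lit 57408) (PT.nd (nat_lit 156) (PT.nd (nat_lit 78) (PT.lf (nat_lit 12236) (nat_lit 6) (nat_lit 161) (nat_lit 0) (nat_lit 222) (nat_lit 218) (nat_lit 160)) (PT.lf (nat_lit 11932) (nat_lit 6) (nat_lit 157) (nat_lit 0) (nat_lit 223) (nat_lit 218) (nat_lit 159))) (PT.nd (nat_lit 57174) (PT.lf (nat_lit 11552) (nat_lit 6) (nat_lit 152) (nat_lit 0) (nat_lit 224) (nat_lit 218) (nat_lit 158)) (PT.lf (nat_lit 11020) (nat_lit 6) (nat_lit 145) (nat_lit 5) (nat_lit 156) (nat_lit 219) (nat_lit 225)))) (PT.nd (nat_lit 156) (PT.nd (nat_lit 78) (PT.lf (nat_lit 11324) (nat_lit 6) (nat_lit 149) (nat_lit 5)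 (nat_lit 157) (nat_lit 219) (nat_lit 224)) (PT.lf (nat_lit 11628) (nat_lit 6) (nat_lit 153) (nat_lit 5) (nat_lit 158) (nat_lit 219) (nat_lit 223))) (PT.nd (nat_lit 78) (PT.lf (nat_lit 12008) (nat_lit 6) (nat_lit 158) (nat_lit 5) (nat_lit 159) (nat_lit 219) (nat_lit 222)) (PT.nd (nat_lit 78) (PT.lf (nat_lit 12312) (nat_lit 6) (nat_lit 162) (nat_lit 5) (nat_lit 160) (nat_lit 219) (nat_lit 221)) (PT.lf (nat_lit 12692) (nat_lit 6) (nat_lit 167) (nat_lit 5) (nat_lit 161) (nat_lit 219) (nat_lit 220))))))))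
noncomputable def pc53 : PT := (PT.nd (nat_lit 3744) (PT.nd (nat_lit 624) (PT.nd (nat_lit 312) (PT.nd (nat_lit 156) (PT.nd (nat_lit 78) (PT.lf (nat_lit 13072) (nat_lit 3) (nat_lit 172) (nat_lit 4) (nat_lit 162) (nat_lit 219) (nat_lit 219)) (PT.lf (nat_lit 13376) (nat_lit 6) (nat_lit 176) (nat_lit 4) (nat_lit 163) (nat_lit 219) (nat_lit 218))) (PT.nd (nat_lit 78) (PT.lf (nat_lit 13680) (nat_lit 6) (nat_lit 180) (nat_lit 4) (nat_lit 164) (nat_lit 219) (nat_lit 217)) (PT.lf (nat_lit 13984) (nat_lit 6) (nat_lit 184) (nat_lit 4) (nat_lit 165) (nat_lit 219) (nat_lit 216)))) (PT.nd (nat_lit 156) (PT.nd (nat_lit 78) (PT.lf (nat_lit 14288) (nat_lit 6) (nat_lit 188) (nat_lit 4) (nat_lit 166) (nat_lit 219) (nat_lit 215)) (PT.lf (nat_lit 14668) (nat_lit 6) (nat_lit 193) (nat_lit 4) (nat_lit 167) (nat_lit 219) (nat_lit 214))) (PT.nd (nat_lit 78) (PT.lf (nat_lit 14972) (nat_lit 6) (nat_lit 197) (nat_lit 4) (nat_lit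 168) (nat_lit 219) (nat_lit 213)) (PT.lf (nat_lit 15352) (nat_lit 6) (nat_lit 202) (nat_lit 4) (nat_lit 169) (nat_lit 219) (nat_lit 212))))) (PT.nd (nat_lit 312) (PT.nd (nat_lit 156) (PT.nd (nat_lit 78) (PT.lf (nat_lit 15732) (nat_lit 6) (nat_lit 207) (nat_lit 4) (nat_lit 170) (nat_lit 219) (nat_lit 211)) (PT.lf (nat_lit 16188) (nat_lit 6) (nat_lit 213) (nat_lit 4) (nat_lit 171) (nat_lit 219) (nat_lit 210))) (PT.nd (nat_lit 78) (PT.lf (nat_lit 16568) (nat_lit 6) (nat_lit 218) (nat_lit 4) (nat_lit 172) (nat_lit 219) (nat_lit 209)) (PT.lf (nat_lit 17024) (nat_lit 6) (nat_lit 224) (nat_lit 4) (nat_lit 173) (nat_lit 219) (nat_lit 208)))) (PT.nd (nat_lit 2652) (PT.nd (nat_lit 2574) (PT.lf (nat_lit 17480) (nat_lit 6) (nat_lit 230) (nat_lit 4) (nat_lit 174) (nat_lit 219) (nat_lit 207)) (PT.lf (nat_lit 17480) (nat_lit 6) (nat_lit 230) (nat_lit 2) (nat_lit 207) (nat_lit 219) (nat_lit 174))) (PT.nd (nat_lit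 78) (PT.lf (nat_lit 17024) (nat_lit 6) (nat_lit 224) (nat_lit 2) (nat_lit 208) (nat_lit 219) (nat_lit 173)) (PT.lf (nat_lit 16568) (nat_lit 6) (nat_lit 218) (nat_lit 2) (nat_lit 209) (nat_lit 219) (nat_lit 172)))))) (PT.nd (nat_lit 624) (PT.nd (nat_lit 312) (PT.nd (nat_lit 156) (PT.nd (nat_lit 78) (PT.lf (nat_lit 16188) (nat_lit 6) (nat_lit 213) (nat_lit 2) (nat_lit 210) (nat_lit 219) (nat_lit 171)) (PT.lf (nat_lit 15732) (nat_lit 6) (nat_lit 207) (nat_lit 2) (nat_lit 211) (nat_lit 219) (nat_lit 170))) (PT.nd (nat_lit 78) (PT.lf (nat_lit 15352) (nat_lit 6) (nat_lit 202) (nat_lit 2) (nat_lit 212) (nat_lit 219) (nat_lit 169)) (PT.lf (nat_lit 14972) (nat_lit 6) (nat_lit 197) (nat_lit 2) (nat_lit 213) (nat_lit 219) (nat_lit 168)))) (PT.nd (nat_lit 156) (PT.nd (nat_lit 78) (PT.lf (nat_lit 14668) (nat_lit 6) (nat_lit 193) (nat_lit 2) (nat_lit 214) (nat_lit 219) (nat_lit 167)) (PT.lf (nat_lit 14288) (nat_lit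 6) (nat_lit 188) (nat_lit 2) (nat_lit 215) (nat_lit 219) (nat_lit 166))) (PT.nd (nat_lit 78) (PT.lf (nat_lit 13984) (nat_lit 6) (nat_lit 184) (nat_lit 2) (nat_lit 216) (nat_lit 219) (nat_lit 165)) (PT.lf (nat_lit 13680) (nat_lit 6) (nat_lit 180) (nat_lit 2) (nat_lit 217) (nat_lit 219) (nat_lit 164))))) (PT.nd (nat_lit 312) (PT.nd (nat_lit 156) (PT.nd (nat_lit 78) (PT.lf (nat_lit 13376) (nat_lit 6) (nat_lit 176) (nat_lit 2) (nat_lit 218) (nat_lit 219) (nat_lit 163)) (PT.lf (nat_lit 13072) (nat_lit 3) (nat_lit 172) (nat_lit 0) (nat_lit 219) (nat_lit 219) (nat_lit 162))) (PT.nd (nat_lit 78) (PT.lf (nat_lit 12692) (nat_lit 6) (nat_lit 167) (nat_lit 0) (nat_lit 220) (nat_lit 219) (nat_lit 161)) (PT.lf (nat_lit 12312) (nat_lit 6) (nat_lit 162) (nat_lit 0) (nat_lit 221) (nat_lit 219) (nat_lit 160)))) (PT.nd (nat_lit 156) (PT.nd (nat_lit 78) (PT.lf (nat_lit 12008) (nat_lit 6) (nat_lit 158) (nat_lit 0) (nat_lit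 222) (nat_lit 219) (nat_lit 159)) (PT.lf (nat_lit 11628) (nat_lit 6) (nat_lit 153) (nat_lit 0) (nat_lit 223) (nat_lit 219) (nat_lit 158))) (PT.nd (nat_lit 78) (PT.lf (nat_lit 11324) (nat_lit 6) (nat_lit 149) (nat_lit 0) (nat_lit 224) (nat_lit 219) (nat_lit 157)) (PT.nd (nat_lit 56940) (PT.lf (nat_lit 11020) (nat_lit 6) (nat_lit 145) (nat_lit 0) (nat_lit 225) (nat_lit 219) (nat_lit 156)) (PT.lf (nat_lit 10488) (nat_lit 6) (nat_lit 138) (nat_lit 5) (nat_lit 154) (nat_lit 220) (nat_lit 226))))))))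
noncomputable def pc54 : PT := (PT.nd (nat_lit 1248) (PT.nd (nat_lit 624) (PT.nd (nat_lit 312) (PT.nd (nat_lit 156) (PT.nd (nat_lit 78) (PT.lf (nat_lit 10792) (nat_lit 6) (nat_lit 142) (nat_lit 5) (nat_lit 155) (nat_lit 220) (nat_lit 225)) (PT.lf (nat_lit 11096) (nat_lit 6) (nat_lit 146) (nat_lit 5) (nat_lit 156) (nat_lit 220) (nat_lit 224))) (PT.nd (nat_lit 78) (PT.lf (nat_lit 11400) (nat_lit 6) (nat_lit 150) (nat_lit 5) (nat_lit 157) (nat_lit 220) (nat_lit 223)) (PT.lf (nat_lit 11704) (nat_lit 6) (nat_lit 154) (nat_lit 5) (nat_lit 158) (nat_lit 220) (nat_lit 222)))) (PT.nd (nat_lit 156) (PT.nd (nat_lit 78) (PT.lf (nat_lit 12084) (nat_lit 6) (nat_lit 159) (nat_lit 5) (nat_lit 159) (nat_lit 220) (nat_lit 221)) (PT.lf (nat_lit 12388) (nat_lit 3) (nat_lit 163) (nat_lit 4) (nat_lit 160) (nat_lit 220) (nat_lit 220))) (PT.nd (nat_lit 78) (PT.lf (nat_lit 12692) (nat_lit 6) (nat_lit 167) (nat_lit 4) (nat_lit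 161) (nat_lit 220) (nat_lit 219)) (PT.lf (nat_lit 12996) (nat_lit 6) (nat_lit 171) (nat_lit 4) (nat_lit 162) (nat_lit 220) (nat_lit 218))))) (PT.nd (nat_lit 312) (PT.nd (nat_lit 156) (PT.nd (nat_lit 78) (PT.lf (nat_lit 13300) (nat_lit 6) (nat_lit 175) (nat_lit 4) (nat_lit 163) (nat_lit 220) (nat_lit 217)) (PT.lf (nat_lit 13604) (nat_lit 6) (nat_lit 179) (nat_lit 4) (nat_lit 164) (nat_lit 220) (nat_lit 216))) (PT.nd (nat_lit 78) (PT.lf (nat_lit 13908) (nat_lit 6) (nat_lit 183) (nat_lit 4) (nat_lit 165) (nat_lit 220) (nat_lit 215)) (PT.lf (nat_lit 14212) (nat_lit 6) (nat_lit 187) (nat_lit 4) (nat_lit 166) (nat_lit 220) (nat_lit 214)))) (PT.nd (nat_lit 156) (PT.nd (nat_lit 78) (PT.lf (nat_lit 14592) (nat_lit 6) (nat_lit 192) (nat_lit 4) (nat_lit 167) (nat_lit 220) (nat_lit 213)) (PT.lf (nat_lit 14896) (nat_lit 6) (nat_lit 196) (nat_lit 4) (nat_lit 168) (nat_lit 220) (nat_lit 212))) (PT.nd (nat_lit 78)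 (PT.lf (nat_lit 15276) (nat_lit 6) (nat_lit 201) (nat_lit 4) (nat_lit 169) (nat_lit 220) (nat_lit 211)) (PT.lf (nat_lit 15656) (nat_lit 6) (nat_lit 206) (nat_lit 4) (nat_lit 170) (nat_lit 220) (nat_lit 210)))))) (PT.nd (nat_lit 3510) (PT.nd (nat_lit 3198) (PT.nd (nat_lit 3042) (PT.nd (nat_lit 2964) (PT.lf (nat_lit 16112) (nat_lit 6) (nat_lit 212) (nat_lit 4) (nat_lit 171) (nat_lit 220) (nat_lit 209)) (PT.lf (nat_lit 16112) (nat_lit 6) (nat_lit 212) (nat_lit 2) (nat_lit 209) (nat_lit 220) (nat_lit 171))) (PT.nd (nat_lit 78) (PT.lf (nat_lit 15656) (nat_lit 6) (nat_lit 206) (nat_lit 2) (nat_lit 210) (nat_lit 220) (nat_lit 170)) (PT.lf (nat_lit 15276) (nat_lit 6) (nat_lit 201) (nat_lit 2) (nat_lit 211) (nat_lit 220) (nat_lit 169)))) (PT.nd (nat_lit 156) (PT.nd (nat_lit 78) (PT.lf (nat_lit 14896) (nat_lit 6) (nat_lit 196) (nat_lit 2) (nat_lit 212) (nat_lit 220) (nat_lit 168)) (PT.lf (nat_lit 14592) (nat_lit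 6) (nat_lit 192) (nat_lit 2) (nat_lit 213) (nat_lit 220) (nat_lit 167))) (PT.nd (nat_lit 78) (PT.lf (nat_lit 14212) (nat_lit 6) (nat_lit 187) (nat_lit 2) (nat_lit 214) (nat_lit 220) (nat_lit 166)) (PT.lf (nat_lit 13908) (nat_lit 6) (nat_lit 183) (nat_lit 2) (nat_lit 215) (nat_lit 220) (nat_lit 165))))) (PT.nd (nat_lit 312) (PT.nd (nat_lit 156) (PT.nd (nat_lit 78) (PT.lf (nat_lit 13604) (nat_lit 6) (nat_lit 179) (nat_lit 2) (nat_lit 216) (nat_lit 220) (nat_lit 164)) (PT.lf (nat_lit 13300) (nat_lit 6) (nat_lit 175) (nat_lit 2) (nat_lit 217) (nat_lit 220) (nat_lit 163))) (PT.nd (nat_lit 78) (PT.lf (nat_lit 12996) (nat_lit 6) (nat_lit 171) (nat_lit 2) (nat_lit 218) (nat_lit 220) (nat_lit 162)) (PT.lf (nat_lit 12692) (nat_lit 6) (nat_lit 167) (nat_lit 2) (nat_lit 219) (nat_lit 220) (nat_lit 161)))) (PT.nd (nat_lit 156) (PT.nd (nat_lit 78) (PT.lf (nat_lit 12388) (nat_lit 3) (nat_lit 163) (nat_lit 0) (nat_lit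 220) (nat_lit 220) (nat_lit 160)) (PT.lf (nat_lit 12084) (nat_lit 6) (nat_lit 159) (nat_lit 0) (nat_lit 221) (nat_lit 220) (nat_lit 159))) (PT.nd (nat_lit 78) (PT.lf (nat_lit 11704) (nat_lit 6) (nat_lit 154) (nat_lit 0) (nat_lit 222) (nat_lit 220) (nat_lit 158)) (PT.nd (nat_lit 78) (PT.lf (nat_lit 11400) (nat_lit 6) (nat_lit 150) (nat_lit 0) (nat_lit 223) (nat_lit 220) (nat_lit 157)) (PT.lf (nat_lit 11096) (nat_lit 6) (nat_lit 146) (nat_lit 0) (nat_lit 224) (nat_lit 220) (nat_lit 156))))))))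
noncomputable def pc55 : PT := (PT.nd (nat_lit 57954) (PT.nd (nat_lit 57330) (PT.nd (nat_lit 57018) (PT.nd (nat_lit 56862) (PT.nd (nat_lit 78) (PT.lf (nat_lit 10792) (nat_lit 6) (nat_lit 142) (nat_lit 0) (nat_lit 225) (nat_lit 220) (nat_lit 155)) (PT.lf (nat_lit 10488) (nat_lit 6) (nat_lit 138) (nat_lit 0) (nat_lit 226) (nat_lit 220) (nat_lit 154))) (PT.nd (nat_lit 78) (PT.lf (nat_lit 10260) (nat_lit 6) (nat_lit 135) (nat_lit 5) (nat_lit 153) (nat_lit 221) (nat_lit 226)) (PT.lf (nat_lit 10564) (nat_lit 6) (nat_lit 139) (nat_lit 5) (nat_lit 154) (nat_lit 221) (nat_lit 225)))) (PT.nd (nat_lit 156) (PT.nd (nat_lit 78) (PT.lf (nat_lit 10868) (nat_lit 6) (nat_lit 143) (nat_lit 5) (nat_lit 155) (nat_lit 221) (nat_lit 224)) (PT.lf (nat_lit 11172) (nat_lit 6) (nat_lit 147) (nat_lit 5) (nat_lit 156) (nat_lit 221) (nat_lit 223))) (PT.nd (nat_lit 78) (PT.lf (nat_lit 11476) (nat_lit 6) (nat_lit 151) (nat_lit 5)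 (nat_lit 157) (nat_lit 221) (nat_lit 222)) (PT.lf (nat_lit 11780) (nat_lit 3) (nat_lit 155) (nat_lit 4) (nat_lit 158) (nat_lit 221) (nat_lit 221))))) (PT.nd (nat_lit 312) (PT.nd (nat_lit 156) (PT.nd (nat_lit 78) (PT.lf (nat_lit 12084) (nat_lit 6) (nat_lit 159) (nat_lit 4) (nat_lit 159) (nat_lit 221) (nat_lit 220)) (PT.lf (nat_lit 12312) (nat_lit 6) (nat_lit 162) (nat_lit 4) (nat_lit 160) (nat_lit 221) (nat_lit 219))) (PT.nd (nat_lit 78) (PT.lf (nat_lit 12616) (nat_lit 6) (nat_lit 166) (nat_lit 4) (nat_lit 161) (nat_lit 221) (nat_lit 218)) (PT.lf (nat_lit 12920) (nat_lit 6) (nat_lit 170) (nat_lit 4) (nat_lit 162) (nat_lit 221) (nat_lit 217)))) (PT.nd (nat_lit 156) (PT.nd (nat_lit 78) (PT.lf (nat_lit 13224) (nat_lit 6) (nat_lit 174) (nat_lit 4) (nat_lit 163) (nat_lit 221) (nat_lit 216)) (PT.lf (nat_lit 13528) (nat_lit 6) (nat_lit 178) (nat_lit 4) (nat_lit 164) (nat_lit 221) (nat_lit 215))) (PT.nd (nat_lit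 78) (PT.lf (nat_lit 13832) (nat_lit 6) (nat_lit 182) (nat_lit 4) (nat_lit 165) (nat_lit 221) (nat_lit 214)) (PT.lf (nat_lit 14136) (nat_lit 6) (nat_lit 186) (nat_lit 4) (nat_lit 166) (nat_lit 221) (nat_lit 213)))))) (PT.nd (nat_lit 4056) (PT.nd (nat_lit 3744) (PT.nd (nat_lit 3588) (PT.nd (nat_lit 3510) (PT.lf (nat_lit 14516) (nat_lit 6) (nat_lit 191) (nat_lit 4) (nat_lit 167) (nat_lit 221) (nat_lit 212)) (PT.lf (nat_lit 14516) (nat_lit 6) (nat_lit 191) (nat_lit 2) (nat_lit 212) (nat_lit 221) (nat_lit 167))) (PT.nd (nat_lit 78) (PT.lf (nat_lit 14136) (nat_lit 6) (nat_lit 186) (nat_lit 2) (nat_lit 213) (nat_lit 221) (nat_lit 166)) (PT.lf (nat_lit 13832) (nat_lit 6) (nat_lit 182) (nat_lit 2) (nat_lit 214) (nat_lit 221) (nat_lit 165)))) (PT.nd (nat_lit 156) (PT.nd (nat_lit 78) (PT.lf (nat_lit 13528) (nat_lit 6) (nat_lit 178) (nat_lit 2) (nat_lit 215) (nat_lit 221) (nat_lit 164)) (PT.lf (nat_lit 13224)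 (nat_lit 6) (nat_lit 174) (nat_lit 2) (nat_lit 216) (nat_lit 221) (nat_lit 163))) (PT.nd (nat_lit 78) (PT.lf (nat_lit 12920) (nat_lit 6) (nat_lit 170) (nat_lit 2) (nat_lit 217) (nat_lit 221) (nat_lit 162)) (PT.lf (nat_lit 12616) (nat_lit 6) (nat_lit 166) (nat_lit 2) (nat_lit 218) (nat_lit 221) (nat_lit 161))))) (PT.nd (nat_lit 312) (PT.nd (nat_lit 156) (PT.nd (nat_lit 78) (PT.lf (nat_lit 12312) (nat_lit 6) (nat_lit 162) (nat_lit 2) (nat_lit 219) (nat_lit 221) (nat_lit 160)) (PT.lf (nat_lit 12084) (nat_lit 6) (nat_lit 159) (nat_lit 2) (nat_lit 220) (nat_lit 221) (nat_lit 159))) (PT.nd (nat_lit 78) (PT.lf (nat_lit 11780) (nat_lit 3) (nat_lit 155) (nat_lit 0) (nat_lit 221) (nat_lit 221) (nat_lit 158)) (PT.lf (nat_lit 11476) (nat_lit 6) (nat_lit 151) (nat_lit 0) (nat_lit 222) (nat_lit 221) (nat_lit 157)))) (PT.nd (nat_lit 156) (PT.nd (nat_lit 78) (PT.lf (nat_lit 11172) (nat_lit 6) (nat_lit 147) (nat_lit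 0) (nat_lit 223) (nat_lit 221) (nat_lit 156)) (PT.lf (nat_lit 10868) (nat_lit 6) (nat_lit 143) (nat_lit 0) (nat_lit 224) (nat_lit 221) (nat_lit 155))) (PT.nd (nat_lit 78) (PT.lf (nat_lit 10564) (nat_lit 6) (nat_lit 139) (nat_lit 0) (nat_lit 225) (nat_lit 221) (nat_lit 154)) (PT.nd (nat_lit 56628) (PT.lf (nat_lit 10260) (nat_lit 6) (nat_lit 135) (nat_lit 0) (nat_lit 226) (nat_lit 221) (nat_lit 153)) (PT.lf (nat_lit 9804) (nat_lit 6) (nat_lit 129) (nat_lit 5) (nat_lit 151) (nat_lit 222) (nat_lit 227))))))))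
noncomputable def pc56 : PT := (PT.nd (nat_lit 5070) (PT.nd (nat_lit 624) (PT.nd (nat_lit 312) (PT.nd (nat_lit 156) (PT.nd (nat_lit 78) (PT.lf (nat_lit 10032) (nat_lit 6) (nat_lit 132) (nat_lit 5) (nat_lit 152) (nat_lit 222) (nat_lit 226)) (PT.lf (nat_lit 10336) (nat_lit 6) (nat_lit 136) (nat_lit 5) (nat_lit 153) (nat_lit 222) (nat_lit 225))) (PT.nd (nat_lit 78) (PT.lf (nat_lit 10640) (nat_lit 6) (nat_lit 140) (nat_lit 5) (nat_lit 154) (nat_lit 222) (nat_lit 224)) (PT.lf (nat_lit 10944) (nat_lit 6) (nat_lit 144) (nat_lit 5) (nat_lit 155) (nat_lit 222) (nat_lit 223)))) (PT.nd (nat_lit 156) (PT.nd (nat_lit 78) (PT.lf (nat_lit 11248) (nat_lit 3) (nat_lit 148) (nat_lit 4) (nat_lit 156) (nat_lit 222) (nat_lit 222)) (PT.lf (nat_lit 11476) (nat_lit 6) (nat_lit 151) (nat_lit 4) (nat_lit 157) (nat_lit 222) (nat_lit 221))) (PT.nd (nat_lit 78) (PT.lf (nat_lit 11704) (nat_lit 6) (nat_lit 154) (nat_lit 4) (nat_lit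 158) (nat_lit 222) (nat_lit 220)) (PT.lf (nat_lit 12008) (nat_lit 6) (nat_lit 158) (nat_lit 4) (nat_lit 159) (nat_lit 222) (nat_lit 219))))) (PT.nd (nat_lit 312) (PT.nd (nat_lit 156) (PT.nd (nat_lit 78) (PT.lf (nat_lit 12236) (nat_lit 6) (nat_lit 161) (nat_lit 4) (nat_lit 160) (nat_lit 222) (nat_lit 218)) (PT.lf (nat_lit 12540) (nat_lit 6) (nat_lit 165) (nat_lit 4) (nat_lit 161) (nat_lit 222) (nat_lit 217))) (PT.nd (nat_lit 78) (PT.lf (nat_lit 12844) (nat_lit 6) (nat_lit 169) (nat_lit 4) (nat_lit 162) (nat_lit 222) (nat_lit 216)) (PT.lf (nat_lit 13148) (nat_lit 6) (nat_lit 173) (nat_lit 4) (nat_lit 163) (nat_lit 222) (nat_lit 215)))) (PT.nd (nat_lit 3978) (PT.nd (nat_lit 3900) (PT.lf (nat_lit 13452) (nat_lit 6) (nat_lit 177) (nat_lit 4) (nat_lit 164) (nat_lit 222) (nat_lit 214)) (PT.lf (nat_lit 13452) (nat_lit 6) (nat_lit 177) (nat_lit 2) (nat_lit 214) (nat_lit 222) (nat_lit 164))) (PT.nd (nat_lit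 78) (PT.lf (nat_lit 13148) (nat_lit 6) (nat_lit 173) (nat_lit 2) (nat_lit 215) (nat_lit 222) (nat_lit 163)) (PT.lf (nat_lit 12844) (nat_lit 6) (nat_lit 169) (nat_lit 2) (nat_lit 216) (nat_lit 222) (nat_lit 162)))))) (PT.nd (nat_lit 624) (PT.nd (nat_lit 312) (PT.nd (nat_lit 156) (PT.nd (nat_lit 78) (PT.lf (nat_lit 12540) (nat_lit 6) (nat_lit 165) (nat_lit 2) (nat_lit 217) (nat_lit 222) (nat_lit 161)) (PT.lf (nat_lit 12236) (nat_lit 6) (nat_lit 161) (nat_lit 2) (nat_lit 218) (nat_lit 222) (nat_lit 160))) (PT.nd (nat_lit 78) (PT.lf (nat_lit 12008) (nat_lit 6) (nat_lit 158) (nat_lit 2) (nat_lit 219) (nat_lit 222) (nat_lit 159)) (PT.lf (nat_lit 11704) (nat_lit 6) (nat_lit 154) (nat_lit 2) (nat_lit 220) (nat_lit 222) (nat_lit 158)))) (PT.nd (nat_lit 156) (PT.nd (nat_lit 78) (PT.lf (nat_lit 11476) (nat_lit 6) (nat_lit 151) (nat_lit 2) (nat_lit 221) (nat_lit 222) (nat_lit 157)) (PT.lf (nat_lit 11248) (nat_lit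 3) (nat_lit 148) (nat_lit 0) (nat_lit 222) (nat_lit 222) (nat_lit 156))) (PT.nd (nat_lit 78) (PT.lf (nat_lit 10944) (nat_lit 6) (nat_lit 144) (nat_lit 0) (nat_lit 223) (nat_lit 222) (nat_lit 155)) (PT.lf (nat_lit 10640) (nat_lit 6) (nat_lit 140) (nat_lit 0) (nat_lit 224) (nat_lit 222) (nat_lit 154))))) (PT.nd (nat_lit 56628) (PT.nd (nat_lit 156) (PT.nd (nat_lit 78) (PT.lf (nat_lit 10336) (nat_lit 6) (nat_lit 136) (nat_lit 0) (nat_lit 225) (nat_lit 222) (nat_lit 153)) (PT.lf (nat_lit 10032) (nat_lit 6) (nat_lit 132) (nat_lit 0) (nat_lit 226) (nat_lit 222) (nat_lit 152))) (PT.nd (nat_lit 56394) (PT.lf (nat_lit 9804) (nat_lit 6) (nat_lit 129) (nat_lit 0) (nat_lit 227) (nat_lit 222) (nat_lit 151)) (PT.lf (nat_lit 9348) (nat_lit 6) (nat_lit 123) (nat_lit 5) (nat_lit 149) (nat_lit 223) (nat_lit 228)))) (PT.nd (nat_lit 156) (PT.nd (nat_lit 78) (PT.lf (nat_lit 9576) (nat_lit 6) (nat_lit 126) (nat_lit 5) (nat_lit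 150) (nat_lit 223) (nat_lit 227)) (PT.lf (nat_lit 9880) (nat_lit 6) (nat_lit 130) (nat_lit 5) (nat_lit 151) (nat_lit 223) (nat_lit 226))) (PT.nd (nat_lit 78) (PT.lf (nat_lit 10108) (nat_lit 6) (nat_lit 133) (nat_lit 5) (nat_lit 152) (nat_lit 223) (nat_lit 225)) (PT.lf (nat_lit 10412) (nat_lit 6) (nat_lit 137) (nat_lit 5) (nat_lit 153) (nat_lit 223) (nat_lit 224)))))))
noncomputable def pc57 : PT := (PT.nd (nat_lit 5460) (PT.nd (nat_lit 4836) (PT.nd (nat_lit 312) (PT.nd (nat_lit 156) (PT.nd (nat_lit 78) (PT.lf (nat_lit 10716) (nat_lit 3) (nat_lit 141) (nat_lit 4) (nat_lit 154) (nat_lit 223) (nat_lit 223)) (PT.lf (nat_lit 10944) (nat_lit 6) (nat_lit 144) (nat_lit 4) (nat_lit 155) (nat_lit 223) (nat_lit 222))) (PT.nd (nat_lit 78) (PT.lf (nat_lit 11172) (nat_lit 6) (nat_lit 147) (nat_lit 4) (nat_lit 156) (nat_lit 223) (nat_lit 221)) (PT.lf (nat_lit 11400) (nat_lit 6) (nat_lit 150) (nat_lit 4) (nat_lit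 157) (nat_lit 223) (nat_lit 220)))) (PT.nd (nat_lit 156) (PT.nd (nat_lit 78) (PT.lf (nat_lit 11628) (nat_lit 6) (nat_lit 153) (nat_lit 4) (nat_lit 158) (nat_lit 223) (nat_lit 219)) (PT.lf (nat_lit 11932) (nat_lit 6) (nat_lit 157) (nat_lit 4) (nat_lit 159) (nat_lit 223) (nat_lit 218))) (PT.nd (nat_lit 78) (PT.lf (nat_lit 12160) (nat_lit 6) (nat_lit 160) (nat_lit 4) (nat_lit 160) (nat_lit 223) (nat_lit 217)) (PT.lf (nat_lit 12464) (nat_lit 6) (nat_lit 164) (nat_lit 4) (nat_lit 161) (nat_lit 223) (nat_lit 216))))) (PT.nd (nat_lit 312) (PT.nd (nat_lit 156) (PT.nd (nat_lit 78) (PT.lf (nat_lit 12464) (nat_lit 6) (nat_lit 164) (nat_lit 2) (nat_lit 216) (nat_lit 223) (nat_lit 161)) (PT.lf (nat_lit 12160) (nat_lit 6) (nat_lit 160) (nat_lit 2) (nat_lit 217) (nat_lit 223) (nat_lit 160))) (PT.nd (nat_lit 78) (PT.lf (nat_lit 11932) (nat_lit 6) (nat_lit 157) (nat_lit 2) (nat_lit 218) (nat_lit 223) (nat_lit 159))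 (PT.lf (nat_lit 11628) (nat_lit 6) (nat_lit 153) (nat_lit 2) (nat_lit 219) (nat_lit 223) (nat_lit 158)))) (PT.nd (nat_lit 156) (PT.nd (nat_lit 78) (PT.lf (nat_lit 11400) (nat_lit 6) (nat_lit 150) (nat_lit 2) (nat_lit 220) (nat_lit 223) (nat_lit 157)) (PT.lf (nat_lit 11172) (nat_lit 6) (nat_lit 147) (nat_lit 2) (nat_lit 221) (nat_lit 223) (nat_lit 156))) (PT.nd (nat_lit 78) (PT.lf (nat_lit 10944) (nat_lit 6) (nat_lit 144) (nat_lit 2) (nat_lit 222) (nat_lit 223) (nat_lit 155)) (PT.lf (nat_lit 10716) (nat_lit 3) (nat_lit 141) (nat_lit 0) (nat_lit 223) (nat_lit 223) (nat_lit 154)))))) (PT.nd (nat_lit 56784) (PT.nd (nat_lit 312) (PT.nd (nat_lit 156) (PT.nd (nat_lit 78) (PT.lf (nat_lit 10412) (nat_lit 6) (nat_lit 137) (nat_lit 0) (nat_lit 224) (nat_lit 223) (nat_lit 153)) (PT.lf (nat_lit 10108) (nat_lit 6) (nat_lit 133) (nat_lit 0) (nat_lit 225) (nat_lit 223) (nat_lit 152))) (PT.nd (nat_lit 78) (PT.lf (nat_lit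 9880) (nat_lit 6) (nat_lit 130) (nat_lit 0) (nat_lit 226) (nat_lit 223) (nat_lit 151)) (PT.lf (nat_lit 9576) (nat_lit 6) (nat_lit 126) (nat_lit 0) (nat_lit 227) (nat_lit 223) (nat_lit 150)))) (PT.nd (nat_lit 56316) (PT.nd (nat_lit 56238) (PT.lf (nat_lit 9348) (nat_lit 6) (nat_lit 123) (nat_lit 0) (nat_lit 228) (nat_lit 223) (nat_lit 149)) (PT.lf (nat_lit 9120) (nat_lit 6) (nat_lit 120) (nat_lit 5) (nat_lit 148) (nat_lit 224) (nat_lit 228))) (PT.nd (nat_lit 78) (PT.lf (nat_lit 9424) (nat_lit 6) (nat_lit 124) (nat_lit 5) (nat_lit 149) (nat_lit 224) (nat_lit 227)) (PT.lf (nat_lit 9652) (nat_lit 6) (nat_lit 127) (nat_lit 5) (nat_lit 150) (nat_lit 224) (nat_lit 226))))) (PT.nd (nat_lit 312) (PT.nd (nat_lit 156) (PT.nd (nat_lit 78) (PT.lf (nat_lit 9956) (nat_lit 6) (nat_lit 131) (nat_lit 5) (nat_lit 151) (nat_lit 224) (nat_lit 225)) (PT.lf (nat_lit 10184) (nat_lit 3) (nat_lit 134) (nat_lit 4) (nat_lit 152)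 (nat_lit 224) (nat_lit 224))) (PT.nd (nat_lit 78) (PT.lf (nat_lit 10412) (nat_lit 6) (nat_lit 137) (nat_lit 4) (nat_lit 153) (nat_lit 224) (nat_lit 223)) (PT.lf (nat_lit 10640) (nat_lit 6) (nat_lit 140) (nat_lit 4) (nat_lit 154) (nat_lit 224) (nat_lit 222)))) (PT.nd (nat_lit 156) (PT.nd (nat_lit 78) (PT.lf (nat_lit 10868) (nat_lit 6) (nat_lit 143) (nat_lit 4) (nat_lit 155) (nat_lit 224) (nat_lit 221)) (PT.lf (nat_lit 11096) (nat_lit 6) (nat_lit 146) (nat_lit 4) (nat_lit 156) (nat_lit 224) (nat_lit 220))) (PT.nd (nat_lit 78) (PT.lf (nat_lit 11324) (nat_lit 6) (nat_lit 149) (nat_lit 4) (nat_lit 157) (nat_lit 224) (nat_lit 219)) (PT.nd (nat_lit 78) (PT.lf (nat_lit 11552) (nat_lit 6) (nat_lit 152) (nat_lit 4) (nat_lit 158) (nat_lit 224) (nat_lit 218)) (PT.lf (nat_lit 11856) (nat_lit 6) (nat_lit 156) (nat_lit 4) (nat_lit 159) (nat_lit 224) (nat_lit 217))))))))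
noncomputable def pc58 : PT := (PT.nd (nat_lit 57252) (PT.nd (nat_lit 624) (PT.nd (nat_lit 312) (PT.nd (nat_lit 156) (PT.nd (nat_lit 78) (PT.lf (nat_lit 11856) (nat_lit 6) (nat_lit 156) (nat_lit 2) (nat_lit 217) (nat_lit 224) (nat_lit 159)) (PT.lf (nat_lit 11552) (nat_lit 6) (nat_lit 152) (nat_lit 2) (nat_lit 218) (nat_lit 224) (nat_lit 158))) (PT.nd (nat_lit 78) (PT.lf (nat_lit 11324) (nat_lit 6) (nat_lit 149) (nat_lit 2) (nat_lit 219) (nat_lit 224) (nat_lit 157)) (PT.lf (nat_lit 11096) (nat_lit 6) (nat_lit 146) (nat_lit 2) (nat_lit 220) (nat_lit 224) (nat_lit 156)))) (PT.nd (nat_lit 156) (PT.nd (nat_lit 78) (PT.lf (nat_lit 10868) (nat_lit 6) (nat_lit 143) (nat_lit 2) (nat_lit 221) (nat_lit 224) (nat_lit 155)) (PT.lf (nat_lit 10640) (nat_lit 6) (nat_lit 140) (nat_lit 2) (nat_lit 222) (nat_lit 224) (nat_lit 154))) (PT.nd (nat_lit 78) (PT.lf (nat_lit 10412) (nat_lit 6) (nat_lit 137) (nat_lit 2) (nat_lit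 223) (nat_lit 224) (nat_lit 153)) (PT.lf (nat_lit 10184) (nat_lit 3) (nat_lit 134) (nat_lit 0) (nat_lit 224) (nat_lit 224) (nat_lit 152))))) (PT.nd (nat_lit 56316) (PT.nd (nat_lit 156) (PT.nd (nat_lit 78) (PT.lf (nat_lit 9956) (nat_lit 6) (nat_lit 131) (nat_lit 0) (nat_lit 225) (nat_lit 224) (nat_lit 151)) (PT.lf (nat_lit 9652) (nat_lit 6) (nat_lit 127) (nat_lit 0) (nat_lit 226) (nat_lit 224) (nat_lit 150))) (PT.nd (nat_lit 78) (PT.lf (nat_lit 9424) (nat_lit 6) (nat_lit 124) (nat_lit 0) (nat_lit 227) (nat_lit 224) (nat_lit 149)) (PT.lf (nat_lit 9120) (nat_lit 6) (nat_lit 120) (nat_lit 0) (nat_lit 228) (nat_lit 224) (nat_lit 148)))) (PT.nd (nat_lit 156) (PT.nd (nat_lit 78) (PT.lf (nat_lit 8664) (nat_lit 6) (nat_lit 114) (nat_lit 5) (nat_lit 146) (nat_lit 225) (nat_lit 229)) (PT.lf (nat_lit 8968) (nat_lit 6) (nat_lit 118) (nat_lit 5) (nat_lit 147) (nat_lit 225) (nat_lit 228))) (PT.nd (nat_lit 78) (PT.lf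 (nat_lit 9196) (nat_lit 6) (nat_lit 121) (nat_lit 5) (nat_lit 148) (nat_lit 225) (nat_lit 227)) (PT.lf (nat_lit 9500) (nat_lit 6) (nat_lit 125) (nat_lit 5) (nat_lit 149) (nat_lit 225) (nat_lit 226)))))) (PT.nd (nat_lit 5460) (PT.nd (nat_lit 312) (PT.nd (nat_lit 156) (PT.nd (nat_lit 78) (PT.lf (nat_lit 9728) (nat_lit 3) (nat_lit 128) (nat_lit 4) (nat_lit 150) (nat_lit 225) (nat_lit 225)) (PT.lf (nat_lit 9956) (nat_lit 6) (nat_lit 131) (nat_lit 4) (nat_lit 151) (nat_lit 225) (nat_lit 224))) (PT.nd (nat_lit 78) (PT.lf (nat_lit 10108) (nat_lit 6) (nat_lit 133) (nat_lit 4) (nat_lit 152) (nat_lit 225) (nat_lit 223)) (PT.lf (nat_lit 10336) (nat_lit 6) (nat_lit 136) (nat_lit 4) (nat_lit 153) (nat_lit 225) (nat_lit 222)))) (PT.nd (nat_lit 156) (PT.nd (nat_lit 78) (PT.lf (nat_lit 10564) (nat_lit 6) (nat_lit 139) (nat_lit 4) (nat_lit 154) (nat_lit 225) (nat_lit 221)) (PT.lf (nat_lit 10792) (nat_lit 6) (nat_lit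 142) (nat_lit 4) (nat_lit 155) (nat_lit 225) (nat_lit 220))) (PT.nd (nat_lit 4914) (PT.lf (nat_lit 11020) (nat_lit 6) (nat_lit 145) (nat_lit 4) (nat_lit 156) (nat_lit 225) (nat_lit 219)) (PT.lf (nat_lit 11020) (nat_lit 6) (nat_lit 145) (nat_lit 2) (nat_lit 219) (nat_lit 225) (nat_lit 156))))) (PT.nd (nat_lit 312) (PT.nd (nat_lit 156) (PT.nd (nat_lit 78) (PT.lf (nat_lit 10792) (nat_lit 6) (nat_lit 142) (nat_lit 2) (nat_lit 220) (nat_lit 225) (nat_lit 155)) (PT.lf (nat_lit 10564) (nat_lit 6) (nat_lit 139) (nat_lit 2) (nat_lit 221) (nat_lit 225) (nat_lit 154))) (PT.nd (nat_lit 78) (PT.lf (nat_lit 10336) (nat_lit 6) (nat_lit 136) (nat_lit 2) (nat_lit 222) (nat_lit 225) (nat_lit 153)) (PT.lf (nat_lit 10108) (nat_lit 6) (nat_lit 133) (nat_lit 2) (nat_lit 223) (nat_lit 225) (nat_lit 152)))) (PT.nd (nat_lit 156) (PT.nd (nat_lit 78) (PT.lf (nat_lit 9956) (nat_lit 6) (nat_lit 131) (nat_lit 2) (nat_lit 224) (nat_lit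 225) (nat_lit 151)) (PT.lf (nat_lit 9728) (nat_lit 3) (nat_lit 128) (nat_lit 0) (nat_lit 225) (nat_lit 225) (nat_lit 150))) (PT.nd (nat_lit 78) (PT.lf (nat_lit 9500) (nat_lit 6) (nat_lit 125) (nat_lit 0) (nat_lit 226) (nat_lit 225) (nat_lit 149)) (PT.nd (nat_lit 78) (PT.lf (nat_lit 9196) (nat_lit 6) (nat_lit 121) (nat_lit 0) (nat_lit 227) (nat_lit 225) (nat_lit 148)) (PT.lf (nat_lit 8968) (nat_lit 6) (nat_lit 118) (nat_lit 0) (nat_lit 228) (nat_lit 225) (nat_lit 147))))))))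
noncomputable def pc59 : PT := (PT.nd (nat_lit 62088) (PT.nd (nat_lit 56394) (PT.nd (nat_lit 56082) (PT.nd (nat_lit 55926) (PT.nd (nat_lit 55848) (PT.lf (nat_lit 8664) (nat_lit 6) (nat_lit 114) (nat_lit 0) (nat_lit 229) (nat_lit 225) (nat_lit 146)) (PT.lf (nat_lit 8284) (nat_lit 6) (nat_lit 109) (nat_lit 5) (nat_lit 144) (nat_lit 226) (nat_lit 230))) (PT.nd (nat_lit 78) (PT.lf (nat_lit 8512) (nat_lit 6) (nat_lit 112) (nat_lit 5) (nat_lit 145) (nat_lit 226) (nat_lit 229)) (PT.lf (nat_lit 8740) (nat_lit 6) (nat_lit 115) (nat_lit 5) (nat_lit 146) (nat_lit 226) (nat_lit 228)))) (PT.nd (nat_lit 156) (PT.nd (nat_lit 78) (PT.lf (nat_lit 9044) (nat_lit 6) (nat_lit 119) (nat_lit 5) (nat_lit 147) (nat_lit 226) (nat_lit 227)) (PT.lf (nat_lit 9272) (nat_lit 3) (nat_lit 122) (nat_lit 4) (nat_lit 148) (nat_lit 226) (nat_lit 226))) (PT.nd (nat_lit 78) (PT.lf (nat_lit 9500) (nat_lit 6) (nat_lit 125) (nat_lit 4) (nat_lit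 149) (nat_lit 226) (nat_lit 225)) (PT.lf (nat_lit 9652) (nat_lit 6) (nat_lit 127) (nat_lit 4) (nat_lit 150) (nat_lit 226) (nat_lit 224))))) (PT.nd (nat_lit 5382) (PT.nd (nat_lit 156) (PT.nd (nat_lit 78) (PT.lf (nat_lit 9880) (nat_lit 6) (nat_lit 130) (nat_lit 4) (nat_lit 151) (nat_lit 226) (nat_lit 223)) (PT.lf (nat_lit 10032) (nat_lit 6) (nat_lit 132) (nat_lit 4) (nat_lit 152) (nat_lit 226) (nat_lit 222))) (PT.nd (nat_lit 78) (PT.lf (nat_lit 10260) (nat_lit 6) (nat_lit 135) (nat_lit 4) (nat_lit 153) (nat_lit 226) (nat_lit 221)) (PT.lf (nat_lit 10488) (nat_lit 6) (nat_lit 138) (nat_lit 4) (nat_lit 154) (nat_lit 226) (nat_lit 220)))) (PT.nd (nat_lit 156) (PT.nd (nat_lit 78) (PT.lf (nat_lit 10488) (nat_lit 6) (nat_lit 138) (nat_lit 2) (nat_lit 220) (nat_lit 226) (nat_lit 154)) (PT.lf (nat_lit 10260) (nat_lit 6) (nat_lit 135) (nat_lit 2) (nat_lit 221) (nat_lit 226) (nat_lit 153))) (PT.nd (nat_lit 78)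 (PT.lf (nat_lit 10032) (nat_lit 6) (nat_lit 132) (nat_lit 2) (nat_lit 222) (nat_lit 226) (nat_lit 152)) (PT.lf (nat_lit 9880) (nat_lit 6) (nat_lit 130) (nat_lit 2) (nat_lit 223) (nat_lit 226) (nat_lit 151)))))) (PT.nd (nat_lit 56238) (PT.nd (nat_lit 312) (PT.nd (nat_lit 156) (PT.nd (nat_lit 78) (PT.lf (nat_lit 9652) (nat_lit 6) (nat_lit 127) (nat_lit 2) (nat_lit 224) (nat_lit 226) (nat_lit 150)) (PT.lf (nat_lit 9500) (nat_lit 6) (nat_lit 125) (nat_lit 2) (nat_lit 225) (nat_lit 226) (nat_lit 149))) (PT.nd (nat_lit 78) (PT.lf (nat_lit 9272) (nat_lit 3) (nat_lit 122) (nat_lit 0) (nat_lit 226) (nat_lit 226) (nat_lit 148)) (PT.lf (nat_lit 9044) (nat_lit 6) (nat_lit 119) (nat_lit 0) (nat_lit 227) (nat_lit 226) (nat_lit 147)))) (PT.nd (nat_lit 156) (PT.nd (nat_lit 78) (PT.lf (nat_lit 8740) (nat_lit 6) (nat_lit 115) (nat_lit 0) (nat_lit 228) (nat_lit 226) (nat_lit 146)) (PT.lf (nat_lit 8512) (nat_lit 6) (nat_lit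 112) (nat_lit 0) (nat_lit 229) (nat_lit 226) (nat_lit 145))) (PT.nd (nat_lit 55692) (PT.lf (nat_lit 8284) (nat_lit 6) (nat_lit 109) (nat_lit 0) (nat_lit 230) (nat_lit 226) (nat_lit 144)) (PT.lf (nat_lit 8132) (nat_lit 6) (nat_lit 107) (nat_lit 5) (nat_lit 143) (nat_lit 227) (nat_lit 230))))) (PT.nd (nat_lit 312) (PT.nd (nat_lit 156) (PT.nd (nat_lit 78) (PT.lf (nat_lit 8360) (nat_lit 6) (nat_lit 110) (nat_lit 5) (nat_lit 144) (nat_lit 227) (nat_lit 229)) (PT.lf (nat_lit 8588) (nat_lit 6) (nat_lit 113) (nat_lit 5) (nat_lit 145) (nat_lit 227) (nat_lit 228))) (PT.nd (nat_lit 78) (PT.lf (nat_lit 8816) (nat_lit 3) (nat_lit 116) (nat_lit 4) (nat_lit 146) (nat_lit 227) (nat_lit 227)) (PT.lf (nat_lit 9044) (nat_lit 6) (nat_lit 119) (nat_lit 4) (nat_lit 147) (nat_lit 227) (nat_lit 226)))) (PT.nd (nat_lit 156) (PT.nd (nat_lit 78) (PT.lf (nat_lit 9196) (nat_lit 6) (nat_lit 121) (nat_lit 4) (nat_lit 148) (nat_lit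 227) (nat_lit 225)) (PT.lf (nat_lit 9424) (nat_lit 6) (nat_lit 124) (nat_lit 4) (nat_lit 149) (nat_lit 227) (nat_lit 224))) (PT.nd (nat_lit 78) (PT.lf (nat_lit 9576) (nat_lit 6) (nat_lit 126) (nat_lit 4) (nat_lit 150) (nat_lit 227) (nat_lit 223)) (PT.nd (nat_lit 5538) (PT.lf (nat_lit 9804) (nat_lit 6) (nat_lit 129) (nat_lit 4) (nat_lit 151) (nat_lit 227) (nat_lit 222)) (PT.lf (nat_lit 9804) (nat_lit 6) (nat_lit 129) (nat_lit 2) (nat_lit 222) (nat_lit 227) (nat_lit 151))))))))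
noncomputable def pc60 : PT := (PT.nd (nat_lit 56706) (PT.nd (nat_lit 56082) (PT.nd (nat_lit 312) (PT.nd (nat_lit 156) (PT.nd (nat_lit 78) (PT.lf (nat_lit 9576) (nat_lit 6) (nat_lit 126) (nat_lit 2) (nat_lit 223) (nat_lit 227) (nat_lit 150)) (PT.lf (nat_lit 9424) (nat_lit 6) (nat_lit 124) (nat_lit 2) (nat_lit 224) (nat_lit 227) (nat_lit 149))) (PT.nd (nat_lit 78) (PT.lf (nat_lit 9196) (nat_lit 6) (nat_lit 121) (nat_lit 2) (nat_lit 225) (nat_lit 227) (nat_lit 148)) (PT.lf (nat_lit 9044) (nat_lit 6) (nat_lit 119) (nat_lit 2) (nat_lit 226) (nat_lit 227) (nat_lit 147)))) (PT.nd (nat_lit 156) (PT.nd (nat_lit 78) (PT.lf (nat_lit 8816) (nat_lit 3) (nat_lit 116) (nat_lit 0) (nat_lit 227) (nat_lit 227) (nat_lit 146)) (PT.lf (nat_lit 8588) (nat_lit 6) (nat_lit 113) (nat_lit 0) (nat_lit 228) (nat_lit 227) (nat_lit 145))) (PT.nd (nat_lit 78) (PT.lf (nat_lit 8360) (nat_lit 6) (nat_lit 110) (nat_lit 0) (nat_lit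 229) (nat_lit 227) (nat_lit 144)) (PT.lf (nat_lit 8132) (nat_lit 6) (nat_lit 107) (nat_lit 0) (nat_lit 230) (nat_lit 227) (nat_lit 143))))) (PT.nd (nat_lit 312) (PT.nd (nat_lit 156) (PT.nd (nat_lit 78) (PT.lf (nat_lit 7752) (nat_lit 6) (nat_lit 102) (nat_lit 5) (nat_lit 141) (nat_lit 228) (nat_lit 231)) (PT.lf (nat_lit 7980) (nat_lit 6) (nat_lit 105) (nat_lit 5) (nat_lit 142) (nat_lit 228) (nat_lit 230))) (PT.nd (nat_lit 78) (PT.lf (nat_lit 8208) (nat_lit 6) (nat_lit 108) (nat_lit 5) (nat_lit 143) (nat_lit 228) (nat_lit 229)) (PT.lf (nat_lit 8436) (nat_lit 3) (nat_lit 111) (nat_lit 4) (nat_lit 144) (nat_lit 228) (nat_lit 228)))) (PT.nd (nat_lit 156) (PT.nd (nat_lit 78) (PT.lf (nat_lit 8588) (nat_lit 6) (nat_lit 113) (nat_lit 4) (nat_lit 145) (nat_lit 228) (nat_lit 227)) (PT.lf (nat_lit 8740) (nat_lit 6) (nat_lit 115) (nat_lit 4) (nat_lit 146) (nat_lit 228) (nat_lit 226))) (PT.nd (nat_lit 78) (PT.lf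 (nat_lit 8968) (nat_lit 6) (nat_lit 118) (nat_lit 4) (nat_lit 147) (nat_lit 228) (nat_lit 225)) (PT.lf (nat_lit 9120) (nat_lit 6) (nat_lit 120) (nat_lit 4) (nat_lit 148) (nat_lit 228) (nat_lit 224)))))) (PT.nd (nat_lit 6318) (PT.nd (nat_lit 6006) (PT.nd (nat_lit 5850) (PT.nd (nat_lit 5772) (PT.lf (nat_lit 9348) (nat_lit 6) (nat_lit 123) (nat_lit 4) (nat_lit 149) (nat_lit 228) (nat_lit 223)) (PT.lf (nat_lit 9348) (nat_lit 6) (nat_lit 123) (nat_lit 2) (nat_lit 223) (nat_lit 228) (nat_lit 149))) (PT.nd (nat_lit 78) (PT.lf (nat_lit 9120) (nat_lit 6) (nat_lit 120) (nat_lit 2) (nat_lit 224) (nat_lit 228) (nat_lit 148)) (PT.lf (nat_lit 8968) (nat_lit 6) (nat_lit 118) (nat_lit 2) (nat_lit 225) (nat_lit 228) (nat_lit 147)))) (PT.nd (nat_lit 156) (PT.nd (nat_lit 78) (PT.lf (nat_lit 8740) (nat_lit 6) (nat_lit 115) (nat_lit 2) (nat_lit 226) (nat_lit 228) (nat_lit 146)) (PT.lf (nat_lit 8588) (nat_lit 6) (nat_lit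 113) (nat_lit 2) (nat_lit 227) (nat_lit 228) (nat_lit 145))) (PT.nd (nat_lit 78) (PT.lf (nat_lit 8436) (nat_lit 3) (nat_lit 111) (nat_lit 0) (nat_lit 228) (nat_lit 228) (nat_lit 144)) (PT.lf (nat_lit 8208) (nat_lit 6) (nat_lit 108) (nat_lit 0) (nat_lit 229) (nat_lit 228) (nat_lit 143))))) (PT.nd (nat_lit 55536) (PT.nd (nat_lit 55380) (PT.nd (nat_lit 78) (PT.lf (nat_lit 7980) (nat_lit 6) (nat_lit 105) (nat_lit 0) (nat_lit 230) (nat_lit 228) (nat_lit 142)) (PT.lf (nat_lit 7752) (nat_lit 6) (nat_lit 102) (nat_lit 0) (nat_lit 231) (nat_lit 228) (nat_lit 141))) (PT.nd (nat_lit 78) (PT.lf (nat_lit 7372) (nat_lit 6) (nat_lit 97) (nat_lit 5) (nat_lit 139) (nat_lit 229) (nat_lit 232)) (PT.lf (nat_lit 7600) (nat_lit 6) (nat_lit 100) (nat_lit 5) (nat_lit 140) (nat_lit 229) (nat_lit 231)))) (PT.nd (nat_lit 156) (PT.nd (nat_lit 78) (PT.lf (nat_lit 7828) (nat_lit 6) (nat_lit 103) (nat_lit 5) (nat_lit 141) (nat_lit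 229) (nat_lit 230)) (PT.lf (nat_lit 8056) (nat_lit 3) (nat_lit 106) (nat_lit 4) (nat_lit 142) (nat_lit 229) (nat_lit 229))) (PT.nd (nat_lit 78) (PT.lf (nat_lit 8208) (nat_lit 6) (nat_lit 108) (nat_lit 4) (nat_lit 143) (nat_lit 229) (nat_lit 228)) (PT.nd (nat_lit 78) (PT.lf (nat_lit 8360) (nat_lit 6) (nat_lit 110) (nat_lit 4) (nat_lit 144) (nat_lit 229) (nat_lit 227)) (PT.lf (nat_lit 8512) (nat_lit 6) (nat_lit 112) (nat_lit 4) (nat_lit 145) (nat_lit 229) (nat_lit 226))))))))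
noncomputable def pc61 : PT := (PT.nd (nat_lit 62322) (PT.nd (nat_lit 6708) (PT.nd (nat_lit 6396) (PT.nd (nat_lit 6240) (PT.nd (nat_lit 6162) (PT.lf (nat_lit 8664) (nat_lit 6) (nat_lit 114) (nat_lit 4) (nat_lit 146) (nat_lit 229) (nat_lit 225)) (PT.lf (nat_lit 8664) (nat_lit 6) (nat_lit 114) (nat_lit 2) (nat_lit 225) (nat_lit 229) (nat_lit 146))) (PT.nd (nat_lit 78) (PT.lf (nat_lit 8512) (nat_lit 6) (nat_lit 112) (nat_lit 2) (nat_lit 226) (nat_lit 229) (nat_lit 145)) (PT.lf (nat_lit 8360) (nat_lit 6) (nat_lit 110) (nat_lit 2) (nat_lit 227) (nat_lit 229) (nat_lit 144)))) (PT.nd (nat_lit 156) (PT.nd (nat_lit 78) (PT.lf (nat_lit 8208) (nat_lit 6) (nat_lit 108) (nat_lit 2) (nat_lit 228) (nat_lit 229) (nat_lit 143)) (PT.lf (nat_lit 8056) (nat_lit 3) (nat_lit 106) (nat_lit 0) (nat_lit 229) (nat_lit 229) (nat_lit 142))) (PT.nd (nat_lit 78) (PT.lf (nat_lit 7828) (nat_lit 6) (nat_lit 103) (nat_lit 0) (nat_lit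 230) (nat_lit 229) (nat_lit 141)) (PT.lf (nat_lit 7600) (nat_lit 6) (nat_lit 100) (nat_lit 0) (nat_lit 231) (nat_lit 229) (nat_lit 140))))) (PT.nd (nat_lit 55302) (PT.nd (nat_lit 55146) (PT.nd (nat_lit 55068) (PT.lf (nat_lit 7372) (nat_lit 6) (nat_lit 97) (nat_lit 0) (nat_lit 232) (nat_lit 229) (nat_lit 139)) (PT.lf (nat_lit 6992) (nat_lit 6) (nat_lit 92) (nat_lit 5) (nat_lit 137) (nat_lit 230) (nat_lit 233))) (PT.nd (nat_lit 78) (PT.lf (nat_lit 7220) (nat_lit 6) (nat_lit 95) (nat_lit 5) (nat_lit 138) (nat_lit 230) (nat_lit 232)) (PT.lf (nat_lit 7448) (nat_lit 6) (nat_lit 98) (nat_lit 5) (nat_lit 139) (nat_lit 230) (nat_lit 231)))) (PT.nd (nat_lit 156) (PT.nd (nat_lit 78) (PT.lf (nat_lit 7676) (nat_lit 3) (nat_lit 101) (nat_lit 4) (nat_lit 140) (nat_lit 230) (nat_lit 230)) (PT.lf (nat_lit 7828) (nat_lit 6) (nat_lit 103) (nat_lit 4) (nat_lit 141) (nat_lit 230) (nat_lit 229))) (PT.nd (nat_lit 78) (PT.lf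 (nat_lit 7980) (nat_lit 6) (nat_lit 105) (nat_lit 4) (nat_lit 142) (nat_lit 230) (nat_lit 228)) (PT.lf (nat_lit 8132) (nat_lit 6) (nat_lit 107) (nat_lit 4) (nat_lit 143) (nat_lit 230) (nat_lit 227)))))) (PT.nd (nat_lit 6942) (PT.nd (nat_lit 6630) (PT.nd (nat_lit 6474) (PT.nd (nat_lit 6396) (PT.lf (nat_lit 8284) (nat_lit 6) (nat_lit 109) (nat_lit 4) (nat_lit 144) (nat_lit 230) (nat_lit 226)) (PT.lf (nat_lit 8284) (nat_lit 6) (nat_lit 109) (nat_lit 2) (nat_lit 226) (nat_lit 230) (nat_lit 144))) (PT.nd (nat_lit 78) (PT.lf (nat_lit 8132) (nat_lit 6) (nat_lit 107) (nat_lit 2) (nat_lit 227) (nat_lit 230) (nat_lit 143)) (PT.lf (nat_lit 7980) (nat_lit 6) (nat_lit 105) (nat_lit 2) (nat_lit 228) (nat_lit 230) (nat_lit 142)))) (PT.nd (nat_lit 156) (PT.nd (nat_lit 78) (PT.lf (nat_lit 7828) (nat_lit 6) (nat_lit 103) (nat_lit 2) (nat_lit 229) (nat_lit 230) (nat_lit 141)) (PT.lf (nat_lit 7676) (nat_lit 3) (nat_lit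 101) (nat_lit 0) (nat_lit 230) (nat_lit 230) (nat_lit 140))) (PT.nd (nat_lit 78) (PT.lf (nat_lit 7448) (nat_lit 6) (nat_lit 98) (nat_lit 0) (nat_lit 231) (nat_lit 230) (nat_lit 139)) (PT.lf (nat_lit 7220) (nat_lit 6) (nat_lit 95) (nat_lit 0) (nat_lit 232) (nat_lit 230) (nat_lit 138))))) (PT.nd (nat_lit 55146) (PT.nd (nat_lit 54990) (PT.nd (nat_lit 54912) (PT.lf (nat_lit 6992) (nat_lit 6) (nat_lit 92) (nat_lit 0) (nat_lit 233) (nat_lit 230) (nat_lit 137)) (PT.lf (nat_lit 6840) (nat_lit 6) (nat_lit 90) (nat_lit 5) (nat_lit 136) (nat_lit 231) (nat_lit 233))) (PT.nd (nat_lit 78) (PT.lf (nat_lit 7068) (nat_lit 6) (nat_lit 93) (nat_lit 5) (nat_lit 137) (nat_lit 231) (nat_lit 232)) (PT.lf (nat_lit 7296) (nat_lit 3) (nat_lit 96) (nat_lit 4) (nat_lit 138) (nat_lit 231) (nat_lit 231)))) (PT.nd (nat_lit 156) (PT.nd (nat_lit 78) (PT.lf (nat_lit 7448) (nat_lit 6) (nat_lit 98) (nat_lit 4) (nat_lit 139) (nat_lit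 231) (nat_lit 230)) (PT.lf (nat_lit 7600) (nat_lit 6) (nat_lit 100) (nat_lit 4) (nat_lit 140) (nat_lit 231) (nat_lit 229))) (PT.nd (nat_lit 6786) (PT.lf (nat_lit 7752) (nat_lit 6) (nat_lit 102) (nat_lit 4) (nat_lit 141) (nat_lit 231) (nat_lit 228)) (PT.nd (nat_lit 78) (PT.lf (nat_lit 7752) (nat_lit 6) (nat_lit 102) (nat_lit 2) (nat_lit 228) (nat_lit 231) (nat_lit 141)) (PT.lf (nat_lit 7600) (nat_lit 6) (nat_lit 100) (nat_lit 2) (nat_lit 229) (nat_lit 231) (nat_lit 140))))))))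
noncomputable def pc62 : PT := (PT.nd (nat_lit 117312) (PT.nd (nat_lit 55302) (PT.nd (nat_lit 54990) (PT.nd (nat_lit 156) (PT.nd (nat_lit 78) (PT.lf (nat_lit 7448) (nat_lit 6) (nat_lit 98) (nat_lit 2) (nat_lit 230) (nat_lit 231) (nat_lit 139)) (PT.lf (nat_lit 7296) (nat_lit 3) (nat_lit 96) (nat_lit 0) (nat_lit 231) (nat_lit 231) (nat_lit 138))) (PT.nd (nat_lit 78) (PT.lf (nat_lit 7068) (nat_lit 6) (nat_lit 93) (nat_lit 0) (nat_lit 232) (nat_lit 231) (nat_lit 137)) (PT.lf (nat_lit 6840) (nat_lit 6) (nat_lit 90) (nat_lit 0) (nat_lit 233) (nat_lit 231) (nat_lit 136)))) (PT.nd (nat_lit 156) (PT.nd (nat_lit 78) (PT.lf (nat_lit 6536) (nat_lit 6) (nat_lit 86) (nat_lit 5) (nat_lit 134) (nat_lit 232) (nat_lit 234)) (PT.lf (nat_lit 6764) (nat_lit 6) (nat_lit 89) (nat_lit 5) (nat_lit 135) (nat_lit 232) (nat_lit 233))) (PT.nd (nat_lit 78) (PT.lf (nat_lit 6916) (nat_lit 3) (nat_lit 91) (nat_lit 4) (nat_lit 136)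 (nat_lit 232) (nat_lit 232)) (PT.lf (nat_lit 7068) (nat_lit 6) (nat_lit 93) (nat_lit 4) (nat_lit 137) (nat_lit 232) (nat_lit 231))))) (PT.nd (nat_lit 7254) (PT.nd (nat_lit 7098) (PT.nd (nat_lit 78) (PT.lf (nat_lit 7220) (nat_lit 6) (nat_lit 95) (nat_lit 4) (nat_lit 138) (nat_lit 232) (nat_lit 230)) (PT.lf (nat_lit 7372) (nat_lit 6) (nat_lit 97) (nat_lit 4) (nat_lit 139) (nat_lit 232) (nat_lit 229))) (PT.nd (nat_lit 78) (PT.lf (nat_lit 7372) (nat_lit 6) (nat_lit 97) (nat_lit 2) (nat_lit 229) (nat_lit 232) (nat_lit 139)) (PT.lf (nat_lit 7220) (nat_lit 6) (nat_lit 95) (nat_lit 2) (nat_lit 230) (nat_lit 232) (nat_lit 138)))) (PT.nd (nat_lit 156) (PT.nd (nat_lit 78) (PT.lf (nat_lit 7068) (nat_lit 6) (nat_lit 93) (nat_lit 2) (nat_lit 231) (nat_lit 232) (nat_lit 137)) (PT.lf (nat_lit 6916) (nat_lit 3) (nat_lit 91) (nat_lit 0) (nat_lit 232) (nat_lit 232) (nat_lit 136))) (PT.nd (nat_lit 78) (PT.lf (nat_lit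 6764) (nat_lit 6) (nat_lit 89) (nat_lit 0) (nat_lit 233) (nat_lit 232) (nat_lit 135)) (PT.lf (nat_lit 6536) (nat_lit 6) (nat_lit 86) (nat_lit 0) (nat_lit 234) (nat_lit 232) (nat_lit 134)))))) (PT.nd (nat_lit 7800) (PT.nd (nat_lit 312) (PT.nd (nat_lit 156) (PT.nd (nat_lit 78) (PT.lf (nat_lit 6232) (nat_lit 6) (nat_lit 82) (nat_lit 5) (nat_lit 132) (nat_lit 233) (nat_lit 235)) (PT.lf (nat_lit 6460) (nat_lit 6) (nat_lit 85) (nat_lit 5) (nat_lit 133) (nat_lit 233) (nat_lit 234))) (PT.nd (nat_lit 78) (PT.lf (nat_lit 6612) (nat_lit 3) (nat_lit 87) (nat_lit 4) (nat_lit 134) (nat_lit 233) (nat_lit 233)) (PT.lf (nat_lit 6764) (nat_lit 6) (nat_lit 89) (nat_lit 4) (nat_lit 135) (nat_lit 233) (nat_lit 232)))) (PT.nd (nat_lit 7332) (PT.nd (nat_lit 78) (PT.lf (nat_lit 6840) (nat_lit 6) (nat_lit 90) (nat_lit 4) (nat_lit 136) (nat_lit 233) (nat_lit 231)) (PT.lf (nat_lit 6992) (nat_lit 6) (nat_lit 92) (nat_lit 4) (nat_lit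 137) (nat_lit 233) (nat_lit 230))) (PT.nd (nat_lit 78) (PT.lf (nat_lit 6992) (nat_lit 6) (nat_lit 92) (nat_lit 2) (nat_lit 230) (nat_lit 233) (nat_lit 137)) (PT.lf (nat_lit 6840) (nat_lit 6) (nat_lit 90) (nat_lit 2) (nat_lit 231) (nat_lit 233) (nat_lit 136))))) (PT.nd (nat_lit 54522) (PT.nd (nat_lit 156) (PT.nd (nat_lit 78) (PT.lf (nat_lit 6764) (nat_lit 6) (nat_lit 89) (nat_lit 2) (nat_lit 232) (nat_lit 233) (nat_lit 135)) (PT.lf (nat_lit 6612) (nat_lit 3) (nat_lit 87) (nat_lit 0) (nat_lit 233) (nat_lit 233) (nat_lit 134))) (PT.nd (nat_lit 78) (PT.lf (nat_lit 6460) (nat_lit 6) (nat_lit 85) (nat_lit 0) (nat_lit 234) (nat_lit 233) (nat_lit 133)) (PT.lf (nat_lit 6232) (nat_lit 6) (nat_lit 82) (nat_lit 0) (nat_lit 235) (nat_lit 233) (nat_lit 132)))) (PT.nd (nat_lit 156) (PT.nd (nat_lit 78) (PT.lf (nat_lit 5928) (nat_lit 6) (nat_lit 78) (nat_lit 5) (nat_lit 130) (nat_lit 234) (nat_lit 236)) (PT.lf (nat_lit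 6156) (nat_lit 6) (nat_lit 81) (nat_lit 5) (nat_lit 131) (nat_lit 234) (nat_lit 235))) (PT.nd (nat_lit 78) (PT.lf (nat_lit 6308) (nat_lit 3) (nat_lit 83) (nat_lit 4) (nat_lit 132) (nat_lit 234) (nat_lit 234)) (PT.nd (nat_lit 78) (PT.lf (nat_lit 6460) (nat_lit 6) (nat_lit 85) (nat_lit 4) (nat_lit 133) (nat_lit 234) (nat_lit 233)) (PT.lf (nat_lit 6536) (nat_lit 6) (nat_lit 86) (nat_lit 4) (nat_lit 134) (nat_lit 234) (nat_lit 232))))))))
noncomputable def pc63 : PT := (PT.nd (nat_lit 116844) (PT.nd (nat_lit 54600) (PT.nd (nat_lit 312) (PT.nd (nat_lit 156) (PT.nd (nat_lit 78) (PT.lf (nat_lit 6536) (nat_lit 6) (nat_lit 86) (nat_lit 2) (nat_lit 232) (nat_lit 234) (nat_lit 134)) (PT.lf (nat_lit 6460) (nat_lit 6) (nat_lit 85) (nat_lit 2) (nat_lit 233) (nat_lit 234) (nat_lit 133))) (PT.nd (nat_lit 78) (PT.lf (nat_lit 6308) (nat_lit 3) (nat_lit 83) (nat_lit 0) (nat_lit 234) (nat_lit 234) (nat_lit 132)) (PT.lf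 (nat_lit 6156) (nat_lit 6) (nat_lit 81) (nat_lit 0) (nat_lit 235) (nat_lit 234) (nat_lit 131)))) (PT.nd (nat_lit 54132) (PT.nd (nat_lit 54054) (PT.lf (nat_lit 5928) (nat_lit 6) (nat_lit 78) (nat_lit 0) (nat_lit 236) (nat_lit 234) (nat_lit 130)) (PT.lf (nat_lit 5624) (nat_lit 6) (nat_lit 74) (nat_lit 5) (nat_lit 128) (nat_lit 235) (nat_lit 237))) (PT.nd (nat_lit 78) (PT.lf (nat_lit 5852) (nat_lit 6) (nat_lit 77) (nat_lit 5) (nat_lit 129) (nat_lit 235) (nat_lit 236)) (PT.lf (nat_lit 6004) (nat_lit 3) (nat_lit 79) (nat_lit 4) (nat_lit 130) (nat_lit 235) (nat_lit 235))))) (PT.nd (nat_lit 8112) (PT.nd (nat_lit 7956) (PT.nd (nat_lit 78) (PT.lf (nat_lit 6156) (nat_lit 6) (nat_lit 81) (nat_lit 4) (nat_lit 131) (nat_lit 235) (nat_lit 234)) (PT.lf (nat_lit 6232) (nat_lit 6) (nat_lit 82) (nat_lit 4) (nat_lit 132) (nat_lit 235) (nat_lit 233))) (PT.nd (nat_lit 78) (PT.lf (nat_lit 6232) (nat_lit 6) (nat_lit 82)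 (nat_lit 2) (nat_lit 233) (nat_lit 235) (nat_lit 132)) (PT.lf (nat_lit 6156) (nat_lit 6) (nat_lit 81) (nat_lit 2) (nat_lit 234) (nat_lit 235) (nat_lit 131)))) (PT.nd (nat_lit 156) (PT.nd (nat_lit 78) (PT.lf (nat_lit 6004) (nat_lit 3) (nat_lit 79) (nat_lit 0) (nat_lit 235) (nat_lit 235) (nat_lit 130)) (PT.lf (nat_lit 5852) (nat_lit 6) (nat_lit 77) (nat_lit 0) (nat_lit 236) (nat_lit 235) (nat_lit 129))) (PT.nd (nat_lit 53898) (PT.lf (nat_lit 5624) (nat_lit 6) (nat_lit 74) (nat_lit 0) (nat_lit 237) (nat_lit 235) (nat_lit 128)) (PT.lf (nat_lit 5548) (nat_lit 6) (nat_lit 73) (nat_lit 5) (nat_lit 127) (nat_lit 236) (nat_lit 237)))))) (PT.nd (nat_lit 62478) (PT.nd (nat_lit 8346) (PT.nd (nat_lit 156) (PT.nd (nat_lit 78) (PT.lf (nat_lit 5700) (nat_lit 3) (nat_lit 75) (nat_lit 4) (nat_lit 128) (nat_lit 236) (nat_lit 236)) (PT.lf (nat_lit 5852) (nat_lit 6) (nat_lit 77) (nat_lit 4) (nat_lit 129) (nat_lit 236)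 (nat_lit 235))) (PT.nd (nat_lit 8112) (PT.lf (nat_lit 5928) (nat_lit 6) (nat_lit 78) (nat_lit 4) (nat_lit 130) (nat_lit 236) (nat_lit 234)) (PT.lf (nat_lit 5928) (nat_lit 6) (nat_lit 78) (nat_lit 2) (nat_lit 234) (nat_lit 236) (nat_lit 130)))) (PT.nd (nat_lit 156) (PT.nd (nat_lit 78) (PT.lf (nat_lit 5852) (nat_lit 6) (nat_lit 77) (nat_lit 2) (nat_lit 235) (nat_lit 236) (nat_lit 129)) (PT.lf (nat_lit 5700) (nat_lit 3) (nat_lit 75) (nat_lit 0) (nat_lit 236) (nat_lit 236) (nat_lit 128))) (PT.nd (nat_lit 53898) (PT.lf (nat_lit 5548) (nat_lit 6) (nat_lit 73) (nat_lit 0) (nat_lit 237) (nat_lit 236) (nat_lit 127)) (PT.lf (nat_lit 5548) (nat_lit 6) (nat_lit 73) (nat_lit 4) (nat_lit 127) (nat_lit 237) (nat_lit 236))))) (PT.nd (nat_lit 1557894) (PT.nd (nat_lit 8424) (PT.nd (nat_lit 8346) (PT.lf (nat_lit 5624) (nat_lit 6) (nat_lit 74) (nat_lit 4) (nat_lit 128) (nat_lit 237) (nat_lit 235)) (PT.lf (nat_lit 5624)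 (nat_lit 6) (nat_lit 74) (nat_lit 2) (nat_lit 235) (nat_lit 237) (nat_lit 128))) (PT.nd (nat_lit 1549392) (PT.lf (nat_lit 5548) (nat_lit 6) (nat_lit 73) (nat_lit 2) (nat_lit 236) (nat_lit 237) (nat_lit 127)) (PT.lf (nat_lit 76) (nat_lit 6) (nat_lit 1) (nat_lit 5) (nat_lit 75) (nat_lit 262) (nat_lit 263)))) (PT.nd (nat_lit 14586) (PT.nd (nat_lit 14508) (PT.lf (nat_lit 152) (nat_lit 3) (nat_lit 2) (nat_lit 4) (nat_lit 76) (nat_lit 262) (nat_lit 262)) (PT.lf (nat_lit 152) (nat_lit 3) (nat_lit 2) (nat_lit 0) (nat_lit 262) (nat_lit 262) (nat_lit 76))) (PT.nd (nat_lit 47814) (PT.lf (nat_lit 76) (nat_lit 6) (nat_lit 1) (nat_lit 0) (nat_lit 263) (nat_lit 262) (nat_lit 75)) (PT.nd (nat_lit 14586) (PT.lf (nat_lit 76) (nat_lit 6) (nat_lit 1) (nat_lit 4) (nat_lit 75) (nat_lit 263) (nat_lit 262)) (PT.lf (nat_lit 76) (nat_lit 6) (nat_lit 1) (nat_lit 2) (nat_lit 262) (nat_lit 263) (nat_lit 75))))))))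
noncomputable def xc0 : XT := (XT.nd (nat_lit 249834) (nat_lit 0) (nat_lit 0) (XT.nd (nat_lit 187044) (nat_lit 0) (nat_lit 0) (XT.nd (nat_lit 124644) (nat_lit 0) (nat_lit 0) (XT.nd (nat_lit 62400) (nat_lit 0) (nat_lit 0) (XT.nd (nat_lit 78) (nat_lit 152) (nat_lit 0) (XT.lf (nat_lit 0) (nat_lit 3988830263) (nat_lit 152) (nat_lit 1893883666) (nat_lit 152) (nat_lit 1893883666) (nat_lit 14) (nat_lit 4) (nat_lit 16) (nat_lit 5) (nat_lit 16) (nat_lit 4) (nat_lit 488) (nat_lit 356) (nat_lit 356)) (XT.nd (nat_lit 62244) (nat_lit 0) (nat_lit 608) (XT.lf (nat_lit 0) (nat_lit 6815745969) (nat_lit 152) (nat_lit 2610863094) (nat_lit 0) (nat_lit 6371099802) (nat_lit 12) (nat_lit 5) (nat_lit 14) (nat_lit 4) (nat_lit 12) (nat_lit 4) (nat_lit 489) (nat_lit 356) (nat_lit 355)) (XT.lf (nat_lit 0) (nat_lit 3193829019) (nat_lit 152) (nat_lit 1152370762) (nat_lit 0) (nat_lit 3193829019) (nat_lit 20) (nat_lit 5) (nat_lit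 22) (nat_lit 4) (nat_lit 20) (nat_lit 4) (nat_lit 486) (nat_lit 357) (nat_lit 357)))) (XT.nd (nat_lit 78) (nat_lit 304) (nat_lit 0) (XT.lf (nat_lit 0) (nat_lit 1606531793) (nat_lit 152) (nat_lit 12569119746) (nat_lit 0) (nat_lit 1139386530) (nat_lit 16) (nat_lit 5) (nat_lit 18) (nat_lit 4) (nat_lit 16) (nat_lit 4) (nat_lit 487) (nat_lit 357) (nat_lit 356)) (XT.nd (nat_lit 78) (nat_lit 152) (nat_lit 0) (XT.lf (nat_lit 0) (nat_lit 7774873812) (nat_lit 152) (nat_lit 4350574661) (nat_lit 152) (nat_lit 3429890307) (nat_lit 14) (nat_lit 4) (nat_lit 16) (nat_lit 5) (nat_lit 16) (nat_lit 4) (nat_lit 488) (nat_lit 357) (nat_lit 355)) (XT.lf (nat_lit 0) (nat_lit 7057303128) (nat_lit 152) (nat_lit 3021760320) (nat_lit 0) (nat_lit 5722976101) (nat_lit 12) (nat_lit 5) (nat_lit 14) (nat_lit 4) (nat_lit 12) (nat_lit 4) (nat_lit 489) (nat_lit 357) (nat_lit 354))))) (XT.nd (nat_lit 234) (nat_lit 608) (nat_lit 0) (XT.nd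 (nat_lit 78) (nat_lit 304) (nat_lit 0) (XT.lf (nat_lit 0) (nat_lit 618612728) (nat_lit 152) (nat_lit 6075862763) (nat_lit 0) (nat_lit 618612728) (nat_lit 24) (nat_lit 5) (nat_lit 26) (nat_lit 4) (nat_lit 24) (nat_lit 4) (nat_lit 484) (nat_lit 358) (nat_lit 358)) (XT.nd (nat_lit 78) (nat_lit 152) (nat_lit 0) (XT.lf (nat_lit 0) (nat_lit 7532131151) (nat_lit 152) (nat_lit 3909820623) (nat_lit 152) (nat_lit 3409222153) (nat_lit 22) (nat_lit 4) (nat_lit 24) (nat_lit 5) (nat_lit 24) (nat_lit 4) (nat_lit 485) (nat_lit 358) (nat_lit 357)) (XT.lf (nat_lit 0) (nat_lit 6773418614) (nat_lit 152) (nat_lit 2502592949) (nat_lit 0) (nat_lit 5806147632) (nat_lit 20) (nat_lit 5) (nat_lit 22) (nat_lit 4) (nat_lit 20) (nat_lit 4) (nat_lit 486) (nat_lit 358) (nat_lit 356)))) (XT.nd (nat_lit 156) (nat_lit 152) (nat_lit 0) (XT.nd (nat_lit 78) (nat_lit 152) (nat_lit 0) (XT.lf (nat_lit 0) (nat_lit 1872901126) (nat_lit 152)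 (nat_lit 12975377821) (nat_lit 0) (nat_lit 471057151) (nat_lit 16) (nat_lit 5) (nat_lit 18) (nat_lit 4) (nat_lit 16) (nat_lit 4) (nat_lit 487) (nat_lit 358) (nat_lit 355)) (XT.lf (nat_lit 0) (nat_lit 7166336475) (nat_lit 152) (nat_lit 5118804065) (nat_lit 152) (nat_lit 3276630877) (nat_lit 14) (nat_lit 4) (nat_lit 16) (nat_lit 5) (nat_lit 16) (nat_lit 4) (nat_lit 488) (nat_lit 358) (nat_lit 354))) (XT.nd (nat_lit 61932) (nat_lit 0) (nat_lit 1368) (XT.lf (nat_lit 0) (nat_lit 7095982347) (nat_lit 152) (nat_lit 3843913809) (nat_lit 0) (nat_lit 4870808544) (nat_lit 12) (nat_lit 5) (nat_lit 14) (nat_lit 4) (nat_lit 12) (nat_lit 4) (nat_lit 489) (nat_lit 358) (nat_lit 353)) (XT.lf (nat_lit 0) (nat_lit 3386790673) (nat_lit 152) (nat_lit 1854028490) (nat_lit 152) (nat_lit 1854028490) (nat_lit 30) (nat_lit 4) (nat_lit 32) (nat_lit 5) (nat_lit 32) (nat_lit 4) (nat_lit 482) (nat_lit 359) (nat_lit 359)))))) (XT.nd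 (nat_lit 62244) (nat_lit 0) (nat_lit 608) (XT.nd (nat_lit 234) (nat_lit 760) (nat_lit 0) (XT.nd (nat_lit 78) (nat_lit 456) (nat_lit 0) (XT.lf (nat_lit 0) (nat_lit 6172331335) (nat_lit 152) (nat_lit 2587353756) (nat_lit 0) (nat_lit 5646402583) (nat_lit 28) (nat_lit 5) (nat_lit 30) (nat_lit 4) (nat_lit 28) (nat_lit 4) (nat_lit 483) (nat_lit 359) (nat_lit 358)) (XT.nd (nat_lit 78) (nat_lit 152) (nat_lit 0) (XT.lf (nat_lit 0) (nat_lit 1648583817) (nat_lit 152) (nat_lit 12347310068) (nat_lit 0) (nat_lit 632368924) (nat_lit 24) (nat_lit 5) (nat_lit 26) (nat_lit 4) (nat_lit 24) (nat_lit 4) (nat_lit 484) (nat_lit 359) (nat_lit 357)) (XT.lf (nat_lit 0) (nat_lit 7141535980) (nat_lit 152) (nat_lit 4608016732) (nat_lit 152) (nat_lit 3105783907) (nat_lit 22) (nat_lit 4) (nat_lit 24) (nat_lit 5) (nat_lit 24) (nat_lit 4) (nat_lit 485) (nat_lit 359) (nat_lit 356)))) (XT.nd (nat_lit 156) (nat_lit 304) (nat_lit 0) (XT.nd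 (nat_lit 78) (nat_lit 304) (nat_lit 0) (XT.lf (nat_lit 0) (nat_lit 6963766434) (nat_lit 152) (nat_lit 3096320102) (nat_lit 0) (nat_lit 5028379282) (nat_lit 20) (nat_lit 5) (nat_lit 22) (nat_lit 4) (nat_lit 20) (nat_lit 4) (nat_lit 486) (nat_lit 359) (nat_lit 355)) (XT.lf (nat_lit 0) (nat_lit 1537009186) (nat_lit 76) (nat_lit 404343356) (nat_lit 152) (nat_lit 13386530864) (nat_lit 16) (nat_lit 5) (nat_lit 17) (nat_lit 5) (nat_lit 18) (nat_lit 4) (nat_lit 487) (nat_lit 359) (nat_lit 354))) (XT.nd (nat_lit 78) (nat_lit 152) (nat_lit 0) (XT.lf (nat_lit 0) (nat_lit 6151516784) (nat_lit 152) (nat_lit 6093126815) (nat_lit 152) (nat_lit 3327855126) (nat_lit 14) (nat_lit 4) (nat_lit 16) (nat_lit 5) (nat_lit 16) (nat_lit 4) (nat_lit 488) (nat_lit 359) (nat_lit 353)) (XT.lf (nat_lit 0) (nat_lit 6931817426) (nat_lit 152) (nat_lit 5078041946) (nat_lit 0) (nat_lit 3813852519) (nat_lit 12) (nat_lit 5) (nat_lit 14)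 (nat_lit 4) (nat_lit 12) (nat_lit 4) (nat_lit 489) (nat_lit 359) (nat_lit 352))))) (XT.nd (nat_lit 234) (nat_lit 760) (nat_lit 0) (XT.nd (nat_lit 78) (nat_lit 532) (nat_lit 0) (XT.lf (nat_lit 0) (nat_lit 2664819908) (nat_lit 228) (nat_lit 1555717353) (nat_lit 0) (nat_lit 2664819908) (nat_lit 37) (nat_lit 5) (nat_lit 40) (nat_lit 4) (nat_lit 37) (nat_lit 4) (nat_lit 480) (nat_lit 360) (nat_lit 360)) (XT.nd (nat_lit 78) (nat_lit 152) (nat_lit 0) (XT.lf (nat_lit 0) (nat_lit 1142593041) (nat_lit 228) (nat_lit 12246343554) (nat_lit 0) (nat_lit 590052294) (nat_lit 32) (nat_lit 5) (nat_lit 35) (nat_lit 4) (nat_lit 32) (nat_lit 4) (nat_lit 481) (nat_lit 360) (nat_lit 359)) (XT.lf (nat_lit 0) (nat_lit 6585607252) (nat_lit 152) (nat_lit 4347548942) (nat_lit 152) (nat_lit 3258560867) (nat_lit 30) (nat_lit 4) (nat_lit 32) (nat_lit 5) (nat_lit 32) (nat_lit 4) (nat_lit 482) (nat_lit 360) (nat_lit 358)))) (XT.nd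 (nat_lit 156) (nat_lit 304) (nat_lit 0) (XT.nd (nat_lit 78) (nat_lit 304) (nat_lit 0) (XT.lf (nat_lit 0) (nat_lit 6510021018) (nat_lit 152) (nat_lit 2968374286) (nat_lit 0) (nat_lit 4931775211) (nat_lit 28) (nat_lit 5) (nat_lit 30) (nat_lit 4) (nat_lit 28) (nat_lit 4) (nat_lit 483) (nat_lit 360) (nat_lit 357)) (XT.lf (nat_lit 0) (nat_lit 1699171754) (nat_lit 76) (nat_lit 168727181) (nat_lit 152) (nat_lit 12766602898) (nat_lit 24) (nat_lit 5) (nat_lit 25) (nat_lit 5) (nat_lit 26) (nat_lit 4) (nat_lit 484) (nat_lit 360) (nat_lit 356))) (XT.nd (nat_lit 78) (nat_lit 152) (nat_lit 0) (XT.lf (nat_lit 0) (nat_lit 6360004341) (nat_lit 152) (nat_lit 5504420555) (nat_lit 152) (nat_lit 2999240744) (nat_lit 22) (nat_lit 4) (nat_lit 24) (nat_lit 5) (nat_lit 24) (nat_lit 4) (nat_lit 485) (nat_lit 360) (nat_lit 355)) (XT.lf (nat_lit 0) (nat_lit 6958867819) (nat_lit 152) (nat_lit 4086441775) (nat_lit 0) (nat_lit 4053673383)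 (nat_lit 20) (nat_lit 5) (nat_lit 22) (nat_lit 4) (nat_lit 20) (nat_lit 4) (nat_lit 486) (nat_lit 360) (nat_lit 354))))))) (XT.nd (nat_lit 62556) (nat_lit 0) (nat_lit 0) (XT.nd (nat_lit 62010) (nat_lit 0) (nat_lit 380) (XT.nd (nat_lit 61776) (nat_lit 0) (nat_lit 1900) (XT.nd (nat_lit 78) (nat_lit 304) (nat_lit 0) (XT.lf (nat_lit 0) (nat_lit 322525946) (nat_lit 76) (nat_lit 1491223833) (nat_lit 152) (nat_lit 13526901603) (nat_lit 16) (nat_lit 5) (nat_lit 17) (nat_lit 5) (nat_lit 18) (nat_lit 4) (nat_lit 487) (nat_lit 360) (nat_lit 353)) (XT.nd (nat_lit 78) (nat_lit 152) (nat_lit 0) (XT.lf (nat_lit 0) (nat_lit 4729528003) (nat_lit 152) (nat_lit 7274394260) (nat_lit 152) (nat_lit 3583607812) (nat_lit 14) (nat_lit 4) (nat_lit 16) (nat_lit 5) (nat_lit 16) (nat_lit 4) (nat_lit 488) (nat_lit 360) (nat_lit 352)) (XT.lf (nat_lit 0) (nat_lit 6564664918) (nat_lit 152) (nat_lit 6725223097) (nat_lit 0) (nat_lit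 2551184472) (nat_lit 12) (nat_lit 5) (nat_lit 14) (nat_lit 4) (nat_lit 12) (nat_lit 4) (nat_lit 489) (nat_lit 360) (nat_lit 351)))) (XT.nd (nat_lit 78) (nat_lit 380) (nat_lit 0) (XT.lf (nat_lit 0) (nat_lit 211434227) (nat_lit 228) (nat_lit 6261446024) (nat_lit 0) (nat_lit 211434227) (nat_lit 42) (nat_lit 5) (nat_lit 45) (nat_lit 4) (nat_lit 42) (nat_lit 4) (nat_lit 478) (nat_lit 361) (nat_lit 361)) (XT.nd (nat_lit 78) (nat_lit 228) (nat_lit 0) (XT.lf (nat_lit 0) (nat_lit 5653306576) (nat_lit 152) (nat_lit 4253362490) (nat_lit 152) (nat_lit 3661253195) (nat_lit 40) (nat_lit 4) (nat_lit 42) (nat_lit 5) (nat_lit 42) (nat_lit 4) (nat_lit 479) (nat_lit 361) (nat_lit 360)) (XT.lf (nat_lit 0) (nat_lit 5811012750) (nat_lit 228) (nat_lit 3294763600) (nat_lit 0) (nat_lit 4666921879) (nat_lit 37) (nat_lit 5) (nat_lit 40) (nat_lit 4) (nat_lit 37) (nat_lit 4) (nat_lit 480) (nat_lit 361) (nat_lit 359))))) (XT.nd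 (nat_lit 234) (nat_lit 836) (nat_lit 0) (XT.nd (nat_lit 78) (nat_lit 304) (nat_lit 0) (XT.lf (nat_lit 0) (nat_lit 1359117291) (nat_lit 152) (nat_lit 150974013) (nat_lit 228) (nat_lit 12472932589) (nat_lit 32) (nat_lit 5) (nat_lit 34) (nat_lit 5) (nat_lit 35) (nat_lit 4) (nat_lit 481) (nat_lit 361) (nat_lit 358)) (XT.nd (nat_lit 78) (nat_lit 152) (nat_lit 0) (XT.lf (nat_lit 0) (nat_lit 6021520718) (nat_lit 152) (nat_lit 5177595530) (nat_lit 152) (nat_lit 2998667838) (nat_lit 30) (nat_lit 4) (nat_lit 32) (nat_lit 5) (nat_lit 32) (nat_lit 4) (nat_lit 482) (nat_lit 361) (nat_lit 357)) (XT.lf (nat_lit 0) (nat_lit 6659766699) (nat_lit 152) (nat_lit 3730748278) (nat_lit 0) (nat_lit 4027824789) (nat_lit 28) (nat_lit 5) (nat_lit 30) (nat_lit 4) (nat_lit 28) (nat_lit 4) (nat_lit 483) (nat_lit 361) (nat_lit 356)))) (XT.nd (nat_lit 156) (nat_lit 380) (nat_lit 0) (XT.nd (nat_lit 78) (nat_lit 152) (nat_lit 0) (XT.lf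 (nat_lit 0) (nat_lit 724167738) (nat_lit 76) (nat_lit 1175539667) (nat_lit 152) (nat_lit 12745104657) (nat_lit 24) (nat_lit 5) (nat_lit 25) (nat_lit 5) (nat_lit 26) (nat_lit 4) (nat_lit 484) (nat_lit 361) (nat_lit 355)) (XT.lf (nat_lit 0) (nat_lit 5186853343) (nat_lit 152) (nat_lit 6599815357) (nat_lit 152) (nat_lit 3089499568) (nat_lit 22) (nat_lit 4) (nat_lit 24) (nat_lit 5) (nat_lit 24) (nat_lit 4) (nat_lit 485) (nat_lit 361) (nat_lit 354))) (XT.nd (nat_lit 78) (nat_lit 228) (nat_lit 0) (XT.lf (nat_lit 0) (nat_lit 6758718491) (nat_lit 152) (nat_lit 5473823122) (nat_lit 0) (nat_lit 2881178250) (nat_lit 20) (nat_lit 5) (nat_lit 22) (nat_lit 4) (nat_lit 20) (nat_lit 4) (nat_lit 486) (nat_lit 361) (nat_lit 353)) (XT.lf (nat_lit 0) (nat_lit 1495305807) (nat_lit 228) (nat_lit 1280376075) (nat_lit 76) (nat_lit 12581862813) (nat_lit 17) (nat_lit 5) (nat_lit 20) (nat_lit 5) (nat_lit 18) (nat_lit 4) (nat_lit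 487) (nat_lit 361) (nat_lit 352)))))) (XT.nd (nat_lit 61932) (nat_lit 0) (nat_lit 380) (XT.nd (nat_lit 61620) (nat_lit 0) (nat_lit 1900) (XT.nd (nat_lit 78) (nat_lit 152) (nat_lit 0) (XT.lf (nat_lit 0) (nat_lit 2899127618) (nat_lit 152) (nat_lit 8663638574) (nat_lit 152) (nat_lit 4044112410) (nat_lit 14) (nat_lit 4) (nat_lit 16) (nat_lit 5) (nat_lit 16) (nat_lit 4) (nat_lit 488) (nat_lit 361) (nat_lit 351)) (XT.nd (nat_lit 61464) (nat_lit 0) (nat_lit 2888) (XT.lf (nat_lit 0) (nat_lit 5994204010) (nat_lit 152) (nat_lit 8786896546) (nat_lit 0) (nat_lit 1081701101) (nat_lit 12) (nat_lit 5) (nat_lit 14) (nat_lit 4) (nat_lit 12) (nat_lit 4) (nat_lit 489) (nat_lit 361) (nat_lit 350)) (XT.lf (nat_lit 0) (nat_lit 2237280809) (nat_lit 228) (nat_lit 2126686957) (nat_lit 228) (nat_lit 2126686957) (nat_lit 50) (nat_lit 4) (nat_lit 53) (nat_lit 5) (nat_lit 53) (nat_lit 4) (nat_lit 476) (nat_lit 362) (nat_lit 362))))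 (XT.nd (nat_lit 156) (nat_lit 380) (nat_lit 0) (XT.nd (nat_lit 78) (nat_lit 380) (nat_lit 0) (XT.lf (nat_lit 0) (nat_lit 4929363121) (nat_lit 228) (nat_lit 3936635935) (nat_lit 0) (nat_lit 4307293096) (nat_lit 47) (nat_lit 5) (nat_lit 50) (nat_lit 4) (nat_lit 47) (nat_lit 4) (nat_lit 477) (nat_lit 362) (nat_lit 361)) (XT.lf (nat_lit 0) (nat_lit 664756978) (nat_lit 152) (nat_lit 271271974) (nat_lit 228) (nat_lit 12434535677) (nat_lit 42) (nat_lit 5) (nat_lit 44) (nat_lit 5) (nat_lit 45) (nat_lit 4) (nat_lit 478) (nat_lit 362) (nat_lit 360))) (XT.nd (nat_lit 78) (nat_lit 228) (nat_lit 0) (XT.lf (nat_lit 0) (nat_lit 5291529492) (nat_lit 152) (nat_lit 5028584699) (nat_lit 152) (nat_lit 3251739437) (nat_lit 40) (nat_lit 4) (nat_lit 42) (nat_lit 5) (nat_lit 42) (nat_lit 4) (nat_lit 479) (nat_lit 362) (nat_lit 359)) (XT.lf (nat_lit 0) (nat_lit 6111461295) (nat_lit 228) (nat_lit 3844910471) (nat_lit 0) (nat_lit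 3822279862) (nat_lit 37) (nat_lit 5) (nat_lit 40) (nat_lit 4) (nat_lit 37) (nat_lit 4) (nat_lit 480) (nat_lit 362) (nat_lit 358))))) (XT.nd (nat_lit 234) (nat_lit 836) (nat_lit 0) (XT.nd (nat_lit 78) (nat_lit 304) (nat_lit 0) (XT.lf (nat_lit 0) (nat_lit 607520074) (nat_lit 152) (nat_lit 1089480226) (nat_lit 228) (nat_lit 12294014484) (nat_lit 32) (nat_lit 5) (nat_lit 34) (nat_lit 5) (nat_lit 35) (nat_lit 4) (nat_lit 481) (nat_lit 362) (nat_lit 357)) (XT.nd (nat_lit 78) (nat_lit 152) (nat_lit 0) (XT.lf (nat_lit 0) (nat_lit 5080828854) (nat_lit 152) (nat_lit 6198922029) (nat_lit 152) (nat_lit 2928150802) (nat_lit 30) (nat_lit 4) (nat_lit 32) (nat_lit 5) (nat_lit 32) (nat_lit 4) (nat_lit 482) (nat_lit 362) (nat_lit 356)) (XT.lf (nat_lit 0) (nat_lit 6621699225) (nat_lit 152) (nat_lit 4875141883) (nat_lit 0) (nat_lit 2933761456) (nat_lit 28) (nat_lit 5) (nat_lit 30) (nat_lit 4) (nat_lit 28) (nat_lit 4)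 (nat_lit 483) (nat_lit 362) (nat_lit 355)))) (XT.nd (nat_lit 156) (nat_lit 380) (nat_lit 0) (XT.nd (nat_lit 78) (nat_lit 228) (nat_lit 0) (XT.lf (nat_lit 0) (nat_lit 1744036337) (nat_lit 228) (nat_lit 632265250) (nat_lit 76) (nat_lit 12282900931) (nat_lit 25) (nat_lit 5) (nat_lit 28) (nat_lit 5) (nat_lit 26) (nat_lit 4) (nat_lit 484) (nat_lit 362) (nat_lit 354)) (XT.lf (nat_lit 0) (nat_lit 3621057902) (nat_lit 152) (nat_lit 7895158280) (nat_lit 152) (nat_lit 3376639246) (nat_lit 22) (nat_lit 4) (nat_lit 24) (nat_lit 5) (nat_lit 24) (nat_lit 4) (nat_lit 485) (nat_lit 362) (nat_lit 353))) (XT.nd (nat_lit 78) (nat_lit 228) (nat_lit 0) (XT.lf (nat_lit 0) (nat_lit 6363143562) (nat_lit 152) (nat_lit 7259676418) (nat_lit 0) (nat_lit 1509869374) (nat_lit 20) (nat_lit 5) (nat_lit 22) (nat_lit 4) (nat_lit 20) (nat_lit 4) (nat_lit 486) (nat_lit 362) (nat_lit 352)) (XT.lf (nat_lit 0) (nat_lit 982047077) (nat_lit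 228) (nat_lit 3280561971) (nat_lit 76) (nat_lit 11116042964) (nat_lit 17) (nat_lit 5) (nat_lit 20) (nat_lit 5) (nat_lit 18) (nat_lit 4) (nat_lit 487) (nat_lit 362) (nat_lit 351))))))))
noncomputable def xc1 : XT := (XT.nd (nat_lit 124410) (nat_lit 0) (nat_lit 76) (XT.nd (nat_lit 62244) (nat_lit 0) (nat_lit 0) (XT.nd (nat_lit 61698) (nat_lit 0) (nat_lit 988) (XT.nd (nat_lit 61464) (nat_lit 0) (nat_lit 2660) (XT.nd (nat_lit 78) (nat_lit 152) (nat_lit 0) (XT.lf (nat_lit 0) (nat_lit 658716250) (nat_lit 152) (nat_lit 10262073662) (nat_lit 152) (nat_lit 4709771302) (nat_lit 14) (nat_lit 4) (nat_lit 16) (nat_lit 5) (nat_lit 16) (nat_lit 4) (nat_lit 488) (nat_lit 362) (nat_lit 350)) (XT.nd (nat_lit 61308) (nat_lit 0) (nat_lit 3572) (XT.lf (nat_lit 0) (nat_lit 4620055955) (nat_lit 76) (nat_lit 603800560) (nat_lit 152) (nat_lit 10664983467) (nat_lit 12) (nat_lit 5) (nat_lit 13) (nat_lit 5) (nat_lit 14) (nat_lit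 4) (nat_lit 489) (nat_lit 362) (nat_lit 349)) (XT.lf (nat_lit 0) (nat_lit 1958077431) (nat_lit 228) (nat_lit 2388602033) (nat_lit 0) (nat_lit 1958077431) (nat_lit 59) (nat_lit 5) (nat_lit 62) (nat_lit 4) (nat_lit 59) (nat_lit 4) (nat_lit 474) (nat_lit 363) (nat_lit 363)))) (XT.nd (nat_lit 78) (nat_lit 608) (nat_lit 0) (XT.lf (nat_lit 0) (nat_lit 203187711) (nat_lit 304) (nat_lit 256178526) (nat_lit 76) (nat_lit 12335173440) (nat_lit 55) (nat_lit 5) (nat_lit 59) (nat_lit 5) (nat_lit 56) (nat_lit 4) (nat_lit 475) (nat_lit 363) (nat_lit 362)) (XT.nd (nat_lit 78) (nat_lit 228) (nat_lit 0) (XT.lf (nat_lit 0) (nat_lit 4300612703) (nat_lit 228) (nat_lit 4985333596) (nat_lit 228) (nat_lit 3697275401) (nat_lit 50) (nat_lit 4) (nat_lit 53) (nat_lit 5) (nat_lit 53) (nat_lit 4) (nat_lit 476) (nat_lit 363) (nat_lit 361)) (XT.lf (nat_lit 0) (nat_lit 5377257160) (nat_lit 228) (nat_lit 4289391186) (nat_lit 0) (nat_lit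 3510503527) (nat_lit 47) (nat_lit 5) (nat_lit 50) (nat_lit 4) (nat_lit 47) (nat_lit 4) (nat_lit 477) (nat_lit 363) (nat_lit 360))))) (XT.nd (nat_lit 234) (nat_lit 912) (nat_lit 0) (XT.nd (nat_lit 78) (nat_lit 380) (nat_lit 0) (XT.lf (nat_lit 0) (nat_lit 121209485) (nat_lit 152) (nat_lit 1153208227) (nat_lit 228) (nat_lit 12101946808) (nat_lit 42) (nat_lit 5) (nat_lit 44) (nat_lit 5) (nat_lit 45) (nat_lit 4) (nat_lit 478) (nat_lit 363) (nat_lit 359)) (XT.nd (nat_lit 78) (nat_lit 228) (nat_lit 0) (XT.lf (nat_lit 0) (nat_lit 4567659208) (nat_lit 152) (nat_lit 5987597200) (nat_lit 152) (nat_lit 3024463387) (nat_lit 40) (nat_lit 4) (nat_lit 42) (nat_lit 5) (nat_lit 42) (nat_lit 4) (nat_lit 479) (nat_lit 363) (nat_lit 358)) (XT.lf (nat_lit 0) (nat_lit 6231247979) (nat_lit 228) (nat_lit 4762356031) (nat_lit 0) (nat_lit 2794975728) (nat_lit 37) (nat_lit 5) (nat_lit 40) (nat_lit 4) (nat_lit 37) (nat_lit 4)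 (nat_lit 480) (nat_lit 363) (nat_lit 357)))) (XT.nd (nat_lit 156) (nat_lit 380) (nat_lit 0) (XT.nd (nat_lit 78) (nat_lit 304) (nat_lit 0) (XT.lf (nat_lit 0) (nat_lit 1702970101) (nat_lit 228) (nat_lit 512038763) (nat_lit 76) (nat_lit 11787969945) (nat_lit 34) (nat_lit 5) (nat_lit 37) (nat_lit 5) (nat_lit 35) (nat_lit 4) (nat_lit 481) (nat_lit 363) (nat_lit 356)) (XT.lf (nat_lit 0) (nat_lit 3762709696) (nat_lit 152) (nat_lit 7412420860) (nat_lit 152) (nat_lit 3046948143) (nat_lit 30) (nat_lit 4) (nat_lit 32) (nat_lit 5) (nat_lit 32) (nat_lit 4) (nat_lit 482) (nat_lit 363) (nat_lit 355))) (XT.nd (nat_lit 78) (nat_lit 228) (nat_lit 0) (XT.lf (nat_lit 0) (nat_lit 6395785332) (nat_lit 152) (nat_lit 6402555056) (nat_lit 0) (nat_lit 1648629235) (nat_lit 28) (nat_lit 5) (nat_lit 30) (nat_lit 4) (nat_lit 28) (nat_lit 4) (nat_lit 483) (nat_lit 363) (nat_lit 354)) (XT.lf (nat_lit 0) (nat_lit 1403827000) (nat_lit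 228) (nat_lit 2365096318) (nat_lit 76) (nat_lit 10908700914) (nat_lit 25) (nat_lit 5) (nat_lit 28) (nat_lit 5) (nat_lit 26) (nat_lit 4) (nat_lit 484) (nat_lit 363) (nat_lit 353)))))) (XT.nd (nat_lit 61620) (nat_lit 0) (nat_lit 1900) (XT.nd (nat_lit 234) (nat_lit 380) (nat_lit 0) (XT.nd (nat_lit 78) (nat_lit 380) (nat_lit 0) (XT.lf (nat_lit 0) (nat_lit 1661249848) (nat_lit 152) (nat_lit 9391581176) (nat_lit 152) (nat_lit 3860910677) (nat_lit 22) (nat_lit 4) (nat_lit 24) (nat_lit 5) (nat_lit 24) (nat_lit 4) (nat_lit 485) (nat_lit 363) (nat_lit 352)) (XT.nd (nat_lit 78) (nat_lit 228) (nat_lit 0) (XT.lf (nat_lit 0) (nat_lit 5709933535) (nat_lit 76) (nat_lit 62268133) (nat_lit 152) (nat_lit 9383698270) (nat_lit 20) (nat_lit 5) (nat_lit 21) (nat_lit 5) (nat_lit 22) (nat_lit 4) (nat_lit 486) (nat_lit 363) (nat_lit 351)) (XT.lf (nat_lit 0) (nat_lit 271431057) (nat_lit 228) (nat_lit 5684009463) (nat_lit 76)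 (nat_lit 9448593136) (nat_lit 17) (nat_lit 5) (nat_lit 20) (nat_lit 5) (nat_lit 18) (nat_lit 4) (nat_lit 487) (nat_lit 363) (nat_lit 350)))) (XT.nd (nat_lit 61230) (nat_lit 0) (nat_lit 3800) (XT.nd (nat_lit 78) (nat_lit 304) (nat_lit 0) (XT.lf (nat_lit 0) (nat_lit 10090376660) (nat_lit 152) (nat_lit 1967516483) (nat_lit 0) (nat_lit 3600446578) (nat_lit 16) (nat_lit 5) (nat_lit 18) (nat_lit 4) (nat_lit 16) (nat_lit 4) (nat_lit 488) (nat_lit 363) (nat_lit 349)) (XT.lf (nat_lit 0) (nat_lit 1741493129) (nat_lit 76) (nat_lit 2516027660) (nat_lit 152) (nat_lit 11661597997) (nat_lit 12) (nat_lit 5) (nat_lit 13) (nat_lit 5) (nat_lit 14) (nat_lit 4) (nat_lit 489) (nat_lit 363) (nat_lit 348))) (XT.nd (nat_lit 78) (nat_lit 456) (nat_lit 0) (XT.lf (nat_lit 0) (nat_lit 5478151463) (nat_lit 228) (nat_lit 324058952) (nat_lit 228) (nat_lit 324058952) (nat_lit 68) (nat_lit 4) (nat_lit 71) (nat_lit 5) (nat_lit 71) (nat_lit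 4) (nat_lit 472) (nat_lit 364) (nat_lit 364)) (XT.lf (nat_lit 0) (nat_lit 3158629979) (nat_lit 228) (nat_lit 4985629593) (nat_lit 228) (nat_lit 4285281033) (nat_lit 62) (nat_lit 4) (nat_lit 65) (nat_lit 5) (nat_lit 65) (nat_lit 4) (nat_lit 473) (nat_lit 364) (nat_lit 363))))) (XT.nd (nat_lit 234) (nat_lit 988) (nat_lit 0) (XT.nd (nat_lit 78) (nat_lit 684) (nat_lit 0) (XT.lf (nat_lit 0) (nat_lit 4508927815) (nat_lit 228) (nat_lit 4946770577) (nat_lit 0) (nat_lit 3155693876) (nat_lit 59) (nat_lit 5) (nat_lit 62) (nat_lit 4) (nat_lit 59) (nat_lit 4) (nat_lit 474) (nat_lit 364) (nat_lit 362)) (XT.nd (nat_lit 78) (nat_lit 380) (nat_lit 0) (XT.lf (nat_lit 0) (nat_lit 692404391) (nat_lit 304) (nat_lit 601778723) (nat_lit 76) (nat_lit 11504038403) (nat_lit 55) (nat_lit 5) (nat_lit 59) (nat_lit 5) (nat_lit 56) (nat_lit 4) (nat_lit 475) (nat_lit 364) (nat_lit 361)) (XT.lf (nat_lit 0) (nat_lit 3778613965) (nat_lit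 228) (nat_lit 5893794020) (nat_lit 228) (nat_lit 3316552143) (nat_lit 50) (nat_lit 4) (nat_lit 53) (nat_lit 5) (nat_lit 53) (nat_lit 4) (nat_lit 476) (nat_lit 364) (nat_lit 360)))) (XT.nd (nat_lit 156) (nat_lit 532) (nat_lit 0) (XT.nd (nat_lit 78) (nat_lit 228) (nat_lit 0) (XT.lf (nat_lit 0) (nat_lit 5651366577) (nat_lit 228) (nat_lit 4995209921) (nat_lit 0) (nat_lit 2538298193) (nat_lit 47) (nat_lit 5) (nat_lit 50) (nat_lit 4) (nat_lit 47) (nat_lit 4) (nat_lit 477) (nat_lit 364) (nat_lit 359)) (XT.lf (nat_lit 0) (nat_lit 1440629171) (nat_lit 228) (nat_lit 772279653) (nat_lit 76) (nat_lit 11173078897) (nat_lit 44) (nat_lit 5) (nat_lit 47) (nat_lit 5) (nat_lit 45) (nat_lit 4) (nat_lit 478) (nat_lit 364) (nat_lit 358))) (XT.nd (nat_lit 78) (nat_lit 228) (nat_lit 0) (XT.lf (nat_lit 0) (nat_lit 3481063216) (nat_lit 152) (nat_lit 7131237966) (nat_lit 152) (nat_lit 2979226457) (nat_lit 40) (nat_lit 4) (nat_lit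 42) (nat_lit 5) (nat_lit 42) (nat_lit 4) (nat_lit 479) (nat_lit 364) (nat_lit 357)) (XT.lf (nat_lit 0) (nat_lit 6170477471) (nat_lit 228) (nat_lit 6047901931) (nat_lit 0) (nat_lit 1584111834) (nat_lit 37) (nat_lit 5) (nat_lit 40) (nat_lit 4) (nat_lit 37) (nat_lit 4) (nat_lit 480) (nat_lit 364) (nat_lit 356))))))) (XT.nd (nat_lit 62010) (nat_lit 0) (nat_lit 228) (XT.nd (nat_lit 546) (nat_lit 380) (nat_lit 0) (XT.nd (nat_lit 234) (nat_lit 760) (nat_lit 0) (XT.nd (nat_lit 78) (nat_lit 456) (nat_lit 0) (XT.lf (nat_lit 0) (nat_lit 1531018347) (nat_lit 228) (nat_lit 1994452378) (nat_lit 76) (nat_lit 10493395450) (nat_lit 34) (nat_lit 5) (nat_lit 37) (nat_lit 5) (nat_lit 35) (nat_lit 4) (nat_lit 481) (nat_lit 364) (nat_lit 355)) (XT.nd (nat_lit 78) (nat_lit 152) (nat_lit 0) (XT.lf (nat_lit 0) (nat_lit 2066011489) (nat_lit 152) (nat_lit 8819152361) (nat_lit 152) (nat_lit 3355163663) (nat_lit 30) (nat_lit 4)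 (nat_lit 32) (nat_lit 5) (nat_lit 32) (nat_lit 4) (nat_lit 482) (nat_lit 364) (nat_lit 354)) (XT.lf (nat_lit 0) (nat_lit 5981827621) (nat_lit 152) (nat_lit 8314322430) (nat_lit 0) (nat_lit 171305194) (nat_lit 28) (nat_lit 5) (nat_lit 30) (nat_lit 4) (nat_lit 28) (nat_lit 4) (nat_lit 483) (nat_lit 364) (nat_lit 353)))) (XT.nd (nat_lit 156) (nat_lit 456) (nat_lit 0) (XT.nd (nat_lit 78) (nat_lit 76) (nat_lit 0) (XT.lf (nat_lit 0) (nat_lit 874080344) (nat_lit 228) (nat_lit 4485337180) (nat_lit 76) (nat_lit 9340769809) (nat_lit 25) (nat_lit 5) (nat_lit 28) (nat_lit 5) (nat_lit 26) (nat_lit 4) (nat_lit 484) (nat_lit 364) (nat_lit 352)) (XT.lf (nat_lit 0) (nat_lit 10400616073) (nat_lit 152) (nat_lit 685177623) (nat_lit 0) (nat_lit 3852961484) (nat_lit 24) (nat_lit 5) (nat_lit 26) (nat_lit 4) (nat_lit 24) (nat_lit 4) (nat_lit 485) (nat_lit 364) (nat_lit 351))) (XT.nd (nat_lit 78) (nat_lit 152) (nat_lit 0)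 (XT.lf (nat_lit 0) (nat_lit 3137697782) (nat_lit 76) (nat_lit 1858532285) (nat_lit 152) (nat_lit 10186924758) (nat_lit 20) (nat_lit 5) (nat_lit 21) (nat_lit 5) (nat_lit 22) (nat_lit 4) (nat_lit 486) (nat_lit 364) (nat_lit 350)) (XT.lf (nat_lit 0) (nat_lit 6936617455) (nat_lit 152) (nat_lit 7851379771) (nat_lit 152) (nat_lit 645630742) (nat_lit 18) (nat_lit 4) (nat_lit 20) (nat_lit 5) (nat_lit 20) (nat_lit 4) (nat_lit 487) (nat_lit 364) (nat_lit 349))))) (XT.nd (nat_lit 61152) (nat_lit 0) (nat_lit 3496) (XT.nd (nat_lit 78) (nat_lit 228) (nat_lit 0) (XT.lf (nat_lit 0) (nat_lit 9064811977) (nat_lit 152) (nat_lit 4993962833) (nat_lit 0) (nat_lit 1631583359) (nat_lit 16) (nat_lit 5) (nat_lit 18) (nat_lit 4) (nat_lit 16) (nat_lit 4) (nat_lit 488) (nat_lit 364) (nat_lit 348)) (XT.nd (nat_lit 60996) (nat_lit 0) (nat_lit 4712) (XT.lf (nat_lit 0) (nat_lit 3097332356) (nat_lit 228) (nat_lit 1534645203) (nat_lit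 76) (nat_lit 11321627369) (nat_lit 13) (nat_lit 5) (nat_lit 16) (nat_lit 5) (nat_lit 14) (nat_lit 4) (nat_lit 489) (nat_lit 364) (nat_lit 347)) (XT.lf (nat_lit 0) (nat_lit 979122885) (nat_lit 228) (nat_lit 2487621341) (nat_lit 228) (nat_lit 2487621341) (nat_lit 75) (nat_lit 4) (nat_lit 78) (nat_lit 5) (nat_lit 78) (nat_lit 4) (nat_lit 470) (nat_lit 365) (nat_lit 365)))) (XT.nd (nat_lit 156) (nat_lit 684) (nat_lit 0) (XT.nd (nat_lit 78) (nat_lit 228) (nat_lit 0) (XT.lf (nat_lit 0) (nat_lit 3548485901) (nat_lit 304) (nat_lit 5718018949) (nat_lit 0) (nat_lit 2812699704) (nat_lit 71) (nat_lit 5) (nat_lit 75) (nat_lit 4) (nat_lit 71) (nat_lit 4) (nat_lit 471) (nat_lit 365) (nat_lit 364)) (XT.lf (nat_lit 0) (nat_lit 10793617819) (nat_lit 228) (nat_lit 1455443639) (nat_lit 228) (nat_lit 5301911) (nat_lit 68) (nat_lit 4) (nat_lit 71) (nat_lit 5) (nat_lit 71) (nat_lit 4) (nat_lit 472) (nat_lit 365) (nat_lit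 363))) (XT.nd (nat_lit 78) (nat_lit 228) (nat_lit 0) (XT.lf (nat_lit 0) (nat_lit 2824187387) (nat_lit 228) (nat_lit 5855367727) (nat_lit 228) (nat_lit 3753710092) (nat_lit 62) (nat_lit 4) (nat_lit 65) (nat_lit 5) (nat_lit 65) (nat_lit 4) (nat_lit 473) (nat_lit 365) (nat_lit 362)) (XT.lf (nat_lit 0) (nat_lit 4934530689) (nat_lit 228) (nat_lit 5455618274) (nat_lit 0) (nat_lit 2226880373) (nat_lit 59) (nat_lit 5) (nat_lit 62) (nat_lit 4) (nat_lit 59) (nat_lit 4) (nat_lit 474) (nat_lit 365) (nat_lit 361)))))) (XT.nd (nat_lit 546) (nat_lit 1368) (nat_lit 0) (XT.nd (nat_lit 234) (nat_lit 988) (nat_lit 0) (XT.nd (nat_lit 78) (nat_lit 608) (nat_lit 0) (XT.lf (nat_lit 0) (nat_lit 1013390328) (nat_lit 304) (nat_lit 1288952974) (nat_lit 76) (nat_lit 10503331675) (nat_lit 55) (nat_lit 5) (nat_lit 59) (nat_lit 5) (nat_lit 56) (nat_lit 4) (nat_lit 475) (nat_lit 365) (nat_lit 360)) (XT.nd (nat_lit 78) (nat_lit 228)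 (nat_lit 0) (XT.lf (nat_lit 0) (nat_lit 2908109288) (nat_lit 228) (nat_lit 6979548987) (nat_lit 228) (nat_lit 3110871469) (nat_lit 50) (nat_lit 4) (nat_lit 53) (nat_lit 5) (nat_lit 53) (nat_lit 4) (nat_lit 476) (nat_lit 365) (nat_lit 359)) (XT.lf (nat_lit 0) (nat_lit 5751930884) (nat_lit 228) (nat_lit 6054708874) (nat_lit 0) (nat_lit 1389827592) (nat_lit 47) (nat_lit 5) (nat_lit 50) (nat_lit 4) (nat_lit 47) (nat_lit 4) (nat_lit 477) (nat_lit 365) (nat_lit 358)))) (XT.nd (nat_lit 156) (nat_lit 456) (nat_lit 0) (XT.nd (nat_lit 78) (nat_lit 304) (nat_lit 0) (XT.lf (nat_lit 0) (nat_lit 1432854124) (nat_lit 228) (nat_lit 2020439121) (nat_lit 76) (nat_lit 9946188486) (nat_lit 44) (nat_lit 5) (nat_lit 47) (nat_lit 5) (nat_lit 45) (nat_lit 4) (nat_lit 478) (nat_lit 365) (nat_lit 357)) (XT.lf (nat_lit 0) (nat_lit 2030792064) (nat_lit 152) (nat_lit 8460506295) (nat_lit 152) (nat_lit 3115989117) (nat_lit 40)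 (nat_lit 4) (nat_lit 42) (nat_lit 5) (nat_lit 42) (nat_lit 4) (nat_lit 479) (nat_lit 365) (nat_lit 356))) (XT.nd (nat_lit 78) (nat_lit 228) (nat_lit 0) (XT.lf (nat_lit 0) (nat_lit 5929096670) (nat_lit 228) (nat_lit 7702671463) (nat_lit 0) (nat_lit 188630144) (nat_lit 37) (nat_lit 5) (nat_lit 40) (nat_lit 4) (nat_lit 37) (nat_lit 4) (nat_lit 480) (nat_lit 365) (nat_lit 355)) (XT.lf (nat_lit 0) (nat_lit 1177050367) (nat_lit 228) (nat_lit 3848983816) (nat_lit 76) (nat_lit 9012735467) (nat_lit 34) (nat_lit 5) (nat_lit 37) (nat_lit 5) (nat_lit 35) (nat_lit 4) (nat_lit 481) (nat_lit 365) (nat_lit 354))))) (XT.nd (nat_lit 234) (nat_lit 684) (nat_lit 0) (XT.nd (nat_lit 78) (nat_lit 532) (nat_lit 0) (XT.lf (nat_lit 0) (nat_lit 10409667183) (nat_lit 228) (nat_lit 10607351) (nat_lit 0) (nat_lit 3842388145) (nat_lit 32) (nat_lit 5) (nat_lit 35) (nat_lit 4) (nat_lit 32) (nat_lit 4) (nat_lit 482) (nat_lit 365) (nat_lit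 353)) (XT.nd (nat_lit 78) (nat_lit 228) (nat_lit 0) (XT.lf (nat_lit 0) (nat_lit 3869900405) (nat_lit 76) (nat_lit 1519429116) (nat_lit 152) (nat_lit 9102550508) (nat_lit 28) (nat_lit 5) (nat_lit 29) (nat_lit 5) (nat_lit 30) (nat_lit 4) (nat_lit 483) (nat_lit 365) (nat_lit 352)) (XT.lf (nat_lit 0) (nat_lit 154333486) (nat_lit 228) (nat_lit 6994840473) (nat_lit 76) (nat_lit 7577737581) (nat_lit 25) (nat_lit 5) (nat_lit 28) (nat_lit 5) (nat_lit 26) (nat_lit 4) (nat_lit 484) (nat_lit 365) (nat_lit 351)))) (XT.nd (nat_lit 156) (nat_lit 304) (nat_lit 0) (XT.nd (nat_lit 78) (nat_lit 304) (nat_lit 0) (XT.lf (nat_lit 0) (nat_lit 9567858356) (nat_lit 152) (nat_lit 3402383805) (nat_lit 0) (nat_lit 1997498425) (nat_lit 24) (nat_lit 5) (nat_lit 26) (nat_lit 4) (nat_lit 24) (nat_lit 4) (nat_lit 485) (nat_lit 365) (nat_lit 350)) (XT.lf (nat_lit 0) (nat_lit 164190113) (nat_lit 76) (nat_lit 3860427262) (nat_lit 152)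 (nat_lit 11190059122) (nat_lit 20) (nat_lit 5) (nat_lit 21) (nat_lit 5) (nat_lit 22) (nat_lit 4) (nat_lit 486) (nat_lit 365) (nat_lit 349))) (XT.nd (nat_lit 78) (nat_lit 152) (nat_lit 0) (XT.lf (nat_lit 0) (nat_lit 3746561850) (nat_lit 152) (nat_lit 9953207572) (nat_lit 152) (nat_lit 1767713427) (nat_lit 18) (nat_lit 4) (nat_lit 20) (nat_lit 5) (nat_lit 20) (nat_lit 4) (nat_lit 487) (nat_lit 365) (nat_lit 348)) (XT.lf (nat_lit 0) (nat_lit 7291172433) (nat_lit 76) (nat_lit 551330083) (nat_lit 152) (nat_lit 7884155967) (nat_lit 16) (nat_lit 5) (nat_lit 17) (nat_lit 5) (nat_lit 18) (nat_lit 4) (nat_lit 488) (nat_lit 365) (nat_lit 347))))))))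
noncomputable def xc2 : XT := (XT.nd (nat_lit 123474) (nat_lit 0) (nat_lit 76) (XT.nd (nat_lit 61776) (nat_lit 0) (nat_lit 0) (XT.nd (nat_lit 61230) (nat_lit 0) (nat_lit 2052) (XT.nd (nat_lit 60996) (nat_lit 0) (nat_lit 4104) (XT.nd (nat_lit 60840) (nat_lit 0) (nat_lit 5244) (XT.lf (nat_lit 0) (nat_lit 1746211655) (nat_lit 228) (nat_lit 5203274610) (nat_lit 76) (nat_lit 9042763591) (nat_lit 13) (nat_lit 5) (nat_lit 16) (nat_lit 5) (nat_lit 14) (nat_lit 4) (nat_lit 489) (nat_lit 365) (nat_lit 346)) (XT.nd (nat_lit 78) (nat_lit 228) (nat_lit 0) (XT.lf (nat_lit 0) (nat_lit 1264833605) (nat_lit 304) (nat_lit 3259666761) (nat_lit 0) (nat_lit 1264833605) (nat_lit 85) (nat_lit 5) (nat_lit 89) (nat_lit 4) (nat_lit 85) (nat_lit 4) (nat_lit 468) (nat_lit 366) (nat_lit 366)) (XT.lf (nat_lit 0) (nat_lit 9368216392) (nat_lit 228) (nat_lit 1581484609) (nat_lit 228) (nat_lit 793007291) (nat_lit 82) (nat_lit 4) (nat_lit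 85) (nat_lit 5) (nat_lit 85) (nat_lit 4) (nat_lit 469) (nat_lit 366) (nat_lit 365)))) (XT.nd (nat_lit 78) (nat_lit 608) (nat_lit 0) (XT.lf (nat_lit 0) (nat_lit 1797626116) (nat_lit 228) (nat_lit 5818219463) (nat_lit 228) (nat_lit 4294700564) (nat_lit 75) (nat_lit 4) (nat_lit 78) (nat_lit 5) (nat_lit 78) (nat_lit 4) (nat_lit 470) (nat_lit 366) (nat_lit 364)) (XT.nd (nat_lit 78) (nat_lit 304) (nat_lit 0) (XT.lf (nat_lit 0) (nat_lit 4123464388) (nat_lit 304) (nat_lit 6043938416) (nat_lit 0) (nat_lit 1915462877) (nat_lit 71) (nat_lit 5) (nat_lit 75) (nat_lit 4) (nat_lit 71) (nat_lit 4) (nat_lit 471) (nat_lit 366) (nat_lit 363)) (XT.lf (nat_lit 0) (nat_lit 467355119) (nat_lit 304) (nat_lit 1957493229) (nat_lit 76) (nat_lit 9834929031) (nat_lit 67) (nat_lit 5) (nat_lit 71) (nat_lit 5) (nat_lit 68) (nat_lit 4) (nat_lit 472) (nat_lit 366) (nat_lit 362))))) (XT.nd (nat_lit 234) (nat_lit 1140) (nat_lit 0) (XT.nd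 (nat_lit 78) (nat_lit 532) (nat_lit 0) (XT.lf (nat_lit 0) (nat_lit 2155009971) (nat_lit 228) (nat_lit 6895255402) (nat_lit 228) (nat_lit 3390452292) (nat_lit 62) (nat_lit 4) (nat_lit 65) (nat_lit 5) (nat_lit 65) (nat_lit 4) (nat_lit 473) (nat_lit 366) (nat_lit 361)) (XT.nd (nat_lit 78) (nat_lit 304) (nat_lit 0) (XT.lf (nat_lit 0) (nat_lit 5193335369) (nat_lit 228) (nat_lit 6304191782) (nat_lit 0) (nat_lit 1128902769) (nat_lit 59) (nat_lit 5) (nat_lit 62) (nat_lit 4) (nat_lit 59) (nat_lit 4) (nat_lit 474) (nat_lit 366) (nat_lit 360)) (XT.lf (nat_lit 0) (nat_lit 1166425995) (nat_lit 304) (nat_lit 2318301722) (nat_lit 76) (nat_lit 9332178851) (nat_lit 55) (nat_lit 5) (nat_lit 59) (nat_lit 5) (nat_lit 56) (nat_lit 4) (nat_lit 475) (nat_lit 366) (nat_lit 359)))) (XT.nd (nat_lit 156) (nat_lit 532) (nat_lit 0) (XT.nd (nat_lit 78) (nat_lit 228) (nat_lit 0) (XT.lf (nat_lit 0) (nat_lit 1688338037) (nat_lit 228)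 (nat_lit 8243547216) (nat_lit 228) (nat_lit 3080053658) (nat_lit 50) (nat_lit 4) (nat_lit 53) (nat_lit 5) (nat_lit 53) (nat_lit 4) (nat_lit 476) (nat_lit 366) (nat_lit 358)) (XT.lf (nat_lit 0) (nat_lit 5679037953) (nat_lit 228) (nat_lit 7468813821) (nat_lit 0) (nat_lit 64088207) (nat_lit 47) (nat_lit 5) (nat_lit 50) (nat_lit 4) (nat_lit 47) (nat_lit 4) (nat_lit 477) (nat_lit 366) (nat_lit 357))) (XT.nd (nat_lit 78) (nat_lit 304) (nat_lit 0) (XT.lf (nat_lit 0) (nat_lit 1250298805) (nat_lit 228) (nat_lit 3625949228) (nat_lit 76) (nat_lit 8540626048) (nat_lit 44) (nat_lit 5) (nat_lit 47) (nat_lit 5) (nat_lit 45) (nat_lit 4) (nat_lit 478) (nat_lit 366) (nat_lit 356)) (XT.lf (nat_lit 0) (nat_lit 215578524) (nat_lit 152) (nat_lit 9976563682) (nat_lit 152) (nat_lit 3434870870) (nat_lit 40) (nat_lit 4) (nat_lit 42) (nat_lit 5) (nat_lit 42) (nat_lit 4) (nat_lit 479) (nat_lit 366) (nat_lit 355)))))) (XT.nd (nat_lit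 546) (nat_lit 608) (nat_lit 0) (XT.nd (nat_lit 234) (nat_lit 836) (nat_lit 0) (XT.nd (nat_lit 78) (nat_lit 380) (nat_lit 0) (XT.lf (nat_lit 0) (nat_lit 4104860291) (nat_lit 152) (nat_lit 1411196795) (nat_lit 228) (nat_lit 8326076172) (nat_lit 37) (nat_lit 5) (nat_lit 39) (nat_lit 5) (nat_lit 40) (nat_lit 4) (nat_lit 480) (nat_lit 366) (nat_lit 354)) (XT.nd (nat_lit 78) (nat_lit 152) (nat_lit 0) (XT.lf (nat_lit 0) (nat_lit 640756868) (nat_lit 228) (nat_lit 6077253544) (nat_lit 76) (nat_lit 7344696216) (nat_lit 34) (nat_lit 5) (nat_lit 37) (nat_lit 5) (nat_lit 35) (nat_lit 4) (nat_lit 481) (nat_lit 366) (nat_lit 353)) (XT.lf (nat_lit 0) (nat_lit 9764048537) (nat_lit 228) (nat_lit 2436997948) (nat_lit 0) (nat_lit 2087740759) (nat_lit 32) (nat_lit 5) (nat_lit 35) (nat_lit 4) (nat_lit 32) (nat_lit 4) (nat_lit 482) (nat_lit 366) (nat_lit 352)))) (XT.nd (nat_lit 156) (nat_lit 380) (nat_lit 0) (XT.nd (nat_lit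 78) (nat_lit 152) (nat_lit 0) (XT.lf (nat_lit 0) (nat_lit 1200335799) (nat_lit 76) (nat_lit 3409973281) (nat_lit 152) (nat_lit 9910105519) (nat_lit 28) (nat_lit 5) (nat_lit 29) (nat_lit 5) (nat_lit 30) (nat_lit 4) (nat_lit 483) (nat_lit 366) (nat_lit 351)) (XT.lf (nat_lit 0) (nat_lit 4856947791) (nat_lit 152) (nat_lit 9134683043) (nat_lit 152) (nat_lit 766089887) (nat_lit 26) (nat_lit 4) (nat_lit 28) (nat_lit 5) (nat_lit 28) (nat_lit 4) (nat_lit 484) (nat_lit 366) (nat_lit 350))) (XT.nd (nat_lit 78) (nat_lit 228) (nat_lit 0) (XT.lf (nat_lit 0) (nat_lit 8486028362) (nat_lit 76) (nat_lit 57388525) (nat_lit 152) (nat_lit 6457514624) (nat_lit 24) (nat_lit 5) (nat_lit 25) (nat_lit 5) (nat_lit 26) (nat_lit 4) (nat_lit 485) (nat_lit 366) (nat_lit 349)) (XT.lf (nat_lit 0) (nat_lit 2877376753) (nat_lit 228) (nat_lit 3171046149) (nat_lit 76) (nat_lit 9201652350) (nat_lit 21) (nat_lit 5) (nat_lit 24) (nat_lit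 5) (nat_lit 22) (nat_lit 4) (nat_lit 486) (nat_lit 366) (nat_lit 348))))) (XT.nd (nat_lit 60840) (nat_lit 0) (nat_lit 5244) (XT.nd (nat_lit 78) (nat_lit 380) (nat_lit 0) (XT.lf (nat_lit 0) (nat_lit 148891396) (nat_lit 152) (nat_lit 12264581918) (nat_lit 152) (nat_lit 3092190283) (nat_lit 18) (nat_lit 4) (nat_lit 20) (nat_lit 5) (nat_lit 20) (nat_lit 4) (nat_lit 487) (nat_lit 366) (nat_lit 347)) (XT.nd (nat_lit 78) (nat_lit 228) (nat_lit 0) (XT.lf (nat_lit 0) (nat_lit 3463484064) (nat_lit 76) (nat_lit 2967420710) (nat_lit 152) (nat_lit 9336197116) (nat_lit 16) (nat_lit 5) (nat_lit 17) (nat_lit 5) (nat_lit 18) (nat_lit 4) (nat_lit 488) (nat_lit 366) (nat_lit 346)) (XT.lf (nat_lit 0) (nat_lit 191671167) (nat_lit 228) (nat_lit 9290440684) (nat_lit 76) (nat_lit 6553201625) (nat_lit 13) (nat_lit 5) (nat_lit 16) (nat_lit 5) (nat_lit 14) (nat_lit 4) (nat_lit 489) (nat_lit 366) (nat_lit 345)))) (XT.nd (nat_lit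 156) (nat_lit 532) (nat_lit 0) (XT.nd (nat_lit 78) (nat_lit 532) (nat_lit 0) (XT.lf (nat_lit 0) (nat_lit 3998934165) (nat_lit 304) (nat_lit 815928554) (nat_lit 304) (nat_lit 815928554) (nat_lit 96) (nat_lit 4) (nat_lit 100) (nat_lit 5) (nat_lit 100) (nat_lit 4) (nat_lit 466) (nat_lit 367) (nat_lit 367)) (XT.lf (nat_lit 0) (nat_lit 777924407) (nat_lit 228) (nat_lit 5734700873) (nat_lit 228) (nat_lit 4906326603) (nat_lit 89) (nat_lit 4) (nat_lit 92) (nat_lit 5) (nat_lit 92) (nat_lit 4) (nat_lit 467) (nat_lit 367) (nat_lit 366))) (XT.nd (nat_lit 78) (nat_lit 228) (nat_lit 0) (XT.lf (nat_lit 0) (nat_lit 3252627764) (nat_lit 304) (nat_lit 6675806700) (nat_lit 0) (nat_lit 1652018808) (nat_lit 85) (nat_lit 5) (nat_lit 89) (nat_lit 4) (nat_lit 85) (nat_lit 4) (nat_lit 468) (nat_lit 367) (nat_lit 365)) (XT.lf (nat_lit 0) (nat_lit 9055729182) (nat_lit 228) (nat_lit 2528329626) (nat_lit 228) (nat_lit 162208711)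 (nat_lit 82) (nat_lit 4) (nat_lit 85) (nat_lit 5) (nat_lit 85) (nat_lit 4) (nat_lit 469) (nat_lit 367) (nat_lit 364))))))) (XT.nd (nat_lit 1014) (nat_lit 1368) (nat_lit 0) (XT.nd (nat_lit 468) (nat_lit 1748) (nat_lit 0) (XT.nd (nat_lit 234) (nat_lit 912) (nat_lit 0) (XT.nd (nat_lit 78) (nat_lit 608) (nat_lit 0) (XT.lf (nat_lit 0) (nat_lit 1315626807) (nat_lit 228) (nat_lit 6824367489) (nat_lit 228) (nat_lit 3775998460) (nat_lit 75) (nat_lit 4) (nat_lit 78) (nat_lit 5) (nat_lit 78) (nat_lit 4) (nat_lit 470) (nat_lit 367) (nat_lit 363)) (XT.nd (nat_lit 78) (nat_lit 304) (nat_lit 0) (XT.lf (nat_lit 0) (nat_lit 4538137574) (nat_lit 304) (nat_lit 6696062135) (nat_lit 0) (nat_lit 855991427) (nat_lit 71) (nat_lit 5) (nat_lit 75) (nat_lit 4) (nat_lit 71) (nat_lit 4) (nat_lit 471) (nat_lit 367) (nat_lit 362)) (XT.lf (nat_lit 0) (nat_lit 778557705) (nat_lit 304) (nat_lit 2782808183) (nat_lit 76) (nat_lit 8707501697)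 (nat_lit 67) (nat_lit 5) (nat_lit 71) (nat_lit 5) (nat_lit 68) (nat_lit 4) (nat_lit 472) (nat_lit 367) (nat_lit 361)))) (XT.nd (nat_lit 78) (nat_lit 532) (nat_lit 0) (XT.lf (nat_lit 0) (nat_lit 1150513014) (nat_lit 228) (nat_lit 8106201256) (nat_lit 228) (nat_lit 3195190222) (nat_lit 62) (nat_lit 4) (nat_lit 65) (nat_lit 5) (nat_lit 65) (nat_lit 4) (nat_lit 473) (nat_lit 367) (nat_lit 360)) (XT.nd (nat_lit 78) (nat_lit 304) (nat_lit 0) (XT.lf (nat_lit 0) (nat_lit 5145435570) (nat_lit 152) (nat_lit 141048206) (nat_lit 228) (nat_lit 7353100144) (nat_lit 59) (nat_lit 5) (nat_lit 61) (nat_lit 5) (nat_lit 62) (nat_lit 4) (nat_lit 474) (nat_lit 367) (nat_lit 359)) (XT.lf (nat_lit 0) (nat_lit 1151645113) (nat_lit 304) (nat_lit 3690724398) (nat_lit 76) (nat_lit 7989556594) (nat_lit 55) (nat_lit 5) (nat_lit 59) (nat_lit 5) (nat_lit 56) (nat_lit 4) (nat_lit 475) (nat_lit 367) (nat_lit 358))))) (XT.nd (nat_lit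 234) (nat_lit 912) (nat_lit 0) (XT.nd (nat_lit 78) (nat_lit 456) (nat_lit 0) (XT.lf (nat_lit 0) (nat_lit 118234392) (nat_lit 228) (nat_lit 9686893171) (nat_lit 228) (nat_lit 3224071784) (nat_lit 50) (nat_lit 4) (nat_lit 53) (nat_lit 5) (nat_lit 53) (nat_lit 4) (nat_lit 476) (nat_lit 367) (nat_lit 357)) (XT.nd (nat_lit 78) (nat_lit 228) (nat_lit 0) (XT.lf (nat_lit 0) (nat_lit 3982882033) (nat_lit 152) (nat_lit 1459216259) (nat_lit 228) (nat_lit 7789018328) (nat_lit 47) (nat_lit 5) (nat_lit 49) (nat_lit 5) (nat_lit 50) (nat_lit 4) (nat_lit 477) (nat_lit 367) (nat_lit 356)) (XT.lf (nat_lit 0) (nat_lit 892803699) (nat_lit 228) (nat_lit 5590212847) (nat_lit 76) (nat_lit 6955163421) (nat_lit 44) (nat_lit 5) (nat_lit 47) (nat_lit 5) (nat_lit 45) (nat_lit 4) (nat_lit 478) (nat_lit 367) (nat_lit 355)))) (XT.nd (nat_lit 156) (nat_lit 380) (nat_lit 0) (XT.nd (nat_lit 78) (nat_lit 380) (nat_lit 0) (XT.lf (nat_lit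 0) (nat_lit 9727336963) (nat_lit 228) (nat_lit 1940376924) (nat_lit 0) (nat_lit 1982752474) (nat_lit 42) (nat_lit 5) (nat_lit 45) (nat_lit 4) (nat_lit 42) (nat_lit 4) (nat_lit 479) (nat_lit 367) (nat_lit 354)) (XT.lf (nat_lit 0) (nat_lit 1721062615) (nat_lit 152) (nat_lit 3203237456) (nat_lit 228) (nat_lit 8943549057) (nat_lit 37) (nat_lit 5) (nat_lit 39) (nat_lit 5) (nat_lit 40) (nat_lit 4) (nat_lit 480) (nat_lit 367) (nat_lit 353))) (XT.nd (nat_lit 78) (nat_lit 228) (nat_lit 0) (XT.lf (nat_lit 0) (nat_lit 5408963791) (nat_lit 152) (nat_lit 8602352195) (nat_lit 152) (nat_lit 79371730) (nat_lit 35) (nat_lit 4) (nat_lit 37) (nat_lit 5) (nat_lit 37) (nat_lit 4) (nat_lit 481) (nat_lit 367) (nat_lit 352)) (XT.lf (nat_lit 0) (nat_lit 8934329861) (nat_lit 228) (nat_lit 5242376563) (nat_lit 0) (nat_lit 142285891) (nat_lit 32) (nat_lit 5) (nat_lit 35) (nat_lit 4) (nat_lit 32) (nat_lit 4) (nat_lit 482) (nat_lit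 367) (nat_lit 351)))))) (XT.nd (nat_lit 60996) (nat_lit 0) (nat_lit 4636) (XT.nd (nat_lit 234) (nat_lit 760) (nat_lit 0) (XT.nd (nat_lit 78) (nat_lit 380) (nat_lit 0) (XT.lf (nat_lit 0) (nat_lit 3655013809) (nat_lit 228) (nat_lit 1832392549) (nat_lit 76) (nat_lit 9065458970) (nat_lit 29) (nat_lit 5) (nat_lit 32) (nat_lit 5) (nat_lit 30) (nat_lit 4) (nat_lit 483) (nat_lit 367) (nat_lit 350)) (XT.nd (nat_lit 78) (nat_lit 152) (nat_lit 0) (XT.lf (nat_lit 0) (nat_lit 1589725740) (nat_lit 152) (nat_lit 11320437346) (nat_lit 152) (nat_lit 1882532785) (nat_lit 26) (nat_lit 4) (nat_lit 28) (nat_lit 5) (nat_lit 28) (nat_lit 4) (nat_lit 484) (nat_lit 367) (nat_lit 349)) (XT.lf (nat_lit 0) (nat_lit 4998532514) (nat_lit 76) (nat_lit 2341951375) (nat_lit 152) (nat_lit 7697591321) (nat_lit 24) (nat_lit 5) (nat_lit 25) (nat_lit 5) (nat_lit 26) (nat_lit 4) (nat_lit 485) (nat_lit 367) (nat_lit 348)))) (XT.nd (nat_lit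 156) (nat_lit 456) (nat_lit 0) (XT.nd (nat_lit 78) (nat_lit 76) (nat_lit 0) (XT.lf (nat_lit 0) (nat_lit 1536332770) (nat_lit 228) (nat_lit 6905614730) (nat_lit 76) (nat_lit 6847777984) (nat_lit 21) (nat_lit 5) (nat_lit 24) (nat_lit 5) (nat_lit 22) (nat_lit 4) (nat_lit 486) (nat_lit 367) (nat_lit 347)) (XT.lf (nat_lit 0) (nat_lit 10953043630) (nat_lit 152) (nat_lit 3808918974) (nat_lit 0) (nat_lit 785739794) (nat_lit 20) (nat_lit 5) (nat_lit 22) (nat_lit 4) (nat_lit 20) (nat_lit 4) (nat_lit 487) (nat_lit 367) (nat_lit 346))) (XT.nd (nat_lit 78) (nat_lit 228) (nat_lit 0) (XT.lf (nat_lit 0) (nat_lit 4823109427) (nat_lit 228) (nat_lit 768847982) (nat_lit 76) (nat_lit 10219879838) (nat_lit 17) (nat_lit 5) (nat_lit 20) (nat_lit 5) (nat_lit 18) (nat_lit 4) (nat_lit 488) (nat_lit 367) (nat_lit 345)) (XT.lf (nat_lit 0) (nat_lit 2272598943) (nat_lit 152) (nat_lit 12221547554) (nat_lit 152) (nat_lit 1588480651)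 (nat_lit 14) (nat_lit 4) (nat_lit 16) (nat_lit 5) (nat_lit 16) (nat_lit 4) (nat_lit 489) (nat_lit 367) (nat_lit 344))))) (XT.nd (nat_lit 234) (nat_lit 1596) (nat_lit 0) (XT.nd (nat_lit 78) (nat_lit 912) (nat_lit 0) (XT.lf (nat_lit 0) (nat_lit 2697847836) (nat_lit 304) (nat_lit 82715092) (nat_lit 0) (nat_lit 2697847836) (nat_lit 108) (nat_lit 5) (nat_lit 112) (nat_lit 4) (nat_lit 108) (nat_lit 4) (nat_lit 464) (nat_lit 368) (nat_lit 368)) (XT.nd (nat_lit 78) (nat_lit 304) (nat_lit 0) (XT.lf (nat_lit 0) (nat_lit 2349460908) (nat_lit 304) (nat_lit 7279449908) (nat_lit 0) (nat_lit 1479170899) (nat_lit 100) (nat_lit 5) (nat_lit 104) (nat_lit 4) (nat_lit 100) (nat_lit 4) (nat_lit 465) (nat_lit 368) (nat_lit 367)) (XT.lf (nat_lit 0) (nat_lit 7847956344) (nat_lit 304) (nat_lit 2565297618) (nat_lit 304) (nat_lit 850065854) (nat_lit 96) (nat_lit 4) (nat_lit 100) (nat_lit 5) (nat_lit 100) (nat_lit 4) (nat_lit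 466) (nat_lit 368) (nat_lit 366)))) (XT.nd (nat_lit 156) (nat_lit 760) (nat_lit 0) (XT.nd (nat_lit 78) (nat_lit 304) (nat_lit 0) (XT.lf (nat_lit 0) (nat_lit 469516350) (nat_lit 228) (nat_lit 6719412276) (nat_lit 228) (nat_lit 4233565642) (nat_lit 89) (nat_lit 4) (nat_lit 92) (nat_lit 5) (nat_lit 92) (nat_lit 4) (nat_lit 467) (nat_lit 368) (nat_lit 365)) (XT.lf (nat_lit 0) (nat_lit 3821532177) (nat_lit 304) (nat_lit 7145362955) (nat_lit 0) (nat_lit 618915675) (nat_lit 85) (nat_lit 5) (nat_lit 89) (nat_lit 4) (nat_lit 85) (nat_lit 4) (nat_lit 468) (nat_lit 368) (nat_lit 364))) (XT.nd (nat_lit 78) (nat_lit 456) (nat_lit 0) (XT.lf (nat_lit 0) (nat_lit 307377428) (nat_lit 304) (nat_lit 3324929591) (nat_lit 76) (nat_lit 8121041624) (nat_lit 81) (nat_lit 5) (nat_lit 85) (nat_lit 5) (nat_lit 82) (nat_lit 4) (nat_lit 469) (nat_lit 368) (nat_lit 363)) (XT.lf (nat_lit 0) (nat_lit 511826679) (nat_lit 228) (nat_lit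 7994565918) (nat_lit 228) (nat_lit 3418683136) (nat_lit 75) (nat_lit 4) (nat_lit 78) (nat_lit 5) (nat_lit 78) (nat_lit 4) (nat_lit 470) (nat_lit 368) (nat_lit 362))))))))
noncomputable def xc3 : XT := (XT.nd (nat_lit 62400) (nat_lit 0) (nat_lit 0) (XT.nd (nat_lit 1014) (nat_lit 988) (nat_lit 0) (XT.nd (nat_lit 468) (nat_lit 1824) (nat_lit 0) (XT.nd (nat_lit 234) (nat_lit 912) (nat_lit 0) (XT.nd (nat_lit 78) (nat_lit 456) (nat_lit 0) (XT.lf (nat_lit 0) (nat_lit 4423767045) (nat_lit 228) (nat_lit 371512856) (nat_lit 304) (nat_lit 7305859173) (nat_lit 71) (nat_lit 5) (nat_lit 74) (nat_lit 5) (nat_lit 75) (nat_lit 4) (nat_lit 471) (nat_lit 368) (nat_lit 361)) (XT.nd (nat_lit 78) (nat_lit 152) (nat_lit 0) (XT.lf (nat_lit 0) (nat_lit 928647306) (nat_lit 304) (nat_lit 3937377140) (nat_lit 76) (nat_lit 7415618175) (nat_lit 67) (nat_lit 5) (nat_lit 71) (nat_lit 5) (nat_lit 68) (nat_lit 4) (nat_lit 472) (nat_lit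 368) (nat_lit 360)) (XT.lf (nat_lit 0) (nat_lit 9300316981) (nat_lit 228) (nat_lit 187686939) (nat_lit 0) (nat_lit 2978806848) (nat_lit 65) (nat_lit 5) (nat_lit 68) (nat_lit 4) (nat_lit 65) (nat_lit 4) (nat_lit 473) (nat_lit 368) (nat_lit 359)))) (XT.nd (nat_lit 78) (nat_lit 456) (nat_lit 0) (XT.lf (nat_lit 0) (nat_lit 3622185407) (nat_lit 152) (nat_lit 1599508830) (nat_lit 228) (nat_lit 7434655855) (nat_lit 59) (nat_lit 5) (nat_lit 61) (nat_lit 5) (nat_lit 62) (nat_lit 4) (nat_lit 474) (nat_lit 368) (nat_lit 358)) (XT.nd (nat_lit 78) (nat_lit 152) (nat_lit 0) (XT.lf (nat_lit 0) (nat_lit 969034767) (nat_lit 304) (nat_lit 5407420206) (nat_lit 76) (nat_lit 6474291740) (nat_lit 55) (nat_lit 5) (nat_lit 59) (nat_lit 5) (nat_lit 56) (nat_lit 4) (nat_lit 475) (nat_lit 368) (nat_lit 357)) (XT.lf (nat_lit 0) (nat_lit 9518984442) (nat_lit 228) (nat_lit 1779919389) (nat_lit 0) (nat_lit 1751188100) (nat_lit 53)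 (nat_lit 5) (nat_lit 56) (nat_lit 4) (nat_lit 53) (nat_lit 4) (nat_lit 476) (nat_lit 368) (nat_lit 356))))) (XT.nd (nat_lit 234) (nat_lit 988) (nat_lit 0) (XT.nd (nat_lit 78) (nat_lit 380) (nat_lit 0) (XT.lf (nat_lit 0) (nat_lit 1867523918) (nat_lit 152) (nat_lit 3165502611) (nat_lit 228) (nat_lit 8221145061) (nat_lit 47) (nat_lit 5) (nat_lit 49) (nat_lit 5) (nat_lit 50) (nat_lit 4) (nat_lit 477) (nat_lit 368) (nat_lit 355)) (XT.nd (nat_lit 78) (nat_lit 152) (nat_lit 0) (XT.lf (nat_lit 0) (nat_lit 360056433) (nat_lit 228) (nat_lit 7914946324) (nat_lit 76) (nat_lit 5188415250) (nat_lit 44) (nat_lit 5) (nat_lit 47) (nat_lit 5) (nat_lit 45) (nat_lit 4) (nat_lit 478) (nat_lit 368) (nat_lit 354)) (XT.lf (nat_lit 0) (nat_lit 9087491499) (nat_lit 228) (nat_lit 4457107806) (nat_lit 0) (nat_lit 133248222) (nat_lit 42) (nat_lit 5) (nat_lit 45) (nat_lit 4) (nat_lit 42) (nat_lit 4) (nat_lit 479) (nat_lit 368)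 (nat_lit 353)))) (XT.nd (nat_lit 156) (nat_lit 456) (nat_lit 0) (XT.nd (nat_lit 78) (nat_lit 304) (nat_lit 0) (XT.lf (nat_lit 0) (nat_lit 4158784120) (nat_lit 228) (nat_lit 1020915898) (nat_lit 76) (nat_lit 8717758826) (nat_lit 39) (nat_lit 5) (nat_lit 42) (nat_lit 5) (nat_lit 40) (nat_lit 4) (nat_lit 480) (nat_lit 368) (nat_lit 352)) (XT.lf (nat_lit 0) (nat_lit 2453062076) (nat_lit 152) (nat_lit 10675701469) (nat_lit 152) (nat_lit 993875691) (nat_lit 35) (nat_lit 4) (nat_lit 37) (nat_lit 5) (nat_lit 37) (nat_lit 4) (nat_lit 481) (nat_lit 368) (nat_lit 351))) (XT.nd (nat_lit 78) (nat_lit 228) (nat_lit 0) (XT.lf (nat_lit 0) (nat_lit 5910717748) (nat_lit 152) (nat_lit 2022197860) (nat_lit 228) (nat_lit 6420126084) (nat_lit 32) (nat_lit 5) (nat_lit 34) (nat_lit 5) (nat_lit 35) (nat_lit 4) (nat_lit 482) (nat_lit 368) (nat_lit 350)) (XT.lf (nat_lit 0) (nat_lit 2520869958) (nat_lit 228) (nat_lit 5234447423)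 (nat_lit 76) (nat_lit 6833977966) (nat_lit 29) (nat_lit 5) (nat_lit 32) (nat_lit 5) (nat_lit 30) (nat_lit 4) (nat_lit 483) (nat_lit 368) (nat_lit 349)))))) (XT.nd (nat_lit 60840) (nat_lit 0) (nat_lit 4940) (XT.nd (nat_lit 234) (nat_lit 456) (nat_lit 0) (XT.nd (nat_lit 78) (nat_lit 456) (nat_lit 0) (XT.lf (nat_lit 0) (nat_lit 11651417123) (nat_lit 152) (nat_lit 2044247309) (nat_lit 0) (nat_lit 1135954446) (nat_lit 28) (nat_lit 5) (nat_lit 30) (nat_lit 4) (nat_lit 28) (nat_lit 4) (nat_lit 484) (nat_lit 368) (nat_lit 348)) (XT.nd (nat_lit 78) (nat_lit 152) (nat_lit 0) (XT.lf (nat_lit 0) (nat_lit 1113226177) (nat_lit 76) (nat_lit 4831640642) (nat_lit 152) (nat_lit 9134600150) (nat_lit 24) (nat_lit 5) (nat_lit 25) (nat_lit 5) (nat_lit 26) (nat_lit 4) (nat_lit 485) (nat_lit 368) (nat_lit 347)) (XT.lf (nat_lit 0) (nat_lit 4288745881) (nat_lit 152) (nat_lit 11044174786) (nat_lit 152) (nat_lit 762391) (nat_lit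 22) (nat_lit 4) (nat_lit 24) (nat_lit 5) (nat_lit 24) (nat_lit 4) (nat_lit 486) (nat_lit 368) (nat_lit 346)))) (XT.nd (nat_lit 156) (nat_lit 76) (nat_lit 0) (XT.nd (nat_lit 78) (nat_lit 228) (nat_lit 0) (XT.lf (nat_lit 0) (nat_lit 7407875631) (nat_lit 76) (nat_lit 1900242052) (nat_lit 152) (nat_lit 6285700036) (nat_lit 20) (nat_lit 5) (nat_lit 21) (nat_lit 5) (nat_lit 22) (nat_lit 4) (nat_lit 487) (nat_lit 368) (nat_lit 345)) (XT.lf (nat_lit 0) (nat_lit 3037853833) (nat_lit 228) (nat_lit 5368834558) (nat_lit 76) (nat_lit 7453812407) (nat_lit 17) (nat_lit 5) (nat_lit 20) (nat_lit 5) (nat_lit 18) (nat_lit 4) (nat_lit 488) (nat_lit 368) (nat_lit 344))) (XT.nd (nat_lit 60372) (nat_lit 0) (nat_lit 7600) (XT.lf (nat_lit 0) (nat_lit 12571185477) (nat_lit 152) (nat_lit 2589483014) (nat_lit 0) (nat_lit 973377085) (nat_lit 16) (nat_lit 5) (nat_lit 18) (nat_lit 4) (nat_lit 16) (nat_lit 4) (nat_lit 489) (nat_lit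 368) (nat_lit 343)) (XT.lf (nat_lit 0) (nat_lit 717710391) (nat_lit 304) (nat_lit 3896698021) (nat_lit 0) (nat_lit 717710391) (nat_lit 116) (nat_lit 5) (nat_lit 120) (nat_lit 4) (nat_lit 116) (nat_lit 4) (nat_lit 462) (nat_lit 369) (nat_lit 369))))) (XT.nd (nat_lit 234) (nat_lit 1444) (nat_lit 0) (XT.nd (nat_lit 78) (nat_lit 912) (nat_lit 0) (XT.lf (nat_lit 0) (nat_lit 6744839146) (nat_lit 304) (nat_lit 2498599098) (nat_lit 304) (nat_lit 1565985882) (nat_lit 112) (nat_lit 4) (nat_lit 116) (nat_lit 5) (nat_lit 116) (nat_lit 4) (nat_lit 463) (nat_lit 369) (nat_lit 368)) (XT.nd (nat_lit 78) (nat_lit 608) (nat_lit 0) (XT.lf (nat_lit 0) (nat_lit 6224585227) (nat_lit 304) (nat_lit 311384453) (nat_lit 0) (nat_lit 4422562735) (nat_lit 108) (nat_lit 5) (nat_lit 112) (nat_lit 4) (nat_lit 108) (nat_lit 4) (nat_lit 464) (nat_lit 369) (nat_lit 367)) (XT.lf (nat_lit 0) (nat_lit 3071709658) (nat_lit 304) (nat_lit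 7579780013) (nat_lit 0) (nat_lit 460079185) (nat_lit 100) (nat_lit 5) (nat_lit 104) (nat_lit 4) (nat_lit 100) (nat_lit 4) (nat_lit 465) (nat_lit 369) (nat_lit 366)))) (XT.nd (nat_lit 156) (nat_lit 836) (nat_lit 0) (XT.nd (nat_lit 78) (nat_lit 304) (nat_lit 0) (XT.lf (nat_lit 0) (nat_lit 7398089393) (nat_lit 304) (nat_lit 3651203013) (nat_lit 304) (nat_lit 219240738) (nat_lit 96) (nat_lit 4) (nat_lit 100) (nat_lit 5) (nat_lit 100) (nat_lit 4) (nat_lit 466) (nat_lit 369) (nat_lit 365)) (XT.lf (nat_lit 0) (nat_lit 7714710109) (nat_lit 304) (nat_lit 145633849) (nat_lit 0) (nat_lit 3569219013) (nat_lit 92) (nat_lit 5) (nat_lit 96) (nat_lit 4) (nat_lit 92) (nat_lit 4) (nat_lit 467) (nat_lit 369) (nat_lit 364))) (XT.nd (nat_lit 78) (nat_lit 304) (nat_lit 0) (XT.lf (nat_lit 0) (nat_lit 3662503998) (nat_lit 228) (nat_lit 578127139) (nat_lit 304) (nat_lit 7354039027) (nat_lit 85) (nat_lit 5) (nat_lit 88) (nat_lit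 5) (nat_lit 89) (nat_lit 4) (nat_lit 468) (nat_lit 369) (nat_lit 363)) (XT.lf (nat_lit 0) (nat_lit 620177832) (nat_lit 304) (nat_lit 4276231672) (nat_lit 76) (nat_lit 6867588110) (nat_lit 81) (nat_lit 5) (nat_lit 85) (nat_lit 5) (nat_lit 82) (nat_lit 4) (nat_lit 469) (nat_lit 369) (nat_lit 362))))))) (XT.nd (nat_lit 1092) (nat_lit 988) (nat_lit 0) (XT.nd (nat_lit 546) (nat_lit 1824) (nat_lit 0) (XT.nd (nat_lit 234) (nat_lit 1064) (nat_lit 0) (XT.nd (nat_lit 78) (nat_lit 836) (nat_lit 0) (XT.lf (nat_lit 0) (nat_lit 8719350225) (nat_lit 304) (nat_lit 606417647) (nat_lit 0) (nat_lit 2611955345) (nat_lit 78) (nat_lit 5) (nat_lit 82) (nat_lit 4) (nat_lit 78) (nat_lit 4) (nat_lit 470) (nat_lit 369) (nat_lit 361)) (XT.nd (nat_lit 78) (nat_lit 304) (nat_lit 0) (XT.lf (nat_lit 0) (nat_lit 3122609795) (nat_lit 228) (nat_lit 1776804022) (nat_lit 304) (nat_lit 7216219292) (nat_lit 71) (nat_lit 5) (nat_lit 74)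 (nat_lit 5) (nat_lit 75) (nat_lit 4) (nat_lit 471) (nat_lit 369) (nat_lit 360)) (XT.lf (nat_lit 0) (nat_lit 917755068) (nat_lit 304) (nat_lit 5422208944) (nat_lit 76) (nat_lit 5958149635) (nat_lit 67) (nat_lit 5) (nat_lit 71) (nat_lit 5) (nat_lit 68) (nat_lit 4) (nat_lit 472) (nat_lit 369) (nat_lit 359)))) (XT.nd (nat_lit 156) (nat_lit 456) (nat_lit 0) (XT.nd (nat_lit 78) (nat_lit 456) (nat_lit 0) (XT.lf (nat_lit 0) (nat_lit 9189536057) (nat_lit 228) (nat_lit 1843741793) (nat_lit 0) (nat_lit 1452003176) (nat_lit 65) (nat_lit 5) (nat_lit 68) (nat_lit 4) (nat_lit 65) (nat_lit 4) (nat_lit 473) (nat_lit 369) (nat_lit 358)) (XT.lf (nat_lit 0) (nat_lit 1758732186) (nat_lit 152) (nat_lit 3232750962) (nat_lit 228) (nat_lit 7685408476) (nat_lit 59) (nat_lit 5) (nat_lit 61) (nat_lit 5) (nat_lit 62) (nat_lit 4) (nat_lit 474) (nat_lit 369) (nat_lit 357))) (XT.nd (nat_lit 78) (nat_lit 152) (nat_lit 0) (XT.lf (nat_lit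 0) (nat_lit 618435394) (nat_lit 304) (nat_lit 7469889173) (nat_lit 76) (nat_lit 4785060269) (nat_lit 55) (nat_lit 5) (nat_lit 59) (nat_lit 5) (nat_lit 56) (nat_lit 4) (nat_lit 475) (nat_lit 369) (nat_lit 356)) (XT.lf (nat_lit 0) (nat_lit 9049435958) (nat_lit 152) (nat_lit 15210489) (nat_lit 228) (nat_lit 4010159663) (nat_lit 53) (nat_lit 5) (nat_lit 55) (nat_lit 5) (nat_lit 56) (nat_lit 4) (nat_lit 476) (nat_lit 369) (nat_lit 355))))) (XT.nd (nat_lit 234) (nat_lit 988) (nat_lit 0) (XT.nd (nat_lit 78) (nat_lit 532) (nat_lit 0) (XT.lf (nat_lit 0) (nat_lit 4454967540) (nat_lit 304) (nat_lit 596440114) (nat_lit 76) (nat_lit 8229647335) (nat_lit 49) (nat_lit 5) (nat_lit 53) (nat_lit 5) (nat_lit 50) (nat_lit 4) (nat_lit 477) (nat_lit 369) (nat_lit 354)) (XT.nd (nat_lit 78) (nat_lit 228) (nat_lit 0) (XT.lf (nat_lit 0) (nat_lit 2888091268) (nat_lit 152) (nat_lit 10251434475) (nat_lit 152) (nat_lit 353038665)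 (nat_lit 45) (nat_lit 4) (nat_lit 47) (nat_lit 5) (nat_lit 47) (nat_lit 4) (nat_lit 478) (nat_lit 369) (nat_lit 353)) (XT.lf (nat_lit 0) (nat_lit 6356810694) (nat_lit 152) (nat_lit 1926343454) (nat_lit 228) (nat_lit 5425804202) (nat_lit 42) (nat_lit 5) (nat_lit 44) (nat_lit 5) (nat_lit 45) (nat_lit 4) (nat_lit 479) (nat_lit 369) (nat_lit 352)))) (XT.nd (nat_lit 156) (nat_lit 608) (nat_lit 0) (XT.nd (nat_lit 78) (nat_lit 152) (nat_lit 0) (XT.lf (nat_lit 0) (nat_lit 3225721463) (nat_lit 228) (nat_lit 4109571277) (nat_lit 76) (nat_lit 6595557917) (nat_lit 39) (nat_lit 5) (nat_lit 42) (nat_lit 5) (nat_lit 40) (nat_lit 4) (nat_lit 480) (nat_lit 369) (nat_lit 351)) (XT.lf (nat_lit 0) (nat_lit 12069351660) (nat_lit 228) (nat_lit 868986695) (nat_lit 0) (nat_lit 1220220722) (nat_lit 37) (nat_lit 5) (nat_lit 40) (nat_lit 4) (nat_lit 37) (nat_lit 4) (nat_lit 481) (nat_lit 369) (nat_lit 350))) (XT.nd (nat_lit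 78) (nat_lit 228) (nat_lit 0) (XT.lf (nat_lit 0) (nat_lit 2362473530) (nat_lit 152) (nat_lit 4385531182) (nat_lit 228) (nat_lit 7643178938) (nat_lit 32) (nat_lit 5) (nat_lit 34) (nat_lit 5) (nat_lit 35) (nat_lit 4) (nat_lit 482) (nat_lit 369) (nat_lit 349)) (XT.lf (nat_lit 0) (nat_lit 1199093153) (nat_lit 228) (nat_lit 9024544111) (nat_lit 76) (nat_lit 4406255094) (nat_lit 29) (nat_lit 5) (nat_lit 32) (nat_lit 5) (nat_lit 30) (nat_lit 4) (nat_lit 483) (nat_lit 369) (nat_lit 348)))))) (XT.nd (nat_lit 60684) (nat_lit 0) (nat_lit 5776) (XT.nd (nat_lit 234) (nat_lit 608) (nat_lit 0) (XT.nd (nat_lit 78) (nat_lit 304) (nat_lit 0) (XT.lf (nat_lit 0) (nat_lit 8815937974) (nat_lit 76) (nat_lit 1406928965) (nat_lit 152) (nat_lit 4651485335) (nat_lit 28) (nat_lit 5) (nat_lit 29) (nat_lit 5) (nat_lit 30) (nat_lit 4) (nat_lit 484) (nat_lit 369) (nat_lit 347)) (XT.nd (nat_lit 78) (nat_lit 76) (nat_lit 0) (XT.lf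 (nat_lit 0) (nat_lit 4375949277) (nat_lit 228) (nat_lit 3131667366) (nat_lit 76) (nat_lit 7617114247) (nat_lit 25) (nat_lit 5) (nat_lit 28) (nat_lit 5) (nat_lit 26) (nat_lit 4) (nat_lit 485) (nat_lit 369) (nat_lit 346)) (XT.lf (nat_lit 0) (nat_lit 13624919505) (nat_lit 152) (nat_lit 219357937) (nat_lit 0) (nat_lit 1537452058) (nat_lit 24) (nat_lit 5) (nat_lit 26) (nat_lit 4) (nat_lit 24) (nat_lit 4) (nat_lit 486) (nat_lit 369) (nat_lit 345)))) (XT.nd (nat_lit 156) (nat_lit 76) (nat_lit 0) (XT.nd (nat_lit 78) (nat_lit 228) (nat_lit 0) (XT.lf (nat_lit 0) (nat_lit 2662034008) (nat_lit 76) (nat_lit 4808453444) (nat_lit 152) (nat_lit 8173697815) (nat_lit 20) (nat_lit 5) (nat_lit 21) (nat_lit 5) (nat_lit 22) (nat_lit 4) (nat_lit 487) (nat_lit 369) (nat_lit 344)) (XT.lf (nat_lit 0) (nat_lit 1051090824) (nat_lit 228) (nat_lit 10385919287) (nat_lit 76) (nat_lit 4476574699) (nat_lit 17) (nat_lit 5) (nat_lit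 20) (nat_lit 5) (nat_lit 18) (nat_lit 4) (nat_lit 488) (nat_lit 369) (nat_lit 343))) (XT.nd (nat_lit 60216) (nat_lit 0) (nat_lit 8588) (XT.lf (nat_lit 0) (nat_lit 8332078880) (nat_lit 76) (nat_lit 2141295597) (nat_lit 152) (nat_lit 5715976816) (nat_lit 16) (nat_lit 5) (nat_lit 17) (nat_lit 5) (nat_lit 18) (nat_lit 4) (nat_lit 489) (nat_lit 369) (nat_lit 342)) (XT.lf (nat_lit 0) (nat_lit 2900188310) (nat_lit 304) (nat_lit 1145703677) (nat_lit 304) (nat_lit 1145703677) (nat_lit 129) (nat_lit 4) (nat_lit 133) (nat_lit 5) (nat_lit 133) (nat_lit 4) (nat_lit 460) (nat_lit 370) (nat_lit 370))))) (XT.nd (nat_lit 234) (nat_lit 1520) (nat_lit 0) (XT.nd (nat_lit 78) (nat_lit 912) (nat_lit 0) (XT.lf (nat_lit 0) (nat_lit 5267019314) (nat_lit 380) (nat_lit 968408802) (nat_lit 0) (nat_lit 4287215869) (nat_lit 124) (nat_lit 5) (nat_lit 129) (nat_lit 4) (nat_lit 124) (nat_lit 4) (nat_lit 461) (nat_lit 370) (nat_lit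 369)) (XT.nd (nat_lit 78) (nat_lit 304) (nat_lit 0) (XT.lf (nat_lit 0) (nat_lit 2310897156) (nat_lit 304) (nat_lit 7937352683) (nat_lit 0) (nat_lit 417692326) (nat_lit 116) (nat_lit 5) (nat_lit 120) (nat_lit 4) (nat_lit 116) (nat_lit 4) (nat_lit 462) (nat_lit 370) (nat_lit 368)) (XT.lf (nat_lit 0) (nat_lit 6457348283) (nat_lit 304) (nat_lit 3577063598) (nat_lit 304) (nat_lit 778409043) (nat_lit 112) (nat_lit 4) (nat_lit 116) (nat_lit 5) (nat_lit 116) (nat_lit 4) (nat_lit 463) (nat_lit 370) (nat_lit 367)))) (XT.nd (nat_lit 156) (nat_lit 608) (nat_lit 0) (XT.nd (nat_lit 78) (nat_lit 608) (nat_lit 0) (XT.lf (nat_lit 0) (nat_lit 6909955670) (nat_lit 304) (nat_lit 749374794) (nat_lit 0) (nat_lit 3304336103) (nat_lit 108) (nat_lit 5) (nat_lit 112) (nat_lit 4) (nat_lit 108) (nat_lit 4) (nat_lit 464) (nat_lit 370) (nat_lit 366)) (XT.lf (nat_lit 0) (nat_lit 2933087757) (nat_lit 228) (nat_lit 718123015) (nat_lit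 304) (nat_lit 7467242161) (nat_lit 100) (nat_lit 5) (nat_lit 103) (nat_lit 5) (nat_lit 104) (nat_lit 4) (nat_lit 465) (nat_lit 370) (nat_lit 365))) (XT.nd (nat_lit 78) (nat_lit 228) (nat_lit 0) (XT.lf (nat_lit 0) (nat_lit 257744161) (nat_lit 380) (nat_lit 4631048382) (nat_lit 76) (nat_lit 6388400628) (nat_lit 95) (nat_lit 5) (nat_lit 100) (nat_lit 5) (nat_lit 96) (nat_lit 4) (nat_lit 466) (nat_lit 370) (nat_lit 364)) (XT.lf (nat_lit 0) (nat_lit 8094526247) (nat_lit 304) (nat_lit 1059787565) (nat_lit 0) (nat_lit 2285768415) (nat_lit 92) (nat_lit 5) (nat_lit 96) (nat_lit 4) (nat_lit 92) (nat_lit 4) (nat_lit 467) (nat_lit 370) (nat_lit 363))))))))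
noncomputable def xc4 : XT := (XT.nd (nat_lit 62088) (nat_lit 0) (nat_lit 76) (XT.nd (nat_lit 1014) (nat_lit 1748) (nat_lit 0) (XT.nd (nat_lit 468) (nat_lit 1976) (nat_lit 0) (XT.nd (nat_lit 234) (nat_lit 988) (nat_lit 0) (XT.nd (nat_lit 78) (nat_lit 532) (nat_lit 0) (XT.lf (nat_lit 0) (nat_lit 2568757789) (nat_lit 228) (nat_lit 1942883513) (nat_lit 304) (nat_lit 7095370772) (nat_lit 85) (nat_lit 5) (nat_lit 88) (nat_lit 5) (nat_lit 89) (nat_lit 4) (nat_lit 468) (nat_lit 370) (nat_lit 362)) (XT.nd (nat_lit 78) (nat_lit 228) (nat_lit 0) (XT.lf (nat_lit 0) (nat_lit 778593216) (nat_lit 304) (nat_lit 5544222648) (nat_lit 76) (nat_lit 5455428936) (nat_lit 81) (nat_lit 5) (nat_lit 85) (nat_lit 5) (nat_lit 82) (nat_lit 4) (nat_lit 469) (nat_lit 370) (nat_lit 361)) (XT.lf (nat_lit 0) (nat_lit 8780483596) (nat_lit 304) (nat_lit 2037193998) (nat_lit 0) (nat_lit 1136240060) (nat_lit 78) (nat_lit 5) (nat_lit 82)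 (nat_lit 4) (nat_lit 78) (nat_lit 4) (nat_lit 470) (nat_lit 370) (nat_lit 360)))) (XT.nd (nat_lit 78) (nat_lit 456) (nat_lit 0) (XT.lf (nat_lit 0) (nat_lit 1495264471) (nat_lit 228) (nat_lit 3349734319) (nat_lit 304) (nat_lit 7288799745) (nat_lit 71) (nat_lit 5) (nat_lit 74) (nat_lit 5) (nat_lit 75) (nat_lit 4) (nat_lit 471) (nat_lit 370) (nat_lit 359)) (XT.nd (nat_lit 78) (nat_lit 152) (nat_lit 0) (XT.lf (nat_lit 0) (nat_lit 745871473) (nat_lit 304) (nat_lit 7238601023) (nat_lit 76) (nat_lit 4333822560) (nat_lit 67) (nat_lit 5) (nat_lit 71) (nat_lit 5) (nat_lit 68) (nat_lit 4) (nat_lit 472) (nat_lit 370) (nat_lit 358)) (XT.lf (nat_lit 0) (nat_lit 8671658942) (nat_lit 152) (nat_lit 246747916) (nat_lit 228) (nat_lit 3589041907) (nat_lit 65) (nat_lit 5) (nat_lit 67) (nat_lit 5) (nat_lit 68) (nat_lit 4) (nat_lit 473) (nat_lit 370) (nat_lit 357))))) (XT.nd (nat_lit 234) (nat_lit 1064) (nat_lit 0) (XT.nd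 (nat_lit 78) (nat_lit 608) (nat_lit 0) (XT.lf (nat_lit 0) (nat_lit 4598548669) (nat_lit 304) (nat_lit 440695737) (nat_lit 76) (nat_lit 7661924073) (nat_lit 61) (nat_lit 5) (nat_lit 65) (nat_lit 5) (nat_lit 62) (nat_lit 4) (nat_lit 474) (nat_lit 370) (nat_lit 356)) (XT.nd (nat_lit 78) (nat_lit 152) (nat_lit 0) (XT.lf (nat_lit 0) (nat_lit 99540645) (nat_lit 304) (nat_lit 9879933454) (nat_lit 76) (nat_lit 2920386156) (nat_lit 55) (nat_lit 5) (nat_lit 59) (nat_lit 5) (nat_lit 56) (nat_lit 4) (nat_lit 475) (nat_lit 370) (nat_lit 355)) (XT.lf (nat_lit 0) (nat_lit 6468907258) (nat_lit 152) (nat_lit 1984630854) (nat_lit 228) (nat_lit 4649588934) (nat_lit 53) (nat_lit 5) (nat_lit 55) (nat_lit 5) (nat_lit 56) (nat_lit 4) (nat_lit 476) (nat_lit 370) (nat_lit 354)))) (XT.nd (nat_lit 156) (nat_lit 608) (nat_lit 0) (XT.nd (nat_lit 78) (nat_lit 152) (nat_lit 0) (XT.lf (nat_lit 0) (nat_lit 3717942919) (nat_lit 304)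 (nat_lit 3389899119) (nat_lit 76) (nat_lit 6203737738) (nat_lit 49) (nat_lit 5) (nat_lit 53) (nat_lit 5) (nat_lit 50) (nat_lit 4) (nat_lit 477) (nat_lit 370) (nat_lit 353)) (XT.lf (nat_lit 0) (nat_lit 12276909009) (nat_lit 228) (nat_lit 134964552) (nat_lit 0) (nat_lit 1113728627) (nat_lit 47) (nat_lit 5) (nat_lit 50) (nat_lit 4) (nat_lit 47) (nat_lit 4) (nat_lit 478) (nat_lit 370) (nat_lit 352))) (XT.nd (nat_lit 78) (nat_lit 228) (nat_lit 0) (XT.lf (nat_lit 0) (nat_lit 3126421926) (nat_lit 152) (nat_lit 4176786404) (nat_lit 228) (nat_lit 6440825957) (nat_lit 42) (nat_lit 5) (nat_lit 44) (nat_lit 5) (nat_lit 45) (nat_lit 4) (nat_lit 479) (nat_lit 370) (nat_lit 351)) (XT.lf (nat_lit 0) (nat_lit 2113122523) (nat_lit 228) (nat_lit 7570174390) (nat_lit 76) (nat_lit 4284980317) (nat_lit 39) (nat_lit 5) (nat_lit 42) (nat_lit 5) (nat_lit 40) (nat_lit 4) (nat_lit 480) (nat_lit 370) (nat_lit 350)))))) (XT.nd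 (nat_lit 546) (nat_lit 380) (nat_lit 0) (XT.nd (nat_lit 234) (nat_lit 684) (nat_lit 0) (XT.nd (nat_lit 78) (nat_lit 532) (nat_lit 0) (XT.lf (nat_lit 0) (nat_lit 9655819745) (nat_lit 152) (nat_lit 1196781237) (nat_lit 228) (nat_lit 3345468714) (nat_lit 37) (nat_lit 5) (nat_lit 39) (nat_lit 5) (nat_lit 40) (nat_lit 4) (nat_lit 481) (nat_lit 370) (nat_lit 349)) (XT.nd (nat_lit 78) (nat_lit 304) (nat_lit 0) (XT.lf (nat_lit 0) (nat_lit 5387820910) (nat_lit 228) (nat_lit 1549668219) (nat_lit 76) (nat_lit 7495777207) (nat_lit 34) (nat_lit 5) (nat_lit 37) (nat_lit 5) (nat_lit 35) (nat_lit 4) (nat_lit 482) (nat_lit 370) (nat_lit 348)) (XT.lf (nat_lit 0) (nat_lit 1466607348) (nat_lit 152) (nat_lit 12892432653) (nat_lit 152) (nat_lit 315610849) (nat_lit 30) (nat_lit 4) (nat_lit 32) (nat_lit 5) (nat_lit 32) (nat_lit 4) (nat_lit 483) (nat_lit 370) (nat_lit 347)))) (XT.nd (nat_lit 156) (nat_lit 304) (nat_lit 0)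 (XT.nd (nat_lit 78) (nat_lit 228) (nat_lit 0) (XT.lf (nat_lit 0) (nat_lit 4444363737) (nat_lit 76) (nat_lit 4168229779) (nat_lit 152) (nat_lit 6308553298) (nat_lit 28) (nat_lit 5) (nat_lit 29) (nat_lit 5) (nat_lit 30) (nat_lit 4) (nat_lit 484) (nat_lit 370) (nat_lit 346)) (XT.lf (nat_lit 0) (nat_lit 2621596302) (nat_lit 228) (nat_lit 7761600658) (nat_lit 76) (nat_lit 4790924850) (nat_lit 25) (nat_lit 5) (nat_lit 28) (nat_lit 5) (nat_lit 26) (nat_lit 4) (nat_lit 485) (nat_lit 370) (nat_lit 345))) (XT.nd (nat_lit 78) (nat_lit 228) (nat_lit 0) (XT.lf (nat_lit 0) (nat_lit 10349055383) (nat_lit 76) (nat_lit 1410341366) (nat_lit 152) (nat_lit 3673947889) (nat_lit 24) (nat_lit 5) (nat_lit 25) (nat_lit 5) (nat_lit 26) (nat_lit 4) (nat_lit 486) (nat_lit 370) (nat_lit 344)) (XT.lf (nat_lit 0) (nat_lit 5449594076) (nat_lit 228) (nat_lit 2464858890) (nat_lit 76) (nat_lit 7784175149) (nat_lit 21) (nat_lit 5) (nat_lit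 24) (nat_lit 5) (nat_lit 22) (nat_lit 4) (nat_lit 487) (nat_lit 370) (nat_lit 343))))) (XT.nd (nat_lit 60216) (nat_lit 0) (nat_lit 7600) (XT.nd (nat_lit 78) (nat_lit 152) (nat_lit 0) (XT.lf (nat_lit 0) (nat_lit 139006914) (nat_lit 152) (nat_lit 14677927700) (nat_lit 152) (nat_lit 1154051195) (nat_lit 18) (nat_lit 4) (nat_lit 20) (nat_lit 5) (nat_lit 20) (nat_lit 4) (nat_lit 488) (nat_lit 370) (nat_lit 342)) (XT.nd (nat_lit 60060) (nat_lit 0) (nat_lit 9652) (XT.lf (nat_lit 0) (nat_lit 2689919546) (nat_lit 76) (nat_lit 5488117916) (nat_lit 152) (nat_lit 8070972024) (nat_lit 16) (nat_lit 5) (nat_lit 17) (nat_lit 5) (nat_lit 18) (nat_lit 4) (nat_lit 489) (nat_lit 370) (nat_lit 341)) (XT.lf (nat_lit 0) (nat_lit 2163927969) (nat_lit 380) (nat_lit 728948889) (nat_lit 0) (nat_lit 2163927969) (nat_lit 143) (nat_lit 5) (nat_lit 148) (nat_lit 4) (nat_lit 143) (nat_lit 4) (nat_lit 458) (nat_lit 371) (nat_lit 371))))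 (XT.nd (nat_lit 156) (nat_lit 988) (nat_lit 0) (XT.nd (nat_lit 78) (nat_lit 304) (nat_lit 0) (XT.lf (nat_lit 0) (nat_lit 1556223143) (nat_lit 380) (nat_lit 8164520388) (nat_lit 0) (nat_lit 526841643) (nat_lit 133) (nat_lit 5) (nat_lit 138) (nat_lit 4) (nat_lit 133) (nat_lit 4) (nat_lit 459) (nat_lit 371) (nat_lit 370)) (XT.lf (nat_lit 0) (nat_lit 5662708738) (nat_lit 304) (nat_lit 3375462947) (nat_lit 304) (nat_lit 1346681933) (nat_lit 129) (nat_lit 4) (nat_lit 133) (nat_lit 5) (nat_lit 133) (nat_lit 4) (nat_lit 460) (nat_lit 371) (nat_lit 369))) (XT.nd (nat_lit 78) (nat_lit 608) (nat_lit 0) (XT.lf (nat_lit 0) (nat_lit 6109040459) (nat_lit 380) (nat_lit 1248177733) (nat_lit 0) (nat_lit 3168773984) (nat_lit 124) (nat_lit 5) (nat_lit 129) (nat_lit 4) (nat_lit 124) (nat_lit 4) (nat_lit 461) (nat_lit 371) (nat_lit 368)) (XT.lf (nat_lit 0) (nat_lit 2296721822) (nat_lit 228) (nat_lit 753053928) (nat_lit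 304) (nat_lit 7621183788) (nat_lit 116) (nat_lit 5) (nat_lit 119) (nat_lit 5) (nat_lit 120) (nat_lit 4) (nat_lit 462) (nat_lit 371) (nat_lit 367))))))) (XT.nd (nat_lit 1014) (nat_lit 2964) (nat_lit 0) (XT.nd (nat_lit 468) (nat_lit 2204) (nat_lit 0) (XT.nd (nat_lit 234) (nat_lit 1140) (nat_lit 0) (XT.nd (nat_lit 78) (nat_lit 912) (nat_lit 0) (XT.lf (nat_lit 0) (nat_lit 5882115352) (nat_lit 304) (nat_lit 4802321727) (nat_lit 304) (nat_lit 135180408) (nat_lit 112) (nat_lit 4) (nat_lit 116) (nat_lit 5) (nat_lit 116) (nat_lit 4) (nat_lit 463) (nat_lit 371) (nat_lit 366)) (XT.nd (nat_lit 78) (nat_lit 608) (nat_lit 0) (XT.lf (nat_lit 0) (nat_lit 7452405869) (nat_lit 304) (nat_lit 1479783917) (nat_lit 0) (nat_lit 2040038687) (nat_lit 108) (nat_lit 5) (nat_lit 112) (nat_lit 4) (nat_lit 108) (nat_lit 4) (nat_lit 464) (nat_lit 371) (nat_lit 365)) (XT.lf (nat_lit 0) (nat_lit 2032666608) (nat_lit 228) (nat_lit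 2055155770) (nat_lit 304) (nat_lit 7040930549) (nat_lit 100) (nat_lit 5) (nat_lit 103) (nat_lit 5) (nat_lit 104) (nat_lit 4) (nat_lit 465) (nat_lit 371) (nat_lit 364)))) (XT.nd (nat_lit 78) (nat_lit 760) (nat_lit 0) (XT.lf (nat_lit 0) (nat_lit 583825737) (nat_lit 380) (nat_lit 5696594390) (nat_lit 76) (nat_lit 5008912289) (nat_lit 95) (nat_lit 5) (nat_lit 100) (nat_lit 5) (nat_lit 96) (nat_lit 4) (nat_lit 466) (nat_lit 371) (nat_lit 363)) (XT.nd (nat_lit 78) (nat_lit 532) (nat_lit 0) (XT.lf (nat_lit 0) (nat_lit 8325660506) (nat_lit 304) (nat_lit 2279901364) (nat_lit 0) (nat_lit 848560325) (nat_lit 92) (nat_lit 5) (nat_lit 96) (nat_lit 4) (nat_lit 92) (nat_lit 4) (nat_lit 467) (nat_lit 371) (nat_lit 362)) (XT.lf (nat_lit 0) (nat_lit 1162406775) (nat_lit 228) (nat_lit 3468320887) (nat_lit 304) (nat_lit 6992201095) (nat_lit 85) (nat_lit 5) (nat_lit 88) (nat_lit 5) (nat_lit 89) (nat_lit 4) (nat_lit 468)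 (nat_lit 371) (nat_lit 361))))) (XT.nd (nat_lit 234) (nat_lit 1368) (nat_lit 0) (XT.nd (nat_lit 78) (nat_lit 532) (nat_lit 0) (XT.lf (nat_lit 0) (nat_lit 782762002) (nat_lit 304) (nat_lit 7130010475) (nat_lit 76) (nat_lit 3883330176) (nat_lit 81) (nat_lit 5) (nat_lit 85) (nat_lit 5) (nat_lit 82) (nat_lit 4) (nat_lit 469) (nat_lit 371) (nat_lit 360)) (XT.nd (nat_lit 78) (nat_lit 304) (nat_lit 0) (XT.lf (nat_lit 0) (nat_lit 8181910751) (nat_lit 228) (nat_lit 507909947) (nat_lit 304) (nat_lit 3283853005) (nat_lit 78) (nat_lit 5) (nat_lit 81) (nat_lit 5) (nat_lit 82) (nat_lit 4) (nat_lit 470) (nat_lit 371) (nat_lit 359)) (XT.lf (nat_lit 0) (nat_lit 4634971891) (nat_lit 304) (nat_lit 453661951) (nat_lit 76) (nat_lit 7066957690) (nat_lit 74) (nat_lit 5) (nat_lit 78) (nat_lit 5) (nat_lit 75) (nat_lit 4) (nat_lit 471) (nat_lit 371) (nat_lit 358)))) (XT.nd (nat_lit 156) (nat_lit 684) (nat_lit 0) (XT.nd (nat_lit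 78) (nat_lit 152) (nat_lit 0) (XT.lf (nat_lit 0) (nat_lit 412846333) (nat_lit 304) (nat_lit 9388140516) (nat_lit 76) (nat_lit 2541217636) (nat_lit 67) (nat_lit 5) (nat_lit 71) (nat_lit 5) (nat_lit 68) (nat_lit 4) (nat_lit 472) (nat_lit 371) (nat_lit 357)) (XT.lf (nat_lit 0) (nat_lit 6358511431) (nat_lit 152) (nat_lit 2137249935) (nat_lit 228) (nat_lit 4037390609) (nat_lit 65) (nat_lit 5) (nat_lit 67) (nat_lit 5) (nat_lit 68) (nat_lit 4) (nat_lit 473) (nat_lit 371) (nat_lit 356))) (XT.nd (nat_lit 78) (nat_lit 380) (nat_lit 0) (XT.lf (nat_lit 0) (nat_lit 4053296372) (nat_lit 304) (nat_lit 2956307387) (nat_lit 76) (nat_lit 5719383133) (nat_lit 61) (nat_lit 5) (nat_lit 65) (nat_lit 5) (nat_lit 62) (nat_lit 4) (nat_lit 474) (nat_lit 371) (nat_lit 355)) (XT.lf (nat_lit 0) (nat_lit 286590710) (nat_lit 228) (nat_lit 12047609553) (nat_lit 228) (nat_lit 595918459) (nat_lit 56) (nat_lit 4) (nat_lit 59) (nat_lit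 5) (nat_lit 59) (nat_lit 4) (nat_lit 475) (nat_lit 371) (nat_lit 354)))))) (XT.nd (nat_lit 546) (nat_lit 1292) (nat_lit 0) (XT.nd (nat_lit 234) (nat_lit 988) (nat_lit 0) (XT.nd (nat_lit 78) (nat_lit 456) (nat_lit 0) (XT.lf (nat_lit 0) (nat_lit 3538083005) (nat_lit 152) (nat_lit 4135521480) (nat_lit 228) (nat_lit 5461705422) (nat_lit 53) (nat_lit 5) (nat_lit 55) (nat_lit 5) (nat_lit 56) (nat_lit 4) (nat_lit 476) (nat_lit 371) (nat_lit 353)) (XT.nd (nat_lit 78) (nat_lit 152) (nat_lit 0) (XT.lf (nat_lit 0) (nat_lit 2809183459) (nat_lit 304) (nat_lit 6539786894) (nat_lit 76) (nat_lit 3997044770) (nat_lit 49) (nat_lit 5) (nat_lit 53) (nat_lit 5) (nat_lit 50) (nat_lit 4) (nat_lit 477) (nat_lit 371) (nat_lit 352)) (XT.lf (nat_lit 0) (nat_lit 10074244011) (nat_lit 152) (nat_lit 1193437961) (nat_lit 228) (nat_lit 2294366033) (nat_lit 47) (nat_lit 5) (nat_lit 49) (nat_lit 5) (nat_lit 50) (nat_lit 4) (nat_lit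 478) (nat_lit 371) (nat_lit 351)))) (XT.nd (nat_lit 156) (nat_lit 380) (nat_lit 0) (XT.nd (nat_lit 78) (nat_lit 380) (nat_lit 0) (XT.lf (nat_lit 0) (nat_lit 6148987994) (nat_lit 228) (nat_lit 466160063) (nat_lit 76) (nat_lit 7167914130) (nat_lit 44) (nat_lit 5) (nat_lit 47) (nat_lit 5) (nat_lit 45) (nat_lit 4) (nat_lit 479) (nat_lit 371) (nat_lit 350)) (XT.lf (nat_lit 0) (nat_lit 820015126) (nat_lit 228) (nat_lit 11405749065) (nat_lit 76) (nat_lit 1784007074) (nat_lit 39) (nat_lit 5) (nat_lit 42) (nat_lit 5) (nat_lit 40) (nat_lit 4) (nat_lit 480) (nat_lit 371) (nat_lit 349))) (XT.nd (nat_lit 78) (nat_lit 228) (nat_lit 0) (XT.lf (nat_lit 0) (nat_lit 5637866229) (nat_lit 152) (nat_lit 3825173075) (nat_lit 228) (nat_lit 4778454496) (nat_lit 37) (nat_lit 5) (nat_lit 39) (nat_lit 5) (nat_lit 40) (nat_lit 4) (nat_lit 481) (nat_lit 371) (nat_lit 348)) (XT.lf (nat_lit 0) (nat_lit 3858829026) (nat_lit 228)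 (nat_lit 5813666134) (nat_lit 76) (nat_lit 4806678291) (nat_lit 34) (nat_lit 5) (nat_lit 37) (nat_lit 5) (nat_lit 35) (nat_lit 4) (nat_lit 482) (nat_lit 371) (nat_lit 347))))) (XT.nd (nat_lit 234) (nat_lit 608) (nat_lit 0) (XT.nd (nat_lit 78) (nat_lit 532) (nat_lit 0) (XT.lf (nat_lit 0) (nat_lit 11684340127) (nat_lit 152) (nat_lit 1026857559) (nat_lit 228) (nat_lit 2011738199) (nat_lit 32) (nat_lit 5) (nat_lit 34) (nat_lit 5) (nat_lit 35) (nat_lit 4) (nat_lit 483) (nat_lit 371) (nat_lit 346)) (XT.nd (nat_lit 78) (nat_lit 304) (nat_lit 0) (XT.lf (nat_lit 0) (nat_lit 6813817123) (nat_lit 228) (nat_lit 319304720) (nat_lit 76) (nat_lit 7839028998) (nat_lit 29) (nat_lit 5) (nat_lit 32) (nat_lit 5) (nat_lit 30) (nat_lit 4) (nat_lit 484) (nat_lit 371) (nat_lit 345)) (XT.lf (nat_lit 0) (nat_lit 673047160) (nat_lit 228) (nat_lit 12795219432) (nat_lit 76) (nat_lit 1759560847) (nat_lit 25) (nat_lit 5) (nat_lit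 28) (nat_lit 5) (nat_lit 26) (nat_lit 4) (nat_lit 485) (nat_lit 371) (nat_lit 344)))) (XT.nd (nat_lit 156) (nat_lit 304) (nat_lit 0) (XT.nd (nat_lit 78) (nat_lit 228) (nat_lit 0) (XT.lf (nat_lit 0) (nat_lit 5120221469) (nat_lit 76) (nat_lit 4588971509) (nat_lit 152) (nat_lit 5779891180) (nat_lit 24) (nat_lit 5) (nat_lit 25) (nat_lit 5) (nat_lit 26) (nat_lit 4) (nat_lit 486) (nat_lit 371) (nat_lit 343)) (XT.lf (nat_lit 0) (nat_lit 3247441058) (nat_lit 228) (nat_lit 7969668825) (nat_lit 76) (nat_lit 4540008568) (nat_lit 21) (nat_lit 5) (nat_lit 24) (nat_lit 5) (nat_lit 22) (nat_lit 4) (nat_lit 487) (nat_lit 371) (nat_lit 342))) (XT.nd (nat_lit 78) (nat_lit 228) (nat_lit 0) (XT.lf (nat_lit 0) (nat_lit 10412857606) (nat_lit 76) (nat_lit 2089277931) (nat_lit 152) (nat_lit 3529594267) (nat_lit 20) (nat_lit 5) (nat_lit 21) (nat_lit 5) (nat_lit 22) (nat_lit 4) (nat_lit 488) (nat_lit 371) (nat_lit 341)) (XT.lf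 (nat_lit 0) (nat_lit 5698712237) (nat_lit 228) (nat_lit 3335980189) (nat_lit 76) (nat_lit 7278068987) (nat_lit 17) (nat_lit 5) (nat_lit 20) (nat_lit 5) (nat_lit 18) (nat_lit 4) (nat_lit 489) (nat_lit 371) (nat_lit 340))))))))
noncomputable def xc5 : XT := (XT.nd (nat_lit 2106) (nat_lit 1292) (nat_lit 0) (XT.nd (nat_lit 1014) (nat_lit 4104) (nat_lit 0) (XT.nd (nat_lit 468) (nat_lit 2736) (nat_lit 0) (XT.nd (nat_lit 234) (nat_lit 1444) (nat_lit 0) (XT.nd (nat_lit 78) (nat_lit 760) (nat_lit 0) (XT.lf (nat_lit 0) (nat_lit 410215863) (nat_lit 380) (nat_lit 4107225120) (nat_lit 0) (nat_lit 410215863) (nat_lit 153) (nat_lit 5) (nat_lit 158) (nat_lit 4) (nat_lit 153) (nat_lit 4) (nat_lit 456) (nat_lit 372) (nat_lit 372)) (XT.nd (nat_lit 78) (nat_lit 380) (nat_lit 0) (XT.lf (nat_lit 0) (nat_lit 5061567744) (nat_lit 380) (nat_lit 3012463856) (nat_lit 380) (nat_lit 1909366288) (nat_lit 148) (nat_lit 4) (nat_lit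 153) (nat_lit 5) (nat_lit 153) (nat_lit 4) (nat_lit 457) (nat_lit 372) (nat_lit 371)) (XT.lf (nat_lit 0) (nat_lit 5327445749) (nat_lit 380) (nat_lit 1591795593) (nat_lit 0) (nat_lit 3196008416) (nat_lit 143) (nat_lit 5) (nat_lit 148) (nat_lit 4) (nat_lit 143) (nat_lit 4) (nat_lit 458) (nat_lit 372) (nat_lit 370)))) (XT.nd (nat_lit 78) (nat_lit 684) (nat_lit 0) (XT.lf (nat_lit 0) (nat_lit 1806312877) (nat_lit 304) (nat_lit 647715694) (nat_lit 380) (nat_lit 7796810651) (nat_lit 133) (nat_lit 5) (nat_lit 137) (nat_lit 5) (nat_lit 138) (nat_lit 4) (nat_lit 459) (nat_lit 372) (nat_lit 369)) (XT.nd (nat_lit 78) (nat_lit 380) (nat_lit 0) (XT.lf (nat_lit 0) (nat_lit 5249584797) (nat_lit 304) (nat_lit 4599795945) (nat_lit 304) (nat_lit 540461195) (nat_lit 129) (nat_lit 4) (nat_lit 133) (nat_lit 5) (nat_lit 133) (nat_lit 4) (nat_lit 460) (nat_lit 372) (nat_lit 368)) (XT.lf (nat_lit 0) (nat_lit 6814015049) (nat_lit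 380) (nat_lit 1807960054) (nat_lit 0) (nat_lit 1910716379) (nat_lit 124) (nat_lit 5) (nat_lit 129) (nat_lit 4) (nat_lit 124) (nat_lit 4) (nat_lit 461) (nat_lit 372) (nat_lit 367))))) (XT.nd (nat_lit 234) (nat_lit 1520) (nat_lit 0) (XT.nd (nat_lit 78) (nat_lit 608) (nat_lit 0) (XT.lf (nat_lit 0) (nat_lit 1576082398) (nat_lit 228) (nat_lit 2075422561) (nat_lit 304) (nat_lit 7027813096) (nat_lit 116) (nat_lit 5) (nat_lit 119) (nat_lit 5) (nat_lit 120) (nat_lit 4) (nat_lit 462) (nat_lit 372) (nat_lit 366)) (XT.nd (nat_lit 78) (nat_lit 228) (nat_lit 0) (XT.lf (nat_lit 0) (nat_lit 359484705) (nat_lit 380) (nat_lit 5813547064) (nat_lit 76) (nat_lit 4656740685) (nat_lit 111) (nat_lit 5) (nat_lit 116) (nat_lit 5) (nat_lit 112) (nat_lit 4) (nat_lit 463) (nat_lit 372) (nat_lit 365)) (XT.lf (nat_lit 0) (nat_lit 7852409810) (nat_lit 304) (nat_lit 2503250044) (nat_lit 0) (nat_lit 628565759) (nat_lit 108) (nat_lit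 5) (nat_lit 112) (nat_lit 4) (nat_lit 108) (nat_lit 4) (nat_lit 464) (nat_lit 372) (nat_lit 364)))) (XT.nd (nat_lit 156) (nat_lit 532) (nat_lit 0) (XT.nd (nat_lit 78) (nat_lit 380) (nat_lit 0) (XT.lf (nat_lit 0) (nat_lit 832825994) (nat_lit 228) (nat_lit 3546073151) (nat_lit 304) (nat_lit 6763639231) (nat_lit 100) (nat_lit 5) (nat_lit 103) (nat_lit 5) (nat_lit 104) (nat_lit 4) (nat_lit 465) (nat_lit 372) (nat_lit 363)) (XT.lf (nat_lit 0) (nat_lit 762164296) (nat_lit 380) (nat_lit 7066589379) (nat_lit 76) (nat_lit 3476236279) (nat_lit 95) (nat_lit 5) (nat_lit 100) (nat_lit 5) (nat_lit 96) (nat_lit 4) (nat_lit 466) (nat_lit 372) (nat_lit 362))) (XT.nd (nat_lit 78) (nat_lit 304) (nat_lit 0) (XT.lf (nat_lit 0) (nat_lit 7659663422) (nat_lit 228) (nat_lit 753543934) (nat_lit 304) (nat_lit 3058389937) (nat_lit 92) (nat_lit 5) (nat_lit 95) (nat_lit 5) (nat_lit 96) (nat_lit 4) (nat_lit 467) (nat_lit 372) (nat_lit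 361)) (XT.lf (nat_lit 0) (nat_lit 4601615739) (nat_lit 304) (nat_lit 550462536) (nat_lit 76) (nat_lit 6490283417) (nat_lit 88) (nat_lit 5) (nat_lit 92) (nat_lit 5) (nat_lit 89) (nat_lit 4) (nat_lit 468) (nat_lit 372) (nat_lit 360)))))) (XT.nd (nat_lit 546) (nat_lit 1900) (nat_lit 0) (XT.nd (nat_lit 234) (nat_lit 1140) (nat_lit 0) (XT.nd (nat_lit 78) (nat_lit 532) (nat_lit 0) (XT.lf (nat_lit 0) (nat_lit 632687832) (nat_lit 304) (nat_lit 9034980791) (nat_lit 76) (nat_lit 2149918151) (nat_lit 81) (nat_lit 5) (nat_lit 85) (nat_lit 5) (nat_lit 82) (nat_lit 4) (nat_lit 469) (nat_lit 372) (nat_lit 359)) (XT.nd (nat_lit 78) (nat_lit 304) (nat_lit 0) (XT.lf (nat_lit 0) (nat_lit 6119997622) (nat_lit 228) (nat_lit 2332533095) (nat_lit 304) (nat_lit 3544372941) (nat_lit 78) (nat_lit 5) (nat_lit 81) (nat_lit 5) (nat_lit 82) (nat_lit 4) (nat_lit 470) (nat_lit 372) (nat_lit 358)) (XT.lf (nat_lit 0) (nat_lit 4278008775)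 (nat_lit 304) (nat_lit 2707976884) (nat_lit 76) (nat_lit 5194868300) (nat_lit 74) (nat_lit 5) (nat_lit 78) (nat_lit 5) (nat_lit 75) (nat_lit 4) (nat_lit 471) (nat_lit 372) (nat_lit 357)))) (XT.nd (nat_lit 156) (nat_lit 456) (nat_lit 0) (XT.nd (nat_lit 78) (nat_lit 228) (nat_lit 0) (XT.lf (nat_lit 0) (nat_lit 496609509) (nat_lit 228) (nat_lit 11790546659) (nat_lit 228) (nat_lit 82695916) (nat_lit 68) (nat_lit 4) (nat_lit 71) (nat_lit 5) (nat_lit 71) (nat_lit 4) (nat_lit 472) (nat_lit 372) (nat_lit 356)) (XT.lf (nat_lit 0) (nat_lit 3709819209) (nat_lit 152) (nat_lit 4201858417) (nat_lit 228) (nat_lit 4650926543) (nat_lit 65) (nat_lit 5) (nat_lit 67) (nat_lit 5) (nat_lit 68) (nat_lit 4) (nat_lit 473) (nat_lit 372) (nat_lit 355))) (XT.nd (nat_lit 78) (nat_lit 152) (nat_lit 0) (XT.lf (nat_lit 0) (nat_lit 3343830969) (nat_lit 304) (nat_lit 5813366959) (nat_lit 76) (nat_lit 3603401621) (nat_lit 61) (nat_lit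 5) (nat_lit 65) (nat_lit 5) (nat_lit 62) (nat_lit 4) (nat_lit 474) (nat_lit 372) (nat_lit 354)) (XT.lf (nat_lit 0) (nat_lit 10194970481) (nat_lit 152) (nat_lit 1331762736) (nat_lit 228) (nat_lit 1436959428) (nat_lit 59) (nat_lit 5) (nat_lit 61) (nat_lit 5) (nat_lit 62) (nat_lit 4) (nat_lit 475) (nat_lit 372) (nat_lit 353))))) (XT.nd (nat_lit 234) (nat_lit 988) (nat_lit 0) (XT.nd (nat_lit 78) (nat_lit 456) (nat_lit 0) (XT.lf (nat_lit 0) (nat_lit 254402284) (nat_lit 152) (nat_lit 6469761785) (nat_lit 228) (nat_lit 6447218743) (nat_lit 53) (nat_lit 5) (nat_lit 55) (nat_lit 5) (nat_lit 56) (nat_lit 4) (nat_lit 476) (nat_lit 372) (nat_lit 352)) (XT.nd (nat_lit 78) (nat_lit 152) (nat_lit 0) (XT.lf (nat_lit 0) (nat_lit 1727895100) (nat_lit 304) (nat_lit 10048855770) (nat_lit 76) (nat_lit 1607640254) (nat_lit 49) (nat_lit 5) (nat_lit 53) (nat_lit 5) (nat_lit 50) (nat_lit 4) (nat_lit 477) (nat_lit 372) (nat_lit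 351)) (XT.lf (nat_lit 0) (nat_lit 6390270386) (nat_lit 152) (nat_lit 3702729026) (nat_lit 228) (nat_lit 3509293563) (nat_lit 47) (nat_lit 5) (nat_lit 49) (nat_lit 5) (nat_lit 50) (nat_lit 4) (nat_lit 478) (nat_lit 372) (nat_lit 350)))) (XT.nd (nat_lit 156) (nat_lit 608) (nat_lit 0) (XT.nd (nat_lit 78) (nat_lit 152) (nat_lit 0) (XT.lf (nat_lit 0) (nat_lit 4839126116) (nat_lit 228) (nat_lit 4384398553) (nat_lit 76) (nat_lit 4602158648) (nat_lit 44) (nat_lit 5) (nat_lit 47) (nat_lit 5) (nat_lit 45) (nat_lit 4) (nat_lit 479) (nat_lit 372) (nat_lit 349)) (XT.lf (nat_lit 0) (nat_lit 12500974950) (nat_lit 152) (nat_lit 906949642) (nat_lit 228) (nat_lit 647036811) (nat_lit 42) (nat_lit 5) (nat_lit 44) (nat_lit 5) (nat_lit 45) (nat_lit 4) (nat_lit 480) (nat_lit 372) (nat_lit 348))) (XT.nd (nat_lit 78) (nat_lit 228) (nat_lit 0) (XT.lf (nat_lit 0) (nat_lit 1240389325) (nat_lit 152) (nat_lit 6651035353) (nat_lit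 228) (nat_lit 6397605208) (nat_lit 37) (nat_lit 5) (nat_lit 39) (nat_lit 5) (nat_lit 40) (nat_lit 4) (nat_lit 481) (nat_lit 372) (nat_lit 347)) (XT.lf (nat_lit 0) (nat_lit 2144354306) (nat_lit 228) (nat_lit 10464230304) (nat_lit 76) (nat_lit 1920667277) (nat_lit 34) (nat_lit 5) (nat_lit 37) (nat_lit 5) (nat_lit 35) (nat_lit 4) (nat_lit 482) (nat_lit 372) (nat_lit 346))))))) (XT.nd (nat_lit 60762) (nat_lit 0) (nat_lit 3344) (XT.nd (nat_lit 60216) (nat_lit 0) (nat_lit 8436) (XT.nd (nat_lit 234) (nat_lit 836) (nat_lit 0) (XT.nd (nat_lit 78) (nat_lit 304) (nat_lit 0) (XT.lf (nat_lit 0) (nat_lit 6846627536) (nat_lit 152) (nat_lit 4051914026) (nat_lit 228) (nat_lit 3876437268) (nat_lit 32) (nat_lit 5) (nat_lit 34) (nat_lit 5) (nat_lit 35) (nat_lit 4) (nat_lit 483) (nat_lit 372) (nat_lit 345)) (XT.nd (nat_lit 78) (nat_lit 76) (nat_lit 0) (XT.lf (nat_lit 0) (nat_lit 4854319582) (nat_lit 228) (nat_lit 5419935618)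 (nat_lit 76) (nat_lit 4752566651) (nat_lit 29) (nat_lit 5) (nat_lit 32) (nat_lit 5) (nat_lit 30) (nat_lit 4) (nat_lit 484) (nat_lit 372) (nat_lit 344)) (XT.lf (nat_lit 0) (nat_lit 12353513096) (nat_lit 76) (nat_lit 1470001456) (nat_lit 152) (nat_lit 1461611179) (nat_lit 28) (nat_lit 5) (nat_lit 29) (nat_lit 5) (nat_lit 30) (nat_lit 4) (nat_lit 485) (nat_lit 372) (nat_lit 343)))) (XT.nd (nat_lit 156) (nat_lit 304) (nat_lit 0) (XT.nd (nat_lit 78) (nat_lit 304) (nat_lit 0) (XT.lf (nat_lit 0) (nat_lit 7465767618) (nat_lit 228) (nat_lit 511583274) (nat_lit 76) (nat_lit 7571780857) (nat_lit 25) (nat_lit 5) (nat_lit 28) (nat_lit 5) (nat_lit 26) (nat_lit 4) (nat_lit 486) (nat_lit 372) (nat_lit 342)) (XT.lf (nat_lit 0) (nat_lit 844820496) (nat_lit 228) (nat_lit 13892118878) (nat_lit 76) (nat_lit 1083113681) (nat_lit 21) (nat_lit 5) (nat_lit 24) (nat_lit 5) (nat_lit 22) (nat_lit 4) (nat_lit 487) (nat_lit 372)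 (nat_lit 341))) (XT.nd (nat_lit 78) (nat_lit 228) (nat_lit 0) (XT.lf (nat_lit 0) (nat_lit 4289337084) (nat_lit 76) (nat_lit 5706139981) (nat_lit 152) (nat_lit 6101268819) (nat_lit 20) (nat_lit 5) (nat_lit 21) (nat_lit 5) (nat_lit 22) (nat_lit 4) (nat_lit 488) (nat_lit 372) (nat_lit 340)) (XT.lf (nat_lit 0) (nat_lit 3031544506) (nat_lit 228) (nat_lit 9754295225) (nat_lit 76) (nat_lit 3594856806) (nat_lit 17) (nat_lit 5) (nat_lit 20) (nat_lit 5) (nat_lit 18) (nat_lit 4) (nat_lit 489) (nat_lit 372) (nat_lit 339))))) (XT.nd (nat_lit 234) (nat_lit 1900) (nat_lit 0) (XT.nd (nat_lit 78) (nat_lit 1216) (nat_lit 0) (XT.lf (nat_lit 0) (nat_lit 2347880356) (nat_lit 380) (nat_lit 1227902762) (nat_lit 380) (nat_lit 1227902762) (nat_lit 169) (nat_lit 4) (nat_lit 174) (nat_lit 5) (nat_lit 174) (nat_lit 4) (nat_lit 454) (nat_lit 373) (nat_lit 373)) (XT.nd (nat_lit 78) (nat_lit 760) (nat_lit 0) (XT.lf (nat_lit 0) (nat_lit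 4576561120) (nat_lit 456) (nat_lit 1736097067) (nat_lit 0) (nat_lit 3417646815) (nat_lit 163) (nat_lit 5) (nat_lit 169) (nat_lit 4) (nat_lit 163) (nat_lit 4) (nat_lit 455) (nat_lit 373) (nat_lit 372)) (XT.lf (nat_lit 0) (nat_lit 1508132652) (nat_lit 304) (nat_lit 369197286) (nat_lit 380) (nat_lit 7979572265) (nat_lit 153) (nat_lit 5) (nat_lit 157) (nat_lit 5) (nat_lit 158) (nat_lit 4) (nat_lit 456) (nat_lit 373) (nat_lit 371)))) (XT.nd (nat_lit 156) (nat_lit 1140) (nat_lit 0) (XT.nd (nat_lit 78) (nat_lit 380) (nat_lit 0) (XT.lf (nat_lit 0) (nat_lit 4798110375) (nat_lit 380) (nat_lit 4249401768) (nat_lit 380) (nat_lit 939145193) (nat_lit 148) (nat_lit 4) (nat_lit 153) (nat_lit 5) (nat_lit 153) (nat_lit 4) (nat_lit 457) (nat_lit 373) (nat_lit 370)) (XT.lf (nat_lit 0) (nat_lit 6195651278) (nat_lit 380) (nat_lit 1993606033) (nat_lit 0) (nat_lit 1930914190) (nat_lit 143) (nat_lit 5) (nat_lit 148) (nat_lit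 4) (nat_lit 143) (nat_lit 4) (nat_lit 458) (nat_lit 373) (nat_lit 369))) (XT.nd (nat_lit 78) (nat_lit 380) (nat_lit 0) (XT.lf (nat_lit 0) (nat_lit 1252401070) (nat_lit 304) (nat_lit 1968804258) (nat_lit 380) (nat_lit 7036141577) (nat_lit 133) (nat_lit 5) (nat_lit 137) (nat_lit 5) (nat_lit 138) (nat_lit 4) (nat_lit 459) (nat_lit 373) (nat_lit 368)) (XT.lf (nat_lit 0) (nat_lit 126281113) (nat_lit 380) (nat_lit 5838347627) (nat_lit 76) (nat_lit 4433515289) (nat_lit 128) (nat_lit 5) (nat_lit 133) (nat_lit 5) (nat_lit 129) (nat_lit 4) (nat_lit 460) (nat_lit 373) (nat_lit 367)))))) (XT.nd (nat_lit 546) (nat_lit 2356) (nat_lit 0) (XT.nd (nat_lit 234) (nat_lit 1444) (nat_lit 0) (XT.nd (nat_lit 78) (nat_lit 988) (nat_lit 0) (XT.lf (nat_lit 0) (nat_lit 7382559082) (nat_lit 380) (nat_lit 2648244895) (nat_lit 0) (nat_lit 511943782) (nat_lit 124) (nat_lit 5) (nat_lit 129) (nat_lit 4) (nat_lit 124) (nat_lit 4) (nat_lit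 461) (nat_lit 373) (nat_lit 366)) (XT.nd (nat_lit 78) (nat_lit 380) (nat_lit 0) (XT.lf (nat_lit 0) (nat_lit 568844461) (nat_lit 228) (nat_lit 3545018129) (nat_lit 304) (nat_lit 6577217391) (nat_lit 116) (nat_lit 5) (nat_lit 119) (nat_lit 5) (nat_lit 120) (nat_lit 4) (nat_lit 462) (nat_lit 373) (nat_lit 365)) (XT.lf (nat_lit 0) (nat_lit 710907207) (nat_lit 380) (nat_lit 6981952765) (nat_lit 76) (nat_lit 3150483128) (nat_lit 111) (nat_lit 5) (nat_lit 116) (nat_lit 5) (nat_lit 112) (nat_lit 4) (nat_lit 463) (nat_lit 373) (nat_lit 364)))) (XT.nd (nat_lit 156) (nat_lit 836) (nat_lit 0) (XT.nd (nat_lit 78) (nat_lit 380) (nat_lit 0) (XT.lf (nat_lit 0) (nat_lit 7172751385) (nat_lit 228) (nat_lit 943692704) (nat_lit 304) (nat_lit 2883101839) (nat_lit 108) (nat_lit 5) (nat_lit 111) (nat_lit 5) (nat_lit 112) (nat_lit 4) (nat_lit 464) (nat_lit 373) (nat_lit 363)) (XT.lf (nat_lit 0) (nat_lit 4529029150) (nat_lit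 380) (nat_lit 658728335) (nat_lit 76) (nat_lit 5971977163) (nat_lit 103) (nat_lit 5) (nat_lit 108) (nat_lit 5) (nat_lit 104) (nat_lit 4) (nat_lit 465) (nat_lit 373) (nat_lit 362))) (XT.nd (nat_lit 78) (nat_lit 228) (nat_lit 0) (XT.lf (nat_lit 0) (nat_lit 792915668) (nat_lit 380) (nat_lit 8742230432) (nat_lit 76) (nat_lit 1789033367) (nat_lit 95) (nat_lit 5) (nat_lit 100) (nat_lit 5) (nat_lit 96) (nat_lit 4) (nat_lit 466) (nat_lit 373) (nat_lit 361)) (XT.lf (nat_lit 0) (nat_lit 5833549908) (nat_lit 228) (nat_lit 2525408214) (nat_lit 304) (nat_lit 3133530371) (nat_lit 92) (nat_lit 5) (nat_lit 95) (nat_lit 5) (nat_lit 96) (nat_lit 4) (nat_lit 467) (nat_lit 373) (nat_lit 360))))) (XT.nd (nat_lit 234) (nat_lit 1292) (nat_lit 0) (XT.nd (nat_lit 78) (nat_lit 760) (nat_lit 0) (XT.lf (nat_lit 0) (nat_lit 4430249955) (nat_lit 304) (nat_lit 2559287706) (nat_lit 76) (nat_lit 4675670799) (nat_lit 88) (nat_lit 5)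 (nat_lit 92) (nat_lit 5) (nat_lit 89) (nat_lit 4) (nat_lit 468) (nat_lit 373) (nat_lit 359)) (XT.nd (nat_lit 78) (nat_lit 228) (nat_lit 0) (XT.lf (nat_lit 0) (nat_lit 328239574) (nat_lit 304) (nat_lit 11260798133) (nat_lit 76) (nat_lit 253678229) (nat_lit 81) (nat_lit 5) (nat_lit 85) (nat_lit 5) (nat_lit 82) (nat_lit 4) (nat_lit 469) (nat_lit 373) (nat_lit 358)) (XT.lf (nat_lit 0) (nat_lit 3736807367) (nat_lit 228) (nat_lit 4324123681) (nat_lit 304) (nat_lit 3962846275) (nat_lit 78) (nat_lit 5) (nat_lit 81) (nat_lit 5) (nat_lit 82) (nat_lit 4) (nat_lit 470) (nat_lit 373) (nat_lit 357)))) (XT.nd (nat_lit 156) (nat_lit 760) (nat_lit 0) (XT.nd (nat_lit 78) (nat_lit 228) (nat_lit 0) (XT.lf (nat_lit 0) (nat_lit 3764089286) (nat_lit 304) (nat_lit 5289260779) (nat_lit 76) (nat_lit 3156451992) (nat_lit 74) (nat_lit 5) (nat_lit 78) (nat_lit 5) (nat_lit 75) (nat_lit 4) (nat_lit 471) (nat_lit 373) (nat_lit 356))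 (XT.lf (nat_lit 0) (nat_lit 10122610158) (nat_lit 228) (nat_lit 1555869309) (nat_lit 304) (nat_lit 722217219) (nat_lit 71) (nat_lit 5) (nat_lit 74) (nat_lit 5) (nat_lit 75) (nat_lit 4) (nat_lit 472) (nat_lit 373) (nat_lit 355))) (XT.nd (nat_lit 78) (nat_lit 304) (nat_lit 0) (XT.lf (nat_lit 0) (nat_lit 723267886) (nat_lit 152) (nat_lit 6442377388) (nat_lit 228) (nat_lit 5430185807) (nat_lit 65) (nat_lit 5) (nat_lit 67) (nat_lit 5) (nat_lit 68) (nat_lit 4) (nat_lit 473) (nat_lit 373) (nat_lit 354)) (XT.lf (nat_lit 0) (nat_lit 2469532538) (nat_lit 304) (nat_lit 9014370912) (nat_lit 76) (nat_lit 1312130621) (nat_lit 61) (nat_lit 5) (nat_lit 65) (nat_lit 5) (nat_lit 62) (nat_lit 4) (nat_lit 474) (nat_lit 373) (nat_lit 353))))))))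
noncomputable def xc6 : XT := (XT.nd (nat_lit 61620) (nat_lit 0) (nat_lit 76) (XT.nd (nat_lit 1014) (nat_lit 380) (nat_lit 0) (XT.nd (nat_lit 468) (nat_lit 1368) (nat_lit 0) (XT.nd (nat_lit 234) (nat_lit 760) (nat_lit 0) (XT.nd (nat_lit 78) (nat_lit 532) (nat_lit 0) (XT.lf (nat_lit 0) (nat_lit 6826282497) (nat_lit 152) (nat_lit 3735626333) (nat_lit 228) (nat_lit 2439030053) (nat_lit 59) (nat_lit 5) (nat_lit 61) (nat_lit 5) (nat_lit 62) (nat_lit 4) (nat_lit 475) (nat_lit 373) (nat_lit 352)) (XT.nd (nat_lit 78) (nat_lit 228) (nat_lit 0) (XT.lf (nat_lit 0) (nat_lit 5626364950) (nat_lit 304) (nat_lit 3340609201) (nat_lit 76) (nat_lit 4243963579) (nat_lit 55) (nat_lit 5) (nat_lit 59) (nat_lit 5) (nat_lit 56) (nat_lit 4) (nat_lit 476) (nat_lit 373) (nat_lit 351)) (XT.lf (nat_lit 0) (nat_lit 482737788) (nat_lit 228) (nat_lit 493360266) (nat_lit 76) (nat_lit 12450451159) (nat_lit 52) (nat_lit 5) (nat_lit 55)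 (nat_lit 5) (nat_lit 53) (nat_lit 5) (nat_lit 477) (nat_lit 373) (nat_lit 350)))) (XT.nd (nat_lit 78) (nat_lit 380) (nat_lit 0) (XT.lf (nat_lit 0) (nat_lit 2342971458) (nat_lit 152) (nat_lit 6401536284) (nat_lit 228) (nat_lit 4902011061) (nat_lit 47) (nat_lit 5) (nat_lit 49) (nat_lit 5) (nat_lit 50) (nat_lit 4) (nat_lit 478) (nat_lit 373) (nat_lit 349)) (XT.nd (nat_lit 78) (nat_lit 152) (nat_lit 0) (XT.lf (nat_lit 0) (nat_lit 3352179351) (nat_lit 228) (nat_lit 8672720835) (nat_lit 76) (nat_lit 1847440712) (nat_lit 44) (nat_lit 5) (nat_lit 47) (nat_lit 5) (nat_lit 45) (nat_lit 4) (nat_lit 479) (nat_lit 373) (nat_lit 348)) (XT.lf (nat_lit 0) (nat_lit 8033279118) (nat_lit 152) (nat_lit 3792792076) (nat_lit 228) (nat_lit 2277446896) (nat_lit 42) (nat_lit 5) (nat_lit 44) (nat_lit 5) (nat_lit 45) (nat_lit 4) (nat_lit 480) (nat_lit 373) (nat_lit 347))))) (XT.nd (nat_lit 234) (nat_lit 608) (nat_lit 0) (XT.nd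 (nat_lit 78) (nat_lit 532) (nat_lit 0) (XT.lf (nat_lit 0) (nat_lit 6159370821) (nat_lit 228) (nat_lit 3494019738) (nat_lit 76) (nat_lit 4686869193) (nat_lit 39) (nat_lit 5) (nat_lit 42) (nat_lit 5) (nat_lit 40) (nat_lit 4) (nat_lit 481) (nat_lit 373) (nat_lit 346)) (XT.nd (nat_lit 78) (nat_lit 304) (nat_lit 0) (XT.lf (nat_lit 0) (nat_lit 256597872) (nat_lit 228) (nat_lit 917502077) (nat_lit 76) (nat_lit 13409171467) (nat_lit 36) (nat_lit 5) (nat_lit 39) (nat_lit 5) (nat_lit 37) (nat_lit 5) (nat_lit 482) (nat_lit 373) (nat_lit 345)) (XT.lf (nat_lit 0) (nat_lit 1616744647) (nat_lit 152) (nat_lit 7281558449) (nat_lit 228) (nat_lit 5932945759) (nat_lit 32) (nat_lit 5) (nat_lit 34) (nat_lit 5) (nat_lit 35) (nat_lit 4) (nat_lit 483) (nat_lit 373) (nat_lit 344)))) (XT.nd (nat_lit 156) (nat_lit 304) (nat_lit 0) (XT.nd (nat_lit 78) (nat_lit 76) (nat_lit 0) (XT.lf (nat_lit 0) (nat_lit 2703532954) (nat_lit 228)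 (nat_lit 10920274447) (nat_lit 76) (nat_lit 1461977326) (nat_lit 29) (nat_lit 5) (nat_lit 32) (nat_lit 5) (nat_lit 30) (nat_lit 4) (nat_lit 484) (nat_lit 373) (nat_lit 343)) (XT.lf (nat_lit 0) (nat_lit 6660527526) (nat_lit 76) (nat_lit 4911865929) (nat_lit 152) (nat_lit 3773702634) (nat_lit 28) (nat_lit 5) (nat_lit 29) (nat_lit 5) (nat_lit 30) (nat_lit 4) (nat_lit 485) (nat_lit 373) (nat_lit 342))) (XT.nd (nat_lit 78) (nat_lit 76) (nat_lit 0) (XT.lf (nat_lit 0) (nat_lit 5059728129) (nat_lit 228) (nat_lit 6485493013) (nat_lit 76) (nat_lit 4067667382) (nat_lit 25) (nat_lit 5) (nat_lit 28) (nat_lit 5) (nat_lit 26) (nat_lit 4) (nat_lit 486) (nat_lit 373) (nat_lit 341)) (XT.lf (nat_lit 0) (nat_lit 11565074090) (nat_lit 76) (nat_lit 2583512859) (nat_lit 152) (nat_lit 1737766483) (nat_lit 24) (nat_lit 5) (nat_lit 25) (nat_lit 5) (nat_lit 26) (nat_lit 4) (nat_lit 487) (nat_lit 373) (nat_lit 340)))))) (XT.nd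 (nat_lit 60060) (nat_lit 0) (nat_lit 6992) (XT.nd (nat_lit 59748) (nat_lit 0) (nat_lit 10184) (XT.nd (nat_lit 78) (nat_lit 152) (nat_lit 0) (XT.lf (nat_lit 0) (nat_lit 7300032639) (nat_lit 228) (nat_lit 2229425603) (nat_lit 76) (nat_lit 6636527340) (nat_lit 21) (nat_lit 5) (nat_lit 24) (nat_lit 5) (nat_lit 22) (nat_lit 4) (nat_lit 488) (nat_lit 373) (nat_lit 339)) (XT.nd (nat_lit 59592) (nat_lit 0) (nat_lit 12616) (XT.lf (nat_lit 0) (nat_lit 159779542) (nat_lit 152) (nat_lit 152735709) (nat_lit 76) (nat_lit 16140647455) (nat_lit 19) (nat_lit 5) (nat_lit 21) (nat_lit 5) (nat_lit 20) (nat_lit 5) (nat_lit 489) (nat_lit 373) (nat_lit 338)) (XT.lf (nat_lit 0) (nat_lit 1932112587) (nat_lit 456) (nat_lit 820858281) (nat_lit 0) (nat_lit 1932112587) (nat_lit 185) (nat_lit 5) (nat_lit 191) (nat_lit 4) (nat_lit 185) (nat_lit 4) (nat_lit 452) (nat_lit 374) (nat_lit 374)))) (XT.nd (nat_lit 156) (nat_lit 1216) (nat_lit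 0) (XT.nd (nat_lit 78) (nat_lit 380) (nat_lit 0) (XT.lf (nat_lit 0) (nat_lit 1330023585) (nat_lit 456) (nat_lit 8045599720) (nat_lit 0) (nat_lit 112468216) (nat_lit 174) (nat_lit 5) (nat_lit 180) (nat_lit 4) (nat_lit 174) (nat_lit 4) (nat_lit 453) (nat_lit 374) (nat_lit 373)) (XT.lf (nat_lit 0) (nat_lit 4569904152) (nat_lit 380) (nat_lit 3719357808) (nat_lit 380) (nat_lit 1319709849) (nat_lit 169) (nat_lit 4) (nat_lit 174) (nat_lit 5) (nat_lit 174) (nat_lit 4) (nat_lit 454) (nat_lit 374) (nat_lit 372))) (XT.nd (nat_lit 78) (nat_lit 760) (nat_lit 0) (XT.lf (nat_lit 0) (nat_lit 5609549513) (nat_lit 456) (nat_lit 1992180916) (nat_lit 0) (nat_lit 2131793956) (nat_lit 163) (nat_lit 5) (nat_lit 169) (nat_lit 4) (nat_lit 163) (nat_lit 4) (nat_lit 455) (nat_lit 374) (nat_lit 371)) (XT.lf (nat_lit 0) (nat_lit 1108329675) (nat_lit 304) (nat_lit 1702795629) (nat_lit 380) (nat_lit 7050514508) (nat_lit 153) (nat_lit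 5) (nat_lit 157) (nat_lit 5) (nat_lit 158) (nat_lit 4) (nat_lit 456) (nat_lit 374) (nat_lit 370))))) (XT.nd (nat_lit 234) (nat_lit 1672) (nat_lit 0) (XT.nd (nat_lit 78) (nat_lit 1140) (nat_lit 0) (XT.lf (nat_lit 0) (nat_lit 4270965433) (nat_lit 380) (nat_lit 5621260844) (nat_lit 380) (nat_lit 100952804) (nat_lit 148) (nat_lit 4) (nat_lit 153) (nat_lit 5) (nat_lit 153) (nat_lit 4) (nat_lit 457) (nat_lit 374) (nat_lit 369)) (XT.nd (nat_lit 78) (nat_lit 760) (nat_lit 0) (XT.lf (nat_lit 0) (nat_lit 6933231149) (nat_lit 380) (nat_lit 2663680196) (nat_lit 0) (nat_lit 531467837) (nat_lit 143) (nat_lit 5) (nat_lit 148) (nat_lit 4) (nat_lit 143) (nat_lit 4) (nat_lit 458) (nat_lit 374) (nat_lit 368)) (XT.lf (nat_lit 0) (nat_lit 424380748) (nat_lit 304) (nat_lit 3430576950) (nat_lit 380) (nat_lit 6412225531) (nat_lit 133) (nat_lit 5) (nat_lit 137) (nat_lit 5) (nat_lit 138) (nat_lit 4) (nat_lit 459) (nat_lit 374)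 (nat_lit 367)))) (XT.nd (nat_lit 156) (nat_lit 988) (nat_lit 0) (XT.nd (nat_lit 78) (nat_lit 304) (nat_lit 0) (XT.lf (nat_lit 0) (nat_lit 650518629) (nat_lit 380) (nat_lit 6818812932) (nat_lit 76) (nat_lit 2940399854) (nat_lit 128) (nat_lit 5) (nat_lit 133) (nat_lit 5) (nat_lit 129) (nat_lit 4) (nat_lit 460) (nat_lit 374) (nat_lit 366)) (XT.lf (nat_lit 0) (nat_lit 6779499747) (nat_lit 304) (nat_lit 1042437795) (nat_lit 380) (nat_lit 2734096888) (nat_lit 124) (nat_lit 5) (nat_lit 128) (nat_lit 5) (nat_lit 129) (nat_lit 4) (nat_lit 461) (nat_lit 374) (nat_lit 365))) (XT.nd (nat_lit 78) (nat_lit 608) (nat_lit 0) (XT.lf (nat_lit 0) (nat_lit 4441965487) (nat_lit 380) (nat_lit 716352156) (nat_lit 76) (nat_lit 5547843691) (nat_lit 119) (nat_lit 5) (nat_lit 124) (nat_lit 5) (nat_lit 120) (nat_lit 4) (nat_lit 462) (nat_lit 374) (nat_lit 364)) (XT.lf (nat_lit 0) (nat_lit 921167082) (nat_lit 380) (nat_lit 8442862494)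 (nat_lit 76) (nat_lit 1496329262) (nat_lit 111) (nat_lit 5) (nat_lit 116) (nat_lit 5) (nat_lit 112) (nat_lit 4) (nat_lit 463) (nat_lit 374) (nat_lit 363))))))) (XT.nd (nat_lit 1092) (nat_lit 2508) (nat_lit 0) (XT.nd (nat_lit 546) (nat_lit 1900) (nat_lit 0) (XT.nd (nat_lit 234) (nat_lit 1292) (nat_lit 0) (XT.nd (nat_lit 78) (nat_lit 988) (nat_lit 0) (XT.lf (nat_lit 0) (nat_lit 5567660921) (nat_lit 228) (nat_lit 2676066706) (nat_lit 304) (nat_lit 2774495414) (nat_lit 108) (nat_lit 5) (nat_lit 111) (nat_lit 5) (nat_lit 112) (nat_lit 4) (nat_lit 464) (nat_lit 374) (nat_lit 362)) (XT.nd (nat_lit 78) (nat_lit 608) (nat_lit 0) (XT.lf (nat_lit 0) (nat_lit 4541372656) (nat_lit 380) (nat_lit 2437180937) (nat_lit 76) (nat_lit 4201742596) (nat_lit 103) (nat_lit 5) (nat_lit 108) (nat_lit 5) (nat_lit 104) (nat_lit 4) (nat_lit 465) (nat_lit 374) (nat_lit 361)) (XT.lf (nat_lit 0) (nat_lit 621572508) (nat_lit 304)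 (nat_lit 54890600) (nat_lit 380) (nat_lit 10670447488) (nat_lit 95) (nat_lit 5) (nat_lit 99) (nat_lit 5) (nat_lit 100) (nat_lit 5) (nat_lit 466) (nat_lit 374) (nat_lit 360)))) (XT.nd (nat_lit 156) (nat_lit 760) (nat_lit 0) (XT.nd (nat_lit 78) (nat_lit 304) (nat_lit 0) (XT.lf (nat_lit 0) (nat_lit 3699978944) (nat_lit 228) (nat_lit 4457303826) (nat_lit 304) (nat_lit 3359642934) (nat_lit 92) (nat_lit 5) (nat_lit 95) (nat_lit 5) (nat_lit 96) (nat_lit 4) (nat_lit 467) (nat_lit 374) (nat_lit 359)) (XT.lf (nat_lit 0) (nat_lit 4108933460) (nat_lit 304) (nat_lit 4881069192) (nat_lit 76) (nat_lit 2701637318) (nat_lit 88) (nat_lit 5) (nat_lit 92) (nat_lit 5) (nat_lit 89) (nat_lit 4) (nat_lit 468) (nat_lit 374) (nat_lit 358))) (XT.nd (nat_lit 78) (nat_lit 532) (nat_lit 0) (XT.lf (nat_lit 0) (nat_lit 9945861146) (nat_lit 228) (nat_lit 1817433819) (nat_lit 304) (nat_lit 107712161) (nat_lit 85) (nat_lit 5) (nat_lit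 88) (nat_lit 5) (nat_lit 89) (nat_lit 4) (nat_lit 469) (nat_lit 374) (nat_lit 357)) (XT.lf (nat_lit 0) (nat_lit 1030257588) (nat_lit 228) (nat_lit 6484421929) (nat_lit 304) (nat_lit 4539638661) (nat_lit 78) (nat_lit 5) (nat_lit 81) (nat_lit 5) (nat_lit 82) (nat_lit 4) (nat_lit 470) (nat_lit 374) (nat_lit 356))))) (XT.nd (nat_lit 234) (nat_lit 1064) (nat_lit 0) (XT.nd (nat_lit 78) (nat_lit 532) (nat_lit 0) (XT.lf (nat_lit 0) (nat_lit 3092764366) (nat_lit 304) (nat_lit 8199769127) (nat_lit 76) (nat_lit 949927624) (nat_lit 74) (nat_lit 5) (nat_lit 78) (nat_lit 5) (nat_lit 75) (nat_lit 4) (nat_lit 471) (nat_lit 374) (nat_lit 355)) (XT.nd (nat_lit 78) (nat_lit 304) (nat_lit 0) (XT.lf (nat_lit 0) (nat_lit 7051402485) (nat_lit 228) (nat_lit 3867904220) (nat_lit 304) (nat_lit 1515807321) (nat_lit 71) (nat_lit 5) (nat_lit 74) (nat_lit 5) (nat_lit 75) (nat_lit 4) (nat_lit 472) (nat_lit 374) (nat_lit 354)) (XT.lf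 (nat_lit 0) (nat_lit 6273917723) (nat_lit 304) (nat_lit 2569603469) (nat_lit 76) (nat_lit 3789002448) (nat_lit 67) (nat_lit 5) (nat_lit 71) (nat_lit 5) (nat_lit 68) (nat_lit 4) (nat_lit 473) (nat_lit 374) (nat_lit 353)))) (XT.nd (nat_lit 156) (nat_lit 456) (nat_lit 0) (XT.nd (nat_lit 78) (nat_lit 152) (nat_lit 0) (XT.lf (nat_lit 0) (nat_lit 265444912) (nat_lit 228) (nat_lit 1171800321) (nat_lit 304) (nat_lit 11397924024) (nat_lit 61) (nat_lit 5) (nat_lit 64) (nat_lit 5) (nat_lit 65) (nat_lit 5) (nat_lit 474) (nat_lit 374) (nat_lit 352)) (XT.lf (nat_lit 0) (nat_lit 3109890110) (nat_lit 152) (nat_lit 6321339464) (nat_lit 228) (nat_lit 3610813498) (nat_lit 59) (nat_lit 5) (nat_lit 61) (nat_lit 5) (nat_lit 62) (nat_lit 4) (nat_lit 475) (nat_lit 374) (nat_lit 351))) (XT.nd (nat_lit 78) (nat_lit 152) (nat_lit 0) (XT.lf (nat_lit 0) (nat_lit 4361232991) (nat_lit 304) (nat_lit 7286482808) (nat_lit 76) (nat_lit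 1606653718) (nat_lit 55) (nat_lit 5) (nat_lit 59) (nat_lit 5) (nat_lit 56) (nat_lit 4) (nat_lit 476) (nat_lit 374) (nat_lit 350)) (XT.lf (nat_lit 0) (nat_lit 8818682648) (nat_lit 152) (nat_lit 3740124440) (nat_lit 228) (nat_lit 913075041) (nat_lit 53) (nat_lit 5) (nat_lit 55) (nat_lit 5) (nat_lit 56) (nat_lit 4) (nat_lit 477) (nat_lit 374) (nat_lit 349)))))) (XT.nd (nat_lit 546) (nat_lit 836) (nat_lit 0) (XT.nd (nat_lit 234) (nat_lit 836) (nat_lit 0) (XT.nd (nat_lit 78) (nat_lit 532) (nat_lit 0) (XT.lf (nat_lit 0) (nat_lit 7234476205) (nat_lit 304) (nat_lit 2044025225) (nat_lit 76) (nat_lit 4415993756) (nat_lit 49) (nat_lit 5) (nat_lit 53) (nat_lit 5) (nat_lit 50) (nat_lit 4) (nat_lit 478) (nat_lit 374) (nat_lit 348)) (XT.nd (nat_lit 78) (nat_lit 152) (nat_lit 0) (XT.lf (nat_lit 0) (nat_lit 580829216) (nat_lit 152) (nat_lit 1113247148) (nat_lit 228) (nat_lit 12228854775) (nat_lit 44) (nat_lit 5) (nat_lit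 46) (nat_lit 5) (nat_lit 47) (nat_lit 5) (nat_lit 479) (nat_lit 374) (nat_lit 347)) (XT.lf (nat_lit 0) (nat_lit 3190348985) (nat_lit 152) (nat_lit 6874967782) (nat_lit 228) (nat_lit 4090845538) (nat_lit 42) (nat_lit 5) (nat_lit 44) (nat_lit 5) (nat_lit 45) (nat_lit 4) (nat_lit 480) (nat_lit 374) (nat_lit 346)))) (XT.nd (nat_lit 156) (nat_lit 456) (nat_lit 0) (XT.nd (nat_lit 78) (nat_lit 152) (nat_lit 0) (XT.lf (nat_lit 0) (nat_lit 4252926847) (nat_lit 228) (nat_lit 8594621452) (nat_lit 76) (nat_lit 1547928610) (nat_lit 39) (nat_lit 5) (nat_lit 42) (nat_lit 5) (nat_lit 40) (nat_lit 4) (nat_lit 481) (nat_lit 374) (nat_lit 345)) (XT.lf (nat_lit 0) (nat_lit 8382352627) (nat_lit 152) (nat_lit 4457681654) (nat_lit 228) (nat_lit 1800425627) (nat_lit 37) (nat_lit 5) (nat_lit 39) (nat_lit 5) (nat_lit 40) (nat_lit 4) (nat_lit 482) (nat_lit 374) (nat_lit 344))) (XT.nd (nat_lit 78) (nat_lit 228) (nat_lit 0) (XT.lf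 (nat_lit 0) (nat_lit 6734769296) (nat_lit 228) (nat_lit 3957288063) (nat_lit 76) (nat_lit 4199217074) (nat_lit 34) (nat_lit 5) (nat_lit 37) (nat_lit 5) (nat_lit 35) (nat_lit 4) (nat_lit 483) (nat_lit 374) (nat_lit 343)) (XT.lf (nat_lit 0) (nat_lit 383940740) (nat_lit 228) (nat_lit 1667535705) (nat_lit 76) (nat_lit 13097127293) (nat_lit 31) (nat_lit 5) (nat_lit 34) (nat_lit 5) (nat_lit 32) (nat_lit 5) (nat_lit 484) (nat_lit 374) (nat_lit 342))))) (XT.nd (nat_lit 234) (nat_lit 304) (nat_lit 0) (XT.nd (nat_lit 78) (nat_lit 304) (nat_lit 0) (XT.lf (nat_lit 0) (nat_lit 561134166) (nat_lit 76) (nat_lit 8566176889) (nat_lit 152) (nat_lit 6284114616) (nat_lit 28) (nat_lit 5) (nat_lit 29) (nat_lit 5) (nat_lit 30) (nat_lit 4) (nat_lit 485) (nat_lit 374) (nat_lit 341)) (XT.nd (nat_lit 78) (nat_lit 76) (nat_lit 0) (XT.lf (nat_lit 0) (nat_lit 2455728273) (nat_lit 228) (nat_lit 12873880294) (nat_lit 76) (nat_lit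 351466502) (nat_lit 25) (nat_lit 5) (nat_lit 28) (nat_lit 5) (nat_lit 26) (nat_lit 4) (nat_lit 486) (nat_lit 374) (nat_lit 340)) (XT.lf (nat_lit 0) (nat_lit 4977776962) (nat_lit 76) (nat_lit 6463885506) (nat_lit 152) (nat_lit 4514936712) (nat_lit 24) (nat_lit 5) (nat_lit 25) (nat_lit 5) (nat_lit 26) (nat_lit 4) (nat_lit 487) (nat_lit 374) (nat_lit 339)))) (XT.nd (nat_lit 59514) (nat_lit 0) (nat_lit 12996) (XT.nd (nat_lit 78) (nat_lit 76) (nat_lit 0) (XT.lf (nat_lit 0) (nat_lit 4429411836) (nat_lit 228) (nat_lit 9116877526) (nat_lit 76) (nat_lit 2692900743) (nat_lit 21) (nat_lit 5) (nat_lit 24) (nat_lit 5) (nat_lit 22) (nat_lit 4) (nat_lit 488) (nat_lit 374) (nat_lit 338)) (XT.lf (nat_lit 0) (nat_lit 9210536069) (nat_lit 76) (nat_lit 4429065287) (nat_lit 152) (nat_lit 2888884841) (nat_lit 20) (nat_lit 5) (nat_lit 21) (nat_lit 5) (nat_lit 22) (nat_lit 4) (nat_lit 489) (nat_lit 374) (nat_lit 337))) (XT.nd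 (nat_lit 78) (nat_lit 456) (nat_lit 0) (XT.lf (nat_lit 0) (nat_lit 410808603) (nat_lit 456) (nat_lit 3750101791) (nat_lit 0) (nat_lit 410808603) (nat_lit 197) (nat_lit 5) (nat_lit 203) (nat_lit 4) (nat_lit 197) (nat_lit 4) (nat_lit 450) (nat_lit 375) (nat_lit 375)) (XT.lf (nat_lit 0) (nat_lit 4602848386) (nat_lit 456) (nat_lit 2978865802) (nat_lit 456) (nat_lit 1674118859) (nat_lit 191) (nat_lit 4) (nat_lit 197) (nat_lit 5) (nat_lit 197) (nat_lit 4) (nat_lit 451) (nat_lit 375) (nat_lit 374))))))))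
noncomputable def xc7 : XT := (XT.nd (nat_lit 2106) (nat_lit 2204) (nat_lit 0) (XT.nd (nat_lit 1014) (nat_lit 4484) (nat_lit 0) (XT.nd (nat_lit 468) (nat_lit 2964) (nat_lit 0) (XT.nd (nat_lit 234) (nat_lit 1672) (nat_lit 0) (XT.nd (nat_lit 78) (nat_lit 1216) (nat_lit 0) (XT.lf (nat_lit 0) (nat_lit 5064427828) (nat_lit 456) (nat_lit 1763963624) (nat_lit 0) (nat_lit 2543357681) (nat_lit 185) (nat_lit 5) (nat_lit 191) (nat_lit 4) (nat_lit 185) (nat_lit 4) (nat_lit 452) (nat_lit 375) (nat_lit 373)) (XT.nd (nat_lit 78) (nat_lit 380) (nat_lit 0) (XT.lf (nat_lit 0) (nat_lit 1185314199) (nat_lit 380) (nat_lit 1246427774) (nat_lit 456) (nat_lit 7059402614) (nat_lit 174) (nat_lit 5) (nat_lit 179) (nat_lit 5) (nat_lit 180) (nat_lit 4) (nat_lit 453) (nat_lit 375) (nat_lit 372)) (XT.lf (nat_lit 0) (nat_lit 4192224503) (nat_lit 380) (nat_lit 5111470772) (nat_lit 380) (nat_lit 310078074) (nat_lit 169) (nat_lit 4)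 (nat_lit 174) (nat_lit 5) (nat_lit 174) (nat_lit 4) (nat_lit 454) (nat_lit 375) (nat_lit 371)))) (XT.nd (nat_lit 78) (nat_lit 1216) (nat_lit 0) (XT.lf (nat_lit 0) (nat_lit 6517514607) (nat_lit 456) (nat_lit 2504572374) (nat_lit 0) (nat_lit 717878980) (nat_lit 163) (nat_lit 5) (nat_lit 169) (nat_lit 4) (nat_lit 163) (nat_lit 4) (nat_lit 455) (nat_lit 375) (nat_lit 370)) (XT.nd (nat_lit 78) (nat_lit 456) (nat_lit 0) (XT.lf (nat_lit 0) (nat_lit 446610709) (nat_lit 304) (nat_lit 3170625476) (nat_lit 380) (nat_lit 6252402428) (nat_lit 153) (nat_lit 5) (nat_lit 157) (nat_lit 5) (nat_lit 158) (nat_lit 4) (nat_lit 456) (nat_lit 375) (nat_lit 369)) (XT.lf (nat_lit 0) (nat_lit 597996223) (nat_lit 456) (nat_lit 6527230702) (nat_lit 76) (nat_lit 2877663212) (nat_lit 147) (nat_lit 5) (nat_lit 153) (nat_lit 5) (nat_lit 148) (nat_lit 4) (nat_lit 457) (nat_lit 375) (nat_lit 368))))) (XT.nd (nat_lit 234) (nat_lit 1520)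 (nat_lit 0) (XT.nd (nat_lit 78) (nat_lit 1140) (nat_lit 0) (XT.lf (nat_lit 0) (nat_lit 6530542021) (nat_lit 304) (nat_lit 1016890155) (nat_lit 380) (nat_lit 2592315753) (nat_lit 143) (nat_lit 5) (nat_lit 147) (nat_lit 5) (nat_lit 148) (nat_lit 4) (nat_lit 458) (nat_lit 375) (nat_lit 367)) (XT.nd (nat_lit 78) (nat_lit 684) (nat_lit 0) (XT.lf (nat_lit 0) (nat_lit 4360244533) (nat_lit 456) (nat_lit 669573323) (nat_lit 76) (nat_lit 5250450832) (nat_lit 137) (nat_lit 5) (nat_lit 143) (nat_lit 5) (nat_lit 138) (nat_lit 4) (nat_lit 459) (nat_lit 375) (nat_lit 366)) (XT.lf (nat_lit 0) (nat_lit 1039797669) (nat_lit 380) (nat_lit 8079000742) (nat_lit 76) (nat_lit 1305885991) (nat_lit 128) (nat_lit 5) (nat_lit 133) (nat_lit 5) (nat_lit 129) (nat_lit 4) (nat_lit 460) (nat_lit 375) (nat_lit 365)))) (XT.nd (nat_lit 156) (nat_lit 836) (nat_lit 0) (XT.nd (nat_lit 78) (nat_lit 380) (nat_lit 0) (XT.lf (nat_lit 0) (nat_lit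 5381260474) (nat_lit 304) (nat_lit 2748810471) (nat_lit 380) (nat_lit 2442541425) (nat_lit 124) (nat_lit 5) (nat_lit 128) (nat_lit 5) (nat_lit 129) (nat_lit 4) (nat_lit 461) (nat_lit 375) (nat_lit 364)) (XT.lf (nat_lit 0) (nat_lit 4636950543) (nat_lit 380) (nat_lit 2278913035) (nat_lit 76) (nat_lit 3808694712) (nat_lit 119) (nat_lit 5) (nat_lit 124) (nat_lit 5) (nat_lit 120) (nat_lit 4) (nat_lit 462) (nat_lit 375) (nat_lit 363))) (XT.nd (nat_lit 78) (nat_lit 228) (nat_lit 0) (XT.lf (nat_lit 0) (nat_lit 681220513) (nat_lit 304) (nat_lit 311248369) (nat_lit 380) (nat_lit 9888325236) (nat_lit 111) (nat_lit 5) (nat_lit 115) (nat_lit 5) (nat_lit 116) (nat_lit 5) (nat_lit 463) (nat_lit 375) (nat_lit 362)) (XT.lf (nat_lit 0) (nat_lit 3668519679) (nat_lit 228) (nat_lit 4561716662) (nat_lit 304) (nat_lit 2810119638) (nat_lit 108) (nat_lit 5) (nat_lit 111) (nat_lit 5) (nat_lit 112) (nat_lit 4) (nat_lit 464)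 (nat_lit 375) (nat_lit 361)))))) (XT.nd (nat_lit 546) (nat_lit 1900) (nat_lit 0) (XT.nd (nat_lit 234) (nat_lit 1368) (nat_lit 0) (XT.nd (nat_lit 78) (nat_lit 836) (nat_lit 0) (XT.lf (nat_lit 0) (nat_lit 4410533189) (nat_lit 380) (nat_lit 4515008462) (nat_lit 76) (nat_lit 2278807459) (nat_lit 103) (nat_lit 5) (nat_lit 108) (nat_lit 5) (nat_lit 104) (nat_lit 4) (nat_lit 465) (nat_lit 375) (nat_lit 360)) (XT.nd (nat_lit 78) (nat_lit 532) (nat_lit 0) (XT.lf (nat_lit 0) (nat_lit 435914303) (nat_lit 304) (nat_lit 1635407434) (nat_lit 76) (nat_lit 9301417278) (nat_lit 99) (nat_lit 5) (nat_lit 103) (nat_lit 5) (nat_lit 100) (nat_lit 5) (nat_lit 466) (nat_lit 375) (nat_lit 359)) (XT.lf (nat_lit 0) (nat_lit 1257086244) (nat_lit 228) (nat_lit 6550918834) (nat_lit 304) (nat_lit 3736925201) (nat_lit 92) (nat_lit 5) (nat_lit 95) (nat_lit 5) (nat_lit 96) (nat_lit 4) (nat_lit 467) (nat_lit 375) (nat_lit 358)))) (XT.nd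 (nat_lit 156) (nat_lit 836) (nat_lit 0) (XT.nd (nat_lit 78) (nat_lit 228) (nat_lit 0) (XT.lf (nat_lit 0) (nat_lit 3637385490) (nat_lit 304) (nat_lit 7517835735) (nat_lit 76) (nat_lit 566458090) (nat_lit 88) (nat_lit 5) (nat_lit 92) (nat_lit 5) (nat_lit 89) (nat_lit 4) (nat_lit 468) (nat_lit 375) (nat_lit 357)) (XT.lf (nat_lit 0) (nat_lit 7155161049) (nat_lit 228) (nat_lit 4051226935) (nat_lit 304) (nat_lit 696367126) (nat_lit 85) (nat_lit 5) (nat_lit 88) (nat_lit 5) (nat_lit 89) (nat_lit 4) (nat_lit 469) (nat_lit 375) (nat_lit 356))) (XT.nd (nat_lit 78) (nat_lit 532) (nat_lit 0) (XT.lf (nat_lit 0) (nat_lit 6826297237) (nat_lit 304) (nat_lit 1975759853) (nat_lit 76) (nat_lit 3286235853) (nat_lit 81) (nat_lit 5) (nat_lit 85) (nat_lit 5) (nat_lit 82) (nat_lit 4) (nat_lit 470) (nat_lit 375) (nat_lit 355)) (XT.lf (nat_lit 0) (nat_lit 827241132) (nat_lit 228) (nat_lit 1445592032) (nat_lit 304) (nat_lit 10005838800)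 (nat_lit 74) (nat_lit 5) (nat_lit 77) (nat_lit 5) (nat_lit 78) (nat_lit 5) (nat_lit 471) (nat_lit 375) (nat_lit 354))))) (XT.nd (nat_lit 234) (nat_lit 1140) (nat_lit 0) (XT.nd (nat_lit 78) (nat_lit 532) (nat_lit 0) (XT.lf (nat_lit 0) (nat_lit 3647572166) (nat_lit 228) (nat_lit 6354388035) (nat_lit 304) (nat_lit 2471314262) (nat_lit 71) (nat_lit 5) (nat_lit 74) (nat_lit 5) (nat_lit 75) (nat_lit 4) (nat_lit 472) (nat_lit 375) (nat_lit 353)) (XT.nd (nat_lit 78) (nat_lit 228) (nat_lit 0) (XT.lf (nat_lit 0) (nat_lit 5225721095) (nat_lit 304) (nat_lit 6191861415) (nat_lit 76) (nat_lit 1255331290) (nat_lit 67) (nat_lit 5) (nat_lit 71) (nat_lit 5) (nat_lit 68) (nat_lit 4) (nat_lit 473) (nat_lit 375) (nat_lit 352)) (XT.lf (nat_lit 0) (nat_lit 271682654) (nat_lit 228) (nat_lit 3559433803) (nat_lit 76) (nat_lit 9046410536) (nat_lit 64) (nat_lit 5) (nat_lit 67) (nat_lit 5) (nat_lit 65) (nat_lit 5) (nat_lit 474)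 (nat_lit 375) (nat_lit 351)))) (XT.nd (nat_lit 156) (nat_lit 456) (nat_lit 0) (XT.nd (nat_lit 78) (nat_lit 456) (nat_lit 0) (XT.lf (nat_lit 0) (nat_lit 8139923904) (nat_lit 304) (nat_lit 944896832) (nat_lit 76) (nat_lit 4002096062) (nat_lit 61) (nat_lit 5) (nat_lit 65) (nat_lit 5) (nat_lit 62) (nat_lit 4) (nat_lit 475) (nat_lit 375) (nat_lit 350)) (XT.lf (nat_lit 0) (nat_lit 1703597888) (nat_lit 228) (nat_lit 1230401685) (nat_lit 304) (nat_lit 10367589818) (nat_lit 55) (nat_lit 5) (nat_lit 58) (nat_lit 5) (nat_lit 59) (nat_lit 5) (nat_lit 476) (nat_lit 375) (nat_lit 349))) (XT.nd (nat_lit 78) (nat_lit 304) (nat_lit 0) (XT.lf (nat_lit 0) (nat_lit 4342016132) (nat_lit 152) (nat_lit 6689307672) (nat_lit 228) (nat_lit 2489784239) (nat_lit 53) (nat_lit 5) (nat_lit 55) (nat_lit 5) (nat_lit 56) (nat_lit 4) (nat_lit 477) (nat_lit 375) (nat_lit 348)) (XT.lf (nat_lit 0) (nat_lit 5565745148) (nat_lit 304) (nat_lit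 6766150184) (nat_lit 76) (nat_lit 1414285516) (nat_lit 49) (nat_lit 5) (nat_lit 53) (nat_lit 5) (nat_lit 50) (nat_lit 4) (nat_lit 478) (nat_lit 375) (nat_lit 347))))))) (XT.nd (nat_lit 60294) (nat_lit 0) (nat_lit 6688) (XT.nd (nat_lit 546) (nat_lit 684) (nat_lit 0) (XT.nd (nat_lit 234) (nat_lit 760) (nat_lit 0) (XT.nd (nat_lit 78) (nat_lit 608) (nat_lit 0) (XT.lf (nat_lit 0) (nat_lit 9608714238) (nat_lit 152) (nat_lit 4265017623) (nat_lit 228) (nat_lit 103054426) (nat_lit 47) (nat_lit 5) (nat_lit 49) (nat_lit 5) (nat_lit 50) (nat_lit 4) (nat_lit 479) (nat_lit 375) (nat_lit 346)) (XT.nd (nat_lit 78) (nat_lit 380) (nat_lit 0) (XT.lf (nat_lit 0) (nat_lit 8137316184) (nat_lit 228) (nat_lit 2005396471) (nat_lit 76) (nat_lit 4069963525) (nat_lit 44) (nat_lit 5) (nat_lit 47) (nat_lit 5) (nat_lit 45) (nat_lit 4) (nat_lit 480) (nat_lit 375) (nat_lit 345)) (XT.lf (nat_lit 0) (nat_lit 360740780) (nat_lit 152)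 (nat_lit 1813406560) (nat_lit 228) (nat_lit 12280507860) (nat_lit 39) (nat_lit 5) (nat_lit 41) (nat_lit 5) (nat_lit 42) (nat_lit 5) (nat_lit 481) (nat_lit 375) (nat_lit 344)))) (XT.nd (nat_lit 156) (nat_lit 380) (nat_lit 0) (XT.nd (nat_lit 78) (nat_lit 228) (nat_lit 0) (XT.lf (nat_lit 0) (nat_lit 2708555224) (nat_lit 152) (nat_lit 7943388411) (nat_lit 228) (nat_lit 4049881634) (nat_lit 37) (nat_lit 5) (nat_lit 39) (nat_lit 5) (nat_lit 40) (nat_lit 4) (nat_lit 482) (nat_lit 375) (nat_lit 343)) (XT.lf (nat_lit 0) (nat_lit 4393096955) (nat_lit 228) (nat_lit 9906505645) (nat_lit 76) (nat_lit 655764467) (nat_lit 34) (nat_lit 5) (nat_lit 37) (nat_lit 5) (nat_lit 35) (nat_lit 4) (nat_lit 483) (nat_lit 375) (nat_lit 342))) (XT.nd (nat_lit 78) (nat_lit 228) (nat_lit 0) (XT.lf (nat_lit 0) (nat_lit 7343997631) (nat_lit 152) (nat_lit 5752838889) (nat_lit 228) (nat_lit 2117894924) (nat_lit 32) (nat_lit 5) (nat_lit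 34) (nat_lit 5) (nat_lit 35) (nat_lit 4) (nat_lit 484) (nat_lit 375) (nat_lit 341)) (XT.lf (nat_lit 0) (nat_lit 6524762198) (nat_lit 228) (nat_lit 5871961274) (nat_lit 76) (nat_lit 3083675463) (nat_lit 29) (nat_lit 5) (nat_lit 32) (nat_lit 5) (nat_lit 30) (nat_lit 4) (nat_lit 485) (nat_lit 375) (nat_lit 340))))) (XT.nd (nat_lit 234) (nat_lit 228) (nat_lit 0) (XT.nd (nat_lit 78) (nat_lit 380) (nat_lit 0) (XT.lf (nat_lit 0) (nat_lit 11849996931) (nat_lit 76) (nat_lit 3599461614) (nat_lit 152) (nat_lit 303268723) (nat_lit 28) (nat_lit 5) (nat_lit 29) (nat_lit 5) (nat_lit 30) (nat_lit 4) (nat_lit 486) (nat_lit 375) (nat_lit 339)) (XT.nd (nat_lit 78) (nat_lit 152) (nat_lit 0) (XT.lf (nat_lit 0) (nat_lit 8546704458) (nat_lit 228) (nat_lit 2005193473) (nat_lit 76) (nat_lit 5479192285) (nat_lit 25) (nat_lit 5) (nat_lit 28) (nat_lit 5) (nat_lit 26) (nat_lit 4) (nat_lit 487) (nat_lit 375) (nat_lit 338)) (XT.lf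 (nat_lit 0) (nat_lit 1363770774) (nat_lit 152) (nat_lit 126505680) (nat_lit 76) (nat_lit 14826493672) (nat_lit 23) (nat_lit 5) (nat_lit 25) (nat_lit 5) (nat_lit 24) (nat_lit 5) (nat_lit 488) (nat_lit 375) (nat_lit 337)))) (XT.nd (nat_lit 59358) (nat_lit 0) (nat_lit 13452) (XT.nd (nat_lit 59280) (nat_lit 0) (nat_lit 14896) (XT.lf (nat_lit 0) (nat_lit 1686144413) (nat_lit 76) (nat_lit 8771336984) (nat_lit 152) (nat_lit 6150915037) (nat_lit 20) (nat_lit 5) (nat_lit 21) (nat_lit 5) (nat_lit 22) (nat_lit 4) (nat_lit 489) (nat_lit 375) (nat_lit 336)) (XT.lf (nat_lit 0) (nat_lit 2465805468) (nat_lit 456) (nat_lit 998701975) (nat_lit 456) (nat_lit 998701975) (nat_lit 216) (nat_lit 4) (nat_lit 222) (nat_lit 5) (nat_lit 222) (nat_lit 4) (nat_lit 448) (nat_lit 376) (nat_lit 376))) (XT.nd (nat_lit 78) (nat_lit 912) (nat_lit 0) (XT.lf (nat_lit 0) (nat_lit 4565929607) (nat_lit 532) (nat_lit 1272885614) (nat_lit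 0) (nat_lit 3195162468) (nat_lit 209) (nat_lit 5) (nat_lit 216) (nat_lit 4) (nat_lit 209) (nat_lit 4) (nat_lit 449) (nat_lit 376) (nat_lit 375)) (XT.lf (nat_lit 0) (nat_lit 1520772784) (nat_lit 380) (nat_lit 569515238) (nat_lit 456) (nat_lit 7054657493) (nat_lit 197) (nat_lit 5) (nat_lit 202) (nat_lit 5) (nat_lit 203) (nat_lit 4) (nat_lit 450) (nat_lit 376) (nat_lit 374)))))) (XT.nd (nat_lit 546) (nat_lit 2964) (nat_lit 0) (XT.nd (nat_lit 234) (nat_lit 2052) (nat_lit 0) (XT.nd (nat_lit 78) (nat_lit 1292) (nat_lit 0) (XT.lf (nat_lit 0) (nat_lit 4362658345) (nat_lit 456) (nat_lit 4405851840) (nat_lit 456) (nat_lit 490470939) (nat_lit 191) (nat_lit 4) (nat_lit 197) (nat_lit 5) (nat_lit 197) (nat_lit 4) (nat_lit 451) (nat_lit 376) (nat_lit 373)) (XT.nd (nat_lit 78) (nat_lit 836) (nat_lit 0) (XT.lf (nat_lit 0) (nat_lit 6145014359) (nat_lit 456) (nat_lit 2130811623) (nat_lit 0) (nat_lit 1100671190) (nat_lit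 185) (nat_lit 5) (nat_lit 191) (nat_lit 4) (nat_lit 185) (nat_lit 4) (nat_lit 452) (nat_lit 376) (nat_lit 372)) (XT.lf (nat_lit 0) (nat_lit 677394611) (nat_lit 380) (nat_lit 2734661697) (nat_lit 456) (nat_lit 6085327675) (nat_lit 174) (nat_lit 5) (nat_lit 179) (nat_lit 5) (nat_lit 180) (nat_lit 4) (nat_lit 453) (nat_lit 376) (nat_lit 371)))) (XT.nd (nat_lit 156) (nat_lit 1216) (nat_lit 0) (XT.nd (nat_lit 78) (nat_lit 380) (nat_lit 0) (XT.lf (nat_lit 0) (nat_lit 566444255) (nat_lit 456) (nat_lit 6063115432) (nat_lit 76) (nat_lit 2992146357) (nat_lit 168) (nat_lit 5) (nat_lit 174) (nat_lit 5) (nat_lit 169) (nat_lit 4) (nat_lit 454) (nat_lit 376) (nat_lit 370)) (XT.lf (nat_lit 0) (nat_lit 6470377774) (nat_lit 380) (nat_lit 836301818) (nat_lit 456) (nat_lit 2442847171) (nat_lit 163) (nat_lit 5) (nat_lit 168) (nat_lit 5) (nat_lit 169) (nat_lit 4) (nat_lit 455) (nat_lit 376) (nat_lit 369))) (XT.nd (nat_lit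 78) (nat_lit 760) (nat_lit 0) (XT.lf (nat_lit 0) (nat_lit 4299467861) (nat_lit 456) (nat_lit 471338605) (nat_lit 76) (nat_lit 5110037110) (nat_lit 157) (nat_lit 5) (nat_lit 163) (nat_lit 5) (nat_lit 158) (nat_lit 4) (nat_lit 456) (nat_lit 376) (nat_lit 368)) (XT.lf (nat_lit 0) (nat_lit 1166656481) (nat_lit 456) (nat_lit 7600170913) (nat_lit 76) (nat_lit 1249054208) (nat_lit 147) (nat_lit 5) (nat_lit 153) (nat_lit 5) (nat_lit 148) (nat_lit 4) (nat_lit 457) (nat_lit 376) (nat_lit 367))))) (XT.nd (nat_lit 234) (nat_lit 1520) (nat_lit 0) (XT.nd (nat_lit 78) (nat_lit 1140) (nat_lit 0) (XT.lf (nat_lit 0) (nat_lit 5325533364) (nat_lit 304) (nat_lit 2711046844) (nat_lit 380) (nat_lit 2117751682) (nat_lit 143) (nat_lit 5) (nat_lit 147) (nat_lit 5) (nat_lit 148) (nat_lit 4) (nat_lit 458) (nat_lit 376) (nat_lit 366)) (XT.nd (nat_lit 78) (nat_lit 684) (nat_lit 0) (XT.lf (nat_lit 0) (nat_lit 4737644419) (nat_lit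 456) (nat_lit 2030140140) (nat_lit 76) (nat_lit 3528827416) (nat_lit 137) (nat_lit 5) (nat_lit 143) (nat_lit 5) (nat_lit 138) (nat_lit 4) (nat_lit 459) (nat_lit 376) (nat_lit 365)) (XT.lf (nat_lit 0) (nat_lit 819840158) (nat_lit 304) (nat_lit 477719897) (nat_lit 380) (nat_lit 9145393969) (nat_lit 128) (nat_lit 5) (nat_lit 132) (nat_lit 5) (nat_lit 133) (nat_lit 5) (nat_lit 460) (nat_lit 376) (nat_lit 364)))) (XT.nd (nat_lit 156) (nat_lit 836) (nat_lit 0) (XT.nd (nat_lit 78) (nat_lit 380) (nat_lit 0) (XT.lf (nat_lit 0) (nat_lit 3701998697) (nat_lit 304) (nat_lit 4601861786) (nat_lit 380) (nat_lit 2288702945) (nat_lit 124) (nat_lit 5) (nat_lit 128) (nat_lit 5) (nat_lit 129) (nat_lit 4) (nat_lit 461) (nat_lit 376) (nat_lit 363)) (XT.lf (nat_lit 0) (nat_lit 4695294818) (nat_lit 380) (nat_lit 4127664017) (nat_lit 76) (nat_lit 1923401954) (nat_lit 119) (nat_lit 5) (nat_lit 124) (nat_lit 5) (nat_lit 120)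 (nat_lit 4) (nat_lit 462) (nat_lit 376) (nat_lit 362))) (XT.nd (nat_lit 78) (nat_lit 532) (nat_lit 0) (XT.lf (nat_lit 0) (nat_lit 942506146) (nat_lit 304) (nat_lit 1340135440) (nat_lit 76) (nat_lit 8621672587) (nat_lit 115) (nat_lit 5) (nat_lit 119) (nat_lit 5) (nat_lit 116) (nat_lit 5) (nat_lit 463) (nat_lit 376) (nat_lit 361)) (XT.lf (nat_lit 0) (nat_lit 1473668213) (nat_lit 228) (nat_lit 6602290227) (nat_lit 304) (nat_lit 2990005639) (nat_lit 108) (nat_lit 5) (nat_lit 111) (nat_lit 5) (nat_lit 112) (nat_lit 4) (nat_lit 464) (nat_lit 376) (nat_lit 360))))))))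
noncomputable def xc8 : XT := (XT.nd (nat_lit 61152) (nat_lit 0) (nat_lit 3344) (XT.nd (nat_lit 1014) (nat_lit 2584) (nat_lit 0) (XT.nd (nat_lit 468) (nat_lit 1976) (nat_lit 0) (XT.nd (nat_lit 234) (nat_lit 1064) (nat_lit 0) (XT.nd (nat_lit 78) (nat_lit 608) (nat_lit 0) (XT.lf (nat_lit 0) (nat_lit 4136396425) (nat_lit 380) (nat_lit 6894026487) (nat_lit 76) (nat_lit 201491516) (nat_lit 103) (nat_lit 5) (nat_lit 108) (nat_lit 5) (nat_lit 104) (nat_lit 4) (nat_lit 465) (nat_lit 376) (nat_lit 359)) (XT.nd (nat_lit 78) (nat_lit 304) (nat_lit 0) (XT.lf (nat_lit 0) (nat_lit 54557941) (nat_lit 304) (nat_lit 4188514504) (nat_lit 76) (nat_lit 7158944866) (nat_lit 99) (nat_lit 5) (nat_lit 103) (nat_lit 5) (nat_lit 100) (nat_lit 5) (nat_lit 466) (nat_lit 376) (nat_lit 358)) (XT.lf (nat_lit 0) (nat_lit 7320541075) (nat_lit 380) (nat_lit 1477625887) (nat_lit 76) (nat_lit 2778165300) (nat_lit 95) (nat_lit 5) (nat_lit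 100) (nat_lit 5) (nat_lit 96) (nat_lit 4) (nat_lit 467) (nat_lit 376) (nat_lit 357)))) (XT.nd (nat_lit 78) (nat_lit 532) (nat_lit 0) (XT.lf (nat_lit 0) (nat_lit 1271840601) (nat_lit 228) (nat_lit 1754746389) (nat_lit 304) (nat_lit 8728537894) (nat_lit 88) (nat_lit 5) (nat_lit 91) (nat_lit 5) (nat_lit 92) (nat_lit 5) (nat_lit 468) (nat_lit 376) (nat_lit 356)) (XT.nd (nat_lit 78) (nat_lit 304) (nat_lit 0) (XT.lf (nat_lit 0) (nat_lit 4046418203) (nat_lit 228) (nat_lit 6452312794) (nat_lit 304) (nat_lit 1439408268) (nat_lit 85) (nat_lit 5) (nat_lit 88) (nat_lit 5) (nat_lit 89) (nat_lit 4) (nat_lit 469) (nat_lit 376) (nat_lit 355)) (XT.lf (nat_lit 0) (nat_lit 5990994068) (nat_lit 304) (nat_lit 5292332628) (nat_lit 76) (nat_lit 842488380) (nat_lit 81) (nat_lit 5) (nat_lit 85) (nat_lit 5) (nat_lit 82) (nat_lit 4) (nat_lit 470) (nat_lit 376) (nat_lit 354))))) (XT.nd (nat_lit 234) (nat_lit 912) (nat_lit 0)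 (XT.nd (nat_lit 78) (nat_lit 760) (nat_lit 0) (XT.lf (nat_lit 0) (nat_lit 1319269829) (nat_lit 304) (nat_lit 2690809136) (nat_lit 76) (nat_lit 8308073461) (nat_lit 77) (nat_lit 5) (nat_lit 81) (nat_lit 5) (nat_lit 78) (nat_lit 5) (nat_lit 471) (nat_lit 376) (nat_lit 353)) (XT.nd (nat_lit 78) (nat_lit 532) (nat_lit 0) (XT.lf (nat_lit 0) (nat_lit 8926234774) (nat_lit 304) (nat_lit 90650324) (nat_lit 76) (nat_lit 3498314315) (nat_lit 74) (nat_lit 5) (nat_lit 78) (nat_lit 5) (nat_lit 75) (nat_lit 4) (nat_lit 472) (nat_lit 376) (nat_lit 352)) (XT.lf (nat_lit 0) (nat_lit 2551213697) (nat_lit 228) (nat_lit 1473798736) (nat_lit 304) (nat_lit 8691926963) (nat_lit 67) (nat_lit 5) (nat_lit 70) (nat_lit 5) (nat_lit 71) (nat_lit 5) (nat_lit 473) (nat_lit 376) (nat_lit 351)))) (XT.nd (nat_lit 156) (nat_lit 456) (nat_lit 0) (XT.nd (nat_lit 78) (nat_lit 304) (nat_lit 0) (XT.lf (nat_lit 0) (nat_lit 5189842162) (nat_lit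 152) (nat_lit 6663443144) (nat_lit 228) (nat_lit 1070281420) (nat_lit 65) (nat_lit 5) (nat_lit 67) (nat_lit 5) (nat_lit 68) (nat_lit 4) (nat_lit 474) (nat_lit 376) (nat_lit 350)) (XT.lf (nat_lit 0) (nat_lit 6703134791) (nat_lit 304) (nat_lit 5308753328) (nat_lit 76) (nat_lit 1123385728) (nat_lit 61) (nat_lit 5) (nat_lit 65) (nat_lit 5) (nat_lit 62) (nat_lit 4) (nat_lit 475) (nat_lit 376) (nat_lit 349))) (XT.nd (nat_lit 78) (nat_lit 228) (nat_lit 0) (XT.lf (nat_lit 0) (nat_lit 1366240697) (nat_lit 228) (nat_lit 2891709385) (nat_lit 76) (nat_lit 9094232065) (nat_lit 58) (nat_lit 5) (nat_lit 61) (nat_lit 5) (nat_lit 59) (nat_lit 5) (nat_lit 476) (nat_lit 376) (nat_lit 348)) (XT.lf (nat_lit 0) (nat_lit 9335211295) (nat_lit 304) (nat_lit 490958247) (nat_lit 76) (nat_lit 3748099343) (nat_lit 55) (nat_lit 5) (nat_lit 59) (nat_lit 5) (nat_lit 56) (nat_lit 4) (nat_lit 477) (nat_lit 376) (nat_lit 347)))))) (XT.nd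 (nat_lit 546) (nat_lit 836) (nat_lit 0) (XT.nd (nat_lit 234) (nat_lit 912) (nat_lit 0) (XT.nd (nat_lit 78) (nat_lit 380) (nat_lit 0) (XT.lf (nat_lit 0) (nat_lit 1931735993) (nat_lit 228) (nat_lit 1801605555) (nat_lit 304) (nat_lit 10068349700) (nat_lit 49) (nat_lit 5) (nat_lit 52) (nat_lit 5) (nat_lit 53) (nat_lit 5) (nat_lit 478) (nat_lit 376) (nat_lit 346)) (XT.nd (nat_lit 78) (nat_lit 228) (nat_lit 0) (XT.lf (nat_lit 0) (nat_lit 4338287198) (nat_lit 152) (nat_lit 7597194647) (nat_lit 228) (nat_lit 2098932707) (nat_lit 47) (nat_lit 5) (nat_lit 49) (nat_lit 5) (nat_lit 50) (nat_lit 4) (nat_lit 479) (nat_lit 376) (nat_lit 345)) (XT.lf (nat_lit 0) (nat_lit 6050387092) (nat_lit 228) (nat_lit 7538292561) (nat_lit 76) (nat_lit 684229396) (nat_lit 44) (nat_lit 5) (nat_lit 47) (nat_lit 5) (nat_lit 45) (nat_lit 4) (nat_lit 480) (nat_lit 376) (nat_lit 344)))) (XT.nd (nat_lit 156) (nat_lit 532) (nat_lit 0)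 (XT.nd (nat_lit 78) (nat_lit 228) (nat_lit 0) (XT.lf (nat_lit 0) (nat_lit 9110123631) (nat_lit 152) (nat_lit 5362945031) (nat_lit 228) (nat_lit 44066027) (nat_lit 42) (nat_lit 5) (nat_lit 44) (nat_lit 5) (nat_lit 45) (nat_lit 4) (nat_lit 481) (nat_lit 376) (nat_lit 343)) (XT.lf (nat_lit 0) (nat_lit 8298937178) (nat_lit 228) (nat_lit 3314806613) (nat_lit 76) (nat_lit 3153274931) (nat_lit 39) (nat_lit 5) (nat_lit 42) (nat_lit 5) (nat_lit 40) (nat_lit 4) (nat_lit 482) (nat_lit 376) (nat_lit 342))) (XT.nd (nat_lit 78) (nat_lit 304) (nat_lit 0) (XT.lf (nat_lit 0) (nat_lit 1889243582) (nat_lit 228) (nat_lit 1237831623) (nat_lit 76) (nat_lit 11896147484) (nat_lit 36) (nat_lit 5) (nat_lit 39) (nat_lit 5) (nat_lit 37) (nat_lit 5) (nat_lit 483) (nat_lit 376) (nat_lit 341)) (XT.lf (nat_lit 0) (nat_lit 800670499) (nat_lit 152) (nat_lit 9663730511) (nat_lit 228) (nat_lit 4820758460) (nat_lit 32) (nat_lit 5) (nat_lit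 34) (nat_lit 5) (nat_lit 35) (nat_lit 4) (nat_lit 484) (nat_lit 376) (nat_lit 340))))) (XT.nd (nat_lit 234) (nat_lit 304) (nat_lit 0) (XT.nd (nat_lit 78) (nat_lit 304) (nat_lit 0) (XT.lf (nat_lit 0) (nat_lit 2838126855) (nat_lit 152) (nat_lit 897863868) (nat_lit 228) (nat_lit 11817615066) (nat_lit 29) (nat_lit 5) (nat_lit 31) (nat_lit 5) (nat_lit 32) (nat_lit 5) (nat_lit 485) (nat_lit 376) (nat_lit 339)) (XT.nd (nat_lit 78) (nat_lit 228) (nat_lit 0) (XT.lf (nat_lit 0) (nat_lit 4815220776) (nat_lit 76) (nat_lit 7737657282) (nat_lit 152) (nat_lit 3275212946) (nat_lit 28) (nat_lit 5) (nat_lit 29) (nat_lit 5) (nat_lit 30) (nat_lit 4) (nat_lit 486) (nat_lit 376) (nat_lit 338)) (XT.lf (nat_lit 0) (nat_lit 5483080538) (nat_lit 228) (nat_lit 9345706504) (nat_lit 76) (nat_lit 1280666644) (nat_lit 25) (nat_lit 5) (nat_lit 28) (nat_lit 5) (nat_lit 26) (nat_lit 4) (nat_lit 487) (nat_lit 376) (nat_lit 337)))) (XT.nd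 (nat_lit 59202) (nat_lit 0) (nat_lit 15276) (XT.nd (nat_lit 78) (nat_lit 228) (nat_lit 0) (XT.lf (nat_lit 0) (nat_lit 8657014769) (nat_lit 76) (nat_lit 5874184355) (nat_lit 152) (nat_lit 1866194986) (nat_lit 24) (nat_lit 5) (nat_lit 25) (nat_lit 5) (nat_lit 26) (nat_lit 4) (nat_lit 488) (nat_lit 376) (nat_lit 336)) (XT.lf (nat_lit 0) (nat_lit 7106708857) (nat_lit 228) (nat_lit 6195910090) (nat_lit 76) (nat_lit 3389550066) (nat_lit 21) (nat_lit 5) (nat_lit 24) (nat_lit 5) (nat_lit 22) (nat_lit 4) (nat_lit 489) (nat_lit 376) (nat_lit 335))) (XT.nd (nat_lit 78) (nat_lit 1064) (nat_lit 0) (XT.lf (nat_lit 0) (nat_lit 2058488178) (nat_lit 532) (nat_lit 242757027) (nat_lit 0) (nat_lit 2058488178) (nat_lit 236) (nat_lit 5) (nat_lit 243) (nat_lit 4) (nat_lit 236) (nat_lit 4) (nat_lit 446) (nat_lit 377) (nat_lit 377)) (XT.lf (nat_lit 0) (nat_lit 1793462268) (nat_lit 532) (nat_lit 6675411381) (nat_lit 0) (nat_lit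 353334312) (nat_lit 222) (nat_lit 5) (nat_lit 229) (nat_lit 4) (nat_lit 222) (nat_lit 4) (nat_lit 447) (nat_lit 377) (nat_lit 376))))))) (XT.nd (nat_lit 1014) (nat_lit 5092) (nat_lit 0) (XT.nd (nat_lit 468) (nat_lit 3572) (nat_lit 0) (XT.nd (nat_lit 234) (nat_lit 1368) (nat_lit 0) (XT.nd (nat_lit 78) (nat_lit 1444) (nat_lit 0) (XT.lf (nat_lit 0) (nat_lit 4817233749) (nat_lit 456) (nat_lit 3474523308) (nat_lit 456) (nat_lit 636212870) (nat_lit 216) (nat_lit 4) (nat_lit 222) (nat_lit 5) (nat_lit 222) (nat_lit 4) (nat_lit 448) (nat_lit 377) (nat_lit 375)) (XT.nd (nat_lit 78) (nat_lit 912) (nat_lit 0) (XT.lf (nat_lit 0) (nat_lit 5822299066) (nat_lit 532) (nat_lit 1505995669) (nat_lit 0) (nat_lit 1708799892) (nat_lit 209) (nat_lit 5) (nat_lit 216) (nat_lit 4) (nat_lit 209) (nat_lit 4) (nat_lit 449) (nat_lit 377) (nat_lit 374)) (XT.lf (nat_lit 0) (nat_lit 1154509366) (nat_lit 380) (nat_lit 2093058969) (nat_lit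 456) (nat_lit 5901925148) (nat_lit 197) (nat_lit 5) (nat_lit 202) (nat_lit 5) (nat_lit 203) (nat_lit 4) (nat_lit 450) (nat_lit 377) (nat_lit 373)))) (XT.nd (nat_lit 78) (nat_lit 836) (nat_lit 0) (XT.lf (nat_lit 0) (nat_lit 565595742) (nat_lit 532) (nat_lit 5386932664) (nat_lit 76) (nat_lit 3312677199) (nat_lit 190) (nat_lit 5) (nat_lit 197) (nat_lit 5) (nat_lit 191) (nat_lit 4) (nat_lit 451) (nat_lit 377) (nat_lit 372)) (XT.nd (nat_lit 78) (nat_lit 456) (nat_lit 0) (XT.lf (nat_lit 0) (nat_lit 6638713042) (nat_lit 380) (nat_lit 471275764) (nat_lit 456) (nat_lit 2274365177) (nat_lit 185) (nat_lit 5) (nat_lit 190) (nat_lit 5) (nat_lit 191) (nat_lit 4) (nat_lit 452) (nat_lit 377) (nat_lit 371)) (XT.lf (nat_lit 0) (nat_lit 4271608873) (nat_lit 456) (nat_lit 79894299) (nat_lit 76) (nat_lit 5155316275) (nat_lit 179) (nat_lit 5) (nat_lit 185) (nat_lit 5) (nat_lit 180) (nat_lit 4) (nat_lit 453) (nat_lit 377)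 (nat_lit 370))))) (XT.nd (nat_lit 234) (nat_lit 1900) (nat_lit 0) (XT.nd (nat_lit 78) (nat_lit 836) (nat_lit 0) (XT.lf (nat_lit 0) (nat_lit 1315727523) (nat_lit 456) (nat_lit 6961801031) (nat_lit 76) (nat_lit 1355298811) (nat_lit 168) (nat_lit 5) (nat_lit 174) (nat_lit 5) (nat_lit 169) (nat_lit 4) (nat_lit 454) (nat_lit 377) (nat_lit 369)) (XT.nd (nat_lit 78) (nat_lit 456) (nat_lit 0) (XT.lf (nat_lit 0) (nat_lit 5445476783) (nat_lit 380) (nat_lit 2532405082) (nat_lit 456) (nat_lit 1784330326) (nat_lit 163) (nat_lit 5) (nat_lit 168) (nat_lit 5) (nat_lit 169) (nat_lit 4) (nat_lit 455) (nat_lit 377) (nat_lit 368)) (XT.lf (nat_lit 0) (nat_lit 4859922059) (nat_lit 456) (nat_lit 1643279046) (nat_lit 76) (nat_lit 3392033277) (nat_lit 157) (nat_lit 5) (nat_lit 163) (nat_lit 5) (nat_lit 158) (nat_lit 4) (nat_lit 456) (nat_lit 377) (nat_lit 367)))) (XT.nd (nat_lit 156) (nat_lit 836) (nat_lit 0) (XT.nd (nat_lit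 78) (nat_lit 304) (nat_lit 0) (XT.lf (nat_lit 0) (nat_lit 1087399043) (nat_lit 380) (nat_lit 522844481) (nat_lit 456) (nat_lit 8421866519) (nat_lit 147) (nat_lit 5) (nat_lit 152) (nat_lit 5) (nat_lit 153) (nat_lit 5) (nat_lit 457) (nat_lit 377) (nat_lit 366)) (XT.lf (nat_lit 0) (nat_lit 3852186526) (nat_lit 304) (nat_lit 4545419633) (nat_lit 380) (nat_lit 1774607582) (nat_lit 143) (nat_lit 5) (nat_lit 147) (nat_lit 5) (nat_lit 148) (nat_lit 4) (nat_lit 458) (nat_lit 377) (nat_lit 365))) (XT.nd (nat_lit 78) (nat_lit 380) (nat_lit 0) (XT.lf (nat_lit 0) (nat_lit 4984731761) (nat_lit 456) (nat_lit 3664074375) (nat_lit 76) (nat_lit 1667476338) (nat_lit 137) (nat_lit 5) (nat_lit 143) (nat_lit 5) (nat_lit 138) (nat_lit 4) (nat_lit 459) (nat_lit 377) (nat_lit 364)) (XT.lf (nat_lit 0) (nat_lit 1436924876) (nat_lit 380) (nat_lit 981467671) (nat_lit 76) (nat_lit 8045905815) (nat_lit 132) (nat_lit 5) (nat_lit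 137) (nat_lit 5) (nat_lit 133) (nat_lit 5) (nat_lit 460) (nat_lit 377) (nat_lit 363)))))) (XT.nd (nat_lit 546) (nat_lit 2280) (nat_lit 0) (XT.nd (nat_lit 234) (nat_lit 1520) (nat_lit 0) (XT.nd (nat_lit 78) (nat_lit 684) (nat_lit 0) (XT.lf (nat_lit 0) (nat_lit 1740247100) (nat_lit 304) (nat_lit 6603210912) (nat_lit 380) (nat_lit 2272447025) (nat_lit 124) (nat_lit 5) (nat_lit 128) (nat_lit 5) (nat_lit 129) (nat_lit 4) (nat_lit 461) (nat_lit 377) (nat_lit 362)) (XT.nd (nat_lit 78) (nat_lit 304) (nat_lit 0) (XT.lf (nat_lit 0) (nat_lit 4506631345) (nat_lit 304) (nat_lit 111139540) (nat_lit 380) (nat_lit 6153802567) (nat_lit 119) (nat_lit 5) (nat_lit 123) (nat_lit 5) (nat_lit 124) (nat_lit 5) (nat_lit 462) (nat_lit 377) (nat_lit 361)) (XT.lf (nat_lit 0) (nat_lit 758902430) (nat_lit 304) (nat_lit 3643323391) (nat_lit 76) (nat_lit 6528960388) (nat_lit 115) (nat_lit 5) (nat_lit 119) (nat_lit 5) (nat_lit 116)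 (nat_lit 5) (nat_lit 463) (nat_lit 377) (nat_lit 360)))) (XT.nd (nat_lit 156) (nat_lit 608) (nat_lit 0) (XT.nd (nat_lit 78) (nat_lit 608) (nat_lit 0) (XT.lf (nat_lit 0) (nat_lit 7787373920) (nat_lit 380) (nat_lit 1005449411) (nat_lit 76) (nat_lit 2302114092) (nat_lit 111) (nat_lit 5) (nat_lit 116) (nat_lit 5) (nat_lit 112) (nat_lit 4) (nat_lit 464) (nat_lit 377) (nat_lit 359)) (XT.lf (nat_lit 0) (nat_lit 1673066538) (nat_lit 304) (nat_lit 2059024841) (nat_lit 380) (nat_lit 7530657479) (nat_lit 103) (nat_lit 5) (nat_lit 107) (nat_lit 5) (nat_lit 108) (nat_lit 5) (nat_lit 465) (nat_lit 377) (nat_lit 358))) (XT.nd (nat_lit 78) (nat_lit 380) (nat_lit 0) (XT.lf (nat_lit 0) (nat_lit 4383552976) (nat_lit 228) (nat_lit 6572989548) (nat_lit 304) (nat_lit 478247158) (nat_lit 100) (nat_lit 5) (nat_lit 103) (nat_lit 5) (nat_lit 104) (nat_lit 4) (nat_lit 466) (nat_lit 377) (nat_lit 357)) (XT.lf (nat_lit 0) (nat_lit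 6694934748) (nat_lit 380) (nat_lit 4505597752) (nat_lit 76) (nat_lit 410617194) (nat_lit 95) (nat_lit 5) (nat_lit 100) (nat_lit 5) (nat_lit 96) (nat_lit 4) (nat_lit 467) (nat_lit 377) (nat_lit 356))))) (XT.nd (nat_lit 234) (nat_lit 1216) (nat_lit 0) (XT.nd (nat_lit 78) (nat_lit 760) (nat_lit 0) (XT.lf (nat_lit 0) (nat_lit 2282277445) (nat_lit 304) (nat_lit 1955292898) (nat_lit 76) (nat_lit 7554310095) (nat_lit 91) (nat_lit 5) (nat_lit 95) (nat_lit 5) (nat_lit 92) (nat_lit 5) (nat_lit 468) (nat_lit 377) (nat_lit 355)) (XT.nd (nat_lit 78) (nat_lit 304) (nat_lit 0) (XT.lf (nat_lit 0) (nat_lit 616916231) (nat_lit 228) (nat_lit 9022789432) (nat_lit 304) (nat_lit 2337484847) (nat_lit 85) (nat_lit 5) (nat_lit 88) (nat_lit 5) (nat_lit 89) (nat_lit 4) (nat_lit 469) (nat_lit 377) (nat_lit 354)) (XT.lf (nat_lit 0) (nat_lit 3219301645) (nat_lit 228) (nat_lit 1793695232) (nat_lit 304) (nat_lit 7153821352) (nat_lit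 81) (nat_lit 5) (nat_lit 84) (nat_lit 5) (nat_lit 85) (nat_lit 5) (nat_lit 470) (nat_lit 377) (nat_lit 353)))) (XT.nd (nat_lit 156) (nat_lit 684) (nat_lit 0) (XT.nd (nat_lit 78) (nat_lit 228) (nat_lit 0) (XT.lf (nat_lit 0) (nat_lit 214820086) (nat_lit 304) (nat_lit 6528704833) (nat_lit 76) (nat_lit 5617740502) (nat_lit 77) (nat_lit 5) (nat_lit 81) (nat_lit 5) (nat_lit 78) (nat_lit 5) (nat_lit 471) (nat_lit 377) (nat_lit 352)) (XT.lf (nat_lit 0) (nat_lit 7716476153) (nat_lit 304) (nat_lit 4115454311) (nat_lit 76) (nat_lit 728489331) (nat_lit 74) (nat_lit 5) (nat_lit 78) (nat_lit 5) (nat_lit 75) (nat_lit 4) (nat_lit 472) (nat_lit 377) (nat_lit 351))) (XT.nd (nat_lit 78) (nat_lit 380) (nat_lit 0) (XT.lf (nat_lit 0) (nat_lit 2681829965) (nat_lit 304) (nat_lit 1707194972) (nat_lit 76) (nat_lit 8375392211) (nat_lit 70) (nat_lit 5) (nat_lit 74) (nat_lit 5) (nat_lit 71) (nat_lit 5) (nat_lit 473) (nat_lit 377)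 (nat_lit 350)) (XT.lf (nat_lit 0) (nat_lit 712969102) (nat_lit 152) (nat_lit 9677175254) (nat_lit 228) (nat_lit 2583300409) (nat_lit 65) (nat_lit 5) (nat_lit 67) (nat_lit 5) (nat_lit 68) (nat_lit 4) (nat_lit 474) (nat_lit 377) (nat_lit 349))))))))
noncomputable def xc9 : XT := (XT.nd (nat_lit 60918) (nat_lit 0) (nat_lit 1596) (XT.nd (nat_lit 1014) (nat_lit 532) (nat_lit 0) (XT.nd (nat_lit 468) (nat_lit 1292) (nat_lit 0) (XT.nd (nat_lit 234) (nat_lit 836) (nat_lit 0) (XT.nd (nat_lit 78) (nat_lit 456) (nat_lit 0) (XT.lf (nat_lit 0) (nat_lit 3148275178) (nat_lit 228) (nat_lit 1963891024) (nat_lit 304) (nat_lit 8075139081) (nat_lit 61) (nat_lit 5) (nat_lit 64) (nat_lit 5) (nat_lit 65) (nat_lit 5) (nat_lit 475) (nat_lit 377) (nat_lit 348)) (XT.nd (nat_lit 78) (nat_lit 304) (nat_lit 0) (XT.lf (nat_lit 0) (nat_lit 5581470990) (nat_lit 152) (nat_lit 7460609814) (nat_lit 228) (nat_lit 364387777) (nat_lit 59)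 (nat_lit 5) (nat_lit 61) (nat_lit 5) (nat_lit 62) (nat_lit 4) (nat_lit 476) (nat_lit 377) (nat_lit 347)) (XT.lf (nat_lit 0) (nat_lit 7496329161) (nat_lit 304) (nat_lit 5629233362) (nat_lit 76) (nat_lit 505301750) (nat_lit 55) (nat_lit 5) (nat_lit 59) (nat_lit 5) (nat_lit 56) (nat_lit 4) (nat_lit 477) (nat_lit 377) (nat_lit 346)))) (XT.nd (nat_lit 78) (nat_lit 608) (nat_lit 0) (XT.lf (nat_lit 0) (nat_lit 1757242553) (nat_lit 228) (nat_lit 3451799041) (nat_lit 76) (nat_lit 8651601732) (nat_lit 52) (nat_lit 5) (nat_lit 55) (nat_lit 5) (nat_lit 53) (nat_lit 5) (nat_lit 478) (nat_lit 377) (nat_lit 345)) (XT.nd (nat_lit 78) (nat_lit 380) (nat_lit 0) (XT.lf (nat_lit 0) (nat_lit 9828048326) (nat_lit 304) (nat_lit 1291166485) (nat_lit 76) (nat_lit 2976779418) (nat_lit 49) (nat_lit 5) (nat_lit 53) (nat_lit 5) (nat_lit 50) (nat_lit 4) (nat_lit 479) (nat_lit 377) (nat_lit 344)) (XT.lf (nat_lit 0) (nat_lit 862853587)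 (nat_lit 152) (nat_lit 2938215355) (nat_lit 228) (nat_lit 10535877341) (nat_lit 44) (nat_lit 5) (nat_lit 46) (nat_lit 5) (nat_lit 47) (nat_lit 5) (nat_lit 480) (nat_lit 377) (nat_lit 343))))) (XT.nd (nat_lit 234) (nat_lit 760) (nat_lit 0) (XT.nd (nat_lit 78) (nat_lit 380) (nat_lit 0) (XT.lf (nat_lit 0) (nat_lit 3009200682) (nat_lit 152) (nat_lit 9099016358) (nat_lit 228) (nat_lit 2475266393) (nat_lit 42) (nat_lit 5) (nat_lit 44) (nat_lit 5) (nat_lit 45) (nat_lit 4) (nat_lit 481) (nat_lit 377) (nat_lit 342)) (XT.nd (nat_lit 78) (nat_lit 152) (nat_lit 0) (XT.lf (nat_lit 0) (nat_lit 5135520767) (nat_lit 152) (nat_lit 645981041) (nat_lit 228) (nat_lit 9054544571) (nat_lit 39) (nat_lit 5) (nat_lit 41) (nat_lit 5) (nat_lit 42) (nat_lit 5) (nat_lit 482) (nat_lit 377) (nat_lit 341)) (XT.lf (nat_lit 0) (nat_lit 7228003750) (nat_lit 152) (nat_lit 7089983022) (nat_lit 228) (nat_lit 776560928) (nat_lit 37) (nat_lit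 5) (nat_lit 39) (nat_lit 5) (nat_lit 40) (nat_lit 4) (nat_lit 483) (nat_lit 377) (nat_lit 340)))) (XT.nd (nat_lit 156) (nat_lit 304) (nat_lit 0) (XT.nd (nat_lit 78) (nat_lit 228) (nat_lit 0) (XT.lf (nat_lit 0) (nat_lit 7678033868) (nat_lit 228) (nat_lit 6071369089) (nat_lit 76) (nat_lit 1609798048) (nat_lit 34) (nat_lit 5) (nat_lit 37) (nat_lit 5) (nat_lit 35) (nat_lit 4) (nat_lit 484) (nat_lit 377) (nat_lit 339)) (XT.lf (nat_lit 0) (nat_lit 799144173) (nat_lit 228) (nat_lit 4310477482) (nat_lit 76) (nat_lit 10520676861) (nat_lit 31) (nat_lit 5) (nat_lit 34) (nat_lit 5) (nat_lit 32) (nat_lit 5) (nat_lit 485) (nat_lit 377) (nat_lit 338))) (XT.nd (nat_lit 78) (nat_lit 152) (nat_lit 0) (XT.lf (nat_lit 0) (nat_lit 9474211069) (nat_lit 228) (nat_lit 2605319081) (nat_lit 76) (nat_lit 3828090672) (nat_lit 29) (nat_lit 5) (nat_lit 32) (nat_lit 5) (nat_lit 30) (nat_lit 4) (nat_lit 486) (nat_lit 377) (nat_lit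 337)) (XT.lf (nat_lit 0) (nat_lit 2242574912) (nat_lit 152) (nat_lit 931737212) (nat_lit 76) (nat_lit 13017556714) (nat_lit 27) (nat_lit 5) (nat_lit 29) (nat_lit 5) (nat_lit 28) (nat_lit 5) (nat_lit 487) (nat_lit 377) (nat_lit 336)))))) (XT.nd (nat_lit 59358) (nat_lit 0) (nat_lit 11248) (XT.nd (nat_lit 59046) (nat_lit 0) (nat_lit 15352) (XT.nd (nat_lit 78) (nat_lit 304) (nat_lit 0) (XT.lf (nat_lit 0) (nat_lit 682706942) (nat_lit 76) (nat_lit 10475984474) (nat_lit 152) (nat_lit 5323758520) (nat_lit 24) (nat_lit 5) (nat_lit 25) (nat_lit 5) (nat_lit 26) (nat_lit 4) (nat_lit 488) (nat_lit 377) (nat_lit 335)) (XT.nd (nat_lit 78) (nat_lit 76) (nat_lit 0) (XT.lf (nat_lit 0) (nat_lit 2274916357) (nat_lit 152) (nat_lit 1290872074) (nat_lit 228) (nat_lit 13214460051) (nat_lit 21) (nat_lit 5) (nat_lit 23) (nat_lit 5) (nat_lit 24) (nat_lit 5) (nat_lit 489) (nat_lit 377) (nat_lit 334)) (XT.lf (nat_lit 0) (nat_lit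 3784197977) (nat_lit 76) (nat_lit 8945194496) (nat_lit 152) (nat_lit 4355291904) (nat_lit 20) (nat_lit 5) (nat_lit 21) (nat_lit 5) (nat_lit 22) (nat_lit 4) (nat_lit 490) (nat_lit 377) (nat_lit 333)))) (XT.nd (nat_lit 156) (nat_lit 1596) (nat_lit 0) (XT.nd (nat_lit 78) (nat_lit 532) (nat_lit 0) (XT.lf (nat_lit 0) (nat_lit 773141918) (nat_lit 608) (nat_lit 2714816331) (nat_lit 0) (nat_lit 773141918) (nat_lit 250) (nat_lit 5) (nat_lit 258) (nat_lit 4) (nat_lit 250) (nat_lit 4) (nat_lit 444) (nat_lit 378) (nat_lit 378)) (XT.lf (nat_lit 0) (nat_lit 5588620047) (nat_lit 532) (nat_lit 2287333935) (nat_lit 532) (nat_lit 744075536) (nat_lit 243) (nat_lit 4) (nat_lit 250) (nat_lit 5) (nat_lit 250) (nat_lit 4) (nat_lit 445) (nat_lit 378) (nat_lit 377))) (XT.nd (nat_lit 78) (nat_lit 1064) (nat_lit 0) (XT.lf (nat_lit 0) (nat_lit 5553259573) (nat_lit 532) (nat_lit 596414419) (nat_lit 0) (nat_lit 2571330627) (nat_lit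 236) (nat_lit 5) (nat_lit 243) (nat_lit 4) (nat_lit 236) (nat_lit 4) (nat_lit 446) (nat_lit 378) (nat_lit 376)) (XT.lf (nat_lit 0) (nat_lit 1912719072) (nat_lit 456) (nat_lit 1216386942) (nat_lit 532) (nat_lit 5696062562) (nat_lit 222) (nat_lit 5) (nat_lit 228) (nat_lit 5) (nat_lit 229) (nat_lit 4) (nat_lit 447) (nat_lit 378) (nat_lit 375))))) (XT.nd (nat_lit 234) (nat_lit 2204) (nat_lit 0) (XT.nd (nat_lit 78) (nat_lit 1368) (nat_lit 0) (XT.lf (nat_lit 0) (nat_lit 602235922) (nat_lit 532) (nat_lit 4462584389) (nat_lit 76) (nat_lit 3867725005) (nat_lit 215) (nat_lit 5) (nat_lit 222) (nat_lit 5) (nat_lit 216) (nat_lit 4) (nat_lit 448) (nat_lit 378) (nat_lit 374)) (XT.nd (nat_lit 78) (nat_lit 912) (nat_lit 0) (XT.lf (nat_lit 0) (nat_lit 6965368644) (nat_lit 532) (nat_lit 1972419466) (nat_lit 0) (nat_lit 105543114) (nat_lit 209) (nat_lit 5) (nat_lit 216) (nat_lit 4) (nat_lit 209) (nat_lit 4) (nat_lit 449)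 (nat_lit 378) (nat_lit 373)) (XT.lf (nat_lit 0) (nat_lit 549637606) (nat_lit 380) (nat_lit 3739426378) (nat_lit 456) (nat_lit 4868129995) (nat_lit 197) (nat_lit 5) (nat_lit 202) (nat_lit 5) (nat_lit 203) (nat_lit 4) (nat_lit 450) (nat_lit 378) (nat_lit 372)))) (XT.nd (nat_lit 156) (nat_lit 1292) (nat_lit 0) (XT.nd (nat_lit 78) (nat_lit 380) (nat_lit 0) (XT.lf (nat_lit 0) (nat_lit 1497656869) (nat_lit 532) (nat_lit 6123929685) (nat_lit 76) (nat_lit 1652951645) (nat_lit 190) (nat_lit 5) (nat_lit 197) (nat_lit 5) (nat_lit 191) (nat_lit 4) (nat_lit 451) (nat_lit 378) (nat_lit 371)) (XT.lf (nat_lit 0) (nat_lit 5781240189) (nat_lit 380) (nat_lit 2183951647) (nat_lit 456) (nat_lit 1430034647) (nat_lit 185) (nat_lit 5) (nat_lit 190) (nat_lit 5) (nat_lit 191) (nat_lit 4) (nat_lit 452) (nat_lit 378) (nat_lit 370))) (XT.nd (nat_lit 78) (nat_lit 836) (nat_lit 0) (XT.lf (nat_lit 0) (nat_lit 5016653013) (nat_lit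 456) (nat_lit 1076099634) (nat_lit 76) (nat_lit 3426596529) (nat_lit 179) (nat_lit 5) (nat_lit 185) (nat_lit 5) (nat_lit 180) (nat_lit 4) (nat_lit 453) (nat_lit 378) (nat_lit 369)) (XT.lf (nat_lit 0) (nat_lit 1528047013) (nat_lit 380) (nat_lit 417154603) (nat_lit 456) (nat_lit 7701931510) (nat_lit 168) (nat_lit 5) (nat_lit 173) (nat_lit 5) (nat_lit 174) (nat_lit 5) (nat_lit 454) (nat_lit 378) (nat_lit 368))))))) (XT.nd (nat_lit 1092) (nat_lit 3800) (nat_lit 0) (XT.nd (nat_lit 546) (nat_lit 2812) (nat_lit 0) (XT.nd (nat_lit 234) (nat_lit 1824) (nat_lit 0) (XT.nd (nat_lit 78) (nat_lit 836) (nat_lit 0) (XT.lf (nat_lit 0) (nat_lit 4164612415) (nat_lit 380) (nat_lit 4362372608) (nat_lit 456) (nat_lit 1251142763) (nat_lit 163) (nat_lit 5) (nat_lit 168) (nat_lit 5) (nat_lit 169) (nat_lit 4) (nat_lit 455) (nat_lit 378) (nat_lit 367)) (XT.nd (nat_lit 78) (nat_lit 380) (nat_lit 0) (XT.lf (nat_lit 0) (nat_lit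 5296188802) (nat_lit 456) (nat_lit 3076092018) (nat_lit 76) (nat_lit 1540600776) (nat_lit 157) (nat_lit 5) (nat_lit 163) (nat_lit 5) (nat_lit 158) (nat_lit 4) (nat_lit 456) (nat_lit 378) (nat_lit 366)) (XT.lf (nat_lit 0) (nat_lit 1938224547) (nat_lit 380) (nat_lit 509507204) (nat_lit 76) (nat_lit 7603676300) (nat_lit 152) (nat_lit 5) (nat_lit 157) (nat_lit 5) (nat_lit 153) (nat_lit 5) (nat_lit 457) (nat_lit 378) (nat_lit 365)))) (XT.nd (nat_lit 156) (nat_lit 684) (nat_lit 0) (XT.nd (nat_lit 78) (nat_lit 456) (nat_lit 0) (XT.lf (nat_lit 0) (nat_lit 2109214114) (nat_lit 304) (nat_lit 6521611372) (nat_lit 380) (nat_lit 1562583619) (nat_lit 143) (nat_lit 5) (nat_lit 147) (nat_lit 5) (nat_lit 148) (nat_lit 4) (nat_lit 458) (nat_lit 378) (nat_lit 364)) (XT.lf (nat_lit 0) (nat_lit 4764244077) (nat_lit 380) (nat_lit 339683836) (nat_lit 456) (nat_lit 5235325356) (nat_lit 137) (nat_lit 5) (nat_lit 142) (nat_lit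 5) (nat_lit 143) (nat_lit 5) (nat_lit 459) (nat_lit 378) (nat_lit 363))) (XT.nd (nat_lit 78) (nat_lit 304) (nat_lit 0) (XT.lf (nat_lit 0) (nat_lit 1450109411) (nat_lit 380) (nat_lit 3049663150) (nat_lit 76) (nat_lit 5989121600) (nat_lit 132) (nat_lit 5) (nat_lit 137) (nat_lit 5) (nat_lit 133) (nat_lit 5) (nat_lit 460) (nat_lit 378) (nat_lit 362)) (XT.lf (nat_lit 0) (nat_lit 8252181526) (nat_lit 380) (nat_lit 499076012) (nat_lit 76) (nat_lit 1891334386) (nat_lit 128) (nat_lit 5) (nat_lit 133) (nat_lit 5) (nat_lit 129) (nat_lit 4) (nat_lit 461) (nat_lit 378) (nat_lit 361))))) (XT.nd (nat_lit 234) (nat_lit 1520) (nat_lit 0) (XT.nd (nat_lit 78) (nat_lit 608) (nat_lit 0) (XT.lf (nat_lit 0) (nat_lit 2094429427) (nat_lit 304) (nat_lit 2322797312) (nat_lit 380) (nat_lit 6382733253) (nat_lit 119) (nat_lit 5) (nat_lit 123) (nat_lit 5) (nat_lit 124) (nat_lit 5) (nat_lit 462) (nat_lit 378) (nat_lit 360)) (XT.nd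 (nat_lit 78) (nat_lit 304) (nat_lit 0) (XT.lf (nat_lit 0) (nat_lit 437074370) (nat_lit 304) (nat_lit 6239290161) (nat_lit 76) (nat_lit 4285157634) (nat_lit 115) (nat_lit 5) (nat_lit 119) (nat_lit 5) (nat_lit 116) (nat_lit 5) (nat_lit 463) (nat_lit 378) (nat_lit 359)) (XT.lf (nat_lit 0) (nat_lit 7366069530) (nat_lit 304) (nat_lit 3075045) (nat_lit 380) (nat_lit 3758058473) (nat_lit 111) (nat_lit 5) (nat_lit 115) (nat_lit 5) (nat_lit 116) (nat_lit 5) (nat_lit 464) (nat_lit 378) (nat_lit 358)))) (XT.nd (nat_lit 156) (nat_lit 684) (nat_lit 0) (XT.nd (nat_lit 78) (nat_lit 532) (nat_lit 0) (XT.lf (nat_lit 0) (nat_lit 3194666494) (nat_lit 304) (nat_lit 1279217445) (nat_lit 76) (nat_lit 6823047371) (nat_lit 107) (nat_lit 5) (nat_lit 111) (nat_lit 5) (nat_lit 108) (nat_lit 5) (nat_lit 465) (nat_lit 378) (nat_lit 357)) (XT.lf (nat_lit 0) (nat_lit 1246835873) (nat_lit 228) (nat_lit 9064935450) (nat_lit 304) (nat_lit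 1159349255) (nat_lit 100) (nat_lit 5) (nat_lit 103) (nat_lit 5) (nat_lit 104) (nat_lit 4) (nat_lit 466) (nat_lit 378) (nat_lit 356))) (XT.nd (nat_lit 78) (nat_lit 304) (nat_lit 0) (XT.lf (nat_lit 0) (nat_lit 3789395483) (nat_lit 304) (nat_lit 2147022021) (nat_lit 380) (nat_lit 5712879932) (nat_lit 95) (nat_lit 5) (nat_lit 99) (nat_lit 5) (nat_lit 100) (nat_lit 5) (nat_lit 467) (nat_lit 378) (nat_lit 355)) (XT.lf (nat_lit 0) (nat_lit 1397541079) (nat_lit 304) (nat_lit 5481703701) (nat_lit 76) (nat_lit 4952858621) (nat_lit 91) (nat_lit 5) (nat_lit 95) (nat_lit 5) (nat_lit 92) (nat_lit 5) (nat_lit 468) (nat_lit 378) (nat_lit 354)))))) (XT.nd (nat_lit 546) (nat_lit 1748) (nat_lit 0) (XT.nd (nat_lit 234) (nat_lit 1064) (nat_lit 0) (XT.nd (nat_lit 78) (nat_lit 760) (nat_lit 0) (XT.lf (nat_lit 0) (nat_lit 8648924586) (nat_lit 304) (nat_lit 3095207836) (nat_lit 76) (nat_lit 275403280) (nat_lit 88) (nat_lit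 5) (nat_lit 92) (nat_lit 5) (nat_lit 89) (nat_lit 4) (nat_lit 469) (nat_lit 378) (nat_lit 353)) (XT.nd (nat_lit 78) (nat_lit 456) (nat_lit 0) (XT.lf (nat_lit 0) (nat_lit 3891191217) (nat_lit 304) (nat_lit 718531625) (nat_lit 76) (nat_lit 7601620586) (nat_lit 84) (nat_lit 5) (nat_lit 88) (nat_lit 5) (nat_lit 85) (nat_lit 5) (nat_lit 470) (nat_lit 378) (nat_lit 352)) (XT.lf (nat_lit 0) (nat_lit 1700482238) (nat_lit 228) (nat_lit 9646771832) (nat_lit 304) (nat_lit 1060764228) (nat_lit 78) (nat_lit 5) (nat_lit 81) (nat_lit 5) (nat_lit 82) (nat_lit 4) (nat_lit 471) (nat_lit 378) (nat_lit 351)))) (XT.nd (nat_lit 156) (nat_lit 456) (nat_lit 0) (XT.nd (nat_lit 78) (nat_lit 304) (nat_lit 0) (XT.lf (nat_lit 0) (nat_lit 4116378431) (nat_lit 228) (nat_lit 2246149875) (nat_lit 304) (nat_lit 6246628796) (nat_lit 74) (nat_lit 5) (nat_lit 77) (nat_lit 5) (nat_lit 78) (nat_lit 5) (nat_lit 472) (nat_lit 378) (nat_lit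 350)) (XT.lf (nat_lit 0) (nat_lit 1194314280) (nat_lit 304) (nat_lit 6274173161) (nat_lit 76) (nat_lit 5346914815) (nat_lit 70) (nat_lit 5) (nat_lit 74) (nat_lit 5) (nat_lit 71) (nat_lit 5) (nat_lit 473) (nat_lit 378) (nat_lit 349))) (XT.nd (nat_lit 78) (nat_lit 228) (nat_lit 0) (XT.lf (nat_lit 0) (nat_lit 8788869402) (nat_lit 304) (nat_lit 4060650775) (nat_lit 76) (nat_lit 177185968) (nat_lit 67) (nat_lit 5) (nat_lit 71) (nat_lit 5) (nat_lit 68) (nat_lit 4) (nat_lit 474) (nat_lit 378) (nat_lit 348)) (XT.lf (nat_lit 0) (nat_lit 3373764755) (nat_lit 228) (nat_lit 1867748396) (nat_lit 76) (nat_lit 8001380684) (nat_lit 64) (nat_lit 5) (nat_lit 67) (nat_lit 5) (nat_lit 65) (nat_lit 5) (nat_lit 475) (nat_lit 378) (nat_lit 347))))) (XT.nd (nat_lit 234) (nat_lit 912) (nat_lit 0) (XT.nd (nat_lit 78) (nat_lit 456) (nat_lit 0) (XT.lf (nat_lit 0) (nat_lit 333898848) (nat_lit 152) (nat_lit 10844563289) (nat_lit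 228) (nat_lit 2286100346) (nat_lit 59) (nat_lit 5) (nat_lit 61) (nat_lit 5) (nat_lit 62) (nat_lit 4) (nat_lit 476) (nat_lit 378) (nat_lit 346)) (XT.nd (nat_lit 78) (nat_lit 152) (nat_lit 0) (XT.lf (nat_lit 0) (nat_lit 2537616344) (nat_lit 228) (nat_lit 2966523658) (nat_lit 304) (nat_lit 8186982270) (nat_lit 55) (nat_lit 5) (nat_lit 58) (nat_lit 5) (nat_lit 59) (nat_lit 5) (nat_lit 477) (nat_lit 378) (nat_lit 345)) (XT.lf (nat_lit 0) (nat_lit 4739441255) (nat_lit 152) (nat_lit 8797544142) (nat_lit 228) (nat_lit 386393978) (nat_lit 53) (nat_lit 5) (nat_lit 55) (nat_lit 5) (nat_lit 56) (nat_lit 4) (nat_lit 478) (nat_lit 378) (nat_lit 344)))) (XT.nd (nat_lit 156) (nat_lit 380) (nat_lit 0) (XT.nd (nat_lit 78) (nat_lit 228) (nat_lit 0) (XT.lf (nat_lit 0) (nat_lit 6916927758) (nat_lit 228) (nat_lit 659080867) (nat_lit 304) (nat_lit 6585042126) (nat_lit 49) (nat_lit 5) (nat_lit 52) (nat_lit 5) (nat_lit 53)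 (nat_lit 5) (nat_lit 479) (nat_lit 378) (nat_lit 343)) (XT.lf (nat_lit 0) (nat_lit 1409186526) (nat_lit 228) (nat_lit 5328789879) (nat_lit 76) (nat_lit 7666431629) (nat_lit 46) (nat_lit 5) (nat_lit 49) (nat_lit 5) (nat_lit 47) (nat_lit 5) (nat_lit 480) (nat_lit 378) (nat_lit 342))) (XT.nd (nat_lit 78) (nat_lit 228) (nat_lit 0) (XT.lf (nat_lit 0) (nat_lit 9581646629) (nat_lit 228) (nat_lit 3437136414) (nat_lit 76) (nat_lit 1634856716) (nat_lit 44) (nat_lit 5) (nat_lit 47) (nat_lit 5) (nat_lit 45) (nat_lit 4) (nat_lit 481) (nat_lit 378) (nat_lit 341)) (XT.lf (nat_lit 0) (nat_lit 3108137686) (nat_lit 228) (nat_lit 1577682117) (nat_lit 76) (nat_lit 10222934750) (nat_lit 41) (nat_lit 5) (nat_lit 44) (nat_lit 5) (nat_lit 42) (nat_lit 5) (nat_lit 482) (nat_lit 378) (nat_lit 340))))))))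
noncomputable def xc10 : XT := (XT.nd (nat_lit 60840) (nat_lit 0) (nat_lit 76) (XT.nd (nat_lit 59748) (nat_lit 0) (nat_lit 7904) (XT.nd (nat_lit 468) (nat_lit 76) (nat_lit 0) (XT.nd (nat_lit 234) (nat_lit 532) (nat_lit 0) (XT.nd (nat_lit 78) (nat_lit 380) (nat_lit 0) (XT.lf (nat_lit 0) (nat_lit 256391683) (nat_lit 152) (nat_lit 11252358605) (nat_lit 228) (nat_lit 3661223787) (nat_lit 37) (nat_lit 5) (nat_lit 39) (nat_lit 5) (nat_lit 40) (nat_lit 4) (nat_lit 483) (nat_lit 378) (nat_lit 339)) (XT.nd (nat_lit 78) (nat_lit 152) (nat_lit 0) (XT.lf (nat_lit 0) (nat_lit 2077125706) (nat_lit 152) (nat_lit 2643254349) (nat_lit 228) (nat_lit 10716839102) (nat_lit 34) (nat_lit 5) (nat_lit 36) (nat_lit 5) (nat_lit 37) (nat_lit 5) (nat_lit 484) (nat_lit 378) (nat_lit 338)) (XT.lf (nat_lit 0) (nat_lit 3858037471) (nat_lit 152) (nat_lit 9506123087) (nat_lit 228) (nat_lit 2346629028) (nat_lit 32) (nat_lit 5) (nat_lit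 34) (nat_lit 5) (nat_lit 35) (nat_lit 4) (nat_lit 485) (nat_lit 378) (nat_lit 337)))) (XT.nd (nat_lit 78) (nat_lit 304) (nat_lit 0) (XT.lf (nat_lit 0) (nat_lit 5602875195) (nat_lit 152) (nat_lit 628855326) (nat_lit 228) (nat_lit 9759236428) (nat_lit 29) (nat_lit 5) (nat_lit 31) (nat_lit 5) (nat_lit 32) (nat_lit 5) (nat_lit 486) (nat_lit 378) (nat_lit 336)) (XT.nd (nat_lit 78) (nat_lit 228) (nat_lit 0) (XT.lf (nat_lit 0) (nat_lit 7295910865) (nat_lit 76) (nat_lit 7818733299) (nat_lit 152) (nat_lit 1163014855) (nat_lit 28) (nat_lit 5) (nat_lit 29) (nat_lit 5) (nat_lit 30) (nat_lit 4) (nat_lit 487) (nat_lit 378) (nat_lit 335)) (XT.lf (nat_lit 0) (nat_lit 7628565535) (nat_lit 228) (nat_lit 7629088683) (nat_lit 76) (nat_lit 1313533318) (nat_lit 25) (nat_lit 5) (nat_lit 28) (nat_lit 5) (nat_lit 26) (nat_lit 4) (nat_lit 488) (nat_lit 378) (nat_lit 334))))) (XT.nd (nat_lit 58968) (nat_lit 0) (nat_lit 15048)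 (XT.nd (nat_lit 58812) (nat_lit 0) (nat_lit 17784) (XT.lf (nat_lit 0) (nat_lit 10540788440) (nat_lit 76) (nat_lit 6207115523) (nat_lit 152) (nat_lit 123869173) (nat_lit 24) (nat_lit 5) (nat_lit 25) (nat_lit 5) (nat_lit 26) (nat_lit 4) (nat_lit 489) (nat_lit 378) (nat_lit 333)) (XT.nd (nat_lit 78) (nat_lit 1140) (nat_lit 0) (XT.lf (nat_lit 0) (nat_lit 3354023300) (nat_lit 608) (nat_lit 406629843) (nat_lit 608) (nat_lit 406629843) (nat_lit 273) (nat_lit 4) (nat_lit 281) (nat_lit 5) (nat_lit 281) (nat_lit 4) (nat_lit 442) (nat_lit 379) (nat_lit 379)) (XT.lf (nat_lit 0) (nat_lit 638211538) (nat_lit 532) (nat_lit 4705322151) (nat_lit 532) (nat_lit 3083974877) (nat_lit 258) (nat_lit 4) (nat_lit 265) (nat_lit 5) (nat_lit 265) (nat_lit 4) (nat_lit 443) (nat_lit 379) (nat_lit 378)))) (XT.nd (nat_lit 156) (nat_lit 1520) (nat_lit 0) (XT.nd (nat_lit 78) (nat_lit 608) (nat_lit 0) (XT.lf (nat_lit 0) (nat_lit 2984712266)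 (nat_lit 532) (nat_lit 74784321) (nat_lit 608) (nat_lit 5464234341) (nat_lit 250) (nat_lit 5) (nat_lit 257) (nat_lit 5) (nat_lit 258) (nat_lit 4) (nat_lit 444) (nat_lit 379) (nat_lit 377)) (XT.lf (nat_lit 0) (nat_lit 680540409) (nat_lit 608) (nat_lit 3256432049) (nat_lit 76) (nat_lit 4686031504) (nat_lit 242) (nat_lit 5) (nat_lit 250) (nat_lit 5) (nat_lit 243) (nat_lit 4) (nat_lit 445) (nat_lit 379) (nat_lit 376))) (XT.nd (nat_lit 78) (nat_lit 1064) (nat_lit 0) (XT.lf (nat_lit 0) (nat_lit 6881435280) (nat_lit 532) (nat_lit 929212417) (nat_lit 0) (nat_lit 914971819) (nat_lit 236) (nat_lit 5) (nat_lit 243) (nat_lit 4) (nat_lit 236) (nat_lit 4) (nat_lit 446) (nat_lit 379) (nat_lit 375)) (XT.lf (nat_lit 0) (nat_lit 1449279346) (nat_lit 456) (nat_lit 2907329911) (nat_lit 532) (nat_lit 4474579600) (nat_lit 222) (nat_lit 5) (nat_lit 228) (nat_lit 5) (nat_lit 229) (nat_lit 4) (nat_lit 447) (nat_lit 379) (nat_lit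 374)))))) (XT.nd (nat_lit 546) (nat_lit 3040) (nat_lit 0) (XT.nd (nat_lit 234) (nat_lit 2584) (nat_lit 0) (XT.nd (nat_lit 78) (nat_lit 988) (nat_lit 0) (XT.lf (nat_lit 0) (nat_lit 1720181451) (nat_lit 532) (nat_lit 5050087257) (nat_lit 76) (nat_lit 2169891746) (nat_lit 215) (nat_lit 5) (nat_lit 222) (nat_lit 5) (nat_lit 216) (nat_lit 4) (nat_lit 448) (nat_lit 379) (nat_lit 373)) (XT.nd (nat_lit 78) (nat_lit 532) (nat_lit 0) (XT.lf (nat_lit 0) (nat_lit 6369284101) (nat_lit 456) (nat_lit 1637484674) (nat_lit 532) (nat_lit 1045711524) (nat_lit 209) (nat_lit 5) (nat_lit 215) (nat_lit 5) (nat_lit 216) (nat_lit 4) (nat_lit 449) (nat_lit 379) (nat_lit 372)) (XT.lf (nat_lit 0) (nat_lit 5217596268) (nat_lit 532) (nat_lit 290510293) (nat_lit 76) (nat_lit 3659908947) (nat_lit 202) (nat_lit 5) (nat_lit 209) (nat_lit 5) (nat_lit 203) (nat_lit 4) (nat_lit 450) (nat_lit 379) (nat_lit 371)))) (XT.nd (nat_lit 156)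 (nat_lit 1292) (nat_lit 0) (XT.nd (nat_lit 78) (nat_lit 380) (nat_lit 0) (XT.lf (nat_lit 0) (nat_lit 2181400445) (nat_lit 456) (nat_lit 132418781) (nat_lit 532) (nat_lit 6973214327) (nat_lit 190) (nat_lit 5) (nat_lit 196) (nat_lit 5) (nat_lit 197) (nat_lit 5) (nat_lit 451) (nat_lit 379) (nat_lit 370)) (XT.lf (nat_lit 0) (nat_lit 4679903824) (nat_lit 380) (nat_lit 4024225631) (nat_lit 456) (nat_lit 705139542) (nat_lit 185) (nat_lit 5) (nat_lit 190) (nat_lit 5) (nat_lit 191) (nat_lit 4) (nat_lit 452) (nat_lit 379) (nat_lit 369))) (XT.nd (nat_lit 78) (nat_lit 836) (nat_lit 0) (XT.lf (nat_lit 0) (nat_lit 5643441645) (nat_lit 456) (nat_lit 2320976013) (nat_lit 76) (nat_lit 1570654424) (nat_lit 179) (nat_lit 5) (nat_lit 185) (nat_lit 5) (nat_lit 180) (nat_lit 4) (nat_lit 453) (nat_lit 379) (nat_lit 368)) (XT.lf (nat_lit 0) (nat_lit 121440551) (nat_lit 380) (nat_lit 2341047946) (nat_lit 456) (nat_lit 7202005892)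 (nat_lit 168) (nat_lit 5) (nat_lit 173) (nat_lit 5) (nat_lit 174) (nat_lit 5) (nat_lit 454) (nat_lit 379) (nat_lit 367))))) (XT.nd (nat_lit 234) (nat_lit 1824) (nat_lit 0) (XT.nd (nat_lit 78) (nat_lit 836) (nat_lit 0) (XT.lf (nat_lit 0) (nat_lit 2626665467) (nat_lit 380) (nat_lit 6327803397) (nat_lit 456) (nat_lit 842818588) (nat_lit 163) (nat_lit 5) (nat_lit 168) (nat_lit 5) (nat_lit 169) (nat_lit 4) (nat_lit 455) (nat_lit 379) (nat_lit 366)) (XT.nd (nat_lit 78) (nat_lit 380) (nat_lit 0) (XT.lf (nat_lit 0) (nat_lit 5159779070) (nat_lit 380) (nat_lit 451803633) (nat_lit 456) (nat_lit 4322159269) (nat_lit 157) (nat_lit 5) (nat_lit 162) (nat_lit 5) (nat_lit 163) (nat_lit 5) (nat_lit 456) (nat_lit 379) (nat_lit 365)) (XT.lf (nat_lit 0) (nat_lit 2148116370) (nat_lit 380) (nat_lit 2357017243) (nat_lit 76) (nat_lit 5568714268) (nat_lit 152) (nat_lit 5) (nat_lit 157) (nat_lit 5) (nat_lit 153) (nat_lit 5)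 (nat_lit 457) (nat_lit 379) (nat_lit 364)))) (XT.nd (nat_lit 156) (nat_lit 684) (nat_lit 0) (XT.nd (nat_lit 78) (nat_lit 456) (nat_lit 0) (XT.lf (nat_lit 0) (nat_lit 95093144) (nat_lit 304) (nat_lit 8641348830) (nat_lit 380) (nat_lit 1481494528) (nat_lit 143) (nat_lit 5) (nat_lit 147) (nat_lit 5) (nat_lit 148) (nat_lit 4) (nat_lit 458) (nat_lit 379) (nat_lit 363)) (XT.lf (nat_lit 0) (nat_lit 2591031669) (nat_lit 380) (nat_lit 2514009693) (nat_lit 456) (nat_lit 5260308980) (nat_lit 137) (nat_lit 5) (nat_lit 142) (nat_lit 5) (nat_lit 143) (nat_lit 5) (nat_lit 459) (nat_lit 379) (nat_lit 362))) (XT.nd (nat_lit 78) (nat_lit 304) (nat_lit 0) (XT.lf (nat_lit 0) (nat_lit 1331802235) (nat_lit 380) (nat_lit 5397305788) (nat_lit 76) (nat_lit 3787761347) (nat_lit 132) (nat_lit 5) (nat_lit 137) (nat_lit 5) (nat_lit 133) (nat_lit 5) (nat_lit 460) (nat_lit 379) (nat_lit 361)) (XT.lf (nat_lit 0) (nat_lit 7672009431)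 (nat_lit 304) (nat_lit 370216082) (nat_lit 380) (nat_lit 2630176411) (nat_lit 128) (nat_lit 5) (nat_lit 132) (nat_lit 5) (nat_lit 133) (nat_lit 5) (nat_lit 461) (nat_lit 379) (nat_lit 360))))))) (XT.nd (nat_lit 1014) (nat_lit 3192) (nat_lit 0) (XT.nd (nat_lit 468) (nat_lit 2128) (nat_lit 0) (XT.nd (nat_lit 234) (nat_lit 1216) (nat_lit 0) (XT.nd (nat_lit 78) (nat_lit 912) (nat_lit 0) (XT.lf (nat_lit 0) (nat_lit 4084774947) (nat_lit 380) (nat_lit 599147337) (nat_lit 76) (nat_lit 6147797173) (nat_lit 123) (nat_lit 5) (nat_lit 128) (nat_lit 5) (nat_lit 124) (nat_lit 5) (nat_lit 462) (nat_lit 379) (nat_lit 359)) (XT.nd (nat_lit 78) (nat_lit 380) (nat_lit 0) (XT.lf (nat_lit 0) (nat_lit 1864888397) (nat_lit 228) (nat_lit 9106888746) (nat_lit 304) (nat_lit 23568345) (nat_lit 116) (nat_lit 5) (nat_lit 119) (nat_lit 5) (nat_lit 120) (nat_lit 4) (nat_lit 463) (nat_lit 379) (nat_lit 358)) (XT.lf (nat_lit 0) (nat_lit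 4331391802) (nat_lit 304) (nat_lit 2496091498) (nat_lit 380) (nat_lit 4335174280) (nat_lit 111) (nat_lit 5) (nat_lit 115) (nat_lit 5) (nat_lit 116) (nat_lit 5) (nat_lit 464) (nat_lit 379) (nat_lit 357)))) (XT.nd (nat_lit 78) (nat_lit 912) (nat_lit 0) (XT.lf (nat_lit 0) (nat_lit 2526750810) (nat_lit 304) (nat_lit 4511254596) (nat_lit 76) (nat_lit 4296424272) (nat_lit 107) (nat_lit 5) (nat_lit 111) (nat_lit 5) (nat_lit 108) (nat_lit 5) (nat_lit 465) (nat_lit 379) (nat_lit 356)) (XT.nd (nat_lit 78) (nat_lit 608) (nat_lit 0) (XT.lf (nat_lit 0) (nat_lit 9339264631) (nat_lit 304) (nat_lit 198733679) (nat_lit 380) (nat_lit 1972739256) (nat_lit 103) (nat_lit 5) (nat_lit 107) (nat_lit 5) (nat_lit 108) (nat_lit 5) (nat_lit 466) (nat_lit 379) (nat_lit 355)) (XT.lf (nat_lit 0) (nat_lit 157713556) (nat_lit 304) (nat_lit 4876442251) (nat_lit 380) (nat_lit 6656856431) (nat_lit 95) (nat_lit 5) (nat_lit 99) (nat_lit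 5) (nat_lit 100) (nat_lit 5) (nat_lit 467) (nat_lit 379) (nat_lit 354))))) (XT.nd (nat_lit 234) (nat_lit 1292) (nat_lit 0) (XT.nd (nat_lit 78) (nat_lit 532) (nat_lit 0) (XT.lf (nat_lit 0) (nat_lit 363347191) (nat_lit 304) (nat_lit 9327153555) (nat_lit 76) (nat_lit 2185493326) (nat_lit 91) (nat_lit 5) (nat_lit 95) (nat_lit 5) (nat_lit 92) (nat_lit 5) (nat_lit 468) (nat_lit 379) (nat_lit 353)) (XT.nd (nat_lit 78) (nat_lit 304) (nat_lit 0) (XT.lf (nat_lit 0) (nat_lit 4926278734) (nat_lit 228) (nat_lit 2601884217) (nat_lit 304) (nat_lit 4536996074) (nat_lit 88) (nat_lit 5) (nat_lit 91) (nat_lit 5) (nat_lit 92) (nat_lit 5) (nat_lit 469) (nat_lit 379) (nat_lit 352)) (XT.lf (nat_lit 0) (nat_lit 2637373762) (nat_lit 304) (nat_lit 4940799091) (nat_lit 76) (nat_lit 4681001186) (nat_lit 84) (nat_lit 5) (nat_lit 88) (nat_lit 5) (nat_lit 85) (nat_lit 5) (nat_lit 470) (nat_lit 379) (nat_lit 351)))) (XT.nd (nat_lit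 156) (nat_lit 760) (nat_lit 0) (XT.nd (nat_lit 78) (nat_lit 304) (nat_lit 0) (XT.lf (nat_lit 0) (nat_lit 9724828366) (nat_lit 228) (nat_lit 253698686) (nat_lit 304) (nat_lit 2479621247) (nat_lit 81) (nat_lit 5) (nat_lit 84) (nat_lit 5) (nat_lit 85) (nat_lit 5) (nat_lit 471) (nat_lit 379) (nat_lit 350)) (XT.lf (nat_lit 0) (nat_lit 4858186359) (nat_lit 304) (nat_lit 548894199) (nat_lit 76) (nat_lit 7254473799) (nat_lit 77) (nat_lit 5) (nat_lit 81) (nat_lit 5) (nat_lit 78) (nat_lit 5) (nat_lit 472) (nat_lit 379) (nat_lit 349))) (XT.nd (nat_lit 78) (nat_lit 304) (nat_lit 0) (XT.lf (nat_lit 0) (nat_lit 1680043532) (nat_lit 228) (nat_lit 10728716534) (nat_lit 304) (nat_lit 461450569) (nat_lit 71) (nat_lit 5) (nat_lit 74) (nat_lit 5) (nat_lit 75) (nat_lit 4) (nat_lit 473) (nat_lit 379) (nat_lit 348)) (XT.lf (nat_lit 0) (nat_lit 3887664972) (nat_lit 228) (nat_lit 3161115708) (nat_lit 304) (nat_lit 6034602335)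 (nat_lit 67) (nat_lit 5) (nat_lit 70) (nat_lit 5) (nat_lit 71) (nat_lit 5) (nat_lit 474) (nat_lit 379) (nat_lit 347)))))) (XT.nd (nat_lit 546) (nat_lit 1444) (nat_lit 0) (XT.nd (nat_lit 234) (nat_lit 1064) (nat_lit 0) (XT.nd (nat_lit 78) (nat_lit 456) (nat_lit 0) (XT.lf (nat_lit 0) (nat_lit 1489496788) (nat_lit 228) (nat_lit 7197233057) (nat_lit 76) (nat_lit 4615296525) (nat_lit 64) (nat_lit 5) (nat_lit 67) (nat_lit 5) (nat_lit 65) (nat_lit 5) (nat_lit 475) (nat_lit 379) (nat_lit 346)) (XT.nd (nat_lit 78) (nat_lit 228) (nat_lit 0) (XT.lf (nat_lit 0) (nat_lit 8311788202) (nat_lit 228) (nat_lit 872417005) (nat_lit 304) (nat_lit 4341690563) (nat_lit 61) (nat_lit 5) (nat_lit 64) (nat_lit 5) (nat_lit 65) (nat_lit 5) (nat_lit 476) (nat_lit 379) (nat_lit 345)) (XT.lf (nat_lit 0) (nat_lit 3363636743) (nat_lit 228) (nat_lit 3255270380) (nat_lit 76) (nat_lit 7136053739) (nat_lit 58) (nat_lit 5) (nat_lit 61)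 (nat_lit 5) (nat_lit 59) (nat_lit 5) (nat_lit 477) (nat_lit 379) (nat_lit 344)))) (XT.nd (nat_lit 156) (nat_lit 380) (nat_lit 0) (XT.nd (nat_lit 78) (nat_lit 456) (nat_lit 0) (XT.lf (nat_lit 0) (nat_lit 11265925517) (nat_lit 304) (nat_lit 1297988187) (nat_lit 76) (nat_lit 1425916293) (nat_lit 55) (nat_lit 5) (nat_lit 59) (nat_lit 5) (nat_lit 56) (nat_lit 4) (nat_lit 478) (nat_lit 379) (nat_lit 343)) (XT.lf (nat_lit 0) (nat_lit 630586344) (nat_lit 228) (nat_lit 4535246079) (nat_lit 304) (nat_lit 9064039791) (nat_lit 49) (nat_lit 5) (nat_lit 52) (nat_lit 5) (nat_lit 53) (nat_lit 5) (nat_lit 479) (nat_lit 379) (nat_lit 342))) (XT.nd (nat_lit 78) (nat_lit 228) (nat_lit 0) (XT.lf (nat_lit 0) (nat_lit 2572646883) (nat_lit 152) (nat_lit 10728987497) (nat_lit 228) (nat_lit 1174195303) (nat_lit 47) (nat_lit 5) (nat_lit 49) (nat_lit 5) (nat_lit 50) (nat_lit 4) (nat_lit 480) (nat_lit 379) (nat_lit 341)) (XT.lf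 (nat_lit 0) (nat_lit 4476011804) (nat_lit 152) (nat_lit 2430398989) (nat_lit 228) (nat_lit 7820948955) (nat_lit 44) (nat_lit 5) (nat_lit 46) (nat_lit 5) (nat_lit 47) (nat_lit 5) (nat_lit 481) (nat_lit 379) (nat_lit 340))))) (XT.nd (nat_lit 234) (nat_lit 836) (nat_lit 0) (XT.nd (nat_lit 78) (nat_lit 380) (nat_lit 0) (XT.lf (nat_lit 0) (nat_lit 281329646) (nat_lit 228) (nat_lit 8620458967) (nat_lit 76) (nat_lit 6083321749) (nat_lit 41) (nat_lit 5) (nat_lit 44) (nat_lit 5) (nat_lit 42) (nat_lit 5) (nat_lit 482) (nat_lit 379) (nat_lit 339)) (XT.nd (nat_lit 78) (nat_lit 228) (nat_lit 0) (XT.lf (nat_lit 0) (nat_lit 8217205576) (nat_lit 152) (nat_lit 338898889) (nat_lit 228) (nat_lit 6692742906) (nat_lit 39) (nat_lit 5) (nat_lit 41) (nat_lit 5) (nat_lit 42) (nat_lit 5) (nat_lit 483) (nat_lit 379) (nat_lit 338)) (XT.lf (nat_lit 0) (nat_lit 1614573806) (nat_lit 228) (nat_lit 5484825162) (nat_lit 76) (nat_lit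 8419368755) (nat_lit 36) (nat_lit 5) (nat_lit 39) (nat_lit 5) (nat_lit 37) (nat_lit 5) (nat_lit 484) (nat_lit 379) (nat_lit 337)))) (XT.nd (nat_lit 156) (nat_lit 456) (nat_lit 0) (XT.nd (nat_lit 78) (nat_lit 228) (nat_lit 0) (XT.lf (nat_lit 0) (nat_lit 10116874783) (nat_lit 228) (nat_lit 3975308206) (nat_lit 76) (nat_lit 1702985431) (nat_lit 34) (nat_lit 5) (nat_lit 37) (nat_lit 5) (nat_lit 35) (nat_lit 4) (nat_lit 485) (nat_lit 379) (nat_lit 336)) (XT.lf (nat_lit 0) (nat_lit 2830433450) (nat_lit 228) (nat_lit 2513822035) (nat_lit 76) (nat_lit 10733790125) (nat_lit 31) (nat_lit 5) (nat_lit 34) (nat_lit 5) (nat_lit 32) (nat_lit 5) (nat_lit 486) (nat_lit 379) (nat_lit 335))) (XT.nd (nat_lit 78) (nat_lit 304) (nat_lit 0) (XT.lf (nat_lit 0) (nat_lit 11568687558) (nat_lit 228) (nat_lit 1099701563) (nat_lit 76) (nat_lit 3699242374) (nat_lit 29) (nat_lit 5) (nat_lit 32) (nat_lit 5) (nat_lit 30) (nat_lit 4)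 (nat_lit 487) (nat_lit 379) (nat_lit 334)) (XT.lf (nat_lit 0) (nat_lit 268063418) (nat_lit 152) (nat_lit 3650469307) (nat_lit 228) (nat_lit 12745535811) (nat_lit 25) (nat_lit 5) (nat_lit 27) (nat_lit 5) (nat_lit 28) (nat_lit 5) (nat_lit 488) (nat_lit 379) (nat_lit 333))))))))
noncomputable def xc11 : XT := (XT.nd (nat_lit 60684) (nat_lit 0) (nat_lit 228) (XT.nd (nat_lit 59592) (nat_lit 0) (nat_lit 6308) (XT.nd (nat_lit 59046) (nat_lit 0) (nat_lit 12616) (XT.nd (nat_lit 58812) (nat_lit 0) (nat_lit 17176) (XT.nd (nat_lit 58656) (nat_lit 0) (nat_lit 19532) (XT.lf (nat_lit 0) (nat_lit 1588678728) (nat_lit 76) (nat_lit 11318456178) (nat_lit 152) (nat_lit 4060134531) (nat_lit 24) (nat_lit 5) (nat_lit 25) (nat_lit 5) (nat_lit 26) (nat_lit 4) (nat_lit 489) (nat_lit 379) (nat_lit 332)) (XT.nd (nat_lit 78) (nat_lit 684) (nat_lit 0) (XT.lf (nat_lit 0) (nat_lit 1116477657) (nat_lit 608) (nat_lit 1480771800) (nat_lit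 608) (nat_lit 1480771800) (nat_lit 290) (nat_lit 4) (nat_lit 298) (nat_lit 5) (nat_lit 298) (nat_lit 4) (nat_lit 440) (nat_lit 380) (nat_lit 380)) (XT.lf (nat_lit 0) (nat_lit 3048146788) (nat_lit 684) (nat_lit 3851533869) (nat_lit 0) (nat_lit 1344759342) (nat_lit 281) (nat_lit 5) (nat_lit 290) (nat_lit 4) (nat_lit 281) (nat_lit 4) (nat_lit 441) (nat_lit 380) (nat_lit 379)))) (XT.nd (nat_lit 78) (nat_lit 1672) (nat_lit 0) (XT.lf (nat_lit 0) (nat_lit 802339074) (nat_lit 684) (nat_lit 1736436736) (nat_lit 76) (nat_lit 5797200782) (nat_lit 272) (nat_lit 5) (nat_lit 281) (nat_lit 5) (nat_lit 273) (nat_lit 4) (nat_lit 442) (nat_lit 380) (nat_lit 378)) (XT.nd (nat_lit 78) (nat_lit 608) (nat_lit 0) (XT.lf (nat_lit 0) (nat_lit 424774295) (nat_lit 532) (nat_lit 6435631417) (nat_lit 532) (nat_lit 1570172883) (nat_lit 258) (nat_lit 4) (nat_lit 265) (nat_lit 5) (nat_lit 265) (nat_lit 4) (nat_lit 443) (nat_lit 380)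 (nat_lit 377)) (XT.lf (nat_lit 0) (nat_lit 2650936440) (nat_lit 532) (nat_lit 1826623105) (nat_lit 608) (nat_lit 4050566163) (nat_lit 250) (nat_lit 5) (nat_lit 257) (nat_lit 5) (nat_lit 258) (nat_lit 4) (nat_lit 444) (nat_lit 380) (nat_lit 376))))) (XT.nd (nat_lit 234) (nat_lit 2432) (nat_lit 0) (XT.nd (nat_lit 78) (nat_lit 1520) (nat_lit 0) (XT.lf (nat_lit 0) (nat_lit 1988472927) (nat_lit 608) (nat_lit 3706320253) (nat_lit 76) (nat_lit 2934169338) (nat_lit 242) (nat_lit 5) (nat_lit 250) (nat_lit 5) (nat_lit 243) (nat_lit 4) (nat_lit 445) (nat_lit 380) (nat_lit 375)) (XT.nd (nat_lit 78) (nat_lit 1064) (nat_lit 0) (XT.lf (nat_lit 0) (nat_lit 7243388898) (nat_lit 456) (nat_lit 864890565) (nat_lit 532) (nat_lit 624923719) (nat_lit 236) (nat_lit 5) (nat_lit 242) (nat_lit 5) (nat_lit 243) (nat_lit 4) (nat_lit 446) (nat_lit 380) (nat_lit 374)) (XT.lf (nat_lit 0) (nat_lit 758443516) (nat_lit 456) (nat_lit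 4716276491) (nat_lit 532) (nat_lit 3365600552) (nat_lit 222) (nat_lit 5) (nat_lit 228) (nat_lit 5) (nat_lit 229) (nat_lit 4) (nat_lit 447) (nat_lit 380) (nat_lit 373)))) (XT.nd (nat_lit 156) (nat_lit 1444) (nat_lit 0) (XT.nd (nat_lit 78) (nat_lit 456) (nat_lit 0) (XT.lf (nat_lit 0) (nat_lit 2726944607) (nat_lit 532) (nat_lit 5869627419) (nat_lit 76) (nat_lit 354332583) (nat_lit 215) (nat_lit 5) (nat_lit 222) (nat_lit 5) (nat_lit 216) (nat_lit 4) (nat_lit 448) (nat_lit 380) (nat_lit 372)) (XT.lf (nat_lit 0) (nat_lit 5434944492) (nat_lit 456) (nat_lit 3503306519) (nat_lit 532) (nat_lit 126482001) (nat_lit 209) (nat_lit 5) (nat_lit 215) (nat_lit 5) (nat_lit 216) (nat_lit 4) (nat_lit 449) (nat_lit 380) (nat_lit 371))) (XT.nd (nat_lit 78) (nat_lit 912) (nat_lit 0) (XT.lf (nat_lit 0) (nat_lit 6037189637) (nat_lit 532) (nat_lit 1360177955) (nat_lit 76) (nat_lit 1784535671) (nat_lit 202) (nat_lit 5) (nat_lit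 209) (nat_lit 5) (nat_lit 203) (nat_lit 4) (nat_lit 450) (nat_lit 380) (nat_lit 370)) (XT.lf (nat_lit 0) (nat_lit 958745442) (nat_lit 456) (nat_lit 2066890145) (nat_lit 532) (nat_lit 6276850207) (nat_lit 190) (nat_lit 5) (nat_lit 196) (nat_lit 5) (nat_lit 197) (nat_lit 5) (nat_lit 451) (nat_lit 380) (nat_lit 369)))))) (XT.nd (nat_lit 546) (nat_lit 3040) (nat_lit 0) (XT.nd (nat_lit 234) (nat_lit 1976) (nat_lit 0) (XT.nd (nat_lit 78) (nat_lit 912) (nat_lit 0) (XT.lf (nat_lit 0) (nat_lit 3333741615) (nat_lit 380) (nat_lit 5993705721) (nat_lit 456) (nat_lit 99046457) (nat_lit 185) (nat_lit 5) (nat_lit 190) (nat_lit 5) (nat_lit 191) (nat_lit 4) (nat_lit 452) (nat_lit 380) (nat_lit 368)) (XT.nd (nat_lit 78) (nat_lit 456) (nat_lit 0) (XT.lf (nat_lit 0) (nat_lit 5735611667) (nat_lit 380) (nat_lit 419635331) (nat_lit 456) (nat_lit 3398700414) (nat_lit 179) (nat_lit 5) (nat_lit 184) (nat_lit 5) (nat_lit 185)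 (nat_lit 5) (nat_lit 453) (nat_lit 380) (nat_lit 367)) (XT.lf (nat_lit 0) (nat_lit 2869128448) (nat_lit 456) (nat_lit 1520717814) (nat_lit 76) (nat_lit 5295058295) (nat_lit 173) (nat_lit 5) (nat_lit 179) (nat_lit 5) (nat_lit 174) (nat_lit 5) (nat_lit 454) (nat_lit 380) (nat_lit 366)))) (XT.nd (nat_lit 156) (nat_lit 760) (nat_lit 0) (XT.nd (nat_lit 78) (nat_lit 456) (nat_lit 0) (XT.lf (nat_lit 0) (nat_lit 830292104) (nat_lit 380) (nat_lit 8430414816) (nat_lit 456) (nat_lit 559001014) (nat_lit 163) (nat_lit 5) (nat_lit 168) (nat_lit 5) (nat_lit 169) (nat_lit 4) (nat_lit 455) (nat_lit 380) (nat_lit 365)) (XT.lf (nat_lit 0) (nat_lit 3211197030) (nat_lit 380) (nat_lit 2603281761) (nat_lit 456) (nat_lit 4143192956) (nat_lit 157) (nat_lit 5) (nat_lit 162) (nat_lit 5) (nat_lit 163) (nat_lit 5) (nat_lit 456) (nat_lit 380) (nat_lit 364))) (XT.nd (nat_lit 78) (nat_lit 380) (nat_lit 0) (XT.lf (nat_lit 0) (nat_lit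 2233042279) (nat_lit 380) (nat_lit 4471006836) (nat_lit 76) (nat_lit 3395541228) (nat_lit 152) (nat_lit 5) (nat_lit 157) (nat_lit 5) (nat_lit 153) (nat_lit 5) (nat_lit 457) (nat_lit 380) (nat_lit 363)) (XT.lf (nat_lit 0) (nat_lit 8078006159) (nat_lit 380) (nat_lit 655026119) (nat_lit 456) (nat_lit 1512415400) (nat_lit 147) (nat_lit 5) (nat_lit 152) (nat_lit 5) (nat_lit 153) (nat_lit 5) (nat_lit 458) (nat_lit 380) (nat_lit 362))))) (XT.nd (nat_lit 234) (nat_lit 1596) (nat_lit 0) (XT.nd (nat_lit 78) (nat_lit 684) (nat_lit 0) (XT.lf (nat_lit 0) (nat_lit 141861597) (nat_lit 380) (nat_lit 4835241244) (nat_lit 456) (nat_lit 5417713061) (nat_lit 137) (nat_lit 5) (nat_lit 142) (nat_lit 5) (nat_lit 143) (nat_lit 5) (nat_lit 459) (nat_lit 380) (nat_lit 361)) (XT.nd (nat_lit 78) (nat_lit 304) (nat_lit 0) (XT.lf (nat_lit 0) (nat_lit 1081899973) (nat_lit 380) (nat_lit 8026446925) (nat_lit 76) (nat_lit 1439901536)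 (nat_lit 132) (nat_lit 5) (nat_lit 137) (nat_lit 5) (nat_lit 133) (nat_lit 5) (nat_lit 460) (nat_lit 380) (nat_lit 360)) (XT.lf (nat_lit 0) (nat_lit 4905640278) (nat_lit 304) (nat_lit 2807482273) (nat_lit 380) (nat_lit 2992244210) (nat_lit 128) (nat_lit 5) (nat_lit 132) (nat_lit 5) (nat_lit 133) (nat_lit 5) (nat_lit 461) (nat_lit 380) (nat_lit 359)))) (XT.nd (nat_lit 156) (nat_lit 912) (nat_lit 0) (XT.nd (nat_lit 78) (nat_lit 304) (nat_lit 0) (XT.lf (nat_lit 0) (nat_lit 3631672134) (nat_lit 380) (nat_lit 3553127383) (nat_lit 76) (nat_lit 3681849142) (nat_lit 123) (nat_lit 5) (nat_lit 128) (nat_lit 5) (nat_lit 124) (nat_lit 5) (nat_lit 462) (nat_lit 380) (nat_lit 358)) (XT.lf (nat_lit 0) (nat_lit 9754625251) (nat_lit 304) (nat_lit 659876729) (nat_lit 380) (nat_lit 617857783) (nat_lit 119) (nat_lit 5) (nat_lit 123) (nat_lit 5) (nat_lit 124) (nat_lit 5) (nat_lit 463) (nat_lit 380) (nat_lit 357))) (XT.nd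 (nat_lit 78) (nat_lit 304) (nat_lit 0) (XT.lf (nat_lit 0) (nat_lit 998251566) (nat_lit 304) (nat_lit 5148519744) (nat_lit 380) (nat_lit 5054863599) (nat_lit 111) (nat_lit 5) (nat_lit 115) (nat_lit 5) (nat_lit 116) (nat_lit 5) (nat_lit 464) (nat_lit 380) (nat_lit 356)) (XT.lf (nat_lit 0) (nat_lit 1716898054) (nat_lit 304) (nat_lit 8047811593) (nat_lit 76) (nat_lit 1610784333) (nat_lit 107) (nat_lit 5) (nat_lit 111) (nat_lit 5) (nat_lit 108) (nat_lit 5) (nat_lit 465) (nat_lit 380) (nat_lit 355))))))) (XT.nd (nat_lit 1092) (nat_lit 1900) (nat_lit 0) (XT.nd (nat_lit 546) (nat_lit 1900) (nat_lit 0) (XT.nd (nat_lit 234) (nat_lit 1368) (nat_lit 0) (XT.nd (nat_lit 78) (nat_lit 608) (nat_lit 0) (XT.lf (nat_lit 0) (nat_lit 5655121787) (nat_lit 304) (nat_lit 2990803806) (nat_lit 380) (nat_lit 2907522106) (nat_lit 103) (nat_lit 5) (nat_lit 107) (nat_lit 5) (nat_lit 108) (nat_lit 5) (nat_lit 466) (nat_lit 380)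 (nat_lit 354)) (XT.nd (nat_lit 78) (nat_lit 304) (nat_lit 0) (XT.lf (nat_lit 0) (nat_lit 4009266462) (nat_lit 304) (nat_lit 3740206322) (nat_lit 76) (nat_lit 3986419660) (nat_lit 99) (nat_lit 5) (nat_lit 103) (nat_lit 5) (nat_lit 100) (nat_lit 5) (nat_lit 467) (nat_lit 380) (nat_lit 353)) (XT.lf (nat_lit 0) (nat_lit 10362107805) (nat_lit 304) (nat_lit 744324715) (nat_lit 380) (nat_lit 816748807) (nat_lit 95) (nat_lit 5) (nat_lit 99) (nat_lit 5) (nat_lit 100) (nat_lit 5) (nat_lit 468) (nat_lit 380) (nat_lit 352)))) (XT.nd (nat_lit 156) (nat_lit 532) (nat_lit 0) (XT.nd (nat_lit 78) (nat_lit 304) (nat_lit 0) (XT.lf (nat_lit 0) (nat_lit 602707833) (nat_lit 228) (nat_lit 5655754865) (nat_lit 304) (nat_lit 5855997219) (nat_lit 88) (nat_lit 5) (nat_lit 91) (nat_lit 5) (nat_lit 92) (nat_lit 5) (nat_lit 469) (nat_lit 380) (nat_lit 351)) (XT.lf (nat_lit 0) (nat_lit 1229547104) (nat_lit 304) (nat_lit 9493411835)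 (nat_lit 76) (nat_lit 1587810957) (nat_lit 84) (nat_lit 5) (nat_lit 88) (nat_lit 5) (nat_lit 85) (nat_lit 5) (nat_lit 470) (nat_lit 380) (nat_lit 350))) (XT.nd (nat_lit 78) (nat_lit 304) (nat_lit 0) (XT.lf (nat_lit 0) (nat_lit 5013007967) (nat_lit 228) (nat_lit 3471432899) (nat_lit 304) (nat_lit 4027029642) (nat_lit 81) (nat_lit 5) (nat_lit 84) (nat_lit 5) (nat_lit 85) (nat_lit 5) (nat_lit 471) (nat_lit 380) (nat_lit 349)) (XT.lf (nat_lit 0) (nat_lit 3222683218) (nat_lit 304) (nat_lit 5498853364) (nat_lit 76) (nat_lit 3995709814) (nat_lit 77) (nat_lit 5) (nat_lit 81) (nat_lit 5) (nat_lit 78) (nat_lit 5) (nat_lit 472) (nat_lit 380) (nat_lit 348))))) (XT.nd (nat_lit 234) (nat_lit 988) (nat_lit 0) (XT.nd (nat_lit 78) (nat_lit 684) (nat_lit 0) (XT.lf (nat_lit 0) (nat_lit 9429907977) (nat_lit 228) (nat_lit 1230917054) (nat_lit 304) (nat_lit 2267327354) (nat_lit 74) (nat_lit 5) (nat_lit 77) (nat_lit 5) (nat_lit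 78) (nat_lit 5) (nat_lit 473) (nat_lit 380) (nat_lit 347)) (XT.nd (nat_lit 78) (nat_lit 380) (nat_lit 0) (XT.lf (nat_lit 0) (nat_lit 5155595473) (nat_lit 304) (nat_lit 1523683373) (nat_lit 76) (nat_lit 6464501299) (nat_lit 70) (nat_lit 5) (nat_lit 74) (nat_lit 5) (nat_lit 71) (nat_lit 5) (nat_lit 474) (nat_lit 380) (nat_lit 346)) (XT.lf (nat_lit 0) (nat_lit 475261361) (nat_lit 152) (nat_lit 12319624813) (nat_lit 228) (nat_lit 570203153) (nat_lit 65) (nat_lit 5) (nat_lit 67) (nat_lit 5) (nat_lit 68) (nat_lit 4) (nat_lit 475) (nat_lit 380) (nat_lit 345)))) (XT.nd (nat_lit 156) (nat_lit 456) (nat_lit 0) (XT.nd (nat_lit 78) (nat_lit 228) (nat_lit 0) (XT.lf (nat_lit 0) (nat_lit 2450600162) (nat_lit 228) (nat_lit 4590037954) (nat_lit 304) (nat_lit 6550222509) (nat_lit 61) (nat_lit 5) (nat_lit 64) (nat_lit 5) (nat_lit 65) (nat_lit 5) (nat_lit 476) (nat_lit 380) (nat_lit 344)) (XT.lf (nat_lit 0) (nat_lit 1067092835)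 (nat_lit 228) (nat_lit 9383814503) (nat_lit 76) (nat_lit 3371645608) (nat_lit 58) (nat_lit 5) (nat_lit 61) (nat_lit 5) (nat_lit 59) (nat_lit 5) (nat_lit 477) (nat_lit 380) (nat_lit 343))) (XT.nd (nat_lit 78) (nat_lit 228) (nat_lit 0) (XT.lf (nat_lit 0) (nat_lit 6396362974) (nat_lit 228) (nat_lit 2470668097) (nat_lit 304) (nat_lit 5192438895) (nat_lit 55) (nat_lit 5) (nat_lit 58) (nat_lit 5) (nat_lit 59) (nat_lit 5) (nat_lit 478) (nat_lit 380) (nat_lit 342)) (XT.lf (nat_lit 0) (nat_lit 2615043490) (nat_lit 228) (nat_lit 5960501730) (nat_lit 76) (nat_lit 5726580938) (nat_lit 52) (nat_lit 5) (nat_lit 55) (nat_lit 5) (nat_lit 53) (nat_lit 5) (nat_lit 479) (nat_lit 380) (nat_lit 341)))))) (XT.nd (nat_lit 546) (nat_lit 380) (nat_lit 0) (XT.nd (nat_lit 234) (nat_lit 912) (nat_lit 0) (XT.nd (nat_lit 78) (nat_lit 380) (nat_lit 0) (XT.lf (nat_lit 0) (nat_lit 10276363655) (nat_lit 228) (nat_lit 342600807) (nat_lit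 304) (nat_lit 3931757592) (nat_lit 49) (nat_lit 5) (nat_lit 52) (nat_lit 5) (nat_lit 53) (nat_lit 5) (nat_lit 480) (nat_lit 380) (nat_lit 340)) (XT.nd (nat_lit 78) (nat_lit 152) (nat_lit 0) (XT.lf (nat_lit 0) (nat_lit 4074292490) (nat_lit 228) (nat_lit 2634987395) (nat_lit 76) (nat_lit 8095545520) (nat_lit 46) (nat_lit 5) (nat_lit 49) (nat_lit 5) (nat_lit 47) (nat_lit 5) (nat_lit 481) (nat_lit 380) (nat_lit 339)) (XT.lf (nat_lit 0) (nat_lit 12301023676) (nat_lit 228) (nat_lit 1005459048) (nat_lit 76) (nat_lit 1758872533) (nat_lit 44) (nat_lit 5) (nat_lit 47) (nat_lit 5) (nat_lit 45) (nat_lit 4) (nat_lit 482) (nat_lit 380) (nat_lit 338)))) (XT.nd (nat_lit 156) (nat_lit 380) (nat_lit 0) (XT.nd (nat_lit 78) (nat_lit 152) (nat_lit 0) (XT.lf (nat_lit 0) (nat_lit 579447233) (nat_lit 152) (nat_lit 4861046690) (nat_lit 228) (nat_lit 9891082091) (nat_lit 39) (nat_lit 5) (nat_lit 41) (nat_lit 5) (nat_lit 42)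 (nat_lit 5) (nat_lit 483) (nat_lit 380) (nat_lit 337)) (XT.lf (nat_lit 0) (nat_lit 2159274405) (nat_lit 152) (nat_lit 11750213125) (nat_lit 228) (nat_lit 1694820225) (nat_lit 37) (nat_lit 5) (nat_lit 39) (nat_lit 5) (nat_lit 40) (nat_lit 4) (nat_lit 484) (nat_lit 380) (nat_lit 336))) (XT.nd (nat_lit 78) (nat_lit 152) (nat_lit 0) (XT.lf (nat_lit 0) (nat_lit 3685114741) (nat_lit 152) (nat_lit 3031680317) (nat_lit 228) (nat_lit 9166392399) (nat_lit 34) (nat_lit 5) (nat_lit 36) (nat_lit 5) (nat_lit 37) (nat_lit 5) (nat_lit 485) (nat_lit 380) (nat_lit 335)) (XT.lf (nat_lit 0) (nat_lit 5180570014) (nat_lit 152) (nat_lit 10243340137) (nat_lit 228) (nat_lit 744977090) (nat_lit 32) (nat_lit 5) (nat_lit 34) (nat_lit 5) (nat_lit 35) (nat_lit 4) (nat_lit 486) (nat_lit 380) (nat_lit 334))))) (XT.nd (nat_lit 58734) (nat_lit 0) (nat_lit 18620) (XT.nd (nat_lit 78) (nat_lit 152) (nat_lit 0) (XT.lf (nat_lit 0) (nat_lit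 6620812297) (nat_lit 152) (nat_lit 1253876402) (nat_lit 228) (nat_lit 8586448948) (nat_lit 29) (nat_lit 5) (nat_lit 31) (nat_lit 5) (nat_lit 32) (nat_lit 5) (nat_lit 487) (nat_lit 380) (nat_lit 333)) (XT.nd (nat_lit 58578) (nat_lit 0) (nat_lit 21964) (XT.lf (nat_lit 0) (nat_lit 64886309) (nat_lit 152) (nat_lit 8743373427) (nat_lit 76) (nat_lit 7952123653) (nat_lit 27) (nat_lit 5) (nat_lit 29) (nat_lit 5) (nat_lit 28) (nat_lit 5) (nat_lit 488) (nat_lit 380) (nat_lit 332)) (XT.lf (nat_lit 0) (nat_lit 1543647369) (nat_lit 684) (nat_lit 906189023) (nat_lit 0) (nat_lit 1543647369) (nat_lit 316) (nat_lit 5) (nat_lit 325) (nat_lit 4) (nat_lit 316) (nat_lit 4) (nat_lit 438) (nat_lit 381) (nat_lit 381)))) (XT.nd (nat_lit 156) (nat_lit 1368) (nat_lit 0) (XT.nd (nat_lit 78) (nat_lit 608) (nat_lit 0) (XT.lf (nat_lit 0) (nat_lit 130314452) (nat_lit 608) (nat_lit 837846379) (nat_lit 684) (nat_lit 7102792268) (nat_lit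 298) (nat_lit 5) (nat_lit 306) (nat_lit 5) (nat_lit 307) (nat_lit 4) (nat_lit 439) (nat_lit 381) (nat_lit 380)) (XT.lf (nat_lit 0) (nat_lit 2131880352) (nat_lit 608) (nat_lit 4776358590) (nat_lit 608) (nat_lit 1249324543) (nat_lit 290) (nat_lit 4) (nat_lit 298) (nat_lit 5) (nat_lit 298) (nat_lit 4) (nat_lit 440) (nat_lit 381) (nat_lit 379))) (XT.nd (nat_lit 78) (nat_lit 684) (nat_lit 0) (XT.lf (nat_lit 0) (nat_lit 4186268880) (nat_lit 608) (nat_lit 467272026) (nat_lit 684) (nat_lit 3593889098) (nat_lit 281) (nat_lit 5) (nat_lit 289) (nat_lit 5) (nat_lit 290) (nat_lit 4) (nat_lit 441) (nat_lit 381) (nat_lit 378)) (XT.lf (nat_lit 0) (nat_lit 2305407696) (nat_lit 684) (nat_lit 2060333227) (nat_lit 76) (nat_lit 3974587790) (nat_lit 272) (nat_lit 5) (nat_lit 281) (nat_lit 5) (nat_lit 273) (nat_lit 4) (nat_lit 442) (nat_lit 381) (nat_lit 377))))))))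
noncomputable def xc12 : XT := (XT.nd (nat_lit 2106) (nat_lit 4712) (nat_lit 0) (XT.nd (nat_lit 1014) (nat_lit 5852) (nat_lit 0) (XT.nd (nat_lit 468) (nat_lit 3572) (nat_lit 0) (XT.nd (nat_lit 234) (nat_lit 2052) (nat_lit 0) (XT.nd (nat_lit 78) (nat_lit 1748) (nat_lit 0) (XT.lf (nat_lit 0) (nat_lit 8274142753) (nat_lit 608) (nat_lit 2256698) (nat_lit 0) (nat_lit 160321587) (nat_lit 265) (nat_lit 5) (nat_lit 273) (nat_lit 4) (nat_lit 265) (nat_lit 4) (nat_lit 443) (nat_lit 381) (nat_lit 376)) (XT.nd (nat_lit 78) (nat_lit 608) (nat_lit 0) (XT.lf (nat_lit 0) (nat_lit 2101324921) (nat_lit 532) (nat_lit 3690213950) (nat_lit 608) (nat_lit 2744053099) (nat_lit 250) (nat_lit 5) (nat_lit 257) (nat_lit 5) (nat_lit 258) (nat_lit 4) (nat_lit 444) (nat_lit 381) (nat_lit 375)) (XT.lf (nat_lit 0) (nat_lit 3190623554) (nat_lit 608) (nat_lit 4376636158) (nat_lit 76) (nat_lit 1070747302) (nat_lit 242) (nat_lit 5) (nat_lit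 250) (nat_lit 5) (nat_lit 243) (nat_lit 4) (nat_lit 445) (nat_lit 381) (nat_lit 374)))) (XT.nd (nat_lit 78) (nat_lit 1520) (nat_lit 0) (XT.lf (nat_lit 0) (nat_lit 485815851) (nat_lit 532) (nat_lit 2283053290) (nat_lit 76) (nat_lit 5974806234) (nat_lit 235) (nat_lit 5) (nat_lit 242) (nat_lit 5) (nat_lit 236) (nat_lit 5) (nat_lit 446) (nat_lit 381) (nat_lit 373)) (XT.nd (nat_lit 78) (nat_lit 988) (nat_lit 0) (XT.lf (nat_lit 0) (nat_lit 6485456625) (nat_lit 608) (nat_lit 158288489) (nat_lit 76) (nat_lit 2208805719) (nat_lit 228) (nat_lit 5) (nat_lit 236) (nat_lit 5) (nat_lit 229) (nat_lit 4) (nat_lit 447) (nat_lit 381) (nat_lit 372)) (XT.lf (nat_lit 0) (nat_lit 2032259944) (nat_lit 456) (nat_lit 1601543424) (nat_lit 532) (nat_lit 5330775836) (nat_lit 215) (nat_lit 5) (nat_lit 221) (nat_lit 5) (nat_lit 222) (nat_lit 5) (nat_lit 448) (nat_lit 381) (nat_lit 371))))) (XT.nd (nat_lit 234) (nat_lit 2128) (nat_lit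 0) (XT.nd (nat_lit 78) (nat_lit 912) (nat_lit 0) (XT.lf (nat_lit 0) (nat_lit 670904972) (nat_lit 532) (nat_lit 4816743041) (nat_lit 76) (nat_lit 3592377670) (nat_lit 208) (nat_lit 5) (nat_lit 215) (nat_lit 5) (nat_lit 209) (nat_lit 5) (nat_lit 449) (nat_lit 381) (nat_lit 370)) (XT.nd (nat_lit 78) (nat_lit 456) (nat_lit 0) (XT.lf (nat_lit 0) (nat_lit 6529999017) (nat_lit 456) (nat_lit 216397608) (nat_lit 532) (nat_lit 2452516024) (nat_lit 202) (nat_lit 5) (nat_lit 208) (nat_lit 5) (nat_lit 209) (nat_lit 5) (nat_lit 450) (nat_lit 381) (nat_lit 369)) (XT.lf (nat_lit 0) (nat_lit 3626147183) (nat_lit 456) (nat_lit 500678899) (nat_lit 76) (nat_lit 5194233955) (nat_lit 196) (nat_lit 5) (nat_lit 202) (nat_lit 5) (nat_lit 197) (nat_lit 5) (nat_lit 451) (nat_lit 381) (nat_lit 368)))) (XT.nd (nat_lit 156) (nat_lit 836) (nat_lit 0) (XT.nd (nat_lit 78) (nat_lit 380) (nat_lit 0) (XT.lf (nat_lit 0) (nat_lit 383675359)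 (nat_lit 456) (nat_lit 7707862801) (nat_lit 76) (nat_lit 1355327280) (nat_lit 184) (nat_lit 5) (nat_lit 190) (nat_lit 5) (nat_lit 185) (nat_lit 5) (nat_lit 452) (nat_lit 381) (nat_lit 367)) (XT.lf (nat_lit 0) (nat_lit 3997869760) (nat_lit 380) (nat_lit 2563111910) (nat_lit 456) (nat_lit 3014840680) (nat_lit 179) (nat_lit 5) (nat_lit 184) (nat_lit 5) (nat_lit 185) (nat_lit 5) (nat_lit 453) (nat_lit 381) (nat_lit 366))) (XT.nd (nat_lit 78) (nat_lit 380) (nat_lit 0) (XT.lf (nat_lit 0) (nat_lit 3157921796) (nat_lit 456) (nat_lit 3415124058) (nat_lit 76) (nat_lit 3135486712) (nat_lit 173) (nat_lit 5) (nat_lit 179) (nat_lit 5) (nat_lit 174) (nat_lit 5) (nat_lit 454) (nat_lit 381) (nat_lit 365)) (XT.lf (nat_lit 0) (nat_lit 8629758776) (nat_lit 380) (nat_lit 829554525) (nat_lit 456) (nat_lit 385828590) (nat_lit 168) (nat_lit 5) (nat_lit 173) (nat_lit 5) (nat_lit 174) (nat_lit 5) (nat_lit 455) (nat_lit 381)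 (nat_lit 364)))))) (XT.nd (nat_lit 546) (nat_lit 2432) (nat_lit 0) (XT.nd (nat_lit 234) (nat_lit 1824) (nat_lit 0) (XT.nd (nat_lit 78) (nat_lit 760) (nat_lit 0) (XT.lf (nat_lit 0) (nat_lit 999679057) (nat_lit 380) (nat_lit 4895239768) (nat_lit 456) (nat_lit 4089975720) (nat_lit 157) (nat_lit 5) (nat_lit 162) (nat_lit 5) (nat_lit 163) (nat_lit 5) (nat_lit 456) (nat_lit 381) (nat_lit 363)) (XT.nd (nat_lit 78) (nat_lit 380) (nat_lit 0) (XT.lf (nat_lit 0) (nat_lit 2193076481) (nat_lit 380) (nat_lit 6853323159) (nat_lit 76) (nat_lit 1082258291) (nat_lit 152) (nat_lit 5) (nat_lit 157) (nat_lit 5) (nat_lit 153) (nat_lit 5) (nat_lit 457) (nat_lit 381) (nat_lit 362)) (XT.lf (nat_lit 0) (nat_lit 5564728299) (nat_lit 380) (nat_lit 3051070731) (nat_lit 456) (nat_lit 1660263529) (nat_lit 147) (nat_lit 5) (nat_lit 152) (nat_lit 5) (nat_lit 153) (nat_lit 5) (nat_lit 458) (nat_lit 381) (nat_lit 361)))) (XT.nd (nat_lit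 156) (nat_lit 988) (nat_lit 0) (XT.nd (nat_lit 78) (nat_lit 456) (nat_lit 0) (XT.lf (nat_lit 0) (nat_lit 4736786730) (nat_lit 380) (nat_lit 2551498124) (nat_lit 76) (nat_lit 3139055118) (nat_lit 142) (nat_lit 5) (nat_lit 147) (nat_lit 5) (nat_lit 143) (nat_lit 5) (nat_lit 459) (nat_lit 381) (nat_lit 360)) (XT.lf (nat_lit 0) (nat_lit 709494512) (nat_lit 456) (nat_lit 358648580) (nat_lit 76) (nat_lit 9514729474) (nat_lit 136) (nat_lit 5) (nat_lit 142) (nat_lit 5) (nat_lit 137) (nat_lit 5) (nat_lit 460) (nat_lit 381) (nat_lit 359))) (XT.nd (nat_lit 78) (nat_lit 380) (nat_lit 0) (XT.lf (nat_lit 0) (nat_lit 1854683087) (nat_lit 304) (nat_lit 5397458997) (nat_lit 380) (nat_lit 3489622018) (nat_lit 128) (nat_lit 5) (nat_lit 132) (nat_lit 5) (nat_lit 133) (nat_lit 5) (nat_lit 461) (nat_lit 381) (nat_lit 358)) (XT.lf (nat_lit 0) (nat_lit 3043923959) (nat_lit 380) (nat_lit 6797560675) (nat_lit 76) (nat_lit 1063565449)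 (nat_lit 123) (nat_lit 5) (nat_lit 128) (nat_lit 5) (nat_lit 124) (nat_lit 5) (nat_lit 462) (nat_lit 381) (nat_lit 357))))) (XT.nd (nat_lit 234) (nat_lit 1444) (nat_lit 0) (XT.nd (nat_lit 78) (nat_lit 684) (nat_lit 0) (XT.lf (nat_lit 0) (nat_lit 6369262670) (nat_lit 304) (nat_lit 3377616298) (nat_lit 380) (nat_lit 1325481297) (nat_lit 119) (nat_lit 5) (nat_lit 123) (nat_lit 5) (nat_lit 124) (nat_lit 5) (nat_lit 463) (nat_lit 381) (nat_lit 356)) (XT.nd (nat_lit 78) (nat_lit 380) (nat_lit 0) (XT.lf (nat_lit 0) (nat_lit 5343530182) (nat_lit 304) (nat_lit 2601688559) (nat_lit 76) (nat_lit 3298608023) (nat_lit 115) (nat_lit 5) (nat_lit 119) (nat_lit 5) (nat_lit 116) (nat_lit 5) (nat_lit 464) (nat_lit 381) (nat_lit 355)) (XT.lf (nat_lit 0) (nat_lit 775650828) (nat_lit 380) (nat_lit 473817429) (nat_lit 76) (nat_lit 10170466836) (nat_lit 110) (nat_lit 5) (nat_lit 115) (nat_lit 5) (nat_lit 111) (nat_lit 5)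 (nat_lit 465) (nat_lit 381) (nat_lit 354)))) (XT.nd (nat_lit 156) (nat_lit 608) (nat_lit 0) (XT.nd (nat_lit 78) (nat_lit 304) (nat_lit 0) (XT.lf (nat_lit 0) (nat_lit 1662210640) (nat_lit 304) (nat_lit 5948690857) (nat_lit 380) (nat_lit 3988864242) (nat_lit 103) (nat_lit 5) (nat_lit 107) (nat_lit 5) (nat_lit 108) (nat_lit 5) (nat_lit 466) (nat_lit 381) (nat_lit 353)) (XT.lf (nat_lit 0) (nat_lit 2839323505) (nat_lit 304) (nat_lit 7951261571) (nat_lit 76) (nat_lit 993822803) (nat_lit 99) (nat_lit 5) (nat_lit 103) (nat_lit 5) (nat_lit 100) (nat_lit 5) (nat_lit 467) (nat_lit 381) (nat_lit 352))) (XT.nd (nat_lit 78) (nat_lit 304) (nat_lit 0) (XT.lf (nat_lit 0) (nat_lit 5998976237) (nat_lit 304) (nat_lit 3854011787) (nat_lit 380) (nat_lit 2120380052) (nat_lit 95) (nat_lit 5) (nat_lit 99) (nat_lit 5) (nat_lit 100) (nat_lit 5) (nat_lit 468) (nat_lit 381) (nat_lit 351)) (XT.lf (nat_lit 0) (nat_lit 4863186861)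 (nat_lit 304) (nat_lit 3995220237) (nat_lit 76) (nat_lit 3308584910) (nat_lit 91) (nat_lit 5) (nat_lit 95) (nat_lit 5) (nat_lit 92) (nat_lit 5) (nat_lit 469) (nat_lit 381) (nat_lit 350))))))) (XT.nd (nat_lit 1014) (nat_lit 1140) (nat_lit 0) (XT.nd (nat_lit 468) (nat_lit 1748) (nat_lit 0) (XT.nd (nat_lit 234) (nat_lit 760) (nat_lit 0) (XT.nd (nat_lit 78) (nat_lit 836) (nat_lit 0) (XT.lf (nat_lit 0) (nat_lit 10364730576) (nat_lit 228) (nat_lit 1687498662) (nat_lit 304) (nat_lit 313421993) (nat_lit 88) (nat_lit 5) (nat_lit 91) (nat_lit 5) (nat_lit 92) (nat_lit 5) (nat_lit 470) (nat_lit 381) (nat_lit 349)) (XT.nd (nat_lit 78) (nat_lit 532) (nat_lit 0) (XT.lf (nat_lit 0) (nat_lit 6834781205) (nat_lit 304) (nat_lit 34248626) (nat_lit 76) (nat_lit 5699579864) (nat_lit 84) (nat_lit 5) (nat_lit 88) (nat_lit 5) (nat_lit 85) (nat_lit 5) (nat_lit 471) (nat_lit 381) (nat_lit 348)) (XT.lf (nat_lit 0) (nat_lit 1427863543)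 (nat_lit 304) (nat_lit 10791811312) (nat_lit 76) (nat_lit 557141550) (nat_lit 77) (nat_lit 5) (nat_lit 81) (nat_lit 5) (nat_lit 78) (nat_lit 5) (nat_lit 472) (nat_lit 381) (nat_lit 347)))) (XT.nd (nat_lit 78) (nat_lit 532) (nat_lit 0) (XT.lf (nat_lit 0) (nat_lit 3972351039) (nat_lit 228) (nat_lit 4805491059) (nat_lit 304) (nat_lit 4211644606) (nat_lit 74) (nat_lit 5) (nat_lit 77) (nat_lit 5) (nat_lit 78) (nat_lit 5) (nat_lit 473) (nat_lit 381) (nat_lit 346)) (XT.nd (nat_lit 78) (nat_lit 228) (nat_lit 0) (XT.lf (nat_lit 0) (nat_lit 3124018498) (nat_lit 304) (nat_lit 7236129212) (nat_lit 76) (nat_lit 2847475418) (nat_lit 70) (nat_lit 5) (nat_lit 74) (nat_lit 5) (nat_lit 71) (nat_lit 5) (nat_lit 474) (nat_lit 381) (nat_lit 345)) (XT.lf (nat_lit 0) (nat_lit 7960117915) (nat_lit 228) (nat_lit 2703605516) (nat_lit 304) (nat_lit 2767201559) (nat_lit 67) (nat_lit 5) (nat_lit 70) (nat_lit 5) (nat_lit 71) (nat_lit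 5) (nat_lit 475) (nat_lit 381) (nat_lit 344))))) (XT.nd (nat_lit 234) (nat_lit 1064) (nat_lit 0) (XT.nd (nat_lit 78) (nat_lit 456) (nat_lit 0) (XT.lf (nat_lit 0) (nat_lit 4751020119) (nat_lit 228) (nat_lit 3727457032) (nat_lit 76) (nat_lit 5180934015) (nat_lit 64) (nat_lit 5) (nat_lit 67) (nat_lit 5) (nat_lit 65) (nat_lit 5) (nat_lit 476) (nat_lit 381) (nat_lit 343)) (XT.nd (nat_lit 78) (nat_lit 228) (nat_lit 0) (XT.lf (nat_lit 0) (nat_lit 11914510355) (nat_lit 228) (nat_lit 573681287) (nat_lit 304) (nat_lit 1405576296) (nat_lit 61) (nat_lit 5) (nat_lit 64) (nat_lit 5) (nat_lit 65) (nat_lit 5) (nat_lit 477) (nat_lit 381) (nat_lit 342)) (XT.lf (nat_lit 0) (nat_lit 6303917073) (nat_lit 228) (nat_lit 281443486) (nat_lit 76) (nat_lit 7547685353) (nat_lit 58) (nat_lit 5) (nat_lit 61) (nat_lit 5) (nat_lit 59) (nat_lit 5) (nat_lit 478) (nat_lit 381) (nat_lit 341)))) (XT.nd (nat_lit 156) (nat_lit 380) (nat_lit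 0) (XT.nd (nat_lit 78) (nat_lit 304) (nat_lit 0) (XT.lf (nat_lit 0) (nat_lit 1449787469) (nat_lit 152) (nat_lit 12816037986) (nat_lit 228) (nat_lit 112688093) (nat_lit 53) (nat_lit 5) (nat_lit 55) (nat_lit 5) (nat_lit 56) (nat_lit 4) (nat_lit 479) (nat_lit 381) (nat_lit 340)) (XT.lf (nat_lit 0) (nat_lit 3125560677) (nat_lit 228) (nat_lit 4671385688) (nat_lit 304) (nat_lit 6832093785) (nat_lit 49) (nat_lit 5) (nat_lit 52) (nat_lit 5) (nat_lit 53) (nat_lit 5) (nat_lit 480) (nat_lit 381) (nat_lit 339))) (XT.nd (nat_lit 78) (nat_lit 152) (nat_lit 0) (XT.lf (nat_lit 0) (nat_lit 1086374314) (nat_lit 228) (nat_lit 10082824947) (nat_lit 76) (nat_lit 3716834011) (nat_lit 46) (nat_lit 5) (nat_lit 49) (nat_lit 5) (nat_lit 47) (nat_lit 5) (nat_lit 481) (nat_lit 381) (nat_lit 338)) (XT.lf (nat_lit 0) (nat_lit 6435726909) (nat_lit 152) (nat_lit 2768034994) (nat_lit 228) (nat_lit 5944988818) (nat_lit 44) (nat_lit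 5) (nat_lit 46) (nat_lit 5) (nat_lit 47) (nat_lit 5) (nat_lit 482) (nat_lit 381) (nat_lit 337)))))) (XT.nd (nat_lit 58890) (nat_lit 0) (nat_lit 17860) (XT.nd (nat_lit 234) (nat_lit 532) (nat_lit 0) (XT.nd (nat_lit 78) (nat_lit 380) (nat_lit 0) (XT.lf (nat_lit 0) (nat_lit 2180273100) (nat_lit 228) (nat_lit 7372655563) (nat_lit 76) (nat_lit 5864882093) (nat_lit 41) (nat_lit 5) (nat_lit 44) (nat_lit 5) (nat_lit 42) (nat_lit 5) (nat_lit 483) (nat_lit 381) (nat_lit 336)) (XT.nd (nat_lit 78) (nat_lit 228) (nat_lit 0) (XT.lf (nat_lit 0) (nat_lit 9623617505) (nat_lit 152) (nat_lit 890204670) (nat_lit 228) (nat_lit 5179429882) (nat_lit 39) (nat_lit 5) (nat_lit 41) (nat_lit 5) (nat_lit 42) (nat_lit 5) (nat_lit 484) (nat_lit 381) (nat_lit 335)) (XT.lf (nat_lit 0) (nat_lit 3160586991) (nat_lit 228) (nat_lit 4821367118) (nat_lit 76) (nat_lit 7992976768) (nat_lit 36) (nat_lit 5) (nat_lit 39) (nat_lit 5) (nat_lit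 37) (nat_lit 5) (nat_lit 485) (nat_lit 381) (nat_lit 334)))) (XT.nd (nat_lit 156) (nat_lit 152) (nat_lit 0) (XT.nd (nat_lit 78) (nat_lit 228) (nat_lit 0) (XT.lf (nat_lit 0) (nat_lit 11723163971) (nat_lit 228) (nat_lit 3604718028) (nat_lit 76) (nat_lit 935640044) (nat_lit 34) (nat_lit 5) (nat_lit 37) (nat_lit 5) (nat_lit 35) (nat_lit 4) (nat_lit 486) (nat_lit 381) (nat_lit 333)) (XT.lf (nat_lit 0) (nat_lit 4015897940) (nat_lit 228) (nat_lit 2455493635) (nat_lit 76) (nat_lit 10087138043) (nat_lit 31) (nat_lit 5) (nat_lit 34) (nat_lit 5) (nat_lit 32) (nat_lit 5) (nat_lit 487) (nat_lit 381) (nat_lit 332))) (XT.nd (nat_lit 58422) (nat_lit 0) (nat_lit 23180) (XT.lf (nat_lit 0) (nat_lit 12819376933) (nat_lit 228) (nat_lit 1345608373) (nat_lit 76) (nat_lit 2695758620) (nat_lit 29) (nat_lit 5) (nat_lit 32) (nat_lit 5) (nat_lit 30) (nat_lit 4) (nat_lit 488) (nat_lit 381) (nat_lit 331)) (XT.lf (nat_lit 0) (nat_lit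 598303496) (nat_lit 760) (nat_lit 2716958234) (nat_lit 0) (nat_lit 598303496) (nat_lit 334) (nat_lit 5) (nat_lit 344) (nat_lit 4) (nat_lit 334) (nat_lit 4) (nat_lit 436) (nat_lit 382) (nat_lit 382))))) (XT.nd (nat_lit 234) (nat_lit 3192) (nat_lit 0) (XT.nd (nat_lit 78) (nat_lit 1444) (nat_lit 0) (XT.lf (nat_lit 0) (nat_lit 4210893490) (nat_lit 684) (nat_lit 2806554290) (nat_lit 684) (nat_lit 888820118) (nat_lit 325) (nat_lit 4) (nat_lit 334) (nat_lit 5) (nat_lit 334) (nat_lit 4) (nat_lit 437) (nat_lit 382) (nat_lit 381)) (XT.nd (nat_lit 78) (nat_lit 760) (nat_lit 0) (XT.lf (nat_lit 0) (nat_lit 4891953673) (nat_lit 684) (nat_lit 1910076007) (nat_lit 0) (nat_lit 1186451703) (nat_lit 316) (nat_lit 5) (nat_lit 325) (nat_lit 4) (nat_lit 316) (nat_lit 4) (nat_lit 438) (nat_lit 382) (nat_lit 380)) (XT.lf (nat_lit 0) (nat_lit 2671772220) (nat_lit 760) (nat_lit 80726383) (nat_lit 76) (nat_lit 5321256109) (nat_lit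 306) (nat_lit 5) (nat_lit 316) (nat_lit 5) (nat_lit 307) (nat_lit 4) (nat_lit 439) (nat_lit 382) (nat_lit 379)))) (XT.nd (nat_lit 156) (nat_lit 1292) (nat_lit 0) (XT.nd (nat_lit 78) (nat_lit 608) (nat_lit 0) (XT.lf (nat_lit 0) (nat_lit 357049690) (nat_lit 684) (nat_lit 6335909593) (nat_lit 76) (nat_lit 1469121465) (nat_lit 289) (nat_lit 5) (nat_lit 298) (nat_lit 5) (nat_lit 290) (nat_lit 4) (nat_lit 440) (nat_lit 382) (nat_lit 378)) (XT.lf (nat_lit 0) (nat_lit 3766188478) (nat_lit 608) (nat_lit 2402651425) (nat_lit 684) (nat_lit 2084442814) (nat_lit 281) (nat_lit 5) (nat_lit 289) (nat_lit 5) (nat_lit 290) (nat_lit 4) (nat_lit 441) (nat_lit 382) (nat_lit 377))) (XT.nd (nat_lit 78) (nat_lit 608) (nat_lit 0) (XT.lf (nat_lit 0) (nat_lit 3707925588) (nat_lit 684) (nat_lit 2593211642) (nat_lit 76) (nat_lit 2046594515) (nat_lit 272) (nat_lit 5) (nat_lit 281) (nat_lit 5) (nat_lit 273) (nat_lit 4) (nat_lit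 442) (nat_lit 382) (nat_lit 376)) (XT.lf (nat_lit 0) (nat_lit 1141029393) (nat_lit 608) (nat_lit 654118773) (nat_lit 76) (nat_lit 6650326213) (nat_lit 264) (nat_lit 5) (nat_lit 272) (nat_lit 5) (nat_lit 265) (nat_lit 5) (nat_lit 443) (nat_lit 382) (nat_lit 375))))))))
noncomputable def xc13 : XT := (XT.nd (nat_lit 2106) (nat_lit 4484) (nat_lit 0) (XT.nd (nat_lit 1014) (nat_lit 5624) (nat_lit 0) (XT.nd (nat_lit 468) (nat_lit 3496) (nat_lit 0) (XT.nd (nat_lit 234) (nat_lit 2052) (nat_lit 0) (XT.nd (nat_lit 78) (nat_lit 1140) (nat_lit 0) (XT.lf (nat_lit 0) (nat_lit 1335397468) (nat_lit 532) (nat_lit 5667185237) (nat_lit 608) (nat_lit 1543553536) (nat_lit 250) (nat_lit 5) (nat_lit 257) (nat_lit 5) (nat_lit 258) (nat_lit 4) (nat_lit 444) (nat_lit 382) (nat_lit 374)) (XT.nd (nat_lit 78) (nat_lit 532) (nat_lit 0) (XT.lf (nat_lit 0) (nat_lit 3376101062) (nat_lit 532) (nat_lit 917901277) (nat_lit 608) (nat_lit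 4356023824) (nat_lit 242) (nat_lit 5) (nat_lit 249) (nat_lit 5) (nat_lit 250) (nat_lit 5) (nat_lit 445) (nat_lit 382) (nat_lit 373)) (XT.lf (nat_lit 0) (nat_lit 1482537295) (nat_lit 532) (nat_lit 3303765276) (nat_lit 76) (nat_lit 3970859822) (nat_lit 235) (nat_lit 5) (nat_lit 242) (nat_lit 5) (nat_lit 236) (nat_lit 5) (nat_lit 446) (nat_lit 382) (nat_lit 372)))) (XT.nd (nat_lit 78) (nat_lit 1520) (nat_lit 0) (XT.lf (nat_lit 0) (nat_lit 7395069853) (nat_lit 608) (nat_lit 1290875199) (nat_lit 76) (nat_lit 181837963) (nat_lit 228) (nat_lit 5) (nat_lit 236) (nat_lit 5) (nat_lit 229) (nat_lit 4) (nat_lit 447) (nat_lit 382) (nat_lit 371)) (XT.nd (nat_lit 78) (nat_lit 532) (nat_lit 0) (XT.lf (nat_lit 0) (nat_lit 749530605) (nat_lit 456) (nat_lit 3684739371) (nat_lit 532) (nat_lit 4547071815) (nat_lit 215) (nat_lit 5) (nat_lit 221) (nat_lit 5) (nat_lit 222) (nat_lit 5) (nat_lit 448) (nat_lit 382) (nat_lit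 370)) (XT.lf (nat_lit 0) (nat_lit 1355882887) (nat_lit 532) (nat_lit 6240771782) (nat_lit 76) (nat_lit 1501803505) (nat_lit 208) (nat_lit 5) (nat_lit 215) (nat_lit 5) (nat_lit 209) (nat_lit 5) (nat_lit 449) (nat_lit 382) (nat_lit 369))))) (XT.nd (nat_lit 234) (nat_lit 2052) (nat_lit 0) (XT.nd (nat_lit 78) (nat_lit 988) (nat_lit 0) (XT.lf (nat_lit 0) (nat_lit 4989821581) (nat_lit 456) (nat_lit 2367168357) (nat_lit 532) (nat_lit 1861845532) (nat_lit 202) (nat_lit 5) (nat_lit 208) (nat_lit 5) (nat_lit 209) (nat_lit 5) (nat_lit 450) (nat_lit 382) (nat_lit 368)) (XT.nd (nat_lit 78) (nat_lit 532) (nat_lit 0) (XT.lf (nat_lit 0) (nat_lit 4120395508) (nat_lit 456) (nat_lit 2189023920) (nat_lit 76) (nat_lit 3033262749) (nat_lit 196) (nat_lit 5) (nat_lit 202) (nat_lit 5) (nat_lit 197) (nat_lit 5) (nat_lit 451) (nat_lit 382) (nat_lit 367)) (XT.lf (nat_lit 0) (nat_lit 755107418) (nat_lit 532) (nat_lit 107295294)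 (nat_lit 76) (nat_lit 8607925798) (nat_lit 189) (nat_lit 5) (nat_lit 196) (nat_lit 5) (nat_lit 190) (nat_lit 5) (nat_lit 452) (nat_lit 382) (nat_lit 366)))) (XT.nd (nat_lit 156) (nat_lit 836) (nat_lit 0) (XT.nd (nat_lit 78) (nat_lit 456) (nat_lit 0) (XT.lf (nat_lit 0) (nat_lit 2009891850) (nat_lit 380) (nat_lit 4840775084) (nat_lit 456) (nat_lit 2750255743) (nat_lit 179) (nat_lit 5) (nat_lit 184) (nat_lit 5) (nat_lit 185) (nat_lit 5) (nat_lit 453) (nat_lit 382) (nat_lit 365)) (XT.lf (nat_lit 0) (nat_lit 3328332412) (nat_lit 456) (nat_lit 5565026200) (nat_lit 76) (nat_lit 842056218) (nat_lit 173) (nat_lit 5) (nat_lit 179) (nat_lit 5) (nat_lit 174) (nat_lit 5) (nat_lit 454) (nat_lit 382) (nat_lit 364))) (XT.nd (nat_lit 78) (nat_lit 456) (nat_lit 0) (XT.lf (nat_lit 0) (nat_lit 6355009395) (nat_lit 380) (nat_lit 3199183690) (nat_lit 456) (nat_lit 319343829) (nat_lit 168) (nat_lit 5) (nat_lit 173) (nat_lit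 5) (nat_lit 174) (nat_lit 5) (nat_lit 455) (nat_lit 382) (nat_lit 363)) (XT.lf (nat_lit 0) (nat_lit 5862560852) (nat_lit 456) (nat_lit 1457339963) (nat_lit 76) (nat_lit 2695341578) (nat_lit 162) (nat_lit 5) (nat_lit 168) (nat_lit 5) (nat_lit 163) (nat_lit 5) (nat_lit 456) (nat_lit 382) (nat_lit 362)))))) (XT.nd (nat_lit 546) (nat_lit 2356) (nat_lit 0) (XT.nd (nat_lit 234) (nat_lit 1748) (nat_lit 0) (XT.nd (nat_lit 78) (nat_lit 760) (nat_lit 0) (XT.lf (nat_lit 0) (nat_lit 645813600) (nat_lit 304) (nat_lit 1391404375) (nat_lit 380) (nat_lit 8123677391) (nat_lit 152) (nat_lit 5) (nat_lit 156) (nat_lit 5) (nat_lit 157) (nat_lit 5) (nat_lit 457) (nat_lit 382) (nat_lit 361)) (XT.nd (nat_lit 78) (nat_lit 380) (nat_lit 0) (XT.lf (nat_lit 0) (nat_lit 2780340775) (nat_lit 380) (nat_lit 5593313387) (nat_lit 456) (nat_lit 1936373446) (nat_lit 147) (nat_lit 5) (nat_lit 152) (nat_lit 5) (nat_lit 153) (nat_lit 5)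 (nat_lit 458) (nat_lit 382) (nat_lit 360)) (XT.lf (nat_lit 0) (nat_lit 4369824332) (nat_lit 380) (nat_lit 5519799515) (nat_lit 76) (nat_lit 573608297) (nat_lit 142) (nat_lit 5) (nat_lit 147) (nat_lit 5) (nat_lit 143) (nat_lit 5) (nat_lit 459) (nat_lit 382) (nat_lit 359)))) (XT.nd (nat_lit 156) (nat_lit 988) (nat_lit 0) (XT.nd (nat_lit 78) (nat_lit 304) (nat_lit 0) (XT.lf (nat_lit 0) (nat_lit 233685913) (nat_lit 456) (nat_lit 3495728176) (nat_lit 76) (nat_lit 6890969420) (nat_lit 136) (nat_lit 5) (nat_lit 142) (nat_lit 5) (nat_lit 137) (nat_lit 5) (nat_lit 460) (nat_lit 382) (nat_lit 358)) (XT.lf (nat_lit 0) (nat_lit 6668513363) (nat_lit 380) (nat_lit 1464071289) (nat_lit 76) (nat_lit 2648848456) (nat_lit 132) (nat_lit 5) (nat_lit 137) (nat_lit 5) (nat_lit 133) (nat_lit 5) (nat_lit 461) (nat_lit 382) (nat_lit 357))) (XT.nd (nat_lit 78) (nat_lit 304) (nat_lit 0) (XT.lf (nat_lit 0) (nat_lit 600204549)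 (nat_lit 304) (nat_lit 1732057977) (nat_lit 380) (nat_lit 8614469847) (nat_lit 123) (nat_lit 5) (nat_lit 127) (nat_lit 5) (nat_lit 128) (nat_lit 5) (nat_lit 462) (nat_lit 382) (nat_lit 356)) (XT.lf (nat_lit 0) (nat_lit 2689563161) (nat_lit 304) (nat_lit 6254309092) (nat_lit 380) (nat_lit 2171998740) (nat_lit 119) (nat_lit 5) (nat_lit 123) (nat_lit 5) (nat_lit 124) (nat_lit 5) (nat_lit 463) (nat_lit 382) (nat_lit 355))))) (XT.nd (nat_lit 234) (nat_lit 1444) (nat_lit 0) (XT.nd (nat_lit 78) (nat_lit 608) (nat_lit 0) (XT.lf (nat_lit 0) (nat_lit 4408385382) (nat_lit 304) (nat_lit 6489092949) (nat_lit 76) (nat_lit 391965136) (nat_lit 115) (nat_lit 5) (nat_lit 119) (nat_lit 5) (nat_lit 116) (nat_lit 5) (nat_lit 464) (nat_lit 382) (nat_lit 354)) (XT.nd (nat_lit 78) (nat_lit 304) (nat_lit 0) (XT.lf (nat_lit 0) (nat_lit 6918749020) (nat_lit 304) (nat_lit 4271167421) (nat_lit 380) (nat_lit 277357526) (nat_lit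 111) (nat_lit 5) (nat_lit 115) (nat_lit 5) (nat_lit 116) (nat_lit 5) (nat_lit 465) (nat_lit 382) (nat_lit 353)) (XT.lf (nat_lit 0) (nat_lit 6449181467) (nat_lit 304) (nat_lit 2608294893) (nat_lit 76) (nat_lit 2591912602) (nat_lit 107) (nat_lit 5) (nat_lit 111) (nat_lit 5) (nat_lit 108) (nat_lit 5) (nat_lit 466) (nat_lit 382) (nat_lit 352)))) (XT.nd (nat_lit 156) (nat_lit 532) (nat_lit 0) (XT.nd (nat_lit 78) (nat_lit 532) (nat_lit 0) (XT.lf (nat_lit 0) (nat_lit 1540815769) (nat_lit 380) (nat_lit 650475076) (nat_lit 76) (nat_lit 9644959866) (nat_lit 102) (nat_lit 5) (nat_lit 107) (nat_lit 5) (nat_lit 103) (nat_lit 5) (nat_lit 467) (nat_lit 382) (nat_lit 351)) (XT.lf (nat_lit 0) (nat_lit 1315522927) (nat_lit 304) (nat_lit 7136447972) (nat_lit 380) (nat_lit 3575291445) (nat_lit 95) (nat_lit 5) (nat_lit 99) (nat_lit 5) (nat_lit 100) (nat_lit 5) (nat_lit 468) (nat_lit 382) (nat_lit 350))) (XT.nd (nat_lit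 78) (nat_lit 228) (nat_lit 0) (XT.lf (nat_lit 0) (nat_lit 3310727050) (nat_lit 228) (nat_lit 10213819) (nat_lit 304) (nat_lit 8902263840) (nat_lit 91) (nat_lit 5) (nat_lit 94) (nat_lit 5) (nat_lit 95) (nat_lit 5) (nat_lit 469) (nat_lit 382) (nat_lit 349)) (XT.lf (nat_lit 0) (nat_lit 5290373336) (nat_lit 228) (nat_lit 5134366993) (nat_lit 304) (nat_lit 1998829611) (nat_lit 88) (nat_lit 5) (nat_lit 91) (nat_lit 5) (nat_lit 92) (nat_lit 5) (nat_lit 470) (nat_lit 382) (nat_lit 348))))))) (XT.nd (nat_lit 1092) (nat_lit 760) (nat_lit 0) (XT.nd (nat_lit 546) (nat_lit 1672) (nat_lit 0) (XT.nd (nat_lit 234) (nat_lit 1216) (nat_lit 0) (XT.nd (nat_lit 78) (nat_lit 532) (nat_lit 0) (XT.lf (nat_lit 0) (nat_lit 5062638339) (nat_lit 304) (nat_lit 5351597560) (nat_lit 76) (nat_lit 2214689252) (nat_lit 84) (nat_lit 5) (nat_lit 88) (nat_lit 5) (nat_lit 85) (nat_lit 5) (nat_lit 471) (nat_lit 382) (nat_lit 347)) (XT.nd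 (nat_lit 78) (nat_lit 304) (nat_lit 0) (XT.lf (nat_lit 0) (nat_lit 9270935987) (nat_lit 228) (nat_lit 3077783471) (nat_lit 304) (nat_lit 490660965) (nat_lit 81) (nat_lit 5) (nat_lit 84) (nat_lit 5) (nat_lit 85) (nat_lit 5) (nat_lit 472) (nat_lit 382) (nat_lit 346)) (XT.lf (nat_lit 0) (nat_lit 6745153088) (nat_lit 304) (nat_lit 1810641470) (nat_lit 76) (nat_lit 4498732883) (nat_lit 77) (nat_lit 5) (nat_lit 81) (nat_lit 5) (nat_lit 78) (nat_lit 5) (nat_lit 473) (nat_lit 382) (nat_lit 345)))) (XT.nd (nat_lit 156) (nat_lit 456) (nat_lit 0) (XT.nd (nat_lit 78) (nat_lit 456) (nat_lit 0) (XT.lf (nat_lit 0) (nat_lit 933568387) (nat_lit 304) (nat_lit 36122201) (nat_lit 76) (nat_lit 12305651289) (nat_lit 73) (nat_lit 5) (nat_lit 77) (nat_lit 5) (nat_lit 74) (nat_lit 5) (nat_lit 474) (nat_lit 382) (nat_lit 344)) (XT.lf (nat_lit 0) (nat_lit 1719939775) (nat_lit 228) (nat_lit 6656323286) (nat_lit 304) (nat_lit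 5124321819) (nat_lit 67) (nat_lit 5) (nat_lit 70) (nat_lit 5) (nat_lit 71) (nat_lit 5) (nat_lit 475) (nat_lit 382) (nat_lit 343))) (XT.nd (nat_lit 78) (nat_lit 228) (nat_lit 0) (XT.lf (nat_lit 0) (nat_lit 2307131604) (nat_lit 228) (nat_lit 10240344013) (nat_lit 76) (nat_lit 1184256055) (nat_lit 64) (nat_lit 5) (nat_lit 67) (nat_lit 5) (nat_lit 65) (nat_lit 5) (nat_lit 476) (nat_lit 382) (nat_lit 342)) (XT.lf (nat_lit 0) (nat_lit 5226582856) (nat_lit 228) (nat_lit 4725529230) (nat_lit 304) (nat_lit 4015821045) (nat_lit 61) (nat_lit 5) (nat_lit 64) (nat_lit 5) (nat_lit 65) (nat_lit 5) (nat_lit 477) (nat_lit 382) (nat_lit 341))))) (XT.nd (nat_lit 234) (nat_lit 988) (nat_lit 0) (XT.nd (nat_lit 78) (nat_lit 456) (nat_lit 0) (XT.lf (nat_lit 0) (nat_lit 3607121477) (nat_lit 228) (nat_lit 7252683528) (nat_lit 76) (nat_lit 3350161565) (nat_lit 58) (nat_lit 5) (nat_lit 61) (nat_lit 5) (nat_lit 59) (nat_lit 5)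 (nat_lit 478) (nat_lit 382) (nat_lit 340)) (XT.nd (nat_lit 78) (nat_lit 228) (nat_lit 0) (XT.lf (nat_lit 0) (nat_lit 8669021017) (nat_lit 228) (nat_lit 2786332585) (nat_lit 304) (nat_lit 3002354929) (nat_lit 55) (nat_lit 5) (nat_lit 58) (nat_lit 5) (nat_lit 59) (nat_lit 5) (nat_lit 479) (nat_lit 382) (nat_lit 339)) (XT.lf (nat_lit 0) (nat_lit 4820558727) (nat_lit 228) (nat_lit 4360605947) (nat_lit 76) (nat_lit 5529938838) (nat_lit 52) (nat_lit 5) (nat_lit 55) (nat_lit 5) (nat_lit 53) (nat_lit 5) (nat_lit 480) (nat_lit 382) (nat_lit 338)))) (XT.nd (nat_lit 156) (nat_lit 532) (nat_lit 0) (XT.nd (nat_lit 78) (nat_lit 228) (nat_lit 0) (XT.lf (nat_lit 0) (nat_lit 12029267876) (nat_lit 228) (nat_lit 850151129) (nat_lit 304) (nat_lit 2091444938) (nat_lit 49) (nat_lit 5) (nat_lit 52) (nat_lit 5) (nat_lit 53) (nat_lit 5) (nat_lit 481) (nat_lit 382) (nat_lit 337)) (XT.lf (nat_lit 0) (nat_lit 5939796252) (nat_lit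 228) (nat_lit 1583991045) (nat_lit 76) (nat_lit 7712337900) (nat_lit 46) (nat_lit 5) (nat_lit 49) (nat_lit 5) (nat_lit 47) (nat_lit 5) (nat_lit 482) (nat_lit 382) (nat_lit 336))) (XT.nd (nat_lit 78) (nat_lit 380) (nat_lit 0) (XT.lf (nat_lit 0) (nat_lit 14223462280) (nat_lit 228) (nat_lit 228036216) (nat_lit 76) (nat_lit 1056772647) (nat_lit 44) (nat_lit 5) (nat_lit 47) (nat_lit 5) (nat_lit 45) (nat_lit 4) (nat_lit 483) (nat_lit 382) (nat_lit 335)) (XT.lf (nat_lit 0) (nat_lit 1069117428) (nat_lit 152) (nat_lit 5893704842) (nat_lit 228) (nat_lit 8823113028) (nat_lit 39) (nat_lit 5) (nat_lit 41) (nat_lit 5) (nat_lit 42) (nat_lit 5) (nat_lit 484) (nat_lit 382) (nat_lit 334)))))) (XT.nd (nat_lit 58734) (nat_lit 0) (nat_lit 17860) (XT.nd (nat_lit 234) (nat_lit 228) (nat_lit 0) (XT.nd (nat_lit 78) (nat_lit 380) (nat_lit 0) (XT.lf (nat_lit 0) (nat_lit 2361246335) (nat_lit 152) (nat_lit 13130814792) (nat_lit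 228) (nat_lit 578666994) (nat_lit 37) (nat_lit 5) (nat_lit 39) (nat_lit 5) (nat_lit 40) (nat_lit 4) (nat_lit 485) (nat_lit 382) (nat_lit 333)) (XT.nd (nat_lit 78) (nat_lit 152) (nat_lit 0) (XT.lf (nat_lit 0) (nat_lit 3579078243) (nat_lit 152) (nat_lit 4302596547) (nat_lit 228) (nat_lit 8479916730) (nat_lit 34) (nat_lit 5) (nat_lit 36) (nat_lit 5) (nat_lit 37) (nat_lit 5) (nat_lit 486) (nat_lit 382) (nat_lit 332)) (XT.lf (nat_lit 0) (nat_lit 4775660284) (nat_lit 152) (nat_lit 11878361880) (nat_lit 228) (nat_lit 5762198) (nat_lit 32) (nat_lit 5) (nat_lit 34) (nat_lit 5) (nat_lit 35) (nat_lit 4) (nat_lit 487) (nat_lit 382) (nat_lit 331)))) (XT.nd (nat_lit 58344) (nat_lit 0) (nat_lit 23180) (XT.nd (nat_lit 58266) (nat_lit 0) (nat_lit 25460) (XT.lf (nat_lit 0) (nat_lit 5897219542) (nat_lit 152) (nat_lit 2776605765) (nat_lit 228) (nat_lit 8290654007) (nat_lit 29) (nat_lit 5) (nat_lit 31) (nat_lit 5) (nat_lit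 32) (nat_lit 5) (nat_lit 488) (nat_lit 382) (nat_lit 330)) (XT.lf (nat_lit 0) (nat_lit 3346615276) (nat_lit 760) (nat_lit 245784881) (nat_lit 760) (nat_lit 245784881) (nat_lit 364) (nat_lit 4) (nat_lit 374) (nat_lit 5) (nat_lit 374) (nat_lit 4) (nat_lit 434) (nat_lit 383) (nat_lit 383))) (XT.nd (nat_lit 78) (nat_lit 760) (nat_lit 0) (XT.lf (nat_lit 0) (nat_lit 618260069) (nat_lit 760) (nat_lit 4573702556) (nat_lit 760) (nat_lit 2558931035) (nat_lit 344) (nat_lit 4) (nat_lit 354) (nat_lit 5) (nat_lit 354) (nat_lit 4) (nat_lit 435) (nat_lit 383) (nat_lit 382)) (XT.lf (nat_lit 0) (nat_lit 2293773248) (nat_lit 684) (nat_lit 807530526) (nat_lit 760) (nat_lit 4727242699) (nat_lit 334) (nat_lit 5) (nat_lit 343) (nat_lit 5) (nat_lit 344) (nat_lit 4) (nat_lit 436) (nat_lit 383) (nat_lit 381))))) (XT.nd (nat_lit 234) (nat_lit 3192) (nat_lit 0) (XT.nd (nat_lit 78) (nat_lit 1368) (nat_lit 0) (XT.lf (nat_lit 0)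 (nat_lit 920533907) (nat_lit 760) (nat_lit 3895399712) (nat_lit 76) (nat_lit 3093235411) (nat_lit 324) (nat_lit 5) (nat_lit 334) (nat_lit 5) (nat_lit 325) (nat_lit 4) (nat_lit 437) (nat_lit 383) (nat_lit 380)) (XT.nd (nat_lit 78) (nat_lit 760) (nat_lit 0) (XT.lf (nat_lit 0) (nat_lit 5784318497) (nat_lit 608) (nat_lit 823030556) (nat_lit 684) (nat_lit 1385568358) (nat_lit 316) (nat_lit 5) (nat_lit 324) (nat_lit 5) (nat_lit 325) (nat_lit 4) (nat_lit 438) (nat_lit 383) (nat_lit 379)) (XT.lf (nat_lit 0) (nat_lit 4280746137) (nat_lit 760) (nat_lit 487721256) (nat_lit 76) (nat_lit 3311096164) (nat_lit 306) (nat_lit 5) (nat_lit 316) (nat_lit 5) (nat_lit 307) (nat_lit 4) (nat_lit 439) (nat_lit 383) (nat_lit 378)))) (XT.nd (nat_lit 156) (nat_lit 1292) (nat_lit 0) (XT.nd (nat_lit 78) (nat_lit 608) (nat_lit 0) (XT.lf (nat_lit 0) (nat_lit 1306732889) (nat_lit 608) (nat_lit 545462858) (nat_lit 684) (nat_lit 6317229411)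 (nat_lit 289) (nat_lit 5) (nat_lit 297) (nat_lit 5) (nat_lit 298) (nat_lit 5) (nat_lit 440) (nat_lit 383) (nat_lit 377)) (XT.lf (nat_lit 0) (nat_lit 3141321907) (nat_lit 608) (nat_lit 4445198819) (nat_lit 684) (nat_lit 675659470) (nat_lit 281) (nat_lit 5) (nat_lit 289) (nat_lit 5) (nat_lit 290) (nat_lit 4) (nat_lit 441) (nat_lit 383) (nat_lit 376))) (XT.nd (nat_lit 78) (nat_lit 608) (nat_lit 0) (XT.lf (nat_lit 0) (nat_lit 5011118250) (nat_lit 684) (nat_lit 3335537602) (nat_lit 76) (nat_lit 11536303) (nat_lit 272) (nat_lit 5) (nat_lit 281) (nat_lit 5) (nat_lit 273) (nat_lit 4) (nat_lit 442) (nat_lit 383) (nat_lit 375)) (XT.lf (nat_lit 0) (nat_lit 2343200373) (nat_lit 608) (nat_lit 1519900079) (nat_lit 76) (nat_lit 4594142018) (nat_lit 264) (nat_lit 5) (nat_lit 272) (nat_lit 5) (nat_lit 265) (nat_lit 5) (nat_lit 443) (nat_lit 383) (nat_lit 374))))))))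
noncomputable def xc14 : XT := (XT.nd (nat_lit 2106) (nat_lit 4560) (nat_lit 0) (XT.nd (nat_lit 1014) (nat_lit 5396) (nat_lit 0) (XT.nd (nat_lit 468) (nat_lit 3496) (nat_lit 0) (XT.nd (nat_lit 234) (nat_lit 2052) (nat_lit 0) (XT.nd (nat_lit 78) (nat_lit 1140) (nat_lit 0) (XT.lf (nat_lit 0) (nat_lit 352484824) (nat_lit 532) (nat_lit 7759264415) (nat_lit 608) (nat_lit 448018494) (nat_lit 250) (nat_lit 5) (nat_lit 257) (nat_lit 5) (nat_lit 258) (nat_lit 4) (nat_lit 444) (nat_lit 383) (nat_lit 373)) (XT.nd (nat_lit 78) (nat_lit 532) (nat_lit 0) (XT.lf (nat_lit 0) (nat_lit 2264187051) (nat_lit 532) (nat_lit 3037221927) (nat_lit 608) (nat_lit 3363584774) (nat_lit 242) (nat_lit 5) (nat_lit 249) (nat_lit 5) (nat_lit 250) (nat_lit 5) (nat_lit 445) (nat_lit 383) (nat_lit 372)) (XT.lf (nat_lit 0) (nat_lit 2374307519) (nat_lit 532) (nat_lit 4548784707) (nat_lit 76) (nat_lit 1850664940) (nat_lit 235) (nat_lit 5)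 (nat_lit 242) (nat_lit 5) (nat_lit 236) (nat_lit 5) (nat_lit 446) (nat_lit 383) (nat_lit 371)))) (XT.nd (nat_lit 78) (nat_lit 1520) (nat_lit 0) (XT.lf (nat_lit 0) (nat_lit 6222699040) (nat_lit 532) (nat_lit 1989649263) (nat_lit 608) (nat_lit 673522233) (nat_lit 228) (nat_lit 5) (nat_lit 235) (nat_lit 5) (nat_lit 236) (nat_lit 5) (nat_lit 447) (nat_lit 383) (nat_lit 370)) (XT.nd (nat_lit 78) (nat_lit 988) (nat_lit 0) (XT.lf (nat_lit 0) (nat_lit 5131683865) (nat_lit 532) (nat_lit 755612211) (nat_lit 76) (nat_lit 3113858141) (nat_lit 221) (nat_lit 5) (nat_lit 228) (nat_lit 5) (nat_lit 222) (nat_lit 5) (nat_lit 448) (nat_lit 383) (nat_lit 369)) (XT.lf (nat_lit 0) (nat_lit 1212980952) (nat_lit 456) (nat_lit 722418568) (nat_lit 532) (nat_lit 7184569688) (nat_lit 208) (nat_lit 5) (nat_lit 214) (nat_lit 5) (nat_lit 215) (nat_lit 5) (nat_lit 449) (nat_lit 383) (nat_lit 368))))) (XT.nd (nat_lit 234) (nat_lit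 2052) (nat_lit 0) (XT.nd (nat_lit 78) (nat_lit 988) (nat_lit 0) (XT.lf (nat_lit 0) (nat_lit 3211822388) (nat_lit 456) (nat_lit 4645940350) (nat_lit 532) (nat_lit 1384161205) (nat_lit 202) (nat_lit 5) (nat_lit 208) (nat_lit 5) (nat_lit 209) (nat_lit 5) (nat_lit 450) (nat_lit 383) (nat_lit 367)) (XT.nd (nat_lit 78) (nat_lit 532) (nat_lit 0) (XT.lf (nat_lit 0) (nat_lit 4502587619) (nat_lit 456) (nat_lit 4120338992) (nat_lit 76) (nat_lit 744568994) (nat_lit 196) (nat_lit 5) (nat_lit 202) (nat_lit 5) (nat_lit 197) (nat_lit 5) (nat_lit 451) (nat_lit 383) (nat_lit 366)) (XT.lf (nat_lit 0) (nat_lit 1033311743) (nat_lit 532) (nat_lit 2185604256) (nat_lit 76) (nat_lit 6277671598) (nat_lit 189) (nat_lit 5) (nat_lit 196) (nat_lit 5) (nat_lit 190) (nat_lit 5) (nat_lit 452) (nat_lit 383) (nat_lit 365)))) (XT.nd (nat_lit 156) (nat_lit 836) (nat_lit 0) (XT.nd (nat_lit 78) (nat_lit 836) (nat_lit 0) (XT.lf (nat_lit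 0) (nat_lit 7026049610) (nat_lit 456) (nat_lit 227041862) (nat_lit 76) (nat_lit 2376148978) (nat_lit 184) (nat_lit 5) (nat_lit 190) (nat_lit 5) (nat_lit 185) (nat_lit 5) (nat_lit 453) (nat_lit 383) (nat_lit 364)) (XT.lf (nat_lit 0) (nat_lit 1782620847) (nat_lit 380) (nat_lit 1608330701) (nat_lit 456) (nat_lit 6374414442) (nat_lit 173) (nat_lit 5) (nat_lit 178) (nat_lit 5) (nat_lit 179) (nat_lit 5) (nat_lit 454) (nat_lit 383) (nat_lit 363))) (XT.nd (nat_lit 78) (nat_lit 456) (nat_lit 0) (XT.lf (nat_lit 0) (nat_lit 3822269351) (nat_lit 380) (nat_lit 5708664401) (nat_lit 456) (nat_lit 374273975) (nat_lit 168) (nat_lit 5) (nat_lit 173) (nat_lit 5) (nat_lit 174) (nat_lit 5) (nat_lit 455) (nat_lit 383) (nat_lit 362)) (XT.lf (nat_lit 0) (nat_lit 5716004788) (nat_lit 456) (nat_lit 4164777998) (nat_lit 76) (nat_lit 167986460) (nat_lit 162) (nat_lit 5) (nat_lit 168) (nat_lit 5) (nat_lit 163) (nat_lit 5) (nat_lit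 456) (nat_lit 383) (nat_lit 361)))))) (XT.nd (nat_lit 546) (nat_lit 2432) (nat_lit 0) (XT.nd (nat_lit 234) (nat_lit 1444) (nat_lit 0) (XT.nd (nat_lit 78) (nat_lit 1064) (nat_lit 0) (XT.lf (nat_lit 0) (nat_lit 1779039838) (nat_lit 456) (nat_lit 2231628527) (nat_lit 76) (nat_lit 6185388267) (nat_lit 156) (nat_lit 5) (nat_lit 162) (nat_lit 5) (nat_lit 157) (nat_lit 5) (nat_lit 457) (nat_lit 383) (nat_lit 360)) (XT.nd (nat_lit 78) (nat_lit 760) (nat_lit 0) (XT.lf (nat_lit 0) (nat_lit 8008188383) (nat_lit 380) (nat_lit 273948738) (nat_lit 76) (nat_lit 2065199336) (nat_lit 152) (nat_lit 5) (nat_lit 157) (nat_lit 5) (nat_lit 153) (nat_lit 5) (nat_lit 458) (nat_lit 383) (nat_lit 359)) (XT.lf (nat_lit 0) (nat_lit 1720685379) (nat_lit 304) (nat_lit 2168367037) (nat_lit 380) (nat_lit 6613208216) (nat_lit 142) (nat_lit 5) (nat_lit 146) (nat_lit 5) (nat_lit 147) (nat_lit 5) (nat_lit 459) (nat_lit 383) (nat_lit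 358)))) (XT.nd (nat_lit 156) (nat_lit 684) (nat_lit 0) (XT.nd (nat_lit 78) (nat_lit 380) (nat_lit 0) (XT.lf (nat_lit 0) (nat_lit 3743120385) (nat_lit 380) (nat_lit 6541370655) (nat_lit 456) (nat_lit 376792254) (nat_lit 137) (nat_lit 5) (nat_lit 142) (nat_lit 5) (nat_lit 143) (nat_lit 5) (nat_lit 460) (nat_lit 383) (nat_lit 357)) (XT.lf (nat_lit 0) (nat_lit 5778204522) (nat_lit 304) (nat_lit 189034584) (nat_lit 380) (nat_lit 4857059081) (nat_lit 132) (nat_lit 5) (nat_lit 136) (nat_lit 5) (nat_lit 137) (nat_lit 5) (nat_lit 461) (nat_lit 383) (nat_lit 356))) (XT.nd (nat_lit 78) (nat_lit 304) (nat_lit 0) (XT.lf (nat_lit 0) (nat_lit 1513670007) (nat_lit 380) (nat_lit 3166033346) (nat_lit 76) (nat_lit 6311676516) (nat_lit 127) (nat_lit 5) (nat_lit 132) (nat_lit 5) (nat_lit 128) (nat_lit 5) (nat_lit 462) (nat_lit 383) (nat_lit 355)) (XT.lf (nat_lit 0) (nat_lit 8013140710) (nat_lit 380) (nat_lit 1270800278)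 (nat_lit 76) (nat_lit 1878821770) (nat_lit 123) (nat_lit 5) (nat_lit 128) (nat_lit 5) (nat_lit 124) (nat_lit 5) (nat_lit 463) (nat_lit 383) (nat_lit 354))))) (XT.nd (nat_lit 234) (nat_lit 1216) (nat_lit 0) (XT.nd (nat_lit 78) (nat_lit 608) (nat_lit 0) (XT.lf (nat_lit 0) (nat_lit 640247631) (nat_lit 228) (nat_lit 2711395025) (nat_lit 304) (nat_lit 7986659764) (nat_lit 115) (nat_lit 5) (nat_lit 118) (nat_lit 5) (nat_lit 119) (nat_lit 5) (nat_lit 464) (nat_lit 383) (nat_lit 353)) (XT.nd (nat_lit 78) (nat_lit 304) (nat_lit 0) (XT.lf (nat_lit 0) (nat_lit 2580906222) (nat_lit 304) (nat_lit 7453341313) (nat_lit 380) (nat_lit 1483865284) (nat_lit 111) (nat_lit 5) (nat_lit 115) (nat_lit 5) (nat_lit 116) (nat_lit 5) (nat_lit 465) (nat_lit 383) (nat_lit 352)) (XT.lf (nat_lit 0) (nat_lit 4529399787) (nat_lit 228) (nat_lit 630110870) (nat_lit 304) (nat_lit 6542854869) (nat_lit 107) (nat_lit 5) (nat_lit 110) (nat_lit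 5) (nat_lit 111) (nat_lit 5) (nat_lit 466) (nat_lit 383) (nat_lit 351)))) (XT.nd (nat_lit 156) (nat_lit 608) (nat_lit 0) (XT.nd (nat_lit 78) (nat_lit 228) (nat_lit 0) (XT.lf (nat_lit 0) (nat_lit 128729516) (nat_lit 380) (nat_lit 5406449929) (nat_lit 76) (nat_lit 6355964382) (nat_lit 102) (nat_lit 5) (nat_lit 107) (nat_lit 5) (nat_lit 103) (nat_lit 5) (nat_lit 467) (nat_lit 383) (nat_lit 350)) (XT.lf (nat_lit 0) (nat_lit 6926130106) (nat_lit 304) (nat_lit 3643918700) (nat_lit 76) (nat_lit 1514382953) (nat_lit 99) (nat_lit 5) (nat_lit 103) (nat_lit 5) (nat_lit 100) (nat_lit 5) (nat_lit 468) (nat_lit 383) (nat_lit 349))) (XT.nd (nat_lit 78) (nat_lit 228) (nat_lit 0) (XT.lf (nat_lit 0) (nat_lit 1661663087) (nat_lit 380) (nat_lit 1876415106) (nat_lit 76) (nat_lit 8744443222) (nat_lit 94) (nat_lit 5) (nat_lit 99) (nat_lit 5) (nat_lit 95) (nat_lit 5) (nat_lit 469) (nat_lit 383) (nat_lit 348)) (XT.lf (nat_lit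 0) (nat_lit 8645072878) (nat_lit 304) (nat_lit 115641953) (nat_lit 76) (nat_lit 3724580728) (nat_lit 91) (nat_lit 5) (nat_lit 95) (nat_lit 5) (nat_lit 92) (nat_lit 5) (nat_lit 470) (nat_lit 383) (nat_lit 347))))))) (XT.nd (nat_lit 1092) (nat_lit 760) (nat_lit 0) (XT.nd (nat_lit 546) (nat_lit 1748) (nat_lit 0) (XT.nd (nat_lit 234) (nat_lit 988) (nat_lit 0) (XT.nd (nat_lit 78) (nat_lit 532) (nat_lit 0) (XT.lf (nat_lit 0) (nat_lit 1673957184) (nat_lit 228) (nat_lit 1469499803) (nat_lit 304) (nat_lit 9549472727) (nat_lit 84) (nat_lit 5) (nat_lit 87) (nat_lit 5) (nat_lit 88) (nat_lit 5) (nat_lit 471) (nat_lit 383) (nat_lit 346)) (XT.nd (nat_lit 78) (nat_lit 304) (nat_lit 0) (XT.lf (nat_lit 0) (nat_lit 3450213498) (nat_lit 228) (nat_lit 6882532008) (nat_lit 304) (nat_lit 2572576366) (nat_lit 81) (nat_lit 5) (nat_lit 84) (nat_lit 5) (nat_lit 85) (nat_lit 5) (nat_lit 472) (nat_lit 383) (nat_lit 345)) (XT.lf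 (nat_lit 0) (nat_lit 4577152593) (nat_lit 304) (nat_lit 7891457777) (nat_lit 76) (nat_lit 654397644) (nat_lit 77) (nat_lit 5) (nat_lit 81) (nat_lit 5) (nat_lit 78) (nat_lit 5) (nat_lit 473) (nat_lit 383) (nat_lit 344)))) (XT.nd (nat_lit 156) (nat_lit 456) (nat_lit 0) (XT.nd (nat_lit 78) (nat_lit 304) (nat_lit 0) (XT.lf (nat_lit 0) (nat_lit 6997597502) (nat_lit 228) (nat_lit 4967021644) (nat_lit 304) (nat_lit 1381103497) (nat_lit 74) (nat_lit 5) (nat_lit 77) (nat_lit 5) (nat_lit 78) (nat_lit 5) (nat_lit 474) (nat_lit 383) (nat_lit 343)) (XT.lf (nat_lit 0) (nat_lit 5952278290) (nat_lit 304) (nat_lit 4820747626) (nat_lit 76) (nat_lit 2800668507) (nat_lit 70) (nat_lit 5) (nat_lit 74) (nat_lit 5) (nat_lit 71) (nat_lit 5) (nat_lit 475) (nat_lit 383) (nat_lit 342))) (XT.nd (nat_lit 78) (nat_lit 228) (nat_lit 0) (XT.lf (nat_lit 0) (nat_lit 10511477779) (nat_lit 228) (nat_lit 3024696329) (nat_lit 304) (nat_lit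 271164930) (nat_lit 67) (nat_lit 5) (nat_lit 70) (nat_lit 5) (nat_lit 71) (nat_lit 5) (nat_lit 476) (nat_lit 383) (nat_lit 341)) (XT.lf (nat_lit 0) (nat_lit 7254624117) (nat_lit 228) (nat_lit 1812296055) (nat_lit 76) (nat_lit 4979111333) (nat_lit 64) (nat_lit 5) (nat_lit 67) (nat_lit 5) (nat_lit 65) (nat_lit 5) (nat_lit 477) (nat_lit 383) (nat_lit 340))))) (XT.nd (nat_lit 234) (nat_lit 836) (nat_lit 0) (XT.nd (nat_lit 78) (nat_lit 608) (nat_lit 0) (XT.lf (nat_lit 0) (nat_lit 741758262) (nat_lit 304) (nat_lit 319007903) (nat_lit 76) (nat_lit 13230183580) (nat_lit 60) (nat_lit 5) (nat_lit 64) (nat_lit 5) (nat_lit 61) (nat_lit 5) (nat_lit 478) (nat_lit 383) (nat_lit 339)) (XT.nd (nat_lit 78) (nat_lit 228) (nat_lit 0) (XT.lf (nat_lit 0) (nat_lit 1132169070) (nat_lit 228) (nat_lit 7353656632) (nat_lit 304) (nat_lit 6054950074) (nat_lit 55) (nat_lit 5) (nat_lit 58) (nat_lit 5) (nat_lit 59) (nat_lit 5) (nat_lit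 479) (nat_lit 383) (nat_lit 338)) (XT.lf (nat_lit 0) (nat_lit 1681377223) (nat_lit 228) (nat_lit 12200441196) (nat_lit 76) (nat_lit 915281902) (nat_lit 52) (nat_lit 5) (nat_lit 55) (nat_lit 5) (nat_lit 53) (nat_lit 5) (nat_lit 480) (nat_lit 383) (nat_lit 337)))) (XT.nd (nat_lit 156) (nat_lit 380) (nat_lit 0) (XT.nd (nat_lit 78) (nat_lit 228) (nat_lit 0) (XT.lf (nat_lit 0) (nat_lit 4002227385) (nat_lit 228) (nat_lit 5640743192) (nat_lit 304) (nat_lit 5415836230) (nat_lit 49) (nat_lit 5) (nat_lit 52) (nat_lit 5) (nat_lit 53) (nat_lit 5) (nat_lit 481) (nat_lit 383) (nat_lit 336)) (XT.lf (nat_lit 0) (nat_lit 2528731914) (nat_lit 228) (nat_lit 9925724178) (nat_lit 76) (nat_lit 2872649795) (nat_lit 46) (nat_lit 5) (nat_lit 49) (nat_lit 5) (nat_lit 47) (nat_lit 5) (nat_lit 482) (nat_lit 383) (nat_lit 335))) (XT.nd (nat_lit 78) (nat_lit 228) (nat_lit 0) (XT.lf (nat_lit 0) (nat_lit 6753144888) (nat_lit 152)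 (nat_lit 3952786451) (nat_lit 228) (nat_lit 4895450489) (nat_lit 44) (nat_lit 5) (nat_lit 46) (nat_lit 5) (nat_lit 47) (nat_lit 5) (nat_lit 483) (nat_lit 383) (nat_lit 334)) (XT.lf (nat_lit 0) (nat_lit 3265456686) (nat_lit 228) (nat_lit 7805926181) (nat_lit 76) (nat_lit 4810814165) (nat_lit 41) (nat_lit 5) (nat_lit 44) (nat_lit 5) (nat_lit 42) (nat_lit 5) (nat_lit 484) (nat_lit 383) (nat_lit 333)))))) (XT.nd (nat_lit 58578) (nat_lit 0) (nat_lit 18924) (XT.nd (nat_lit 234) (nat_lit 228) (nat_lit 0) (XT.nd (nat_lit 78) (nat_lit 380) (nat_lit 0) (XT.lf (nat_lit 0) (nat_lit 9361979652) (nat_lit 152) (nat_lit 2303176642) (nat_lit 228) (nat_lit 4504424959) (nat_lit 39) (nat_lit 5) (nat_lit 41) (nat_lit 5) (nat_lit 42) (nat_lit 5) (nat_lit 485) (nat_lit 383) (nat_lit 332)) (XT.nd (nat_lit 78) (nat_lit 152) (nat_lit 0) (XT.lf (nat_lit 0) (nat_lit 3880753531) (nat_lit 228) (nat_lit 5866269136) (nat_lit 76)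 (nat_lit 6716465346) (nat_lit 36) (nat_lit 5) (nat_lit 39) (nat_lit 5) (nat_lit 37) (nat_lit 5) (nat_lit 486) (nat_lit 383) (nat_lit 331)) (XT.lf (nat_lit 0) (nat_lit 11803221266) (nat_lit 152) (nat_lit 706402775) (nat_lit 228) (nat_lit 4254926918) (nat_lit 34) (nat_lit 5) (nat_lit 36) (nat_lit 5) (nat_lit 37) (nat_lit 5) (nat_lit 487) (nat_lit 383) (nat_lit 330)))) (XT.nd (nat_lit 58188) (nat_lit 0) (nat_lit 25232) (XT.nd (nat_lit 58110) (nat_lit 0) (nat_lit 26904) (XT.lf (nat_lit 0) (nat_lit 4362260996) (nat_lit 228) (nat_lit 4134750148) (nat_lit 76) (nat_lit 8575149636) (nat_lit 31) (nat_lit 5) (nat_lit 34) (nat_lit 5) (nat_lit 32) (nat_lit 5) (nat_lit 488) (nat_lit 383) (nat_lit 329)) (XT.lf (nat_lit 0) (nat_lit 1790720546) (nat_lit 836) (nat_lit 988201705) (nat_lit 836) (nat_lit 988201705) (nat_lit 385) (nat_lit 4) (nat_lit 396) (nat_lit 5) (nat_lit 396) (nat_lit 4) (nat_lit 432) (nat_lit 384)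 (nat_lit 384))) (XT.nd (nat_lit 78) (nat_lit 836) (nat_lit 0) (XT.lf (nat_lit 0) (nat_lit 3588933867) (nat_lit 836) (nat_lit 2543306591) (nat_lit 0) (nat_lit 1472214907) (nat_lit 374) (nat_lit 5) (nat_lit 385) (nat_lit 4) (nat_lit 374) (nat_lit 4) (nat_lit 433) (nat_lit 384) (nat_lit 383)) (XT.lf (nat_lit 0) (nat_lit 1528332305) (nat_lit 836) (nat_lit 1084554653) (nat_lit 76) (nat_lit 5064787008) (nat_lit 363) (nat_lit 5) (nat_lit 374) (nat_lit 5) (nat_lit 364) (nat_lit 4) (nat_lit 434) (nat_lit 384) (nat_lit 382))))) (XT.nd (nat_lit 234) (nat_lit 3344) (nat_lit 0) (XT.nd (nat_lit 78) (nat_lit 1520) (nat_lit 0) (XT.lf (nat_lit 0) (nat_lit 431545821) (nat_lit 760) (nat_lit 6684230247) (nat_lit 760) (nat_lit 638155203) (nat_lit 344) (nat_lit 4) (nat_lit 354) (nat_lit 5) (nat_lit 354) (nat_lit 4) (nat_lit 435) (nat_lit 384) (nat_lit 381)) (XT.nd (nat_lit 78) (nat_lit 760) (nat_lit 0) (XT.lf (nat_lit 0)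 (nat_lit 1997391619) (nat_lit 684) (nat_lit 2924678705) (nat_lit 760) (nat_lit 2910765197) (nat_lit 334) (nat_lit 5) (nat_lit 343) (nat_lit 5) (nat_lit 344) (nat_lit 4) (nat_lit 436) (nat_lit 384) (nat_lit 380)) (XT.lf (nat_lit 0) (nat_lit 2624915947) (nat_lit 760) (nat_lit 4294720560) (nat_lit 76) (nat_lit 995355416) (nat_lit 324) (nat_lit 5) (nat_lit 334) (nat_lit 5) (nat_lit 325) (nat_lit 4) (nat_lit 437) (nat_lit 384) (nat_lit 379)))) (XT.nd (nat_lit 156) (nat_lit 1976) (nat_lit 0) (XT.nd (nat_lit 78) (nat_lit 684) (nat_lit 0) (XT.lf (nat_lit 0) (nat_lit 234755241) (nat_lit 684) (nat_lit 2712864538) (nat_lit 76) (nat_lit 5052566567) (nat_lit 315) (nat_lit 5) (nat_lit 324) (nat_lit 5) (nat_lit 316) (nat_lit 5) (nat_lit 438) (nat_lit 384) (nat_lit 378)) (XT.lf (nat_lit 0) (nat_lit 5795642395) (nat_lit 760) (nat_lit 1092734890) (nat_lit 76) (nat_lit 1200024347) (nat_lit 306) (nat_lit 5) (nat_lit 316)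 (nat_lit 5) (nat_lit 307) (nat_lit 4) (nat_lit 439) (nat_lit 384) (nat_lit 377))) (XT.nd (nat_lit 78) (nat_lit 684) (nat_lit 0) (XT.lf (nat_lit 0) (nat_lit 574436229) (nat_lit 608) (nat_lit 2686181812) (nat_lit 684) (nat_lit 4919011062) (nat_lit 289) (nat_lit 5) (nat_lit 297) (nat_lit 5) (nat_lit 298) (nat_lit 5) (nat_lit 440) (nat_lit 384) (nat_lit 376)) (XT.lf (nat_lit 0) (nat_lit 625380927) (nat_lit 684) (nat_lit 5967121396) (nat_lit 76) (nat_lit 1681545603) (nat_lit 280) (nat_lit 5) (nat_lit 289) (nat_lit 5) (nat_lit 281) (nat_lit 5) (nat_lit 441) (nat_lit 384) (nat_lit 375))))))))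
noncomputable def xc15 : XT := (XT.nd (nat_lit 2106) (nat_lit 5092) (nat_lit 0) (XT.nd (nat_lit 1014) (nat_lit 6004) (nat_lit 0) (XT.nd (nat_lit 468) (nat_lit 3724) (nat_lit 0) (XT.nd (nat_lit 234) (nat_lit 2204) (nat_lit 0) (XT.nd (nat_lit 78) (nat_lit 1216) (nat_lit 0) (XT.lf (nat_lit 0) (nat_lit 4069450053) (nat_lit 608) (nat_lit 2160703060) (nat_lit 684) (nat_lit 2141285398) (nat_lit 272) (nat_lit 5) (nat_lit 280) (nat_lit 5) (nat_lit 281) (nat_lit 5) (nat_lit 442) (nat_lit 384) (nat_lit 374)) (XT.nd (nat_lit 78) (nat_lit 608) (nat_lit 0) (XT.lf (nat_lit 0) (nat_lit 3446055606) (nat_lit 608) (nat_lit 2598239827) (nat_lit 76) (nat_lit 2427782511) (nat_lit 264) (nat_lit 5) (nat_lit 272) (nat_lit 5) (nat_lit 265) (nat_lit 5) (nat_lit 443) (nat_lit 384) (nat_lit 373)) (XT.lf (nat_lit 0) (nat_lit 551105705) (nat_lit 608) (nat_lit 849892546) (nat_lit 76) (nat_lit 7175135037) (nat_lit 256) (nat_lit 5)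 (nat_lit 264) (nat_lit 5) (nat_lit 257) (nat_lit 5) (nat_lit 444) (nat_lit 384) (nat_lit 372)))) (XT.nd (nat_lit 78) (nat_lit 1140) (nat_lit 0) (XT.lf (nat_lit 0) (nat_lit 931842528) (nat_lit 532) (nat_lit 5274836811) (nat_lit 608) (nat_lit 2476384409) (nat_lit 242) (nat_lit 5) (nat_lit 249) (nat_lit 5) (nat_lit 250) (nat_lit 5) (nat_lit 445) (nat_lit 384) (nat_lit 371)) (XT.nd (nat_lit 78) (nat_lit 608) (nat_lit 0) (XT.lf (nat_lit 0) (nat_lit 2771673524) (nat_lit 456) (nat_lit 392782420) (nat_lit 532) (nat_lit 5628967248) (nat_lit 235) (nat_lit 5) (nat_lit 241) (nat_lit 5) (nat_lit 242) (nat_lit 5) (nat_lit 446) (nat_lit 384) (nat_lit 370)) (XT.lf (nat_lit 0) (nat_lit 19753883) (nat_lit 608) (nat_lit 4265564771) (nat_lit 76) (nat_lit 4621726782) (nat_lit 227) (nat_lit 5) (nat_lit 235) (nat_lit 5) (nat_lit 228) (nat_lit 5) (nat_lit 447) (nat_lit 384) (nat_lit 369))))) (XT.nd (nat_lit 234) (nat_lit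 1824) (nat_lit 0) (XT.nd (nat_lit 78) (nat_lit 1444) (nat_lit 0) (XT.lf (nat_lit 0) (nat_lit 5728063246) (nat_lit 532) (nat_lit 2481637857) (nat_lit 76) (nat_lit 814304513) (nat_lit 221) (nat_lit 5) (nat_lit 228) (nat_lit 5) (nat_lit 222) (nat_lit 5) (nat_lit 448) (nat_lit 384) (nat_lit 368)) (XT.nd (nat_lit 78) (nat_lit 912) (nat_lit 0) (XT.lf (nat_lit 0) (nat_lit 2420381342) (nat_lit 532) (nat_lit 669509113) (nat_lit 76) (nat_lit 6054478725) (nat_lit 214) (nat_lit 5) (nat_lit 221) (nat_lit 5) (nat_lit 215) (nat_lit 5) (nat_lit 449) (nat_lit 384) (nat_lit 367)) (XT.lf (nat_lit 0) (nat_lit 1194447845) (nat_lit 456) (nat_lit 7054704747) (nat_lit 532) (nat_lit 1019045649) (nat_lit 202) (nat_lit 5) (nat_lit 208) (nat_lit 5) (nat_lit 209) (nat_lit 5) (nat_lit 450) (nat_lit 384) (nat_lit 366)))) (XT.nd (nat_lit 156) (nat_lit 836) (nat_lit 0) (XT.nd (nat_lit 78) (nat_lit 532) (nat_lit 0) (XT.lf (nat_lit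 0) (nat_lit 3087977935) (nat_lit 380) (nat_lit 1696091686) (nat_lit 456) (nat_lit 4611232137) (nat_lit 196) (nat_lit 5) (nat_lit 201) (nat_lit 5) (nat_lit 202) (nat_lit 5) (nat_lit 451) (nat_lit 384) (nat_lit 365)) (XT.lf (nat_lit 0) (nat_lit 1198264991) (nat_lit 532) (nat_lit 4511571899) (nat_lit 76) (nat_lit 3816234086) (nat_lit 189) (nat_lit 5) (nat_lit 196) (nat_lit 5) (nat_lit 190) (nat_lit 5) (nat_lit 452) (nat_lit 384) (nat_lit 364))) (XT.nd (nat_lit 78) (nat_lit 456) (nat_lit 0) (XT.lf (nat_lit 0) (nat_lit 6971460843) (nat_lit 380) (nat_lit 129868527) (nat_lit 456) (nat_lit 2559190115) (nat_lit 184) (nat_lit 5) (nat_lit 189) (nat_lit 5) (nat_lit 190) (nat_lit 5) (nat_lit 453) (nat_lit 384) (nat_lit 363)) (XT.lf (nat_lit 0) (nat_lit 3347465056) (nat_lit 456) (nat_lit 856514704) (nat_lit 76) (nat_lit 5594399837) (nat_lit 178) (nat_lit 5) (nat_lit 184) (nat_lit 5) (nat_lit 179) (nat_lit 5) (nat_lit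 454) (nat_lit 384) (nat_lit 362)))))) (XT.nd (nat_lit 546) (nat_lit 2508) (nat_lit 0) (XT.nd (nat_lit 234) (nat_lit 1824) (nat_lit 0) (XT.nd (nat_lit 78) (nat_lit 912) (nat_lit 0) (XT.lf (nat_lit 0) (nat_lit 1029325569) (nat_lit 380) (nat_lit 8360189407) (nat_lit 456) (nat_lit 550667025) (nat_lit 168) (nat_lit 5) (nat_lit 173) (nat_lit 5) (nat_lit 174) (nat_lit 5) (nat_lit 455) (nat_lit 384) (nat_lit 361)) (XT.nd (nat_lit 78) (nat_lit 456) (nat_lit 0) (XT.lf (nat_lit 0) (nat_lit 2930738709) (nat_lit 380) (nat_lit 2534347953) (nat_lit 456) (nat_lit 4620218456) (nat_lit 162) (nat_lit 5) (nat_lit 167) (nat_lit 5) (nat_lit 168) (nat_lit 5) (nat_lit 456) (nat_lit 384) (nat_lit 360)) (XT.lf (nat_lit 0) (nat_lit 1402466369) (nat_lit 456) (nat_lit 5369877926) (nat_lit 76) (nat_lit 3462145157) (nat_lit 156) (nat_lit 5) (nat_lit 162) (nat_lit 5) (nat_lit 157) (nat_lit 5) (nat_lit 457) (nat_lit 384) (nat_lit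 359)))) (XT.nd (nat_lit 156) (nat_lit 1064) (nat_lit 0) (XT.nd (nat_lit 78) (nat_lit 456) (nat_lit 0) (XT.lf (nat_lit 0) (nat_lit 6818505136) (nat_lit 304) (nat_lit 723314774) (nat_lit 380) (nat_lit 2845747046) (nat_lit 152) (nat_lit 5) (nat_lit 156) (nat_lit 5) (nat_lit 157) (nat_lit 5) (nat_lit 458) (nat_lit 384) (nat_lit 358)) (XT.lf (nat_lit 0) (nat_lit 3296317693) (nat_lit 456) (nat_lit 1762282381) (nat_lit 76) (nat_lit 5485814131) (nat_lit 146) (nat_lit 5) (nat_lit 152) (nat_lit 5) (nat_lit 147) (nat_lit 5) (nat_lit 459) (nat_lit 384) (nat_lit 357))) (XT.nd (nat_lit 78) (nat_lit 380) (nat_lit 0) (XT.lf (nat_lit 0) (nat_lit 76719646) (nat_lit 380) (nat_lit 9506525082) (nat_lit 456) (nat_lit 1122364014) (nat_lit 137) (nat_lit 5) (nat_lit 142) (nat_lit 5) (nat_lit 143) (nat_lit 5) (nat_lit 460) (nat_lit 384) (nat_lit 356)) (XT.lf (nat_lit 0) (nat_lit 1934240427) (nat_lit 304) (nat_lit 3218638744)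 (nat_lit 380) (nat_lit 5717414172) (nat_lit 132) (nat_lit 5) (nat_lit 136) (nat_lit 5) (nat_lit 137) (nat_lit 5) (nat_lit 461) (nat_lit 384) (nat_lit 355))))) (XT.nd (nat_lit 234) (nat_lit 1444) (nat_lit 0) (XT.nd (nat_lit 78) (nat_lit 684) (nat_lit 0) (XT.lf (nat_lit 0) (nat_lit 565413285) (nat_lit 380) (nat_lit 7217719899) (nat_lit 76) (nat_lit 3256338757) (nat_lit 127) (nat_lit 5) (nat_lit 132) (nat_lit 5) (nat_lit 128) (nat_lit 5) (nat_lit 462) (nat_lit 384) (nat_lit 354)) (XT.nd (nat_lit 78) (nat_lit 380) (nat_lit 0) (XT.lf (nat_lit 0) (nat_lit 5711531671) (nat_lit 304) (nat_lit 1261579480) (nat_lit 380) (nat_lit 4239580581) (nat_lit 123) (nat_lit 5) (nat_lit 127) (nat_lit 5) (nat_lit 128) (nat_lit 5) (nat_lit 463) (nat_lit 384) (nat_lit 353)) (XT.lf (nat_lit 0) (nat_lit 2183266758) (nat_lit 380) (nat_lit 3777364095) (nat_lit 76) (nat_lit 5429597698) (nat_lit 118) (nat_lit 5) (nat_lit 123) (nat_lit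 5) (nat_lit 119) (nat_lit 5) (nat_lit 464) (nat_lit 384) (nat_lit 352)))) (XT.nd (nat_lit 156) (nat_lit 836) (nat_lit 0) (XT.nd (nat_lit 78) (nat_lit 380) (nat_lit 0) (XT.lf (nat_lit 0) (nat_lit 8751393265) (nat_lit 304) (nat_lit 2038900140) (nat_lit 76) (nat_lit 782036449) (nat_lit 115) (nat_lit 5) (nat_lit 119) (nat_lit 5) (nat_lit 116) (nat_lit 5) (nat_lit 465) (nat_lit 384) (nat_lit 351)) (XT.lf (nat_lit 0) (nat_lit 3746066005) (nat_lit 380) (nat_lit 308873532) (nat_lit 76) (nat_lit 7703696103) (nat_lit 110) (nat_lit 5) (nat_lit 115) (nat_lit 5) (nat_lit 111) (nat_lit 5) (nat_lit 466) (nat_lit 384) (nat_lit 350))) (XT.nd (nat_lit 78) (nat_lit 304) (nat_lit 0) (XT.lf (nat_lit 0) (nat_lit 1457546192) (nat_lit 304) (nat_lit 9043393072) (nat_lit 380) (nat_lit 1448637191) (nat_lit 103) (nat_lit 5) (nat_lit 107) (nat_lit 5) (nat_lit 108) (nat_lit 5) (nat_lit 467) (nat_lit 384) (nat_lit 349)) (XT.lf (nat_lit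 0) (nat_lit 3221010972) (nat_lit 228) (nat_lit 2053133590) (nat_lit 304) (nat_lit 6870781472) (nat_lit 99) (nat_lit 5) (nat_lit 102) (nat_lit 5) (nat_lit 103) (nat_lit 5) (nat_lit 468) (nat_lit 384) (nat_lit 348))))))) (XT.nd (nat_lit 1092) (nat_lit 1292) (nat_lit 0) (XT.nd (nat_lit 546) (nat_lit 1596) (nat_lit 0) (XT.nd (nat_lit 234) (nat_lit 1292) (nat_lit 0) (XT.nd (nat_lit 78) (nat_lit 608) (nat_lit 0) (XT.lf (nat_lit 0) (nat_lit 4995203969) (nat_lit 304) (nat_lit 7221741721) (nat_lit 380) (nat_lit 128240871) (nat_lit 95) (nat_lit 5) (nat_lit 99) (nat_lit 5) (nat_lit 100) (nat_lit 5) (nat_lit 469) (nat_lit 384) (nat_lit 347)) (XT.nd (nat_lit 78) (nat_lit 304) (nat_lit 0) (XT.lf (nat_lit 0) (nat_lit 6747452980) (nat_lit 304) (nat_lit 5785761082) (nat_lit 76) (nat_lit 16952337) (nat_lit 91) (nat_lit 5) (nat_lit 95) (nat_lit 5) (nat_lit 92) (nat_lit 5) (nat_lit 470) (nat_lit 384) (nat_lit 346)) (XT.lf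 (nat_lit 0) (nat_lit 1109620694) (nat_lit 304) (nat_lit 4230772554) (nat_lit 76) (nat_lit 7419604854) (nat_lit 87) (nat_lit 5) (nat_lit 91) (nat_lit 5) (nat_lit 88) (nat_lit 5) (nat_lit 471) (nat_lit 384) (nat_lit 345)))) (XT.nd (nat_lit 156) (nat_lit 760) (nat_lit 0) (XT.nd (nat_lit 78) (nat_lit 304) (nat_lit 0) (XT.lf (nat_lit 0) (nat_lit 8175338300) (nat_lit 304) (nat_lit 2682327310) (nat_lit 76) (nat_lit 2117197072) (nat_lit 84) (nat_lit 5) (nat_lit 88) (nat_lit 5) (nat_lit 85) (nat_lit 5) (nat_lit 472) (nat_lit 384) (nat_lit 344)) (XT.lf (nat_lit 0) (nat_lit 2275876759) (nat_lit 304) (nat_lit 1139530699) (nat_lit 76) (nat_lit 9779502190) (nat_lit 80) (nat_lit 5) (nat_lit 84) (nat_lit 5) (nat_lit 81) (nat_lit 5) (nat_lit 473) (nat_lit 384) (nat_lit 343))) (XT.nd (nat_lit 78) (nat_lit 304) (nat_lit 0) (XT.lf (nat_lit 0) (nat_lit 392266895) (nat_lit 228) (nat_lit 9151619386) (nat_lit 304) (nat_lit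 3876128064) (nat_lit 74) (nat_lit 5) (nat_lit 77) (nat_lit 5) (nat_lit 78) (nat_lit 5) (nat_lit 474) (nat_lit 384) (nat_lit 342)) (XT.lf (nat_lit 0) (nat_lit 1936751166) (nat_lit 228) (nat_lit 1444104349) (nat_lit 304) (nat_lit 10269637897) (nat_lit 70) (nat_lit 5) (nat_lit 73) (nat_lit 5) (nat_lit 74) (nat_lit 5) (nat_lit 475) (nat_lit 384) (nat_lit 341))))) (XT.nd (nat_lit 234) (nat_lit 912) (nat_lit 0) (XT.nd (nat_lit 78) (nat_lit 456) (nat_lit 0) (XT.lf (nat_lit 0) (nat_lit 3454021246) (nat_lit 228) (nat_lit 7409812032) (nat_lit 304) (nat_lit 3022323968) (nat_lit 67) (nat_lit 5) (nat_lit 70) (nat_lit 5) (nat_lit 71) (nat_lit 5) (nat_lit 476) (nat_lit 384) (nat_lit 340)) (XT.nd (nat_lit 78) (nat_lit 228) (nat_lit 0) (XT.lf (nat_lit 0) (nat_lit 4417846783) (nat_lit 228) (nat_lit 9158835184) (nat_lit 76) (nat_lit 550959814) (nat_lit 64) (nat_lit 5) (nat_lit 67) (nat_lit 5) (nat_lit 65) (nat_lit 5)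 (nat_lit 477) (nat_lit 384) (nat_lit 339)) (XT.lf (nat_lit 0) (nat_lit 6451769902) (nat_lit 228) (nat_lit 5660627526) (nat_lit 304) (nat_lit 2262130752) (nat_lit 61) (nat_lit 5) (nat_lit 64) (nat_lit 5) (nat_lit 65) (nat_lit 5) (nat_lit 478) (nat_lit 384) (nat_lit 338)))) (XT.nd (nat_lit 156) (nat_lit 456) (nat_lit 0) (XT.nd (nat_lit 78) (nat_lit 228) (nat_lit 0) (XT.lf (nat_lit 0) (nat_lit 5379148745) (nat_lit 228) (nat_lit 6708097432) (nat_lit 76) (nat_lit 2540051658) (nat_lit 58) (nat_lit 5) (nat_lit 61) (nat_lit 5) (nat_lit 59) (nat_lit 5) (nat_lit 479) (nat_lit 384) (nat_lit 337)) (XT.lf (nat_lit 0) (nat_lit 9368329431) (nat_lit 228) (nat_lit 3915041215) (nat_lit 304) (nat_lit 1602693614) (nat_lit 55) (nat_lit 5) (nat_lit 58) (nat_lit 5) (nat_lit 59) (nat_lit 5) (nat_lit 480) (nat_lit 384) (nat_lit 336))) (XT.nd (nat_lit 78) (nat_lit 228) (nat_lit 0) (XT.lf (nat_lit 0) (nat_lit 6248138902) (nat_lit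 228) (nat_lit 4371151928) (nat_lit 76) (nat_lit 4531324336) (nat_lit 52) (nat_lit 5) (nat_lit 55) (nat_lit 5) (nat_lit 53) (nat_lit 5) (nat_lit 481) (nat_lit 384) (nat_lit 335)) (XT.lf (nat_lit 0) (nat_lit 12184637663) (nat_lit 228) (nat_lit 2184745163) (nat_lit 304) (nat_lit 1052376056) (nat_lit 49) (nat_lit 5) (nat_lit 52) (nat_lit 5) (nat_lit 53) (nat_lit 5) (nat_lit 482) (nat_lit 384) (nat_lit 334)))))) (XT.nd (nat_lit 58422) (nat_lit 0) (nat_lit 22192) (XT.nd (nat_lit 234) (nat_lit 684) (nat_lit 0) (XT.nd (nat_lit 78) (nat_lit 380) (nat_lit 0) (XT.lf (nat_lit 0) (nat_lit 7016336886) (nat_lit 228) (nat_lit 2169042549) (nat_lit 76) (nat_lit 6513238458) (nat_lit 46) (nat_lit 5) (nat_lit 49) (nat_lit 5) (nat_lit 47) (nat_lit 5) (nat_lit 483) (nat_lit 384) (nat_lit 333)) (XT.nd (nat_lit 78) (nat_lit 228) (nat_lit 0) (XT.lf (nat_lit 0) (nat_lit 14879518653) (nat_lit 152) (nat_lit 482282703) (nat_lit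 228) (nat_lit 620863706) (nat_lit 44) (nat_lit 5) (nat_lit 46) (nat_lit 5) (nat_lit 47) (nat_lit 5) (nat_lit 484) (nat_lit 384) (nat_lit 332)) (XT.lf (nat_lit 0) (nat_lit 7673920227) (nat_lit 228) (nat_lit 125106907) (nat_lit 76) (nat_lit 8473364533) (nat_lit 41) (nat_lit 5) (nat_lit 44) (nat_lit 5) (nat_lit 42) (nat_lit 5) (nat_lit 485) (nat_lit 384) (nat_lit 331)))) (XT.nd (nat_lit 156) (nat_lit 152) (nat_lit 0) (XT.nd (nat_lit 78) (nat_lit 228) (nat_lit 0) (XT.lf (nat_lit 0) (nat_lit 863192954) (nat_lit 152) (nat_lit 15400683025) (nat_lit 228) (nat_lit 305757918) (nat_lit 37) (nat_lit 5) (nat_lit 39) (nat_lit 5) (nat_lit 40) (nat_lit 4) (nat_lit 486) (nat_lit 384) (nat_lit 330)) (XT.lf (nat_lit 0) (nat_lit 1757804249) (nat_lit 152) (nat_lit 6463211463) (nat_lit 228) (nat_lit 8651843521) (nat_lit 34) (nat_lit 5) (nat_lit 36) (nat_lit 5) (nat_lit 37) (nat_lit 5) (nat_lit 487) (nat_lit 384) (nat_lit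 329))) (XT.nd (nat_lit 57954) (nat_lit 0) (nat_lit 28576) (XT.lf (nat_lit 0) (nat_lit 2640058777) (nat_lit 152) (nat_lit 14419478473) (nat_lit 228) (nat_lit 124402768) (nat_lit 32) (nat_lit 5) (nat_lit 34) (nat_lit 5) (nat_lit 35) (nat_lit 4) (nat_lit 488) (nat_lit 384) (nat_lit 328)) (XT.lf (nat_lit 0) (nat_lit 432653003) (nat_lit 836) (nat_lit 1633980699) (nat_lit 836) (nat_lit 1633980699) (nat_lit 408) (nat_lit 4) (nat_lit 419) (nat_lit 5) (nat_lit 419) (nat_lit 4) (nat_lit 430) (nat_lit 385) (nat_lit 385))))) (XT.nd (nat_lit 234) (nat_lit 3800) (nat_lit 0) (XT.nd (nat_lit 78) (nat_lit 1672) (nat_lit 0) (XT.lf (nat_lit 0) (nat_lit 2157507720) (nat_lit 836) (nat_lit 33486912) (nat_lit 912) (nat_lit 5276092665) (nat_lit 396) (nat_lit 5) (nat_lit 407) (nat_lit 5) (nat_lit 408) (nat_lit 4) (nat_lit 431) (nat_lit 385) (nat_lit 384)) (XT.nd (nat_lit 78) (nat_lit 760) (nat_lit 0) (XT.lf (nat_lit 0) (nat_lit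 168196355) (nat_lit 912) (nat_lit 4043121640) (nat_lit 76) (nat_lit 3324422505) (nat_lit 384) (nat_lit 5) (nat_lit 396) (nat_lit 5) (nat_lit 385) (nat_lit 4) (nat_lit 432) (nat_lit 385) (nat_lit 383)) (XT.lf (nat_lit 0) (nat_lit 4879241198) (nat_lit 760) (nat_lit 743673537) (nat_lit 836) (nat_lit 1984475495) (nat_lit 374) (nat_lit 5) (nat_lit 384) (nat_lit 5) (nat_lit 385) (nat_lit 4) (nat_lit 433) (nat_lit 385) (nat_lit 382)))) (XT.nd (nat_lit 156) (nat_lit 1444) (nat_lit 0) (XT.nd (nat_lit 78) (nat_lit 1520) (nat_lit 0) (XT.lf (nat_lit 0) (nat_lit 3453384573) (nat_lit 836) (nat_lit 1371380233) (nat_lit 76) (nat_lit 2857172134) (nat_lit 363) (nat_lit 5) (nat_lit 374) (nat_lit 5) (nat_lit 364) (nat_lit 4) (nat_lit 434) (nat_lit 385) (nat_lit 381)) (XT.lf (nat_lit 0) (nat_lit 42524576) (nat_lit 760) (nat_lit 1139566488) (nat_lit 836) (nat_lit 6577615544) (nat_lit 343) (nat_lit 5) (nat_lit 353) (nat_lit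 5) (nat_lit 354) (nat_lit 5) (nat_lit 435) (nat_lit 385) (nat_lit 380))) (XT.nd (nat_lit 78) (nat_lit 760) (nat_lit 0) (XT.lf (nat_lit 0) (nat_lit 1511839987) (nat_lit 684) (nat_lit 5140785202) (nat_lit 760) (nat_lit 1187533605) (nat_lit 334) (nat_lit 5) (nat_lit 343) (nat_lit 5) (nat_lit 344) (nat_lit 4) (nat_lit 436) (nat_lit 385) (nat_lit 379)) (XT.lf (nat_lit 0) (nat_lit 3027879115) (nat_lit 684) (nat_lit 1217497992) (nat_lit 760) (nat_lit 3678321875) (nat_lit 324) (nat_lit 5) (nat_lit 333) (nat_lit 5) (nat_lit 334) (nat_lit 5) (nat_lit 437) (nat_lit 385) (nat_lit 378))))))))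
noncomputable def xc16 : XT := (XT.nd (nat_lit 2106) (nat_lit 6384) (nat_lit 0) (XT.nd (nat_lit 1014) (nat_lit 6840) (nat_lit 0) (XT.nd (nat_lit 468) (nat_lit 4256) (nat_lit 0) (XT.nd (nat_lit 234) (nat_lit 2508) (nat_lit 0) (XT.nd (nat_lit 78) (nat_lit 1368) (nat_lit 0) (XT.lf (nat_lit 0) (nat_lit 1744081314) (nat_lit 684) (nat_lit 3422347436) (nat_lit 76) (nat_lit 2843885108) (nat_lit 315) (nat_lit 5) (nat_lit 324) (nat_lit 5) (nat_lit 316) (nat_lit 5) (nat_lit 438) (nat_lit 385) (nat_lit 377)) (XT.nd (nat_lit 78) (nat_lit 684) (nat_lit 0) (XT.lf (nat_lit 0) (nat_lit 6197177565) (nat_lit 684) (nat_lit 1027276887) (nat_lit 760) (nat_lit 875688813) (nat_lit 306) (nat_lit 5) (nat_lit 315) (nat_lit 5) (nat_lit 316) (nat_lit 5) (nat_lit 439) (nat_lit 385) (nat_lit 376)) (XT.lf (nat_lit 0) (nat_lit 4576229061) (nat_lit 684) (nat_lit 356758975) (nat_lit 76) (nat_lit 3259859828) (nat_lit 297) (nat_lit 5)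 (nat_lit 306) (nat_lit 5) (nat_lit 298) (nat_lit 5) (nat_lit 440) (nat_lit 385) (nat_lit 375)))) (XT.nd (nat_lit 78) (nat_lit 1216) (nat_lit 0) (XT.lf (nat_lit 0) (nat_lit 1258906039) (nat_lit 608) (nat_lit 565325552) (nat_lit 684) (nat_lit 6464598664) (nat_lit 280) (nat_lit 5) (nat_lit 288) (nat_lit 5) (nat_lit 289) (nat_lit 5) (nat_lit 441) (nat_lit 385) (nat_lit 374)) (XT.nd (nat_lit 78) (nat_lit 608) (nat_lit 0) (XT.lf (nat_lit 0) (nat_lit 2907575117) (nat_lit 608) (nat_lit 4445283554) (nat_lit 684) (nat_lit 1034888448) (nat_lit 272) (nat_lit 5) (nat_lit 280) (nat_lit 5) (nat_lit 281) (nat_lit 5) (nat_lit 442) (nat_lit 385) (nat_lit 373)) (XT.lf (nat_lit 0) (nat_lit 4450558752) (nat_lit 608) (nat_lit 3890080254) (nat_lit 76) (nat_lit 149354755) (nat_lit 264) (nat_lit 5) (nat_lit 272) (nat_lit 5) (nat_lit 265) (nat_lit 5) (nat_lit 443) (nat_lit 385) (nat_lit 372))))) (XT.nd (nat_lit 234) (nat_lit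 2052) (nat_lit 0) (XT.nd (nat_lit 78) (nat_lit 1596) (nat_lit 0) (XT.lf (nat_lit 0) (nat_lit 1452343584) (nat_lit 608) (nat_lit 2271976535) (nat_lit 76) (nat_lit 4871052138) (nat_lit 256) (nat_lit 5) (nat_lit 264) (nat_lit 5) (nat_lit 257) (nat_lit 5) (nat_lit 444) (nat_lit 385) (nat_lit 371)) (XT.nd (nat_lit 78) (nat_lit 1064) (nat_lit 0) (XT.lf (nat_lit 0) (nat_lit 7014643502) (nat_lit 608) (nat_lit 613937781) (nat_lit 76) (nat_lit 1075589879) (nat_lit 249) (nat_lit 5) (nat_lit 257) (nat_lit 5) (nat_lit 250) (nat_lit 5) (nat_lit 445) (nat_lit 385) (nat_lit 370)) (XT.lf (nat_lit 0) (nat_lit 1081609340) (nat_lit 456) (nat_lit 2782476495) (nat_lit 532) (nat_lit 4951883563) (nat_lit 235) (nat_lit 5) (nat_lit 241) (nat_lit 5) (nat_lit 242) (nat_lit 5) (nat_lit 446) (nat_lit 385) (nat_lit 369)))) (XT.nd (nat_lit 156) (nat_lit 988) (nat_lit 0) (XT.nd (nat_lit 78) (nat_lit 456) (nat_lit 0) (XT.lf (nat_lit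 0) (nat_lit 599323823) (nat_lit 608) (nat_lit 6101811796) (nat_lit 76) (nat_lit 2230143466) (nat_lit 227) (nat_lit 5) (nat_lit 235) (nat_lit 5) (nat_lit 228) (nat_lit 5) (nat_lit 447) (nat_lit 385) (nat_lit 368)) (XT.lf (nat_lit 0) (nat_lit 4599331751) (nat_lit 456) (nat_lit 1630316121) (nat_lit 532) (nat_lit 2820153711) (nat_lit 221) (nat_lit 5) (nat_lit 227) (nat_lit 5) (nat_lit 228) (nat_lit 5) (nat_lit 448) (nat_lit 385) (nat_lit 367))) (XT.nd (nat_lit 78) (nat_lit 456) (nat_lit 0) (XT.lf (nat_lit 0) (nat_lit 2806385718) (nat_lit 532) (nat_lit 2771222760) (nat_lit 76) (nat_lit 3594168259) (nat_lit 214) (nat_lit 5) (nat_lit 221) (nat_lit 5) (nat_lit 215) (nat_lit 5) (nat_lit 449) (nat_lit 385) (nat_lit 366)) (XT.lf (nat_lit 0) (nat_lit 8245481147) (nat_lit 456) (nat_lit 294843279) (nat_lit 532) (nat_lit 757180438) (nat_lit 208) (nat_lit 5) (nat_lit 214) (nat_lit 5) (nat_lit 215) (nat_lit 5) (nat_lit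 450) (nat_lit 385) (nat_lit 365)))))) (XT.nd (nat_lit 546) (nat_lit 2888) (nat_lit 0) (XT.nd (nat_lit 234) (nat_lit 2128) (nat_lit 0) (XT.nd (nat_lit 78) (nat_lit 912) (nat_lit 0) (XT.lf (nat_lit 0) (nat_lit 679596635) (nat_lit 380) (nat_lit 4280234881) (nat_lit 456) (nat_lit 4466398537) (nat_lit 196) (nat_lit 5) (nat_lit 201) (nat_lit 5) (nat_lit 202) (nat_lit 5) (nat_lit 451) (nat_lit 385) (nat_lit 364)) (XT.nd (nat_lit 78) (nat_lit 380) (nat_lit 0) (XT.lf (nat_lit 0) (nat_lit 1250111293) (nat_lit 532) (nat_lit 7087230621) (nat_lit 76) (nat_lit 1221462491) (nat_lit 189) (nat_lit 5) (nat_lit 196) (nat_lit 5) (nat_lit 190) (nat_lit 5) (nat_lit 452) (nat_lit 385) (nat_lit 363)) (XT.lf (nat_lit 0) (nat_lit 4274384207) (nat_lit 380) (nat_lit 2804818663) (nat_lit 456) (nat_lit 2615531625) (nat_lit 184) (nat_lit 5) (nat_lit 189) (nat_lit 5) (nat_lit 190) (nat_lit 5) (nat_lit 453) (nat_lit 385) (nat_lit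 362)))) (XT.nd (nat_lit 156) (nat_lit 1292) (nat_lit 0) (XT.nd (nat_lit 78) (nat_lit 380) (nat_lit 0) (XT.lf (nat_lit 0) (nat_lit 3199913459) (nat_lit 456) (nat_lit 3728284321) (nat_lit 76) (nat_lit 2906245144) (nat_lit 178) (nat_lit 5) (nat_lit 184) (nat_lit 5) (nat_lit 179) (nat_lit 5) (nat_lit 454) (nat_lit 385) (nat_lit 361)) (XT.lf (nat_lit 0) (nat_lit 7970725654) (nat_lit 380) (nat_lit 1179904093) (nat_lit 456) (nat_lit 827444217) (nat_lit 173) (nat_lit 5) (nat_lit 178) (nat_lit 5) (nat_lit 179) (nat_lit 5) (nat_lit 455) (nat_lit 385) (nat_lit 360))) (XT.nd (nat_lit 78) (nat_lit 836) (nat_lit 0) (XT.lf (nat_lit 0) (nat_lit 5097052333) (nat_lit 456) (nat_lit 285931477) (nat_lit 76) (nat_lit 4742148823) (nat_lit 167) (nat_lit 5) (nat_lit 173) (nat_lit 5) (nat_lit 168) (nat_lit 5) (nat_lit 456) (nat_lit 385) (nat_lit 359)) (XT.lf (nat_lit 0) (nat_lit 902975475) (nat_lit 456) (nat_lit 8780146718)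 (nat_lit 76) (nat_lit 593189079) (nat_lit 156) (nat_lit 5) (nat_lit 162) (nat_lit 5) (nat_lit 157) (nat_lit 5) (nat_lit 457) (nat_lit 385) (nat_lit 358))))) (XT.nd (nat_lit 234) (nat_lit 1824) (nat_lit 0) (XT.nd (nat_lit 78) (nat_lit 760) (nat_lit 0) (XT.lf (nat_lit 0) (nat_lit 3276715593) (nat_lit 304) (nat_lit 3689233959) (nat_lit 380) (nat_lit 3464968538) (nat_lit 152) (nat_lit 5) (nat_lit 156) (nat_lit 5) (nat_lit 157) (nat_lit 5) (nat_lit 458) (nat_lit 385) (nat_lit 357)) (XT.nd (nat_lit 78) (nat_lit 304) (nat_lit 0) (XT.lf (nat_lit 0) (nat_lit 2588732715) (nat_lit 456) (nat_lit 5501828288) (nat_lit 76) (nat_lit 2499216082) (nat_lit 146) (nat_lit 5) (nat_lit 152) (nat_lit 5) (nat_lit 147) (nat_lit 5) (nat_lit 459) (nat_lit 385) (nat_lit 356)) (XT.lf (nat_lit 0) (nat_lit 6915163018) (nat_lit 304) (nat_lit 1875031736) (nat_lit 380) (nat_lit 1962487763) (nat_lit 142) (nat_lit 5) (nat_lit 146) (nat_lit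 5) (nat_lit 147) (nat_lit 5) (nat_lit 460) (nat_lit 385) (nat_lit 355)))) (XT.nd (nat_lit 156) (nat_lit 1064) (nat_lit 0) (XT.nd (nat_lit 78) (nat_lit 304) (nat_lit 0) (XT.lf (nat_lit 0) (nat_lit 4221579945) (nat_lit 456) (nat_lit 2171259211) (nat_lit 76) (nat_lit 4526682450) (nat_lit 136) (nat_lit 5) (nat_lit 142) (nat_lit 5) (nat_lit 137) (nat_lit 5) (nat_lit 461) (nat_lit 385) (nat_lit 354)) (XT.lf (nat_lit 0) (nat_lit 10570061047) (nat_lit 380) (nat_lit 472332512) (nat_lit 76) (nat_lit 48604783) (nat_lit 132) (nat_lit 5) (nat_lit 137) (nat_lit 5) (nat_lit 133) (nat_lit 5) (nat_lit 462) (nat_lit 385) (nat_lit 353))) (XT.nd (nat_lit 78) (nat_lit 380) (nat_lit 0) (XT.lf (nat_lit 0) (nat_lit 1220235858) (nat_lit 304) (nat_lit 4590400262) (nat_lit 380) (nat_lit 5455310195) (nat_lit 123) (nat_lit 5) (nat_lit 127) (nat_lit 5) (nat_lit 128) (nat_lit 5) (nat_lit 463) (nat_lit 385) (nat_lit 352)) (XT.lf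 (nat_lit 0) (nat_lit 880948288) (nat_lit 380) (nat_lit 8491508151) (nat_lit 76) (nat_lit 2073236565) (nat_lit 118) (nat_lit 5) (nat_lit 123) (nat_lit 5) (nat_lit 119) (nat_lit 5) (nat_lit 464) (nat_lit 385) (nat_lit 351))))))) (XT.nd (nat_lit 1014) (nat_lit 2432) (nat_lit 0) (XT.nd (nat_lit 468) (nat_lit 1900) (nat_lit 0) (XT.nd (nat_lit 234) (nat_lit 1216) (nat_lit 0) (XT.nd (nat_lit 78) (nat_lit 608) (nat_lit 0) (XT.lf (nat_lit 0) (nat_lit 4678214223) (nat_lit 228) (nat_lit 2684814461) (nat_lit 304) (nat_lit 4266487842) (nat_lit 115) (nat_lit 5) (nat_lit 118) (nat_lit 5) (nat_lit 119) (nat_lit 5) (nat_lit 465) (nat_lit 385) (nat_lit 350)) (XT.nd (nat_lit 78) (nat_lit 228) (nat_lit 0) (XT.lf (nat_lit 0) (nat_lit 2219995997) (nat_lit 380) (nat_lit 5401100511) (nat_lit 76) (nat_lit 4196904295) (nat_lit 110) (nat_lit 5) (nat_lit 115) (nat_lit 5) (nat_lit 111) (nat_lit 5) (nat_lit 466) (nat_lit 385) (nat_lit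 349)) (XT.lf (nat_lit 0) (nat_lit 8165353392) (nat_lit 228) (nat_lit 698887551) (nat_lit 304) (nat_lit 3146914441) (nat_lit 107) (nat_lit 5) (nat_lit 110) (nat_lit 5) (nat_lit 111) (nat_lit 5) (nat_lit 467) (nat_lit 385) (nat_lit 348)))) (XT.nd (nat_lit 78) (nat_lit 836) (nat_lit 0) (XT.lf (nat_lit 0) (nat_lit 3498968165) (nat_lit 380) (nat_lit 2304472171) (nat_lit 76) (nat_lit 6405269741) (nat_lit 102) (nat_lit 5) (nat_lit 107) (nat_lit 5) (nat_lit 103) (nat_lit 5) (nat_lit 468) (nat_lit 385) (nat_lit 347)) (XT.nd (nat_lit 78) (nat_lit 608) (nat_lit 0) (XT.lf (nat_lit 0) (nat_lit 10322133348) (nat_lit 304) (nat_lit 747875860) (nat_lit 76) (nat_lit 1341355221) (nat_lit 99) (nat_lit 5) (nat_lit 103) (nat_lit 5) (nat_lit 100) (nat_lit 5) (nat_lit 469) (nat_lit 385) (nat_lit 346)) (XT.lf (nat_lit 0) (nat_lit 798625133) (nat_lit 228) (nat_lit 3922717659) (nat_lit 304) (nat_lit 7897073946) (nat_lit 91)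 (nat_lit 5) (nat_lit 94) (nat_lit 5) (nat_lit 95) (nat_lit 5) (nat_lit 470) (nat_lit 385) (nat_lit 345))))) (XT.nd (nat_lit 234) (nat_lit 1140) (nat_lit 0) (XT.nd (nat_lit 78) (nat_lit 532) (nat_lit 0) (XT.lf (nat_lit 0) (nat_lit 2366679212) (nat_lit 228) (nat_lit 9379786977) (nat_lit 304) (nat_lit 1084167972) (nat_lit 88) (nat_lit 5) (nat_lit 91) (nat_lit 5) (nat_lit 92) (nat_lit 5) (nat_lit 471) (nat_lit 385) (nat_lit 344)) (XT.nd (nat_lit 78) (nat_lit 228) (nat_lit 0) (XT.lf (nat_lit 0) (nat_lit 3916982086) (nat_lit 228) (nat_lit 1977499610) (nat_lit 304) (nat_lit 7153184542) (nat_lit 84) (nat_lit 5) (nat_lit 87) (nat_lit 5) (nat_lit 88) (nat_lit 5) (nat_lit 472) (nat_lit 385) (nat_lit 343)) (XT.lf (nat_lit 0) (nat_lit 5469352164) (nat_lit 228) (nat_lit 7650160471) (nat_lit 304) (nat_lit 150520208) (nat_lit 81) (nat_lit 5) (nat_lit 84) (nat_lit 5) (nat_lit 85) (nat_lit 5) (nat_lit 473) (nat_lit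 385) (nat_lit 342)))) (XT.nd (nat_lit 156) (nat_lit 532) (nat_lit 0) (XT.nd (nat_lit 78) (nat_lit 304) (nat_lit 0) (XT.lf (nat_lit 0) (nat_lit 6999823503) (nat_lit 304) (nat_lit 6490029973) (nat_lit 76) (nat_lit 7697309) (nat_lit 77) (nat_lit 5) (nat_lit 81) (nat_lit 5) (nat_lit 78) (nat_lit 5) (nat_lit 474) (nat_lit 385) (nat_lit 341)) (XT.lf (nat_lit 0) (nat_lit 693114946) (nat_lit 304) (nat_lit 5197820457) (nat_lit 76) (nat_lit 7839446211) (nat_lit 73) (nat_lit 5) (nat_lit 77) (nat_lit 5) (nat_lit 74) (nat_lit 5) (nat_lit 475) (nat_lit 385) (nat_lit 340))) (XT.nd (nat_lit 78) (nat_lit 304) (nat_lit 0) (XT.lf (nat_lit 0) (nat_lit 8045983858) (nat_lit 304) (nat_lit 3925311526) (nat_lit 76) (nat_lit 1997353073) (nat_lit 70) (nat_lit 5) (nat_lit 74) (nat_lit 5) (nat_lit 71) (nat_lit 5) (nat_lit 476) (nat_lit 385) (nat_lit 339)) (XT.lf (nat_lit 0) (nat_lit 1449750352) (nat_lit 304) (nat_lit 2666429972)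 (nat_lit 76) (nat_lit 10096445963) (nat_lit 66) (nat_lit 5) (nat_lit 70) (nat_lit 5) (nat_lit 67) (nat_lit 5) (nat_lit 477) (nat_lit 385) (nat_lit 338)))))) (XT.nd (nat_lit 546) (nat_lit 760) (nat_lit 0) (XT.nd (nat_lit 234) (nat_lit 836) (nat_lit 0) (XT.nd (nat_lit 78) (nat_lit 684) (nat_lit 0) (XT.lf (nat_lit 0) (nat_lit 9014698127) (nat_lit 228) (nat_lit 1439601485) (nat_lit 76) (nat_lit 4007805902) (nat_lit 64) (nat_lit 5) (nat_lit 67) (nat_lit 5) (nat_lit 65) (nat_lit 5) (nat_lit 478) (nat_lit 385) (nat_lit 337)) (XT.nd (nat_lit 78) (nat_lit 380) (nat_lit 0) (XT.lf (nat_lit 0) (nat_lit 2115029156) (nat_lit 304) (nat_lit 222266224) (nat_lit 76) (nat_lit 12380406506) (nat_lit 60) (nat_lit 5) (nat_lit 64) (nat_lit 5) (nat_lit 61) (nat_lit 5) (nat_lit 479) (nat_lit 385) (nat_lit 336)) (XT.lf (nat_lit 0) (nat_lit 962134544) (nat_lit 228) (nat_lit 8943583129) (nat_lit 304) (nat_lit 5073022016) (nat_lit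 55) (nat_lit 5) (nat_lit 58) (nat_lit 5) (nat_lit 59) (nat_lit 5) (nat_lit 480) (nat_lit 385) (nat_lit 335)))) (XT.nd (nat_lit 156) (nat_lit 380) (nat_lit 0) (XT.nd (nat_lit 78) (nat_lit 228) (nat_lit 0) (XT.lf (nat_lit 0) (nat_lit 2144284913) (nat_lit 152) (nat_lit 551127055) (nat_lit 228) (nat_lit 12550888187) (nat_lit 52) (nat_lit 5) (nat_lit 54) (nat_lit 5) (nat_lit 55) (nat_lit 5) (nat_lit 481) (nat_lit 385) (nat_lit 334)) (XT.lf (nat_lit 0) (nat_lit 3265398415) (nat_lit 228) (nat_lit 7448450885) (nat_lit 304) (nat_lit 4805651360) (nat_lit 49) (nat_lit 5) (nat_lit 52) (nat_lit 5) (nat_lit 53) (nat_lit 5) (nat_lit 482) (nat_lit 385) (nat_lit 333))) (XT.nd (nat_lit 78) (nat_lit 152) (nat_lit 0) (XT.lf (nat_lit 0) (nat_lit 3176823086) (nat_lit 228) (nat_lit 11421744487) (nat_lit 76) (nat_lit 1200989365) (nat_lit 46) (nat_lit 5) (nat_lit 49) (nat_lit 5) (nat_lit 47) (nat_lit 5) (nat_lit 483) (nat_lit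 385) (nat_lit 332)) (XT.lf (nat_lit 0) (nat_lit 5429185703) (nat_lit 152) (nat_lit 5991382081) (nat_lit 228) (nat_lit 4665071326) (nat_lit 44) (nat_lit 5) (nat_lit 46) (nat_lit 5) (nat_lit 47) (nat_lit 5) (nat_lit 484) (nat_lit 385) (nat_lit 331))))) (XT.nd (nat_lit 234) (nat_lit 152) (nat_lit 0) (XT.nd (nat_lit 78) (nat_lit 380) (nat_lit 0) (XT.lf (nat_lit 0) (nat_lit 3543098692) (nat_lit 228) (nat_lit 9921745467) (nat_lit 76) (nat_lit 2913840375) (nat_lit 41) (nat_lit 5) (nat_lit 44) (nat_lit 5) (nat_lit 42) (nat_lit 5) (nat_lit 485) (nat_lit 385) (nat_lit 330)) (XT.nd (nat_lit 78) (nat_lit 228) (nat_lit 0) (XT.lf (nat_lit 0) (nat_lit 7429219281) (nat_lit 152) (nat_lit 4586213487) (nat_lit 228) (nat_lit 4662846989) (nat_lit 39) (nat_lit 5) (nat_lit 41) (nat_lit 5) (nat_lit 42) (nat_lit 5) (nat_lit 486) (nat_lit 385) (nat_lit 329)) (XT.lf (nat_lit 0) (nat_lit 3778934420) (nat_lit 228) (nat_lit 8625096673)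 (nat_lit 76) (nat_lit 4580883042) (nat_lit 36) (nat_lit 5) (nat_lit 39) (nat_lit 5) (nat_lit 37) (nat_lit 5) (nat_lit 487) (nat_lit 385) (nat_lit 328)))) (XT.nd (nat_lit 57876) (nat_lit 0) (nat_lit 28424) (XT.nd (nat_lit 57798) (nat_lit 0) (nat_lit 31084) (XT.lf (nat_lit 0) (nat_lit 9238533361) (nat_lit 152) (nat_lit 3247956510) (nat_lit 228) (nat_lit 4812124888) (nat_lit 34) (nat_lit 5) (nat_lit 36) (nat_lit 5) (nat_lit 37) (nat_lit 5) (nat_lit 488) (nat_lit 385) (nat_lit 327)) (XT.lf (nat_lit 0) (nat_lit 1459246503) (nat_lit 988) (nat_lit 719997983) (nat_lit 0) (nat_lit 1459246503) (nat_lit 443) (nat_lit 5) (nat_lit 456) (nat_lit 4) (nat_lit 443) (nat_lit 4) (nat_lit 428) (nat_lit 386) (nat_lit 386))) (XT.nd (nat_lit 78) (nat_lit 1672) (nat_lit 0) (XT.lf (nat_lit 0) (nat_lit 1002689370) (nat_lit 988) (nat_lit 357644961) (nat_lit 76) (nat_lit 5978174725) (nat_lit 430) (nat_lit 5) (nat_lit 443) (nat_lit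 5) (nat_lit 431) (nat_lit 4) (nat_lit 429) (nat_lit 386) (nat_lit 385)) (XT.lf (nat_lit 0) (nat_lit 779816568) (nat_lit 836) (nat_lit 5613794879) (nat_lit 836) (nat_lit 1009142960) (nat_lit 408) (nat_lit 4) (nat_lit 419) (nat_lit 5) (nat_lit 419) (nat_lit 4) (nat_lit 430) (nat_lit 386) (nat_lit 384))))))))
noncomputable def xc17 : XT := (XT.nd (nat_lit 2106) (nat_lit 8892) (nat_lit 0) (XT.nd (nat_lit 1014) (nat_lit 7828) (nat_lit 0) (XT.nd (nat_lit 468) (nat_lit 5244) (nat_lit 0) (XT.nd (nat_lit 234) (nat_lit 3116) (nat_lit 0) (XT.nd (nat_lit 78) (nat_lit 1672) (nat_lit 0) (XT.lf (nat_lit 0) (nat_lit 1969367541) (nat_lit 836) (nat_lit 2375312590) (nat_lit 912) (nat_lit 3125154832) (nat_lit 396) (nat_lit 5) (nat_lit 407) (nat_lit 5) (nat_lit 408) (nat_lit 4) (nat_lit 431) (nat_lit 386) (nat_lit 383)) (XT.nd (nat_lit 78) (nat_lit 760) (nat_lit 0) (XT.lf (nat_lit 0) (nat_lit 2200688229) (nat_lit 912)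 (nat_lit 4324196033) (nat_lit 76) (nat_lit 1015134280) (nat_lit 384) (nat_lit 5) (nat_lit 396) (nat_lit 5) (nat_lit 385) (nat_lit 4) (nat_lit 432) (nat_lit 386) (nat_lit 382)) (XT.lf (nat_lit 0) (nat_lit 4509704091) (nat_lit 760) (nat_lit 3071684618) (nat_lit 836) (nat_lit 31764739) (nat_lit 374) (nat_lit 5) (nat_lit 384) (nat_lit 5) (nat_lit 385) (nat_lit 4) (nat_lit 433) (nat_lit 386) (nat_lit 381)))) (XT.nd (nat_lit 78) (nat_lit 2280) (nat_lit 0) (XT.lf (nat_lit 0) (nat_lit 5291716151) (nat_lit 836) (nat_lit 1840675292) (nat_lit 76) (nat_lit 556835116) (nat_lit 363) (nat_lit 5) (nat_lit 374) (nat_lit 5) (nat_lit 364) (nat_lit 4) (nat_lit 434) (nat_lit 386) (nat_lit 380)) (XT.nd (nat_lit 78) (nat_lit 1520) (nat_lit 0) (XT.lf (nat_lit 0) (nat_lit 2915626176) (nat_lit 760) (nat_lit 537978320) (nat_lit 76) (nat_lit 4314628175) (nat_lit 353) (nat_lit 5) (nat_lit 363) (nat_lit 5) (nat_lit 354) (nat_lit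 5) (nat_lit 435) (nat_lit 386) (nat_lit 379)) (XT.lf (nat_lit 0) (nat_lit 438135227) (nat_lit 760) (nat_lit 7016711074) (nat_lit 76) (nat_lit 395618740) (nat_lit 333) (nat_lit 5) (nat_lit 343) (nat_lit 5) (nat_lit 334) (nat_lit 5) (nat_lit 436) (nat_lit 386) (nat_lit 378))))) (XT.nd (nat_lit 234) (nat_lit 3116) (nat_lit 0) (XT.nd (nat_lit 78) (nat_lit 1444) (nat_lit 0) (XT.lf (nat_lit 0) (nat_lit 2236788276) (nat_lit 684) (nat_lit 3545845710) (nat_lit 760) (nat_lit 2152677816) (nat_lit 324) (nat_lit 5) (nat_lit 333) (nat_lit 5) (nat_lit 334) (nat_lit 5) (nat_lit 437) (nat_lit 386) (nat_lit 377)) (XT.nd (nat_lit 78) (nat_lit 760) (nat_lit 0) (XT.lf (nat_lit 0) (nat_lit 3161900667) (nat_lit 684) (nat_lit 4328671518) (nat_lit 76) (nat_lit 532916535) (nat_lit 315) (nat_lit 5) (nat_lit 324) (nat_lit 5) (nat_lit 316) (nat_lit 5) (nat_lit 438) (nat_lit 386) (nat_lit 376)) (XT.lf (nat_lit 0) (nat_lit 449603302)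 (nat_lit 760) (nat_lit 2923987635) (nat_lit 76) (nat_lit 4741110458) (nat_lit 305) (nat_lit 5) (nat_lit 315) (nat_lit 5) (nat_lit 306) (nat_lit 5) (nat_lit 439) (nat_lit 386) (nat_lit 375)))) (XT.nd (nat_lit 156) (nat_lit 1824) (nat_lit 0) (XT.nd (nat_lit 78) (nat_lit 684) (nat_lit 0) (XT.lf (nat_lit 0) (nat_lit 5802886312) (nat_lit 684) (nat_lit 1482196344) (nat_lit 76) (nat_lit 923956177) (nat_lit 297) (nat_lit 5) (nat_lit 306) (nat_lit 5) (nat_lit 298) (nat_lit 5) (nat_lit 440) (nat_lit 386) (nat_lit 374)) (XT.lf (nat_lit 0) (nat_lit 2938965089) (nat_lit 684) (nat_lit 7360444) (nat_lit 76) (nat_lit 5360139029) (nat_lit 288) (nat_lit 5) (nat_lit 297) (nat_lit 5) (nat_lit 289) (nat_lit 5) (nat_lit 441) (nat_lit 386) (nat_lit 373))) (XT.nd (nat_lit 78) (nat_lit 608) (nat_lit 0) (XT.lf (nat_lit 0) (nat_lit 1536091930) (nat_lit 608) (nat_lit 6844048101) (nat_lit 684) (nat_lit 26993716) (nat_lit 272)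 (nat_lit 5) (nat_lit 280) (nat_lit 5) (nat_lit 281) (nat_lit 5) (nat_lit 442) (nat_lit 386) (nat_lit 372)) (XT.lf (nat_lit 0) (nat_lit 3099402827) (nat_lit 532) (nat_lit 2272942151) (nat_lit 608) (nat_lit 3138365449) (nat_lit 264) (nat_lit 5) (nat_lit 271) (nat_lit 5) (nat_lit 272) (nat_lit 5) (nat_lit 443) (nat_lit 386) (nat_lit 371)))))) (XT.nd (nat_lit 546) (nat_lit 3572) (nat_lit 0) (XT.nd (nat_lit 234) (nat_lit 2508) (nat_lit 0) (XT.nd (nat_lit 78) (nat_lit 1140) (nat_lit 0) (XT.lf (nat_lit 0) (nat_lit 2254768561) (nat_lit 608) (nat_lit 3911422462) (nat_lit 76) (nat_lit 2451520401) (nat_lit 256) (nat_lit 5) (nat_lit 264) (nat_lit 5) (nat_lit 257) (nat_lit 5) (nat_lit 444) (nat_lit 386) (nat_lit 370)) (XT.nd (nat_lit 78) (nat_lit 608) (nat_lit 0) (XT.lf (nat_lit 0) (nat_lit 6351555230) (nat_lit 532) (nat_lit 1386912076) (nat_lit 608) (nat_lit 989617932) (nat_lit 249) (nat_lit 5) (nat_lit 256) (nat_lit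 5) (nat_lit 257) (nat_lit 5) (nat_lit 445) (nat_lit 386) (nat_lit 369)) (XT.lf (nat_lit 0) (nat_lit 4467049778) (nat_lit 608) (nat_lit 823336207) (nat_lit 76) (nat_lit 3551164675) (nat_lit 241) (nat_lit 5) (nat_lit 249) (nat_lit 5) (nat_lit 242) (nat_lit 5) (nat_lit 446) (nat_lit 386) (nat_lit 368)))) (XT.nd (nat_lit 156) (nat_lit 988) (nat_lit 0) (XT.nd (nat_lit 78) (nat_lit 456) (nat_lit 0) (XT.lf (nat_lit 0) (nat_lit 787623567) (nat_lit 532) (nat_lit 288778745) (nat_lit 608) (nat_lit 7882240306) (nat_lit 227) (nat_lit 5) (nat_lit 234) (nat_lit 5) (nat_lit 235) (nat_lit 5) (nat_lit 447) (nat_lit 386) (nat_lit 367)) (XT.lf (nat_lit 0) (nat_lit 2419233800) (nat_lit 456) (nat_lit 4213232795) (nat_lit 532) (nat_lit 2446186255) (nat_lit 221) (nat_lit 5) (nat_lit 227) (nat_lit 5) (nat_lit 228) (nat_lit 5) (nat_lit 448) (nat_lit 386) (nat_lit 366))) (XT.nd (nat_lit 78) (nat_lit 456) (nat_lit 0) (XT.lf (nat_lit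 0) (nat_lit 3085874459) (nat_lit 532) (nat_lit 5109904901) (nat_lit 76) (nat_lit 1006593978) (nat_lit 214) (nat_lit 5) (nat_lit 221) (nat_lit 5) (nat_lit 215) (nat_lit 5) (nat_lit 449) (nat_lit 386) (nat_lit 365)) (XT.lf (nat_lit 0) (nat_lit 5791435661) (nat_lit 456) (nat_lit 2955963384) (nat_lit 532) (nat_lit 582153045) (nat_lit 208) (nat_lit 5) (nat_lit 214) (nat_lit 5) (nat_lit 215) (nat_lit 5) (nat_lit 450) (nat_lit 386) (nat_lit 364))))) (XT.nd (nat_lit 234) (nat_lit 1748) (nat_lit 0) (XT.nd (nat_lit 78) (nat_lit 1292) (nat_lit 0) (XT.lf (nat_lit 0) (nat_lit 5037952030) (nat_lit 532) (nat_lit 1949191517) (nat_lit 76) (nat_lit 2473005464) (nat_lit 201) (nat_lit 5) (nat_lit 208) (nat_lit 5) (nat_lit 202) (nat_lit 5) (nat_lit 451) (nat_lit 386) (nat_lit 363)) (XT.nd (nat_lit 78) (nat_lit 836) (nat_lit 0) (XT.lf (nat_lit 0) (nat_lit 1200966484) (nat_lit 456) (nat_lit 325810244) (nat_lit 76) (nat_lit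 8067798352) (nat_lit 195) (nat_lit 5) (nat_lit 201) (nat_lit 5) (nat_lit 196) (nat_lit 5) (nat_lit 452) (nat_lit 386) (nat_lit 362)) (XT.lf (nat_lit 0) (nat_lit 1324557223) (nat_lit 380) (nat_lit 5619460995) (nat_lit 456) (nat_lit 2788209811) (nat_lit 184) (nat_lit 5) (nat_lit 189) (nat_lit 5) (nat_lit 190) (nat_lit 5) (nat_lit 453) (nat_lit 386) (nat_lit 361)))) (XT.nd (nat_lit 156) (nat_lit 912) (nat_lit 0) (XT.nd (nat_lit 78) (nat_lit 380) (nat_lit 0) (XT.lf (nat_lit 0) (nat_lit 2936593874) (nat_lit 456) (nat_lit 6858576711) (nat_lit 76) (nat_lit 78648380) (nat_lit 178) (nat_lit 5) (nat_lit 184) (nat_lit 5) (nat_lit 179) (nat_lit 5) (nat_lit 454) (nat_lit 386) (nat_lit 360)) (XT.lf (nat_lit 0) (nat_lit 4715299734) (nat_lit 380) (nat_lit 4097623557) (nat_lit 456) (nat_lit 1206016357) (nat_lit 173) (nat_lit 5) (nat_lit 178) (nat_lit 5) (nat_lit 179) (nat_lit 5) (nat_lit 455) (nat_lit 386) (nat_lit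 359))) (XT.nd (nat_lit 78) (nat_lit 456) (nat_lit 0) (XT.lf (nat_lit 0) (nat_lit 4629366474) (nat_lit 456) (nat_lit 3729542023) (nat_lit 76) (nat_lit 1809022367) (nat_lit 167) (nat_lit 5) (nat_lit 173) (nat_lit 5) (nat_lit 168) (nat_lit 5) (nat_lit 456) (nat_lit 386) (nat_lit 358)) (XT.lf (nat_lit 0) (nat_lit 310102936) (nat_lit 456) (nat_lit 2131791948) (nat_lit 76) (nat_lit 7879064304) (nat_lit 161) (nat_lit 5) (nat_lit 167) (nat_lit 5) (nat_lit 162) (nat_lit 5) (nat_lit 457) (nat_lit 386) (nat_lit 357))))))) (XT.nd (nat_lit 1092) (nat_lit 3572) (nat_lit 0) (XT.nd (nat_lit 546) (nat_lit 2432) (nat_lit 0) (XT.nd (nat_lit 234) (nat_lit 1444) (nat_lit 0) (XT.nd (nat_lit 78) (nat_lit 1064) (nat_lit 0) (XT.lf (nat_lit 0) (nat_lit 6270001226) (nat_lit 456) (nat_lit 534118940) (nat_lit 76) (nat_lit 3673509032) (nat_lit 156) (nat_lit 5) (nat_lit 162) (nat_lit 5) (nat_lit 157) (nat_lit 5) (nat_lit 458) (nat_lit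 386) (nat_lit 356)) (XT.nd (nat_lit 78) (nat_lit 304) (nat_lit 0) (XT.lf (nat_lit 0) (nat_lit 1110532741) (nat_lit 380) (nat_lit 648183068) (nat_lit 456) (nat_lit 8879812368) (nat_lit 146) (nat_lit 5) (nat_lit 151) (nat_lit 5) (nat_lit 152) (nat_lit 5) (nat_lit 459) (nat_lit 386) (nat_lit 355)) (XT.lf (nat_lit 0) (nat_lit 2757259659) (nat_lit 304) (nat_lit 5121298847) (nat_lit 380) (nat_lit 2924509039) (nat_lit 142) (nat_lit 5) (nat_lit 146) (nat_lit 5) (nat_lit 147) (nat_lit 5) (nat_lit 460) (nat_lit 386) (nat_lit 354)))) (XT.nd (nat_lit 156) (nat_lit 684) (nat_lit 0) (XT.nd (nat_lit 78) (nat_lit 304) (nat_lit 0) (XT.lf (nat_lit 0) (nat_lit 3172697825) (nat_lit 456) (nat_lit 6541538016) (nat_lit 76) (nat_lit 1257786748) (nat_lit 136) (nat_lit 5) (nat_lit 142) (nat_lit 5) (nat_lit 137) (nat_lit 5) (nat_lit 461) (nat_lit 386) (nat_lit 353)) (XT.lf (nat_lit 0) (nat_lit 6109343011) (nat_lit 304) (nat_lit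 3333176759) (nat_lit 380) (nat_lit 1702554169) (nat_lit 132) (nat_lit 5) (nat_lit 136) (nat_lit 5) (nat_lit 137) (nat_lit 5) (nat_lit 462) (nat_lit 386) (nat_lit 352))) (XT.nd (nat_lit 78) (nat_lit 304) (nat_lit 0) (XT.lf (nat_lit 0) (nat_lit 4535539046) (nat_lit 380) (nat_lit 3526377804) (nat_lit 76) (nat_lit 3260439407) (nat_lit 127) (nat_lit 5) (nat_lit 132) (nat_lit 5) (nat_lit 128) (nat_lit 5) (nat_lit 463) (nat_lit 386) (nat_lit 351)) (XT.lf (nat_lit 0) (nat_lit 9507653230) (nat_lit 304) (nat_lit 1451540814) (nat_lit 380) (nat_lit 545109607) (nat_lit 123) (nat_lit 5) (nat_lit 127) (nat_lit 5) (nat_lit 128) (nat_lit 5) (nat_lit 464) (nat_lit 386) (nat_lit 350))))) (XT.nd (nat_lit 234) (nat_lit 1216) (nat_lit 0) (XT.nd (nat_lit 78) (nat_lit 836) (nat_lit 0) (XT.lf (nat_lit 0) (nat_lit 5843192129) (nat_lit 380) (nat_lit 486502308) (nat_lit 76) (nat_lit 5360523337) (nat_lit 118) (nat_lit 5) (nat_lit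 123) (nat_lit 5) (nat_lit 119) (nat_lit 5) (nat_lit 465) (nat_lit 386) (nat_lit 349)) (XT.nd (nat_lit 78) (nat_lit 228) (nat_lit 0) (XT.lf (nat_lit 0) (nat_lit 550559307) (nat_lit 380) (nat_lit 10811134562) (nat_lit 76) (nat_lit 519407177) (nat_lit 110) (nat_lit 5) (nat_lit 115) (nat_lit 5) (nat_lit 111) (nat_lit 5) (nat_lit 466) (nat_lit 386) (nat_lit 348)) (XT.lf (nat_lit 0) (nat_lit 2603441221) (nat_lit 228) (nat_lit 4508580320) (nat_lit 304) (nat_lit 4963890904) (nat_lit 107) (nat_lit 5) (nat_lit 110) (nat_lit 5) (nat_lit 111) (nat_lit 5) (nat_lit 467) (nat_lit 386) (nat_lit 347)))) (XT.nd (nat_lit 156) (nat_lit 608) (nat_lit 0) (XT.nd (nat_lit 78) (nat_lit 228) (nat_lit 0) (XT.lf (nat_lit 0) (nat_lit 1596976445) (nat_lit 380) (nat_lit 8114664956) (nat_lit 76) (nat_lit 2564239689) (nat_lit 102) (nat_lit 5) (nat_lit 107) (nat_lit 5) (nat_lit 103) (nat_lit 5) (nat_lit 468) (nat_lit 386) (nat_lit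 346)) (XT.lf (nat_lit 0) (nat_lit 5706353051) (nat_lit 228) (nat_lit 2620744776) (nat_lit 304) (nat_lit 4153299566) (nat_lit 99) (nat_lit 5) (nat_lit 102) (nat_lit 5) (nat_lit 103) (nat_lit 5) (nat_lit 469) (nat_lit 386) (nat_lit 345))) (XT.nd (nat_lit 78) (nat_lit 228) (nat_lit 0) (XT.lf (nat_lit 0) (nat_lit 2576565985) (nat_lit 380) (nat_lit 5436005590) (nat_lit 76) (nat_lit 4677302756) (nat_lit 94) (nat_lit 5) (nat_lit 99) (nat_lit 5) (nat_lit 95) (nat_lit 5) (nat_lit 470) (nat_lit 386) (nat_lit 344)) (XT.lf (nat_lit 0) (nat_lit 8805283411) (nat_lit 228) (nat_lit 677832280) (nat_lit 304) (nat_lit 3421348530) (nat_lit 91) (nat_lit 5) (nat_lit 94) (nat_lit 5) (nat_lit 95) (nat_lit 5) (nat_lit 471) (nat_lit 386) (nat_lit 343)))))) (XT.nd (nat_lit 546) (nat_lit 1520) (nat_lit 0) (XT.nd (nat_lit 234) (nat_lit 1216) (nat_lit 0) (XT.nd (nat_lit 78) (nat_lit 532) (nat_lit 0) (XT.lf (nat_lit 0) (nat_lit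 3486438768) (nat_lit 304) (nat_lit 2786831156) (nat_lit 76) (nat_lit 6850561108) (nat_lit 87) (nat_lit 5) (nat_lit 91) (nat_lit 5) (nat_lit 88) (nat_lit 5) (nat_lit 472) (nat_lit 386) (nat_lit 342)) (XT.nd (nat_lit 78) (nat_lit 304) (nat_lit 0) (XT.lf (nat_lit 0) (nat_lit 10585667969) (nat_lit 304) (nat_lit 1468644574) (nat_lit 76) (nat_lit 1294402048) (nat_lit 84) (nat_lit 5) (nat_lit 88) (nat_lit 5) (nat_lit 85) (nat_lit 5) (nat_lit 473) (nat_lit 386) (nat_lit 341)) (XT.lf (nat_lit 0) (nat_lit 4322844102) (nat_lit 304) (nat_lit 179924104) (nat_lit 76) (nat_lit 9075778781) (nat_lit 80) (nat_lit 5) (nat_lit 84) (nat_lit 5) (nat_lit 81) (nat_lit 5) (nat_lit 474) (nat_lit 386) (nat_lit 340)))) (XT.nd (nat_lit 156) (nat_lit 456) (nat_lit 0) (XT.nd (nat_lit 78) (nat_lit 304) (nat_lit 0) (XT.lf (nat_lit 0) (nat_lit 1122721330) (nat_lit 228) (nat_lit 10511658213) (nat_lit 304) (nat_lit 2179519119) (nat_lit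 74) (nat_lit 5) (nat_lit 77) (nat_lit 5) (nat_lit 78) (nat_lit 5) (nat_lit 475) (nat_lit 386) (nat_lit 339)) (XT.lf (nat_lit 0) (nat_lit 2402170632) (nat_lit 228) (nat_lit 2694537237) (nat_lit 304) (nat_lit 8957845994) (nat_lit 70) (nat_lit 5) (nat_lit 73) (nat_lit 5) (nat_lit 74) (nat_lit 5) (nat_lit 476) (nat_lit 386) (nat_lit 338))) (XT.nd (nat_lit 78) (nat_lit 228) (nat_lit 0) (XT.lf (nat_lit 0) (nat_lit 3668522164) (nat_lit 228) (nat_lit 8953490155) (nat_lit 304) (nat_lit 1678921827) (nat_lit 67) (nat_lit 5) (nat_lit 70) (nat_lit 5) (nat_lit 71) (nat_lit 5) (nat_lit 477) (nat_lit 386) (nat_lit 337)) (XT.lf (nat_lit 0) (nat_lit 4913893734) (nat_lit 152) (nat_lit 873593444) (nat_lit 228) (nat_lit 8765556116) (nat_lit 64) (nat_lit 5) (nat_lit 66) (nat_lit 5) (nat_lit 67) (nat_lit 5) (nat_lit 478) (nat_lit 386) (nat_lit 336))))) (XT.nd (nat_lit 234) (nat_lit 836) (nat_lit 0) (XT.nd (nat_lit 78) (nat_lit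 456) (nat_lit 0) (XT.lf (nat_lit 0) (nat_lit 6132753154) (nat_lit 228) (nat_lit 7400249759) (nat_lit 304) (nat_lit 1277933833) (nat_lit 61) (nat_lit 5) (nat_lit 64) (nat_lit 5) (nat_lit 65) (nat_lit 5) (nat_lit 479) (nat_lit 386) (nat_lit 335)) (XT.nd (nat_lit 78) (nat_lit 228) (nat_lit 0) (XT.lf (nat_lit 0) (nat_lit 6393321390) (nat_lit 228) (nat_lit 7745641584) (nat_lit 76) (nat_lit 935902082) (nat_lit 58) (nat_lit 5) (nat_lit 61) (nat_lit 5) (nat_lit 59) (nat_lit 5) (nat_lit 480) (nat_lit 386) (nat_lit 334)) (XT.lf (nat_lit 0) (nat_lit 8497169187) (nat_lit 228) (nat_lit 5863181278) (nat_lit 304) (nat_lit 984533200) (nat_lit 55) (nat_lit 5) (nat_lit 58) (nat_lit 5) (nat_lit 59) (nat_lit 5) (nat_lit 481) (nat_lit 386) (nat_lit 333)))) (XT.nd (nat_lit 156) (nat_lit 380) (nat_lit 0) (XT.nd (nat_lit 78) (nat_lit 228) (nat_lit 0) (XT.lf (nat_lit 0) (nat_lit 6905661608) (nat_lit 228) (nat_lit 5991527337)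 (nat_lit 76) (nat_lit 2723846802) (nat_lit 52) (nat_lit 5) (nat_lit 55) (nat_lit 5) (nat_lit 53) (nat_lit 5) (nat_lit 482) (nat_lit 386) (nat_lit 332)) (XT.lf (nat_lit 0) (nat_lit 10741546737) (nat_lit 228) (nat_lit 4354314268) (nat_lit 304) (nat_lit 807948996) (nat_lit 49) (nat_lit 5) (nat_lit 52) (nat_lit 5) (nat_lit 53) (nat_lit 5) (nat_lit 483) (nat_lit 386) (nat_lit 331))) (XT.nd (nat_lit 78) (nat_lit 152) (nat_lit 0) (XT.lf (nat_lit 0) (nat_lit 7309497601) (nat_lit 228) (nat_lit 4393431014) (nat_lit 76) (nat_lit 4489806951) (nat_lit 46) (nat_lit 5) (nat_lit 49) (nat_lit 5) (nat_lit 47) (nat_lit 5) (nat_lit 484) (nat_lit 386) (nat_lit 330)) (XT.lf (nat_lit 0) (nat_lit 12843441919) (nat_lit 152) (nat_lit 2886600198) (nat_lit 228) (nat_lit 758770103) (nat_lit 44) (nat_lit 5) (nat_lit 46) (nat_lit 5) (nat_lit 47) (nat_lit 5) (nat_lit 485) (nat_lit 386) (nat_lit 329))))))))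
noncomputable def xc18 : XT := (XT.nd (nat_lit 59670) (nat_lit 0) (nat_lit 2812) (XT.nd (nat_lit 58578) (nat_lit 0) (nat_lit 13528) (XT.nd (nat_lit 58032) (nat_lit 0) (nat_lit 24092) (XT.nd (nat_lit 57798) (nat_lit 0) (nat_lit 30932) (XT.nd (nat_lit 78) (nat_lit 380) (nat_lit 0) (XT.lf (nat_lit 0) (nat_lit 7594109629) (nat_lit 228) (nat_lit 2976054288) (nat_lit 76) (nat_lit 6220930714) (nat_lit 41) (nat_lit 5) (nat_lit 44) (nat_lit 5) (nat_lit 42) (nat_lit 5) (nat_lit 486) (nat_lit 386) (nat_lit 328)) (XT.nd (nat_lit 78) (nat_lit 228) (nat_lit 0) (XT.lf (nat_lit 0) (nat_lit 14777924758) (nat_lit 152) (nat_lit 1474059879) (nat_lit 228) (nat_lit 849067290) (nat_lit 39) (nat_lit 5) (nat_lit 41) (nat_lit 5) (nat_lit 42) (nat_lit 5) (nat_lit 487) (nat_lit 386) (nat_lit 327)) (XT.lf (nat_lit 0) (nat_lit 7747269654) (nat_lit 228) (nat_lit 1766785987) (nat_lit 76) (nat_lit 7903254751) (nat_lit 36) (nat_lit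 5) (nat_lit 39) (nat_lit 5) (nat_lit 37) (nat_lit 5) (nat_lit 488) (nat_lit 386) (nat_lit 326)))) (XT.nd (nat_lit 78) (nat_lit 2052) (nat_lit 0) (XT.lf (nat_lit 0) (nat_lit 952703040) (nat_lit 1900) (nat_lit 1675349385) (nat_lit 0) (nat_lit 952703040) (nat_lit 470) (nat_lit 5) (nat_lit 495) (nat_lit 4) (nat_lit 470) (nat_lit 4) (nat_lit 426) (nat_lit 387) (nat_lit 387)) (XT.nd (nat_lit 78) (nat_lit 912) (nat_lit 0) (XT.lf (nat_lit 0) (nat_lit 21783409) (nat_lit 1140) (nat_lit 2459658723) (nat_lit 76) (nat_lit 4737157107) (nat_lit 455) (nat_lit 5) (nat_lit 470) (nat_lit 5) (nat_lit 456) (nat_lit 4) (nat_lit 427) (nat_lit 387) (nat_lit 386)) (XT.lf (nat_lit 0) (nat_lit 5297005866) (nat_lit 988) (nat_lit 1522144448) (nat_lit 0) (nat_lit 459358560) (nat_lit 443) (nat_lit 5) (nat_lit 456) (nat_lit 4) (nat_lit 443) (nat_lit 4) (nat_lit 428) (nat_lit 387) (nat_lit 385))))) (XT.nd (nat_lit 234) (nat_lit 3268)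 (nat_lit 0) (XT.nd (nat_lit 78) (nat_lit 2584) (nat_lit 0) (XT.lf (nat_lit 0) (nat_lit 3273092289) (nat_lit 988) (nat_lit 539668348) (nat_lit 76) (nat_lit 3528480299) (nat_lit 430) (nat_lit 5) (nat_lit 443) (nat_lit 5) (nat_lit 431) (nat_lit 4) (nat_lit 429) (nat_lit 387) (nat_lit 384)) (XT.nd (nat_lit 78) (nat_lit 836) (nat_lit 0) (XT.lf (nat_lit 0) (nat_lit 511307623) (nat_lit 836) (nat_lit 642221880) (nat_lit 912) (nat_lit 6253568429) (nat_lit 407) (nat_lit 5) (nat_lit 418) (nat_lit 5) (nat_lit 419) (nat_lit 5) (nat_lit 430) (nat_lit 387) (nat_lit 383)) (XT.lf (nat_lit 0) (nat_lit 1607845823) (nat_lit 836) (nat_lit 4807631800) (nat_lit 912) (nat_lit 1060147681) (nat_lit 396) (nat_lit 5) (nat_lit 407) (nat_lit 5) (nat_lit 408) (nat_lit 4) (nat_lit 431) (nat_lit 387) (nat_lit 382)))) (XT.nd (nat_lit 156) (nat_lit 1520) (nat_lit 0) (XT.nd (nat_lit 78) (nat_lit 836) (nat_lit 0) (XT.lf (nat_lit 0) (nat_lit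 2754605735) (nat_lit 836) (nat_lit 1403274311) (nat_lit 912) (nat_lit 3389280155) (nat_lit 384) (nat_lit 5) (nat_lit 395) (nat_lit 5) (nat_lit 396) (nat_lit 5) (nat_lit 432) (nat_lit 387) (nat_lit 381)) (XT.lf (nat_lit 0) (nat_lit 1810378702) (nat_lit 836) (nat_lit 3671760260) (nat_lit 76) (nat_lit 2139566596) (nat_lit 373) (nat_lit 5) (nat_lit 384) (nat_lit 5) (nat_lit 374) (nat_lit 5) (nat_lit 433) (nat_lit 387) (nat_lit 380))) (XT.nd (nat_lit 78) (nat_lit 760) (nat_lit 0) (XT.lf (nat_lit 0) (nat_lit 5194363778) (nat_lit 760) (nat_lit 1862663215) (nat_lit 836) (nat_lit 642280323) (nat_lit 363) (nat_lit 5) (nat_lit 373) (nat_lit 5) (nat_lit 374) (nat_lit 5) (nat_lit 434) (nat_lit 387) (nat_lit 379)) (XT.lf (nat_lit 0) (nat_lit 4563276931) (nat_lit 760) (nat_lit 1303228828) (nat_lit 76) (nat_lit 1913275168) (nat_lit 353) (nat_lit 5) (nat_lit 363) (nat_lit 5) (nat_lit 354) (nat_lit 5) (nat_lit 435)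 (nat_lit 387) (nat_lit 378)))))) (XT.nd (nat_lit 546) (nat_lit 4940) (nat_lit 0) (XT.nd (nat_lit 234) (nat_lit 2736) (nat_lit 0) (XT.nd (nat_lit 78) (nat_lit 2052) (nat_lit 0) (XT.lf (nat_lit 0) (nat_lit 1972621391) (nat_lit 836) (nat_lit 54485493) (nat_lit 76) (nat_lit 5836301164) (nat_lit 342) (nat_lit 5) (nat_lit 353) (nat_lit 5) (nat_lit 343) (nat_lit 5) (nat_lit 436) (nat_lit 387) (nat_lit 377)) (XT.nd (nat_lit 78) (nat_lit 684) (nat_lit 0) (XT.lf (nat_lit 0) (nat_lit 1252986959) (nat_lit 684) (nat_lit 5978494468) (nat_lit 760) (nat_lit 718490072) (nat_lit 324) (nat_lit 5) (nat_lit 333) (nat_lit 5) (nat_lit 334) (nat_lit 5) (nat_lit 437) (nat_lit 387) (nat_lit 376)) (XT.lf (nat_lit 0) (nat_lit 2594462111) (nat_lit 608) (nat_lit 1907373997) (nat_lit 684) (nat_lit 3537638657) (nat_lit 315) (nat_lit 5) (nat_lit 323) (nat_lit 5) (nat_lit 324) (nat_lit 5) (nat_lit 438) (nat_lit 387) (nat_lit 375))))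 (XT.nd (nat_lit 156) (nat_lit 1368) (nat_lit 0) (XT.nd (nat_lit 78) (nat_lit 608) (nat_lit 0) (XT.lf (nat_lit 0) (nat_lit 1671933415) (nat_lit 760) (nat_lit 4150921179) (nat_lit 76) (nat_lit 2309349583) (nat_lit 305) (nat_lit 5) (nat_lit 315) (nat_lit 5) (nat_lit 306) (nat_lit 5) (nat_lit 439) (nat_lit 387) (nat_lit 374)) (XT.lf (nat_lit 0) (nat_lit 5407697415) (nat_lit 608) (nat_lit 1540234820) (nat_lit 684) (nat_lit 1280158506) (nat_lit 297) (nat_lit 5) (nat_lit 305) (nat_lit 5) (nat_lit 306) (nat_lit 5) (nat_lit 440) (nat_lit 387) (nat_lit 373))) (XT.nd (nat_lit 78) (nat_lit 684) (nat_lit 0) (XT.lf (nat_lit 0) (nat_lit 3968969399) (nat_lit 684) (nat_lit 1462552295) (nat_lit 76) (nat_lit 2895476285) (nat_lit 288) (nat_lit 5) (nat_lit 297) (nat_lit 5) (nat_lit 289) (nat_lit 5) (nat_lit 441) (nat_lit 387) (nat_lit 372)) (XT.lf (nat_lit 0) (nat_lit 878150539) (nat_lit 684) (nat_lit 57482312) (nat_lit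 76) (nat_lit 7493738680) (nat_lit 279) (nat_lit 5) (nat_lit 288) (nat_lit 5) (nat_lit 280) (nat_lit 5) (nat_lit 442) (nat_lit 387) (nat_lit 371))))) (XT.nd (nat_lit 234) (nat_lit 2660) (nat_lit 0) (XT.nd (nat_lit 78) (nat_lit 1140) (nat_lit 0) (XT.lf (nat_lit 0) (nat_lit 1384279026) (nat_lit 532) (nat_lit 4814917103) (nat_lit 608) (nat_lit 2335310389) (nat_lit 264) (nat_lit 5) (nat_lit 271) (nat_lit 5) (nat_lit 272) (nat_lit 5) (nat_lit 443) (nat_lit 387) (nat_lit 370)) (XT.nd (nat_lit 78) (nat_lit 532) (nat_lit 0) (XT.lf (nat_lit 0) (nat_lit 2872933209) (nat_lit 532) (nat_lit 86711566) (nat_lit 608) (nat_lit 5683514277) (nat_lit 256) (nat_lit 5) (nat_lit 263) (nat_lit 5) (nat_lit 264) (nat_lit 5) (nat_lit 444) (nat_lit 387) (nat_lit 369)) (XT.lf (nat_lit 0) (nat_lit 4386423078) (nat_lit 532) (nat_lit 3985162191) (nat_lit 608) (nat_lit 383385561) (nat_lit 249) (nat_lit 5) (nat_lit 256) (nat_lit 5)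 (nat_lit 257) (nat_lit 5) (nat_lit 445) (nat_lit 387) (nat_lit 368)))) (XT.nd (nat_lit 156) (nat_lit 1520) (nat_lit 0) (XT.nd (nat_lit 78) (nat_lit 532) (nat_lit 0) (XT.lf (nat_lit 0) (nat_lit 4976952801) (nat_lit 608) (nat_lit 2938609734) (nat_lit 76) (nat_lit 954565231) (nat_lit 241) (nat_lit 5) (nat_lit 249) (nat_lit 5) (nat_lit 242) (nat_lit 5) (nat_lit 446) (nat_lit 387) (nat_lit 367)) (XT.lf (nat_lit 0) (nat_lit 1474766173) (nat_lit 532) (nat_lit 1480060574) (nat_lit 76) (nat_lit 6033866001) (nat_lit 234) (nat_lit 5) (nat_lit 241) (nat_lit 5) (nat_lit 235) (nat_lit 5) (nat_lit 447) (nat_lit 387) (nat_lit 366))) (XT.nd (nat_lit 78) (nat_lit 532) (nat_lit 0) (XT.lf (nat_lit 0) (nat_lit 5633378) (nat_lit 456) (nat_lit 6925880745) (nat_lit 532) (nat_lit 2179177644) (nat_lit 221) (nat_lit 5) (nat_lit 227) (nat_lit 5) (nat_lit 228) (nat_lit 5) (nat_lit 448) (nat_lit 387) (nat_lit 365)) (XT.lf (nat_lit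 0) (nat_lit 1537108284) (nat_lit 456) (nat_lit 1733236816) (nat_lit 532) (nat_lit 5965615550) (nat_lit 214) (nat_lit 5) (nat_lit 220) (nat_lit 5) (nat_lit 221) (nat_lit 5) (nat_lit 449) (nat_lit 387) (nat_lit 364))))))) (XT.nd (nat_lit 1014) (nat_lit 4484) (nat_lit 0) (XT.nd (nat_lit 468) (nat_lit 3116) (nat_lit 0) (XT.nd (nat_lit 234) (nat_lit 1672) (nat_lit 0) (XT.nd (nat_lit 78) (nat_lit 988) (nat_lit 0) (XT.lf (nat_lit 0) (nat_lit 3097656688) (nat_lit 456) (nat_lit 5750634117) (nat_lit 532) (nat_lit 516522450) (nat_lit 208) (nat_lit 5) (nat_lit 214) (nat_lit 5) (nat_lit 215) (nat_lit 5) (nat_lit 450) (nat_lit 387) (nat_lit 363)) (XT.nd (nat_lit 78) (nat_lit 456) (nat_lit 0) (XT.lf (nat_lit 0) (nat_lit 4680581298) (nat_lit 456) (nat_lit 333273789) (nat_lit 532) (nat_lit 4483326068) (nat_lit 201) (nat_lit 5) (nat_lit 207) (nat_lit 5) (nat_lit 208) (nat_lit 5) (nat_lit 451) (nat_lit 387) (nat_lit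 362)) (XT.lf (nat_lit 0) (nat_lit 1065386940) (nat_lit 456) (nat_lit 3347591118) (nat_lit 76) (nat_lit 5220144210) (nat_lit 195) (nat_lit 5) (nat_lit 201) (nat_lit 5) (nat_lit 196) (nat_lit 5) (nat_lit 452) (nat_lit 387) (nat_lit 361)))) (XT.nd (nat_lit 78) (nat_lit 1216) (nat_lit 0) (XT.lf (nat_lit 0) (nat_lit 6707867378) (nat_lit 532) (nat_lit 1855933252) (nat_lit 76) (nat_lit 1208988015) (nat_lit 189) (nat_lit 5) (nat_lit 196) (nat_lit 5) (nat_lit 190) (nat_lit 5) (nat_lit 453) (nat_lit 387) (nat_lit 360)) (XT.nd (nat_lit 78) (nat_lit 760) (nat_lit 0) (XT.lf (nat_lit 0) (nat_lit 2578586845) (nat_lit 456) (nat_lit 348354703) (nat_lit 76) (nat_lit 6989174364) (nat_lit 183) (nat_lit 5) (nat_lit 189) (nat_lit 5) (nat_lit 184) (nat_lit 5) (nat_lit 454) (nat_lit 387) (nat_lit 359)) (XT.lf (nat_lit 0) (nat_lit 1197576871) (nat_lit 380) (nat_lit 7161489870) (nat_lit 456) (nat_lit 1704088695) (nat_lit 173)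 (nat_lit 5) (nat_lit 178) (nat_lit 5) (nat_lit 179) (nat_lit 5) (nat_lit 455) (nat_lit 387) (nat_lit 358))))) (XT.nd (nat_lit 234) (nat_lit 1824) (nat_lit 0) (XT.nd (nat_lit 78) (nat_lit 836) (nat_lit 0) (XT.lf (nat_lit 0) (nat_lit 2764056245) (nat_lit 380) (nat_lit 1286891235) (nat_lit 456) (nat_lit 6163003188) (nat_lit 167) (nat_lit 5) (nat_lit 172) (nat_lit 5) (nat_lit 173) (nat_lit 5) (nat_lit 456) (nat_lit 387) (nat_lit 357)) (XT.nd (nat_lit 78) (nat_lit 456) (nat_lit 0) (XT.lf (nat_lit 0) (nat_lit 4349920662) (nat_lit 380) (nat_lit 5623343272) (nat_lit 456) (nat_lit 395428392) (nat_lit 162) (nat_lit 5) (nat_lit 167) (nat_lit 5) (nat_lit 168) (nat_lit 5) (nat_lit 457) (nat_lit 387) (nat_lit 356)) (XT.lf (nat_lit 0) (nat_lit 5472938985) (nat_lit 456) (nat_lit 4577792550) (nat_lit 76) (nat_lit 476618118) (nat_lit 156) (nat_lit 5) (nat_lit 162) (nat_lit 5) (nat_lit 157) (nat_lit 5) (nat_lit 458)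 (nat_lit 387) (nat_lit 355)))) (XT.nd (nat_lit 156) (nat_lit 1064) (nat_lit 0) (XT.nd (nat_lit 78) (nat_lit 380) (nat_lit 0) (XT.lf (nat_lit 0) (nat_lit 839354795) (nat_lit 380) (nat_lit 3125569701) (nat_lit 76) (nat_lit 6725109322) (nat_lit 151) (nat_lit 5) (nat_lit 156) (nat_lit 5) (nat_lit 152) (nat_lit 5) (nat_lit 459) (nat_lit 387) (nat_lit 354)) (XT.lf (nat_lit 0) (nat_lit 6850115267) (nat_lit 456) (nat_lit 1665829894) (nat_lit 76) (nat_lit 2340811173) (nat_lit 146) (nat_lit 5) (nat_lit 152) (nat_lit 5) (nat_lit 147) (nat_lit 5) (nat_lit 460) (nat_lit 387) (nat_lit 353))) (XT.nd (nat_lit 78) (nat_lit 684) (nat_lit 0) (XT.lf (nat_lit 0) (nat_lit 2008285437) (nat_lit 380) (nat_lit 189732650) (nat_lit 76) (nat_lit 8829764694) (nat_lit 141) (nat_lit 5) (nat_lit 146) (nat_lit 5) (nat_lit 142) (nat_lit 5) (nat_lit 461) (nat_lit 387) (nat_lit 352)) (XT.lf (nat_lit 0) (nat_lit 1304189323) (nat_lit 304)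 (nat_lit 6879561486) (nat_lit 380) (nat_lit 3018971844) (nat_lit 132) (nat_lit 5) (nat_lit 136) (nat_lit 5) (nat_lit 137) (nat_lit 5) (nat_lit 462) (nat_lit 387) (nat_lit 351)))))) (XT.nd (nat_lit 546) (nat_lit 2204) (nat_lit 0) (XT.nd (nat_lit 234) (nat_lit 1216) (nat_lit 0) (XT.nd (nat_lit 78) (nat_lit 684) (nat_lit 0) (XT.lf (nat_lit 0) (nat_lit 2820813613) (nat_lit 304) (nat_lit 314626529) (nat_lit 380) (nat_lit 8246756019) (nat_lit 127) (nat_lit 5) (nat_lit 131) (nat_lit 5) (nat_lit 132) (nat_lit 5) (nat_lit 463) (nat_lit 387) (nat_lit 350)) (XT.nd (nat_lit 78) (nat_lit 380) (nat_lit 0) (XT.lf (nat_lit 0) (nat_lit 4330056679) (nat_lit 304) (nat_lit 5147010786) (nat_lit 380) (nat_lit 2088717928) (nat_lit 123) (nat_lit 5) (nat_lit 127) (nat_lit 5) (nat_lit 128) (nat_lit 5) (nat_lit 464) (nat_lit 387) (nat_lit 349)) (XT.lf (nat_lit 0) (nat_lit 4214627937) (nat_lit 380) (nat_lit 5900965859) (nat_lit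 76) (nat_lit 1638411395) (nat_lit 118) (nat_lit 5) (nat_lit 123) (nat_lit 5) (nat_lit 119) (nat_lit 5) (nat_lit 465) (nat_lit 387) (nat_lit 348)))) (XT.nd (nat_lit 156) (nat_lit 608) (nat_lit 0) (XT.nd (nat_lit 78) (nat_lit 380) (nat_lit 0) (XT.lf (nat_lit 0) (nat_lit 7381317515) (nat_lit 228) (nat_lit 3337574183) (nat_lit 304) (nat_lit 1227902266) (nat_lit 115) (nat_lit 5) (nat_lit 118) (nat_lit 5) (nat_lit 119) (nat_lit 5) (nat_lit 466) (nat_lit 387) (nat_lit 347)) (XT.lf (nat_lit 0) (nat_lit 5235544433) (nat_lit 380) (nat_lit 3239905348) (nat_lit 76) (nat_lit 3668598552) (nat_lit 110) (nat_lit 5) (nat_lit 115) (nat_lit 5) (nat_lit 111) (nat_lit 5) (nat_lit 467) (nat_lit 387) (nat_lit 346))) (XT.nd (nat_lit 78) (nat_lit 380) (nat_lit 0) (XT.lf (nat_lit 0) (nat_lit 10449011575) (nat_lit 228) (nat_lit 1459295701) (nat_lit 304) (nat_lit 438111052) (nat_lit 107) (nat_lit 5) (nat_lit 110) (nat_lit 5)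 (nat_lit 111) (nat_lit 5) (nat_lit 468) (nat_lit 387) (nat_lit 345)) (XT.lf (nat_lit 0) (nat_lit 6194508252) (nat_lit 380) (nat_lit 586144184) (nat_lit 76) (nat_lit 5772405089) (nat_lit 102) (nat_lit 5) (nat_lit 107) (nat_lit 5) (nat_lit 103) (nat_lit 5) (nat_lit 469) (nat_lit 387) (nat_lit 344))))) (XT.nd (nat_lit 234) (nat_lit 1064) (nat_lit 0) (XT.nd (nat_lit 78) (nat_lit 532) (nat_lit 0) (XT.lf (nat_lit 0) (nat_lit 282777351) (nat_lit 380) (nat_lit 12002107226) (nat_lit 76) (nat_lit 480286462) (nat_lit 94) (nat_lit 5) (nat_lit 99) (nat_lit 5) (nat_lit 95) (nat_lit 5) (nat_lit 470) (nat_lit 387) (nat_lit 343)) (XT.nd (nat_lit 78) (nat_lit 304) (nat_lit 0) (XT.lf (nat_lit 0) (nat_lit 2076699051) (nat_lit 228) (nat_lit 5025893468) (nat_lit 304) (nat_lit 5878904064) (nat_lit 91) (nat_lit 5) (nat_lit 94) (nat_lit 5) (nat_lit 95) (nat_lit 5) (nat_lit 471) (nat_lit 387) (nat_lit 342)) (XT.lf (nat_lit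 0) (nat_lit 944575421) (nat_lit 304) (nat_lit 9791568675) (nat_lit 76) (nat_lit 2467370121) (nat_lit 87) (nat_lit 5) (nat_lit 91) (nat_lit 5) (nat_lit 88) (nat_lit 5) (nat_lit 472) (nat_lit 387) (nat_lit 341)))) (XT.nd (nat_lit 156) (nat_lit 532) (nat_lit 0) (XT.nd (nat_lit 78) (nat_lit 304) (nat_lit 0) (XT.lf (nat_lit 0) (nat_lit 4716916922) (nat_lit 228) (nat_lit 3229828637) (nat_lit 304) (nat_lit 5483594289) (nat_lit 84) (nat_lit 5) (nat_lit 87) (nat_lit 5) (nat_lit 88) (nat_lit 5) (nat_lit 473) (nat_lit 387) (nat_lit 340)) (XT.lf (nat_lit 0) (nat_lit 1526851191) (nat_lit 304) (nat_lit 7638618589) (nat_lit 76) (nat_lit 4497279099) (nat_lit 80) (nat_lit 5) (nat_lit 84) (nat_lit 5) (nat_lit 81) (nat_lit 5) (nat_lit 474) (nat_lit 387) (nat_lit 339))) (XT.nd (nat_lit 78) (nat_lit 304) (nat_lit 0) (XT.lf (nat_lit 0) (nat_lit 7313528262) (nat_lit 228) (nat_lit 1405400129) (nat_lit 304) (nat_lit 5181562152)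 (nat_lit 77) (nat_lit 5) (nat_lit 80) (nat_lit 5) (nat_lit 81) (nat_lit 5) (nat_lit 475) (nat_lit 387) (nat_lit 338)) (XT.lf (nat_lit 0) (nat_lit 2024540539) (nat_lit 304) (nat_lit 5557899568) (nat_lit 76) (nat_lit 6561286179) (nat_lit 73) (nat_lit 5) (nat_lit 77) (nat_lit 5) (nat_lit 74) (nat_lit 5) (nat_lit 476) (nat_lit 387) (nat_lit 337))))))))
noncomputable def xc19 : XT := (XT.nd (nat_lit 59514) (nat_lit 0) (nat_lit 6004) (XT.nd (nat_lit 58422) (nat_lit 0) (nat_lit 21204) (XT.nd (nat_lit 468) (nat_lit 1216) (nat_lit 0) (XT.nd (nat_lit 234) (nat_lit 912) (nat_lit 0) (XT.nd (nat_lit 78) (nat_lit 456) (nat_lit 0) (XT.lf (nat_lit 0) (nat_lit 9416861839) (nat_lit 304) (nat_lit 4543663602) (nat_lit 76) (nat_lit 432241551) (nat_lit 70) (nat_lit 5) (nat_lit 74) (nat_lit 5) (nat_lit 71) (nat_lit 5) (nat_lit 477) (nat_lit 387) (nat_lit 336)) (XT.nd (nat_lit 78) (nat_lit 152) (nat_lit 0) (XT.lf (nat_lit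 0) (nat_lit 2431584692) (nat_lit 304) (nat_lit 3565525573) (nat_lit 76) (nat_lit 8650237919) (nat_lit 66) (nat_lit 5) (nat_lit 70) (nat_lit 5) (nat_lit 67) (nat_lit 5) (nat_lit 478) (nat_lit 387) (nat_lit 335)) (XT.lf (nat_lit 0) (nat_lit 10040751185) (nat_lit 228) (nat_lit 2606840655) (nat_lit 76) (nat_lit 2260377484) (nat_lit 64) (nat_lit 5) (nat_lit 67) (nat_lit 5) (nat_lit 65) (nat_lit 5) (nat_lit 479) (nat_lit 387) (nat_lit 334)))) (XT.nd (nat_lit 78) (nat_lit 608) (nat_lit 0) (XT.lf (nat_lit 0) (nat_lit 2740852606) (nat_lit 304) (nat_lit 1679272673) (nat_lit 76) (nat_lit 10754444276) (nat_lit 60) (nat_lit 5) (nat_lit 64) (nat_lit 5) (nat_lit 61) (nat_lit 5) (nat_lit 480) (nat_lit 387) (nat_lit 333)) (XT.nd (nat_lit 78) (nat_lit 456) (nat_lit 0) (XT.lf (nat_lit 0) (nat_lit 10574175618) (nat_lit 228) (nat_lit 786044007) (nat_lit 76) (nat_lit 4087043311) (nat_lit 58) (nat_lit 5) (nat_lit 61) (nat_lit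 5) (nat_lit 59) (nat_lit 5) (nat_lit 481) (nat_lit 387) (nat_lit 332)) (XT.lf (nat_lit 0) (nat_lit 82291440) (nat_lit 152) (nat_lit 2862295865) (nat_lit 228) (nat_lit 12781803659) (nat_lit 52) (nat_lit 5) (nat_lit 54) (nat_lit 5) (nat_lit 55) (nat_lit 5) (nat_lit 482) (nat_lit 387) (nat_lit 331))))) (XT.nd (nat_lit 234) (nat_lit 608) (nat_lit 0) (XT.nd (nat_lit 78) (nat_lit 380) (nat_lit 0) (XT.lf (nat_lit 0) (nat_lit 910001607) (nat_lit 228) (nat_lit 10104555801) (nat_lit 304) (nat_lit 4997012995) (nat_lit 49) (nat_lit 5) (nat_lit 52) (nat_lit 5) (nat_lit 53) (nat_lit 5) (nat_lit 483) (nat_lit 387) (nat_lit 330)) (XT.nd (nat_lit 78) (nat_lit 152) (nat_lit 0) (XT.lf (nat_lit 0) (nat_lit 1716697071) (nat_lit 152) (nat_lit 1326084076) (nat_lit 228) (nat_lit 13260911213) (nat_lit 46) (nat_lit 5) (nat_lit 48) (nat_lit 5) (nat_lit 49) (nat_lit 5) (nat_lit 484) (nat_lit 387) (nat_lit 329)) (XT.lf (nat_lit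 0) (nat_lit 2454803461) (nat_lit 152) (nat_lit 8895525558) (nat_lit 228) (nat_lit 5251700483) (nat_lit 44) (nat_lit 5) (nat_lit 46) (nat_lit 5) (nat_lit 47) (nat_lit 5) (nat_lit 485) (nat_lit 387) (nat_lit 328)))) (XT.nd (nat_lit 156) (nat_lit 228) (nat_lit 0) (XT.nd (nat_lit 78) (nat_lit 152) (nat_lit 0) (XT.lf (nat_lit 0) (nat_lit 3014370273) (nat_lit 228) (nat_lit 13731686278) (nat_lit 76) (nat_lit 161754004) (nat_lit 41) (nat_lit 5) (nat_lit 44) (nat_lit 5) (nat_lit 42) (nat_lit 5) (nat_lit 486) (nat_lit 387) (nat_lit 327)) (XT.lf (nat_lit 0) (nat_lit 3812207866) (nat_lit 152) (nat_lit 7752751461) (nat_lit 228) (nat_lit 5654954756) (nat_lit 39) (nat_lit 5) (nat_lit 41) (nat_lit 5) (nat_lit 42) (nat_lit 5) (nat_lit 487) (nat_lit 387) (nat_lit 326))) (XT.nd (nat_lit 57486) (nat_lit 0) (nat_lit 36632) (XT.lf (nat_lit 0) (nat_lit 2853912846) (nat_lit 228) (nat_lit 13113608140) (nat_lit 76) (nat_lit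 1572286099) (nat_lit 36) (nat_lit 5) (nat_lit 39) (nat_lit 5) (nat_lit 37) (nat_lit 5) (nat_lit 488) (nat_lit 387) (nat_lit 325)) (XT.lf (nat_lit 0) (nat_lit 543493168) (nat_lit 1748) (nat_lit 2440423969) (nat_lit 0) (nat_lit 543493168) (nat_lit 518) (nat_lit 5) (nat_lit 541) (nat_lit 4) (nat_lit 518) (nat_lit 4) (nat_lit 424) (nat_lit 388) (nat_lit 388)))))) (XT.nd (nat_lit 546) (nat_lit 6080) (nat_lit 0) (XT.nd (nat_lit 234) (nat_lit 4560) (nat_lit 0) (XT.nd (nat_lit 78) (nat_lit 3040) (nat_lit 0) (XT.lf (nat_lit 0) (nat_lit 2922539961) (nat_lit 1748) (nat_lit 3407613825) (nat_lit 1748) (nat_lit 777267355) (nat_lit 495) (nat_lit 4) (nat_lit 518) (nat_lit 5) (nat_lit 518) (nat_lit 4) (nat_lit 425) (nat_lit 388) (nat_lit 387)) (XT.nd (nat_lit 78) (nat_lit 1140) (nat_lit 0) (XT.lf (nat_lit 0) (nat_lit 3727941960) (nat_lit 1824) (nat_lit 683950547) (nat_lit 1900) (nat_lit 2751070160) (nat_lit 470) (nat_lit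 5) (nat_lit 494) (nat_lit 5) (nat_lit 495) (nat_lit 4) (nat_lit 426) (nat_lit 388) (nat_lit 386)) (XT.lf (nat_lit 0) (nat_lit 2413461758) (nat_lit 1140) (nat_lit 2637978549) (nat_lit 76) (nat_lit 2169901184) (nat_lit 455) (nat_lit 5) (nat_lit 470) (nat_lit 5) (nat_lit 456) (nat_lit 4) (nat_lit 427) (nat_lit 388) (nat_lit 385)))) (XT.nd (nat_lit 156) (nat_lit 2660) (nat_lit 0) (XT.nd (nat_lit 78) (nat_lit 912) (nat_lit 0) (XT.lf (nat_lit 0) (nat_lit 323559607) (nat_lit 988) (nat_lit 1784491312) (nat_lit 76) (nat_lit 5174723375) (nat_lit 442) (nat_lit 5) (nat_lit 455) (nat_lit 5) (nat_lit 443) (nat_lit 5) (nat_lit 428) (nat_lit 388) (nat_lit 384)) (XT.lf (nat_lit 0) (nat_lit 5464058973) (nat_lit 988) (nat_lit 888401652) (nat_lit 76) (nat_lit 994555908) (nat_lit 430) (nat_lit 5) (nat_lit 443) (nat_lit 5) (nat_lit 431) (nat_lit 4) (nat_lit 429) (nat_lit 388) (nat_lit 383))) (XT.nd (nat_lit 78) (nat_lit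 912) (nat_lit 0) (XT.lf (nat_lit 0) (nat_lit 52832529) (nat_lit 836) (nat_lit 3180392624) (nat_lit 912) (nat_lit 4180906407) (nat_lit 407) (nat_lit 5) (nat_lit 418) (nat_lit 5) (nat_lit 419) (nat_lit 5) (nat_lit 430) (nat_lit 388) (nat_lit 382)) (XT.lf (nat_lit 0) (nat_lit 908657580) (nat_lit 912) (nat_lit 6417814717) (nat_lit 76) (nat_lit 157871524) (nat_lit 395) (nat_lit 5) (nat_lit 407) (nat_lit 5) (nat_lit 396) (nat_lit 5) (nat_lit 431) (nat_lit 388) (nat_lit 381))))) (XT.nd (nat_lit 234) (nat_lit 3572) (nat_lit 0) (XT.nd (nat_lit 78) (nat_lit 1672) (nat_lit 0) (XT.lf (nat_lit 0) (nat_lit 2110431947) (nat_lit 836) (nat_lit 3929220208) (nat_lit 912) (nat_lit 1517556158) (nat_lit 384) (nat_lit 5) (nat_lit 395) (nat_lit 5) (nat_lit 396) (nat_lit 5) (nat_lit 432) (nat_lit 388) (nat_lit 380)) (XT.nd (nat_lit 78) (nat_lit 836) (nat_lit 0) (XT.lf (nat_lit 0) (nat_lit 3209595336) (nat_lit 760) (nat_lit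 361090159) (nat_lit 836) (nat_lit 4062566961) (nat_lit 373) (nat_lit 5) (nat_lit 383) (nat_lit 5) (nat_lit 384) (nat_lit 5) (nat_lit 433) (nat_lit 388) (nat_lit 379)) (XT.lf (nat_lit 0) (nat_lit 1017193719) (nat_lit 836) (nat_lit 3363653647) (nat_lit 76) (nat_lit 3331362890) (nat_lit 362) (nat_lit 5) (nat_lit 373) (nat_lit 5) (nat_lit 363) (nat_lit 5) (nat_lit 434) (nat_lit 388) (nat_lit 378)))) (XT.nd (nat_lit 156) (nat_lit 2052) (nat_lit 0) (XT.nd (nat_lit 78) (nat_lit 836) (nat_lit 0) (XT.lf (nat_lit 0) (nat_lit 5535979323) (nat_lit 684) (nat_lit 594084794) (nat_lit 760) (nat_lit 1664225726) (nat_lit 353) (nat_lit 5) (nat_lit 362) (nat_lit 5) (nat_lit 363) (nat_lit 5) (nat_lit 435) (nat_lit 388) (nat_lit 377)) (XT.lf (nat_lit 0) (nat_lit 3429254747) (nat_lit 836) (nat_lit 1122943889) (nat_lit 76) (nat_lit 3327026407) (nat_lit 342) (nat_lit 5) (nat_lit 353) (nat_lit 5) (nat_lit 343) (nat_lit 5) (nat_lit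 436) (nat_lit 388) (nat_lit 376))) (XT.nd (nat_lit 78) (nat_lit 608) (nat_lit 0) (XT.lf (nat_lit 0) (nat_lit 67810460) (nat_lit 684) (nat_lit 553071504) (nat_lit 760) (nat_lit 7346655878) (nat_lit 323) (nat_lit 5) (nat_lit 332) (nat_lit 5) (nat_lit 333) (nat_lit 5) (nat_lit 437) (nat_lit 388) (nat_lit 375)) (XT.lf (nat_lit 0) (nat_lit 1294292061) (nat_lit 608) (nat_lit 4462577776) (nat_lit 684) (nat_lit 2301579894) (nat_lit 315) (nat_lit 5) (nat_lit 323) (nat_lit 5) (nat_lit 324) (nat_lit 5) (nat_lit 438) (nat_lit 388) (nat_lit 374))))))) (XT.nd (nat_lit 1092) (nat_lit 6080) (nat_lit 0) (XT.nd (nat_lit 546) (nat_lit 4028) (nat_lit 0) (XT.nd (nat_lit 234) (nat_lit 3040) (nat_lit 0) (XT.nd (nat_lit 78) (nat_lit 1292) (nat_lit 0) (XT.lf (nat_lit 0) (nat_lit 2572082815) (nat_lit 684) (nat_lit 233286231) (nat_lit 760) (nat_lit 5347381275) (nat_lit 305) (nat_lit 5) (nat_lit 314) (nat_lit 5) (nat_lit 315)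 (nat_lit 5) (nat_lit 439) (nat_lit 388) (nat_lit 373)) (XT.nd (nat_lit 78) (nat_lit 684) (nat_lit 0) (XT.lf (nat_lit 0) (nat_lit 3880770278) (nat_lit 608) (nat_lit 4128391923) (nat_lit 684) (nat_lit 240922143) (nat_lit 297) (nat_lit 5) (nat_lit 305) (nat_lit 5) (nat_lit 306) (nat_lit 5) (nat_lit 440) (nat_lit 388) (nat_lit 372)) (XT.lf (nat_lit 0) (nat_lit 4906970871) (nat_lit 684) (nat_lit 3124451819) (nat_lit 76) (nat_lit 319189228) (nat_lit 288) (nat_lit 5) (nat_lit 297) (nat_lit 5) (nat_lit 289) (nat_lit 5) (nat_lit 441) (nat_lit 388) (nat_lit 371)))) (XT.nd (nat_lit 156) (nat_lit 1748) (nat_lit 0) (XT.nd (nat_lit 78) (nat_lit 608) (nat_lit 0) (XT.lf (nat_lit 0) (nat_lit 1709851067) (nat_lit 684) (nat_lit 1850978906) (nat_lit 76) (nat_lit 4893453684) (nat_lit 279) (nat_lit 5) (nat_lit 288) (nat_lit 5) (nat_lit 280) (nat_lit 5) (nat_lit 442) (nat_lit 388) (nat_lit 370)) (XT.lf (nat_lit 0) (nat_lit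 6934396793) (nat_lit 684) (nat_lit 538794009) (nat_lit 76) (nat_lit 1088160780) (nat_lit 271) (nat_lit 5) (nat_lit 280) (nat_lit 5) (nat_lit 272) (nat_lit 5) (nat_lit 443) (nat_lit 388) (nat_lit 369))) (XT.nd (nat_lit 78) (nat_lit 608) (nat_lit 0) (XT.lf (nat_lit 0) (nat_lit 805046473) (nat_lit 532) (nat_lit 2778894631) (nat_lit 608) (nat_lit 5087469211) (nat_lit 256) (nat_lit 5) (nat_lit 263) (nat_lit 5) (nat_lit 264) (nat_lit 5) (nat_lit 444) (nat_lit 388) (nat_lit 368)) (XT.lf (nat_lit 0) (nat_lit 120875029) (nat_lit 608) (nat_lit 6585450592) (nat_lit 76) (nat_lit 2078651431) (nat_lit 248) (nat_lit 5) (nat_lit 256) (nat_lit 5) (nat_lit 249) (nat_lit 5) (nat_lit 445) (nat_lit 388) (nat_lit 367))))) (XT.nd (nat_lit 234) (nat_lit 2432) (nat_lit 0) (XT.nd (nat_lit 78) (nat_lit 1064) (nat_lit 0) (XT.lf (nat_lit 0) (nat_lit 3609773018) (nat_lit 532) (nat_lit 1789060677) (nat_lit 608) (nat_lit 3502800127)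 (nat_lit 241) (nat_lit 5) (nat_lit 248) (nat_lit 5) (nat_lit 249) (nat_lit 5) (nat_lit 446) (nat_lit 388) (nat_lit 366)) (XT.nd (nat_lit 78) (nat_lit 532) (nat_lit 0) (XT.lf (nat_lit 0) (nat_lit 1776969337) (nat_lit 532) (nat_lit 3966907918) (nat_lit 76) (nat_lit 3277934355) (nat_lit 234) (nat_lit 5) (nat_lit 241) (nat_lit 5) (nat_lit 235) (nat_lit 5) (nat_lit 447) (nat_lit 388) (nat_lit 365)) (XT.lf (nat_lit 0) (nat_lit 6532618798) (nat_lit 532) (nat_lit 615593671) (nat_lit 608) (nat_lit 1997310650) (nat_lit 227) (nat_lit 5) (nat_lit 234) (nat_lit 5) (nat_lit 235) (nat_lit 5) (nat_lit 448) (nat_lit 388) (nat_lit 364)))) (XT.nd (nat_lit 156) (nat_lit 988) (nat_lit 0) (XT.nd (nat_lit 78) (nat_lit 912) (nat_lit 0) (XT.lf (nat_lit 0) (nat_lit 3364391905) (nat_lit 532) (nat_lit 1247334372) (nat_lit 76) (nat_lit 4660753083) (nat_lit 220) (nat_lit 5) (nat_lit 227) (nat_lit 5) (nat_lit 221) (nat_lit 5) (nat_lit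 449) (nat_lit 388) (nat_lit 363)) (XT.lf (nat_lit 0) (nat_lit 161790441) (nat_lit 456) (nat_lit 8681297424) (nat_lit 532) (nat_lit 560231306) (nat_lit 208) (nat_lit 5) (nat_lit 214) (nat_lit 5) (nat_lit 215) (nat_lit 5) (nat_lit 450) (nat_lit 388) (nat_lit 362))) (XT.nd (nat_lit 78) (nat_lit 456) (nat_lit 0) (XT.lf (nat_lit 0) (nat_lit 1588102894) (nat_lit 456) (nat_lit 3310001681) (nat_lit 532) (nat_lit 4639042573) (nat_lit 201) (nat_lit 5) (nat_lit 207) (nat_lit 5) (nat_lit 208) (nat_lit 5) (nat_lit 451) (nat_lit 388) (nat_lit 361)) (XT.lf (nat_lit 0) (nat_lit 819117942) (nat_lit 456) (nat_lit 6620735206) (nat_lit 76) (nat_lit 2235109228) (nat_lit 195) (nat_lit 5) (nat_lit 201) (nat_lit 5) (nat_lit 196) (nat_lit 5) (nat_lit 452) (nat_lit 388) (nat_lit 360)))))) (XT.nd (nat_lit 546) (nat_lit 2812) (nat_lit 0) (XT.nd (nat_lit 234) (nat_lit 1976) (nat_lit 0) (XT.nd (nat_lit 78) (nat_lit 836) (nat_lit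 0) (XT.lf (nat_lit 0) (nat_lit 4530442902) (nat_lit 456) (nat_lit 1850168713) (nat_lit 532) (nat_lit 3435638817) (nat_lit 189) (nat_lit 5) (nat_lit 195) (nat_lit 5) (nat_lit 196) (nat_lit 5) (nat_lit 453) (nat_lit 388) (nat_lit 359)) (XT.nd (nat_lit 78) (nat_lit 380) (nat_lit 0) (XT.lf (nat_lit 0) (nat_lit 2126998633) (nat_lit 456) (nat_lit 3931300167) (nat_lit 76) (nat_lit 3903043543) (nat_lit 183) (nat_lit 5) (nat_lit 189) (nat_lit 5) (nat_lit 184) (nat_lit 5) (nat_lit 454) (nat_lit 388) (nat_lit 358)) (XT.lf (nat_lit 0) (nat_lit 7557162028) (nat_lit 380) (nat_lit 249910970) (nat_lit 456) (nat_lit 2303318774) (nat_lit 178) (nat_lit 5) (nat_lit 183) (nat_lit 5) (nat_lit 184) (nat_lit 5) (nat_lit 455) (nat_lit 388) (nat_lit 357)))) (XT.nd (nat_lit 156) (nat_lit 760) (nat_lit 0) (XT.nd (nat_lit 78) (nat_lit 760) (nat_lit 0) (XT.lf (nat_lit 0) (nat_lit 3373543126) (nat_lit 456) (nat_lit 1175985754) (nat_lit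 76) (nat_lit 5713458313) (nat_lit 172) (nat_lit 5) (nat_lit 178) (nat_lit 5) (nat_lit 173) (nat_lit 5) (nat_lit 456) (nat_lit 388) (nat_lit 356)) (XT.lf (nat_lit 0) (nat_lit 235683411) (nat_lit 380) (nat_lit 8955710768) (nat_lit 456) (nat_lit 1228425639) (nat_lit 162) (nat_lit 5) (nat_lit 167) (nat_lit 5) (nat_lit 168) (nat_lit 5) (nat_lit 457) (nat_lit 388) (nat_lit 355))) (XT.nd (nat_lit 78) (nat_lit 304) (nat_lit 0) (XT.lf (nat_lit 0) (nat_lit 1660455412) (nat_lit 380) (nat_lit 2911238031) (nat_lit 456) (nat_lit 6008476913) (nat_lit 156) (nat_lit 5) (nat_lit 161) (nat_lit 5) (nat_lit 162) (nat_lit 5) (nat_lit 458) (nat_lit 388) (nat_lit 354)) (XT.lf (nat_lit 0) (nat_lit 3113037605) (nat_lit 304) (nat_lit 7431099792) (nat_lit 380) (nat_lit 200734514) (nat_lit 152) (nat_lit 5) (nat_lit 156) (nat_lit 5) (nat_lit 157) (nat_lit 5) (nat_lit 459) (nat_lit 388) (nat_lit 353))))) (XT.nd (nat_lit 234) (nat_lit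 1596) (nat_lit 0) (XT.nd (nat_lit 78) (nat_lit 760) (nat_lit 0) (XT.lf (nat_lit 0) (nat_lit 4565827287) (nat_lit 380) (nat_lit 1154458314) (nat_lit 456) (nat_lit 5193183812) (nat_lit 146) (nat_lit 5) (nat_lit 151) (nat_lit 5) (nat_lit 152) (nat_lit 5) (nat_lit 460) (nat_lit 388) (nat_lit 352)) (XT.nd (nat_lit 78) (nat_lit 380) (nat_lit 0) (XT.lf (nat_lit 0) (nat_lit 751866272) (nat_lit 380) (nat_lit 5051809204) (nat_lit 76) (nat_lit 5282684613) (nat_lit 141) (nat_lit 5) (nat_lit 146) (nat_lit 5) (nat_lit 142) (nat_lit 5) (nat_lit 461) (nat_lit 388) (nat_lit 351)) (XT.lf (nat_lit 0) (nat_lit 6817010956) (nat_lit 456) (nat_lit 3750821304) (nat_lit 76) (nat_lit 695675464) (nat_lit 136) (nat_lit 5) (nat_lit 142) (nat_lit 5) (nat_lit 137) (nat_lit 5) (nat_lit 462) (nat_lit 388) (nat_lit 350)))) (XT.nd (nat_lit 156) (nat_lit 912) (nat_lit 0) (XT.nd (nat_lit 78) (nat_lit 304) (nat_lit 0) (XT.lf (nat_lit 0)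 (nat_lit 1637801539) (nat_lit 380) (nat_lit 2447887255) (nat_lit 76) (nat_lit 7359255808) (nat_lit 131) (nat_lit 5) (nat_lit 136) (nat_lit 5) (nat_lit 132) (nat_lit 5) (nat_lit 463) (nat_lit 388) (nat_lit 349)) (XT.lf (nat_lit 0) (nat_lit 7865601870) (nat_lit 380) (nat_lit 1140939060) (nat_lit 76) (nat_lit 2624270691) (nat_lit 127) (nat_lit 5) (nat_lit 132) (nat_lit 5) (nat_lit 128) (nat_lit 5) (nat_lit 464) (nat_lit 388) (nat_lit 348))) (XT.nd (nat_lit 78) (nat_lit 228) (nat_lit 0) (XT.lf (nat_lit 0) (nat_lit 175144877) (nat_lit 304) (nat_lit 2285231382) (nat_lit 380) (nat_lit 9360868992) (nat_lit 118) (nat_lit 5) (nat_lit 122) (nat_lit 5) (nat_lit 123) (nat_lit 5) (nat_lit 465) (nat_lit 388) (nat_lit 347)) (XT.lf (nat_lit 0) (nat_lit 1500527164) (nat_lit 228) (nat_lit 7367252316) (nat_lit 304) (nat_lit 3148192907) (nat_lit 115) (nat_lit 5) (nat_lit 118) (nat_lit 5) (nat_lit 119) (nat_lit 5) (nat_lit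 466) (nat_lit 388) (nat_lit 346))))))))
noncomputable def xc20 : XT := (XT.nd (nat_lit 59358) (nat_lit 0) (nat_lit 11400) (XT.nd (nat_lit 1014) (nat_lit 1900) (nat_lit 0) (XT.nd (nat_lit 468) (nat_lit 2052) (nat_lit 0) (XT.nd (nat_lit 234) (nat_lit 836) (nat_lit 0) (XT.nd (nat_lit 78) (nat_lit 608) (nat_lit 0) (XT.lf (nat_lit 0) (nat_lit 2838635173) (nat_lit 304) (nat_lit 394807841) (nat_lit 380) (nat_lit 8982174110) (nat_lit 110) (nat_lit 5) (nat_lit 114) (nat_lit 5) (nat_lit 115) (nat_lit 5) (nat_lit 467) (nat_lit 388) (nat_lit 345)) (XT.nd (nat_lit 78) (nat_lit 380) (nat_lit 0) (XT.lf (nat_lit 0) (nat_lit 4159779365) (nat_lit 228) (nat_lit 5660318612) (nat_lit 304) (nat_lit 2599612364) (nat_lit 107) (nat_lit 5) (nat_lit 110) (nat_lit 5) (nat_lit 111) (nat_lit 5) (nat_lit 468) (nat_lit 388) (nat_lit 344)) (XT.lf (nat_lit 0) (nat_lit 3949071601) (nat_lit 380) (nat_lit 7139002107) (nat_lit 76) (nat_lit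 1540803198) (nat_lit 102) (nat_lit 5) (nat_lit 107) (nat_lit 5) (nat_lit 103) (nat_lit 5) (nat_lit 469) (nat_lit 388) (nat_lit 343)))) (XT.nd (nat_lit 78) (nat_lit 608) (nat_lit 0) (XT.lf (nat_lit 0) (nat_lit 6811422906) (nat_lit 228) (nat_lit 3901600439) (nat_lit 304) (nat_lit 2129870937) (nat_lit 99) (nat_lit 5) (nat_lit 102) (nat_lit 5) (nat_lit 103) (nat_lit 5) (nat_lit 470) (nat_lit 388) (nat_lit 342)) (XT.nd (nat_lit 78) (nat_lit 228) (nat_lit 0) (XT.lf (nat_lit 0) (nat_lit 4597324990) (nat_lit 380) (nat_lit 4936395172) (nat_lit 76) (nat_lit 3528188231) (nat_lit 94) (nat_lit 5) (nat_lit 99) (nat_lit 5) (nat_lit 95) (nat_lit 5) (nat_lit 471) (nat_lit 388) (nat_lit 341)) (XT.lf (nat_lit 0) (nat_lit 9444300912) (nat_lit 228) (nat_lit 2099445212) (nat_lit 304) (nat_lit 1742540161) (nat_lit 91) (nat_lit 5) (nat_lit 94) (nat_lit 5) (nat_lit 95) (nat_lit 5) (nat_lit 472) (nat_lit 388) (nat_lit 340)))))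 (XT.nd (nat_lit 234) (nat_lit 1216) (nat_lit 0) (XT.nd (nat_lit 78) (nat_lit 532) (nat_lit 0) (XT.lf (nat_lit 0) (nat_lit 5172027514) (nat_lit 304) (nat_lit 2779014958) (nat_lit 76) (nat_lit 5564505708) (nat_lit 87) (nat_lit 5) (nat_lit 91) (nat_lit 5) (nat_lit 88) (nat_lit 5) (nat_lit 473) (nat_lit 388) (nat_lit 339)) (XT.nd (nat_lit 78) (nat_lit 304) (nat_lit 0) (XT.lf (nat_lit 0) (nat_lit 12046189158) (nat_lit 228) (nat_lit 262437019) (nat_lit 304) (nat_lit 1442067731) (nat_lit 84) (nat_lit 5) (nat_lit 87) (nat_lit 5) (nat_lit 88) (nat_lit 5) (nat_lit 474) (nat_lit 388) (nat_lit 338)) (XT.lf (nat_lit 0) (nat_lit 5668690406) (nat_lit 304) (nat_lit 680464669) (nat_lit 76) (nat_lit 7641473195) (nat_lit 80) (nat_lit 5) (nat_lit 84) (nat_lit 5) (nat_lit 81) (nat_lit 5) (nat_lit 475) (nat_lit 388) (nat_lit 337)))) (XT.nd (nat_lit 156) (nat_lit 456) (nat_lit 0) (XT.nd (nat_lit 78) (nat_lit 304) (nat_lit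 0) (XT.lf (nat_lit 0) (nat_lit 361011702) (nat_lit 228) (nat_lit 12654859457) (nat_lit 304) (nat_lit 1220846601) (nat_lit 74) (nat_lit 5) (nat_lit 77) (nat_lit 5) (nat_lit 78) (nat_lit 5) (nat_lit 476) (nat_lit 388) (nat_lit 336)) (XT.lf (nat_lit 0) (nat_lit 1362167792) (nat_lit 228) (nat_lit 4728562452) (nat_lit 304) (nat_lit 8397122613) (nat_lit 70) (nat_lit 5) (nat_lit 73) (nat_lit 5) (nat_lit 74) (nat_lit 5) (nat_lit 477) (nat_lit 388) (nat_lit 335))) (XT.nd (nat_lit 78) (nat_lit 228) (nat_lit 0) (XT.lf (nat_lit 0) (nat_lit 2364202973) (nat_lit 228) (nat_lit 11295535241) (nat_lit 304) (nat_lit 1085530447) (nat_lit 67) (nat_lit 5) (nat_lit 70) (nat_lit 5) (nat_lit 71) (nat_lit 5) (nat_lit 478) (nat_lit 388) (nat_lit 334)) (XT.lf (nat_lit 0) (nat_lit 3322379343) (nat_lit 152) (nat_lit 3104368933) (nat_lit 228) (nat_lit 8581505662) (nat_lit 64) (nat_lit 5) (nat_lit 66) (nat_lit 5) (nat_lit 67) (nat_lit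 5) (nat_lit 479) (nat_lit 388) (nat_lit 333)))))) (XT.nd (nat_lit 546) (nat_lit 380) (nat_lit 0) (XT.nd (nat_lit 234) (nat_lit 836) (nat_lit 0) (XT.nd (nat_lit 78) (nat_lit 456) (nat_lit 0) (XT.lf (nat_lit 0) (nat_lit 4266604964) (nat_lit 228) (nat_lit 9954028532) (nat_lit 304) (nat_lit 1056933393) (nat_lit 61) (nat_lit 5) (nat_lit 64) (nat_lit 5) (nat_lit 65) (nat_lit 5) (nat_lit 480) (nat_lit 388) (nat_lit 332)) (XT.nd (nat_lit 78) (nat_lit 228) (nat_lit 0) (XT.lf (nat_lit 0) (nat_lit 5172679653) (nat_lit 152) (nat_lit 1491939745) (nat_lit 228) (nat_lit 8888291390) (nat_lit 58) (nat_lit 5) (nat_lit 60) (nat_lit 5) (nat_lit 61) (nat_lit 5) (nat_lit 481) (nat_lit 388) (nat_lit 331)) (XT.lf (nat_lit 0) (nat_lit 6048824602) (nat_lit 228) (nat_lit 8641915799) (nat_lit 304) (nat_lit 1143890496) (nat_lit 55) (nat_lit 5) (nat_lit 58) (nat_lit 5) (nat_lit 59) (nat_lit 5) (nat_lit 482) (nat_lit 388) (nat_lit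 330)))) (XT.nd (nat_lit 156) (nat_lit 380) (nat_lit 0) (XT.nd (nat_lit 78) (nat_lit 228) (nat_lit 0) (XT.lf (nat_lit 0) (nat_lit 6796130686) (nat_lit 228) (nat_lit 9230844243) (nat_lit 76) (nat_lit 95883554) (nat_lit 52) (nat_lit 5) (nat_lit 55) (nat_lit 5) (nat_lit 53) (nat_lit 5) (nat_lit 483) (nat_lit 388) (nat_lit 329)) (XT.lf (nat_lit 0) (nat_lit 7689387373) (nat_lit 228) (nat_lit 7371627526) (nat_lit 304) (nat_lit 1356523857) (nat_lit 49) (nat_lit 5) (nat_lit 52) (nat_lit 5) (nat_lit 53) (nat_lit 5) (nat_lit 484) (nat_lit 388) (nat_lit 328))) (XT.nd (nat_lit 78) (nat_lit 152) (nat_lit 0) (XT.lf (nat_lit 0) (nat_lit 6819961788) (nat_lit 228) (nat_lit 8270259156) (nat_lit 76) (nat_lit 1628808708) (nat_lit 46) (nat_lit 5) (nat_lit 49) (nat_lit 5) (nat_lit 47) (nat_lit 5) (nat_lit 485) (nat_lit 388) (nat_lit 327)) (XT.lf (nat_lit 0) (nat_lit 9164488081) (nat_lit 152) (nat_lit 6156587180) (nat_lit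 228) (nat_lit 1706356482) (nat_lit 44) (nat_lit 5) (nat_lit 46) (nat_lit 5) (nat_lit 47) (nat_lit 5) (nat_lit 486) (nat_lit 388) (nat_lit 326))))) (XT.nd (nat_lit 57486) (nat_lit 0) (nat_lit 32756) (XT.nd (nat_lit 78) (nat_lit 152) (nat_lit 0) (XT.lf (nat_lit 0) (nat_lit 6714777136) (nat_lit 228) (nat_lit 7514951437) (nat_lit 76) (nat_lit 3113065463) (nat_lit 41) (nat_lit 5) (nat_lit 44) (nat_lit 5) (nat_lit 42) (nat_lit 5) (nat_lit 487) (nat_lit 388) (nat_lit 325)) (XT.nd (nat_lit 57330) (nat_lit 0) (nat_lit 39748) (XT.lf (nat_lit 0) (nat_lit 10447716985) (nat_lit 152) (nat_lit 5011361537) (nat_lit 228) (nat_lit 2206439750) (nat_lit 39) (nat_lit 5) (nat_lit 41) (nat_lit 5) (nat_lit 42) (nat_lit 5) (nat_lit 488) (nat_lit 388) (nat_lit 324)) (XT.lf (nat_lit 0) (nat_lit 231076519) (nat_lit 1596) (nat_lit 3016257242) (nat_lit 0) (nat_lit 231076519) (nat_lit 562) (nat_lit 5) (nat_lit 583) (nat_lit 4) (nat_lit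 562) (nat_lit 4) (nat_lit 422) (nat_lit 389) (nat_lit 389)))) (XT.nd (nat_lit 156) (nat_lit 3648) (nat_lit 0) (XT.nd (nat_lit 78) (nat_lit 1748) (nat_lit 0) (XT.lf (nat_lit 0) (nat_lit 1475460498) (nat_lit 1596) (nat_lit 4146490270) (nat_lit 1596) (nat_lit 1383048269) (nat_lit 541) (nat_lit 4) (nat_lit 562) (nat_lit 5) (nat_lit 562) (nat_lit 4) (nat_lit 423) (nat_lit 389) (nat_lit 388)) (XT.lf (nat_lit 0) (nat_lit 2087088093) (nat_lit 1672) (nat_lit 1642359180) (nat_lit 1748) (nat_lit 3326715610) (nat_lit 518) (nat_lit 5) (nat_lit 540) (nat_lit 5) (nat_lit 541) (nat_lit 4) (nat_lit 424) (nat_lit 389) (nat_lit 387))) (XT.nd (nat_lit 78) (nat_lit 1824) (nat_lit 0) (XT.lf (nat_lit 0) (nat_lit 1751953054) (nat_lit 1824) (nat_lit 4354392599) (nat_lit 76) (nat_lit 1003930846) (nat_lit 494) (nat_lit 5) (nat_lit 518) (nat_lit 5) (nat_lit 495) (nat_lit 4) (nat_lit 425) (nat_lit 389) (nat_lit 386)) (XT.lf (nat_lit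 0) (nat_lit 3474994742) (nat_lit 1824) (nat_lit 3380295521) (nat_lit 1900) (nat_lit 311945273) (nat_lit 470) (nat_lit 5) (nat_lit 494) (nat_lit 5) (nat_lit 495) (nat_lit 4) (nat_lit 426) (nat_lit 389) (nat_lit 385))))))) (XT.nd (nat_lit 1014) (nat_lit 8816) (nat_lit 0) (XT.nd (nat_lit 468) (nat_lit 5928) (nat_lit 0) (XT.nd (nat_lit 234) (nat_lit 3496) (nat_lit 0) (XT.nd (nat_lit 78) (nat_lit 1976) (nat_lit 0) (XT.lf (nat_lit 0) (nat_lit 4245417567) (nat_lit 1064) (nat_lit 485819722) (nat_lit 1140) (nat_lit 2495853125) (nat_lit 455) (nat_lit 5) (nat_lit 469) (nat_lit 5) (nat_lit 470) (nat_lit 5) (nat_lit 427) (nat_lit 389) (nat_lit 384)) (XT.nd (nat_lit 78) (nat_lit 988) (nat_lit 0) (XT.lf (nat_lit 0) (nat_lit 2527690577) (nat_lit 988) (nat_lit 2227375751) (nat_lit 76) (nat_lit 2534713442) (nat_lit 442) (nat_lit 5) (nat_lit 455) (nat_lit 5) (nat_lit 443) (nat_lit 5) (nat_lit 428) (nat_lit 389) (nat_lit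 383)) (XT.lf (nat_lit 0) (nat_lit 229522784) (nat_lit 988) (nat_lit 1416355744) (nat_lit 76) (nat_lit 5709718241) (nat_lit 429) (nat_lit 5) (nat_lit 442) (nat_lit 5) (nat_lit 430) (nat_lit 5) (nat_lit 429) (nat_lit 389) (nat_lit 382)))) (XT.nd (nat_lit 78) (nat_lit 2660) (nat_lit 0) (XT.lf (nat_lit 0) (nat_lit 5237018564) (nat_lit 912) (nat_lit 569793113) (nat_lit 76) (nat_lit 1617340357) (nat_lit 418) (nat_lit 5) (nat_lit 430) (nat_lit 5) (nat_lit 419) (nat_lit 5) (nat_lit 430) (nat_lit 389) (nat_lit 381)) (XT.nd (nat_lit 78) (nat_lit 912) (nat_lit 0) (XT.lf (nat_lit 0) (nat_lit 328214046) (nat_lit 836) (nat_lit 2470067275) (nat_lit 912) (nat_lit 4697388764) (nat_lit 395) (nat_lit 5) (nat_lit 406) (nat_lit 5) (nat_lit 407) (nat_lit 5) (nat_lit 431) (nat_lit 389) (nat_lit 380)) (XT.lf (nat_lit 0) (nat_lit 267115256) (nat_lit 912) (nat_lit 6282512205) (nat_lit 76) (nat_lit 1020642622) (nat_lit 383)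 (nat_lit 5) (nat_lit 395) (nat_lit 5) (nat_lit 384) (nat_lit 5) (nat_lit 432) (nat_lit 389) (nat_lit 379))))) (XT.nd (nat_lit 234) (nat_lit 3648) (nat_lit 0) (XT.nd (nat_lit 78) (nat_lit 1520) (nat_lit 0) (XT.lf (nat_lit 0) (nat_lit 2275606522) (nat_lit 760) (nat_lit 2987867713) (nat_lit 836) (nat_lit 2384086848) (nat_lit 373) (nat_lit 5) (nat_lit 383) (nat_lit 5) (nat_lit 384) (nat_lit 5) (nat_lit 433) (nat_lit 389) (nat_lit 378)) (XT.nd (nat_lit 78) (nat_lit 684) (nat_lit 0) (XT.lf (nat_lit 0) (nat_lit 2584839651) (nat_lit 836) (nat_lit 4410816043) (nat_lit 76) (nat_lit 732425758) (nat_lit 362) (nat_lit 5) (nat_lit 373) (nat_lit 5) (nat_lit 363) (nat_lit 5) (nat_lit 434) (nat_lit 389) (nat_lit 377)) (XT.lf (nat_lit 0) (nat_lit 4398139120) (nat_lit 684) (nat_lit 3228604951) (nat_lit 760) (nat_lit 184840282) (nat_lit 353) (nat_lit 5) (nat_lit 362) (nat_lit 5) (nat_lit 363) (nat_lit 5) (nat_lit 435)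 (nat_lit 389) (nat_lit 376)))) (XT.nd (nat_lit 156) (nat_lit 2052) (nat_lit 0) (XT.nd (nat_lit 78) (nat_lit 760) (nat_lit 0) (XT.lf (nat_lit 0) (nat_lit 4801274805) (nat_lit 836) (nat_lit 2380869665) (nat_lit 76) (nat_lit 715946040) (nat_lit 342) (nat_lit 5) (nat_lit 353) (nat_lit 5) (nat_lit 343) (nat_lit 5) (nat_lit 436) (nat_lit 389) (nat_lit 375)) (XT.lf (nat_lit 0) (nat_lit 1885243143) (nat_lit 760) (nat_lit 1312600422) (nat_lit 76) (nat_lit 4789808582) (nat_lit 332) (nat_lit 5) (nat_lit 342) (nat_lit 5) (nat_lit 333) (nat_lit 5) (nat_lit 437) (nat_lit 389) (nat_lit 374))) (XT.nd (nat_lit 78) (nat_lit 1368) (nat_lit 0) (XT.lf (nat_lit 0) (nat_lit 6925912109) (nat_lit 760) (nat_lit 200587167) (nat_lit 76) (nat_lit 953974652) (nat_lit 323) (nat_lit 5) (nat_lit 333) (nat_lit 5) (nat_lit 324) (nat_lit 5) (nat_lit 438) (nat_lit 389) (nat_lit 373)) (XT.lf (nat_lit 0) (nat_lit 947192823) (nat_lit 684)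 (nat_lit 2918108781) (nat_lit 760) (nat_lit 4310768157) (nat_lit 305) (nat_lit 5) (nat_lit 314) (nat_lit 5) (nat_lit 315) (nat_lit 5) (nat_lit 439) (nat_lit 389) (nat_lit 372)))))) (XT.nd (nat_lit 546) (nat_lit 3952) (nat_lit 0) (XT.nd (nat_lit 234) (nat_lit 2888) (nat_lit 0) (XT.nd (nat_lit 78) (nat_lit 1292) (nat_lit 0) (XT.lf (nat_lit 0) (nat_lit 697001622) (nat_lit 684) (nat_lit 6128818865) (nat_lit 76) (nat_lit 1449248232) (nat_lit 296) (nat_lit 5) (nat_lit 305) (nat_lit 5) (nat_lit 297) (nat_lit 5) (nat_lit 440) (nat_lit 389) (nat_lit 371)) (XT.nd (nat_lit 78) (nat_lit 684) (nat_lit 0) (XT.lf (nat_lit 0) (nat_lit 3366905376) (nat_lit 608) (nat_lit 2402482252) (nat_lit 684) (nat_lit 2607627417) (nat_lit 288) (nat_lit 5) (nat_lit 296) (nat_lit 5) (nat_lit 297) (nat_lit 5) (nat_lit 441) (nat_lit 389) (nat_lit 370)) (XT.lf (nat_lit 0) (nat_lit 2448863735) (nat_lit 684) (nat_lit 3855584285) (nat_lit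 76) (nat_lit 2177853876) (nat_lit 279) (nat_lit 5) (nat_lit 288) (nat_lit 5) (nat_lit 280) (nat_lit 5) (nat_lit 442) (nat_lit 389) (nat_lit 369)))) (XT.nd (nat_lit 156) (nat_lit 1672) (nat_lit 0) (XT.nd (nat_lit 78) (nat_lit 608) (nat_lit 0) (XT.lf (nat_lit 0) (nat_lit 5922381753) (nat_lit 608) (nat_lit 1673923294) (nat_lit 684) (nat_lit 994609718) (nat_lit 271) (nat_lit 5) (nat_lit 279) (nat_lit 5) (nat_lit 280) (nat_lit 5) (nat_lit 443) (nat_lit 389) (nat_lit 368)) (XT.lf (nat_lit 0) (nat_lit 4121701476) (nat_lit 608) (nat_lit 1463280911) (nat_lit 76) (nat_lit 3117637544) (nat_lit 263) (nat_lit 5) (nat_lit 271) (nat_lit 5) (nat_lit 264) (nat_lit 5) (nat_lit 444) (nat_lit 389) (nat_lit 367))) (XT.nd (nat_lit 78) (nat_lit 1064) (nat_lit 0) (XT.lf (nat_lit 0) (nat_lit 527730046) (nat_lit 608) (nat_lit 214187335) (nat_lit 76) (nat_lit 8076067141) (nat_lit 255) (nat_lit 5) (nat_lit 263) (nat_lit 5) (nat_lit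 256) (nat_lit 5) (nat_lit 445) (nat_lit 389) (nat_lit 366)) (XT.lf (nat_lit 0) (nat_lit 1055558379) (nat_lit 532) (nat_lit 4672985380) (nat_lit 608) (nat_lit 3207642945) (nat_lit 241) (nat_lit 5) (nat_lit 248) (nat_lit 5) (nat_lit 249) (nat_lit 5) (nat_lit 446) (nat_lit 389) (nat_lit 365))))) (XT.nd (nat_lit 234) (nat_lit 2356) (nat_lit 0) (XT.nd (nat_lit 78) (nat_lit 1064) (nat_lit 0) (XT.lf (nat_lit 0) (nat_lit 1978162094) (nat_lit 532) (nat_lit 6685421264) (nat_lit 76) (nat_lit 394547067) (nat_lit 234) (nat_lit 5) (nat_lit 241) (nat_lit 5) (nat_lit 235) (nat_lit 5) (nat_lit 447) (nat_lit 389) (nat_lit 364)) (XT.nd (nat_lit 78) (nat_lit 532) (nat_lit 0) (XT.lf (nat_lit 0) (nat_lit 3701863329) (nat_lit 532) (nat_lit 3576517241) (nat_lit 608) (nat_lit 1904884177) (nat_lit 227) (nat_lit 5) (nat_lit 234) (nat_lit 5) (nat_lit 235) (nat_lit 5) (nat_lit 448) (nat_lit 389) (nat_lit 363)) (XT.lf (nat_lit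 0) (nat_lit 3364808347) (nat_lit 532) (nat_lit 4249803844) (nat_lit 76) (nat_lit 1697414962) (nat_lit 220) (nat_lit 5) (nat_lit 227) (nat_lit 5) (nat_lit 221) (nat_lit 5) (nat_lit 449) (nat_lit 389) (nat_lit 362)))) (XT.nd (nat_lit 156) (nat_lit 1368) (nat_lit 0) (XT.nd (nat_lit 78) (nat_lit 532) (nat_lit 0) (XT.lf (nat_lit 0) (nat_lit 6450235260) (nat_lit 456) (nat_lit 2316188234) (nat_lit 532) (nat_lit 677987230) (nat_lit 214) (nat_lit 5) (nat_lit 220) (nat_lit 5) (nat_lit 221) (nat_lit 5) (nat_lit 450) (nat_lit 389) (nat_lit 361)) (XT.lf (nat_lit 0) (nat_lit 4685708520) (nat_lit 532) (nat_lit 1729599252) (nat_lit 76) (nat_lit 3164871954) (nat_lit 207) (nat_lit 5) (nat_lit 214) (nat_lit 5) (nat_lit 208) (nat_lit 5) (nat_lit 451) (nat_lit 389) (nat_lit 360))) (XT.nd (nat_lit 78) (nat_lit 836) (nat_lit 0) (XT.lf (nat_lit 0) (nat_lit 470616448) (nat_lit 532) (nat_lit 428251135) (nat_lit 76) (nat_lit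 8821090940) (nat_lit 200) (nat_lit 5) (nat_lit 207) (nat_lit 5) (nat_lit 201) (nat_lit 5) (nat_lit 452) (nat_lit 389) (nat_lit 359)) (XT.lf (nat_lit 0) (nat_lit 880584165) (nat_lit 456) (nat_lit 5069648367) (nat_lit 532) (nat_lit 3912653485) (nat_lit 189) (nat_lit 5) (nat_lit 195) (nat_lit 5) (nat_lit 196) (nat_lit 5) (nat_lit 453) (nat_lit 389) (nat_lit 358))))))))
noncomputable def xc21 : XT := (XT.nd (nat_lit 2106) (nat_lit 1748) (nat_lit 0) (XT.nd (nat_lit 1014) (nat_lit 4104) (nat_lit 0) (XT.nd (nat_lit 468) (nat_lit 2888) (nat_lit 0) (XT.nd (nat_lit 234) (nat_lit 1216) (nat_lit 0) (XT.nd (nat_lit 78) (nat_lit 836) (nat_lit 0) (XT.lf (nat_lit 0) (nat_lit 1561336842) (nat_lit 456) (nat_lit 7775749459) (nat_lit 76) (nat_lit 672853429) (nat_lit 183) (nat_lit 5) (nat_lit 189) (nat_lit 5) (nat_lit 184) (nat_lit 5) (nat_lit 454) (nat_lit 389) (nat_lit 357)) (XT.nd (nat_lit 78) (nat_lit 456) (nat_lit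 0) (XT.lf (nat_lit 0) (nat_lit 3586983236) (nat_lit 380) (nat_lit 3580573108) (nat_lit 456) (nat_lit 2992911656) (nat_lit 178) (nat_lit 5) (nat_lit 183) (nat_lit 5) (nat_lit 184) (nat_lit 5) (nat_lit 455) (nat_lit 389) (nat_lit 356)) (XT.lf (nat_lit 0) (nat_lit 2596632873) (nat_lit 456) (nat_lit 5348855298) (nat_lit 76) (nat_lit 2369593685) (nat_lit 172) (nat_lit 5) (nat_lit 178) (nat_lit 5) (nat_lit 173) (nat_lit 5) (nat_lit 456) (nat_lit 389) (nat_lit 355)))) (XT.nd (nat_lit 78) (nat_lit 836) (nat_lit 0) (XT.lf (nat_lit 0) (nat_lit 6360287639) (nat_lit 380) (nat_lit 1968401505) (nat_lit 456) (nat_lit 2144942846) (nat_lit 167) (nat_lit 5) (nat_lit 172) (nat_lit 5) (nat_lit 173) (nat_lit 5) (nat_lit 457) (nat_lit 389) (nat_lit 354)) (XT.nd (nat_lit 78) (nat_lit 380) (nat_lit 0) (XT.lf (nat_lit 0) (nat_lit 3569628772) (nat_lit 456) (nat_lit 2874291443) (nat_lit 76) (nat_lit 4192134214) (nat_lit 161)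 (nat_lit 5) (nat_lit 167) (nat_lit 5) (nat_lit 162) (nat_lit 5) (nat_lit 458) (nat_lit 389) (nat_lit 353)) (XT.lf (nat_lit 0) (nat_lit 9194006068) (nat_lit 380) (nat_lit 241401181) (nat_lit 456) (nat_lit 1367483533) (nat_lit 156) (nat_lit 5) (nat_lit 161) (nat_lit 5) (nat_lit 162) (nat_lit 5) (nat_lit 459) (nat_lit 389) (nat_lit 352))))) (XT.nd (nat_lit 234) (nat_lit 1368) (nat_lit 0) (XT.nd (nat_lit 78) (nat_lit 1140) (nat_lit 0) (XT.lf (nat_lit 0) (nat_lit 4481494694) (nat_lit 380) (nat_lit 359172727) (nat_lit 76) (nat_lit 6132720667) (nat_lit 151) (nat_lit 5) (nat_lit 156) (nat_lit 5) (nat_lit 152) (nat_lit 5) (nat_lit 460) (nat_lit 389) (nat_lit 351)) (XT.nd (nat_lit 78) (nat_lit 456) (nat_lit 0) (XT.lf (nat_lit 0) (nat_lit 934517685) (nat_lit 304) (nat_lit 9570757996) (nat_lit 380) (nat_lit 643188402) (nat_lit 142) (nat_lit 5) (nat_lit 146) (nat_lit 5) (nat_lit 147) (nat_lit 5) (nat_lit 461) (nat_lit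 389) (nat_lit 350)) (XT.lf (nat_lit 0) (nat_lit 2218143343) (nat_lit 380) (nat_lit 3129022798) (nat_lit 456) (nat_lit 5980194920) (nat_lit 136) (nat_lit 5) (nat_lit 141) (nat_lit 5) (nat_lit 142) (nat_lit 5) (nat_lit 462) (nat_lit 389) (nat_lit 349)))) (XT.nd (nat_lit 156) (nat_lit 684) (nat_lit 0) (XT.nd (nat_lit 78) (nat_lit 304) (nat_lit 0) (XT.lf (nat_lit 0) (nat_lit 24065426) (nat_lit 380) (nat_lit 7984362458) (nat_lit 76) (nat_lit 3502573512) (nat_lit 131) (nat_lit 5) (nat_lit 136) (nat_lit 5) (nat_lit 132) (nat_lit 5) (nat_lit 463) (nat_lit 389) (nat_lit 348)) (XT.lf (nat_lit 0) (nat_lit 4825795057) (nat_lit 304) (nat_lit 1328857323) (nat_lit 380) (nat_lit 5544161513) (nat_lit 127) (nat_lit 5) (nat_lit 131) (nat_lit 5) (nat_lit 132) (nat_lit 5) (nat_lit 464) (nat_lit 389) (nat_lit 347))) (XT.nd (nat_lit 78) (nat_lit 304) (nat_lit 0) (XT.lf (nat_lit 0) (nat_lit 613849032) (nat_lit 380) (nat_lit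 5755463566) (nat_lit 76) (nat_lit 5521985214) (nat_lit 122) (nat_lit 5) (nat_lit 127) (nat_lit 5) (nat_lit 123) (nat_lit 5) (nat_lit 465) (nat_lit 389) (nat_lit 346)) (XT.lf (nat_lit 0) (nat_lit 6904313239) (nat_lit 380) (nat_lit 4641519170) (nat_lit 76) (nat_lit 542532438) (nat_lit 118) (nat_lit 5) (nat_lit 123) (nat_lit 5) (nat_lit 119) (nat_lit 5) (nat_lit 466) (nat_lit 389) (nat_lit 345)))))) (XT.nd (nat_lit 546) (nat_lit 1748) (nat_lit 0) (XT.nd (nat_lit 234) (nat_lit 1444) (nat_lit 0) (XT.nd (nat_lit 78) (nat_lit 608) (nat_lit 0) (XT.lf (nat_lit 0) (nat_lit 1133058767) (nat_lit 304) (nat_lit 3532539511) (nat_lit 76) (nat_lit 7624501257) (nat_lit 114) (nat_lit 5) (nat_lit 118) (nat_lit 5) (nat_lit 115) (nat_lit 5) (nat_lit 467) (nat_lit 389) (nat_lit 344)) (XT.nd (nat_lit 78) (nat_lit 304) (nat_lit 0) (XT.lf (nat_lit 0) (nat_lit 7600115919) (nat_lit 380) (nat_lit 2430092300) (nat_lit 76) (nat_lit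 2466377524) (nat_lit 110) (nat_lit 5) (nat_lit 115) (nat_lit 5) (nat_lit 111) (nat_lit 5) (nat_lit 468) (nat_lit 389) (nat_lit 343)) (XT.lf (nat_lit 0) (nat_lit 1579419199) (nat_lit 304) (nat_lit 1325803161) (nat_lit 76) (nat_lit 9802887560) (nat_lit 106) (nat_lit 5) (nat_lit 110) (nat_lit 5) (nat_lit 107) (nat_lit 5) (nat_lit 469) (nat_lit 389) (nat_lit 342)))) (XT.nd (nat_lit 156) (nat_lit 532) (nat_lit 0) (XT.nd (nat_lit 78) (nat_lit 608) (nat_lit 0) (XT.lf (nat_lit 0) (nat_lit 8231092847) (nat_lit 380) (nat_lit 240727141) (nat_lit 76) (nat_lit 4452553825) (nat_lit 102) (nat_lit 5) (nat_lit 107) (nat_lit 5) (nat_lit 103) (nat_lit 5) (nat_lit 470) (nat_lit 389) (nat_lit 341)) (XT.lf (nat_lit 0) (nat_lit 865004834) (nat_lit 304) (nat_lit 1090491355) (nat_lit 380) (nat_lit 11190466276) (nat_lit 94) (nat_lit 5) (nat_lit 98) (nat_lit 5) (nat_lit 99) (nat_lit 5) (nat_lit 471) (nat_lit 389) (nat_lit 340)))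 (XT.nd (nat_lit 78) (nat_lit 304) (nat_lit 0) (XT.lf (nat_lit 0) (nat_lit 1940467950) (nat_lit 228) (nat_lit 6866254205) (nat_lit 304) (nat_lit 4565522989) (nat_lit 91) (nat_lit 5) (nat_lit 94) (nat_lit 5) (nat_lit 95) (nat_lit 5) (nat_lit 472) (nat_lit 389) (nat_lit 339)) (XT.lf (nat_lit 0) (nat_lit 2265286646) (nat_lit 304) (nat_lit 10575868830) (nat_lit 76) (nat_lit 763134616) (nat_lit 87) (nat_lit 5) (nat_lit 91) (nat_lit 5) (nat_lit 88) (nat_lit 5) (nat_lit 473) (nat_lit 389) (nat_lit 338))))) (XT.nd (nat_lit 234) (nat_lit 988) (nat_lit 0) (XT.nd (nat_lit 78) (nat_lit 532) (nat_lit 0) (XT.lf (nat_lit 0) (nat_lit 4077987353) (nat_lit 228) (nat_lit 5233746445) (nat_lit 304) (nat_lit 4529505868) (nat_lit 84) (nat_lit 5) (nat_lit 87) (nat_lit 5) (nat_lit 88) (nat_lit 5) (nat_lit 474) (nat_lit 389) (nat_lit 337)) (XT.nd (nat_lit 78) (nat_lit 228) (nat_lit 0) (XT.lf (nat_lit 0) (nat_lit 2497500544)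 (nat_lit 304) (nat_lit 8952968606) (nat_lit 76) (nat_lit 2633591450) (nat_lit 80) (nat_lit 5) (nat_lit 84) (nat_lit 5) (nat_lit 81) (nat_lit 5) (nat_lit 475) (nat_lit 389) (nat_lit 336)) (XT.lf (nat_lit 0) (nat_lit 6154571034) (nat_lit 228) (nat_lit 3585044231) (nat_lit 304) (nat_lit 4592636899) (nat_lit 77) (nat_lit 5) (nat_lit 80) (nat_lit 5) (nat_lit 81) (nat_lit 5) (nat_lit 476) (nat_lit 389) (nat_lit 335)))) (XT.nd (nat_lit 156) (nat_lit 456) (nat_lit 0) (XT.nd (nat_lit 78) (nat_lit 228) (nat_lit 0) (XT.lf (nat_lit 0) (nat_lit 2639223264) (nat_lit 304) (nat_lit 7420765061) (nat_lit 76) (nat_lit 4526316258) (nat_lit 73) (nat_lit 5) (nat_lit 77) (nat_lit 5) (nat_lit 74) (nat_lit 5) (nat_lit 477) (nat_lit 389) (nat_lit 334)) (XT.lf (nat_lit 0) (nat_lit 8154735865) (nat_lit 228) (nat_lit 1929740484) (nat_lit 304) (nat_lit 4761719833) (nat_lit 70) (nat_lit 5) (nat_lit 73) (nat_lit 5) (nat_lit 74) (nat_lit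 5) (nat_lit 478) (nat_lit 389) (nat_lit 333))) (XT.nd (nat_lit 78) (nat_lit 152) (nat_lit 0) (XT.lf (nat_lit 0) (nat_lit 2683601609) (nat_lit 304) (nat_lit 5996406118) (nat_lit 76) (nat_lit 6431955183) (nat_lit 66) (nat_lit 5) (nat_lit 70) (nat_lit 5) (nat_lit 67) (nat_lit 5) (nat_lit 479) (nat_lit 389) (nat_lit 332)) (XT.lf (nat_lit 0) (nat_lit 10061391058) (nat_lit 152) (nat_lit 277998644) (nat_lit 228) (nat_lit 5044648745) (nat_lit 64) (nat_lit 5) (nat_lit 66) (nat_lit 5) (nat_lit 67) (nat_lit 5) (nat_lit 480) (nat_lit 389) (nat_lit 331))))))) (XT.nd (nat_lit 58188) (nat_lit 0) (nat_lit 20748) (XT.nd (nat_lit 546) (nat_lit 152) (nat_lit 0) (XT.nd (nat_lit 234) (nat_lit 836) (nat_lit 0) (XT.nd (nat_lit 78) (nat_lit 456) (nat_lit 0) (XT.lf (nat_lit 0) (nat_lit 2622681718) (nat_lit 304) (nat_lit 4698795529) (nat_lit 76) (nat_lit 8340553968) (nat_lit 60) (nat_lit 5) (nat_lit 64) (nat_lit 5) (nat_lit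 61) (nat_lit 5) (nat_lit 481) (nat_lit 389) (nat_lit 330)) (XT.nd (nat_lit 78) (nat_lit 304) (nat_lit 0) (XT.lf (nat_lit 0) (nat_lit 10505130751) (nat_lit 228) (nat_lit 4099992353) (nat_lit 76) (nat_lit 1341502255) (nat_lit 58) (nat_lit 5) (nat_lit 61) (nat_lit 5) (nat_lit 59) (nat_lit 5) (nat_lit 482) (nat_lit 389) (nat_lit 329)) (XT.lf (nat_lit 0) (nat_lit 2447316607) (nat_lit 304) (nat_lit 3548807786) (nat_lit 76) (nat_lit 10241438653) (nat_lit 54) (nat_lit 5) (nat_lit 58) (nat_lit 5) (nat_lit 55) (nat_lit 5) (nat_lit 483) (nat_lit 389) (nat_lit 328)))) (XT.nd (nat_lit 156) (nat_lit 380) (nat_lit 0) (XT.nd (nat_lit 78) (nat_lit 304) (nat_lit 0) (XT.lf (nat_lit 0) (nat_lit 10565239606) (nat_lit 228) (nat_lit 3038322096) (nat_lit 76) (nat_lit 2931621391) (nat_lit 52) (nat_lit 5) (nat_lit 55) (nat_lit 5) (nat_lit 53) (nat_lit 5) (nat_lit 484) (nat_lit 389) (nat_lit 327)) (XT.lf (nat_lit 0) (nat_lit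 2147062189) (nat_lit 304) (nat_lit 2569523844) (nat_lit 76) (nat_lit 12123087262) (nat_lit 48) (nat_lit 5) (nat_lit 52) (nat_lit 5) (nat_lit 49) (nat_lit 5) (nat_lit 485) (nat_lit 389) (nat_lit 326))) (XT.nd (nat_lit 78) (nat_lit 228) (nat_lit 0) (XT.lf (nat_lit 0) (nat_lit 10507231317) (nat_lit 228) (nat_lit 2160107075) (nat_lit 76) (nat_lit 4483556390) (nat_lit 46) (nat_lit 5) (nat_lit 49) (nat_lit 5) (nat_lit 47) (nat_lit 5) (nat_lit 486) (nat_lit 389) (nat_lit 325)) (XT.lf (nat_lit 0) (nat_lit 1710060710) (nat_lit 228) (nat_lit 1786489988) (nat_lit 76) (nat_lit 13972991249) (nat_lit 43) (nat_lit 5) (nat_lit 46) (nat_lit 5) (nat_lit 44) (nat_lit 5) (nat_lit 487) (nat_lit 389) (nat_lit 324))))) (XT.nd (nat_lit 57330) (nat_lit 0) (nat_lit 34428) (XT.nd (nat_lit 57174) (nat_lit 0) (nat_lit 41192) (XT.lf (nat_lit 0) (nat_lit 10318968829) (nat_lit 228) (nat_lit 1492228212) (nat_lit 76) (nat_lit 5983777475)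 (nat_lit 41) (nat_lit 5) (nat_lit 44) (nat_lit 5) (nat_lit 42) (nat_lit 5) (nat_lit 488) (nat_lit 389) (nat_lit 323)) (XT.nd (nat_lit 78) (nat_lit 1444) (nat_lit 0) (XT.lf (nat_lit 0) (nat_lit 15076949) (nat_lit 1444) (nat_lit 3403564656) (nat_lit 0) (nat_lit 15076949) (nat_lit 602) (nat_lit 5) (nat_lit 621) (nat_lit 4) (nat_lit 602) (nat_lit 4) (nat_lit 420) (nat_lit 390) (nat_lit 390)) (XT.lf (nat_lit 0) (nat_lit 416008350) (nat_lit 1444) (nat_lit 4699258725) (nat_lit 1444) (nat_lit 1795986559) (nat_lit 583) (nat_lit 4) (nat_lit 602) (nat_lit 5) (nat_lit 602) (nat_lit 4) (nat_lit 421) (nat_lit 390) (nat_lit 389)))) (XT.nd (nat_lit 156) (nat_lit 3496) (nat_lit 0) (XT.nd (nat_lit 78) (nat_lit 1672) (nat_lit 0) (XT.lf (nat_lit 0) (nat_lit 834717794) (nat_lit 1520) (nat_lit 2411173691) (nat_lit 1596) (nat_lit 3712187885) (nat_lit 562) (nat_lit 5) (nat_lit 582) (nat_lit 5) (nat_lit 583) (nat_lit 4) (nat_lit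 422) (nat_lit 390) (nat_lit 388)) (XT.lf (nat_lit 0) (nat_lit 1287845671) (nat_lit 1672) (nat_lit 5691292403) (nat_lit 76) (nat_lit 28809039) (nat_lit 540) (nat_lit 5) (nat_lit 562) (nat_lit 5) (nat_lit 541) (nat_lit 4) (nat_lit 423) (nat_lit 390) (nat_lit 387))) (XT.nd (nat_lit 78) (nat_lit 1824) (nat_lit 0) (XT.lf (nat_lit 0) (nat_lit 1840300854) (nat_lit 1672) (nat_lit 4465565798) (nat_lit 1748) (nat_lit 754597592) (nat_lit 518) (nat_lit 5) (nat_lit 540) (nat_lit 5) (nat_lit 541) (nat_lit 4) (nat_lit 424) (nat_lit 390) (nat_lit 386)) (XT.lf (nat_lit 0) (nat_lit 2417690004) (nat_lit 1748) (nat_lit 1790291717) (nat_lit 1824) (nat_lit 2907915122) (nat_lit 494) (nat_lit 5) (nat_lit 517) (nat_lit 5) (nat_lit 518) (nat_lit 5) (nat_lit 425) (nat_lit 390) (nat_lit 385)))))) (XT.nd (nat_lit 546) (nat_lit 5244) (nat_lit 0) (XT.nd (nat_lit 234) (nat_lit 4484) (nat_lit 0) (XT.nd (nat_lit 78) (nat_lit 2052)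 (nat_lit 0) (XT.lf (nat_lit 0) (nat_lit 2023720624) (nat_lit 1900) (nat_lit 4123362173) (nat_lit 76) (nat_lit 1027234906) (nat_lit 469) (nat_lit 5) (nat_lit 494) (nat_lit 5) (nat_lit 470) (nat_lit 5) (nat_lit 426) (nat_lit 390) (nat_lit 384)) (XT.nd (nat_lit 78) (nat_lit 988) (nat_lit 0) (XT.lf (nat_lit 0) (nat_lit 3732901653) (nat_lit 1064) (nat_lit 3255907556) (nat_lit 1140) (nat_lit 246808343) (nat_lit 455) (nat_lit 5) (nat_lit 469) (nat_lit 5) (nat_lit 470) (nat_lit 5) (nat_lit 427) (nat_lit 390) (nat_lit 383)) (XT.lf (nat_lit 0) (nat_lit 4463289180) (nat_lit 912) (nat_lit 193730144) (nat_lit 988) (nat_lit 2642805088) (nat_lit 442) (nat_lit 5) (nat_lit 454) (nat_lit 5) (nat_lit 455) (nat_lit 5) (nat_lit 428) (nat_lit 390) (nat_lit 382)))) (XT.nd (nat_lit 156) (nat_lit 2660) (nat_lit 0) (XT.nd (nat_lit 78) (nat_lit 836) (nat_lit 0) (XT.lf (nat_lit 0) (nat_lit 2246782913) (nat_lit 988) (nat_lit 2130663461)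 (nat_lit 76) (nat_lit 2989409340) (nat_lit 429) (nat_lit 5) (nat_lit 442) (nat_lit 5) (nat_lit 430) (nat_lit 5) (nat_lit 429) (nat_lit 390) (nat_lit 381)) (XT.lf (nat_lit 0) (nat_lit 6068166944) (nat_lit 836) (nat_lit 1103367093) (nat_lit 912) (nat_lit 265536605) (nat_lit 418) (nat_lit 5) (nat_lit 429) (nat_lit 5) (nat_lit 430) (nat_lit 5) (nat_lit 430) (nat_lit 390) (nat_lit 380))) (XT.nd (nat_lit 78) (nat_lit 1748) (nat_lit 0) (XT.lf (nat_lit 0) (nat_lit 4613693179) (nat_lit 912) (nat_lit 578359223) (nat_lit 76) (nat_lit 2317910964) (nat_lit 406) (nat_lit 5) (nat_lit 418) (nat_lit 5) (nat_lit 407) (nat_lit 5) (nat_lit 431) (nat_lit 390) (nat_lit 379)) (XT.lf (nat_lit 0) (nat_lit 266925532) (nat_lit 836) (nat_lit 1695098244) (nat_lit 912) (nat_lit 5623961792) (nat_lit 383) (nat_lit 5) (nat_lit 394) (nat_lit 5) (nat_lit 395) (nat_lit 5) (nat_lit 432) (nat_lit 390) (nat_lit 378))))) (XT.nd (nat_lit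 234) (nat_lit 2888) (nat_lit 0) (XT.nd (nat_lit 78) (nat_lit 1596) (nat_lit 0) (XT.lf (nat_lit 0) (nat_lit 1161520366) (nat_lit 760) (nat_lit 5714627591) (nat_lit 836) (nat_lit 788777502) (nat_lit 373) (nat_lit 5) (nat_lit 383) (nat_lit 5) (nat_lit 384) (nat_lit 5) (nat_lit 433) (nat_lit 390) (nat_lit 377)) (XT.nd (nat_lit 78) (nat_lit 760) (nat_lit 0) (XT.lf (nat_lit 0) (nat_lit 2090645583) (nat_lit 760) (nat_lit 1992743509) (nat_lit 836) (nat_lit 3663370316) (nat_lit 362) (nat_lit 5) (nat_lit 372) (nat_lit 5) (nat_lit 373) (nat_lit 5) (nat_lit 434) (nat_lit 390) (nat_lit 376)) (XT.lf (nat_lit 0) (nat_lit 1194235162) (nat_lit 760) (nat_lit 4764911781) (nat_lit 76) (nat_lit 1872627234) (nat_lit 352) (nat_lit 5) (nat_lit 362) (nat_lit 5) (nat_lit 353) (nat_lit 5) (nat_lit 435) (nat_lit 390) (nat_lit 375)))) (XT.nd (nat_lit 156) (nat_lit 1368) (nat_lit 0) (XT.nd (nat_lit 78) (nat_lit 760) (nat_lit 0)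 (XT.lf (nat_lit 0) (nat_lit 4077243128) (nat_lit 760) (nat_lit 2025790064) (nat_lit 836) (nat_lit 1816724688) (nat_lit 342) (nat_lit 5) (nat_lit 352) (nat_lit 5) (nat_lit 353) (nat_lit 5) (nat_lit 436) (nat_lit 390) (nat_lit 374)) (XT.lf (nat_lit 0) (nat_lit 3065251207) (nat_lit 760) (nat_lit 2885495153) (nat_lit 76) (nat_lit 2060076333) (nat_lit 332) (nat_lit 5) (nat_lit 342) (nat_lit 5) (nat_lit 333) (nat_lit 5) (nat_lit 437) (nat_lit 390) (nat_lit 373))) (XT.nd (nat_lit 78) (nat_lit 684) (nat_lit 0) (XT.lf (nat_lit 0) (nat_lit 6218834734) (nat_lit 684) (nat_lit 1811282309) (nat_lit 760) (nat_lit 75046905) (nat_lit 323) (nat_lit 5) (nat_lit 332) (nat_lit 5) (nat_lit 333) (nat_lit 5) (nat_lit 438) (nat_lit 390) (nat_lit 372)) (XT.lf (nat_lit 0) (nat_lit 4843173217) (nat_lit 684) (nat_lit 867777526) (nat_lit 76) (nat_lit 2491421811) (nat_lit 314) (nat_lit 5) (nat_lit 323) (nat_lit 5) (nat_lit 315)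 (nat_lit 5) (nat_lit 439) (nat_lit 390) (nat_lit 371))))))))
noncomputable def xc22 : XT := (XT.nd (nat_lit 2106) (nat_lit 5852) (nat_lit 0) (XT.nd (nat_lit 1014) (nat_lit 6232) (nat_lit 0) (XT.nd (nat_lit 468) (nat_lit 4180) (nat_lit 0) (XT.nd (nat_lit 234) (nat_lit 1824) (nat_lit 0) (XT.nd (nat_lit 78) (nat_lit 1292) (nat_lit 0) (XT.lf (nat_lit 0) (nat_lit 197349053) (nat_lit 608) (nat_lit 1353176538) (nat_lit 684) (nat_lit 6752436744) (nat_lit 296) (nat_lit 5) (nat_lit 304) (nat_lit 5) (nat_lit 305) (nat_lit 5) (nat_lit 440) (nat_lit 390) (nat_lit 370)) (XT.nd (nat_lit 78) (nat_lit 684) (nat_lit 0) (XT.lf (nat_lit 0) (nat_lit 1298059436) (nat_lit 608) (nat_lit 5246166237) (nat_lit 684) (nat_lit 1862259706) (nat_lit 288) (nat_lit 5) (nat_lit 296) (nat_lit 5) (nat_lit 297) (nat_lit 5) (nat_lit 441) (nat_lit 390) (nat_lit 369)) (XT.lf (nat_lit 0) (nat_lit 2436002379) (nat_lit 608) (nat_lit 664143964)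 (nat_lit 684) (nat_lit 5413218144) (nat_lit 279) (nat_lit 5) (nat_lit 287) (nat_lit 5) (nat_lit 288) (nat_lit 5) (nat_lit 442) (nat_lit 390) (nat_lit 368)))) (XT.nd (nat_lit 78) (nat_lit 1216) (nat_lit 0) (XT.lf (nat_lit 0) (nat_lit 3601434978) (nat_lit 608) (nat_lit 4572147881) (nat_lit 684) (nat_lit 449877366) (nat_lit 271) (nat_lit 5) (nat_lit 279) (nat_lit 5) (nat_lit 280) (nat_lit 5) (nat_lit 443) (nat_lit 390) (nat_lit 367)) (XT.nd (nat_lit 78) (nat_lit 608) (nat_lit 0) (XT.lf (nat_lit 0) (nat_lit 4570428043) (nat_lit 608) (nat_lit 3940025800) (nat_lit 76) (nat_lit 226420683) (nat_lit 263) (nat_lit 5) (nat_lit 271) (nat_lit 5) (nat_lit 264) (nat_lit 5) (nat_lit 444) (nat_lit 390) (nat_lit 366)) (XT.lf (nat_lit 0) (nat_lit 866660032) (nat_lit 608) (nat_lit 2835021755) (nat_lit 76) (nat_lit 5151908143) (nat_lit 255) (nat_lit 5) (nat_lit 263) (nat_lit 5) (nat_lit 256) (nat_lit 5) (nat_lit 445) (nat_lit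 390) (nat_lit 365))))) (XT.nd (nat_lit 234) (nat_lit 2052) (nat_lit 0) (XT.nd (nat_lit 78) (nat_lit 1596) (nat_lit 0) (XT.lf (nat_lit 0) (nat_lit 5971303575) (nat_lit 608) (nat_lit 1704302797) (nat_lit 76) (nat_lit 1298111583) (nat_lit 248) (nat_lit 5) (nat_lit 256) (nat_lit 5) (nat_lit 249) (nat_lit 5) (nat_lit 446) (nat_lit 390) (nat_lit 364)) (XT.nd (nat_lit 78) (nat_lit 988) (nat_lit 0) (XT.lf (nat_lit 0) (nat_lit 2099371344) (nat_lit 608) (nat_lit 550552166) (nat_lit 76) (nat_lit 6447340391) (nat_lit 240) (nat_lit 5) (nat_lit 248) (nat_lit 5) (nat_lit 241) (nat_lit 5) (nat_lit 447) (nat_lit 390) (nat_lit 363)) (XT.lf (nat_lit 0) (nat_lit 636173100) (nat_lit 532) (nat_lit 6671548975) (nat_lit 608) (nat_lit 1916515756) (nat_lit 227) (nat_lit 5) (nat_lit 234) (nat_lit 5) (nat_lit 235) (nat_lit 5) (nat_lit 448) (nat_lit 390) (nat_lit 362)))) (XT.nd (nat_lit 156) (nat_lit 1064) (nat_lit 0) (XT.nd (nat_lit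 78) (nat_lit 456) (nat_lit 0) (XT.lf (nat_lit 0) (nat_lit 1852361287) (nat_lit 456) (nat_lit 1418463178) (nat_lit 532) (nat_lit 6083829524) (nat_lit 220) (nat_lit 5) (nat_lit 226) (nat_lit 5) (nat_lit 227) (nat_lit 5) (nat_lit 449) (nat_lit 390) (nat_lit 361)) (XT.lf (nat_lit 0) (nat_lit 3090805175) (nat_lit 456) (nat_lit 5501054423) (nat_lit 532) (nat_lit 896791647) (nat_lit 214) (nat_lit 5) (nat_lit 220) (nat_lit 5) (nat_lit 221) (nat_lit 5) (nat_lit 450) (nat_lit 390) (nat_lit 360))) (XT.nd (nat_lit 78) (nat_lit 532) (nat_lit 0) (XT.lf (nat_lit 0) (nat_lit 4351829626) (nat_lit 456) (nat_lit 25369042) (nat_lit 532) (nat_lit 5249103474) (nat_lit 207) (nat_lit 5) (nat_lit 213) (nat_lit 5) (nat_lit 214) (nat_lit 5) (nat_lit 451) (nat_lit 390) (nat_lit 359)) (XT.lf (nat_lit 0) (nat_lit 48124224) (nat_lit 532) (nat_lit 4137025953) (nat_lit 76) (nat_lit 5582428921) (nat_lit 200) (nat_lit 5) (nat_lit 207)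 (nat_lit 5) (nat_lit 201) (nat_lit 5) (nat_lit 452) (nat_lit 390) (nat_lit 358)))))) (XT.nd (nat_lit 546) (nat_lit 2888) (nat_lit 0) (XT.nd (nat_lit 234) (nat_lit 2052) (nat_lit 0) (XT.nd (nat_lit 78) (nat_lit 912) (nat_lit 0) (XT.lf (nat_lit 0) (nat_lit 5428058667) (nat_lit 456) (nat_lit 2988086965) (nat_lit 76) (nat_lit 1496356425) (nat_lit 195) (nat_lit 5) (nat_lit 201) (nat_lit 5) (nat_lit 196) (nat_lit 5) (nat_lit 453) (nat_lit 390) (nat_lit 357)) (XT.nd (nat_lit 78) (nat_lit 380) (nat_lit 0) (XT.lf (nat_lit 0) (nat_lit 910852785) (nat_lit 532) (nat_lit 1817109565) (nat_lit 76) (nat_lit 7333393278) (nat_lit 188) (nat_lit 5) (nat_lit 195) (nat_lit 5) (nat_lit 189) (nat_lit 5) (nat_lit 454) (nat_lit 390) (nat_lit 356)) (XT.lf (nat_lit 0) (nat_lit 6417360131) (nat_lit 456) (nat_lit 640887497) (nat_lit 76) (nat_lit 3155632207) (nat_lit 183) (nat_lit 5) (nat_lit 189) (nat_lit 5) (nat_lit 184) (nat_lit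 5) (nat_lit 455) (nat_lit 390) (nat_lit 355)))) (XT.nd (nat_lit 156) (nat_lit 836) (nat_lit 0) (XT.nd (nat_lit 78) (nat_lit 380) (nat_lit 0) (XT.lf (nat_lit 0) (nat_lit 568637383) (nat_lit 380) (nat_lit 1140358362) (nat_lit 456) (nat_lit 8661495280) (nat_lit 172) (nat_lit 5) (nat_lit 177) (nat_lit 5) (nat_lit 178) (nat_lit 5) (nat_lit 456) (nat_lit 390) (nat_lit 354)) (XT.lf (nat_lit 0) (nat_lit 1784113595) (nat_lit 380) (nat_lit 5574472319) (nat_lit 456) (nat_lit 3172106130) (nat_lit 167) (nat_lit 5) (nat_lit 172) (nat_lit 5) (nat_lit 173) (nat_lit 5) (nat_lit 457) (nat_lit 390) (nat_lit 353))) (XT.nd (nat_lit 78) (nat_lit 380) (nat_lit 0) (XT.lf (nat_lit 0) (nat_lit 2456436252) (nat_lit 456) (nat_lit 7668168422) (nat_lit 76) (nat_lit 570634693) (nat_lit 161) (nat_lit 5) (nat_lit 167) (nat_lit 5) (nat_lit 162) (nat_lit 5) (nat_lit 458) (nat_lit 390) (nat_lit 352)) (XT.lf (nat_lit 0) (nat_lit 4265900129)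 (nat_lit 380) (nat_lit 3980236519) (nat_lit 456) (nat_lit 2617462078) (nat_lit 156) (nat_lit 5) (nat_lit 161) (nat_lit 5) (nat_lit 162) (nat_lit 5) (nat_lit 459) (nat_lit 390) (nat_lit 351))))) (XT.nd (nat_lit 234) (nat_lit 1748) (nat_lit 0) (XT.nd (nat_lit 78) (nat_lit 760) (nat_lit 0) (XT.lf (nat_lit 0) (nat_lit 3146443496) (nat_lit 380) (nat_lit 5513718333) (nat_lit 76) (nat_lit 2376127220) (nat_lit 151) (nat_lit 5) (nat_lit 156) (nat_lit 5) (nat_lit 152) (nat_lit 5) (nat_lit 460) (nat_lit 390) (nat_lit 350)) (XT.nd (nat_lit 78) (nat_lit 380) (nat_lit 0) (XT.lf (nat_lit 0) (nat_lit 6788816423) (nat_lit 380) (nat_lit 2287771065) (nat_lit 456) (nat_lit 2136651632) (nat_lit 146) (nat_lit 5) (nat_lit 151) (nat_lit 5) (nat_lit 152) (nat_lit 5) (nat_lit 461) (nat_lit 390) (nat_lit 349)) (XT.lf (nat_lit 0) (nat_lit 3771779517) (nat_lit 380) (nat_lit 3338961102) (nat_lit 76) (nat_lit 4283620891) (nat_lit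 141) (nat_lit 5) (nat_lit 146) (nat_lit 5) (nat_lit 142) (nat_lit 5) (nat_lit 462) (nat_lit 390) (nat_lit 348)))) (XT.nd (nat_lit 156) (nat_lit 988) (nat_lit 0) (XT.nd (nat_lit 78) (nat_lit 380) (nat_lit 0) (XT.lf (nat_lit 0) (nat_lit 9345350087) (nat_lit 380) (nat_lit 504748275) (nat_lit 456) (nat_lit 1730105981) (nat_lit 136) (nat_lit 5) (nat_lit 141) (nat_lit 5) (nat_lit 142) (nat_lit 5) (nat_lit 463) (nat_lit 390) (nat_lit 347)) (XT.lf (nat_lit 0) (nat_lit 4331956838) (nat_lit 380) (nat_lit 1152215894) (nat_lit 76) (nat_lit 6285894238) (nat_lit 131) (nat_lit 5) (nat_lit 136) (nat_lit 5) (nat_lit 132) (nat_lit 5) (nat_lit 464) (nat_lit 390) (nat_lit 346))) (XT.nd (nat_lit 78) (nat_lit 684) (nat_lit 0) (XT.lf (nat_lit 0) (nat_lit 10575017691) (nat_lit 380) (nat_lit 46444942) (nat_lit 76) (nat_lit 1343483608) (nat_lit 127) (nat_lit 5) (nat_lit 132) (nat_lit 5) (nat_lit 128) (nat_lit 5) (nat_lit 465)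 (nat_lit 390) (nat_lit 345)) (XT.lf (nat_lit 0) (nat_lit 1051427854) (nat_lit 304) (nat_lit 3781210956) (nat_lit 380) (nat_lit 7331278560) (nat_lit 118) (nat_lit 5) (nat_lit 122) (nat_lit 5) (nat_lit 123) (nat_lit 5) (nat_lit 466) (nat_lit 390) (nat_lit 344))))))) (XT.nd (nat_lit 1092) (nat_lit 1748) (nat_lit 0) (XT.nd (nat_lit 546) (nat_lit 2052) (nat_lit 0) (XT.nd (nat_lit 234) (nat_lit 1216) (nat_lit 0) (XT.nd (nat_lit 78) (nat_lit 608) (nat_lit 0) (XT.lf (nat_lit 0) (nat_lit 2165041665) (nat_lit 228) (nat_lit 9094125542) (nat_lit 304) (nat_lit 1108785461) (nat_lit 115) (nat_lit 5) (nat_lit 118) (nat_lit 5) (nat_lit 119) (nat_lit 5) (nat_lit 467) (nat_lit 390) (nat_lit 343)) (XT.nd (nat_lit 78) (nat_lit 228) (nat_lit 0) (XT.lf (nat_lit 0) (nat_lit 3263858409) (nat_lit 304) (nat_lit 2008811262) (nat_lit 380) (nat_lit 7303917067) (nat_lit 110) (nat_lit 5) (nat_lit 114) (nat_lit 5) (nat_lit 115) (nat_lit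 5) (nat_lit 468) (nat_lit 390) (nat_lit 342)) (XT.lf (nat_lit 0) (nat_lit 4365035372) (nat_lit 228) (nat_lit 7518486534) (nat_lit 304) (nat_lit 906752969) (nat_lit 107) (nat_lit 5) (nat_lit 110) (nat_lit 5) (nat_lit 111) (nat_lit 5) (nat_lit 469) (nat_lit 390) (nat_lit 341)))) (XT.nd (nat_lit 156) (nat_lit 608) (nat_lit 0) (XT.nd (nat_lit 78) (nat_lit 228) (nat_lit 0) (XT.lf (nat_lit 0) (nat_lit 5459289327) (nat_lit 304) (nat_lit 182506006) (nat_lit 380) (nat_lit 7367162459) (nat_lit 102) (nat_lit 5) (nat_lit 106) (nat_lit 5) (nat_lit 107) (nat_lit 5) (nat_lit 470) (nat_lit 390) (nat_lit 340)) (XT.lf (nat_lit 0) (nat_lit 6542012301) (nat_lit 228) (nat_lit 5903032760) (nat_lit 304) (nat_lit 787626806) (nat_lit 99) (nat_lit 5) (nat_lit 102) (nat_lit 5) (nat_lit 103) (nat_lit 5) (nat_lit 471) (nat_lit 390) (nat_lit 339))) (XT.nd (nat_lit 78) (nat_lit 228) (nat_lit 0) (XT.lf (nat_lit 0) (nat_lit 5947527323)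 (nat_lit 380) (nat_lit 5846457459) (nat_lit 76) (nat_lit 1667600931) (nat_lit 94) (nat_lit 5) (nat_lit 99) (nat_lit 5) (nat_lit 95) (nat_lit 5) (nat_lit 472) (nat_lit 390) (nat_lit 338)) (XT.lf (nat_lit 0) (nat_lit 8684067166) (nat_lit 228) (nat_lit 4256144984) (nat_lit 304) (nat_lit 755728852) (nat_lit 91) (nat_lit 5) (nat_lit 94) (nat_lit 5) (nat_lit 95) (nat_lit 5) (nat_lit 473) (nat_lit 390) (nat_lit 337))))) (XT.nd (nat_lit 234) (nat_lit 1216) (nat_lit 0) (XT.nd (nat_lit 78) (nat_lit 532) (nat_lit 0) (XT.lf (nat_lit 0) (nat_lit 6176030159) (nat_lit 304) (nat_lit 4206844677) (nat_lit 76) (nat_lit 3552606659) (nat_lit 87) (nat_lit 5) (nat_lit 91) (nat_lit 5) (nat_lit 88) (nat_lit 5) (nat_lit 474) (nat_lit 390) (nat_lit 336)) (XT.nd (nat_lit 78) (nat_lit 304) (nat_lit 0) (XT.lf (nat_lit 0) (nat_lit 10778149914) (nat_lit 228) (nat_lit 2586502627) (nat_lit 304) (nat_lit 816273756) (nat_lit 84) (nat_lit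 5) (nat_lit 87) (nat_lit 5) (nat_lit 88) (nat_lit 5) (nat_lit 475) (nat_lit 390) (nat_lit 335)) (XT.lf (nat_lit 0) (nat_lit 6320876618) (nat_lit 304) (nat_lit 2644148597) (nat_lit 76) (nat_lit 5466512772) (nat_lit 80) (nat_lit 5) (nat_lit 84) (nat_lit 5) (nat_lit 81) (nat_lit 5) (nat_lit 476) (nat_lit 390) (nat_lit 334)))) (XT.nd (nat_lit 156) (nat_lit 684) (nat_lit 0) (XT.nd (nat_lit 78) (nat_lit 304) (nat_lit 0) (XT.lf (nat_lit 0) (nat_lit 12809906583) (nat_lit 228) (nat_lit 903182078) (nat_lit 304) (nat_lit 975432156) (nat_lit 77) (nat_lit 5) (nat_lit 80) (nat_lit 5) (nat_lit 81) (nat_lit 5) (nat_lit 477) (nat_lit 390) (nat_lit 333)) (XT.lf (nat_lit 0) (nat_lit 6375863713) (nat_lit 304) (nat_lit 1174307197) (nat_lit 76) (nat_lit 7400503849) (nat_lit 73) (nat_lit 5) (nat_lit 77) (nat_lit 5) (nat_lit 74) (nat_lit 5) (nat_lit 478) (nat_lit 390) (nat_lit 332))) (XT.nd (nat_lit 78) (nat_lit 456) (nat_lit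 0) (XT.lf (nat_lit 0) (nat_lit 13984358259) (nat_lit 304) (nat_lit 461255489) (nat_lit 76) (nat_lit 773953710) (nat_lit 70) (nat_lit 5) (nat_lit 74) (nat_lit 5) (nat_lit 71) (nat_lit 5) (nat_lit 479) (nat_lit 390) (nat_lit 331)) (XT.lf (nat_lit 0) (nat_lit 187583434) (nat_lit 152) (nat_lit 6147386835) (nat_lit 228) (nat_lit 9158869919) (nat_lit 64) (nat_lit 5) (nat_lit 66) (nat_lit 5) (nat_lit 67) (nat_lit 5) (nat_lit 480) (nat_lit 390) (nat_lit 330)))))) (XT.nd (nat_lit 546) (nat_lit 228) (nat_lit 0) (XT.nd (nat_lit 234) (nat_lit 836) (nat_lit 0) (XT.nd (nat_lit 78) (nat_lit 456) (nat_lit 0) (XT.lf (nat_lit 0) (nat_lit 841099901) (nat_lit 228) (nat_lit 13336245599) (nat_lit 304) (nat_lit 1597596096) (nat_lit 61) (nat_lit 5) (nat_lit 64) (nat_lit 5) (nat_lit 65) (nat_lit 5) (nat_lit 481) (nat_lit 390) (nat_lit 329)) (XT.nd (nat_lit 78) (nat_lit 228) (nat_lit 0) (XT.lf (nat_lit 0) (nat_lit 1433568526)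 (nat_lit 152) (nat_lit 4761921177) (nat_lit 228) (nat_lit 9866460387) (nat_lit 58) (nat_lit 5) (nat_lit 60) (nat_lit 5) (nat_lit 61) (nat_lit 5) (nat_lit 482) (nat_lit 390) (nat_lit 328)) (XT.lf (nat_lit 0) (nat_lit 2007186244) (nat_lit 228) (nat_lit 12267123941) (nat_lit 304) (nat_lit 2081575648) (nat_lit 55) (nat_lit 5) (nat_lit 58) (nat_lit 5) (nat_lit 59) (nat_lit 5) (nat_lit 483) (nat_lit 390) (nat_lit 327)))) (XT.nd (nat_lit 156) (nat_lit 380) (nat_lit 0) (XT.nd (nat_lit 78) (nat_lit 228) (nat_lit 0) (XT.lf (nat_lit 0) (nat_lit 2526341940) (nat_lit 152) (nat_lit 3413635403) (nat_lit 228) (nat_lit 10716272773) (nat_lit 52) (nat_lit 5) (nat_lit 54) (nat_lit 5) (nat_lit 55) (nat_lit 5) (nat_lit 484) (nat_lit 390) (nat_lit 326)) (XT.lf (nat_lit 0) (nat_lit 3008054135) (nat_lit 228) (nat_lit 11254239441) (nat_lit 304) (nat_lit 2701289680) (nat_lit 49) (nat_lit 5) (nat_lit 52) (nat_lit 5) (nat_lit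 53) (nat_lit 5) (nat_lit 485) (nat_lit 390) (nat_lit 325))) (XT.nd (nat_lit 78) (nat_lit 152) (nat_lit 0) (XT.lf (nat_lit 0) (nat_lit 3441891255) (nat_lit 152) (nat_lit 2115482462) (nat_lit 228) (nat_lit 11720520962) (nat_lit 46) (nat_lit 5) (nat_lit 48) (nat_lit 5) (nat_lit 49) (nat_lit 5) (nat_lit 486) (nat_lit 390) (nat_lit 324)) (XT.lf (nat_lit 0) (nat_lit 3818438955) (nat_lit 152) (nat_lit 10311552270) (nat_lit 228) (nat_lit 3469230199) (nat_lit 44) (nat_lit 5) (nat_lit 46) (nat_lit 5) (nat_lit 47) (nat_lit 5) (nat_lit 487) (nat_lit 390) (nat_lit 323))))) (XT.nd (nat_lit 57174) (nat_lit 0) (nat_lit 37924) (XT.nd (nat_lit 57018) (nat_lit 0) (nat_lit 45372) (XT.lf (nat_lit 0) (nat_lit 4153622434) (nat_lit 152) (nat_lit 881533826) (nat_lit 228) (nat_lit 12892949106) (nat_lit 41) (nat_lit 5) (nat_lit 43) (nat_lit 5) (nat_lit 44) (nat_lit 5) (nat_lit 488) (nat_lit 390) (nat_lit 322)) (XT.nd (nat_lit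 78) (nat_lit 1292) (nat_lit 0) (XT.lf (nat_lit 0) (nat_lit 3185202187) (nat_lit 1140) (nat_lit 104024950) (nat_lit 1140) (nat_lit 104024950) (nat_lit 655) (nat_lit 4) (nat_lit 670) (nat_lit 5) (nat_lit 670) (nat_lit 4) (nat_lit 418) (nat_lit 391) (nat_lit 391)) (XT.lf (nat_lit 0) (nat_lit 4811322140) (nat_lit 1292) (nat_lit 253619669) (nat_lit 0) (nat_lit 1761144403) (nat_lit 638) (nat_lit 5) (nat_lit 655) (nat_lit 4) (nat_lit 638) (nat_lit 4) (nat_lit 419) (nat_lit 391) (nat_lit 390)))) (XT.nd (nat_lit 156) (nat_lit 3192) (nat_lit 0) (XT.nd (nat_lit 78) (nat_lit 2888) (nat_lit 0) (XT.lf (nat_lit 0) (nat_lit 2961010076) (nat_lit 1368) (nat_lit 30274992) (nat_lit 76) (nat_lit 3877349336) (nat_lit 620) (nat_lit 5) (nat_lit 638) (nat_lit 5) (nat_lit 621) (nat_lit 4) (nat_lit 420) (nat_lit 391) (nat_lit 389)) (XT.lf (nat_lit 0) (nat_lit 258765420) (nat_lit 1444) (nat_lit 766970037) (nat_lit 1520) (nat_lit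 5888436303) (nat_lit 582) (nat_lit 5) (nat_lit 601) (nat_lit 5) (nat_lit 602) (nat_lit 5) (nat_lit 421) (nat_lit 391) (nat_lit 388))) (XT.nd (nat_lit 78) (nat_lit 1672) (nat_lit 0) (XT.lf (nat_lit 0) (nat_lit 594212711) (nat_lit 1520) (nat_lit 5367756850) (nat_lit 1596) (nat_lit 1000442982) (nat_lit 562) (nat_lit 5) (nat_lit 582) (nat_lit 5) (nat_lit 583) (nat_lit 4) (nat_lit 422) (nat_lit 391) (nat_lit 387)) (XT.lf (nat_lit 0) (nat_lit 979622293) (nat_lit 1596) (nat_lit 2907731306) (nat_lit 1672) (nat_lit 3126114164) (nat_lit 540) (nat_lit 5) (nat_lit 561) (nat_lit 5) (nat_lit 562) (nat_lit 5) (nat_lit 423) (nat_lit 391) (nat_lit 386))))))))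
noncomputable def xc23 : XT := (XT.nd (nat_lit 2106) (nat_lit 11172) (nat_lit 0) (XT.nd (nat_lit 1014) (nat_lit 9272) (nat_lit 0) (XT.nd (nat_lit 468) (nat_lit 6612) (nat_lit 0) (XT.nd (nat_lit 234) (nat_lit 3040) (nat_lit 0) (XT.nd (nat_lit 78) (nat_lit 3648) (nat_lit 0) (XT.lf (nat_lit 0) (nat_lit 1427187515) (nat_lit 1672) (nat_lit 295337052) (nat_lit 1748) (nat_lit 5345082168) (nat_lit 517) (nat_lit 5) (nat_lit 539) (nat_lit 5) (nat_lit 540) (nat_lit 5) (nat_lit 424) (nat_lit 391) (nat_lit 385)) (XT.nd (nat_lit 78) (nat_lit 1900) (nat_lit 0) (XT.lf (nat_lit 0) (nat_lit 1917387418) (nat_lit 1748) (nat_lit 4681283833) (nat_lit 1824) (nat_lit 525806513) (nat_lit 494) (nat_lit 5) (nat_lit 517) (nat_lit 5) (nat_lit 518) (nat_lit 5) (nat_lit 425) (nat_lit 391) (nat_lit 384)) (XT.lf (nat_lit 0) (nat_lit 2455298521) (nat_lit 1824) (nat_lit 1838409609) (nat_lit 1900) (nat_lit 2890504180) (nat_lit 469) (nat_lit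 5) (nat_lit 493) (nat_lit 5) (nat_lit 494) (nat_lit 5) (nat_lit 426) (nat_lit 391) (nat_lit 383)))) (XT.nd (nat_lit 78) (nat_lit 1900) (nat_lit 0) (XT.lf (nat_lit 0) (nat_lit 1901390141) (nat_lit 1140) (nat_lit 4199796464) (nat_lit 76) (nat_lit 1145779081) (nat_lit 454) (nat_lit 5) (nat_lit 469) (nat_lit 5) (nat_lit 455) (nat_lit 5) (nat_lit 427) (nat_lit 391) (nat_lit 382)) (XT.nd (nat_lit 78) (nat_lit 988) (nat_lit 0) (XT.lf (nat_lit 0) (nat_lit 3684097437) (nat_lit 912) (nat_lit 3045306568) (nat_lit 988) (nat_lit 583193042) (nat_lit 442) (nat_lit 5) (nat_lit 454) (nat_lit 5) (nat_lit 455) (nat_lit 5) (nat_lit 428) (nat_lit 391) (nat_lit 381)) (XT.lf (nat_lit 0) (nat_lit 4188694342) (nat_lit 988) (nat_lit 3013137081) (nat_lit 76) (nat_lit 179348017) (nat_lit 429) (nat_lit 5) (nat_lit 442) (nat_lit 5) (nat_lit 430) (nat_lit 5) (nat_lit 429) (nat_lit 391) (nat_lit 380))))) (XT.nd (nat_lit 234) (nat_lit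 3952) (nat_lit 0) (XT.nd (nat_lit 78) (nat_lit 1748) (nat_lit 0) (XT.lf (nat_lit 0) (nat_lit 1568529225) (nat_lit 912) (nat_lit 2360288858) (nat_lit 76) (nat_lit 3523799480) (nat_lit 417) (nat_lit 5) (nat_lit 429) (nat_lit 5) (nat_lit 418) (nat_lit 5) (nat_lit 430) (nat_lit 391) (nat_lit 379)) (XT.nd (nat_lit 78) (nat_lit 912) (nat_lit 0) (XT.lf (nat_lit 0) (nat_lit 5870028026) (nat_lit 836) (nat_lit 488044810) (nat_lit 912) (nat_lit 1169131451) (nat_lit 406) (nat_lit 5) (nat_lit 417) (nat_lit 5) (nat_lit 418) (nat_lit 5) (nat_lit 431) (nat_lit 391) (nat_lit 378)) (XT.lf (nat_lit 0) (nat_lit 3590997802) (nat_lit 912) (nat_lit 926863061) (nat_lit 76) (nat_lit 3086655806) (nat_lit 394) (nat_lit 5) (nat_lit 406) (nat_lit 5) (nat_lit 395) (nat_lit 5) (nat_lit 432) (nat_lit 391) (nat_lit 377)))) (XT.nd (nat_lit 156) (nat_lit 1520) (nat_lit 0) (XT.nd (nat_lit 78) (nat_lit 1520) (nat_lit 0) (XT.lf (nat_lit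 0) (nat_lit 721802114) (nat_lit 912) (nat_lit 142274239) (nat_lit 76) (nat_lit 6821059246) (nat_lit 382) (nat_lit 5) (nat_lit 394) (nat_lit 5) (nat_lit 383) (nat_lit 5) (nat_lit 433) (nat_lit 391) (nat_lit 376)) (XT.lf (nat_lit 0) (nat_lit 675231345) (nat_lit 760) (nat_lit 4831463232) (nat_lit 836) (nat_lit 2261715007) (nat_lit 362) (nat_lit 5) (nat_lit 372) (nat_lit 5) (nat_lit 373) (nat_lit 5) (nat_lit 434) (nat_lit 391) (nat_lit 375))) (XT.nd (nat_lit 78) (nat_lit 760) (nat_lit 0) (XT.lf (nat_lit 0) (nat_lit 1542023134) (nat_lit 684) (nat_lit 952921349) (nat_lit 760) (nat_lit 5359952812) (nat_lit 352) (nat_lit 5) (nat_lit 361) (nat_lit 5) (nat_lit 362) (nat_lit 5) (nat_lit 435) (nat_lit 391) (nat_lit 374)) (XT.lf (nat_lit 0) (nat_lit 2442998545) (nat_lit 760) (nat_lit 4884915119) (nat_lit 836) (nat_lit 616487495) (nat_lit 342) (nat_lit 5) (nat_lit 352) (nat_lit 5) (nat_lit 353) (nat_lit 5) (nat_lit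 436) (nat_lit 391) (nat_lit 373)))))) (XT.nd (nat_lit 546) (nat_lit 3800) (nat_lit 0) (XT.nd (nat_lit 234) (nat_lit 3344) (nat_lit 0) (XT.nd (nat_lit 78) (nat_lit 1368) (nat_lit 0) (XT.lf (nat_lit 0) (nat_lit 3378723270) (nat_lit 684) (nat_lit 787889189) (nat_lit 760) (nat_lit 3870363762) (nat_lit 332) (nat_lit 5) (nat_lit 341) (nat_lit 5) (nat_lit 342) (nat_lit 5) (nat_lit 437) (nat_lit 391) (nat_lit 372)) (XT.nd (nat_lit 78) (nat_lit 608) (nat_lit 0) (XT.lf (nat_lit 0) (nat_lit 912348817) (nat_lit 760) (nat_lit 3782616387) (nat_lit 76) (nat_lit 3437719537) (nat_lit 322) (nat_lit 5) (nat_lit 332) (nat_lit 5) (nat_lit 323) (nat_lit 5) (nat_lit 438) (nat_lit 391) (nat_lit 371)) (XT.lf (nat_lit 0) (nat_lit 5358222316) (nat_lit 608) (nat_lit 385876503) (nat_lit 684) (nat_lit 2487497653) (nat_lit 314) (nat_lit 5) (nat_lit 322) (nat_lit 5) (nat_lit 323) (nat_lit 5) (nat_lit 439) (nat_lit 391) (nat_lit 370))))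 (XT.nd (nat_lit 156) (nat_lit 1976) (nat_lit 0) (XT.nd (nat_lit 78) (nat_lit 608) (nat_lit 0) (XT.lf (nat_lit 0) (nat_lit 2337835912) (nat_lit 760) (nat_lit 1941770355) (nat_lit 76) (nat_lit 4053928971) (nat_lit 304) (nat_lit 5) (nat_lit 314) (nat_lit 5) (nat_lit 305) (nat_lit 5) (nat_lit 440) (nat_lit 391) (nat_lit 369)) (XT.lf (nat_lit 0) (nat_lit 7236425213) (nat_lit 684) (nat_lit 967190074) (nat_lit 76) (nat_lit 235348123) (nat_lit 296) (nat_lit 5) (nat_lit 305) (nat_lit 5) (nat_lit 297) (nat_lit 5) (nat_lit 441) (nat_lit 391) (nat_lit 368))) (XT.nd (nat_lit 78) (nat_lit 684) (nat_lit 0) (XT.lf (nat_lit 0) (nat_lit 18226080) (nat_lit 608) (nat_lit 3656844599) (nat_lit 684) (nat_lit 4872211841) (nat_lit 279) (nat_lit 5) (nat_lit 287) (nat_lit 5) (nat_lit 288) (nat_lit 5) (nat_lit 442) (nat_lit 391) (nat_lit 367)) (XT.lf (nat_lit 0) (nat_lit 410656) (nat_lit 684) (nat_lit 7594170912) (nat_lit 76)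 (nat_lit 1064577957) (nat_lit 270) (nat_lit 5) (nat_lit 279) (nat_lit 5) (nat_lit 271) (nat_lit 5) (nat_lit 443) (nat_lit 391) (nat_lit 366))))) (XT.nd (nat_lit 234) (nat_lit 2128) (nat_lit 0) (XT.nd (nat_lit 78) (nat_lit 1140) (nat_lit 0) (XT.lf (nat_lit 0) (nat_lit 2117682992) (nat_lit 532) (nat_lit 2825950957) (nat_lit 608) (nat_lit 3830307660) (nat_lit 263) (nat_lit 5) (nat_lit 270) (nat_lit 5) (nat_lit 271) (nat_lit 5) (nat_lit 444) (nat_lit 391) (nat_lit 365)) (XT.nd (nat_lit 78) (nat_lit 532) (nat_lit 0) (XT.lf (nat_lit 0) (nat_lit 1109914451) (nat_lit 608) (nat_lit 5680348129) (nat_lit 76) (nat_lit 2102122742) (nat_lit 255) (nat_lit 5) (nat_lit 263) (nat_lit 5) (nat_lit 256) (nat_lit 5) (nat_lit 445) (nat_lit 391) (nat_lit 364)) (XT.lf (nat_lit 0) (nat_lit 4324297052) (nat_lit 532) (nat_lit 1811921506) (nat_lit 608) (nat_lit 2877863943) (nat_lit 248) (nat_lit 5) (nat_lit 255) (nat_lit 5) (nat_lit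 256) (nat_lit 5) (nat_lit 446) (nat_lit 391) (nat_lit 363)))) (XT.nd (nat_lit 156) (nat_lit 1064) (nat_lit 0) (XT.nd (nat_lit 78) (nat_lit 456) (nat_lit 0) (XT.lf (nat_lit 0) (nat_lit 2140245069) (nat_lit 608) (nat_lit 3676480647) (nat_lit 76) (nat_lit 3322529677) (nat_lit 240) (nat_lit 5) (nat_lit 248) (nat_lit 5) (nat_lit 241) (nat_lit 5) (nat_lit 447) (nat_lit 391) (nat_lit 362)) (XT.lf (nat_lit 0) (nat_lit 6631836682) (nat_lit 456) (nat_lit 625805868) (nat_lit 532) (nat_lit 2010408026) (nat_lit 234) (nat_lit 5) (nat_lit 240) (nat_lit 5) (nat_lit 241) (nat_lit 5) (nat_lit 448) (nat_lit 391) (nat_lit 361))) (XT.nd (nat_lit 78) (nat_lit 456) (nat_lit 0) (XT.lf (nat_lit 0) (nat_lit 3095660831) (nat_lit 608) (nat_lit 1589033877) (nat_lit 76) (nat_lit 4715436357) (nat_lit 226) (nat_lit 5) (nat_lit 234) (nat_lit 5) (nat_lit 227) (nat_lit 5) (nat_lit 449) (nat_lit 391) (nat_lit 360)) (XT.lf (nat_lit 0)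 (nat_lit 8316783157) (nat_lit 532) (nat_lit 506645817) (nat_lit 76) (nat_lit 712699625) (nat_lit 220) (nat_lit 5) (nat_lit 227) (nat_lit 5) (nat_lit 221) (nat_lit 5) (nat_lit 450) (nat_lit 391) (nat_lit 359))))))) (XT.nd (nat_lit 1092) (nat_lit 4408) (nat_lit 0) (XT.nd (nat_lit 546) (nat_lit 3116) (nat_lit 0) (XT.nd (nat_lit 234) (nat_lit 1748) (nat_lit 0) (XT.nd (nat_lit 78) (nat_lit 912) (nat_lit 0) (XT.lf (nat_lit 0) (nat_lit 583304109) (nat_lit 456) (nat_lit 3400272869) (nat_lit 532) (nat_lit 5691752292) (nat_lit 207) (nat_lit 5) (nat_lit 213) (nat_lit 5) (nat_lit 214) (nat_lit 5) (nat_lit 451) (nat_lit 391) (nat_lit 358)) (XT.nd (nat_lit 78) (nat_lit 456) (nat_lit 0) (XT.lf (nat_lit 0) (nat_lit 1714722104) (nat_lit 456) (nat_lit 7613989036) (nat_lit 532) (nat_lit 489783614) (nat_lit 201) (nat_lit 5) (nat_lit 207) (nat_lit 5) (nat_lit 208) (nat_lit 5) (nat_lit 452) (nat_lit 391) (nat_lit 357))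 (XT.lf (nat_lit 0) (nat_lit 2848659343) (nat_lit 380) (nat_lit 1965477958) (nat_lit 456) (nat_lit 5150994532) (nat_lit 195) (nat_lit 5) (nat_lit 200) (nat_lit 5) (nat_lit 201) (nat_lit 5) (nat_lit 453) (nat_lit 391) (nat_lit 356)))) (XT.nd (nat_lit 156) (nat_lit 836) (nat_lit 0) (XT.nd (nat_lit 78) (nat_lit 380) (nat_lit 0) (XT.lf (nat_lit 0) (nat_lit 166881126) (nat_lit 532) (nat_lit 6106075242) (nat_lit 76) (nat_lit 3842840533) (nat_lit 188) (nat_lit 5) (nat_lit 195) (nat_lit 5) (nat_lit 189) (nat_lit 5) (nat_lit 454) (nat_lit 391) (nat_lit 355)) (XT.lf (nat_lit 0) (nat_lit 5179525288) (nat_lit 380) (nat_lit 399720269) (nat_lit 456) (nat_lit 4690960052) (nat_lit 183) (nat_lit 5) (nat_lit 188) (nat_lit 5) (nat_lit 189) (nat_lit 5) (nat_lit 455) (nat_lit 391) (nat_lit 354))) (XT.nd (nat_lit 78) (nat_lit 380) (nat_lit 0) (XT.lf (nat_lit 0) (nat_lit 745792701) (nat_lit 456) (nat_lit 4064964646) (nat_lit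 76) (nat_lit 5617787030) (nat_lit 177) (nat_lit 5) (nat_lit 183) (nat_lit 5) (nat_lit 178) (nat_lit 5) (nat_lit 456) (nat_lit 391) (nat_lit 353)) (XT.lf (nat_lit 0) (nat_lit 6289018571) (nat_lit 456) (nat_lit 3029996196) (nat_lit 76) (nat_lit 1271859435) (nat_lit 172) (nat_lit 5) (nat_lit 178) (nat_lit 5) (nat_lit 173) (nat_lit 5) (nat_lit 457) (nat_lit 391) (nat_lit 352))))) (XT.nd (nat_lit 234) (nat_lit 1520) (nat_lit 0) (XT.nd (nat_lit 78) (nat_lit 1140) (nat_lit 0) (XT.lf (nat_lit 0) (nat_lit 1254532329) (nat_lit 456) (nat_lit 1984316016) (nat_lit 76) (nat_lit 7518460753) (nat_lit 166) (nat_lit 5) (nat_lit 172) (nat_lit 5) (nat_lit 167) (nat_lit 5) (nat_lit 458) (nat_lit 391) (nat_lit 351)) (XT.nd (nat_lit 78) (nat_lit 760) (nat_lit 0) (XT.lf (nat_lit 0) (nat_lit 6939568135) (nat_lit 456) (nat_lit 936589912) (nat_lit 76) (nat_lit 3051605106) (nat_lit 161) (nat_lit 5) (nat_lit 167) (nat_lit 5) (nat_lit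 162) (nat_lit 5) (nat_lit 459) (nat_lit 391) (nat_lit 350)) (XT.lf (nat_lit 0) (nat_lit 130265984) (nat_lit 304) (nat_lit 1564210989) (nat_lit 380) (nat_lit 9408140054) (nat_lit 151) (nat_lit 5) (nat_lit 155) (nat_lit 5) (nat_lit 156) (nat_lit 5) (nat_lit 460) (nat_lit 391) (nat_lit 349)))) (XT.nd (nat_lit 156) (nat_lit 760) (nat_lit 0) (XT.nd (nat_lit 78) (nat_lit 380) (nat_lit 0) (XT.lf (nat_lit 0) (nat_lit 1200427319) (nat_lit 380) (nat_lit 6336135931) (nat_lit 456) (nat_lit 3744766298) (nat_lit 146) (nat_lit 5) (nat_lit 151) (nat_lit 5) (nat_lit 152) (nat_lit 5) (nat_lit 461) (nat_lit 391) (nat_lit 348)) (XT.lf (nat_lit 0) (nat_lit 2079307622) (nat_lit 380) (nat_lit 9170106283) (nat_lit 76) (nat_lit 215357046) (nat_lit 141) (nat_lit 5) (nat_lit 146) (nat_lit 5) (nat_lit 142) (nat_lit 5) (nat_lit 462) (nat_lit 391) (nat_lit 347))) (XT.nd (nat_lit 78) (nat_lit 380) (nat_lit 0) (XT.lf (nat_lit 0)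 (nat_lit 3370177919) (nat_lit 380) (nat_lit 4708165280) (nat_lit 456) (nat_lit 3573857449) (nat_lit 136) (nat_lit 5) (nat_lit 141) (nat_lit 5) (nat_lit 142) (nat_lit 5) (nat_lit 463) (nat_lit 391) (nat_lit 346)) (XT.lf (nat_lit 0) (nat_lit 2404460276) (nat_lit 380) (nat_lit 7379652273) (nat_lit 76) (nat_lit 2060349809) (nat_lit 131) (nat_lit 5) (nat_lit 136) (nat_lit 5) (nat_lit 132) (nat_lit 5) (nat_lit 464) (nat_lit 391) (nat_lit 345)))))) (XT.nd (nat_lit 546) (nat_lit 2204) (nat_lit 0) (XT.nd (nat_lit 234) (nat_lit 1216) (nat_lit 0) (XT.nd (nat_lit 78) (nat_lit 684) (nat_lit 0) (XT.lf (nat_lit 0) (nat_lit 5551764239) (nat_lit 304) (nat_lit 3006117342) (nat_lit 380) (nat_lit 3483253948) (nat_lit 127) (nat_lit 5) (nat_lit 131) (nat_lit 5) (nat_lit 132) (nat_lit 5) (nat_lit 465) (nat_lit 391) (nat_lit 344)) (XT.nd (nat_lit 78) (nat_lit 304) (nat_lit 0) (XT.lf (nat_lit 0) (nat_lit 2658238391) (nat_lit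 380) (nat_lit 5600198525) (nat_lit 76) (nat_lit 3984113206) (nat_lit 122) (nat_lit 5) (nat_lit 127) (nat_lit 5) (nat_lit 123) (nat_lit 5) (nat_lit 466) (nat_lit 391) (nat_lit 343)) (XT.lf (nat_lit 0) (nat_lit 7736130291) (nat_lit 304) (nat_lit 1237505352) (nat_lit 380) (nat_lit 3475173426) (nat_lit 118) (nat_lit 5) (nat_lit 122) (nat_lit 5) (nat_lit 123) (nat_lit 5) (nat_lit 467) (nat_lit 391) (nat_lit 342)))) (XT.nd (nat_lit 156) (nat_lit 608) (nat_lit 0) (XT.nd (nat_lit 78) (nat_lit 304) (nat_lit 0) (XT.lf (nat_lit 0) (nat_lit 2838393237) (nat_lit 304) (nat_lit 3841808622) (nat_lit 76) (nat_lit 5979528019) (nat_lit 114) (nat_lit 5) (nat_lit 118) (nat_lit 5) (nat_lit 115) (nat_lit 5) (nat_lit 468) (nat_lit 391) (nat_lit 341)) (XT.lf (nat_lit 0) (nat_lit 9327184693) (nat_lit 380) (nat_lit 2966266448) (nat_lit 76) (nat_lit 582409036) (nat_lit 110) (nat_lit 5) (nat_lit 115) (nat_lit 5) (nat_lit 111)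 (nat_lit 5) (nat_lit 469) (nat_lit 391) (nat_lit 340))) (XT.nd (nat_lit 78) (nat_lit 304) (nat_lit 0) (XT.lf (nat_lit 0) (nat_lit 2941932496) (nat_lit 304) (nat_lit 2115362905) (nat_lit 76) (nat_lit 8039443447) (nat_lit 106) (nat_lit 5) (nat_lit 110) (nat_lit 5) (nat_lit 107) (nat_lit 5) (nat_lit 470) (nat_lit 391) (nat_lit 339)) (XT.lf (nat_lit 0) (nat_lit 9620065925) (nat_lit 380) (nat_lit 1266043274) (nat_lit 76) (nat_lit 2436846924) (nat_lit 102) (nat_lit 5) (nat_lit 107) (nat_lit 5) (nat_lit 103) (nat_lit 5) (nat_lit 471) (nat_lit 391) (nat_lit 338))))) (XT.nd (nat_lit 234) (nat_lit 1064) (nat_lit 0) (XT.nd (nat_lit 78) (nat_lit 836) (nat_lit 0) (XT.lf (nat_lit 0) (nat_lit 2965078074) (nat_lit 304) (nat_lit 432686661) (nat_lit 76) (nat_lit 10156593024) (nat_lit 98) (nat_lit 5) (nat_lit 102) (nat_lit 5) (nat_lit 99) (nat_lit 5) (nat_lit 472) (nat_lit 391) (nat_lit 337)) (XT.nd (nat_lit 78) (nat_lit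 304) (nat_lit 0) (XT.lf (nat_lit 0) (nat_lit 388786804) (nat_lit 228) (nat_lit 9454139507) (nat_lit 304) (nat_lit 3948084276) (nat_lit 91) (nat_lit 5) (nat_lit 94) (nat_lit 5) (nat_lit 95) (nat_lit 5) (nat_lit 473) (nat_lit 391) (nat_lit 336)) (XT.lf (nat_lit 0) (nat_lit 1209169347) (nat_lit 228) (nat_lit 1701898108) (nat_lit 304) (nat_lit 11122188444) (nat_lit 87) (nat_lit 5) (nat_lit 90) (nat_lit 5) (nat_lit 91) (nat_lit 5) (nat_lit 474) (nat_lit 391) (nat_lit 335)))) (XT.nd (nat_lit 156) (nat_lit 532) (nat_lit 0) (XT.nd (nat_lit 78) (nat_lit 304) (nat_lit 0) (XT.lf (nat_lit 0) (nat_lit 1995601891) (nat_lit 228) (nat_lit 8000859282) (nat_lit 304) (nat_lit 4284304848) (nat_lit 84) (nat_lit 5) (nat_lit 87) (nat_lit 5) (nat_lit 88) (nat_lit 5) (nat_lit 475) (nat_lit 391) (nat_lit 334)) (XT.lf (nat_lit 0) (nat_lit 2769029566) (nat_lit 304) (nat_lit 11749510046) (nat_lit 76) (nat_lit 15875141) (nat_lit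 80) (nat_lit 5) (nat_lit 84) (nat_lit 5) (nat_lit 81) (nat_lit 5) (nat_lit 476) (nat_lit 391) (nat_lit 333))) (XT.nd (nat_lit 78) (nat_lit 304) (nat_lit 0) (XT.lf (nat_lit 0) (nat_lit 3522564895) (nat_lit 228) (nat_lit 6544083483) (nat_lit 304) (nat_lit 4726641760) (nat_lit 77) (nat_lit 5) (nat_lit 80) (nat_lit 5) (nat_lit 81) (nat_lit 5) (nat_lit 477) (nat_lit 391) (nat_lit 332)) (XT.lf (nat_lit 0) (nat_lit 2540562948) (nat_lit 304) (nat_lit 10796810057) (nat_lit 76) (nat_lit 1721224616) (nat_lit 73) (nat_lit 5) (nat_lit 77) (nat_lit 5) (nat_lit 74) (nat_lit 5) (nat_lit 478) (nat_lit 391) (nat_lit 331))))))))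
noncomputable def xc24 : XT := (XT.nd (nat_lit 58890) (nat_lit 0) (nat_lit 8892) (XT.nd (nat_lit 57798) (nat_lit 0) (nat_lit 26600) (XT.nd (nat_lit 468) (nat_lit 760) (nat_lit 0) (XT.nd (nat_lit 234) (nat_lit 760) (nat_lit 0) (XT.nd (nat_lit 78) (nat_lit 456) (nat_lit 0) (XT.lf (nat_lit 0) (nat_lit 4953154207) (nat_lit 228) (nat_lit 5093654949) (nat_lit 304) (nat_lit 5282726769) (nat_lit 70) (nat_lit 5) (nat_lit 73) (nat_lit 5) (nat_lit 74) (nat_lit 5) (nat_lit 479) (nat_lit 391) (nat_lit 330)) (XT.nd (nat_lit 78) (nat_lit 152) (nat_lit 0) (XT.lf (nat_lit 0) (nat_lit 2206946722) (nat_lit 304) (nat_lit 9973205373) (nat_lit 76) (nat_lit 3426854548) (nat_lit 66) (nat_lit 5) (nat_lit 70) (nat_lit 5) (nat_lit 67) (nat_lit 5) (nat_lit 480) (nat_lit 391) (nat_lit 329)) (XT.lf (nat_lit 0) (nat_lit 6269147868) (nat_lit 152) (nat_lit 3660051124) (nat_lit 228) (nat_lit 5961312108) (nat_lit 64) (nat_lit 5) (nat_lit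 66) (nat_lit 5) (nat_lit 67) (nat_lit 5) (nat_lit 481) (nat_lit 391) (nat_lit 328)))) (XT.nd (nat_lit 78) (nat_lit 456) (nat_lit 0) (XT.lf (nat_lit 0) (nat_lit 1759377612) (nat_lit 304) (nat_lit 9298817373) (nat_lit 76) (nat_lit 5122484353) (nat_lit 60) (nat_lit 5) (nat_lit 64) (nat_lit 5) (nat_lit 61) (nat_lit 5) (nat_lit 482) (nat_lit 391) (nat_lit 327)) (XT.nd (nat_lit 78) (nat_lit 304) (nat_lit 0) (XT.lf (nat_lit 0) (nat_lit 7450414564) (nat_lit 152) (nat_lit 2254502895) (nat_lit 228) (nat_lit 6772363777) (nat_lit 58) (nat_lit 5) (nat_lit 60) (nat_lit 5) (nat_lit 61) (nat_lit 5) (nat_lit 483) (nat_lit 391) (nat_lit 326)) (XT.lf (nat_lit 0) (nat_lit 1187823077) (nat_lit 304) (nat_lit 8795841583) (nat_lit 76) (nat_lit 6797048227) (nat_lit 54) (nat_lit 5) (nat_lit 58) (nat_lit 5) (nat_lit 55) (nat_lit 5) (nat_lit 484) (nat_lit 391) (nat_lit 325))))) (XT.nd (nat_lit 234) (nat_lit 152) (nat_lit 0) (XT.nd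 (nat_lit 78) (nat_lit 456) (nat_lit 0) (XT.lf (nat_lit 0) (nat_lit 8474684373) (nat_lit 152) (nat_lit 889122493) (nat_lit 228) (nat_lit 7727166312) (nat_lit 52) (nat_lit 5) (nat_lit 54) (nat_lit 5) (nat_lit 55) (nat_lit 5) (nat_lit 485) (nat_lit 391) (nat_lit 324)) (XT.nd (nat_lit 78) (nat_lit 152) (nat_lit 0) (XT.lf (nat_lit 0) (nat_lit 480912484) (nat_lit 304) (nat_lit 8488790669) (nat_lit 76) (nat_lit 8438564552) (nat_lit 48) (nat_lit 5) (nat_lit 52) (nat_lit 5) (nat_lit 49) (nat_lit 5) (nat_lit 486) (nat_lit 391) (nat_lit 323)) (XT.lf (nat_lit 0) (nat_lit 8897084781) (nat_lit 228) (nat_lit 8418227884) (nat_lit 76) (nat_lit 417411154) (nat_lit 46) (nat_lit 5) (nat_lit 49) (nat_lit 5) (nat_lit 47) (nat_lit 5) (nat_lit 487) (nat_lit 391) (nat_lit 322)))) (XT.nd (nat_lit 56940) (nat_lit 0) (nat_lit 46360) (XT.nd (nat_lit 56862) (nat_lit 0) (nat_lit 48716) (XT.lf (nat_lit 0) (nat_lit 9657298966) (nat_lit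 152) (nat_lit 8028065779) (nat_lit 228) (nat_lit 379157337) (nat_lit 44) (nat_lit 5) (nat_lit 46) (nat_lit 5) (nat_lit 47) (nat_lit 5) (nat_lit 488) (nat_lit 391) (nat_lit 321)) (XT.lf (nat_lit 0) (nat_lit 3102110781) (nat_lit 988) (nat_lit 127488400) (nat_lit 988) (nat_lit 127488400) (nat_lit 685) (nat_lit 4) (nat_lit 698) (nat_lit 5) (nat_lit 698) (nat_lit 4) (nat_lit 416) (nat_lit 392) (nat_lit 392))) (XT.nd (nat_lit 78) (nat_lit 1216) (nat_lit 0) (XT.lf (nat_lit 0) (nat_lit 4708550827) (nat_lit 1140) (nat_lit 536892703) (nat_lit 0) (nat_lit 1504034096) (nat_lit 670) (nat_lit 5) (nat_lit 685) (nat_lit 4) (nat_lit 670) (nat_lit 4) (nat_lit 417) (nat_lit 392) (nat_lit 391)) (XT.lf (nat_lit 0) (nat_lit 2877452375) (nat_lit 1216) (nat_lit 503244225) (nat_lit 76) (nat_lit 3407020143) (nat_lit 654) (nat_lit 5) (nat_lit 670) (nat_lit 5) (nat_lit 655) (nat_lit 4) (nat_lit 418) (nat_lit 392) (nat_lit 390))))))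 (XT.nd (nat_lit 546) (nat_lit 7524) (nat_lit 0) (XT.nd (nat_lit 234) (nat_lit 8208) (nat_lit 0) (XT.nd (nat_lit 78) (nat_lit 2736) (nat_lit 0) (XT.lf (nat_lit 0) (nat_lit 962234915) (nat_lit 1292) (nat_lit 407387023) (nat_lit 76) (nat_lit 5459330257) (nat_lit 637) (nat_lit 5) (nat_lit 654) (nat_lit 5) (nat_lit 638) (nat_lit 5) (nat_lit 419) (nat_lit 392) (nat_lit 389)) (XT.nd (nat_lit 78) (nat_lit 1444) (nat_lit 0) (XT.lf (nat_lit 0) (nat_lit 5825240581) (nat_lit 1368) (nat_lit 261297498) (nat_lit 76) (nat_lit 786434379) (nat_lit 620) (nat_lit 5) (nat_lit 638) (nat_lit 5) (nat_lit 621) (nat_lit 4) (nat_lit 420) (nat_lit 392) (nat_lit 388)) (XT.lf (nat_lit 0) (nat_lit 3769766334) (nat_lit 1444) (nat_lit 69690720) (nat_lit 76) (nat_lit 3080254943) (nat_lit 601) (nat_lit 5) (nat_lit 620) (nat_lit 5) (nat_lit 602) (nat_lit 5) (nat_lit 421) (nat_lit 392) (nat_lit 387)))) (XT.nd (nat_lit 156) (nat_lit 3572)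 (nat_lit 0) (XT.nd (nat_lit 78) (nat_lit 1596) (nat_lit 0) (XT.lf (nat_lit 0) (nat_lit 185269653) (nat_lit 1520) (nat_lit 1442424165) (nat_lit 1596) (nat_lit 5341790619) (nat_lit 561) (nat_lit 5) (nat_lit 581) (nat_lit 5) (nat_lit 582) (nat_lit 5) (nat_lit 422) (nat_lit 392) (nat_lit 386)) (XT.lf (nat_lit 0) (nat_lit 491769710) (nat_lit 1596) (nat_lit 5925938009) (nat_lit 1672) (nat_lit 604401245) (nat_lit 540) (nat_lit 5) (nat_lit 561) (nat_lit 5) (nat_lit 562) (nat_lit 5) (nat_lit 423) (nat_lit 392) (nat_lit 385))) (XT.nd (nat_lit 78) (nat_lit 1824) (nat_lit 0) (XT.lf (nat_lit 0) (nat_lit 838450533) (nat_lit 1672) (nat_lit 3297954855) (nat_lit 1748) (nat_lit 2941015983) (nat_lit 517) (nat_lit 5) (nat_lit 539) (nat_lit 5) (nat_lit 540) (nat_lit 5) (nat_lit 424) (nat_lit 392) (nat_lit 384)) (XT.lf (nat_lit 0) (nat_lit 1246039973) (nat_lit 1748) (nat_lit 517276543) (nat_lit 1824) (nat_lit 5372543599)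 (nat_lit 493) (nat_lit 5) (nat_lit 516) (nat_lit 5) (nat_lit 517) (nat_lit 5) (nat_lit 425) (nat_lit 392) (nat_lit 383))))) (XT.nd (nat_lit 234) (nat_lit 3572) (nat_lit 0) (XT.nd (nat_lit 78) (nat_lit 2128) (nat_lit 0) (XT.lf (nat_lit 0) (nat_lit 1694281986) (nat_lit 1824) (nat_lit 4805189485) (nat_lit 1900) (nat_lit 697589449) (nat_lit 469) (nat_lit 5) (nat_lit 493) (nat_lit 5) (nat_lit 494) (nat_lit 5) (nat_lit 426) (nat_lit 392) (nat_lit 382)) (XT.nd (nat_lit 78) (nat_lit 988) (nat_lit 0) (XT.lf (nat_lit 0) (nat_lit 2187337896) (nat_lit 1064) (nat_lit 1797975074) (nat_lit 1140) (nat_lit 3275826210) (nat_lit 454) (nat_lit 5) (nat_lit 468) (nat_lit 5) (nat_lit 469) (nat_lit 5) (nat_lit 427) (nat_lit 392) (nat_lit 381)) (XT.lf (nat_lit 0) (nat_lit 1383155929) (nat_lit 988) (nat_lit 4596384857) (nat_lit 76) (nat_lit 1348719570) (nat_lit 441) (nat_lit 5) (nat_lit 454) (nat_lit 5) (nat_lit 442) (nat_lit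 5) (nat_lit 428) (nat_lit 392) (nat_lit 380)))) (XT.nd (nat_lit 156) (nat_lit 1748) (nat_lit 0) (XT.nd (nat_lit 78) (nat_lit 912) (nat_lit 0) (XT.lf (nat_lit 0) (nat_lit 3315760533) (nat_lit 912) (nat_lit 2759107308) (nat_lit 988) (nat_lit 1323354346) (nat_lit 429) (nat_lit 5) (nat_lit 441) (nat_lit 5) (nat_lit 442) (nat_lit 5) (nat_lit 429) (nat_lit 392) (nat_lit 379)) (XT.lf (nat_lit 0) (nat_lit 3324189665) (nat_lit 912) (nat_lit 3525077292) (nat_lit 76) (nat_lit 621934175) (nat_lit 417) (nat_lit 5) (nat_lit 429) (nat_lit 5) (nat_lit 418) (nat_lit 5) (nat_lit 430) (nat_lit 392) (nat_lit 378))) (XT.nd (nat_lit 78) (nat_lit 836) (nat_lit 0) (XT.lf (nat_lit 0) (nat_lit 489820200) (nat_lit 912) (nat_lit 2929419223) (nat_lit 76) (nat_lit 4127892411) (nat_lit 405) (nat_lit 5) (nat_lit 417) (nat_lit 5) (nat_lit 406) (nat_lit 5) (nat_lit 431) (nat_lit 392) (nat_lit 377)) (XT.lf (nat_lit 0) (nat_lit 5145541197)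 (nat_lit 912) (nat_lit 2294275583) (nat_lit 76) (nat_lit 186261191) (nat_lit 394) (nat_lit 5) (nat_lit 406) (nat_lit 5) (nat_lit 395) (nat_lit 5) (nat_lit 432) (nat_lit 392) (nat_lit 376))))))) (XT.nd (nat_lit 1014) (nat_lit 7144) (nat_lit 0) (XT.nd (nat_lit 468) (nat_lit 5092) (nat_lit 0) (XT.nd (nat_lit 234) (nat_lit 2964) (nat_lit 0) (XT.nd (nat_lit 78) (nat_lit 1596) (nat_lit 0) (XT.lf (nat_lit 0) (nat_lit 2164951691) (nat_lit 912) (nat_lit 1628836795) (nat_lit 76) (nat_lit 3914107773) (nat_lit 382) (nat_lit 5) (nat_lit 394) (nat_lit 5) (nat_lit 383) (nat_lit 5) (nat_lit 433) (nat_lit 392) (nat_lit 375)) (XT.nd (nat_lit 78) (nat_lit 836) (nat_lit 0) (XT.lf (nat_lit 0) (nat_lit 6857188837) (nat_lit 836) (nat_lit 913163647) (nat_lit 76) (nat_lit 22674633) (nat_lit 372) (nat_lit 5) (nat_lit 383) (nat_lit 5) (nat_lit 373) (nat_lit 5) (nat_lit 434) (nat_lit 392) (nat_lit 374)) (XT.lf (nat_lit 0) (nat_lit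 3728866749) (nat_lit 836) (nat_lit 181044726) (nat_lit 76) (nat_lit 3970926075) (nat_lit 361) (nat_lit 5) (nat_lit 372) (nat_lit 5) (nat_lit 362) (nat_lit 5) (nat_lit 435) (nat_lit 392) (nat_lit 373)))) (XT.nd (nat_lit 78) (nat_lit 1444) (nat_lit 0) (XT.lf (nat_lit 0) (nat_lit 493580820) (nat_lit 836) (nat_lit 7357519837) (nat_lit 76) (nat_lit 120970481) (nat_lit 341) (nat_lit 5) (nat_lit 352) (nat_lit 5) (nat_lit 342) (nat_lit 5) (nat_lit 436) (nat_lit 392) (nat_lit 372)) (XT.nd (nat_lit 78) (nat_lit 760) (nat_lit 0) (XT.lf (nat_lit 0) (nat_lit 1424370222) (nat_lit 684) (nat_lit 3775078377) (nat_lit 760) (nat_lit 2866503796) (nat_lit 332) (nat_lit 5) (nat_lit 341) (nat_lit 5) (nat_lit 342) (nat_lit 5) (nat_lit 437) (nat_lit 392) (nat_lit 371)) (XT.lf (nat_lit 0) (nat_lit 1814359073) (nat_lit 760) (nat_lit 5878753933) (nat_lit 76) (nat_lit 470194387) (nat_lit 322) (nat_lit 5) (nat_lit 332) (nat_lit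 5) (nat_lit 323) (nat_lit 5) (nat_lit 438) (nat_lit 392) (nat_lit 370))))) (XT.nd (nat_lit 234) (nat_lit 3116) (nat_lit 0) (XT.nd (nat_lit 78) (nat_lit 1368) (nat_lit 0) (XT.lf (nat_lit 0) (nat_lit 3165189466) (nat_lit 608) (nat_lit 3412162090) (nat_lit 684) (nat_lit 1686245778) (nat_lit 314) (nat_lit 5) (nat_lit 322) (nat_lit 5) (nat_lit 323) (nat_lit 5) (nat_lit 439) (nat_lit 392) (nat_lit 369)) (XT.nd (nat_lit 78) (nat_lit 608) (nat_lit 0) (XT.lf (nat_lit 0) (nat_lit 3039933060) (nat_lit 760) (nat_lit 4283761221) (nat_lit 76) (nat_lit 1043513610) (nat_lit 304) (nat_lit 5) (nat_lit 314) (nat_lit 5) (nat_lit 305) (nat_lit 5) (nat_lit 440) (nat_lit 392) (nat_lit 368)) (XT.lf (nat_lit 0) (nat_lit 5031730402) (nat_lit 608) (nat_lit 2836709248) (nat_lit 684) (nat_lit 605600895) (nat_lit 296) (nat_lit 5) (nat_lit 304) (nat_lit 5) (nat_lit 305) (nat_lit 5) (nat_lit 441) (nat_lit 392) (nat_lit 367)))) (XT.nd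 (nat_lit 156) (nat_lit 1748) (nat_lit 0) (XT.nd (nat_lit 78) (nat_lit 684) (nat_lit 0) (XT.lf (nat_lit 0) (nat_lit 4176783650) (nat_lit 684) (nat_lit 2579824844) (nat_lit 76) (nat_lit 1827424247) (nat_lit 287) (nat_lit 5) (nat_lit 296) (nat_lit 5) (nat_lit 288) (nat_lit 5) (nat_lit 442) (nat_lit 392) (nat_lit 366)) (XT.lf (nat_lit 0) (nat_lit 376502191) (nat_lit 684) (nat_lit 1682875915) (nat_lit 76) (nat_lit 6638129288) (nat_lit 278) (nat_lit 5) (nat_lit 287) (nat_lit 5) (nat_lit 279) (nat_lit 5) (nat_lit 443) (nat_lit 392) (nat_lit 365))) (XT.nd (nat_lit 78) (nat_lit 1140) (nat_lit 0) (XT.lf (nat_lit 0) (nat_lit 5230695797) (nat_lit 684) (nat_lit 773853636) (nat_lit 76) (nat_lit 2809523125) (nat_lit 270) (nat_lit 5) (nat_lit 279) (nat_lit 5) (nat_lit 271) (nat_lit 5) (nat_lit 444) (nat_lit 392) (nat_lit 364)) (XT.lf (nat_lit 0) (nat_lit 174531712) (nat_lit 532) (nat_lit 1090252786) (nat_lit 608)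 (nat_lit 7669478521) (nat_lit 255) (nat_lit 5) (nat_lit 262) (nat_lit 5) (nat_lit 263) (nat_lit 5) (nat_lit 445) (nat_lit 392) (nat_lit 363)))))) (XT.nd (nat_lit 546) (nat_lit 3496) (nat_lit 0) (XT.nd (nat_lit 234) (nat_lit 2052) (nat_lit 0) (XT.nd (nat_lit 78) (nat_lit 1064) (nat_lit 0) (XT.lf (nat_lit 0) (nat_lit 1142532280) (nat_lit 532) (nat_lit 5071672944) (nat_lit 608) (nat_lit 2843294942) (nat_lit 248) (nat_lit 5) (nat_lit 255) (nat_lit 5) (nat_lit 256) (nat_lit 5) (nat_lit 446) (nat_lit 392) (nat_lit 362)) (XT.nd (nat_lit 78) (nat_lit 456) (nat_lit 0) (XT.lf (nat_lit 0) (nat_lit 2082800886) (nat_lit 608) (nat_lit 7036313287) (nat_lit 76) (nat_lit 65387779) (nat_lit 240) (nat_lit 5) (nat_lit 248) (nat_lit 5) (nat_lit 241) (nat_lit 5) (nat_lit 447) (nat_lit 392) (nat_lit 361)) (XT.lf (nat_lit 0) (nat_lit 3159445791) (nat_lit 456) (nat_lit 3970599248) (nat_lit 532) (nat_lit 2184657288) (nat_lit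 234) (nat_lit 5) (nat_lit 240) (nat_lit 5) (nat_lit 241) (nat_lit 5) (nat_lit 448) (nat_lit 392) (nat_lit 360)))) (XT.nd (nat_lit 156) (nat_lit 988) (nat_lit 0) (XT.nd (nat_lit 78) (nat_lit 456) (nat_lit 0) (XT.lf (nat_lit 0) (nat_lit 2831146700) (nat_lit 608) (nat_lit 5247216657) (nat_lit 76) (nat_lit 1370295113) (nat_lit 226) (nat_lit 5) (nat_lit 234) (nat_lit 5) (nat_lit 227) (nat_lit 5) (nat_lit 449) (nat_lit 392) (nat_lit 359)) (XT.lf (nat_lit 0) (nat_lit 5260314301) (nat_lit 456) (nat_lit 2716618601) (nat_lit 532) (nat_lit 1609231785) (nat_lit 220) (nat_lit 5) (nat_lit 226) (nat_lit 5) (nat_lit 227) (nat_lit 5) (nat_lit 450) (nat_lit 392) (nat_lit 358))) (XT.nd (nat_lit 78) (nat_lit 456) (nat_lit 0) (XT.lf (nat_lit 0) (nat_lit 3505993596) (nat_lit 532) (nat_lit 3391973466) (nat_lit 76) (nat_lit 2829307003) (nat_lit 213) (nat_lit 5) (nat_lit 220) (nat_lit 5) (nat_lit 214) (nat_lit 5) (nat_lit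 451) (nat_lit 392) (nat_lit 357)) (XT.lf (nat_lit 0) (nat_lit 7438943817) (nat_lit 456) (nat_lit 1319124272) (nat_lit 532) (nat_lit 1114234469) (nat_lit 207) (nat_lit 5) (nat_lit 213) (nat_lit 5) (nat_lit 214) (nat_lit 5) (nat_lit 452) (nat_lit 392) (nat_lit 356))))) (XT.nd (nat_lit 234) (nat_lit 1672) (nat_lit 0) (XT.nd (nat_lit 78) (nat_lit 1292) (nat_lit 0) (XT.lf (nat_lit 0) (nat_lit 4109977986) (nat_lit 532) (nat_lit 1477168297) (nat_lit 76) (nat_lit 4433634133) (nat_lit 200) (nat_lit 5) (nat_lit 207) (nat_lit 5) (nat_lit 201) (nat_lit 5) (nat_lit 453) (nat_lit 392) (nat_lit 355)) (XT.nd (nat_lit 78) (nat_lit 912) (nat_lit 0) (XT.lf (nat_lit 0) (nat_lit 9477433203) (nat_lit 456) (nat_lit 485785569) (nat_lit 76) (nat_lit 210316850) (nat_lit 195) (nat_lit 5) (nat_lit 201) (nat_lit 5) (nat_lit 196) (nat_lit 5) (nat_lit 454) (nat_lit 392) (nat_lit 354)) (XT.lf (nat_lit 0) (nat_lit 497084901) (nat_lit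 380) (nat_lit 4151271107) (nat_lit 456) (nat_lit 5681221019) (nat_lit 183) (nat_lit 5) (nat_lit 188) (nat_lit 5) (nat_lit 189) (nat_lit 5) (nat_lit 455) (nat_lit 392) (nat_lit 353)))) (XT.nd (nat_lit 156) (nat_lit 836) (nat_lit 0) (XT.nd (nat_lit 78) (nat_lit 456) (nat_lit 0) (XT.lf (nat_lit 0) (nat_lit 1522122062) (nat_lit 380) (nat_lit 8632794261) (nat_lit 456) (nat_lit 335069964) (nat_lit 178) (nat_lit 5) (nat_lit 183) (nat_lit 5) (nat_lit 184) (nat_lit 5) (nat_lit 456) (nat_lit 392) (nat_lit 352)) (XT.lf (nat_lit 0) (nat_lit 2537751670) (nat_lit 380) (nat_lit 2591593073) (nat_lit 456) (nat_lit 5524680466) (nat_lit 172) (nat_lit 5) (nat_lit 177) (nat_lit 5) (nat_lit 178) (nat_lit 5) (nat_lit 457) (nat_lit 392) (nat_lit 351))) (XT.nd (nat_lit 78) (nat_lit 456) (nat_lit 0) (XT.lf (nat_lit 0) (nat_lit 3579157639) (nat_lit 380) (nat_lit 7197742075) (nat_lit 456) (nat_lit 45568993) (nat_lit 167) (nat_lit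 5) (nat_lit 172) (nat_lit 5) (nat_lit 173) (nat_lit 5) (nat_lit 458) (nat_lit 392) (nat_lit 350)) (XT.lf (nat_lit 0) (nat_lit 4618142297) (nat_lit 380) (nat_lit 925850764) (nat_lit 456) (nat_lit 5450858410) (nat_lit 161) (nat_lit 5) (nat_lit 166) (nat_lit 5) (nat_lit 167) (nat_lit 5) (nat_lit 459) (nat_lit 392) (nat_lit 349))))))))
noncomputable def xc25 : XT := (XT.nd (nat_lit 2106) (nat_lit 304) (nat_lit 0) (XT.nd (nat_lit 1014) (nat_lit 3572) (nat_lit 0) (XT.nd (nat_lit 468) (nat_lit 2432) (nat_lit 0) (XT.nd (nat_lit 234) (nat_lit 1064) (nat_lit 0) (XT.nd (nat_lit 78) (nat_lit 760) (nat_lit 0) (XT.lf (nat_lit 0) (nat_lit 167081271) (nat_lit 456) (nat_lit 5501000497) (nat_lit 76) (nat_lit 5503493113) (nat_lit 155) (nat_lit 5) (nat_lit 161) (nat_lit 5) (nat_lit 156) (nat_lit 5) (nat_lit 460) (nat_lit 392) (nat_lit 348)) (XT.nd (nat_lit 78) (nat_lit 456) (nat_lit 0) (XT.lf (nat_lit 0) (nat_lit 5897891953)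 (nat_lit 380) (nat_lit 4627164513) (nat_lit 76) (nat_lit 827457707) (nat_lit 151) (nat_lit 5) (nat_lit 156) (nat_lit 5) (nat_lit 152) (nat_lit 5) (nat_lit 461) (nat_lit 392) (nat_lit 347)) (XT.lf (nat_lit 0) (nat_lit 305002506) (nat_lit 456) (nat_lit 3747740194) (nat_lit 76) (nat_lit 7485173590) (nat_lit 145) (nat_lit 5) (nat_lit 151) (nat_lit 5) (nat_lit 146) (nat_lit 5) (nat_lit 462) (nat_lit 392) (nat_lit 346)))) (XT.nd (nat_lit 78) (nat_lit 760) (nat_lit 0) (XT.lf (nat_lit 0) (nat_lit 6191714876) (nat_lit 380) (nat_lit 2877144069) (nat_lit 76) (nat_lit 2658734670) (nat_lit 141) (nat_lit 5) (nat_lit 146) (nat_lit 5) (nat_lit 142) (nat_lit 5) (nat_lit 463) (nat_lit 392) (nat_lit 345)) (XT.nd (nat_lit 78) (nat_lit 304) (nat_lit 0) (XT.lf (nat_lit 0) (nat_lit 367656080) (nat_lit 456) (nat_lit 1991799077) (nat_lit 76) (nat_lit 9562666354) (nat_lit 135) (nat_lit 5) (nat_lit 141) (nat_lit 5) (nat_lit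 136) (nat_lit 5) (nat_lit 464) (nat_lit 392) (nat_lit 344)) (XT.lf (nat_lit 0) (nat_lit 6418264280) (nat_lit 380) (nat_lit 1129455217) (nat_lit 76) (nat_lit 4573132523) (nat_lit 131) (nat_lit 5) (nat_lit 136) (nat_lit 5) (nat_lit 132) (nat_lit 5) (nat_lit 465) (nat_lit 392) (nat_lit 343))))) (XT.nd (nat_lit 234) (nat_lit 1140) (nat_lit 0) (XT.nd (nat_lit 78) (nat_lit 912) (nat_lit 0) (XT.lf (nat_lit 0) (nat_lit 353226240) (nat_lit 380) (nat_lit 242311879) (nat_lit 76) (nat_lit 11729313412) (nat_lit 126) (nat_lit 5) (nat_lit 131) (nat_lit 5) (nat_lit 127) (nat_lit 5) (nat_lit 466) (nat_lit 392) (nat_lit 342)) (XT.nd (nat_lit 78) (nat_lit 304) (nat_lit 0) (XT.lf (nat_lit 0) (nat_lit 614517370) (nat_lit 304) (nat_lit 5965148264) (nat_lit 380) (nat_lit 5953224995) (nat_lit 118) (nat_lit 5) (nat_lit 122) (nat_lit 5) (nat_lit 123) (nat_lit 5) (nat_lit 467) (nat_lit 392) (nat_lit 341)) (XT.lf (nat_lit 0)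 (nat_lit 277059517) (nat_lit 304) (nat_lit 11243951058) (nat_lit 76) (nat_lit 1225439235) (nat_lit 114) (nat_lit 5) (nat_lit 118) (nat_lit 5) (nat_lit 115) (nat_lit 5) (nat_lit 468) (nat_lit 392) (nat_lit 340)))) (XT.nd (nat_lit 156) (nat_lit 532) (nat_lit 0) (XT.nd (nat_lit 78) (nat_lit 304) (nat_lit 0) (XT.lf (nat_lit 0) (nat_lit 2351250650) (nat_lit 304) (nat_lit 4325390486) (nat_lit 380) (nat_lit 6287724090) (nat_lit 110) (nat_lit 5) (nat_lit 114) (nat_lit 5) (nat_lit 115) (nat_lit 5) (nat_lit 469) (nat_lit 392) (nat_lit 339)) (XT.lf (nat_lit 0) (nat_lit 123674424) (nat_lit 304) (nat_lit 9968928606) (nat_lit 76) (nat_lit 3095300067) (nat_lit 106) (nat_lit 5) (nat_lit 110) (nat_lit 5) (nat_lit 107) (nat_lit 5) (nat_lit 470) (nat_lit 392) (nat_lit 338))) (XT.nd (nat_lit 78) (nat_lit 228) (nat_lit 0) (XT.lf (nat_lit 0) (nat_lit 4054548326) (nat_lit 304) (nat_lit 2643817333) (nat_lit 380) (nat_lit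 6717824405) (nat_lit 102) (nat_lit 5) (nat_lit 106) (nat_lit 5) (nat_lit 107) (nat_lit 5) (nat_lit 471) (nat_lit 392) (nat_lit 337)) (XT.lf (nat_lit 0) (nat_lit 4895437532) (nat_lit 228) (nat_lit 8636528823) (nat_lit 304) (nat_lit 118127584) (nat_lit 99) (nat_lit 5) (nat_lit 102) (nat_lit 5) (nat_lit 103) (nat_lit 5) (nat_lit 472) (nat_lit 392) (nat_lit 336)))))) (XT.nd (nat_lit 546) (nat_lit 1596) (nat_lit 0) (XT.nd (nat_lit 234) (nat_lit 1064) (nat_lit 0) (XT.nd (nat_lit 78) (nat_lit 532) (nat_lit 0) (XT.lf (nat_lit 0) (nat_lit 5712222018) (nat_lit 304) (nat_lit 928423617) (nat_lit 380) (nat_lit 7248529743) (nat_lit 94) (nat_lit 5) (nat_lit 98) (nat_lit 5) (nat_lit 99) (nat_lit 5) (nat_lit 473) (nat_lit 392) (nat_lit 335)) (XT.nd (nat_lit 78) (nat_lit 304) (nat_lit 0) (XT.lf (nat_lit 0) (nat_lit 6518524893) (nat_lit 228) (nat_lit 7160636150) (nat_lit 304) (nat_lit 454682467) (nat_lit 91) (nat_lit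 5) (nat_lit 94) (nat_lit 5) (nat_lit 95) (nat_lit 5) (nat_lit 474) (nat_lit 392) (nat_lit 334)) (XT.lf (nat_lit 0) (nat_lit 6503710694) (nat_lit 304) (nat_lit 7078515927) (nat_lit 76) (nat_lit 801846054) (nat_lit 87) (nat_lit 5) (nat_lit 91) (nat_lit 5) (nat_lit 88) (nat_lit 5) (nat_lit 475) (nat_lit 392) (nat_lit 333)))) (XT.nd (nat_lit 156) (nat_lit 532) (nat_lit 0) (XT.nd (nat_lit 78) (nat_lit 304) (nat_lit 0) (XT.lf (nat_lit 0) (nat_lit 8075109748) (nat_lit 228) (nat_lit 5674593378) (nat_lit 304) (nat_lit 890346411) (nat_lit 84) (nat_lit 5) (nat_lit 87) (nat_lit 5) (nat_lit 88) (nat_lit 5) (nat_lit 476) (nat_lit 392) (nat_lit 332)) (XT.lf (nat_lit 0) (nat_lit 6282464174) (nat_lit 304) (nat_lit 6082734300) (nat_lit 76) (nat_lit 2536572437) (nat_lit 80) (nat_lit 5) (nat_lit 84) (nat_lit 5) (nat_lit 81) (nat_lit 5) (nat_lit 477) (nat_lit 392) (nat_lit 331))) (XT.nd (nat_lit 78) (nat_lit 304) (nat_lit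 0) (XT.lf (nat_lit 0) (nat_lit 9549847529) (nat_lit 228) (nat_lit 4187697506) (nat_lit 304) (nat_lit 1432098862) (nat_lit 77) (nat_lit 5) (nat_lit 80) (nat_lit 5) (nat_lit 81) (nat_lit 5) (nat_lit 478) (nat_lit 392) (nat_lit 330)) (XT.lf (nat_lit 0) (nat_lit 5963877283) (nat_lit 304) (nat_lit 5200589007) (nat_lit 76) (nat_lit 4278883539) (nat_lit 73) (nat_lit 5) (nat_lit 77) (nat_lit 5) (nat_lit 74) (nat_lit 5) (nat_lit 479) (nat_lit 392) (nat_lit 329))))) (XT.nd (nat_lit 234) (nat_lit 912) (nat_lit 0) (XT.nd (nat_lit 78) (nat_lit 456) (nat_lit 0) (XT.lf (nat_lit 0) (nat_lit 10925827185) (nat_lit 228) (nat_lit 2709809196) (nat_lit 304) (nat_lit 2087975247) (nat_lit 70) (nat_lit 5) (nat_lit 73) (nat_lit 5) (nat_lit 74) (nat_lit 5) (nat_lit 480) (nat_lit 392) (nat_lit 328)) (XT.nd (nat_lit 78) (nat_lit 152) (nat_lit 0) (XT.lf (nat_lit 0) (nat_lit 5539883863) (nat_lit 304) (nat_lit 4450799665) (nat_lit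 76) (nat_lit 6019139805) (nat_lit 66) (nat_lit 5) (nat_lit 70) (nat_lit 5) (nat_lit 67) (nat_lit 5) (nat_lit 481) (nat_lit 392) (nat_lit 327)) (XT.lf (nat_lit 0) (nat_lit 12184375599) (nat_lit 152) (nat_lit 1251465141) (nat_lit 228) (nat_lit 2867153160) (nat_lit 64) (nat_lit 5) (nat_lit 66) (nat_lit 5) (nat_lit 67) (nat_lit 5) (nat_lit 482) (nat_lit 392) (nat_lit 326)))) (XT.nd (nat_lit 156) (nat_lit 456) (nat_lit 0) (XT.nd (nat_lit 78) (nat_lit 152) (nat_lit 0) (XT.lf (nat_lit 0) (nat_lit 5001262766) (nat_lit 304) (nat_lit 3854004214) (nat_lit 76) (nat_lit 7746996200) (nat_lit 60) (nat_lit 5) (nat_lit 64) (nat_lit 5) (nat_lit 61) (nat_lit 5) (nat_lit 483) (nat_lit 392) (nat_lit 325)) (XT.lf (nat_lit 0) (nat_lit 13129984650) (nat_lit 228) (nat_lit 3605190788) (nat_lit 76) (nat_lit 173692967) (nat_lit 58) (nat_lit 5) (nat_lit 61) (nat_lit 5) (nat_lit 59) (nat_lit 5) (nat_lit 484) (nat_lit 392) (nat_lit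 324))) (XT.nd (nat_lit 78) (nat_lit 152) (nat_lit 0) (XT.lf (nat_lit 0) (nat_lit 4337537088) (nat_lit 304) (nat_lit 3432986154) (nat_lit 76) (nat_lit 9451279116) (nat_lit 54) (nat_lit 5) (nat_lit 58) (nat_lit 5) (nat_lit 55) (nat_lit 5) (nat_lit 485) (nat_lit 392) (nat_lit 323)) (XT.lf (nat_lit 0) (nat_lit 12714169519) (nat_lit 228) (nat_lit 3288229292) (nat_lit 76) (nat_lit 1539865731) (nat_lit 52) (nat_lit 5) (nat_lit 55) (nat_lit 5) (nat_lit 53) (nat_lit 5) (nat_lit 486) (nat_lit 392) (nat_lit 322))))))) (XT.nd (nat_lit 57798) (nat_lit 0) (nat_lit 19456) (XT.nd (nat_lit 57252) (nat_lit 0) (nat_lit 31920) (XT.nd (nat_lit 56940) (nat_lit 0) (nat_lit 44764) (XT.nd (nat_lit 56784) (nat_lit 0) (nat_lit 49400) (XT.lf (nat_lit 0) (nat_lit 3536861320) (nat_lit 304) (nat_lit 3212924080) (nat_lit 76) (nat_lit 11119853397) (nat_lit 48) (nat_lit 5) (nat_lit 52) (nat_lit 5) (nat_lit 49) (nat_lit 5) (nat_lit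 487) (nat_lit 392) (nat_lit 321)) (XT.nd (nat_lit 78) (nat_lit 988) (nat_lit 0) (XT.lf (nat_lit 0) (nat_lit 3214671310) (nat_lit 836) (nat_lit 55274938) (nat_lit 836) (nat_lit 55274938) (nat_lit 711) (nat_lit 4) (nat_lit 722) (nat_lit 5) (nat_lit 722) (nat_lit 4) (nat_lit 414) (nat_lit 393) (nat_lit 393)) (XT.lf (nat_lit 0) (nat_lit 4804524578) (nat_lit 988) (nat_lit 439066161) (nat_lit 0) (nat_lit 1437859301) (nat_lit 698) (nat_lit 5) (nat_lit 711) (nat_lit 4) (nat_lit 698) (nat_lit 4) (nat_lit 415) (nat_lit 393) (nat_lit 392)))) (XT.nd (nat_lit 156) (nat_lit 2432) (nat_lit 0) (XT.nd (nat_lit 78) (nat_lit 1140) (nat_lit 0) (XT.lf (nat_lit 0) (nat_lit 2990094330) (nat_lit 1064) (nat_lit 595281794) (nat_lit 76) (nat_lit 3130018390) (nat_lit 684) (nat_lit 5) (nat_lit 698) (nat_lit 5) (nat_lit 685) (nat_lit 4) (nat_lit 416) (nat_lit 393) (nat_lit 391)) (XT.lf (nat_lit 0) (nat_lit 1093967911) (nat_lit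 1140) (nat_lit 689185141) (nat_lit 76) (nat_lit 4969160665) (nat_lit 669) (nat_lit 5) (nat_lit 684) (nat_lit 5) (nat_lit 670) (nat_lit 5) (nat_lit 417) (nat_lit 393) (nat_lit 390))) (XT.nd (nat_lit 78) (nat_lit 1292) (nat_lit 0) (XT.lf (nat_lit 0) (nat_lit 5895600542) (nat_lit 1216) (nat_lit 727801521) (nat_lit 76) (nat_lit 168692487) (nat_lit 654) (nat_lit 5) (nat_lit 670) (nat_lit 5) (nat_lit 655) (nat_lit 4) (nat_lit 418) (nat_lit 393) (nat_lit 389)) (XT.lf (nat_lit 0) (nat_lit 3858925723) (nat_lit 1292) (nat_lit 724562868) (nat_lit 76) (nat_lit 2251007938) (nat_lit 637) (nat_lit 5) (nat_lit 654) (nat_lit 5) (nat_lit 638) (nat_lit 5) (nat_lit 419) (nat_lit 393) (nat_lit 388))))) (XT.nd (nat_lit 234) (nat_lit 8588) (nat_lit 0) (XT.nd (nat_lit 78) (nat_lit 2888) (nat_lit 0) (XT.lf (nat_lit 0) (nat_lit 1737160624) (nat_lit 1368) (nat_lit 660625226) (nat_lit 76) (nat_lit 4482139592) (nat_lit 619) (nat_lit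 5) (nat_lit 637) (nat_lit 5) (nat_lit 620) (nat_lit 5) (nat_lit 420) (nat_lit 393) (nat_lit 387)) (XT.nd (nat_lit 78) (nat_lit 1520) (nat_lit 0) (XT.lf (nat_lit 0) (nat_lit 6389346773) (nat_lit 1368) (nat_lit 60798146) (nat_lit 1444) (nat_lit 478205755) (nat_lit 601) (nat_lit 5) (nat_lit 619) (nat_lit 5) (nat_lit 620) (nat_lit 5) (nat_lit 421) (nat_lit 393) (nat_lit 386)) (XT.lf (nat_lit 0) (nat_lit 4187957864) (nat_lit 1520) (nat_lit 384290890) (nat_lit 76) (nat_lit 2407062121) (nat_lit 581) (nat_lit 5) (nat_lit 601) (nat_lit 5) (nat_lit 582) (nat_lit 5) (nat_lit 422) (nat_lit 393) (nat_lit 385)))) (XT.nd (nat_lit 156) (nat_lit 3724) (nat_lit 0) (XT.nd (nat_lit 78) (nat_lit 3268) (nat_lit 0) (XT.lf (nat_lit 0) (nat_lit 1836984883) (nat_lit 1596) (nat_lit 170405047) (nat_lit 76) (nat_lit 5025969050) (nat_lit 560) (nat_lit 5) (nat_lit 581) (nat_lit 5) (nat_lit 561) (nat_lit 5) (nat_lit 423) (nat_lit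 393) (nat_lit 384)) (XT.lf (nat_lit 0) (nat_lit 95953070) (nat_lit 1672) (nat_lit 6386058229) (nat_lit 1748) (nat_lit 608344204) (nat_lit 517) (nat_lit 5) (nat_lit 539) (nat_lit 5) (nat_lit 540) (nat_lit 5) (nat_lit 424) (nat_lit 393) (nat_lit 383))) (XT.nd (nat_lit 78) (nat_lit 1900) (nat_lit 0) (XT.lf (nat_lit 0) (nat_lit 398349228) (nat_lit 1748) (nat_lit 3593803522) (nat_lit 1824) (nat_lit 3157808699) (nat_lit 493) (nat_lit 5) (nat_lit 516) (nat_lit 5) (nat_lit 517) (nat_lit 5) (nat_lit 425) (nat_lit 393) (nat_lit 382)) (XT.lf (nat_lit 0) (nat_lit 760415914) (nat_lit 1824) (nat_lit 648298101) (nat_lit 1900) (nat_lit 5804026921) (nat_lit 468) (nat_lit 5) (nat_lit 492) (nat_lit 5) (nat_lit 493) (nat_lit 5) (nat_lit 426) (nat_lit 393) (nat_lit 381)))))) (XT.nd (nat_lit 546) (nat_lit 5928) (nat_lit 0) (XT.nd (nat_lit 234) (nat_lit 3496) (nat_lit 0) (XT.nd (nat_lit 78) (nat_lit 1976) (nat_lit 0) (XT.lf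 (nat_lit 0) (nat_lit 1157912992) (nat_lit 1064) (nat_lit 4848553879) (nat_lit 1140) (nat_lit 1271786618) (nat_lit 454) (nat_lit 5) (nat_lit 468) (nat_lit 5) (nat_lit 469) (nat_lit 5) (nat_lit 427) (nat_lit 393) (nat_lit 380)) (XT.nd (nat_lit 78) (nat_lit 988) (nat_lit 0) (XT.lf (nat_lit 0) (nat_lit 1600577543) (nat_lit 912) (nat_lit 1679998252) (nat_lit 988) (nat_lit 4066149998) (nat_lit 441) (nat_lit 5) (nat_lit 453) (nat_lit 5) (nat_lit 454) (nat_lit 5) (nat_lit 428) (nat_lit 393) (nat_lit 379)) (XT.lf (nat_lit 0) (nat_lit 466306808) (nat_lit 988) (nat_lit 5326512976) (nat_lit 76) (nat_lit 1625440232) (nat_lit 428) (nat_lit 5) (nat_lit 441) (nat_lit 5) (nat_lit 429) (nat_lit 5) (nat_lit 429) (nat_lit 393) (nat_lit 378)))) (XT.nd (nat_lit 156) (nat_lit 1748) (nat_lit 0) (XT.nd (nat_lit 78) (nat_lit 912) (nat_lit 0) (XT.lf (nat_lit 0) (nat_lit 2614364102) (nat_lit 836) (nat_lit 2407729824) (nat_lit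 912) (nat_lit 2470465491) (nat_lit 417) (nat_lit 5) (nat_lit 428) (nat_lit 5) (nat_lit 429) (nat_lit 5) (nat_lit 430) (nat_lit 393) (nat_lit 377)) (XT.lf (nat_lit 0) (nat_lit 2058655531) (nat_lit 912) (nat_lit 4384823827) (nat_lit 76) (nat_lit 1126511578) (nat_lit 405) (nat_lit 5) (nat_lit 417) (nat_lit 5) (nat_lit 406) (nat_lit 5) (nat_lit 431) (nat_lit 393) (nat_lit 376))) (XT.nd (nat_lit 78) (nat_lit 912) (nat_lit 0) (XT.lf (nat_lit 0) (nat_lit 3791828134) (nat_lit 836) (nat_lit 2851967974) (nat_lit 912) (nat_lit 1006556530) (nat_lit 394) (nat_lit 5) (nat_lit 405) (nat_lit 5) (nat_lit 406) (nat_lit 5) (nat_lit 432) (nat_lit 393) (nat_lit 375)) (XT.lf (nat_lit 0) (nat_lit 3531819951) (nat_lit 912) (nat_lit 3296662643) (nat_lit 76) (nat_lit 905256305) (nat_lit 382) (nat_lit 5) (nat_lit 394) (nat_lit 5) (nat_lit 383) (nat_lit 5) (nat_lit 433) (nat_lit 393) (nat_lit 374))))) (XT.nd (nat_lit 234) (nat_lit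 3572) (nat_lit 0) (XT.nd (nat_lit 78) (nat_lit 1520) (nat_lit 0) (XT.lf (nat_lit 0) (nat_lit 330673985) (nat_lit 836) (nat_lit 2698629569) (nat_lit 76) (nat_lit 4790901156) (nat_lit 371) (nat_lit 5) (nat_lit 382) (nat_lit 5) (nat_lit 372) (nat_lit 5) (nat_lit 434) (nat_lit 393) (nat_lit 373)) (XT.nd (nat_lit 78) (nat_lit 760) (nat_lit 0) (XT.lf (nat_lit 0) (nat_lit 4894810792) (nat_lit 836) (nat_lit 2070978322) (nat_lit 76) (nat_lit 943873877) (nat_lit 361) (nat_lit 5) (nat_lit 372) (nat_lit 5) (nat_lit 362) (nat_lit 5) (nat_lit 435) (nat_lit 393) (nat_lit 372)) (XT.lf (nat_lit 0) (nat_lit 1542531687) (nat_lit 760) (nat_lit 1410789112) (nat_lit 76) (nat_lit 5048896518) (nat_lit 351) (nat_lit 5) (nat_lit 361) (nat_lit 5) (nat_lit 352) (nat_lit 5) (nat_lit 436) (nat_lit 393) (nat_lit 371)))) (XT.nd (nat_lit 156) (nat_lit 1368) (nat_lit 0) (XT.nd (nat_lit 78) (nat_lit 1444) (nat_lit 0) (XT.lf (nat_lit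 0) (nat_lit 6155820147) (nat_lit 836) (nat_lit 716098520) (nat_lit 76) (nat_lit 1226034709) (nat_lit 341) (nat_lit 5) (nat_lit 352) (nat_lit 5) (nat_lit 342) (nat_lit 5) (nat_lit 437) (nat_lit 393) (nat_lit 370)) (XT.lf (nat_lit 0) (nat_lit 3455851) (nat_lit 684) (nat_lit 2646483151) (nat_lit 760) (nat_lit 5546785745) (nat_lit 322) (nat_lit 5) (nat_lit 331) (nat_lit 5) (nat_lit 332) (nat_lit 5) (nat_lit 438) (nat_lit 393) (nat_lit 369))) (XT.nd (nat_lit 78) (nat_lit 760) (nat_lit 0) (XT.lf (nat_lit 0) (nat_lit 770298987) (nat_lit 608) (nat_lit 6556969591) (nat_lit 684) (nat_lit 971462341) (nat_lit 314) (nat_lit 5) (nat_lit 322) (nat_lit 5) (nat_lit 323) (nat_lit 5) (nat_lit 439) (nat_lit 393) (nat_lit 368)) (XT.lf (nat_lit 0) (nat_lit 1556783186) (nat_lit 684) (nat_lit 2113085563) (nat_lit 760) (nat_lit 4733892201) (nat_lit 304) (nat_lit 5) (nat_lit 313) (nat_lit 5) (nat_lit 314) (nat_lit 5) (nat_lit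 440) (nat_lit 393) (nat_lit 367))))))))
noncomputable def xc26 : XT := (XT.nd (nat_lit 2106) (nat_lit 5548) (nat_lit 0) (XT.nd (nat_lit 1014) (nat_lit 5928) (nat_lit 0) (XT.nd (nat_lit 468) (nat_lit 4180) (nat_lit 0) (XT.nd (nat_lit 234) (nat_lit 1748) (nat_lit 0) (XT.nd (nat_lit 78) (nat_lit 1368) (nat_lit 0) (XT.lf (nat_lit 0) (nat_lit 2381839751) (nat_lit 608) (nat_lit 6034463870) (nat_lit 684) (nat_lit 95934163) (nat_lit 296) (nat_lit 5) (nat_lit 304) (nat_lit 5) (nat_lit 305) (nat_lit 5) (nat_lit 441) (nat_lit 393) (nat_lit 366)) (XT.nd (nat_lit 78) (nat_lit 684) (nat_lit 0) (XT.lf (nat_lit 0) (nat_lit 3223192046) (nat_lit 608) (nat_lit 1376004499) (nat_lit 684) (nat_lit 4024581257) (nat_lit 287) (nat_lit 5) (nat_lit 295) (nat_lit 5) (nat_lit 296) (nat_lit 5) (nat_lit 442) (nat_lit 393) (nat_lit 365)) (XT.lf (nat_lit 0) (nat_lit 676319890) (nat_lit 684) (nat_lit 4641284298) (nat_lit 76) (nat_lit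 3421157692) (nat_lit 278) (nat_lit 5) (nat_lit 287) (nat_lit 5) (nat_lit 279) (nat_lit 5) (nat_lit 443) (nat_lit 393) (nat_lit 364)))) (XT.nd (nat_lit 78) (nat_lit 1140) (nat_lit 0) (XT.lf (nat_lit 0) (nat_lit 4995811883) (nat_lit 608) (nat_lit 447574910) (nat_lit 684) (nat_lit 3413685200) (nat_lit 270) (nat_lit 5) (nat_lit 278) (nat_lit 5) (nat_lit 279) (nat_lit 5) (nat_lit 444) (nat_lit 393) (nat_lit 363)) (XT.nd (nat_lit 78) (nat_lit 532) (nat_lit 0) (XT.lf (nat_lit 0) (nat_lit 1359168291) (nat_lit 608) (nat_lit 3063647494) (nat_lit 76) (nat_lit 4555888578) (nat_lit 262) (nat_lit 5) (nat_lit 270) (nat_lit 5) (nat_lit 263) (nat_lit 5) (nat_lit 445) (nat_lit 393) (nat_lit 362)) (XT.lf (nat_lit 0) (nat_lit 6211529518) (nat_lit 608) (nat_lit 2240177548) (nat_lit 76) (nat_lit 652177865) (nat_lit 255) (nat_lit 5) (nat_lit 263) (nat_lit 5) (nat_lit 256) (nat_lit 5) (nat_lit 446) (nat_lit 393) (nat_lit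 361))))) (XT.nd (nat_lit 234) (nat_lit 1976) (nat_lit 0) (XT.nd (nat_lit 78) (nat_lit 1596) (nat_lit 0) (XT.lf (nat_lit 0) (nat_lit 1958110619) (nat_lit 608) (nat_lit 1403614900) (nat_lit 76) (nat_lit 5870695159) (nat_lit 247) (nat_lit 5) (nat_lit 255) (nat_lit 5) (nat_lit 248) (nat_lit 5) (nat_lit 447) (nat_lit 393) (nat_lit 360)) (XT.nd (nat_lit 78) (nat_lit 1064) (nat_lit 0) (XT.lf (nat_lit 0) (nat_lit 6907497924) (nat_lit 608) (nat_lit 543728745) (nat_lit 76) (nat_lit 1913353582) (nat_lit 240) (nat_lit 5) (nat_lit 248) (nat_lit 5) (nat_lit 241) (nat_lit 5) (nat_lit 448) (nat_lit 393) (nat_lit 359)) (XT.lf (nat_lit 0) (nat_lit 336654287) (nat_lit 532) (nat_lit 2142278992) (nat_lit 608) (nat_lit 7021307678) (nat_lit 226) (nat_lit 5) (nat_lit 233) (nat_lit 5) (nat_lit 234) (nat_lit 5) (nat_lit 449) (nat_lit 393) (nat_lit 358)))) (XT.nd (nat_lit 156) (nat_lit 988) (nat_lit 0) (XT.nd (nat_lit 78) (nat_lit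 532) (nat_lit 0) (XT.lf (nat_lit 0) (nat_lit 1240794677) (nat_lit 456) (nat_lit 6299118016) (nat_lit 532) (nat_lit 2099532525) (nat_lit 220) (nat_lit 5) (nat_lit 226) (nat_lit 5) (nat_lit 227) (nat_lit 5) (nat_lit 450) (nat_lit 393) (nat_lit 357)) (XT.lf (nat_lit 0) (nat_lit 2165850541) (nat_lit 456) (nat_lit 766265717) (nat_lit 532) (nat_lit 6850303959) (nat_lit 213) (nat_lit 5) (nat_lit 219) (nat_lit 5) (nat_lit 220) (nat_lit 5) (nat_lit 451) (nat_lit 393) (nat_lit 356))) (XT.nd (nat_lit 78) (nat_lit 532) (nat_lit 0) (XT.lf (nat_lit 0) (nat_lit 3098808902) (nat_lit 456) (nat_lit 5008781167) (nat_lit 532) (nat_lit 1821392414) (nat_lit 207) (nat_lit 5) (nat_lit 213) (nat_lit 5) (nat_lit 214) (nat_lit 5) (nat_lit 452) (nat_lit 393) (nat_lit 355)) (XT.lf (nat_lit 0) (nat_lit 3315600211) (nat_lit 532) (nat_lit 6025638300) (nat_lit 76) (nat_lit 738245220) (nat_lit 200) (nat_lit 5) (nat_lit 207) (nat_lit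 5) (nat_lit 201) (nat_lit 5) (nat_lit 453) (nat_lit 393) (nat_lit 354)))))) (XT.nd (nat_lit 546) (nat_lit 2964) (nat_lit 0) (XT.nd (nat_lit 234) (nat_lit 1672) (nat_lit 0) (XT.nd (nat_lit 78) (nat_lit 912) (nat_lit 0) (XT.lf (nat_lit 0) (nat_lit 5016590403) (nat_lit 380) (nat_lit 3592587958) (nat_lit 456) (nat_lit 1624539746) (nat_lit 195) (nat_lit 5) (nat_lit 200) (nat_lit 5) (nat_lit 201) (nat_lit 5) (nat_lit 454) (nat_lit 393) (nat_lit 353)) (XT.nd (nat_lit 78) (nat_lit 380) (nat_lit 0) (XT.lf (nat_lit 0) (nat_lit 3632056734) (nat_lit 532) (nat_lit 4398786759) (nat_lit 76) (nat_lit 2361038900) (nat_lit 188) (nat_lit 5) (nat_lit 195) (nat_lit 5) (nat_lit 189) (nat_lit 5) (nat_lit 455) (nat_lit 393) (nat_lit 352)) (XT.lf (nat_lit 0) (nat_lit 6987559070) (nat_lit 380) (nat_lit 2058749970) (nat_lit 456) (nat_lit 1507830278) (nat_lit 183) (nat_lit 5) (nat_lit 188) (nat_lit 5) (nat_lit 189) (nat_lit 5)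 (nat_lit 456) (nat_lit 393) (nat_lit 351)))) (XT.nd (nat_lit 156) (nat_lit 836) (nat_lit 0) (XT.nd (nat_lit 78) (nat_lit 380) (nat_lit 0) (XT.lf (nat_lit 0) (nat_lit 3877561064) (nat_lit 456) (nat_lit 2738171830) (nat_lit 76) (nat_lit 4104487151) (nat_lit 177) (nat_lit 5) (nat_lit 183) (nat_lit 5) (nat_lit 178) (nat_lit 5) (nat_lit 457) (nat_lit 393) (nat_lit 350)) (XT.lf (nat_lit 0) (nat_lit 9004973988) (nat_lit 380) (nat_lit 415044145) (nat_lit 456) (nat_lit 1470748758) (nat_lit 172) (nat_lit 5) (nat_lit 177) (nat_lit 5) (nat_lit 178) (nat_lit 5) (nat_lit 458) (nat_lit 393) (nat_lit 349))) (XT.nd (nat_lit 78) (nat_lit 380) (nat_lit 0) (XT.lf (nat_lit 0) (nat_lit 4052553996) (nat_lit 456) (nat_lit 1051160002) (nat_lit 76) (nat_lit 5961321060) (nat_lit 166) (nat_lit 5) (nat_lit 172) (nat_lit 5) (nat_lit 167) (nat_lit 5) (nat_lit 459) (nat_lit 393) (nat_lit 348)) (XT.lf (nat_lit 0) (nat_lit 9739382416)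 (nat_lit 456) (nat_lit 190947136) (nat_lit 76) (nat_lit 1313653726) (nat_lit 161) (nat_lit 5) (nat_lit 167) (nat_lit 5) (nat_lit 162) (nat_lit 5) (nat_lit 460) (nat_lit 393) (nat_lit 347))))) (XT.nd (nat_lit 234) (nat_lit 1444) (nat_lit 0) (XT.nd (nat_lit 78) (nat_lit 760) (nat_lit 0) (XT.lf (nat_lit 0) (nat_lit 663261578) (nat_lit 304) (nat_lit 3497902090) (nat_lit 380) (nat_lit 7265651089) (nat_lit 151) (nat_lit 5) (nat_lit 155) (nat_lit 5) (nat_lit 156) (nat_lit 5) (nat_lit 461) (nat_lit 393) (nat_lit 346)) (XT.nd (nat_lit 78) (nat_lit 380) (nat_lit 0) (XT.lf (nat_lit 0) (nat_lit 1535520750) (nat_lit 380) (nat_lit 8473343225) (nat_lit 456) (nat_lit 1605422616) (nat_lit 146) (nat_lit 5) (nat_lit 151) (nat_lit 5) (nat_lit 152) (nat_lit 5) (nat_lit 462) (nat_lit 393) (nat_lit 345)) (XT.lf (nat_lit 0) (nat_lit 2402409428) (nat_lit 304) (nat_lit 1802847939) (nat_lit 380) (nat_lit 7600857904) (nat_lit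 141) (nat_lit 5) (nat_lit 145) (nat_lit 5) (nat_lit 146) (nat_lit 5) (nat_lit 463) (nat_lit 393) (nat_lit 344)))) (XT.nd (nat_lit 156) (nat_lit 684) (nat_lit 0) (XT.nd (nat_lit 78) (nat_lit 380) (nat_lit 0) (XT.lf (nat_lit 0) (nat_lit 3270465936) (nat_lit 380) (nat_lit 6945774268) (nat_lit 456) (nat_lit 1786292720) (nat_lit 136) (nat_lit 5) (nat_lit 141) (nat_lit 5) (nat_lit 142) (nat_lit 5) (nat_lit 464) (nat_lit 393) (nat_lit 343)) (XT.lf (nat_lit 0) (nat_lit 4143600103) (nat_lit 304) (nat_lit 32797705) (nat_lit 380) (nat_lit 8027325529) (nat_lit 131) (nat_lit 5) (nat_lit 135) (nat_lit 5) (nat_lit 136) (nat_lit 5) (nat_lit 465) (nat_lit 393) (nat_lit 342))) (XT.nd (nat_lit 78) (nat_lit 380) (nat_lit 0) (XT.lf (nat_lit 0) (nat_lit 5002359043) (nat_lit 304) (nat_lit 5356334001) (nat_lit 380) (nat_lit 2050722476) (nat_lit 127) (nat_lit 5) (nat_lit 131) (nat_lit 5) (nat_lit 132) (nat_lit 5) (nat_lit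 466) (nat_lit 393) (nat_lit 341)) (XT.lf (nat_lit 0) (nat_lit 4084100395) (nat_lit 380) (nat_lit 6754541887) (nat_lit 76) (nat_lit 1781449834) (nat_lit 122) (nat_lit 5) (nat_lit 127) (nat_lit 5) (nat_lit 123) (nat_lit 5) (nat_lit 467) (nat_lit 393) (nat_lit 340))))))) (XT.nd (nat_lit 1092) (nat_lit 1292) (nat_lit 0) (XT.nd (nat_lit 546) (nat_lit 2128) (nat_lit 0) (XT.nd (nat_lit 234) (nat_lit 1216) (nat_lit 0) (XT.nd (nat_lit 78) (nat_lit 608) (nat_lit 0) (XT.lf (nat_lit 0) (nat_lit 6721536409) (nat_lit 304) (nat_lit 3712441434) (nat_lit 380) (nat_lit 2401664541) (nat_lit 118) (nat_lit 5) (nat_lit 122) (nat_lit 5) (nat_lit 123) (nat_lit 5) (nat_lit 468) (nat_lit 393) (nat_lit 339)) (XT.nd (nat_lit 78) (nat_lit 304) (nat_lit 0) (XT.lf (nat_lit 0) (nat_lit 3914332685) (nat_lit 304) (nat_lit 5486632253) (nat_lit 76) (nat_lit 3655207269) (nat_lit 114) (nat_lit 5) (nat_lit 118) (nat_lit 5) (nat_lit 115)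 (nat_lit 5) (nat_lit 469) (nat_lit 393) (nat_lit 338)) (XT.lf (nat_lit 0) (nat_lit 8417547256) (nat_lit 304) (nat_lit 2021585037) (nat_lit 380) (nat_lit 2842830857) (nat_lit 110) (nat_lit 5) (nat_lit 114) (nat_lit 5) (nat_lit 115) (nat_lit 5) (nat_lit 470) (nat_lit 393) (nat_lit 337)))) (XT.nd (nat_lit 156) (nat_lit 608) (nat_lit 0) (XT.nd (nat_lit 78) (nat_lit 304) (nat_lit 0) (XT.lf (nat_lit 0) (nat_lit 3663161717) (nat_lit 304) (nat_lit 4267806183) (nat_lit 76) (nat_lit 5581771850) (nat_lit 106) (nat_lit 5) (nat_lit 110) (nat_lit 5) (nat_lit 107) (nat_lit 5) (nat_lit 471) (nat_lit 393) (nat_lit 336)) (XT.lf (nat_lit 0) (nat_lit 10079029098) (nat_lit 304) (nat_lit 291405974) (nat_lit 380) (nat_lit 3378735899) (nat_lit 102) (nat_lit 5) (nat_lit 106) (nat_lit 5) (nat_lit 107) (nat_lit 5) (nat_lit 472) (nat_lit 393) (nat_lit 335))) (XT.nd (nat_lit 78) (nat_lit 304) (nat_lit 0) (XT.lf (nat_lit 0) (nat_lit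 3326067714) (nat_lit 304) (nat_lit 3110707624) (nat_lit 76) (nat_lit 7553835897) (nat_lit 98) (nat_lit 5) (nat_lit 102) (nat_lit 5) (nat_lit 99) (nat_lit 5) (nat_lit 473) (nat_lit 393) (nat_lit 334)) (XT.lf (nat_lit 0) (nat_lit 10232903161) (nat_lit 380) (nat_lit 2554077610) (nat_lit 76) (nat_lit 1450932934) (nat_lit 94) (nat_lit 5) (nat_lit 99) (nat_lit 5) (nat_lit 95) (nat_lit 5) (nat_lit 474) (nat_lit 393) (nat_lit 333))))) (XT.nd (nat_lit 234) (nat_lit 1292) (nat_lit 0) (XT.nd (nat_lit 78) (nat_lit 532) (nat_lit 0) (XT.lf (nat_lit 0) (nat_lit 2897678136) (nat_lit 304) (nat_lit 2029142273) (nat_lit 76) (nat_lit 9563829539) (nat_lit 90) (nat_lit 5) (nat_lit 94) (nat_lit 5) (nat_lit 91) (nat_lit 5) (nat_lit 475) (nat_lit 393) (nat_lit 332)) (XT.nd (nat_lit 78) (nat_lit 304) (nat_lit 0) (XT.lf (nat_lit 0) (nat_lit 10013642038) (nat_lit 304) (nat_lit 1523210102) (nat_lit 76) (nat_lit 3212375925) (nat_lit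 87) (nat_lit 5) (nat_lit 91) (nat_lit 5) (nat_lit 88) (nat_lit 5) (nat_lit 476) (nat_lit 393) (nat_lit 331)) (XT.lf (nat_lit 0) (nat_lit 2371706844) (nat_lit 304) (nat_lit 1038232892) (nat_lit 76) (nat_lit 11603828644) (nat_lit 83) (nat_lit 5) (nat_lit 87) (nat_lit 5) (nat_lit 84) (nat_lit 5) (nat_lit 477) (nat_lit 393) (nat_lit 330)))) (XT.nd (nat_lit 156) (nat_lit 760) (nat_lit 0) (XT.nd (nat_lit 78) (nat_lit 304) (nat_lit 0) (XT.lf (nat_lit 0) (nat_lit 9704384910) (nat_lit 304) (nat_lit 591485490) (nat_lit 76) (nat_lit 4988219654) (nat_lit 80) (nat_lit 5) (nat_lit 84) (nat_lit 5) (nat_lit 81) (nat_lit 5) (nat_lit 478) (nat_lit 393) (nat_lit 329)) (XT.lf (nat_lit 0) (nat_lit 1740884782) (nat_lit 304) (nat_lit 154588824) (nat_lit 76) (nat_lit 13665457216) (nat_lit 76) (nat_lit 5) (nat_lit 80) (nat_lit 5) (nat_lit 77) (nat_lit 5) (nat_lit 479) (nat_lit 393) (nat_lit 328))) (XT.nd (nat_lit 78) (nat_lit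 304) (nat_lit 0) (XT.lf (nat_lit 0) (nat_lit 226651840) (nat_lit 228) (nat_lit 9072573695) (nat_lit 304) (nat_lit 6544236038) (nat_lit 70) (nat_lit 5) (nat_lit 73) (nat_lit 5) (nat_lit 74) (nat_lit 5) (nat_lit 480) (nat_lit 393) (nat_lit 327)) (XT.lf (nat_lit 0) (nat_lit 611528921) (nat_lit 228) (nat_lit 389323008) (nat_lit 304) (nat_lit 15132224880) (nat_lit 66) (nat_lit 5) (nat_lit 69) (nat_lit 5) (nat_lit 70) (nat_lit 5) (nat_lit 481) (nat_lit 393) (nat_lit 326)))))) (XT.nd (nat_lit 57096) (nat_lit 0) (nat_lit 44688) (XT.nd (nat_lit 234) (nat_lit 684) (nat_lit 0) (XT.nd (nat_lit 78) (nat_lit 456) (nat_lit 0) (XT.lf (nat_lit 0) (nat_lit 915096100) (nat_lit 152) (nat_lit 7876130835) (nat_lit 228) (nat_lit 7637132616) (nat_lit 64) (nat_lit 5) (nat_lit 66) (nat_lit 5) (nat_lit 67) (nat_lit 5) (nat_lit 482) (nat_lit 393) (nat_lit 325)) (XT.nd (nat_lit 78) (nat_lit 152) (nat_lit 0) (XT.lf (nat_lit 0)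 (nat_lit 145317889) (nat_lit 304) (nat_lit 15506401484) (nat_lit 76) (nat_lit 1079499861) (nat_lit 60) (nat_lit 5) (nat_lit 64) (nat_lit 5) (nat_lit 61) (nat_lit 5) (nat_lit 483) (nat_lit 393) (nat_lit 324)) (XT.lf (nat_lit 0) (nat_lit 1444530360) (nat_lit 152) (nat_lit 6722185357) (nat_lit 228) (nat_lit 8873255721) (nat_lit 58) (nat_lit 5) (nat_lit 60) (nat_lit 5) (nat_lit 61) (nat_lit 5) (nat_lit 484) (nat_lit 393) (nat_lit 323)))) (XT.nd (nat_lit 156) (nat_lit 228) (nat_lit 0) (XT.nd (nat_lit 78) (nat_lit 228) (nat_lit 0) (XT.lf (nat_lit 0) (nat_lit 1659922418) (nat_lit 228) (nat_lit 14842970331) (nat_lit 304) (nat_lit 853611697) (nat_lit 55) (nat_lit 5) (nat_lit 58) (nat_lit 5) (nat_lit 59) (nat_lit 5) (nat_lit 485) (nat_lit 393) (nat_lit 322)) (XT.lf (nat_lit 0) (nat_lit 1791250145) (nat_lit 152) (nat_lit 5623361466) (nat_lit 228) (nat_lit 10264858411) (nat_lit 52) (nat_lit 5) (nat_lit 54) (nat_lit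 5) (nat_lit 55) (nat_lit 5) (nat_lit 486) (nat_lit 393) (nat_lit 321))) (XT.nd (nat_lit 56628) (nat_lit 0) (nat_lit 51148) (XT.lf (nat_lit 0) (nat_lit 1898272843) (nat_lit 228) (nat_lit 14108500791) (nat_lit 304) (nat_lit 2003489206) (nat_lit 49) (nat_lit 5) (nat_lit 52) (nat_lit 5) (nat_lit 53) (nat_lit 5) (nat_lit 487) (nat_lit 393) (nat_lit 320)) (XT.lf (nat_lit 0) (nat_lit 113679164) (nat_lit 836) (nat_lit 3070232075) (nat_lit 0) (nat_lit 113679164) (nat_lit 722) (nat_lit 5) (nat_lit 733) (nat_lit 4) (nat_lit 722) (nat_lit 4) (nat_lit 412) (nat_lit 394) (nat_lit 394))))) (XT.nd (nat_lit 234) (nat_lit 4560) (nat_lit 0) (XT.nd (nat_lit 78) (nat_lit 1064) (nat_lit 0) (XT.lf (nat_lit 0) (nat_lit 41304696) (nat_lit 836) (nat_lit 5058848461) (nat_lit 836) (nat_lit 1521829921) (nat_lit 711) (nat_lit 4) (nat_lit 722) (nat_lit 5) (nat_lit 722) (nat_lit 4) (nat_lit 413) (nat_lit 394) (nat_lit 393)) (XT.nd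 (nat_lit 78) (nat_lit 988) (nat_lit 0) (XT.lf (nat_lit 0) (nat_lit 3299593875) (nat_lit 912) (nat_lit 305837494) (nat_lit 76) (nat_lit 3046212916) (nat_lit 710) (nat_lit 5) (nat_lit 722) (nat_lit 5) (nat_lit 711) (nat_lit 4) (nat_lit 414) (nat_lit 394) (nat_lit 392)) (XT.lf (nat_lit 0) (nat_lit 1419932884) (nat_lit 988) (nat_lit 589822045) (nat_lit 76) (nat_lit 4674503137) (nat_lit 697) (nat_lit 5) (nat_lit 710) (nat_lit 5) (nat_lit 698) (nat_lit 5) (nat_lit 415) (nat_lit 394) (nat_lit 391)))) (XT.nd (nat_lit 156) (nat_lit 2432) (nat_lit 0) (XT.nd (nat_lit 78) (nat_lit 1140) (nat_lit 0) (XT.lf (nat_lit 0) (nat_lit 5904820979) (nat_lit 988) (nat_lit 266769618) (nat_lit 1064) (nat_lit 548190647) (nat_lit 684) (nat_lit 5) (nat_lit 697) (nat_lit 5) (nat_lit 698) (nat_lit 5) (nat_lit 416) (nat_lit 394) (nat_lit 390)) (XT.lf (nat_lit 0) (nat_lit 4149157733) (nat_lit 1140) (nat_lit 998318638) (nat_lit 76)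 (nat_lit 1610423694) (nat_lit 669) (nat_lit 5) (nat_lit 684) (nat_lit 5) (nat_lit 670) (nat_lit 5) (nat_lit 417) (nat_lit 394) (nat_lit 389))) (XT.nd (nat_lit 78) (nat_lit 1216) (nat_lit 0) (XT.lf (nat_lit 0) (nat_lit 2045977832) (nat_lit 1216) (nat_lit 1122740045) (nat_lit 76) (nat_lit 3630268103) (nat_lit 653) (nat_lit 5) (nat_lit 669) (nat_lit 5) (nat_lit 654) (nat_lit 5) (nat_lit 418) (nat_lit 394) (nat_lit 388)) (XT.lf (nat_lit 0) (nat_lit 5655626740) (nat_lit 1216) (nat_lit 1043750205) (nat_lit 1292) (nat_lit 143706468) (nat_lit 637) (nat_lit 5) (nat_lit 653) (nat_lit 5) (nat_lit 654) (nat_lit 5) (nat_lit 419) (nat_lit 394) (nat_lit 387))))))))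
noncomputable def xc27 : XT := (XT.nd (nat_lit 2106) (nat_lit 12236) (nat_lit 0) (XT.nd (nat_lit 1014) (nat_lit 10488) (nat_lit 0) (XT.nd (nat_lit 468) (nat_lit 9348) (nat_lit 0) (XT.nd (nat_lit 234) (nat_lit 4940) (nat_lit 0) (XT.nd (nat_lit 78) (nat_lit 2888) (nat_lit 0) (XT.lf (nat_lit 0) (nat_lit 4449451456) (nat_lit 1368) (nat_lit 1213601134) (nat_lit 76) (nat_lit 1226746960) (nat_lit 619) (nat_lit 5) (nat_lit 637) (nat_lit 5) (nat_lit 620) (nat_lit 5) (nat_lit 420) (nat_lit 394) (nat_lit 386)) (XT.nd (nat_lit 78) (nat_lit 1444) (nat_lit 0) (XT.lf (nat_lit 0) (nat_lit 2120019108) (nat_lit 1444) (nat_lit 1187306599) (nat_lit 76) (nat_lit 3632116659) (nat_lit 600) (nat_lit 5) (nat_lit 619) (nat_lit 5) (nat_lit 601) (nat_lit 5) (nat_lit 421) (nat_lit 394) (nat_lit 385)) (XT.lf (nat_lit 0) (nat_lit 5888526113) (nat_lit 1444) (nat_lit 801576597) (nat_lit 1520) (nat_lit 302039738) (nat_lit 581) (nat_lit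 5) (nat_lit 600) (nat_lit 5) (nat_lit 601) (nat_lit 5) (nat_lit 422) (nat_lit 394) (nat_lit 384)))) (XT.nd (nat_lit 78) (nat_lit 3344) (nat_lit 0) (XT.lf (nat_lit 0) (nat_lit 4215204989) (nat_lit 1596) (nat_lit 987047332) (nat_lit 76) (nat_lit 1845189425) (nat_lit 560) (nat_lit 5) (nat_lit 581) (nat_lit 5) (nat_lit 561) (nat_lit 5) (nat_lit 423) (nat_lit 394) (nat_lit 383)) (XT.nd (nat_lit 78) (nat_lit 1672) (nat_lit 0) (XT.lf (nat_lit 0) (nat_lit 1654730906) (nat_lit 1672) (nat_lit 817458584) (nat_lit 76) (nat_lit 4633586744) (nat_lit 538) (nat_lit 5) (nat_lit 560) (nat_lit 5) (nat_lit 539) (nat_lit 5) (nat_lit 424) (nat_lit 394) (nat_lit 382)) (XT.lf (nat_lit 0) (nat_lit 6157432840) (nat_lit 1748) (nat_lit 598615857) (nat_lit 76) (nat_lit 411055929) (nat_lit 516) (nat_lit 5) (nat_lit 539) (nat_lit 5) (nat_lit 517) (nat_lit 5) (nat_lit 425) (nat_lit 394) (nat_lit 381))))) (XT.nd (nat_lit 234) (nat_lit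 3648) (nat_lit 0) (XT.nd (nat_lit 78) (nat_lit 3876) (nat_lit 0) (XT.lf (nat_lit 0) (nat_lit 3455086635) (nat_lit 1824) (nat_lit 349519534) (nat_lit 76) (nat_lit 3426475689) (nat_lit 492) (nat_lit 5) (nat_lit 516) (nat_lit 5) (nat_lit 493) (nat_lit 5) (nat_lit 426) (nat_lit 394) (nat_lit 380)) (XT.nd (nat_lit 78) (nat_lit 1976) (nat_lit 0) (XT.lf (nat_lit 0) (nat_lit 656766523) (nat_lit 1900) (nat_lit 42757364) (nat_lit 76) (nat_lit 6598768161) (nat_lit 467) (nat_lit 5) (nat_lit 492) (nat_lit 5) (nat_lit 468) (nat_lit 5) (nat_lit 427) (nat_lit 394) (nat_lit 379)) (XT.lf (nat_lit 0) (nat_lit 294527852) (nat_lit 912) (nat_lit 4822423175) (nat_lit 988) (nat_lit 2251162640) (nat_lit 441) (nat_lit 5) (nat_lit 453) (nat_lit 5) (nat_lit 454) (nat_lit 5) (nat_lit 428) (nat_lit 394) (nat_lit 378)))) (XT.nd (nat_lit 156) (nat_lit 1824) (nat_lit 0) (XT.nd (nat_lit 78) (nat_lit 836) (nat_lit 0) (XT.lf (nat_lit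 0) (nat_lit 681084111) (nat_lit 912) (nat_lit 1495285443) (nat_lit 988) (nat_lit 5264669348) (nat_lit 428) (nat_lit 5) (nat_lit 440) (nat_lit 5) (nat_lit 441) (nat_lit 5) (nat_lit 429) (nat_lit 394) (nat_lit 377)) (XT.lf (nat_lit 0) (nat_lit 1107008200) (nat_lit 836) (nat_lit 5545813113) (nat_lit 912) (nat_lit 864107852) (nat_lit 417) (nat_lit 5) (nat_lit 428) (nat_lit 5) (nat_lit 429) (nat_lit 5) (nat_lit 430) (nat_lit 394) (nat_lit 376))) (XT.nd (nat_lit 78) (nat_lit 912) (nat_lit 0) (XT.lf (nat_lit 0) (nat_lit 1565627768) (nat_lit 836) (nat_lit 2001445681) (nat_lit 912) (nat_lit 4028620042) (nat_lit 405) (nat_lit 5) (nat_lit 416) (nat_lit 5) (nat_lit 417) (nat_lit 5) (nat_lit 431) (nat_lit 394) (nat_lit 375)) (XT.lf (nat_lit 0) (nat_lit 387596596) (nat_lit 912) (nat_lit 5606896953) (nat_lit 76) (nat_lit 1683149925) (nat_lit 393) (nat_lit 5) (nat_lit 405) (nat_lit 5) (nat_lit 394) (nat_lit 5) (nat_lit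 432) (nat_lit 394) (nat_lit 374)))))) (XT.nd (nat_lit 546) (nat_lit 5092) (nat_lit 0) (XT.nd (nat_lit 234) (nat_lit 2964) (nat_lit 0) (XT.nd (nat_lit 78) (nat_lit 1596) (nat_lit 0) (XT.lf (nat_lit 0) (nat_lit 2600659318) (nat_lit 836) (nat_lit 2237469060) (nat_lit 912) (nat_lit 2924267178) (nat_lit 382) (nat_lit 5) (nat_lit 393) (nat_lit 5) (nat_lit 394) (nat_lit 5) (nat_lit 433) (nat_lit 394) (nat_lit 373)) (XT.nd (nat_lit 78) (nat_lit 760) (nat_lit 0) (XT.lf (nat_lit 0) (nat_lit 1508376061) (nat_lit 836) (nat_lit 4676131964) (nat_lit 76) (nat_lit 1665854775) (nat_lit 371) (nat_lit 5) (nat_lit 382) (nat_lit 5) (nat_lit 372) (nat_lit 5) (nat_lit 434) (nat_lit 394) (nat_lit 372)) (XT.lf (nat_lit 0) (nat_lit 3777237699) (nat_lit 760) (nat_lit 2220965846) (nat_lit 836) (nat_lit 1943107100) (nat_lit 361) (nat_lit 5) (nat_lit 371) (nat_lit 5) (nat_lit 372) (nat_lit 5) (nat_lit 435) (nat_lit 394) (nat_lit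 371)))) (XT.nd (nat_lit 156) (nat_lit 1444) (nat_lit 0) (XT.nd (nat_lit 78) (nat_lit 760) (nat_lit 0) (XT.lf (nat_lit 0) (nat_lit 2517621741) (nat_lit 760) (nat_lit 3620785830) (nat_lit 76) (nat_lit 1896973424) (nat_lit 351) (nat_lit 5) (nat_lit 361) (nat_lit 5) (nat_lit 352) (nat_lit 5) (nat_lit 436) (nat_lit 394) (nat_lit 370)) (XT.lf (nat_lit 0) (nat_lit 5087050114) (nat_lit 760) (nat_lit 1968105938) (nat_lit 836) (nat_lit 1077479206) (nat_lit 341) (nat_lit 5) (nat_lit 351) (nat_lit 5) (nat_lit 352) (nat_lit 5) (nat_lit 437) (nat_lit 394) (nat_lit 369))) (XT.nd (nat_lit 78) (nat_lit 684) (nat_lit 0) (XT.lf (nat_lit 0) (nat_lit 3422597310) (nat_lit 760) (nat_lit 2449070410) (nat_lit 76) (nat_lit 2361242715) (nat_lit 331) (nat_lit 5) (nat_lit 341) (nat_lit 5) (nat_lit 332) (nat_lit 5) (nat_lit 438) (nat_lit 394) (nat_lit 368)) (XT.lf (nat_lit 0) (nat_lit 6522338094) (nat_lit 684) (nat_lit 1493737500)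 (nat_lit 760) (nat_lit 320520923) (nat_lit 322) (nat_lit 5) (nat_lit 331) (nat_lit 5) (nat_lit 332) (nat_lit 5) (nat_lit 439) (nat_lit 394) (nat_lit 367))))) (XT.nd (nat_lit 234) (nat_lit 2432) (nat_lit 0) (XT.nd (nat_lit 78) (nat_lit 1976) (nat_lit 0) (XT.lf (nat_lit 0) (nat_lit 4229813379) (nat_lit 684) (nat_lit 1168711468) (nat_lit 76) (nat_lit 3044669112) (nat_lit 313) (nat_lit 5) (nat_lit 322) (nat_lit 5) (nat_lit 314) (nat_lit 5) (nat_lit 440) (nat_lit 394) (nat_lit 366)) (XT.nd (nat_lit 78) (nat_lit 1216) (nat_lit 0) (XT.lf (nat_lit 0) (nat_lit 329493162) (nat_lit 760) (nat_lit 479793865) (nat_lit 76) (nat_lit 7744121566) (nat_lit 303) (nat_lit 5) (nat_lit 313) (nat_lit 5) (nat_lit 304) (nat_lit 5) (nat_lit 441) (nat_lit 394) (nat_lit 365)) (XT.lf (nat_lit 0) (nat_lit 215811332) (nat_lit 608) (nat_lit 4730653731) (nat_lit 684) (nat_lit 3720011639) (nat_lit 287) (nat_lit 5) (nat_lit 295) (nat_lit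 5) (nat_lit 296) (nat_lit 5) (nat_lit 442) (nat_lit 394) (nat_lit 364)))) (XT.nd (nat_lit 156) (nat_lit 1140) (nat_lit 0) (XT.nd (nat_lit 78) (nat_lit 608) (nat_lit 0) (XT.lf (nat_lit 0) (nat_lit 886160932) (nat_lit 684) (nat_lit 7819738884) (nat_lit 76) (nat_lit 77338510) (nat_lit 278) (nat_lit 5) (nat_lit 287) (nat_lit 5) (nat_lit 279) (nat_lit 5) (nat_lit 443) (nat_lit 394) (nat_lit 363)) (XT.lf (nat_lit 0) (nat_lit 1711489789) (nat_lit 608) (nat_lit 3873079796) (nat_lit 684) (nat_lit 3318354364) (nat_lit 270) (nat_lit 5) (nat_lit 278) (nat_lit 5) (nat_lit 279) (nat_lit 5) (nat_lit 444) (nat_lit 394) (nat_lit 362))) (XT.nd (nat_lit 78) (nat_lit 532) (nat_lit 0) (XT.lf (nat_lit 0) (nat_lit 1361772798) (nat_lit 608) (nat_lit 6526665964) (nat_lit 76) (nat_lit 1137936932) (nat_lit 262) (nat_lit 5) (nat_lit 270) (nat_lit 5) (nat_lit 263) (nat_lit 5) (nat_lit 445) (nat_lit 394) (nat_lit 361)) (XT.lf (nat_lit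 0) (nat_lit 3296018241) (nat_lit 532) (nat_lit 2844825866) (nat_lit 608) (nat_lit 3012180120) (nat_lit 255) (nat_lit 5) (nat_lit 262) (nat_lit 5) (nat_lit 263) (nat_lit 5) (nat_lit 446) (nat_lit 394) (nat_lit 360))))))) (XT.nd (nat_lit 1092) (nat_lit 5092) (nat_lit 0) (XT.nd (nat_lit 546) (nat_lit 3420) (nat_lit 0) (XT.nd (nat_lit 234) (nat_lit 2052) (nat_lit 0) (XT.nd (nat_lit 78) (nat_lit 1064) (nat_lit 0) (XT.lf (nat_lit 0) (nat_lit 1751747905) (nat_lit 608) (nat_lit 5162134452) (nat_lit 76) (nat_lit 2369457430) (nat_lit 247) (nat_lit 5) (nat_lit 255) (nat_lit 5) (nat_lit 248) (nat_lit 5) (nat_lit 447) (nat_lit 394) (nat_lit 359)) (XT.nd (nat_lit 78) (nat_lit 532) (nat_lit 0) (XT.lf (nat_lit 0) (nat_lit 4962835440) (nat_lit 532) (nat_lit 1656223904) (nat_lit 608) (nat_lit 2798083537) (nat_lit 240) (nat_lit 5) (nat_lit 247) (nat_lit 5) (nat_lit 248) (nat_lit 5) (nat_lit 448) (nat_lit 394) (nat_lit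 358)) (XT.lf (nat_lit 0) (nat_lit 2059302488) (nat_lit 532) (nat_lit 3732984169) (nat_lit 76) (nat_lit 3762225152) (nat_lit 233) (nat_lit 5) (nat_lit 240) (nat_lit 5) (nat_lit 234) (nat_lit 5) (nat_lit 449) (nat_lit 394) (nat_lit 357)))) (XT.nd (nat_lit 156) (nat_lit 988) (nat_lit 0) (XT.nd (nat_lit 78) (nat_lit 532) (nat_lit 0) (XT.lf (nat_lit 0) (nat_lit 6705523562) (nat_lit 532) (nat_lit 316843976) (nat_lit 608) (nat_lit 2673308670) (nat_lit 226) (nat_lit 5) (nat_lit 233) (nat_lit 5) (nat_lit 234) (nat_lit 5) (nat_lit 450) (nat_lit 394) (nat_lit 356)) (XT.lf (nat_lit 0) (nat_lit 2287031992) (nat_lit 532) (nat_lit 2245978024) (nat_lit 76) (nat_lit 5307294124) (nat_lit 219) (nat_lit 5) (nat_lit 226) (nat_lit 5) (nat_lit 220) (nat_lit 5) (nat_lit 451) (nat_lit 394) (nat_lit 355))) (XT.nd (nat_lit 78) (nat_lit 532) (nat_lit 0) (XT.lf (nat_lit 0) (nat_lit 7360874943) (nat_lit 532) (nat_lit 1478874314)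 (nat_lit 76) (nat_lit 1149151477) (nat_lit 213) (nat_lit 5) (nat_lit 220) (nat_lit 5) (nat_lit 214) (nat_lit 5) (nat_lit 452) (nat_lit 394) (nat_lit 354)) (XT.lf (nat_lit 0) (nat_lit 2436920468) (nat_lit 532) (nat_lit 707873393) (nat_lit 76) (nat_lit 6996367004) (nat_lit 206) (nat_lit 5) (nat_lit 213) (nat_lit 5) (nat_lit 207) (nat_lit 5) (nat_lit 453) (nat_lit 394) (nat_lit 353))))) (XT.nd (nat_lit 234) (nat_lit 1672) (nat_lit 0) (XT.nd (nat_lit 78) (nat_lit 912) (nat_lit 0) (XT.lf (nat_lit 0) (nat_lit 78387868) (nat_lit 380) (nat_lit 7554014542) (nat_lit 456) (nat_lit 2664956335) (nat_lit 195) (nat_lit 5) (nat_lit 200) (nat_lit 5) (nat_lit 201) (nat_lit 5) (nat_lit 454) (nat_lit 394) (nat_lit 352)) (XT.nd (nat_lit 78) (nat_lit 380) (nat_lit 0) (XT.lf (nat_lit 0) (nat_lit 886126231) (nat_lit 456) (nat_lit 1629972457) (nat_lit 532) (nat_lit 7941344683) (nat_lit 188) (nat_lit 5) (nat_lit 194) (nat_lit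 5) (nat_lit 195) (nat_lit 5) (nat_lit 455) (nat_lit 394) (nat_lit 351)) (XT.lf (nat_lit 0) (nat_lit 1695991379) (nat_lit 380) (nat_lit 6149687790) (nat_lit 456) (nat_lit 2775716022) (nat_lit 183) (nat_lit 5) (nat_lit 188) (nat_lit 5) (nat_lit 189) (nat_lit 5) (nat_lit 456) (nat_lit 394) (nat_lit 350)))) (XT.nd (nat_lit 156) (nat_lit 836) (nat_lit 0) (XT.nd (nat_lit 78) (nat_lit 380) (nat_lit 0) (XT.lf (nat_lit 0) (nat_lit 2524505294) (nat_lit 456) (nat_lit 8262363600) (nat_lit 76) (nat_lit 2809026) (nat_lit 177) (nat_lit 5) (nat_lit 183) (nat_lit 5) (nat_lit 178) (nat_lit 5) (nat_lit 457) (nat_lit 394) (nat_lit 349)) (XT.lf (nat_lit 0) (nat_lit 3347144008) (nat_lit 380) (nat_lit 4644493101) (nat_lit 456) (nat_lit 2970095512) (nat_lit 172) (nat_lit 5) (nat_lit 177) (nat_lit 5) (nat_lit 178) (nat_lit 5) (nat_lit 458) (nat_lit 394) (nat_lit 348))) (XT.nd (nat_lit 78) (nat_lit 380) (nat_lit 0) (XT.lf (nat_lit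 0) (nat_lit 2468847438) (nat_lit 456) (nat_lit 6950757923) (nat_lit 76) (nat_lit 1718671885) (nat_lit 166) (nat_lit 5) (nat_lit 172) (nat_lit 5) (nat_lit 167) (nat_lit 5) (nat_lit 459) (nat_lit 394) (nat_lit 347)) (XT.lf (nat_lit 0) (nat_lit 5024436057) (nat_lit 380) (nat_lit 3045898850) (nat_lit 456) (nat_lit 3248598625) (nat_lit 161) (nat_lit 5) (nat_lit 166) (nat_lit 5) (nat_lit 167) (nat_lit 5) (nat_lit 460) (nat_lit 394) (nat_lit 346)))))) (XT.nd (nat_lit 546) (nat_lit 2432) (nat_lit 0) (XT.nd (nat_lit 234) (nat_lit 1444) (nat_lit 0) (XT.nd (nat_lit 78) (nat_lit 760) (nat_lit 0) (XT.lf (nat_lit 0) (nat_lit 2337986275) (nat_lit 456) (nat_lit 5634049074) (nat_lit 76) (nat_lit 3531998362) (nat_lit 155) (nat_lit 5) (nat_lit 161) (nat_lit 5) (nat_lit 156) (nat_lit 5) (nat_lit 461) (nat_lit 394) (nat_lit 345)) (XT.nd (nat_lit 78) (nat_lit 456) (nat_lit 0) (XT.lf (nat_lit 0) (nat_lit 6720100376) (nat_lit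 304) (nat_lit 1361115919) (nat_lit 380) (nat_lit 3612379811) (nat_lit 151) (nat_lit 5) (nat_lit 155) (nat_lit 5) (nat_lit 156) (nat_lit 5) (nat_lit 462) (nat_lit 394) (nat_lit 344)) (XT.lf (nat_lit 0) (nat_lit 2130729686) (nat_lit 456) (nat_lit 4320806434) (nat_lit 76) (nat_lit 5436028213) (nat_lit 145) (nat_lit 5) (nat_lit 151) (nat_lit 5) (nat_lit 146) (nat_lit 5) (nat_lit 463) (nat_lit 394) (nat_lit 343)))) (XT.nd (nat_lit 156) (nat_lit 684) (nat_lit 0) (XT.nd (nat_lit 78) (nat_lit 456) (nat_lit 0) (XT.lf (nat_lit 0) (nat_lit 8025708014) (nat_lit 380) (nat_lit 3663050305) (nat_lit 76) (nat_lit 397544824) (nat_lit 141) (nat_lit 5) (nat_lit 146) (nat_lit 5) (nat_lit 142) (nat_lit 5) (nat_lit 464) (nat_lit 394) (nat_lit 342)) (XT.lf (nat_lit 0) (nat_lit 1845228531) (nat_lit 456) (nat_lit 3020132692) (nat_lit 76) (nat_lit 7424162566) (nat_lit 135) (nat_lit 5) (nat_lit 141) (nat_lit 5) (nat_lit 136)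 (nat_lit 5) (nat_lit 465) (nat_lit 394) (nat_lit 341))) (XT.nd (nat_lit 78) (nat_lit 380) (nat_lit 0) (XT.lf (nat_lit 0) (nat_lit 7908657015) (nat_lit 380) (nat_lit 2379289076) (nat_lit 76) (nat_lit 2209648199) (nat_lit 131) (nat_lit 5) (nat_lit 136) (nat_lit 5) (nat_lit 132) (nat_lit 5) (nat_lit 466) (nat_lit 394) (nat_lit 340)) (XT.lf (nat_lit 0) (nat_lit 1478950199) (nat_lit 380) (nat_lit 1741766312) (nat_lit 76) (nat_lit 9489889399) (nat_lit 126) (nat_lit 5) (nat_lit 131) (nat_lit 5) (nat_lit 127) (nat_lit 5) (nat_lit 467) (nat_lit 394) (nat_lit 339))))) (XT.nd (nat_lit 234) (nat_lit 1216) (nat_lit 0) (XT.nd (nat_lit 78) (nat_lit 912) (nat_lit 0) (XT.lf (nat_lit 0) (nat_lit 7718653618) (nat_lit 380) (nat_lit 1123459066) (nat_lit 76) (nat_lit 4086247884) (nat_lit 122) (nat_lit 5) (nat_lit 127) (nat_lit 5) (nat_lit 123) (nat_lit 5) (nat_lit 468) (nat_lit 394) (nat_lit 338)) (XT.nd (nat_lit 78) (nat_lit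 532) (nat_lit 0) (XT.lf (nat_lit 0) (nat_lit 1028646275) (nat_lit 380) (nat_lit 496191671) (nat_lit 76) (nat_lit 11626707384) (nat_lit 117) (nat_lit 5) (nat_lit 122) (nat_lit 5) (nat_lit 118) (nat_lit 5) (nat_lit 469) (nat_lit 394) (nat_lit 337)) (XT.lf (nat_lit 0) (nat_lit 94792216) (nat_lit 304) (nat_lit 7358230057) (nat_lit 380) (nat_lit 5926323313) (nat_lit 110) (nat_lit 5) (nat_lit 114) (nat_lit 5) (nat_lit 115) (nat_lit 5) (nat_lit 470) (nat_lit 394) (nat_lit 336)))) (XT.nd (nat_lit 156) (nat_lit 608) (nat_lit 0) (XT.nd (nat_lit 78) (nat_lit 304) (nat_lit 0) (XT.lf (nat_lit 0) (nat_lit 496379894) (nat_lit 304) (nat_lit 12899838307) (nat_lit 76) (nat_lit 216779785) (nat_lit 106) (nat_lit 5) (nat_lit 110) (nat_lit 5) (nat_lit 107) (nat_lit 5) (nat_lit 471) (nat_lit 394) (nat_lit 335)) (XT.lf (nat_lit 0) (nat_lit 1276658043) (nat_lit 304) (nat_lit 5837496429) (nat_lit 380) (nat_lit 6737065488) (nat_lit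 102) (nat_lit 5) (nat_lit 106) (nat_lit 5) (nat_lit 107) (nat_lit 5) (nat_lit 472) (nat_lit 394) (nat_lit 334))) (XT.nd (nat_lit 78) (nat_lit 380) (nat_lit 0) (XT.lf (nat_lit 0) (nat_lit 1860736306) (nat_lit 228) (nat_lit 12117688297) (nat_lit 304) (nat_lit 117206275) (nat_lit 99) (nat_lit 5) (nat_lit 102) (nat_lit 5) (nat_lit 103) (nat_lit 5) (nat_lit 473) (nat_lit 394) (nat_lit 333)) (XT.lf (nat_lit 0) (nat_lit 2394152397) (nat_lit 304) (nat_lit 4295562429) (nat_lit 380) (nat_lit 7655263491) (nat_lit 94) (nat_lit 5) (nat_lit 98) (nat_lit 5) (nat_lit 99) (nat_lit 5) (nat_lit 474) (nat_lit 394) (nat_lit 332))))))))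
noncomputable def xc28 : XT := (XT.nd (nat_lit 58500) (nat_lit 0) (nat_lit 13224) (XT.nd (nat_lit 57408) (nat_lit 0) (nat_lit 38608) (XT.nd (nat_lit 468) (nat_lit 1596) (nat_lit 0) (XT.nd (nat_lit 234) (nat_lit 836) (nat_lit 0) (XT.nd (nat_lit 78) (nat_lit 532) (nat_lit 0) (XT.lf (nat_lit 0) (nat_lit 2933244279) (nat_lit 228) (nat_lit 10829806800) (nat_lit 304) (nat_lit 837465023) (nat_lit 91) (nat_lit 5) (nat_lit 94) (nat_lit 5) (nat_lit 95) (nat_lit 5) (nat_lit 475) (nat_lit 394) (nat_lit 331)) (XT.nd (nat_lit 78) (nat_lit 228) (nat_lit 0) (XT.lf (nat_lit 0) (nat_lit 3432993686) (nat_lit 228) (nat_lit 2740893358) (nat_lit 304) (nat_lit 8687628492) (nat_lit 87) (nat_lit 5) (nat_lit 90) (nat_lit 5) (nat_lit 91) (nat_lit 5) (nat_lit 476) (nat_lit 394) (nat_lit 330)) (XT.lf (nat_lit 0) (nat_lit 3919066809) (nat_lit 228) (nat_lit 9544965464) (nat_lit 304) (nat_lit 1664606665) (nat_lit 84) (nat_lit 5)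 (nat_lit 87) (nat_lit 5) (nat_lit 88) (nat_lit 5) (nat_lit 477) (nat_lit 394) (nat_lit 329)))) (XT.nd (nat_lit 78) (nat_lit 532) (nat_lit 0) (XT.lf (nat_lit 0) (nat_lit 4377513523) (nat_lit 228) (nat_lit 1182404464) (nat_lit 304) (nat_lit 9841859092) (nat_lit 80) (nat_lit 5) (nat_lit 83) (nat_lit 5) (nat_lit 84) (nat_lit 5) (nat_lit 478) (nat_lit 394) (nat_lit 328)) (XT.nd (nat_lit 78) (nat_lit 304) (nat_lit 0) (XT.lf (nat_lit 0) (nat_lit 4801781653) (nat_lit 228) (nat_lit 8272744892) (nat_lit 304) (nat_lit 2606444695) (nat_lit 77) (nat_lit 5) (nat_lit 80) (nat_lit 5) (nat_lit 81) (nat_lit 5) (nat_lit 479) (nat_lit 394) (nat_lit 327)) (XT.lf (nat_lit 0) (nat_lit 4842449284) (nat_lit 304) (nat_lit 10758686077) (nat_lit 76) (nat_lit 365578266) (nat_lit 73) (nat_lit 5) (nat_lit 77) (nat_lit 5) (nat_lit 74) (nat_lit 5) (nat_lit 480) (nat_lit 394) (nat_lit 326))))) (XT.nd (nat_lit 234) (nat_lit 912) (nat_lit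 0) (XT.nd (nat_lit 78) (nat_lit 456) (nat_lit 0) (XT.lf (nat_lit 0) (nat_lit 5563308122) (nat_lit 228) (nat_lit 7023351873) (nat_lit 304) (nat_lit 3671879610) (nat_lit 70) (nat_lit 5) (nat_lit 73) (nat_lit 5) (nat_lit 74) (nat_lit 5) (nat_lit 481) (nat_lit 394) (nat_lit 325)) (XT.nd (nat_lit 78) (nat_lit 152) (nat_lit 0) (XT.lf (nat_lit 0) (nat_lit 4017793472) (nat_lit 304) (nat_lit 10657000355) (nat_lit 76) (nat_lit 1882483035) (nat_lit 66) (nat_lit 5) (nat_lit 70) (nat_lit 5) (nat_lit 67) (nat_lit 5) (nat_lit 482) (nat_lit 394) (nat_lit 324)) (XT.lf (nat_lit 0) (nat_lit 6183705553) (nat_lit 152) (nat_lit 5807733429) (nat_lit 228) (nat_lit 4870989489) (nat_lit 64) (nat_lit 5) (nat_lit 66) (nat_lit 5) (nat_lit 67) (nat_lit 5) (nat_lit 483) (nat_lit 394) (nat_lit 323)))) (XT.nd (nat_lit 156) (nat_lit 456) (nat_lit 0) (XT.nd (nat_lit 78) (nat_lit 152) (nat_lit 0) (XT.lf (nat_lit 0) (nat_lit 3068159192)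 (nat_lit 304) (nat_lit 10733526125) (nat_lit 76) (nat_lit 3373051018) (nat_lit 60) (nat_lit 5) (nat_lit 64) (nat_lit 5) (nat_lit 61) (nat_lit 5) (nat_lit 484) (nat_lit 394) (nat_lit 322)) (XT.lf (nat_lit 0) (nat_lit 6640952254) (nat_lit 152) (nat_lit 4637699631) (nat_lit 228) (nat_lit 6215131615) (nat_lit 58) (nat_lit 5) (nat_lit 60) (nat_lit 5) (nat_lit 61) (nat_lit 5) (nat_lit 485) (nat_lit 394) (nat_lit 321))) (XT.nd (nat_lit 78) (nat_lit 152) (nat_lit 0) (XT.lf (nat_lit 0) (nat_lit 1982134795) (nat_lit 304) (nat_lit 11012515362) (nat_lit 76) (nat_lit 4825621060) (nat_lit 54) (nat_lit 5) (nat_lit 58) (nat_lit 5) (nat_lit 55) (nat_lit 5) (nat_lit 486) (nat_lit 394) (nat_lit 320)) (XT.lf (nat_lit 0) (nat_lit 6910702742) (nat_lit 152) (nat_lit 3526056341) (nat_lit 228) (nat_lit 7717056142) (nat_lit 52) (nat_lit 5) (nat_lit 54) (nat_lit 5) (nat_lit 55) (nat_lit 5) (nat_lit 487) (nat_lit 394) (nat_lit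 319)))))) (XT.nd (nat_lit 546) (nat_lit 9348) (nat_lit 0) (XT.nd (nat_lit 234) (nat_lit 2964) (nat_lit 0) (XT.nd (nat_lit 78) (nat_lit 1520) (nat_lit 0) (XT.lf (nat_lit 0) (nat_lit 380129285) (nat_lit 684) (nat_lit 2513921538) (nat_lit 0) (nat_lit 380129285) (nat_lit 742) (nat_lit 5) (nat_lit 751) (nat_lit 4) (nat_lit 742) (nat_lit 4) (nat_lit 410) (nat_lit 395) (nat_lit 395)) (XT.nd (nat_lit 78) (nat_lit 836) (nat_lit 0) (XT.lf (nat_lit 0) (nat_lit 916232942) (nat_lit 684) (nat_lit 4685367244) (nat_lit 684) (nat_lit 969375565) (nat_lit 733) (nat_lit 4) (nat_lit 742) (nat_lit 5) (nat_lit 742) (nat_lit 4) (nat_lit 411) (nat_lit 395) (nat_lit 394)) (XT.lf (nat_lit 0) (nat_lit 371217956) (nat_lit 760) (nat_lit 3438172413) (nat_lit 836) (nat_lit 2787020918) (nat_lit 722) (nat_lit 5) (nat_lit 732) (nat_lit 5) (nat_lit 733) (nat_lit 4) (nat_lit 412) (nat_lit 395) (nat_lit 393)))) (XT.nd (nat_lit 156) (nat_lit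 2052) (nat_lit 0) (XT.nd (nat_lit 78) (nat_lit 836) (nat_lit 0) (XT.lf (nat_lit 0) (nat_lit 1941172800) (nat_lit 836) (nat_lit 108394532) (nat_lit 76) (nat_lit 4575202893) (nat_lit 721) (nat_lit 5) (nat_lit 732) (nat_lit 5) (nat_lit 722) (nat_lit 5) (nat_lit 413) (nat_lit 395) (nat_lit 392)) (XT.lf (nat_lit 0) (nat_lit 6135672842) (nat_lit 836) (nat_lit 516745191) (nat_lit 912) (nat_lit 3628067) (nat_lit 710) (nat_lit 5) (nat_lit 721) (nat_lit 5) (nat_lit 722) (nat_lit 5) (nat_lit 414) (nat_lit 395) (nat_lit 391))) (XT.nd (nat_lit 78) (nat_lit 1064) (nat_lit 0) (XT.lf (nat_lit 0) (nat_lit 4641522550) (nat_lit 988) (nat_lit 890747074) (nat_lit 76) (nat_lit 1157621315) (nat_lit 697) (nat_lit 5) (nat_lit 710) (nat_lit 5) (nat_lit 698) (nat_lit 5) (nat_lit 415) (nat_lit 395) (nat_lit 390)) (XT.lf (nat_lit 0) (nat_lit 2554019200) (nat_lit 1064) (nat_lit 1203639086) (nat_lit 76) (nat_lit 2968991737) (nat_lit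 683) (nat_lit 5) (nat_lit 697) (nat_lit 5) (nat_lit 684) (nat_lit 5) (nat_lit 416) (nat_lit 395) (nat_lit 389))))) (XT.nd (nat_lit 234) (nat_lit 5776) (nat_lit 0) (XT.nd (nat_lit 78) (nat_lit 2432) (nat_lit 0) (XT.lf (nat_lit 0) (nat_lit 384508054) (nat_lit 1140) (nat_lit 1455846986) (nat_lit 76) (nat_lit 4926060839) (nat_lit 668) (nat_lit 5) (nat_lit 683) (nat_lit 5) (nat_lit 669) (nat_lit 5) (nat_lit 417) (nat_lit 395) (nat_lit 388)) (XT.nd (nat_lit 78) (nat_lit 1292) (nat_lit 0) (XT.lf (nat_lit 0) (nat_lit 4916512191) (nat_lit 1216) (nat_lit 1661273281) (nat_lit 76) (nat_lit 231154214) (nat_lit 653) (nat_lit 5) (nat_lit 669) (nat_lit 5) (nat_lit 654) (nat_lit 5) (nat_lit 418) (nat_lit 395) (nat_lit 387)) (XT.lf (nat_lit 0) (nat_lit 2605420081) (nat_lit 1292) (nat_lit 1822137913) (nat_lit 76) (nat_lit 2426649055) (nat_lit 636) (nat_lit 5) (nat_lit 653) (nat_lit 5) (nat_lit 637) (nat_lit 5) (nat_lit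 419) (nat_lit 395) (nat_lit 386)))) (XT.nd (nat_lit 156) (nat_lit 3040) (nat_lit 0) (XT.nd (nat_lit 78) (nat_lit 1368) (nat_lit 0) (XT.lf (nat_lit 0) (nat_lit 208560001) (nat_lit 1368) (nat_lit 1923924355) (nat_lit 76) (nat_lit 4770054735) (nat_lit 618) (nat_lit 5) (nat_lit 636) (nat_lit 5) (nat_lit 619) (nat_lit 5) (nat_lit 420) (nat_lit 395) (nat_lit 385)) (XT.lf (nat_lit 0) (nat_lit 4649091542) (nat_lit 1444) (nat_lit 1983631915) (nat_lit 76) (nat_lit 320903976) (nat_lit 600) (nat_lit 5) (nat_lit 619) (nat_lit 5) (nat_lit 601) (nat_lit 5) (nat_lit 421) (nat_lit 395) (nat_lit 384))) (XT.nd (nat_lit 78) (nat_lit 1520) (nat_lit 0) (XT.lf (nat_lit 0) (nat_lit 2110441385) (nat_lit 1520) (nat_lit 2000816866) (nat_lit 76) (nat_lit 2896255138) (nat_lit 580) (nat_lit 5) (nat_lit 600) (nat_lit 5) (nat_lit 581) (nat_lit 5) (nat_lit 422) (nat_lit 395) (nat_lit 383)) (XT.lf (nat_lit 0) (nat_lit 5100996130) (nat_lit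 1520) (nat_lit 1438152966) (nat_lit 1596) (nat_lit 525321256) (nat_lit 560) (nat_lit 5) (nat_lit 580) (nat_lit 5) (nat_lit 581) (nat_lit 5) (nat_lit 423) (nat_lit 395) (nat_lit 382))))))) (XT.nd (nat_lit 1014) (nat_lit 9500) (nat_lit 0) (XT.nd (nat_lit 468) (nat_lit 6764) (nat_lit 0) (XT.nd (nat_lit 234) (nat_lit 3952) (nat_lit 0) (XT.nd (nat_lit 78) (nat_lit 3496) (nat_lit 0) (XT.lf (nat_lit 0) (nat_lit 3850209040) (nat_lit 1672) (nat_lit 1891527465) (nat_lit 76) (nat_lit 1382397521) (nat_lit 538) (nat_lit 5) (nat_lit 560) (nat_lit 5) (nat_lit 539) (nat_lit 5) (nat_lit 424) (nat_lit 395) (nat_lit 381)) (XT.nd (nat_lit 78) (nat_lit 1748) (nat_lit 0) (XT.lf (nat_lit 0) (nat_lit 1078004977) (nat_lit 1748) (nat_lit 1772034076) (nat_lit 76) (nat_lit 4336759280) (nat_lit 515) (nat_lit 5) (nat_lit 538) (nat_lit 5) (nat_lit 516) (nat_lit 5) (nat_lit 425) (nat_lit 395) (nat_lit 380)) (XT.lf (nat_lit 0) (nat_lit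 5440440587) (nat_lit 1824) (nat_lit 1608417910) (nat_lit 76) (nat_lit 203572299) (nat_lit 492) (nat_lit 5) (nat_lit 516) (nat_lit 5) (nat_lit 493) (nat_lit 5) (nat_lit 426) (nat_lit 395) (nat_lit 379)))) (XT.nd (nat_lit 78) (nat_lit 2052) (nat_lit 0) (XT.lf (nat_lit 0) (nat_lit 2524892786) (nat_lit 1900) (nat_lit 1414454218) (nat_lit 76) (nat_lit 3381445854) (nat_lit 467) (nat_lit 5) (nat_lit 492) (nat_lit 5) (nat_lit 468) (nat_lit 5) (nat_lit 427) (nat_lit 395) (nat_lit 378)) (XT.nd (nat_lit 78) (nat_lit 988) (nat_lit 0) (XT.lf (nat_lit 0) (nat_lit 6225107618) (nat_lit 1064) (nat_lit 671918716) (nat_lit 1140) (nat_lit 495353530) (nat_lit 453) (nat_lit 5) (nat_lit 467) (nat_lit 5) (nat_lit 468) (nat_lit 5) (nat_lit 428) (nat_lit 395) (nat_lit 377)) (XT.lf (nat_lit 0) (nat_lit 3833221224) (nat_lit 988) (nat_lit 898416418) (nat_lit 76) (nat_lit 2734962208) (nat_lit 440) (nat_lit 5) (nat_lit 453) (nat_lit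 5) (nat_lit 441) (nat_lit 5) (nat_lit 429) (nat_lit 395) (nat_lit 376))))) (XT.nd (nat_lit 234) (nat_lit 3192) (nat_lit 0) (XT.nd (nat_lit 78) (nat_lit 2584) (nat_lit 0) (XT.lf (nat_lit 0) (nat_lit 672462217) (nat_lit 988) (nat_lit 578144478) (nat_lit 76) (nat_lit 6293480931) (nat_lit 427) (nat_lit 5) (nat_lit 440) (nat_lit 5) (nat_lit 428) (nat_lit 5) (nat_lit 430) (nat_lit 395) (nat_lit 375)) (XT.nd (nat_lit 78) (nat_lit 1748) (nat_lit 0) (XT.lf (nat_lit 0) (nat_lit 5013015805) (nat_lit 912) (nat_lit 234192975) (nat_lit 76) (nat_lit 2377120700) (nat_lit 416) (nat_lit 5) (nat_lit 428) (nat_lit 5) (nat_lit 417) (nat_lit 5) (nat_lit 431) (nat_lit 395) (nat_lit 374)) (XT.lf (nat_lit 0) (nat_lit 154467934) (nat_lit 836) (nat_lit 1550423362) (nat_lit 912) (nat_lit 6002836249) (nat_lit 393) (nat_lit 5) (nat_lit 404) (nat_lit 5) (nat_lit 405) (nat_lit 5) (nat_lit 432) (nat_lit 395) (nat_lit 373)))) (XT.nd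 (nat_lit 156) (nat_lit 1520) (nat_lit 0) (XT.nd (nat_lit 78) (nat_lit 836) (nat_lit 0) (XT.lf (nat_lit 0) (nat_lit 576240188) (nat_lit 836) (nat_lit 5500899614) (nat_lit 912) (nat_lit 1716909039) (nat_lit 382) (nat_lit 5) (nat_lit 393) (nat_lit 5) (nat_lit 394) (nat_lit 5) (nat_lit 433) (nat_lit 395) (nat_lit 372)) (XT.lf (nat_lit 0) (nat_lit 1031958054) (nat_lit 760) (nat_lit 1588777875) (nat_lit 836) (nat_lit 5262710024) (nat_lit 371) (nat_lit 5) (nat_lit 381) (nat_lit 5) (nat_lit 382) (nat_lit 5) (nat_lit 434) (nat_lit 395) (nat_lit 371))) (XT.nd (nat_lit 78) (nat_lit 760) (nat_lit 0) (XT.lf (nat_lit 0) (nat_lit 1521290447) (nat_lit 760) (nat_lit 5511228693) (nat_lit 836) (nat_lit 943438824) (nat_lit 361) (nat_lit 5) (nat_lit 371) (nat_lit 5) (nat_lit 372) (nat_lit 5) (nat_lit 435) (nat_lit 395) (nat_lit 370)) (XT.lf (nat_lit 0) (nat_lit 2037879221) (nat_lit 684) (nat_lit 1386031614) (nat_lit 760)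 (nat_lit 4647596158) (nat_lit 351) (nat_lit 5) (nat_lit 360) (nat_lit 5) (nat_lit 361) (nat_lit 5) (nat_lit 436) (nat_lit 395) (nat_lit 369)))))) (XT.nd (nat_lit 546) (nat_lit 4560) (nat_lit 0) (XT.nd (nat_lit 234) (nat_lit 2660) (nat_lit 0) (XT.nd (nat_lit 78) (nat_lit 1520) (nat_lit 0) (XT.lf (nat_lit 0) (nat_lit 2589450070) (nat_lit 760) (nat_lit 5295580626) (nat_lit 836) (nat_lit 285261881) (nat_lit 341) (nat_lit 5) (nat_lit 351) (nat_lit 5) (nat_lit 352) (nat_lit 5) (nat_lit 437) (nat_lit 395) (nat_lit 368)) (XT.nd (nat_lit 78) (nat_lit 760) (nat_lit 0) (XT.lf (nat_lit 0) (nat_lit 3164033088) (nat_lit 684) (nat_lit 957312177) (nat_lit 760) (nat_lit 4150784086) (nat_lit 331) (nat_lit 5) (nat_lit 340) (nat_lit 5) (nat_lit 341) (nat_lit 5) (nat_lit 438) (nat_lit 395) (nat_lit 367)) (XT.lf (nat_lit 0) (nat_lit 260587208) (nat_lit 760) (nat_lit 4606156887) (nat_lit 76) (nat_lit 3510509558) (nat_lit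 321) (nat_lit 5) (nat_lit 331) (nat_lit 5) (nat_lit 322) (nat_lit 5) (nat_lit 439) (nat_lit 395) (nat_lit 366)))) (XT.nd (nat_lit 156) (nat_lit 1292) (nat_lit 0) (XT.nd (nat_lit 78) (nat_lit 760) (nat_lit 0) (XT.lf (nat_lit 0) (nat_lit 4402714201) (nat_lit 608) (nat_lit 316505691) (nat_lit 684) (nat_lit 3766342206) (nat_lit 313) (nat_lit 5) (nat_lit 321) (nat_lit 5) (nat_lit 322) (nat_lit 5) (nat_lit 440) (nat_lit 395) (nat_lit 365)) (XT.lf (nat_lit 0) (nat_lit 700865645) (nat_lit 760) (nat_lit 3537766389) (nat_lit 76) (nat_lit 4358485243) (nat_lit 303) (nat_lit 5) (nat_lit 313) (nat_lit 5) (nat_lit 304) (nat_lit 5) (nat_lit 441) (nat_lit 395) (nat_lit 364))) (XT.nd (nat_lit 78) (nat_lit 684) (nat_lit 0) (XT.lf (nat_lit 0) (nat_lit 5226401986) (nat_lit 684) (nat_lit 2968844692) (nat_lit 76) (nat_lit 516769883) (nat_lit 295) (nat_lit 5) (nat_lit 304) (nat_lit 5) (nat_lit 296) (nat_lit 5) (nat_lit 442)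 (nat_lit 395) (nat_lit 363)) (XT.lf (nat_lit 0) (nat_lit 1044218131) (nat_lit 684) (nat_lit 2381187265) (nat_lit 76) (nat_lit 5404810012) (nat_lit 286) (nat_lit 5) (nat_lit 295) (nat_lit 5) (nat_lit 287) (nat_lit 5) (nat_lit 443) (nat_lit 395) (nat_lit 362))))) (XT.nd (nat_lit 234) (nat_lit 2736) (nat_lit 0) (XT.nd (nat_lit 78) (nat_lit 1216) (nat_lit 0) (XT.lf (nat_lit 0) (nat_lit 5647549618) (nat_lit 684) (nat_lit 1773198894) (nat_lit 76) (nat_lit 1531056339) (nat_lit 278) (nat_lit 5) (nat_lit 287) (nat_lit 5) (nat_lit 279) (nat_lit 5) (nat_lit 444) (nat_lit 395) (nat_lit 361)) (XT.nd (nat_lit 78) (nat_lit 532) (nat_lit 0) (XT.lf (nat_lit 0) (nat_lit 1294871489) (nat_lit 684) (nat_lit 1143499779) (nat_lit 76) (nat_lit 6638501974) (nat_lit 269) (nat_lit 5) (nat_lit 278) (nat_lit 5) (nat_lit 270) (nat_lit 5) (nat_lit 445) (nat_lit 395) (nat_lit 360)) (XT.lf (nat_lit 0) (nat_lit 5984665624) (nat_lit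 608) (nat_lit 500769545) (nat_lit 76) (nat_lit 2719874254) (nat_lit 262) (nat_lit 5) (nat_lit 270) (nat_lit 5) (nat_lit 263) (nat_lit 5) (nat_lit 446) (nat_lit 395) (nat_lit 359)))) (XT.nd (nat_lit 156) (nat_lit 1064) (nat_lit 0) (XT.nd (nat_lit 78) (nat_lit 532) (nat_lit 0) (XT.lf (nat_lit 0) (nat_lit 170674331) (nat_lit 532) (nat_lit 1286832570) (nat_lit 608) (nat_lit 7879917380) (nat_lit 247) (nat_lit 5) (nat_lit 254) (nat_lit 5) (nat_lit 255) (nat_lit 5) (nat_lit 447) (nat_lit 395) (nat_lit 358)) (XT.lf (nat_lit 0) (nat_lit 852896441) (nat_lit 532) (nat_lit 5393818545) (nat_lit 608) (nat_lit 3226076400) (nat_lit 240) (nat_lit 5) (nat_lit 247) (nat_lit 5) (nat_lit 248) (nat_lit 5) (nat_lit 448) (nat_lit 395) (nat_lit 357))) (XT.nd (nat_lit 78) (nat_lit 532) (nat_lit 0) (XT.lf (nat_lit 0) (nat_lit 1542093565) (nat_lit 532) (nat_lit 8043807713) (nat_lit 76) (nat_lit 26213049) (nat_lit 233) (nat_lit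 5) (nat_lit 240) (nat_lit 5) (nat_lit 234) (nat_lit 5) (nat_lit 449) (nat_lit 395) (nat_lit 356)) (XT.lf (nat_lit 0) (nat_lit 2277491391) (nat_lit 532) (nat_lit 4157193573) (nat_lit 608) (nat_lit 3320005032) (nat_lit 226) (nat_lit 5) (nat_lit 233) (nat_lit 5) (nat_lit 234) (nat_lit 5) (nat_lit 450) (nat_lit 395) (nat_lit 355))))))))
noncomputable def xc29 : XT := (XT.nd (nat_lit 2106) (nat_lit 2508) (nat_lit 0) (XT.nd (nat_lit 1014) (nat_lit 4484) (nat_lit 0) (XT.nd (nat_lit 468) (nat_lit 3192) (nat_lit 0) (XT.nd (nat_lit 234) (nat_lit 1368) (nat_lit 0) (XT.nd (nat_lit 78) (nat_lit 988) (nat_lit 0) (XT.lf (nat_lit 0) (nat_lit 1552505728) (nat_lit 532) (nat_lit 6883150189) (nat_lit 76) (nat_lit 1465673926) (nat_lit 219) (nat_lit 5) (nat_lit 226) (nat_lit 5) (nat_lit 220) (nat_lit 5) (nat_lit 451) (nat_lit 395) (nat_lit 354)) (XT.nd (nat_lit 78) (nat_lit 532) (nat_lit 0) (XT.lf (nat_lit 0) (nat_lit 3759697172)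 (nat_lit 456) (nat_lit 2787750585) (nat_lit 532) (nat_lit 3504058358) (nat_lit 213) (nat_lit 5) (nat_lit 219) (nat_lit 5) (nat_lit 220) (nat_lit 5) (nat_lit 452) (nat_lit 395) (nat_lit 353)) (XT.lf (nat_lit 0) (nat_lit 1481993518) (nat_lit 532) (nat_lit 5683518480) (nat_lit 76) (nat_lit 3040177257) (nat_lit 206) (nat_lit 5) (nat_lit 213) (nat_lit 5) (nat_lit 207) (nat_lit 5) (nat_lit 453) (nat_lit 395) (nat_lit 352)))) (XT.nd (nat_lit 78) (nat_lit 912) (nat_lit 0) (XT.lf (nat_lit 0) (nat_lit 5292823408) (nat_lit 456) (nat_lit 1293750483) (nat_lit 532) (nat_lit 3777132810) (nat_lit 200) (nat_lit 5) (nat_lit 206) (nat_lit 5) (nat_lit 207) (nat_lit 5) (nat_lit 454) (nat_lit 395) (nat_lit 351)) (XT.nd (nat_lit 78) (nat_lit 456) (nat_lit 0) (XT.lf (nat_lit 0) (nat_lit 1331557028) (nat_lit 456) (nat_lit 4452104622) (nat_lit 76) (nat_lit 4742014589) (nat_lit 194) (nat_lit 5) (nat_lit 200) (nat_lit 5) (nat_lit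 195) (nat_lit 5) (nat_lit 455) (nat_lit 395) (nat_lit 350)) (XT.lf (nat_lit 0) (nat_lit 6555098031) (nat_lit 532) (nat_lit 3823771345) (nat_lit 76) (nat_lit 312880891) (nat_lit 188) (nat_lit 5) (nat_lit 195) (nat_lit 5) (nat_lit 189) (nat_lit 5) (nat_lit 456) (nat_lit 395) (nat_lit 349))))) (XT.nd (nat_lit 234) (nat_lit 1900) (nat_lit 0) (XT.nd (nat_lit 78) (nat_lit 836) (nat_lit 0) (XT.lf (nat_lit 0) (nat_lit 1101590329) (nat_lit 456) (nat_lit 3196272543) (nat_lit 76) (nat_lit 6563944748) (nat_lit 182) (nat_lit 5) (nat_lit 188) (nat_lit 5) (nat_lit 183) (nat_lit 5) (nat_lit 457) (nat_lit 395) (nat_lit 348)) (XT.nd (nat_lit 78) (nat_lit 456) (nat_lit 0) (XT.lf (nat_lit 0) (nat_lit 6460451457) (nat_lit 456) (nat_lit 2565028102) (nat_lit 76) (nat_lit 2010549486) (nat_lit 177) (nat_lit 5) (nat_lit 183) (nat_lit 5) (nat_lit 178) (nat_lit 5) (nat_lit 458) (nat_lit 395) (nat_lit 347)) (XT.lf (nat_lit 0)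 (nat_lit 791875758) (nat_lit 456) (nat_lit 1923637391) (nat_lit 76) (nat_lit 8499121162) (nat_lit 171) (nat_lit 5) (nat_lit 177) (nat_lit 5) (nat_lit 172) (nat_lit 5) (nat_lit 459) (nat_lit 395) (nat_lit 346)))) (XT.nd (nat_lit 156) (nat_lit 1064) (nat_lit 0) (XT.nd (nat_lit 78) (nat_lit 456) (nat_lit 0) (XT.lf (nat_lit 0) (nat_lit 6293963659) (nat_lit 456) (nat_lit 1294004468) (nat_lit 76) (nat_lit 3809311673) (nat_lit 166) (nat_lit 5) (nat_lit 172) (nat_lit 5) (nat_lit 167) (nat_lit 5) (nat_lit 460) (nat_lit 395) (nat_lit 345)) (XT.lf (nat_lit 0) (nat_lit 401573369) (nat_lit 456) (nat_lit 642148955) (nat_lit 76) (nat_lit 10541020056) (nat_lit 160) (nat_lit 5) (nat_lit 166) (nat_lit 5) (nat_lit 161) (nat_lit 5) (nat_lit 461) (nat_lit 395) (nat_lit 344))) (XT.nd (nat_lit 78) (nat_lit 684) (nat_lit 0) (XT.lf (nat_lit 0) (nat_lit 6054749060) (nat_lit 456) (nat_lit 18832310) (nat_lit 76) (nat_lit 5702525609)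 (nat_lit 155) (nat_lit 5) (nat_lit 161) (nat_lit 5) (nat_lit 156) (nat_lit 5) (nat_lit 462) (nat_lit 395) (nat_lit 343)) (XT.lf (nat_lit 0) (nat_lit 643172758) (nat_lit 380) (nat_lit 11266629489) (nat_lit 456) (nat_lit 62766828) (nat_lit 146) (nat_lit 5) (nat_lit 151) (nat_lit 5) (nat_lit 152) (nat_lit 5) (nat_lit 463) (nat_lit 395) (nat_lit 342)))))) (XT.nd (nat_lit 546) (nat_lit 2052) (nat_lit 0) (XT.nd (nat_lit 234) (nat_lit 1292) (nat_lit 0) (XT.nd (nat_lit 78) (nat_lit 760) (nat_lit 0) (XT.lf (nat_lit 0) (nat_lit 1268521474) (nat_lit 304) (nat_lit 4481003865) (nat_lit 380) (nat_lit 6423461917) (nat_lit 141) (nat_lit 5) (nat_lit 145) (nat_lit 5) (nat_lit 146) (nat_lit 5) (nat_lit 464) (nat_lit 395) (nat_lit 341)) (XT.nd (nat_lit 78) (nat_lit 380) (nat_lit 0) (XT.lf (nat_lit 0) (nat_lit 1917882471) (nat_lit 380) (nat_lit 9854638699) (nat_lit 456) (nat_lit 606146797) (nat_lit 136) (nat_lit 5) (nat_lit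 141) (nat_lit 5) (nat_lit 142) (nat_lit 5) (nat_lit 465) (nat_lit 395) (nat_lit 340)) (XT.lf (nat_lit 0) (nat_lit 2542316487) (nat_lit 304) (nat_lit 2825599752) (nat_lit 380) (nat_lit 7220848198) (nat_lit 131) (nat_lit 5) (nat_lit 135) (nat_lit 5) (nat_lit 136) (nat_lit 5) (nat_lit 466) (nat_lit 395) (nat_lit 339)))) (XT.nd (nat_lit 156) (nat_lit 608) (nat_lit 0) (XT.nd (nat_lit 78) (nat_lit 380) (nat_lit 0) (XT.lf (nat_lit 0) (nat_lit 3173399426) (nat_lit 304) (nat_lit 8393240449) (nat_lit 380) (nat_lit 1237372199) (nat_lit 127) (nat_lit 5) (nat_lit 131) (nat_lit 5) (nat_lit 132) (nat_lit 5) (nat_lit 467) (nat_lit 395) (nat_lit 338)) (XT.lf (nat_lit 0) (nat_lit 3792326057) (nat_lit 304) (nat_lit 1114547819) (nat_lit 380) (nat_lit 8117288130) (nat_lit 122) (nat_lit 5) (nat_lit 126) (nat_lit 5) (nat_lit 127) (nat_lit 5) (nat_lit 468) (nat_lit 395) (nat_lit 337))) (XT.nd (nat_lit 78) (nat_lit 304) (nat_lit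 0) (XT.lf (nat_lit 0) (nat_lit 4399375500) (nat_lit 304) (nat_lit 6889826700) (nat_lit 380) (nat_lit 1960141077) (nat_lit 118) (nat_lit 5) (nat_lit 122) (nat_lit 5) (nat_lit 123) (nat_lit 5) (nat_lit 469) (nat_lit 395) (nat_lit 336)) (XT.lf (nat_lit 0) (nat_lit 4366937519) (nat_lit 304) (nat_lit 8476352251) (nat_lit 76) (nat_lit 636569210) (nat_lit 114) (nat_lit 5) (nat_lit 118) (nat_lit 5) (nat_lit 115) (nat_lit 5) (nat_lit 470) (nat_lit 395) (nat_lit 335))))) (XT.nd (nat_lit 234) (nat_lit 1140) (nat_lit 0) (XT.nd (nat_lit 78) (nat_lit 608) (nat_lit 0) (XT.lf (nat_lit 0) (nat_lit 5584604902) (nat_lit 304) (nat_lit 5351918266) (nat_lit 380) (nat_lit 2778922955) (nat_lit 110) (nat_lit 5) (nat_lit 114) (nat_lit 5) (nat_lit 115) (nat_lit 5) (nat_lit 471) (nat_lit 395) (nat_lit 334)) (XT.nd (nat_lit 78) (nat_lit 304) (nat_lit 0) (XT.lf (nat_lit 0) (nat_lit 3747008177) (nat_lit 304) (nat_lit 7795809366)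 (nat_lit 76) (nat_lit 2413777951) (nat_lit 106) (nat_lit 5) (nat_lit 110) (nat_lit 5) (nat_lit 107) (nat_lit 5) (nat_lit 472) (nat_lit 395) (nat_lit 333)) (XT.lf (nat_lit 0) (nat_lit 6716896532) (nat_lit 304) (nat_lit 3787247666) (nat_lit 380) (nat_lit 3699005628) (nat_lit 102) (nat_lit 5) (nat_lit 106) (nat_lit 5) (nat_lit 107) (nat_lit 5) (nat_lit 473) (nat_lit 395) (nat_lit 332)))) (XT.nd (nat_lit 156) (nat_lit 532) (nat_lit 0) (XT.nd (nat_lit 78) (nat_lit 304) (nat_lit 0) (XT.lf (nat_lit 0) (nat_lit 3034570208) (nat_lit 304) (nat_lit 7196515356) (nat_lit 76) (nat_lit 4224283932) (nat_lit 98) (nat_lit 5) (nat_lit 102) (nat_lit 5) (nat_lit 99) (nat_lit 5) (nat_lit 474) (nat_lit 395) (nat_lit 331)) (XT.lf (nat_lit 0) (nat_lit 7782935313) (nat_lit 304) (nat_lit 2203845939) (nat_lit 380) (nat_lit 4726549208) (nat_lit 94) (nat_lit 5) (nat_lit 98) (nat_lit 5) (nat_lit 99) (nat_lit 5) (nat_lit 475) (nat_lit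 395) (nat_lit 330))) (XT.nd (nat_lit 78) (nat_lit 228) (nat_lit 0) (XT.lf (nat_lit 0) (nat_lit 2223470920) (nat_lit 304) (nat_lit 6693256567) (nat_lit 76) (nat_lit 6060354821) (nat_lit 90) (nat_lit 5) (nat_lit 94) (nat_lit 5) (nat_lit 91) (nat_lit 5) (nat_lit 476) (nat_lit 395) (nat_lit 329)) (XT.lf (nat_lit 0) (nat_lit 8768131153) (nat_lit 228) (nat_lit 610134226) (nat_lit 304) (nat_lit 5868647972) (nat_lit 87) (nat_lit 5) (nat_lit 90) (nat_lit 5) (nat_lit 91) (nat_lit 5) (nat_lit 477) (nat_lit 395) (nat_lit 328))))))) (XT.nd (nat_lit 57330) (nat_lit 0) (nat_lit 35036) (XT.nd (nat_lit 546) (nat_lit 760) (nat_lit 0) (XT.nd (nat_lit 234) (nat_lit 912) (nat_lit 0) (XT.nd (nat_lit 78) (nat_lit 532) (nat_lit 0) (XT.lf (nat_lit 0) (nat_lit 1306619579) (nat_lit 304) (nat_lit 6302220995) (nat_lit 76) (nat_lit 7913845299) (nat_lit 83) (nat_lit 5) (nat_lit 87) (nat_lit 5) (nat_lit 84) (nat_lit 5) (nat_lit 478)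 (nat_lit 395) (nat_lit 327)) (XT.nd (nat_lit 78) (nat_lit 304) (nat_lit 0) (XT.lf (nat_lit 0) (nat_lit 8677870144) (nat_lit 304) (nat_lit 6154816746) (nat_lit 76) (nat_lit 972060881) (nat_lit 80) (nat_lit 5) (nat_lit 84) (nat_lit 5) (nat_lit 81) (nat_lit 5) (nat_lit 479) (nat_lit 395) (nat_lit 326)) (XT.lf (nat_lit 0) (nat_lit 275914135) (nat_lit 304) (nat_lit 6041172814) (nat_lit 76) (nat_lit 9776098522) (nat_lit 76) (nat_lit 5) (nat_lit 80) (nat_lit 5) (nat_lit 77) (nat_lit 5) (nat_lit 480) (nat_lit 395) (nat_lit 325)))) (XT.nd (nat_lit 156) (nat_lit 456) (nat_lit 0) (XT.nd (nat_lit 78) (nat_lit 228) (nat_lit 0) (XT.lf (nat_lit 0) (nat_lit 7874958422) (nat_lit 304) (nat_lit 5974694526) (nat_lit 76) (nat_lit 2538262364) (nat_lit 73) (nat_lit 5) (nat_lit 77) (nat_lit 5) (nat_lit 74) (nat_lit 5) (nat_lit 481) (nat_lit 395) (nat_lit 324)) (XT.lf (nat_lit 0) (nat_lit 10754108512) (nat_lit 228) (nat_lit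 5045911197) (nat_lit 304) (nat_lit 889507476) (nat_lit 70) (nat_lit 5) (nat_lit 73) (nat_lit 5) (nat_lit 74) (nat_lit 5) (nat_lit 482) (nat_lit 395) (nat_lit 323))) (XT.nd (nat_lit 78) (nat_lit 152) (nat_lit 0) (XT.lf (nat_lit 0) (nat_lit 6956236183) (nat_lit 304) (nat_lit 5954945454) (nat_lit 76) (nat_lit 4086404515) (nat_lit 66) (nat_lit 5) (nat_lit 70) (nat_lit 5) (nat_lit 67) (nat_lit 5) (nat_lit 483) (nat_lit 395) (nat_lit 322)) (XT.lf (nat_lit 0) (nat_lit 11309509462) (nat_lit 152) (nat_lit 3809582238) (nat_lit 228) (nat_lit 2193802079) (nat_lit 64) (nat_lit 5) (nat_lit 66) (nat_lit 5) (nat_lit 67) (nat_lit 5) (nat_lit 484) (nat_lit 395) (nat_lit 321))))) (XT.nd (nat_lit 56472) (nat_lit 0) (nat_lit 51528) (XT.nd (nat_lit 78) (nat_lit 456) (nat_lit 0) (XT.lf (nat_lit 0) (nat_lit 5911152942) (nat_lit 304) (nat_lit 6118151002) (nat_lit 76) (nat_lit 5605608523) (nat_lit 60) (nat_lit 5) (nat_lit 64)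 (nat_lit 5) (nat_lit 61) (nat_lit 5) (nat_lit 485) (nat_lit 395) (nat_lit 320)) (XT.nd (nat_lit 78) (nat_lit 304) (nat_lit 0) (XT.lf (nat_lit 0) (nat_lit 11697458589) (nat_lit 152) (nat_lit 2621913769) (nat_lit 228) (nat_lit 3645131819) (nat_lit 58) (nat_lit 5) (nat_lit 60) (nat_lit 5) (nat_lit 61) (nat_lit 5) (nat_lit 486) (nat_lit 395) (nat_lit 319)) (XT.lf (nat_lit 0) (nat_lit 4727831015) (nat_lit 304) (nat_lit 6489223514) (nat_lit 76) (nat_lit 7084056768) (nat_lit 54) (nat_lit 5) (nat_lit 58) (nat_lit 5) (nat_lit 55) (nat_lit 5) (nat_lit 487) (nat_lit 395) (nat_lit 318)))) (XT.nd (nat_lit 156) (nat_lit 1444) (nat_lit 0) (XT.nd (nat_lit 78) (nat_lit 532) (nat_lit 0) (XT.lf (nat_lit 0) (nat_lit 744398852) (nat_lit 532) (nat_lit 1766235056) (nat_lit 0) (nat_lit 744398852) (nat_lit 758) (nat_lit 5) (nat_lit 765) (nat_lit 4) (nat_lit 758) (nat_lit 4) (nat_lit 408) (nat_lit 396) (nat_lit 396)) (XT.lf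 (nat_lit 0) (nat_lit 2182272336) (nat_lit 532) (nat_lit 4125126481) (nat_lit 532) (nat_lit 221105623) (nat_lit 751) (nat_lit 4) (nat_lit 758) (nat_lit 5) (nat_lit 758) (nat_lit 4) (nat_lit 409) (nat_lit 396) (nat_lit 395))) (XT.nd (nat_lit 78) (nat_lit 760) (nat_lit 0) (XT.lf (nat_lit 0) (nat_lit 1442181069) (nat_lit 608) (nat_lit 3080845385) (nat_lit 684) (nat_lit 2026636805) (nat_lit 742) (nat_lit 5) (nat_lit 750) (nat_lit 5) (nat_lit 751) (nat_lit 4) (nat_lit 410) (nat_lit 396) (nat_lit 394)) (XT.lf (nat_lit 0) (nat_lit 766775808) (nat_lit 684) (nat_lit 1897307063) (nat_lit 760) (nat_lit 3909669655) (nat_lit 732) (nat_lit 5) (nat_lit 741) (nat_lit 5) (nat_lit 742) (nat_lit 5) (nat_lit 411) (nat_lit 396) (nat_lit 393)))))) (XT.nd (nat_lit 546) (nat_lit 10412) (nat_lit 0) (XT.nd (nat_lit 234) (nat_lit 4332) (nat_lit 0) (XT.nd (nat_lit 78) (nat_lit 912) (nat_lit 0) (XT.lf (nat_lit 0) (nat_lit 155590692)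 (nat_lit 760) (nat_lit 573255569) (nat_lit 836) (nat_lit 5871942678) (nat_lit 721) (nat_lit 5) (nat_lit 731) (nat_lit 5) (nat_lit 732) (nat_lit 5) (nat_lit 412) (nat_lit 396) (nat_lit 392)) (XT.nd (nat_lit 78) (nat_lit 912) (nat_lit 0) (XT.lf (nat_lit 0) (nat_lit 5337464115) (nat_lit 836) (nat_lit 400934158) (nat_lit 76) (nat_lit 892056063) (nat_lit 721) (nat_lit 5) (nat_lit 732) (nat_lit 5) (nat_lit 722) (nat_lit 5) (nat_lit 413) (nat_lit 396) (nat_lit 391)) (XT.lf (nat_lit 0) (nat_lit 3262737676) (nat_lit 912) (nat_lit 902761370) (nat_lit 76) (nat_lit 2497395279) (nat_lit 709) (nat_lit 5) (nat_lit 721) (nat_lit 5) (nat_lit 710) (nat_lit 5) (nat_lit 414) (nat_lit 396) (nat_lit 390)))) (XT.nd (nat_lit 156) (nat_lit 2356) (nat_lit 0) (XT.nd (nat_lit 78) (nat_lit 988) (nat_lit 0) (XT.lf (nat_lit 0) (nat_lit 1108521925) (nat_lit 988) (nat_lit 1343658082) (nat_lit 76) (nat_lit 4246142495) (nat_lit 696)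 (nat_lit 5) (nat_lit 709) (nat_lit 5) (nat_lit 697) (nat_lit 5) (nat_lit 415) (nat_lit 396) (nat_lit 389)) (XT.lf (nat_lit 0) (nat_lit 5005367632) (nat_lit 988) (nat_lit 589051150) (nat_lit 1064) (nat_lit 1142196280) (nat_lit 683) (nat_lit 5) (nat_lit 696) (nat_lit 5) (nat_lit 697) (nat_lit 5) (nat_lit 416) (nat_lit 396) (nat_lit 388))) (XT.nd (nat_lit 78) (nat_lit 1216) (nat_lit 0) (XT.lf (nat_lit 0) (nat_lit 3294654913) (nat_lit 1140) (nat_lit 2075356234) (nat_lit 76) (nat_lit 1407593727) (nat_lit 668) (nat_lit 5) (nat_lit 683) (nat_lit 5) (nat_lit 669) (nat_lit 5) (nat_lit 417) (nat_lit 396) (nat_lit 387)) (XT.lf (nat_lit 0) (nat_lit 915747715) (nat_lit 1216) (nat_lit 2364294755) (nat_lit 76) (nat_lit 3541513435) (nat_lit 652) (nat_lit 5) (nat_lit 668) (nat_lit 5) (nat_lit 653) (nat_lit 5) (nat_lit 418) (nat_lit 396) (nat_lit 386))))) (XT.nd (nat_lit 234) (nat_lit 6384) (nat_lit 0) (XT.nd (nat_lit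 78) (nat_lit 2812) (nat_lit 0) (XT.lf (nat_lit 0) (nat_lit 4263913820) (nat_lit 1216) (nat_lit 1035482159) (nat_lit 1292) (nat_lit 1568975252) (nat_lit 636) (nat_lit 5) (nat_lit 652) (nat_lit 5) (nat_lit 653) (nat_lit 5) (nat_lit 419) (nat_lit 396) (nat_lit 385)) (XT.nd (nat_lit 78) (nat_lit 1444) (nat_lit 0) (XT.lf (nat_lit 0) (nat_lit 2772374067) (nat_lit 1368) (nat_lit 2801068750) (nat_lit 76) (nat_lit 1344535316) (nat_lit 618) (nat_lit 5) (nat_lit 636) (nat_lit 5) (nat_lit 619) (nat_lit 5) (nat_lit 420) (nat_lit 396) (nat_lit 384)) (XT.lf (nat_lit 0) (nat_lit 164936184) (nat_lit 1444) (nat_lit 2946867022) (nat_lit 76) (nat_lit 3858751237) (nat_lit 599) (nat_lit 5) (nat_lit 618) (nat_lit 5) (nat_lit 600) (nat_lit 5) (nat_lit 421) (nat_lit 396) (nat_lit 383)))) (XT.nd (nat_lit 156) (nat_lit 3344) (nat_lit 0) (XT.nd (nat_lit 78) (nat_lit 1596) (nat_lit 0) (XT.lf (nat_lit 0) (nat_lit 3974286021) (nat_lit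 1444) (nat_lit 485847687) (nat_lit 1520) (nat_lit 2565803916) (nat_lit 580) (nat_lit 5) (nat_lit 599) (nat_lit 5) (nat_lit 600) (nat_lit 5) (nat_lit 422) (nat_lit 396) (nat_lit 382)) (XT.lf (nat_lit 0) (nat_lit 1707131775) (nat_lit 1596) (nat_lit 3115133270) (nat_lit 76) (nat_lit 2261902743) (nat_lit 559) (nat_lit 5) (nat_lit 580) (nat_lit 5) (nat_lit 560) (nat_lit 5) (nat_lit 423) (nat_lit 396) (nat_lit 381))) (XT.nd (nat_lit 78) (nat_lit 1748) (nat_lit 0) (XT.lf (nat_lit 0) (nat_lit 4012661258) (nat_lit 1596) (nat_lit 1982913036) (nat_lit 1672) (nat_lit 1149797877) (nat_lit 538) (nat_lit 5) (nat_lit 559) (nat_lit 5) (nat_lit 560) (nat_lit 5) (nat_lit 424) (nat_lit 396) (nat_lit 380)) (XT.lf (nat_lit 0) (nat_lit 3090755345) (nat_lit 1748) (nat_lit 3111943020) (nat_lit 76) (nat_lit 1006737381) (nat_lit 515) (nat_lit 5) (nat_lit 538) (nat_lit 5) (nat_lit 516) (nat_lit 5) (nat_lit 425) (nat_lit 396)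 (nat_lit 379))))))))
noncomputable def xc30 : XT := (XT.nd (nat_lit 2106) (nat_lit 10564) (nat_lit 0) (XT.nd (nat_lit 1014) (nat_lit 8512) (nat_lit 0) (XT.nd (nat_lit 468) (nat_lit 6460) (nat_lit 0) (XT.nd (nat_lit 234) (nat_lit 2736) (nat_lit 0) (XT.nd (nat_lit 78) (nat_lit 2964) (nat_lit 0) (XT.lf (nat_lit 0) (nat_lit 104167344) (nat_lit 1824) (nat_lit 3048511343) (nat_lit 76) (nat_lit 4123803275) (nat_lit 491) (nat_lit 5) (nat_lit 515) (nat_lit 5) (nat_lit 492) (nat_lit 5) (nat_lit 426) (nat_lit 396) (nat_lit 378)) (XT.nd (nat_lit 78) (nat_lit 1140) (nat_lit 0) (XT.lf (nat_lit 0) (nat_lit 4327295558) (nat_lit 1900) (nat_lit 2949214370) (nat_lit 76) (nat_lit 69902974) (nat_lit 467) (nat_lit 5) (nat_lit 492) (nat_lit 5) (nat_lit 468) (nat_lit 5) (nat_lit 427) (nat_lit 396) (nat_lit 377)) (XT.lf (nat_lit 0) (nat_lit 1195446280) (nat_lit 1140) (nat_lit 2816373001) (nat_lit 76) (nat_lit 3407401918) (nat_lit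 452) (nat_lit 5) (nat_lit 467) (nat_lit 5) (nat_lit 453) (nat_lit 5) (nat_lit 428) (nat_lit 396) (nat_lit 376)))) (XT.nd (nat_lit 78) (nat_lit 1824) (nat_lit 0) (XT.lf (nat_lit 0) (nat_lit 4853362996) (nat_lit 912) (nat_lit 577621354) (nat_lit 988) (nat_lit 2064127349) (nat_lit 440) (nat_lit 5) (nat_lit 452) (nat_lit 5) (nat_lit 453) (nat_lit 5) (nat_lit 429) (nat_lit 396) (nat_lit 375)) (XT.nd (nat_lit 78) (nat_lit 836) (nat_lit 0) (XT.lf (nat_lit 0) (nat_lit 2149071931) (nat_lit 988) (nat_lit 2439580105) (nat_lit 76) (nat_lit 2985188717) (nat_lit 427) (nat_lit 5) (nat_lit 440) (nat_lit 5) (nat_lit 428) (nat_lit 5) (nat_lit 430) (nat_lit 396) (nat_lit 374)) (XT.lf (nat_lit 0) (nat_lit 5461054035) (nat_lit 836) (nat_lit 945192427) (nat_lit 912) (nat_lit 1249507454) (nat_lit 416) (nat_lit 5) (nat_lit 427) (nat_lit 5) (nat_lit 428) (nat_lit 5) (nat_lit 431) (nat_lit 396) (nat_lit 373))))) (XT.nd (nat_lit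 234) (nat_lit 3800) (nat_lit 0) (XT.nd (nat_lit 78) (nat_lit 1748) (nat_lit 0) (XT.lf (nat_lit 0) (nat_lit 2974069259) (nat_lit 912) (nat_lit 1928130768) (nat_lit 76) (nat_lit 2838274026) (nat_lit 404) (nat_lit 5) (nat_lit 416) (nat_lit 5) (nat_lit 405) (nat_lit 5) (nat_lit 432) (nat_lit 396) (nat_lit 372)) (XT.nd (nat_lit 78) (nat_lit 912) (nat_lit 0) (XT.lf (nat_lit 0) (nat_lit 6211205770) (nat_lit 836) (nat_lit 1050189193) (nat_lit 912) (nat_lit 567102288) (nat_lit 393) (nat_lit 5) (nat_lit 404) (nat_lit 5) (nat_lit 405) (nat_lit 5) (nat_lit 433) (nat_lit 396) (nat_lit 371)) (XT.lf (nat_lit 0) (nat_lit 3678590486) (nat_lit 912) (nat_lit 1291350313) (nat_lit 76) (nat_lit 2949344985) (nat_lit 381) (nat_lit 5) (nat_lit 393) (nat_lit 5) (nat_lit 382) (nat_lit 5) (nat_lit 434) (nat_lit 396) (nat_lit 370)))) (XT.nd (nat_lit 156) (nat_lit 2204) (nat_lit 0) (XT.nd (nat_lit 78) (nat_lit 836) (nat_lit 0)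 (XT.lf (nat_lit 0) (nat_lit 7094951186) (nat_lit 760) (nat_lit 909409333) (nat_lit 836) (nat_lit 9160722) (nat_lit 371) (nat_lit 5) (nat_lit 381) (nat_lit 5) (nat_lit 382) (nat_lit 5) (nat_lit 435) (nat_lit 396) (nat_lit 369)) (XT.lf (nat_lit 0) (nat_lit 4269964873) (nat_lit 836) (nat_lit 537966519) (nat_lit 76) (nat_lit 3302540006) (nat_lit 360) (nat_lit 5) (nat_lit 371) (nat_lit 5) (nat_lit 361) (nat_lit 5) (nat_lit 436) (nat_lit 396) (nat_lit 368))) (XT.nd (nat_lit 78) (nat_lit 1444) (nat_lit 0) (XT.lf (nat_lit 0) (nat_lit 425587162) (nat_lit 760) (nat_lit 109819190) (nat_lit 76) (nat_lit 7675573686) (nat_lit 350) (nat_lit 5) (nat_lit 360) (nat_lit 5) (nat_lit 351) (nat_lit 5) (nat_lit 437) (nat_lit 396) (nat_lit 367)) (XT.lf (nat_lit 0) (nat_lit 328121264) (nat_lit 684) (nat_lit 4428752173) (nat_lit 760) (nat_lit 3557340729) (nat_lit 331) (nat_lit 5) (nat_lit 340) (nat_lit 5) (nat_lit 341) (nat_lit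 5) (nat_lit 438) (nat_lit 396) (nat_lit 366)))))) (XT.nd (nat_lit 546) (nat_lit 3800) (nat_lit 0) (XT.nd (nat_lit 234) (nat_lit 2584) (nat_lit 0) (XT.nd (nat_lit 78) (nat_lit 1368) (nat_lit 0) (XT.lf (nat_lit 0) (nat_lit 755959845) (nat_lit 760) (nat_lit 7606341234) (nat_lit 76) (nat_lit 58768744) (nat_lit 321) (nat_lit 5) (nat_lit 331) (nat_lit 5) (nat_lit 322) (nat_lit 5) (nat_lit 439) (nat_lit 396) (nat_lit 365)) (XT.nd (nat_lit 78) (nat_lit 760) (nat_lit 0) (XT.lf (nat_lit 0) (nat_lit 1303348684) (nat_lit 608) (nat_lit 3843849706) (nat_lit 684) (nat_lit 3383530349) (nat_lit 313) (nat_lit 5) (nat_lit 321) (nat_lit 5) (nat_lit 322) (nat_lit 5) (nat_lit 440) (nat_lit 396) (nat_lit 364)) (XT.lf (nat_lit 0) (nat_lit 987892397) (nat_lit 760) (nat_lit 6808956125) (nat_lit 76) (nat_lit 847203440) (nat_lit 303) (nat_lit 5) (nat_lit 313) (nat_lit 5) (nat_lit 304) (nat_lit 5) (nat_lit 441) (nat_lit 396) (nat_lit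 363)))) (XT.nd (nat_lit 156) (nat_lit 1292) (nat_lit 0) (XT.nd (nat_lit 78) (nat_lit 684) (nat_lit 0) (XT.lf (nat_lit 0) (nat_lit 2373106999) (nat_lit 608) (nat_lit 3069350876) (nat_lit 684) (nat_lit 3317915179) (nat_lit 295) (nat_lit 5) (nat_lit 303) (nat_lit 5) (nat_lit 304) (nat_lit 5) (nat_lit 442) (nat_lit 396) (nat_lit 362)) (XT.lf (nat_lit 0) (nat_lit 1121678851) (nat_lit 684) (nat_lit 5934204093) (nat_lit 76) (nat_lit 1824430244) (nat_lit 286) (nat_lit 5) (nat_lit 295) (nat_lit 5) (nat_lit 287) (nat_lit 5) (nat_lit 443) (nat_lit 396) (nat_lit 361))) (XT.nd (nat_lit 78) (nat_lit 684) (nat_lit 0) (XT.lf (nat_lit 0) (nat_lit 3530259917) (nat_lit 608) (nat_lit 2116775477) (nat_lit 684) (nat_lit 3356428946) (nat_lit 278) (nat_lit 5) (nat_lit 286) (nat_lit 5) (nat_lit 287) (nat_lit 5) (nat_lit 444) (nat_lit 396) (nat_lit 360)) (XT.lf (nat_lit 0) (nat_lit 1161148092) (nat_lit 684) (nat_lit 4989394164)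 (nat_lit 76) (nat_lit 2979644031) (nat_lit 269) (nat_lit 5) (nat_lit 278) (nat_lit 5) (nat_lit 270) (nat_lit 5) (nat_lit 445) (nat_lit 396) (nat_lit 359))))) (XT.nd (nat_lit 234) (nat_lit 2128) (nat_lit 0) (XT.nd (nat_lit 78) (nat_lit 1140) (nat_lit 0) (XT.lf (nat_lit 0) (nat_lit 4767926708) (nat_lit 532) (nat_lit 996738086) (nat_lit 608) (nat_lit 3495685267) (nat_lit 262) (nat_lit 5) (nat_lit 269) (nat_lit 5) (nat_lit 270) (nat_lit 5) (nat_lit 446) (nat_lit 396) (nat_lit 358)) (XT.nd (nat_lit 78) (nat_lit 532) (nat_lit 0) (XT.lf (nat_lit 0) (nat_lit 1109481769) (nat_lit 608) (nat_lit 3981644551) (nat_lit 76) (nat_lit 4302908075) (nat_lit 254) (nat_lit 5) (nat_lit 262) (nat_lit 5) (nat_lit 255) (nat_lit 5) (nat_lit 447) (nat_lit 396) (nat_lit 357)) (XT.lf (nat_lit 0) (nat_lit 5800274135) (nat_lit 608) (nat_lit 3453817667) (nat_lit 76) (nat_lit 277279901) (nat_lit 247) (nat_lit 5) (nat_lit 255) (nat_lit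 5) (nat_lit 248) (nat_lit 5) (nat_lit 448) (nat_lit 396) (nat_lit 356)))) (XT.nd (nat_lit 156) (nat_lit 1064) (nat_lit 0) (XT.nd (nat_lit 78) (nat_lit 456) (nat_lit 0) (XT.lf (nat_lit 0) (nat_lit 969231134) (nat_lit 608) (nat_lit 2917950379) (nat_lit 76) (nat_lit 5785069799) (nat_lit 239) (nat_lit 5) (nat_lit 247) (nat_lit 5) (nat_lit 240) (nat_lit 5) (nat_lit 449) (nat_lit 396) (nat_lit 355)) (XT.lf (nat_lit 0) (nat_lit 5761964544) (nat_lit 532) (nat_lit 2369980802) (nat_lit 76) (nat_lit 1684880539) (nat_lit 233) (nat_lit 5) (nat_lit 240) (nat_lit 5) (nat_lit 234) (nat_lit 5) (nat_lit 450) (nat_lit 396) (nat_lit 354))) (XT.nd (nat_lit 78) (nat_lit 456) (nat_lit 0) (XT.lf (nat_lit 0) (nat_lit 742329411) (nat_lit 608) (nat_lit 1805252255) (nat_lit 76) (nat_lit 7417680306) (nat_lit 225) (nat_lit 5) (nat_lit 233) (nat_lit 5) (nat_lit 226) (nat_lit 5) (nat_lit 451) (nat_lit 396) (nat_lit 353)) (XT.lf (nat_lit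 0) (nat_lit 5645094839) (nat_lit 532) (nat_lit 1241348158) (nat_lit 76) (nat_lit 3230840390) (nat_lit 219) (nat_lit 5) (nat_lit 226) (nat_lit 5) (nat_lit 220) (nat_lit 5) (nat_lit 452) (nat_lit 396) (nat_lit 352))))))) (XT.nd (nat_lit 1092) (nat_lit 4180) (nat_lit 0) (XT.nd (nat_lit 546) (nat_lit 2812) (nat_lit 0) (XT.nd (nat_lit 234) (nat_lit 1672) (nat_lit 0) (XT.nd (nat_lit 78) (nat_lit 1368) (nat_lit 0) (XT.lf (nat_lit 0) (nat_lit 430099664) (nat_lit 532) (nat_lit 650506230) (nat_lit 76) (nat_lit 9192917101) (nat_lit 212) (nat_lit 5) (nat_lit 219) (nat_lit 5) (nat_lit 213) (nat_lit 5) (nat_lit 453) (nat_lit 396) (nat_lit 351)) (XT.nd (nat_lit 78) (nat_lit 912) (nat_lit 0) (XT.lf (nat_lit 0) (nat_lit 5450901177) (nat_lit 532) (nat_lit 74881635) (nat_lit 76) (nat_lit 4907434695) (nat_lit 206) (nat_lit 5) (nat_lit 213) (nat_lit 5) (nat_lit 207) (nat_lit 5) (nat_lit 454) (nat_lit 396) (nat_lit 350))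 (XT.lf (nat_lit 0) (nat_lit 40114529) (nat_lit 456) (nat_lit 10054350638) (nat_lit 76) (nat_lit 502921095) (nat_lit 194) (nat_lit 5) (nat_lit 200) (nat_lit 5) (nat_lit 195) (nat_lit 5) (nat_lit 455) (nat_lit 396) (nat_lit 349)))) (XT.nd (nat_lit 156) (nat_lit 836) (nat_lit 0) (XT.nd (nat_lit 78) (nat_lit 380) (nat_lit 0) (XT.lf (nat_lit 0) (nat_lit 1137244040) (nat_lit 456) (nat_lit 4050166516) (nat_lit 532) (nat_lit 5577576011) (nat_lit 188) (nat_lit 5) (nat_lit 194) (nat_lit 5) (nat_lit 195) (nat_lit 5) (nat_lit 456) (nat_lit 396) (nat_lit 348)) (XT.lf (nat_lit 0) (nat_lit 1762627757) (nat_lit 380) (nat_lit 8746836315) (nat_lit 456) (nat_lit 427746749) (nat_lit 183) (nat_lit 5) (nat_lit 188) (nat_lit 5) (nat_lit 189) (nat_lit 5) (nat_lit 457) (nat_lit 396) (nat_lit 347))) (XT.nd (nat_lit 78) (nat_lit 380) (nat_lit 0) (XT.lf (nat_lit 0) (nat_lit 2374126666) (nat_lit 380) (nat_lit 2473806537) (nat_lit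 456) (nat_lit 6265331682) (nat_lit 177) (nat_lit 5) (nat_lit 182) (nat_lit 5) (nat_lit 183) (nat_lit 5) (nat_lit 458) (nat_lit 396) (nat_lit 346)) (XT.lf (nat_lit 0) (nat_lit 3001311025) (nat_lit 380) (nat_lit 7311059577) (nat_lit 456) (nat_lit 981449958) (nat_lit 172) (nat_lit 5) (nat_lit 177) (nat_lit 5) (nat_lit 178) (nat_lit 5) (nat_lit 459) (nat_lit 396) (nat_lit 345))))) (XT.nd (nat_lit 234) (nat_lit 1520) (nat_lit 0) (XT.nd (nat_lit 78) (nat_lit 836) (nat_lit 0) (XT.lf (nat_lit 0) (nat_lit 3627093041) (nat_lit 380) (nat_lit 804276436) (nat_lit 456) (nat_lit 7047267999) (nat_lit 166) (nat_lit 5) (nat_lit 171) (nat_lit 5) (nat_lit 172) (nat_lit 5) (nat_lit 460) (nat_lit 396) (nat_lit 344)) (XT.nd (nat_lit 78) (nat_lit 456) (nat_lit 0) (XT.lf (nat_lit 0) (nat_lit 4251520194) (nat_lit 380) (nat_lit 5794591200) (nat_lit 456) (nat_lit 1621702636) (nat_lit 161) (nat_lit 5) (nat_lit 166) (nat_lit 5)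 (nat_lit 167) (nat_lit 5) (nat_lit 461) (nat_lit 396) (nat_lit 343)) (XT.lf (nat_lit 0) (nat_lit 3942671384) (nat_lit 456) (nat_lit 6979801010) (nat_lit 76) (nat_lit 939119316) (nat_lit 155) (nat_lit 5) (nat_lit 161) (nat_lit 5) (nat_lit 156) (nat_lit 5) (nat_lit 462) (nat_lit 396) (nat_lit 342)))) (XT.nd (nat_lit 156) (nat_lit 760) (nat_lit 0) (XT.nd (nat_lit 78) (nat_lit 456) (nat_lit 0) (XT.lf (nat_lit 0) (nat_lit 5505001099) (nat_lit 304) (nat_lit 4204424657) (nat_lit 380) (nat_lit 2350395083) (nat_lit 151) (nat_lit 5) (nat_lit 155) (nat_lit 5) (nat_lit 156) (nat_lit 5) (nat_lit 463) (nat_lit 396) (nat_lit 341)) (XT.lf (nat_lit 0) (nat_lit 3379535613) (nat_lit 456) (nat_lit 6132630094) (nat_lit 76) (nat_lit 2750618654) (nat_lit 145) (nat_lit 5) (nat_lit 151) (nat_lit 5) (nat_lit 146) (nat_lit 5) (nat_lit 464) (nat_lit 396) (nat_lit 340))) (XT.nd (nat_lit 78) (nat_lit 456) (nat_lit 0) (XT.lf (nat_lit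 0) (nat_lit 6752986753) (nat_lit 304) (nat_lit 2547432217) (nat_lit 380) (nat_lit 3170089328) (nat_lit 141) (nat_lit 5) (nat_lit 145) (nat_lit 5) (nat_lit 146) (nat_lit 5) (nat_lit 465) (nat_lit 396) (nat_lit 339)) (XT.lf (nat_lit 0) (nat_lit 2734172012) (nat_lit 456) (nat_lit 5314526147) (nat_lit 76) (nat_lit 4634309038) (nat_lit 135) (nat_lit 5) (nat_lit 141) (nat_lit 5) (nat_lit 136) (nat_lit 5) (nat_lit 466) (nat_lit 396) (nat_lit 338)))))) (XT.nd (nat_lit 546) (nat_lit 1976) (nat_lit 0) (XT.nd (nat_lit 234) (nat_lit 1216) (nat_lit 0) (XT.nd (nat_lit 78) (nat_lit 684) (nat_lit 0) (XT.lf (nat_lit 0) (nat_lit 7986097730) (nat_lit 304) (nat_lit 830438450) (nat_lit 380) (nat_lit 4084046743) (nat_lit 131) (nat_lit 5) (nat_lit 135) (nat_lit 5) (nat_lit 136) (nat_lit 5) (nat_lit 467) (nat_lit 396) (nat_lit 337)) (XT.nd (nat_lit 78) (nat_lit 304) (nat_lit 0) (XT.lf (nat_lit 0) (nat_lit 2003321723) (nat_lit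 380) (nat_lit 4535908287) (nat_lit 76) (nat_lit 6583757599) (nat_lit 126) (nat_lit 5) (nat_lit 131) (nat_lit 5) (nat_lit 127) (nat_lit 5) (nat_lit 468) (nat_lit 396) (nat_lit 336)) (XT.lf (nat_lit 0) (nat_lit 8260631773) (nat_lit 380) (nat_lit 4162658196) (nat_lit 76) (nat_lit 927380109) (nat_lit 122) (nat_lit 5) (nat_lit 127) (nat_lit 5) (nat_lit 123) (nat_lit 5) (nat_lit 469) (nat_lit 396) (nat_lit 335)))) (XT.nd (nat_lit 156) (nat_lit 608) (nat_lit 0) (XT.nd (nat_lit 78) (nat_lit 228) (nat_lit 0) (XT.lf (nat_lit 0) (nat_lit 1182999618) (nat_lit 380) (nat_lit 3808010954) (nat_lit 76) (nat_lit 8592484223) (nat_lit 117) (nat_lit 5) (nat_lit 122) (nat_lit 5) (nat_lit 118) (nat_lit 5) (nat_lit 470) (nat_lit 396) (nat_lit 334)) (XT.lf (nat_lit 0) (nat_lit 7628319611) (nat_lit 304) (nat_lit 3473355114) (nat_lit 76) (nat_lit 2719893297) (nat_lit 114) (nat_lit 5) (nat_lit 118) (nat_lit 5) (nat_lit 115) (nat_lit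 5) (nat_lit 471) (nat_lit 396) (nat_lit 333))) (XT.nd (nat_lit 78) (nat_lit 228) (nat_lit 0) (XT.lf (nat_lit 0) (nat_lit 268452310) (nat_lit 380) (nat_lit 3143005635) (nat_lit 76) (nat_lit 10653883739) (nat_lit 109) (nat_lit 5) (nat_lit 114) (nat_lit 5) (nat_lit 110) (nat_lit 5) (nat_lit 472) (nat_lit 396) (nat_lit 332)) (XT.lf (nat_lit 0) (nat_lit 6909410775) (nat_lit 304) (nat_lit 2853866803) (nat_lit 76) (nat_lit 4550942700) (nat_lit 106) (nat_lit 5) (nat_lit 110) (nat_lit 5) (nat_lit 107) (nat_lit 5) (nat_lit 473) (nat_lit 396) (nat_lit 331))))) (XT.nd (nat_lit 234) (nat_lit 1064) (nat_lit 0) (XT.nd (nat_lit 78) (nat_lit 608) (nat_lit 0) (XT.lf (nat_lit 0) (nat_lit 12010248793) (nat_lit 304) (nat_lit 1803236992) (nat_lit 380) (nat_lit 755803090) (nat_lit 102) (nat_lit 5) (nat_lit 106) (nat_lit 5) (nat_lit 107) (nat_lit 5) (nat_lit 474) (nat_lit 396) (nat_lit 330)) (XT.nd (nat_lit 78) (nat_lit 304)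 (nat_lit 0) (XT.lf (nat_lit 0) (nat_lit 6098280869) (nat_lit 304) (nat_lit 2318017147) (nat_lit 76) (nat_lit 6413211416) (nat_lit 98) (nat_lit 5) (nat_lit 102) (nat_lit 5) (nat_lit 99) (nat_lit 5) (nat_lit 475) (nat_lit 396) (nat_lit 329)) (XT.lf (nat_lit 0) (nat_lit 13028166557) (nat_lit 304) (nat_lit 176848524) (nat_lit 380) (nat_lit 1891276979) (nat_lit 94) (nat_lit 5) (nat_lit 98) (nat_lit 5) (nat_lit 99) (nat_lit 5) (nat_lit 476) (nat_lit 396) (nat_lit 328)))) (XT.nd (nat_lit 156) (nat_lit 532) (nat_lit 0) (XT.nd (nat_lit 78) (nat_lit 228) (nat_lit 0) (XT.lf (nat_lit 0) (nat_lit 5188418883) (nat_lit 304) (nat_lit 1880921159) (nat_lit 76) (nat_lit 8299027318) (nat_lit 90) (nat_lit 5) (nat_lit 94) (nat_lit 5) (nat_lit 91) (nat_lit 5) (nat_lit 477) (nat_lit 396) (nat_lit 327)) (XT.lf (nat_lit 0) (nat_lit 12514925973) (nat_lit 304) (nat_lit 1693830122) (nat_lit 76) (nat_lit 1438397685) (nat_lit 87)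 (nat_lit 5) (nat_lit 91) (nat_lit 5) (nat_lit 88) (nat_lit 5) (nat_lit 478) (nat_lit 396) (nat_lit 326))) (XT.nd (nat_lit 78) (nat_lit 228) (nat_lit 0) (XT.lf (nat_lit 0) (nat_lit 4172359669) (nat_lit 304) (nat_lit 1559148558) (nat_lit 76) (nat_lit 10200269597) (nat_lit 83) (nat_lit 5) (nat_lit 87) (nat_lit 5) (nat_lit 84) (nat_lit 5) (nat_lit 479) (nat_lit 396) (nat_lit 325)) (XT.lf (nat_lit 0) (nat_lit 11727405872) (nat_lit 304) (nat_lit 1445251186) (nat_lit 76) (nat_lit 3050393043) (nat_lit 80) (nat_lit 5) (nat_lit 84) (nat_lit 5) (nat_lit 81) (nat_lit 5) (nat_lit 480) (nat_lit 396) (nat_lit 324))))))))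
noncomputable def xc31 : XT := (XT.nd (nat_lit 58188) (nat_lit 0) (nat_lit 11780) (XT.nd (nat_lit 57096) (nat_lit 0) (nat_lit 34732) (XT.nd (nat_lit 468) (nat_lit 152) (nat_lit 0) (XT.nd (nat_lit 234) (nat_lit 684) (nat_lit 0) (XT.nd (nat_lit 78) (nat_lit 532) (nat_lit 0) (XT.lf (nat_lit 0) (nat_lit 3041607584) (nat_lit 304) (nat_lit 1370902663) (nat_lit 76) (nat_lit 12108269058) (nat_lit 76) (nat_lit 5) (nat_lit 80) (nat_lit 5) (nat_lit 77) (nat_lit 5) (nat_lit 481) (nat_lit 396) (nat_lit 323)) (XT.nd (nat_lit 78) (nat_lit 304) (nat_lit 0) (XT.lf (nat_lit 0) (nat_lit 10832703695) (nat_lit 304) (nat_lit 1340331692) (nat_lit 76) (nat_lit 4652035600) (nat_lit 73) (nat_lit 5) (nat_lit 77) (nat_lit 5) (nat_lit 74) (nat_lit 5) (nat_lit 482) (nat_lit 396) (nat_lit 322)) (XT.lf (nat_lit 0) (nat_lit 1786550535) (nat_lit 304) (nat_lit 1336216329) (nat_lit 76) (nat_lit 14013701207) (nat_lit 69) (nat_lit 5) (nat_lit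 73) (nat_lit 5) (nat_lit 70) (nat_lit 5) (nat_lit 483) (nat_lit 396) (nat_lit 321)))) (XT.nd (nat_lit 78) (nat_lit 456) (nat_lit 0) (XT.lf (nat_lit 0) (nat_lit 9821072677) (nat_lit 304) (nat_lit 1400098755) (nat_lit 76) (nat_lit 6233171399) (nat_lit 66) (nat_lit 5) (nat_lit 70) (nat_lit 5) (nat_lit 67) (nat_lit 5) (nat_lit 484) (nat_lit 396) (nat_lit 320)) (XT.nd (nat_lit 78) (nat_lit 228) (nat_lit 0) (XT.lf (nat_lit 0) (nat_lit 396363538) (nat_lit 228) (nat_lit 1477166847) (nat_lit 76) (nat_lit 15906471128) (nat_lit 63) (nat_lit 5) (nat_lit 66) (nat_lit 5) (nat_lit 64) (nat_lit 5) (nat_lit 485) (nat_lit 396) (nat_lit 319)) (XT.lf (nat_lit 0) (nat_lit 8681520780) (nat_lit 304) (nat_lit 1647740488) (nat_lit 76) (nat_lit 7782793626) (nat_lit 60) (nat_lit 5) (nat_lit 64) (nat_lit 5) (nat_lit 61) (nat_lit 5) (nat_lit 486) (nat_lit 396) (nat_lit 318))))) (XT.nd (nat_lit 56316) (nat_lit 0) (nat_lit 51224)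 (XT.nd (nat_lit 56160) (nat_lit 0) (nat_lit 53656) (XT.lf (nat_lit 0) (nat_lit 16626832499) (nat_lit 152) (nat_lit 669355373) (nat_lit 228) (nat_lit 1156263750) (nat_lit 58) (nat_lit 5) (nat_lit 60) (nat_lit 5) (nat_lit 61) (nat_lit 5) (nat_lit 487) (nat_lit 396) (nat_lit 317)) (XT.nd (nat_lit 78) (nat_lit 456) (nat_lit 0) (XT.lf (nat_lit 0) (nat_lit 1207370023) (nat_lit 380) (nat_lit 825430329) (nat_lit 0) (nat_lit 1207370023) (nat_lit 770) (nat_lit 5) (nat_lit 775) (nat_lit 4) (nat_lit 770) (nat_lit 4) (nat_lit 406) (nat_lit 397) (nat_lit 397)) (XT.lf (nat_lit 0) (nat_lit 715261966) (nat_lit 456) (nat_lit 2656735141) (nat_lit 76) (nat_lit 3122513603) (nat_lit 764) (nat_lit 5) (nat_lit 770) (nat_lit 5) (nat_lit 765) (nat_lit 4) (nat_lit 407) (nat_lit 397) (nat_lit 396)))) (XT.nd (nat_lit 156) (nat_lit 1368) (nat_lit 0) (XT.nd (nat_lit 78) (nat_lit 608) (nat_lit 0) (XT.lf (nat_lit 0) (nat_lit 2905756220)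 (nat_lit 456) (nat_lit 2534551605) (nat_lit 532) (nat_lit 1071159749) (nat_lit 758) (nat_lit 5) (nat_lit 764) (nat_lit 5) (nat_lit 765) (nat_lit 4) (nat_lit 408) (nat_lit 397) (nat_lit 395)) (XT.lf (nat_lit 0) (nat_lit 2034561292) (nat_lit 532) (nat_lit 1554176726) (nat_lit 608) (nat_lit 2942520383) (nat_lit 750) (nat_lit 5) (nat_lit 757) (nat_lit 5) (nat_lit 758) (nat_lit 5) (nat_lit 409) (nat_lit 397) (nat_lit 394))) (XT.nd (nat_lit 78) (nat_lit 684) (nat_lit 0) (XT.lf (nat_lit 0) (nat_lit 1228396122) (nat_lit 608) (nat_lit 434632907) (nat_lit 684) (nat_lit 4890961983) (nat_lit 741) (nat_lit 5) (nat_lit 749) (nat_lit 5) (nat_lit 750) (nat_lit 5) (nat_lit 410) (nat_lit 397) (nat_lit 393)) (XT.lf (nat_lit 0) (nat_lit 479036096) (nat_lit 684) (nat_lit 5762894598) (nat_lit 760) (nat_lit 337599475) (nat_lit 732) (nat_lit 5) (nat_lit 741) (nat_lit 5) (nat_lit 742) (nat_lit 5) (nat_lit 411) (nat_lit 397)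 (nat_lit 392)))))) (XT.nd (nat_lit 546) (nat_lit 10412) (nat_lit 0) (XT.nd (nat_lit 234) (nat_lit 4332) (nat_lit 0) (XT.nd (nat_lit 78) (nat_lit 1672) (nat_lit 0) (XT.lf (nat_lit 0) (nat_lit 4173972989) (nat_lit 760) (nat_lit 218834613) (nat_lit 76) (nat_lit 2214904931) (nat_lit 731) (nat_lit 5) (nat_lit 741) (nat_lit 5) (nat_lit 732) (nat_lit 5) (nat_lit 412) (nat_lit 397) (nat_lit 391)) (XT.nd (nat_lit 78) (nat_lit 836) (nat_lit 0) (XT.lf (nat_lit 0) (nat_lit 2032065680) (nat_lit 836) (nat_lit 849042355) (nat_lit 76) (nat_lit 3757699092) (nat_lit 720) (nat_lit 5) (nat_lit 731) (nat_lit 5) (nat_lit 721) (nat_lit 5) (nat_lit 413) (nat_lit 397) (nat_lit 390)) (XT.lf (nat_lit 0) (nat_lit 5253429914) (nat_lit 836) (nat_lit 1228090951) (nat_lit 912) (nat_lit 191351943) (nat_lit 709) (nat_lit 5) (nat_lit 720) (nat_lit 5) (nat_lit 721) (nat_lit 5) (nat_lit 414) (nat_lit 397) (nat_lit 389)))) (XT.nd (nat_lit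 156) (nat_lit 2280) (nat_lit 0) (XT.nd (nat_lit 78) (nat_lit 1064) (nat_lit 0) (XT.lf (nat_lit 0) (nat_lit 4189577971) (nat_lit 988) (nat_lit 1946729871) (nat_lit 76) (nat_lit 573296704) (nat_lit 696) (nat_lit 5) (nat_lit 709) (nat_lit 5) (nat_lit 697) (nat_lit 5) (nat_lit 415) (nat_lit 397) (nat_lit 388)) (XT.lf (nat_lit 0) (nat_lit 1825348878) (nat_lit 1064) (nat_lit 2422880956) (nat_lit 76) (nat_lit 2500962544) (nat_lit 682) (nat_lit 5) (nat_lit 696) (nat_lit 5) (nat_lit 683) (nat_lit 5) (nat_lit 416) (nat_lit 397) (nat_lit 387))) (XT.nd (nat_lit 78) (nat_lit 1216) (nat_lit 0) (XT.lf (nat_lit 0) (nat_lit 3947577760) (nat_lit 1064) (nat_lit 2214590990) (nat_lit 1140) (nat_lit 629572560) (nat_lit 668) (nat_lit 5) (nat_lit 682) (nat_lit 5) (nat_lit 683) (nat_lit 5) (nat_lit 417) (nat_lit 397) (nat_lit 386)) (XT.lf (nat_lit 0) (nat_lit 3617968872) (nat_lit 1140) (nat_lit 24570471) (nat_lit 1216) (nat_lit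 3194571849) (nat_lit 652) (nat_lit 5) (nat_lit 667) (nat_lit 5) (nat_lit 668) (nat_lit 5) (nat_lit 418) (nat_lit 397) (nat_lit 385))))) (XT.nd (nat_lit 234) (nat_lit 6384) (nat_lit 0) (XT.nd (nat_lit 78) (nat_lit 2736) (nat_lit 0) (XT.lf (nat_lit 0) (nat_lit 1052817720) (nat_lit 1292) (nat_lit 3550853115) (nat_lit 76) (nat_lit 2281602417) (nat_lit 635) (nat_lit 5) (nat_lit 652) (nat_lit 5) (nat_lit 636) (nat_lit 5) (nat_lit 419) (nat_lit 397) (nat_lit 384)) (XT.nd (nat_lit 78) (nat_lit 1444) (nat_lit 0) (XT.lf (nat_lit 0) (nat_lit 3100266190) (nat_lit 1292) (nat_lit 2191176160) (nat_lit 1368) (nat_lit 1644882654) (nat_lit 618) (nat_lit 5) (nat_lit 635) (nat_lit 5) (nat_lit 636) (nat_lit 5) (nat_lit 420) (nat_lit 397) (nat_lit 383)) (XT.lf (nat_lit 0) (nat_lit 2545982427) (nat_lit 1444) (nat_lit 4073787170) (nat_lit 76) (nat_lit 370549918) (nat_lit 599) (nat_lit 5) (nat_lit 618) (nat_lit 5) (nat_lit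 600) (nat_lit 5) (nat_lit 421) (nat_lit 397) (nat_lit 382)))) (XT.nd (nat_lit 156) (nat_lit 3344) (nat_lit 0) (XT.nd (nat_lit 78) (nat_lit 1596) (nat_lit 0) (XT.lf (nat_lit 0) (nat_lit 2775598388) (nat_lit 1444) (nat_lit 3993918354) (nat_lit 1520) (nat_lit 277624433) (nat_lit 580) (nat_lit 5) (nat_lit 599) (nat_lit 5) (nat_lit 600) (nat_lit 5) (nat_lit 422) (nat_lit 397) (nat_lit 381)) (XT.lf (nat_lit 0) (nat_lit 2676335785) (nat_lit 1520) (nat_lit 1202797023) (nat_lit 1596) (nat_lit 3227669737) (nat_lit 559) (nat_lit 5) (nat_lit 579) (nat_lit 5) (nat_lit 580) (nat_lit 5) (nat_lit 423) (nat_lit 397) (nat_lit 380))) (XT.nd (nat_lit 78) (nat_lit 1672) (nat_lit 0) (XT.lf (nat_lit 0) (nat_lit 907871049) (nat_lit 1672) (nat_lit 4544874279) (nat_lit 76) (nat_lit 1716708284) (nat_lit 537) (nat_lit 5) (nat_lit 559) (nat_lit 5) (nat_lit 538) (nat_lit 5) (nat_lit 424) (nat_lit 397) (nat_lit 379)) (XT.lf (nat_lit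 0) (nat_lit 2608774633) (nat_lit 1672) (nat_lit 2447977092) (nat_lit 1748) (nat_lit 2178152599) (nat_lit 515) (nat_lit 5) (nat_lit 537) (nat_lit 5) (nat_lit 538) (nat_lit 5) (nat_lit 425) (nat_lit 397) (nat_lit 378))))))) (XT.nd (nat_lit 1092) (nat_lit 8892) (nat_lit 0) (XT.nd (nat_lit 546) (nat_lit 5624) (nat_lit 0) (XT.nd (nat_lit 234) (nat_lit 3648) (nat_lit 0) (XT.nd (nat_lit 78) (nat_lit 2964) (nat_lit 0) (XT.lf (nat_lit 0) (nat_lit 1933713879) (nat_lit 1824) (nat_lit 4663199877) (nat_lit 76) (nat_lit 706499784) (nat_lit 491) (nat_lit 5) (nat_lit 515) (nat_lit 5) (nat_lit 492) (nat_lit 5) (nat_lit 426) (nat_lit 397) (nat_lit 377)) (XT.nd (nat_lit 78) (nat_lit 1140) (nat_lit 0) (XT.lf (nat_lit 0) (nat_lit 2704390896) (nat_lit 1824) (nat_lit 3383124345) (nat_lit 1900) (nat_lit 1287220014) (nat_lit 467) (nat_lit 5) (nat_lit 491) (nat_lit 5) (nat_lit 492) (nat_lit 5) (nat_lit 427) (nat_lit 397) (nat_lit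 376)) (XT.lf (nat_lit 0) (nat_lit 2812873987) (nat_lit 1064) (nat_lit 1105003) (nat_lit 1140) (nat_lit 4635156714) (nat_lit 452) (nat_lit 5) (nat_lit 466) (nat_lit 5) (nat_lit 467) (nat_lit 5) (nat_lit 428) (nat_lit 397) (nat_lit 375)))) (XT.nd (nat_lit 156) (nat_lit 1748) (nat_lit 0) (XT.nd (nat_lit 78) (nat_lit 988) (nat_lit 0) (XT.lf (nat_lit 0) (nat_lit 2952113534) (nat_lit 912) (nat_lit 4029426985) (nat_lit 988) (nat_lit 544849132) (nat_lit 440) (nat_lit 5) (nat_lit 452) (nat_lit 5) (nat_lit 453) (nat_lit 5) (nat_lit 429) (nat_lit 397) (nat_lit 374)) (XT.lf (nat_lit 0) (nat_lit 3129092199) (nat_lit 912) (nat_lit 431814710) (nat_lit 988) (nat_lit 4045768594) (nat_lit 427) (nat_lit 5) (nat_lit 439) (nat_lit 5) (nat_lit 440) (nat_lit 5) (nat_lit 430) (nat_lit 397) (nat_lit 373))) (XT.nd (nat_lit 78) (nat_lit 836) (nat_lit 0) (XT.lf (nat_lit 0) (nat_lit 57256245) (nat_lit 912) (nat_lit 4348709326)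 (nat_lit 76) (nat_lit 3284020593) (nat_lit 415) (nat_lit 5) (nat_lit 427) (nat_lit 5) (nat_lit 416) (nat_lit 5) (nat_lit 431) (nat_lit 397) (nat_lit 372)) (XT.lf (nat_lit 0) (nat_lit 3583601930) (nat_lit 836) (nat_lit 594918403) (nat_lit 912) (nat_lit 3597745663) (nat_lit 404) (nat_lit 5) (nat_lit 415) (nat_lit 5) (nat_lit 416) (nat_lit 5) (nat_lit 432) (nat_lit 397) (nat_lit 371))))) (XT.nd (nat_lit 234) (nat_lit 3040) (nat_lit 0) (XT.nd (nat_lit 78) (nat_lit 1672) (nat_lit 0) (XT.lf (nat_lit 0) (nat_lit 522582778) (nat_lit 912) (nat_lit 4005681176) (nat_lit 76) (nat_lit 3337372096) (nat_lit 392) (nat_lit 5) (nat_lit 404) (nat_lit 5) (nat_lit 393) (nat_lit 5) (nat_lit 433) (nat_lit 397) (nat_lit 370)) (XT.nd (nat_lit 78) (nat_lit 836) (nat_lit 0) (XT.lf (nat_lit 0) (nat_lit 4167075023) (nat_lit 836) (nat_lit 507549349) (nat_lit 912) (nat_lit 3283454024) (nat_lit 381) (nat_lit 5) (nat_lit 392) (nat_lit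 5) (nat_lit 393) (nat_lit 5) (nat_lit 434) (nat_lit 397) (nat_lit 369)) (XT.lf (nat_lit 0) (nat_lit 865472676) (nat_lit 836) (nat_lit 3550827985) (nat_lit 76) (nat_lit 3637296584) (nat_lit 370) (nat_lit 5) (nat_lit 381) (nat_lit 5) (nat_lit 371) (nat_lit 5) (nat_lit 435) (nat_lit 397) (nat_lit 368)))) (XT.nd (nat_lit 156) (nat_lit 1520) (nat_lit 0) (XT.nd (nat_lit 78) (nat_lit 760) (nat_lit 0) (XT.lf (nat_lit 0) (nat_lit 4870787252) (nat_lit 760) (nat_lit 185419874) (nat_lit 836) (nat_lit 3096107450) (nat_lit 360) (nat_lit 5) (nat_lit 370) (nat_lit 5) (nat_lit 371) (nat_lit 5) (nat_lit 436) (nat_lit 397) (nat_lit 367)) (XT.lf (nat_lit 0) (nat_lit 1092322226) (nat_lit 760) (nat_lit 2992788501) (nat_lit 76) (nat_lit 4168976649) (nat_lit 350) (nat_lit 5) (nat_lit 360) (nat_lit 5) (nat_lit 351) (nat_lit 5) (nat_lit 437) (nat_lit 397) (nat_lit 366))) (XT.nd (nat_lit 78) (nat_lit 760) (nat_lit 0) (XT.lf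 (nat_lit 0) (nat_lit 5331801194) (nat_lit 836) (nat_lit 2674979182) (nat_lit 76) (nat_lit 352379992) (nat_lit 340) (nat_lit 5) (nat_lit 351) (nat_lit 5) (nat_lit 341) (nat_lit 5) (nat_lit 438) (nat_lit 397) (nat_lit 365)) (XT.lf (nat_lit 0) (nat_lit 1208767722) (nat_lit 760) (nat_lit 2339737151) (nat_lit 76) (nat_lit 4918849379) (nat_lit 330) (nat_lit 5) (nat_lit 340) (nat_lit 5) (nat_lit 331) (nat_lit 5) (nat_lit 439) (nat_lit 397) (nat_lit 364)))))) (XT.nd (nat_lit 546) (nat_lit 3724) (nat_lit 0) (XT.nd (nat_lit 234) (nat_lit 3116) (nat_lit 0) (XT.nd (nat_lit 78) (nat_lit 1368) (nat_lit 0) (XT.lf (nat_lit 0) (nat_lit 5507115692) (nat_lit 760) (nat_lit 1979583290) (nat_lit 76) (nat_lit 1092174510) (nat_lit 321) (nat_lit 5) (nat_lit 331) (nat_lit 5) (nat_lit 322) (nat_lit 5) (nat_lit 440) (nat_lit 397) (nat_lit 363)) (XT.nd (nat_lit 78) (nat_lit 684) (nat_lit 0) (XT.lf (nat_lit 0) (nat_lit 1219720567)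 (nat_lit 684) (nat_lit 1599452951) (nat_lit 76) (nat_lit 5874502213) (nat_lit 312) (nat_lit 5) (nat_lit 321) (nat_lit 5) (nat_lit 313) (nat_lit 5) (nat_lit 441) (nat_lit 397) (nat_lit 362)) (XT.lf (nat_lit 0) (nat_lit 5585644195) (nat_lit 760) (nat_lit 1201688249) (nat_lit 76) (nat_lit 2024439537) (nat_lit 303) (nat_lit 5) (nat_lit 313) (nat_lit 5) (nat_lit 304) (nat_lit 5) (nat_lit 442) (nat_lit 397) (nat_lit 361)))) (XT.nd (nat_lit 156) (nat_lit 1824) (nat_lit 0) (XT.nd (nat_lit 78) (nat_lit 608) (nat_lit 0) (XT.lf (nat_lit 0) (nat_lit 1129397522) (nat_lit 684) (nat_lit 779387064) (nat_lit 76) (nat_lit 7024575118) (nat_lit 294) (nat_lit 5) (nat_lit 303) (nat_lit 5) (nat_lit 295) (nat_lit 5) (nat_lit 443) (nat_lit 397) (nat_lit 360)) (XT.lf (nat_lit 0) (nat_lit 5571416527) (nat_lit 684) (nat_lit 348557588) (nat_lit 76) (nat_lit 3138205638) (nat_lit 286) (nat_lit 5) (nat_lit 295) (nat_lit 5) (nat_lit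 287) (nat_lit 5) (nat_lit 444) (nat_lit 397) (nat_lit 359))) (XT.nd (nat_lit 78) (nat_lit 532) (nat_lit 0) (XT.lf (nat_lit 0) (nat_lit 114775769) (nat_lit 608) (nat_lit 827315695) (nat_lit 684) (nat_lit 8244637838) (nat_lit 269) (nat_lit 5) (nat_lit 277) (nat_lit 5) (nat_lit 278) (nat_lit 5) (nat_lit 445) (nat_lit 397) (nat_lit 358)) (XT.lf (nat_lit 0) (nat_lit 580379741) (nat_lit 532) (nat_lit 4891206555) (nat_lit 608) (nat_lit 3846789199) (nat_lit 262) (nat_lit 5) (nat_lit 269) (nat_lit 5) (nat_lit 270) (nat_lit 5) (nat_lit 446) (nat_lit 397) (nat_lit 357))))) (XT.nd (nat_lit 234) (nat_lit 1976) (nat_lit 0) (XT.nd (nat_lit 78) (nat_lit 1140) (nat_lit 0) (XT.lf (nat_lit 0) (nat_lit 668244398) (nat_lit 608) (nat_lit 8371020901) (nat_lit 76) (nat_lit 414736775) (nat_lit 254) (nat_lit 5) (nat_lit 262) (nat_lit 5) (nat_lit 255) (nat_lit 5) (nat_lit 447) (nat_lit 397) (nat_lit 356)) (XT.nd (nat_lit 78)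 (nat_lit 608) (nat_lit 0) (XT.lf (nat_lit 0) (nat_lit 1576074799) (nat_lit 532) (nat_lit 3711766673) (nat_lit 608) (nat_lit 4304923647) (nat_lit 247) (nat_lit 5) (nat_lit 254) (nat_lit 5) (nat_lit 255) (nat_lit 5) (nat_lit 448) (nat_lit 397) (nat_lit 355)) (XT.lf (nat_lit 0) (nat_lit 308579317) (nat_lit 608) (nat_lit 7631395454) (nat_lit 76) (nat_lit 1795633248) (nat_lit 239) (nat_lit 5) (nat_lit 247) (nat_lit 5) (nat_lit 240) (nat_lit 5) (nat_lit 449) (nat_lit 397) (nat_lit 354)))) (XT.nd (nat_lit 156) (nat_lit 988) (nat_lit 0) (XT.nd (nat_lit 78) (nat_lit 532) (nat_lit 0) (XT.lf (nat_lit 0) (nat_lit 2627011029) (nat_lit 456) (nat_lit 2392981424) (nat_lit 532) (nat_lit 4861818236) (nat_lit 233) (nat_lit 5) (nat_lit 239) (nat_lit 5) (nat_lit 240) (nat_lit 5) (nat_lit 450) (nat_lit 397) (nat_lit 353)) (XT.lf (nat_lit 0) (nat_lit 3176163572) (nat_lit 532) (nat_lit 6713307657) (nat_lit 608) (nat_lit 142597084)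 (nat_lit 226) (nat_lit 5) (nat_lit 233) (nat_lit 5) (nat_lit 234) (nat_lit 5) (nat_lit 451) (nat_lit 397) (nat_lit 352))) (XT.nd (nat_lit 78) (nat_lit 456) (nat_lit 0) (XT.lf (nat_lit 0) (nat_lit 3726326510) (nat_lit 456) (nat_lit 943214853) (nat_lit 532) (nat_lit 5516418391) (nat_lit 219) (nat_lit 5) (nat_lit 225) (nat_lit 5) (nat_lit 226) (nat_lit 5) (nat_lit 452) (nat_lit 397) (nat_lit 351)) (XT.lf (nat_lit 0) (nat_lit 4290259310) (nat_lit 456) (nat_lit 5365799771) (nat_lit 532) (nat_lit 687754041) (nat_lit 213) (nat_lit 5) (nat_lit 219) (nat_lit 5) (nat_lit 220) (nat_lit 5) (nat_lit 453) (nat_lit 397) (nat_lit 350))))))))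
noncomputable def xc32 : XT := (XT.nd (nat_lit 2106) (nat_lit 1672) (nat_lit 0) (XT.nd (nat_lit 1014) (nat_lit 4636) (nat_lit 0) (XT.nd (nat_lit 468) (nat_lit 2736) (nat_lit 0) (XT.nd (nat_lit 234) (nat_lit 1292) (nat_lit 0) (XT.nd (nat_lit 78) (nat_lit 912) (nat_lit 0) (XT.lf (nat_lit 0) (nat_lit 4241482482) (nat_lit 532) (nat_lit 5642668948) (nat_lit 76) (nat_lit 621458658) (nat_lit 206) (nat_lit 5) (nat_lit 213) (nat_lit 5) (nat_lit 207) (nat_lit 5) (nat_lit 454) (nat_lit 397) (nat_lit 349)) (XT.nd (nat_lit 78) (nat_lit 456) (nat_lit 0) (XT.lf (nat_lit 0) (nat_lit 5441635934) (nat_lit 456) (nat_lit 3907291480) (nat_lit 532) (nat_lit 1322451975) (nat_lit 200) (nat_lit 5) (nat_lit 206) (nat_lit 5) (nat_lit 207) (nat_lit 5) (nat_lit 455) (nat_lit 397) (nat_lit 348)) (XT.lf (nat_lit 0) (nat_lit 3738913184) (nat_lit 456) (nat_lit 4814236845) (nat_lit 76) (nat_lit 2288068226) (nat_lit 194) (nat_lit 5)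 (nat_lit 200) (nat_lit 5) (nat_lit 195) (nat_lit 5) (nat_lit 456) (nat_lit 397) (nat_lit 347)))) (XT.nd (nat_lit 78) (nat_lit 836) (nat_lit 0) (XT.lf (nat_lit 0) (nat_lit 6623197456) (nat_lit 456) (nat_lit 2345130623) (nat_lit 532) (nat_lit 2046968499) (nat_lit 188) (nat_lit 5) (nat_lit 194) (nat_lit 5) (nat_lit 195) (nat_lit 5) (nat_lit 457) (nat_lit 397) (nat_lit 346)) (XT.nd (nat_lit 78) (nat_lit 380) (nat_lit 0) (XT.lf (nat_lit 0) (nat_lit 3155374616) (nat_lit 456) (nat_lit 3975940328) (nat_lit 76) (nat_lit 4062138659) (nat_lit 182) (nat_lit 5) (nat_lit 188) (nat_lit 5) (nat_lit 183) (nat_lit 5) (nat_lit 458) (nat_lit 397) (nat_lit 345)) (XT.lf (nat_lit 0) (nat_lit 7827609368) (nat_lit 380) (nat_lit 686314302) (nat_lit 456) (nat_lit 2862204575) (nat_lit 177) (nat_lit 5) (nat_lit 182) (nat_lit 5) (nat_lit 183) (nat_lit 5) (nat_lit 459) (nat_lit 397) (nat_lit 344))))) (XT.nd (nat_lit 234) (nat_lit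 1444) (nat_lit 0) (XT.nd (nat_lit 78) (nat_lit 836) (nat_lit 0) (XT.lf (nat_lit 0) (nat_lit 2489925711) (nat_lit 456) (nat_lit 3135818929) (nat_lit 76) (nat_lit 5937152996) (nat_lit 171) (nat_lit 5) (nat_lit 177) (nat_lit 5) (nat_lit 172) (nat_lit 5) (nat_lit 460) (nat_lit 397) (nat_lit 343)) (XT.nd (nat_lit 78) (nat_lit 456) (nat_lit 0) (XT.lf (nat_lit 0) (nat_lit 7991674860) (nat_lit 456) (nat_lit 2714153629) (nat_lit 76) (nat_lit 1048506664) (nat_lit 166) (nat_lit 5) (nat_lit 172) (nat_lit 5) (nat_lit 167) (nat_lit 5) (nat_lit 461) (nat_lit 397) (nat_lit 342)) (XT.lf (nat_lit 0) (nat_lit 1741005368) (nat_lit 456) (nat_lit 2302308583) (nat_lit 76) (nat_lit 7906853695) (nat_lit 160) (nat_lit 5) (nat_lit 166) (nat_lit 5) (nat_lit 161) (nat_lit 5) (nat_lit 462) (nat_lit 397) (nat_lit 341)))) (XT.nd (nat_lit 156) (nat_lit 684) (nat_lit 0) (XT.nd (nat_lit 78) (nat_lit 380) (nat_lit 0) (XT.lf (nat_lit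 0) (nat_lit 7398128328) (nat_lit 456) (nat_lit 1895797662) (nat_lit 76) (nat_lit 2856664436) (nat_lit 155) (nat_lit 5) (nat_lit 161) (nat_lit 5) (nat_lit 156) (nat_lit 5) (nat_lit 463) (nat_lit 397) (nat_lit 340)) (XT.lf (nat_lit 0) (nat_lit 906413634) (nat_lit 380) (nat_lit 1484331096) (nat_lit 76) (nat_lit 9965173280) (nat_lit 150) (nat_lit 5) (nat_lit 155) (nat_lit 5) (nat_lit 151) (nat_lit 5) (nat_lit 464) (nat_lit 397) (nat_lit 339))) (XT.nd (nat_lit 78) (nat_lit 304) (nat_lit 0) (XT.lf (nat_lit 0) (nat_lit 6726597573) (nat_lit 456) (nat_lit 1098182789) (nat_lit 76) (nat_lit 4740876519) (nat_lit 145) (nat_lit 5) (nat_lit 151) (nat_lit 5) (nat_lit 146) (nat_lit 5) (nat_lit 465) (nat_lit 397) (nat_lit 338)) (XT.lf (nat_lit 0) (nat_lit 12089339798) (nat_lit 304) (nat_lit 674565180) (nat_lit 380) (nat_lit 16934446) (nat_lit 141) (nat_lit 5) (nat_lit 145) (nat_lit 5) (nat_lit 146) (nat_lit 5) (nat_lit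 466) (nat_lit 397) (nat_lit 337)))))) (XT.nd (nat_lit 546) (nat_lit 1976) (nat_lit 0) (XT.nd (nat_lit 234) (nat_lit 1216) (nat_lit 0) (XT.nd (nat_lit 78) (nat_lit 988) (nat_lit 0) (XT.lf (nat_lit 0) (nat_lit 5974190383) (nat_lit 456) (nat_lit 331130993) (nat_lit 76) (nat_lit 6694926077) (nat_lit 135) (nat_lit 5) (nat_lit 141) (nat_lit 5) (nat_lit 136) (nat_lit 5) (nat_lit 467) (nat_lit 397) (nat_lit 336)) (XT.nd (nat_lit 78) (nat_lit 380) (nat_lit 0) (XT.lf (nat_lit 0) (nat_lit 53059891) (nat_lit 304) (nat_lit 12134354216) (nat_lit 380) (nat_lit 1037971197) (nat_lit 127) (nat_lit 5) (nat_lit 131) (nat_lit 5) (nat_lit 132) (nat_lit 5) (nat_lit 468) (nat_lit 397) (nat_lit 335)) (XT.lf (nat_lit 0) (nat_lit 400042013) (nat_lit 304) (nat_lit 4739876104) (nat_lit 380) (nat_lit 8315145926) (nat_lit 122) (nat_lit 5) (nat_lit 126) (nat_lit 5) (nat_lit 127) (nat_lit 5) (nat_lit 469) (nat_lit 397) (nat_lit 334))))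 (XT.nd (nat_lit 156) (nat_lit 608) (nat_lit 0) (XT.nd (nat_lit 78) (nat_lit 304) (nat_lit 0) (XT.lf (nat_lit 0) (nat_lit 754575776) (nat_lit 304) (nat_lit 10788282267) (nat_lit 380) (nat_lit 2147563157) (nat_lit 118) (nat_lit 5) (nat_lit 122) (nat_lit 5) (nat_lit 123) (nat_lit 5) (nat_lit 470) (nat_lit 397) (nat_lit 333)) (XT.lf (nat_lit 0) (nat_lit 1082374572) (nat_lit 228) (nat_lit 3136323881) (nat_lit 304) (nat_lit 9712220070) (nat_lit 114) (nat_lit 5) (nat_lit 117) (nat_lit 5) (nat_lit 118) (nat_lit 5) (nat_lit 471) (nat_lit 397) (nat_lit 332))) (XT.nd (nat_lit 78) (nat_lit 304) (nat_lit 0) (XT.lf (nat_lit 0) (nat_lit 1396254240) (nat_lit 304) (nat_lit 9420658063) (nat_lit 380) (nat_lit 3360033199) (nat_lit 110) (nat_lit 5) (nat_lit 114) (nat_lit 5) (nat_lit 115) (nat_lit 5) (nat_lit 472) (nat_lit 397) (nat_lit 331)) (XT.lf (nat_lit 0) (nat_lit 1698904890) (nat_lit 228) (nat_lit 1504272370) (nat_lit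 304) (nat_lit 11225520146) (nat_lit 106) (nat_lit 5) (nat_lit 109) (nat_lit 5) (nat_lit 110) (nat_lit 5) (nat_lit 473) (nat_lit 397) (nat_lit 330))))) (XT.nd (nat_lit 234) (nat_lit 1064) (nat_lit 0) (XT.nd (nat_lit 78) (nat_lit 608) (nat_lit 0) (XT.lf (nat_lit 0) (nat_lit 1964992202) (nat_lit 304) (nat_lit 8039369242) (nat_lit 380) (nat_lit 4681463045) (nat_lit 102) (nat_lit 5) (nat_lit 106) (nat_lit 5) (nat_lit 107) (nat_lit 5) (nat_lit 474) (nat_lit 397) (nat_lit 329)) (XT.nd (nat_lit 78) (nat_lit 304) (nat_lit 0) (XT.lf (nat_lit 0) (nat_lit 2088308766) (nat_lit 304) (nat_lit 12714312643) (nat_lit 76) (nat_lit 146649993) (nat_lit 98) (nat_lit 5) (nat_lit 102) (nat_lit 5) (nat_lit 99) (nat_lit 5) (nat_lit 475) (nat_lit 397) (nat_lit 328)) (XT.lf (nat_lit 0) (nat_lit 2446483035) (nat_lit 304) (nat_lit 6652660383) (nat_lit 380) (nat_lit 6118829224) (nat_lit 94) (nat_lit 5) (nat_lit 98) (nat_lit 5) (nat_lit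 99) (nat_lit 5) (nat_lit 476) (nat_lit 397) (nat_lit 327)))) (XT.nd (nat_lit 156) (nat_lit 532) (nat_lit 0) (XT.nd (nat_lit 78) (nat_lit 228) (nat_lit 0) (XT.lf (nat_lit 0) (nat_lit 876072502) (nat_lit 304) (nat_lit 12826896407) (nat_lit 76) (nat_lit 1790433367) (nat_lit 90) (nat_lit 5) (nat_lit 94) (nat_lit 5) (nat_lit 91) (nat_lit 5) (nat_lit 477) (nat_lit 397) (nat_lit 326)) (XT.lf (nat_lit 0) (nat_lit 2825061147) (nat_lit 228) (nat_lit 5269225255) (nat_lit 304) (nat_lit 7680068728) (nat_lit 87) (nat_lit 5) (nat_lit 90) (nat_lit 5) (nat_lit 91) (nat_lit 5) (nat_lit 478) (nat_lit 397) (nat_lit 325))) (XT.nd (nat_lit 78) (nat_lit 304) (nat_lit 0) (XT.lf (nat_lit 0) (nat_lit 2984128805) (nat_lit 228) (nat_lit 12620871912) (nat_lit 304) (nat_lit 457217903) (nat_lit 84) (nat_lit 5) (nat_lit 87) (nat_lit 5) (nat_lit 88) (nat_lit 5) (nat_lit 479) (nat_lit 397) (nat_lit 324)) (XT.lf (nat_lit 0) (nat_lit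 3083532170) (nat_lit 228) (nat_lit 3898305082) (nat_lit 304) (nat_lit 9374153294) (nat_lit 80) (nat_lit 5) (nat_lit 83) (nat_lit 5) (nat_lit 84) (nat_lit 5) (nat_lit 480) (nat_lit 397) (nat_lit 323))))))) (XT.nd (nat_lit 56940) (nat_lit 0) (nat_lit 38076) (XT.nd (nat_lit 468) (nat_lit 152) (nat_lit 0) (XT.nd (nat_lit 234) (nat_lit 760) (nat_lit 0) (XT.nd (nat_lit 78) (nat_lit 532) (nat_lit 0) (XT.lf (nat_lit 0) (nat_lit 3166178663) (nat_lit 228) (nat_lit 11562694470) (nat_lit 304) (nat_lit 1927822678) (nat_lit 77) (nat_lit 5) (nat_lit 80) (nat_lit 5) (nat_lit 81) (nat_lit 5) (nat_lit 481) (nat_lit 397) (nat_lit 322)) (XT.nd (nat_lit 78) (nat_lit 228) (nat_lit 0) (XT.lf (nat_lit 0) (nat_lit 3202987089) (nat_lit 228) (nat_lit 2549793704) (nat_lit 304) (nat_lit 11211173049) (nat_lit 73) (nat_lit 5) (nat_lit 76) (nat_lit 5) (nat_lit 77) (nat_lit 5) (nat_lit 482) (nat_lit 397) (nat_lit 321)) (XT.lf (nat_lit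 0) (nat_lit 3198692917) (nat_lit 228) (nat_lit 10545031412) (nat_lit 304) (nat_lit 3534329120) (nat_lit 70) (nat_lit 5) (nat_lit 73) (nat_lit 5) (nat_lit 74) (nat_lit 5) (nat_lit 483) (nat_lit 397) (nat_lit 320)))) (XT.nd (nat_lit 78) (nat_lit 456) (nat_lit 0) (XT.lf (nat_lit 0) (nat_lit 3162598523) (nat_lit 228) (nat_lit 1234350670) (nat_lit 304) (nat_lit 13202430356) (nat_lit 66) (nat_lit 5) (nat_lit 69) (nat_lit 5) (nat_lit 70) (nat_lit 5) (nat_lit 484) (nat_lit 397) (nat_lit 319)) (XT.nd (nat_lit 78) (nat_lit 304) (nat_lit 0) (XT.lf (nat_lit 0) (nat_lit 3059801206) (nat_lit 152) (nat_lit 9579445476) (nat_lit 228) (nat_lit 5288210430) (nat_lit 64) (nat_lit 5) (nat_lit 66) (nat_lit 5) (nat_lit 67) (nat_lit 5) (nat_lit 485) (nat_lit 397) (nat_lit 318)) (XT.lf (nat_lit 0) (nat_lit 2903157286) (nat_lit 304) (nat_lit 15324304927) (nat_lit 76) (nat_lit 35998296) (nat_lit 60) (nat_lit 5) (nat_lit 64) (nat_lit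 5) (nat_lit 61) (nat_lit 5) (nat_lit 486) (nat_lit 397) (nat_lit 317))))) (XT.nd (nat_lit 56160) (nat_lit 0) (nat_lit 52516) (XT.nd (nat_lit 56004) (nat_lit 0) (nat_lit 54416) (XT.lf (nat_lit 0) (nat_lit 2725370000) (nat_lit 152) (nat_lit 8678473846) (nat_lit 228) (nat_lit 7202293407) (nat_lit 58) (nat_lit 5) (nat_lit 60) (nat_lit 5) (nat_lit 61) (nat_lit 5) (nat_lit 487) (nat_lit 397) (nat_lit 316)) (XT.nd (nat_lit 78) (nat_lit 76) (nat_lit 0) (XT.lf (nat_lit 0) (nat_lit 314749548) (nat_lit 228) (nat_lit 1457416601) (nat_lit 228) (nat_lit 1457416601) (nat_lit 775) (nat_lit 4) (nat_lit 778) (nat_lit 5) (nat_lit 778) (nat_lit 4) (nat_lit 404) (nat_lit 398) (nat_lit 398)) (XT.lf (nat_lit 0) (nat_lit 1845894631) (nat_lit 304) (nat_lit 580396310) (nat_lit 76) (nat_lit 4042796014) (nat_lit 774) (nat_lit 5) (nat_lit 778) (nat_lit 5) (nat_lit 775) (nat_lit 4) (nat_lit 405) (nat_lit 398) (nat_lit 397)))) (XT.nd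 (nat_lit 156) (nat_lit 1140) (nat_lit 0) (XT.nd (nat_lit 78) (nat_lit 380) (nat_lit 0) (XT.lf (nat_lit 0) (nat_lit 80519151) (nat_lit 380) (nat_lit 1716912701) (nat_lit 76) (nat_lit 4684426077) (nat_lit 769) (nat_lit 5) (nat_lit 774) (nat_lit 5) (nat_lit 770) (nat_lit 5) (nat_lit 406) (nat_lit 398) (nat_lit 396)) (XT.lf (nat_lit 0) (nat_lit 3696674559) (nat_lit 380) (nat_lit 1019965496) (nat_lit 456) (nat_lit 1780697742) (nat_lit 764) (nat_lit 5) (nat_lit 769) (nat_lit 5) (nat_lit 770) (nat_lit 5) (nat_lit 407) (nat_lit 398) (nat_lit 395))) (XT.nd (nat_lit 78) (nat_lit 608) (nat_lit 0) (XT.lf (nat_lit 0) (nat_lit 2693919785) (nat_lit 456) (nat_lit 103834883) (nat_lit 532) (nat_lit 3717993701) (nat_lit 757) (nat_lit 5) (nat_lit 763) (nat_lit 5) (nat_lit 764) (nat_lit 5) (nat_lit 408) (nat_lit 398) (nat_lit 394)) (XT.lf (nat_lit 0) (nat_lit 811355182) (nat_lit 608) (nat_lit 4786722070) (nat_lit 76) (nat_lit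 938912206) (nat_lit 749) (nat_lit 5) (nat_lit 757) (nat_lit 5) (nat_lit 750) (nat_lit 5) (nat_lit 409) (nat_lit 398) (nat_lit 393)))))) (XT.nd (nat_lit 546) (nat_lit 9348) (nat_lit 0) (XT.nd (nat_lit 234) (nat_lit 3648) (nat_lit 0) (XT.nd (nat_lit 78) (nat_lit 836) (nat_lit 0) (XT.lf (nat_lit 0) (nat_lit 861439381) (nat_lit 608) (nat_lit 4434116266) (nat_lit 684) (nat_lit 1265447763) (nat_lit 741) (nat_lit 5) (nat_lit 749) (nat_lit 5) (nat_lit 750) (nat_lit 5) (nat_lit 410) (nat_lit 398) (nat_lit 392)) (XT.nd (nat_lit 78) (nat_lit 76) (nat_lit 0) (XT.lf (nat_lit 0) (nat_lit 30028389) (nat_lit 684) (nat_lit 3127542011) (nat_lit 760) (nat_lit 3430297569) (nat_lit 731) (nat_lit 5) (nat_lit 740) (nat_lit 5) (nat_lit 741) (nat_lit 5) (nat_lit 411) (nat_lit 398) (nat_lit 391)) (XT.lf (nat_lit 0) (nat_lit 948221859) (nat_lit 760) (nat_lit 729290597) (nat_lit 76) (nat_lit 4940100027) (nat_lit 730) (nat_lit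 5) (nat_lit 740) (nat_lit 5) (nat_lit 731) (nat_lit 5) (nat_lit 412) (nat_lit 398) (nat_lit 390)))) (XT.nd (nat_lit 156) (nat_lit 1976) (nat_lit 0) (XT.nd (nat_lit 78) (nat_lit 912) (nat_lit 0) (XT.lf (nat_lit 0) (nat_lit 5214348486) (nat_lit 760) (nat_lit 78604316) (nat_lit 836) (nat_lit 1357228647) (nat_lit 720) (nat_lit 5) (nat_lit 730) (nat_lit 5) (nat_lit 731) (nat_lit 5) (nat_lit 413) (nat_lit 398) (nat_lit 389)) (XT.lf (nat_lit 0) (nat_lit 2939618267) (nat_lit 912) (nat_lit 2099100408) (nat_lit 76) (nat_lit 1646706969) (nat_lit 708) (nat_lit 5) (nat_lit 720) (nat_lit 5) (nat_lit 709) (nat_lit 5) (nat_lit 414) (nat_lit 398) (nat_lit 388))) (XT.nd (nat_lit 78) (nat_lit 988) (nat_lit 0) (XT.lf (nat_lit 0) (nat_lit 507071441) (nat_lit 988) (nat_lit 2703728395) (nat_lit 76) (nat_lit 3512882309) (nat_lit 695) (nat_lit 5) (nat_lit 708) (nat_lit 5) (nat_lit 696) (nat_lit 5) (nat_lit 415) (nat_lit 398)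 (nat_lit 387)) (XT.lf (nat_lit 0) (nat_lit 3502102163) (nat_lit 988) (nat_lit 1228581443) (nat_lit 1064) (nat_lit 2034039805) (nat_lit 682) (nat_lit 5) (nat_lit 695) (nat_lit 5) (nat_lit 696) (nat_lit 5) (nat_lit 416) (nat_lit 398) (nat_lit 386))))) (XT.nd (nat_lit 234) (nat_lit 5776) (nat_lit 0) (XT.nd (nat_lit 78) (nat_lit 2432) (nat_lit 0) (XT.lf (nat_lit 0) (nat_lit 2147467781) (nat_lit 1140) (nat_lit 3772450037) (nat_lit 76) (nat_lit 888729534) (nat_lit 667) (nat_lit 5) (nat_lit 682) (nat_lit 5) (nat_lit 668) (nat_lit 5) (nat_lit 417) (nat_lit 398) (nat_lit 385)) (XT.nd (nat_lit 78) (nat_lit 1292) (nat_lit 0) (XT.lf (nat_lit 0) (nat_lit 2619014291) (nat_lit 1140) (nat_lit 3718267168) (nat_lit 1216) (nat_lit 518140777) (nat_lit 652) (nat_lit 5) (nat_lit 667) (nat_lit 5) (nat_lit 668) (nat_lit 5) (nat_lit 418) (nat_lit 398) (nat_lit 384)) (XT.lf (nat_lit 0) (nat_lit 2247128191) (nat_lit 1216) (nat_lit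 1358477709) (nat_lit 1292) (nat_lit 3299407316) (nat_lit 635) (nat_lit 5) (nat_lit 651) (nat_lit 5) (nat_lit 652) (nat_lit 5) (nat_lit 419) (nat_lit 398) (nat_lit 383)))) (XT.nd (nat_lit 156) (nat_lit 3040) (nat_lit 0) (XT.nd (nat_lit 78) (nat_lit 1368) (nat_lit 0) (XT.lf (nat_lit 0) (nat_lit 794872725) (nat_lit 1368) (nat_lit 5030191008) (nat_lit 76) (nat_lit 1132524164) (nat_lit 617) (nat_lit 5) (nat_lit 635) (nat_lit 5) (nat_lit 618) (nat_lit 5) (nat_lit 420) (nat_lit 398) (nat_lit 382)) (XT.lf (nat_lit 0) (nat_lit 1643493276) (nat_lit 1368) (nat_lit 3246366863) (nat_lit 1444) (nat_lit 2122999983) (nat_lit 599) (nat_lit 5) (nat_lit 617) (nat_lit 5) (nat_lit 618) (nat_lit 5) (nat_lit 421) (nat_lit 398) (nat_lit 381))) (XT.nd (nat_lit 78) (nat_lit 1520) (nat_lit 0) (XT.lf (nat_lit 0) (nat_lit 1412696232) (nat_lit 1444) (nat_lit 515103590) (nat_lit 1520) (nat_lit 5143403724) (nat_lit 579) (nat_lit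 5) (nat_lit 598) (nat_lit 5) (nat_lit 599) (nat_lit 5) (nat_lit 422) (nat_lit 398) (nat_lit 380)) (XT.lf (nat_lit 0) (nat_lit 1217433064) (nat_lit 1520) (nat_lit 4789699339) (nat_lit 1596) (nat_lit 1125176952) (nat_lit 559) (nat_lit 5) (nat_lit 579) (nat_lit 5) (nat_lit 580) (nat_lit 5) (nat_lit 423) (nat_lit 398) (nat_lit 379))))))))
noncomputable def xc33 : XT := (XT.nd (nat_lit 2106) (nat_lit 11324) (nat_lit 0) (XT.nd (nat_lit 1014) (nat_lit 9196) (nat_lit 0) (XT.nd (nat_lit 468) (nat_lit 6004) (nat_lit 0) (XT.nd (nat_lit 234) (nat_lit 3952) (nat_lit 0) (XT.nd (nat_lit 78) (nat_lit 3496) (nat_lit 0) (XT.lf (nat_lit 0) (nat_lit 1063143732) (nat_lit 1596) (nat_lit 1838201417) (nat_lit 1672) (nat_lit 4294975728) (nat_lit 537) (nat_lit 5) (nat_lit 558) (nat_lit 5) (nat_lit 559) (nat_lit 5) (nat_lit 424) (nat_lit 398) (nat_lit 378)) (XT.nd (nat_lit 78) (nat_lit 1824) (nat_lit 0) (XT.lf (nat_lit 0) (nat_lit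 956137974) (nat_lit 1672) (nat_lit 6012918295) (nat_lit 1748) (nat_lit 294343163) (nat_lit 515) (nat_lit 5) (nat_lit 537) (nat_lit 5) (nat_lit 538) (nat_lit 5) (nat_lit 425) (nat_lit 398) (nat_lit 377)) (XT.lf (nat_lit 0) (nat_lit 873886993) (nat_lit 1748) (nat_lit 2845250702) (nat_lit 1824) (nat_lit 3614004155) (nat_lit 491) (nat_lit 5) (nat_lit 514) (nat_lit 5) (nat_lit 515) (nat_lit 5) (nat_lit 426) (nat_lit 398) (nat_lit 376)))) (XT.nd (nat_lit 78) (nat_lit 2052) (nat_lit 0) (XT.lf (nat_lit 0) (nat_lit 375037560) (nat_lit 1900) (nat_lit 6560949150) (nat_lit 76) (nat_lit 470165934) (nat_lit 466) (nat_lit 5) (nat_lit 491) (nat_lit 5) (nat_lit 467) (nat_lit 5) (nat_lit 427) (nat_lit 398) (nat_lit 375)) (XT.nd (nat_lit 78) (nat_lit 988) (nat_lit 0) (XT.lf (nat_lit 0) (nat_lit 833361304) (nat_lit 1064) (nat_lit 3557872739) (nat_lit 1140) (nat_lit 3090518224) (nat_lit 452) (nat_lit 5) (nat_lit 466) (nat_lit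 5) (nat_lit 467) (nat_lit 5) (nat_lit 428) (nat_lit 398) (nat_lit 374)) (XT.lf (nat_lit 0) (nat_lit 874980348) (nat_lit 912) (nat_lit 20683340) (nat_lit 988) (nat_lit 6665036694) (nat_lit 439) (nat_lit 5) (nat_lit 451) (nat_lit 5) (nat_lit 452) (nat_lit 5) (nat_lit 429) (nat_lit 398) (nat_lit 373))))) (XT.nd (nat_lit 234) (nat_lit 3344) (nat_lit 0) (XT.nd (nat_lit 78) (nat_lit 1748) (nat_lit 0) (XT.lf (nat_lit 0) (nat_lit 930804215) (nat_lit 912) (nat_lit 3995927458) (nat_lit 988) (nat_lit 2715538276) (nat_lit 427) (nat_lit 5) (nat_lit 439) (nat_lit 5) (nat_lit 440) (nat_lit 5) (nat_lit 430) (nat_lit 398) (nat_lit 372)) (XT.nd (nat_lit 78) (nat_lit 836) (nat_lit 0) (XT.lf (nat_lit 0) (nat_lit 1035847853) (nat_lit 836) (nat_lit 245191814) (nat_lit 912) (nat_lit 6446151668) (nat_lit 415) (nat_lit 5) (nat_lit 426) (nat_lit 5) (nat_lit 427) (nat_lit 5) (nat_lit 431) (nat_lit 398) (nat_lit 371)) (XT.lf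 (nat_lit 0) (nat_lit 1156174592) (nat_lit 836) (nat_lit 4177652352) (nat_lit 912) (nat_lit 2481017103) (nat_lit 404) (nat_lit 5) (nat_lit 415) (nat_lit 5) (nat_lit 416) (nat_lit 5) (nat_lit 432) (nat_lit 398) (nat_lit 370)))) (XT.nd (nat_lit 156) (nat_lit 1596) (nat_lit 0) (XT.nd (nat_lit 78) (nat_lit 836) (nat_lit 0) (XT.lf (nat_lit 0) (nat_lit 1321168228) (nat_lit 836) (nat_lit 214593745) (nat_lit 912) (nat_lit 6370088367) (nat_lit 392) (nat_lit 5) (nat_lit 403) (nat_lit 5) (nat_lit 404) (nat_lit 5) (nat_lit 433) (nat_lit 398) (nat_lit 369)) (XT.lf (nat_lit 0) (nat_lit 1500075397) (nat_lit 836) (nat_lit 4119791861) (nat_lit 912) (nat_lit 2379787246) (nat_lit 381) (nat_lit 5) (nat_lit 392) (nat_lit 5) (nat_lit 393) (nat_lit 5) (nat_lit 434) (nat_lit 398) (nat_lit 368))) (XT.nd (nat_lit 78) (nat_lit 760) (nat_lit 0) (XT.lf (nat_lit 0) (nat_lit 1667038508) (nat_lit 836) (nat_lit 6375465716) (nat_lit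 76) (nat_lit 54359711) (nat_lit 370) (nat_lit 5) (nat_lit 381) (nat_lit 5) (nat_lit 371) (nat_lit 5) (nat_lit 435) (nat_lit 398) (nat_lit 367)) (XT.lf (nat_lit 0) (nat_lit 1953679643) (nat_lit 760) (nat_lit 3837718050) (nat_lit 836) (nat_lit 2405513935) (nat_lit 360) (nat_lit 5) (nat_lit 370) (nat_lit 5) (nat_lit 371) (nat_lit 5) (nat_lit 436) (nat_lit 398) (nat_lit 366)))))) (XT.nd (nat_lit 546) (nat_lit 4180) (nat_lit 0) (XT.nd (nat_lit 234) (nat_lit 2736) (nat_lit 0) (XT.nd (nat_lit 78) (nat_lit 1520) (nat_lit 0) (XT.lf (nat_lit 0) (nat_lit 1683416899) (nat_lit 760) (nat_lit 6075048129) (nat_lit 76) (nat_lit 541941275) (nat_lit 350) (nat_lit 5) (nat_lit 360) (nat_lit 5) (nat_lit 351) (nat_lit 5) (nat_lit 437) (nat_lit 398) (nat_lit 365)) (XT.nd (nat_lit 78) (nat_lit 760) (nat_lit 0) (XT.lf (nat_lit 0) (nat_lit 2508659004) (nat_lit 760) (nat_lit 3345543388) (nat_lit 836) (nat_lit 2552653412) (nat_lit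 340) (nat_lit 5) (nat_lit 350) (nat_lit 5) (nat_lit 351) (nat_lit 5) (nat_lit 438) (nat_lit 398) (nat_lit 364)) (XT.lf (nat_lit 0) (nat_lit 1588715456) (nat_lit 760) (nat_lit 5690369650) (nat_lit 76) (nat_lit 1237676096) (nat_lit 330) (nat_lit 5) (nat_lit 340) (nat_lit 5) (nat_lit 331) (nat_lit 5) (nat_lit 439) (nat_lit 398) (nat_lit 363)))) (XT.nd (nat_lit 156) (nat_lit 1368) (nat_lit 0) (XT.nd (nat_lit 78) (nat_lit 684) (nat_lit 0) (XT.lf (nat_lit 0) (nat_lit 3157114548) (nat_lit 684) (nat_lit 2656226387) (nat_lit 760) (nat_lit 2816416397) (nat_lit 321) (nat_lit 5) (nat_lit 330) (nat_lit 5) (nat_lit 331) (nat_lit 5) (nat_lit 440) (nat_lit 398) (nat_lit 362)) (XT.lf (nat_lit 0) (nat_lit 1387431068) (nat_lit 684) (nat_lit 5229399590) (nat_lit 76) (nat_lit 2129383718) (nat_lit 312) (nat_lit 5) (nat_lit 321) (nat_lit 5) (nat_lit 313) (nat_lit 5) (nat_lit 441) (nat_lit 398) (nat_lit 361))) (XT.nd (nat_lit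 78) (nat_lit 684) (nat_lit 0) (XT.lf (nat_lit 0) (nat_lit 3891509059) (nat_lit 684) (nat_lit 1781670807) (nat_lit 760) (nat_lit 3192736512) (nat_lit 303) (nat_lit 5) (nat_lit 312) (nat_lit 5) (nat_lit 313) (nat_lit 5) (nat_lit 442) (nat_lit 398) (nat_lit 360)) (XT.lf (nat_lit 0) (nat_lit 1083374590) (nat_lit 684) (nat_lit 4699809845) (nat_lit 76) (nat_lit 3205897000) (nat_lit 294) (nat_lit 5) (nat_lit 303) (nat_lit 5) (nat_lit 295) (nat_lit 5) (nat_lit 443) (nat_lit 398) (nat_lit 359))))) (XT.nd (nat_lit 234) (nat_lit 2280) (nat_lit 0) (XT.nd (nat_lit 78) (nat_lit 1292) (nat_lit 0) (XT.lf (nat_lit 0) (nat_lit 4704600460) (nat_lit 608) (nat_lit 732819106) (nat_lit 684) (nat_lit 3678243482) (nat_lit 286) (nat_lit 5) (nat_lit 294) (nat_lit 5) (nat_lit 295) (nat_lit 5) (nat_lit 444) (nat_lit 398) (nat_lit 358)) (XT.nd (nat_lit 78) (nat_lit 608) (nat_lit 0) (XT.lf (nat_lit 0) (nat_lit 679694900) (nat_lit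 684) (nat_lit 4109041054) (nat_lit 76) (nat_lit 4456972044) (nat_lit 277) (nat_lit 5) (nat_lit 286) (nat_lit 5) (nat_lit 278) (nat_lit 5) (nat_lit 445) (nat_lit 398) (nat_lit 357)) (XT.lf (nat_lit 0) (nat_lit 5112234738) (nat_lit 684) (nat_lit 3793099953) (nat_lit 76) (nat_lit 473960523) (nat_lit 269) (nat_lit 5) (nat_lit 278) (nat_lit 5) (nat_lit 270) (nat_lit 5) (nat_lit 446) (nat_lit 398) (nat_lit 356)))) (XT.nd (nat_lit 156) (nat_lit 1140) (nat_lit 0) (XT.nd (nat_lit 78) (nat_lit 532) (nat_lit 0) (XT.lf (nat_lit 0) (nat_lit 178898456) (nat_lit 608) (nat_lit 3464368560) (nat_lit 76) (nat_lit 5873202916) (nat_lit 261) (nat_lit 5) (nat_lit 269) (nat_lit 5) (nat_lit 262) (nat_lit 5) (nat_lit 447) (nat_lit 398) (nat_lit 355)) (XT.lf (nat_lit 0) (nat_lit 4702701758) (nat_lit 608) (nat_lit 3130405719) (nat_lit 76) (nat_lit 1824043155) (nat_lit 254) (nat_lit 5) (nat_lit 262) (nat_lit 5) (nat_lit 255) (nat_lit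 5) (nat_lit 448) (nat_lit 398) (nat_lit 354))) (XT.nd (nat_lit 78) (nat_lit 608) (nat_lit 0) (XT.lf (nat_lit 0) (nat_lit 7026005801) (nat_lit 532) (nat_lit 2353033959) (nat_lit 608) (nat_lit 422679088) (nat_lit 247) (nat_lit 5) (nat_lit 254) (nat_lit 5) (nat_lit 255) (nat_lit 5) (nat_lit 449) (nat_lit 398) (nat_lit 353)) (XT.lf (nat_lit 0) (nat_lit 4205825131) (nat_lit 608) (nat_lit 2425341009) (nat_lit 76) (nat_lit 3318580958) (nat_lit 239) (nat_lit 5) (nat_lit 247) (nat_lit 5) (nat_lit 240) (nat_lit 5) (nat_lit 450) (nat_lit 398) (nat_lit 352))))))) (XT.nd (nat_lit 1092) (nat_lit 4636) (nat_lit 0) (XT.nd (nat_lit 546) (nat_lit 2812) (nat_lit 0) (XT.nd (nat_lit 234) (nat_lit 2356) (nat_lit 0) (XT.nd (nat_lit 78) (nat_lit 1064) (nat_lit 0) (XT.lf (nat_lit 0) (nat_lit 8052641311) (nat_lit 456) (nat_lit 927412071) (nat_lit 532) (nat_lit 1121857946) (nat_lit 233) (nat_lit 5) (nat_lit 239) (nat_lit 5)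 (nat_lit 240) (nat_lit 5) (nat_lit 451) (nat_lit 398) (nat_lit 351)) (XT.nd (nat_lit 78) (nat_lit 456) (nat_lit 0) (XT.lf (nat_lit 0) (nat_lit 3622768078) (nat_lit 608) (nat_lit 1685031292) (nat_lit 76) (nat_lit 4949739191) (nat_lit 225) (nat_lit 5) (nat_lit 233) (nat_lit 5) (nat_lit 226) (nat_lit 5) (nat_lit 452) (nat_lit 398) (nat_lit 350)) (XT.lf (nat_lit 0) (nat_lit 8505995819) (nat_lit 532) (nat_lit 1295094749) (nat_lit 76) (nat_lit 616368635) (nat_lit 219) (nat_lit 5) (nat_lit 226) (nat_lit 5) (nat_lit 220) (nat_lit 5) (nat_lit 453) (nat_lit 398) (nat_lit 349)))) (XT.nd (nat_lit 156) (nat_lit 1368) (nat_lit 0) (XT.nd (nat_lit 78) (nat_lit 456) (nat_lit 0) (XT.lf (nat_lit 0) (nat_lit 2954098876) (nat_lit 532) (nat_lit 916677780) (nat_lit 76) (nat_lit 6710234288) (nat_lit 212) (nat_lit 5) (nat_lit 219) (nat_lit 5) (nat_lit 213) (nat_lit 5) (nat_lit 454) (nat_lit 398) (nat_lit 348)) (XT.lf (nat_lit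 0) (nat_lit 7960152677) (nat_lit 532) (nat_lit 523215050) (nat_lit 76) (nat_lit 2265441703) (nat_lit 206) (nat_lit 5) (nat_lit 213) (nat_lit 5) (nat_lit 207) (nat_lit 5) (nat_lit 455) (nat_lit 398) (nat_lit 347))) (XT.nd (nat_lit 78) (nat_lit 836) (nat_lit 0) (XT.lf (nat_lit 0) (nat_lit 2199790762) (nat_lit 532) (nat_lit 127629131) (nat_lit 76) (nat_lit 8593263036) (nat_lit 199) (nat_lit 5) (nat_lit 206) (nat_lit 5) (nat_lit 200) (nat_lit 5) (nat_lit 456) (nat_lit 398) (nat_lit 346)) (XT.lf (nat_lit 0) (nat_lit 268482766) (nat_lit 456) (nat_lit 7069679107) (nat_lit 532) (nat_lit 3758421514) (nat_lit 188) (nat_lit 5) (nat_lit 194) (nat_lit 5) (nat_lit 195) (nat_lit 5) (nat_lit 457) (nat_lit 398) (nat_lit 345))))) (XT.nd (nat_lit 234) (nat_lit 1520) (nat_lit 0) (XT.nd (nat_lit 78) (nat_lit 836) (nat_lit 0) (XT.lf (nat_lit 0) (nat_lit 683508192) (nat_lit 380) (nat_lit 680146965) (nat_lit 456) (nat_lit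 9913362942) (nat_lit 182) (nat_lit 5) (nat_lit 187) (nat_lit 5) (nat_lit 188) (nat_lit 5) (nat_lit 458) (nat_lit 398) (nat_lit 344)) (XT.nd (nat_lit 78) (nat_lit 456) (nat_lit 0) (XT.lf (nat_lit 0) (nat_lit 1075852242) (nat_lit 380) (nat_lit 5565253492) (nat_lit 456) (nat_lit 4820210140) (nat_lit 177) (nat_lit 5) (nat_lit 182) (nat_lit 5) (nat_lit 183) (nat_lit 5) (nat_lit 459) (nat_lit 398) (nat_lit 343)) (XT.lf (nat_lit 0) (nat_lit 447780616) (nat_lit 456) (nat_lit 10155897464) (nat_lit 76) (nat_lit 1046858929) (nat_lit 171) (nat_lit 5) (nat_lit 177) (nat_lit 5) (nat_lit 172) (nat_lit 5) (nat_lit 460) (nat_lit 398) (nat_lit 342)))) (XT.nd (nat_lit 156) (nat_lit 760) (nat_lit 0) (XT.nd (nat_lit 78) (nat_lit 380) (nat_lit 0) (XT.lf (nat_lit 0) (nat_lit 1883796242) (nat_lit 380) (nat_lit 3980418939) (nat_lit 456) (nat_lit 5979466713) (nat_lit 166) (nat_lit 5) (nat_lit 171) (nat_lit 5) (nat_lit 172)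 (nat_lit 5) (nat_lit 461) (nat_lit 398) (nat_lit 341)) (XT.lf (nat_lit 0) (nat_lit 2293946043) (nat_lit 380) (nat_lit 9188062250) (nat_lit 456) (nat_lit 559837641) (nat_lit 161) (nat_lit 5) (nat_lit 166) (nat_lit 5) (nat_lit 167) (nat_lit 5) (nat_lit 462) (nat_lit 398) (nat_lit 340))) (XT.nd (nat_lit 78) (nat_lit 304) (nat_lit 0) (XT.lf (nat_lit 0) (nat_lit 2683735971) (nat_lit 380) (nat_lit 2321807831) (nat_lit 456) (nat_lit 7238780282) (nat_lit 155) (nat_lit 5) (nat_lit 160) (nat_lit 5) (nat_lit 161) (nat_lit 5) (nat_lit 463) (nat_lit 398) (nat_lit 339)) (XT.lf (nat_lit 0) (nat_lit 3077221434) (nat_lit 304) (nat_lit 7708439309) (nat_lit 380) (nat_lit 1666036183) (nat_lit 151) (nat_lit 5) (nat_lit 155) (nat_lit 5) (nat_lit 156) (nat_lit 5) (nat_lit 464) (nat_lit 398) (nat_lit 338)))))) (XT.nd (nat_lit 546) (nat_lit 2052) (nat_lit 0) (XT.nd (nat_lit 234) (nat_lit 1368) (nat_lit 0) (XT.nd (nat_lit 78)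 (nat_lit 760) (nat_lit 0) (XT.lf (nat_lit 0) (nat_lit 3466565999) (nat_lit 380) (nat_lit 595938032) (nat_lit 456) (nat_lit 8601418906) (nat_lit 145) (nat_lit 5) (nat_lit 150) (nat_lit 5) (nat_lit 151) (nat_lit 5) (nat_lit 465) (nat_lit 398) (nat_lit 337)) (XT.nd (nat_lit 78) (nat_lit 456) (nat_lit 0) (XT.lf (nat_lit 0) (nat_lit 3838075978) (nat_lit 304) (nat_lit 6174599674) (nat_lit 380) (nat_lit 2868173437) (nat_lit 141) (nat_lit 5) (nat_lit 145) (nat_lit 5) (nat_lit 146) (nat_lit 5) (nat_lit 466) (nat_lit 398) (nat_lit 336)) (XT.lf (nat_lit 0) (nat_lit 3039571139) (nat_lit 456) (nat_lit 8888373155) (nat_lit 76) (nat_lit 1175099411) (nat_lit 135) (nat_lit 5) (nat_lit 141) (nat_lit 5) (nat_lit 136) (nat_lit 5) (nat_lit 467) (nat_lit 398) (nat_lit 335)))) (XT.nd (nat_lit 156) (nat_lit 684) (nat_lit 0) (XT.nd (nat_lit 78) (nat_lit 380) (nat_lit 0) (XT.lf (nat_lit 0) (nat_lit 4566436111) (nat_lit 304)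 (nat_lit 4593339797) (nat_lit 380) (nat_lit 4170266850) (nat_lit 131) (nat_lit 5) (nat_lit 135) (nat_lit 5) (nat_lit 136) (nat_lit 5) (nat_lit 468) (nat_lit 398) (nat_lit 334)) (XT.lf (nat_lit 0) (nat_lit 1929279596) (nat_lit 380) (nat_lit 8641349019) (nat_lit 76) (nat_lit 2991888876) (nat_lit 126) (nat_lit 5) (nat_lit 131) (nat_lit 5) (nat_lit 127) (nat_lit 5) (nat_lit 469) (nat_lit 398) (nat_lit 333))) (XT.nd (nat_lit 78) (nat_lit 380) (nat_lit 0) (XT.lf (nat_lit 0) (nat_lit 5251439804) (nat_lit 304) (nat_lit 2971541434) (nat_lit 380) (nat_lit 5577078937) (nat_lit 122) (nat_lit 5) (nat_lit 126) (nat_lit 5) (nat_lit 127) (nat_lit 5) (nat_lit 470) (nat_lit 398) (nat_lit 332)) (XT.lf (nat_lit 0) (nat_lit 723021908) (nat_lit 380) (nat_lit 8464481101) (nat_lit 76) (nat_lit 4855723336) (nat_lit 117) (nat_lit 5) (nat_lit 122) (nat_lit 5) (nat_lit 118) (nat_lit 5) (nat_lit 471) (nat_lit 398) (nat_lit 331)))))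 (XT.nd (nat_lit 234) (nat_lit 1216) (nat_lit 0) (XT.nd (nat_lit 78) (nat_lit 608) (nat_lit 0) (XT.lf (nat_lit 0) (nat_lit 5881318155) (nat_lit 228) (nat_lit 1316248851) (nat_lit 304) (nat_lit 7094160398) (nat_lit 114) (nat_lit 5) (nat_lit 117) (nat_lit 5) (nat_lit 118) (nat_lit 5) (nat_lit 472) (nat_lit 398) (nat_lit 330)) (XT.nd (nat_lit 78) (nat_lit 304) (nat_lit 0) (XT.lf (nat_lit 0) (nat_lit 6171249457) (nat_lit 304) (nat_lit 7782197414) (nat_lit 380) (nat_lit 592496042) (nat_lit 110) (nat_lit 5) (nat_lit 114) (nat_lit 5) (nat_lit 115) (nat_lit 5) (nat_lit 473) (nat_lit 398) (nat_lit 329)) (XT.lf (nat_lit 0) (nat_lit 6080387905) (nat_lit 304) (nat_lit 8365020941) (nat_lit 76) (nat_lit 360460157) (nat_lit 106) (nat_lit 5) (nat_lit 110) (nat_lit 5) (nat_lit 107) (nat_lit 5) (nat_lit 474) (nat_lit 398) (nat_lit 328)))) (XT.nd (nat_lit 156) (nat_lit 608) (nat_lit 0) (XT.nd (nat_lit 78) (nat_lit 304)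 (nat_lit 0) (XT.lf (nat_lit 0) (nat_lit 6683701785) (nat_lit 304) (nat_lit 6360923455) (nat_lit 380) (nat_lit 2026906257) (nat_lit 102) (nat_lit 5) (nat_lit 106) (nat_lit 5) (nat_lit 107) (nat_lit 5) (nat_lit 475) (nat_lit 398) (nat_lit 327)) (XT.lf (nat_lit 0) (nat_lit 4871375439) (nat_lit 304) (nat_lit 8433650146) (nat_lit 76) (nat_lit 2038253677) (nat_lit 98) (nat_lit 5) (nat_lit 102) (nat_lit 5) (nat_lit 99) (nat_lit 5) (nat_lit 476) (nat_lit 398) (nat_lit 326))) (XT.nd (nat_lit 78) (nat_lit 304) (nat_lit 0) (XT.lf (nat_lit 0) (nat_lit 7106332500) (nat_lit 304) (nat_lit 4936745479) (nat_lit 380) (nat_lit 3577954506) (nat_lit 94) (nat_lit 5) (nat_lit 98) (nat_lit 5) (nat_lit 99) (nat_lit 5) (nat_lit 477) (nat_lit 398) (nat_lit 325)) (XT.lf (nat_lit 0) (nat_lit 3554658349) (nat_lit 304) (nat_lit 8623976350) (nat_lit 76) (nat_lit 3726466337) (nat_lit 90) (nat_lit 5) (nat_lit 94) (nat_lit 5) (nat_lit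 91) (nat_lit 5) (nat_lit 478) (nat_lit 398) (nat_lit 324))))))))
noncomputable def xc34 : XT := (XT.nd (nat_lit 57876) (nat_lit 0) (nat_lit 15884) (XT.nd (nat_lit 56784) (nat_lit 0) (nat_lit 43700) (XT.nd (nat_lit 468) (nat_lit 760) (nat_lit 0) (XT.nd (nat_lit 234) (nat_lit 760) (nat_lit 0) (XT.nd (nat_lit 78) (nat_lit 532) (nat_lit 0) (XT.lf (nat_lit 0) (nat_lit 7423109511) (nat_lit 228) (nat_lit 3518360908) (nat_lit 304) (nat_lit 5253972691) (nat_lit 87) (nat_lit 5) (nat_lit 90) (nat_lit 5) (nat_lit 91) (nat_lit 5) (nat_lit 479) (nat_lit 398) (nat_lit 323)) (XT.nd (nat_lit 78) (nat_lit 228) (nat_lit 0) (XT.lf (nat_lit 0) (nat_lit 2121927830) (nat_lit 304) (nat_lit 8953768961) (nat_lit 76) (nat_lit 5416662931) (nat_lit 83) (nat_lit 5) (nat_lit 87) (nat_lit 5) (nat_lit 84) (nat_lit 5) (nat_lit 480) (nat_lit 398) (nat_lit 322)) (XT.lf (nat_lit 0) (nat_lit 7616416171) (nat_lit 228) (nat_lit 2115051594)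 (nat_lit 304) (nat_lit 7064347640) (nat_lit 80) (nat_lit 5) (nat_lit 83) (nat_lit 5) (nat_lit 84) (nat_lit 5) (nat_lit 481) (nat_lit 398) (nat_lit 321)))) (XT.nd (nat_lit 78) (nat_lit 456) (nat_lit 0) (XT.lf (nat_lit 0) (nat_lit 563811171) (nat_lit 304) (nat_lit 9442525815) (nat_lit 76) (nat_lit 7099800140) (nat_lit 76) (nat_lit 5) (nat_lit 80) (nat_lit 5) (nat_lit 77) (nat_lit 5) (nat_lit 482) (nat_lit 398) (nat_lit 320)) (XT.nd (nat_lit 78) (nat_lit 228) (nat_lit 0) (XT.lf (nat_lit 0) (nat_lit 7666860627) (nat_lit 228) (nat_lit 736790565) (nat_lit 304) (nat_lit 9019608073) (nat_lit 73) (nat_lit 5) (nat_lit 76) (nat_lit 5) (nat_lit 77) (nat_lit 5) (nat_lit 483) (nat_lit 398) (nat_lit 319)) (XT.lf (nat_lit 0) (nat_lit 7628314966) (nat_lit 228) (nat_lit 8973872506) (nat_lit 304) (nat_lit 1145238481) (nat_lit 70) (nat_lit 5) (nat_lit 73) (nat_lit 5) (nat_lit 74) (nat_lit 5) (nat_lit 484) (nat_lit 398)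 (nat_lit 318))))) (XT.nd (nat_lit 56004) (nat_lit 0) (nat_lit 54264) (XT.nd (nat_lit 78) (nat_lit 456) (nat_lit 0) (XT.lf (nat_lit 0) (nat_lit 6951355996) (nat_lit 304) (nat_lit 10529811281) (nat_lit 76) (nat_lit 597699840) (nat_lit 66) (nat_lit 5) (nat_lit 70) (nat_lit 5) (nat_lit 67) (nat_lit 5) (nat_lit 485) (nat_lit 398) (nat_lit 317)) (XT.nd (nat_lit 78) (nat_lit 304) (nat_lit 0) (XT.lf (nat_lit 0) (nat_lit 7413135159) (nat_lit 152) (nat_lit 7992912014) (nat_lit 228) (nat_lit 3011438616) (nat_lit 64) (nat_lit 5) (nat_lit 66) (nat_lit 5) (nat_lit 67) (nat_lit 5) (nat_lit 486) (nat_lit 398) (nat_lit 316)) (XT.lf (nat_lit 0) (nat_lit 5363244756) (nat_lit 304) (nat_lit 11525005933) (nat_lit 76) (nat_lit 1875613257) (nat_lit 60) (nat_lit 5) (nat_lit 64) (nat_lit 5) (nat_lit 61) (nat_lit 5) (nat_lit 487) (nat_lit 398) (nat_lit 315)))) (XT.nd (nat_lit 156) (nat_lit 304) (nat_lit 0) (XT.nd (nat_lit 78)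 (nat_lit 228) (nat_lit 0) (XT.lf (nat_lit 0) (nat_lit 1666300335) (nat_lit 76) (nat_lit 778457623) (nat_lit 76) (nat_lit 778457623) (nat_lit 781) (nat_lit 4) (nat_lit 782) (nat_lit 5) (nat_lit 782) (nat_lit 4) (nat_lit 402) (nat_lit 399) (nat_lit 399)) (XT.lf (nat_lit 0) (nat_lit 1913974020) (nat_lit 152) (nat_lit 1274698317) (nat_lit 228) (nat_lit 3263411103) (nat_lit 778) (nat_lit 5) (nat_lit 780) (nat_lit 5) (nat_lit 781) (nat_lit 4) (nat_lit 403) (nat_lit 399) (nat_lit 398))) (XT.nd (nat_lit 78) (nat_lit 0) (nat_lit 0) (XT.lf (nat_lit 0) (nat_lit 562846841) (nat_lit 228) (nat_lit 856186027) (nat_lit 304) (nat_lit 5041635576) (nat_lit 774) (nat_lit 5) (nat_lit 777) (nat_lit 5) (nat_lit 778) (nat_lit 5) (nat_lit 404) (nat_lit 399) (nat_lit 397)) (XT.lf (nat_lit 0) (nat_lit 5757052018) (nat_lit 228) (nat_lit 293361935) (nat_lit 304) (nat_lit 421629712) (nat_lit 774) (nat_lit 5) (nat_lit 777) (nat_lit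 5) (nat_lit 778) (nat_lit 5) (nat_lit 405) (nat_lit 399) (nat_lit 396)))))) (XT.nd (nat_lit 546) (nat_lit 7220) (nat_lit 0) (XT.nd (nat_lit 234) (nat_lit 1976) (nat_lit 0) (XT.nd (nat_lit 78) (nat_lit 988) (nat_lit 0) (XT.lf (nat_lit 0) (nat_lit 4138364137) (nat_lit 380) (nat_lit 1933128992) (nat_lit 76) (nat_lit 414557616) (nat_lit 769) (nat_lit 5) (nat_lit 774) (nat_lit 5) (nat_lit 770) (nat_lit 5) (nat_lit 406) (nat_lit 399) (nat_lit 395)) (XT.nd (nat_lit 78) (nat_lit 532) (nat_lit 0) (XT.lf (nat_lit 0) (nat_lit 2157502681) (nat_lit 456) (nat_lit 3090504095) (nat_lit 76) (nat_lit 1254950490) (nat_lit 763) (nat_lit 5) (nat_lit 769) (nat_lit 5) (nat_lit 764) (nat_lit 5) (nat_lit 407) (nat_lit 399) (nat_lit 394)) (XT.lf (nat_lit 0) (nat_lit 104317273) (nat_lit 532) (nat_lit 4185942744) (nat_lit 76) (nat_lit 2232552988) (nat_lit 756) (nat_lit 5) (nat_lit 763) (nat_lit 5) (nat_lit 757) (nat_lit 5) (nat_lit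 408) (nat_lit 399) (nat_lit 393)))) (XT.nd (nat_lit 156) (nat_lit 760) (nat_lit 0) (XT.nd (nat_lit 78) (nat_lit 684) (nat_lit 0) (XT.lf (nat_lit 0) (nat_lit 1311950403) (nat_lit 532) (nat_lit 3183656872) (nat_lit 608) (nat_lit 2049758251) (nat_lit 749) (nat_lit 5) (nat_lit 756) (nat_lit 5) (nat_lit 757) (nat_lit 5) (nat_lit 409) (nat_lit 399) (nat_lit 392)) (XT.lf (nat_lit 0) (nat_lit 349482163) (nat_lit 608) (nat_lit 1939396793) (nat_lit 684) (nat_lit 4281994134) (nat_lit 740) (nat_lit 5) (nat_lit 748) (nat_lit 5) (nat_lit 749) (nat_lit 5) (nat_lit 410) (nat_lit 399) (nat_lit 391))) (XT.nd (nat_lit 78) (nat_lit 684) (nat_lit 0) (XT.lf (nat_lit 0) (nat_lit 10073918) (nat_lit 684) (nat_lit 543135920) (nat_lit 76) (nat_lit 6046085742) (nat_lit 739) (nat_lit 5) (nat_lit 748) (nat_lit 5) (nat_lit 740) (nat_lit 5) (nat_lit 411) (nat_lit 399) (nat_lit 390)) (XT.lf (nat_lit 0) (nat_lit 4261213459) (nat_lit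 760) (nat_lit 1391657615) (nat_lit 76) (nat_lit 977378697) (nat_lit 730) (nat_lit 5) (nat_lit 740) (nat_lit 5) (nat_lit 731) (nat_lit 5) (nat_lit 412) (nat_lit 399) (nat_lit 389))))) (XT.nd (nat_lit 234) (nat_lit 4560) (nat_lit 0) (XT.nd (nat_lit 78) (nat_lit 1824) (nat_lit 0) (XT.lf (nat_lit 0) (nat_lit 1839419100) (nat_lit 836) (nat_lit 2184290784) (nat_lit 76) (nat_lit 2640427914) (nat_lit 719) (nat_lit 5) (nat_lit 730) (nat_lit 5) (nat_lit 720) (nat_lit 5) (nat_lit 413) (nat_lit 399) (nat_lit 388)) (XT.nd (nat_lit 78) (nat_lit 988) (nat_lit 0) (XT.lf (nat_lit 0) (nat_lit 3778908548) (nat_lit 836) (nat_lit 2251724506) (nat_lit 912) (nat_lit 670336093) (nat_lit 708) (nat_lit 5) (nat_lit 719) (nat_lit 5) (nat_lit 720) (nat_lit 5) (nat_lit 414) (nat_lit 399) (nat_lit 387)) (XT.lf (nat_lit 0) (nat_lit 3127088330) (nat_lit 912) (nat_lit 326574242) (nat_lit 988) (nat_lit 3286941027) (nat_lit 695) (nat_lit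 5) (nat_lit 707) (nat_lit 5) (nat_lit 708) (nat_lit 5) (nat_lit 415) (nat_lit 399) (nat_lit 386)))) (XT.nd (nat_lit 156) (nat_lit 2432) (nat_lit 0) (XT.nd (nat_lit 78) (nat_lit 1064) (nat_lit 0) (XT.lf (nat_lit 0) (nat_lit 806399343) (nat_lit 1064) (nat_lit 4258071198) (nat_lit 76) (nat_lit 1718613814) (nat_lit 681) (nat_lit 5) (nat_lit 695) (nat_lit 5) (nat_lit 682) (nat_lit 5) (nat_lit 416) (nat_lit 399) (nat_lit 385)) (XT.lf (nat_lit 0) (nat_lit 1968081943) (nat_lit 1064) (nat_lit 2913008459) (nat_lit 1140) (nat_lit 1947262489) (nat_lit 667) (nat_lit 5) (nat_lit 681) (nat_lit 5) (nat_lit 682) (nat_lit 5) (nat_lit 417) (nat_lit 399) (nat_lit 384))) (XT.nd (nat_lit 78) (nat_lit 1216) (nat_lit 0) (XT.lf (nat_lit 0) (nat_lit 1465308362) (nat_lit 1140) (nat_lit 613162054) (nat_lit 1216) (nat_lit 4798148031) (nat_lit 651) (nat_lit 5) (nat_lit 666) (nat_lit 5) (nat_lit 667) (nat_lit 5) (nat_lit 418) (nat_lit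 399) (nat_lit 383)) (XT.lf (nat_lit 0) (nat_lit 1004606243) (nat_lit 1216) (nat_lit 5114328518) (nat_lit 1292) (nat_lit 808742598) (nat_lit 635) (nat_lit 5) (nat_lit 651) (nat_lit 5) (nat_lit 652) (nat_lit 5) (nat_lit 419) (nat_lit 399) (nat_lit 382))))))) (XT.nd (nat_lit 1014) (nat_lit 11096) (nat_lit 0) (XT.nd (nat_lit 468) (nat_lit 9196) (nat_lit 0) (XT.nd (nat_lit 234) (nat_lit 4712) (nat_lit 0) (XT.nd (nat_lit 78) (nat_lit 1444) (nat_lit 0) (XT.lf (nat_lit 0) (nat_lit 583975891) (nat_lit 1292) (nat_lit 2589358328) (nat_lit 1368) (nat_lit 3808190368) (nat_lit 617) (nat_lit 5) (nat_lit 634) (nat_lit 5) (nat_lit 635) (nat_lit 5) (nat_lit 420) (nat_lit 399) (nat_lit 381)) (XT.nd (nat_lit 78) (nat_lit 0) (nat_lit 0) (XT.lf (nat_lit 0) (nat_lit 140126871) (nat_lit 1444) (nat_lit 6817589092) (nat_lit 76) (nat_lit 80822978) (nat_lit 598) (nat_lit 5) (nat_lit 617) (nat_lit 5) (nat_lit 599) (nat_lit 5)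 (nat_lit 421) (nat_lit 399) (nat_lit 380)) (XT.lf (nat_lit 0) (nat_lit 4093236933) (nat_lit 1444) (nat_lit 120211178) (nat_lit 76) (nat_lit 2884560319) (nat_lit 598) (nat_lit 5) (nat_lit 617) (nat_lit 5) (nat_lit 599) (nat_lit 5) (nat_lit 422) (nat_lit 399) (nat_lit 379)))) (XT.nd (nat_lit 78) (nat_lit 3192) (nat_lit 0) (XT.lf (nat_lit 0) (nat_lit 916310846) (nat_lit 1520) (nat_lit 403241184) (nat_lit 76) (nat_lit 5841112251) (nat_lit 578) (nat_lit 5) (nat_lit 598) (nat_lit 5) (nat_lit 579) (nat_lit 5) (nat_lit 423) (nat_lit 399) (nat_lit 378)) (XT.nd (nat_lit 78) (nat_lit 1672) (nat_lit 0) (XT.lf (nat_lit 0) (nat_lit 4851743975) (nat_lit 1596) (nat_lit 656646261) (nat_lit 76) (nat_lit 1717670553) (nat_lit 558) (nat_lit 5) (nat_lit 579) (nat_lit 5) (nat_lit 559) (nat_lit 5) (nat_lit 424) (nat_lit 399) (nat_lit 377)) (XT.lf (nat_lit 0) (nat_lit 1528934637) (nat_lit 1672) (nat_lit 869588899) (nat_lit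 76) (nat_lit 4895929900) (nat_lit 536) (nat_lit 5) (nat_lit 558) (nat_lit 5) (nat_lit 537) (nat_lit 5) (nat_lit 425) (nat_lit 399) (nat_lit 376))))) (XT.nd (nat_lit 234) (nat_lit 3876) (nat_lit 0) (XT.nd (nat_lit 78) (nat_lit 3648) (nat_lit 0) (XT.lf (nat_lit 0) (nat_lit 5455693153) (nat_lit 1748) (nat_lit 1045216608) (nat_lit 76) (nat_lit 864909225) (nat_lit 514) (nat_lit 5) (nat_lit 537) (nat_lit 5) (nat_lit 515) (nat_lit 5) (nat_lit 426) (nat_lit 399) (nat_lit 375)) (XT.nd (nat_lit 78) (nat_lit 1824) (nat_lit 0) (XT.lf (nat_lit 0) (nat_lit 1986113231) (nat_lit 1824) (nat_lit 1192359859) (nat_lit 76) (nat_lit 4261548472) (nat_lit 490) (nat_lit 5) (nat_lit 514) (nat_lit 5) (nat_lit 491) (nat_lit 5) (nat_lit 427) (nat_lit 399) (nat_lit 374)) (XT.lf (nat_lit 0) (nat_lit 5914707463) (nat_lit 1900) (nat_lit 1297313449) (nat_lit 76) (nat_lit 305356123) (nat_lit 466) (nat_lit 5) (nat_lit 491) (nat_lit 5)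 (nat_lit 467) (nat_lit 5) (nat_lit 428) (nat_lit 399) (nat_lit 373)))) (XT.nd (nat_lit 156) (nat_lit 1824) (nat_lit 0) (XT.nd (nat_lit 78) (nat_lit 912) (nat_lit 0) (XT.lf (nat_lit 0) (nat_lit 2296941620) (nat_lit 1140) (nat_lit 1382653625) (nat_lit 76) (nat_lit 3917881467) (nat_lit 451) (nat_lit 5) (nat_lit 466) (nat_lit 5) (nat_lit 452) (nat_lit 5) (nat_lit 429) (nat_lit 399) (nat_lit 372)) (XT.lf (nat_lit 0) (nat_lit 6237465875) (nat_lit 988) (nat_lit 1423573410) (nat_lit 76) (nat_lit 19821383) (nat_lit 439) (nat_lit 5) (nat_lit 452) (nat_lit 5) (nat_lit 440) (nat_lit 5) (nat_lit 430) (nat_lit 399) (nat_lit 371))) (XT.nd (nat_lit 78) (nat_lit 836) (nat_lit 0) (XT.lf (nat_lit 0) (nat_lit 2469584709) (nat_lit 988) (nat_lit 1450846322) (nat_lit 76) (nat_lit 3846527457) (nat_lit 426) (nat_lit 5) (nat_lit 439) (nat_lit 5) (nat_lit 427) (nat_lit 5) (nat_lit 431) (nat_lit 399) (nat_lit 370)) (XT.lf (nat_lit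 0) (nat_lit 6422407422) (nat_lit 836) (nat_lit 9413350) (nat_lit 912) (nat_lit 1424604700) (nat_lit 415) (nat_lit 5) (nat_lit 426) (nat_lit 5) (nat_lit 427) (nat_lit 5) (nat_lit 432) (nat_lit 399) (nat_lit 369)))))) (XT.nd (nat_lit 546) (nat_lit 5320) (nat_lit 0) (XT.nd (nat_lit 234) (nat_lit 3116) (nat_lit 0) (XT.nd (nat_lit 78) (nat_lit 1748) (nat_lit 0) (XT.lf (nat_lit 0) (nat_lit 2511331104) (nat_lit 912) (nat_lit 1406667840) (nat_lit 76) (nat_lit 4030638498) (nat_lit 403) (nat_lit 5) (nat_lit 415) (nat_lit 5) (nat_lit 404) (nat_lit 5) (nat_lit 433) (nat_lit 399) (nat_lit 368)) (XT.nd (nat_lit 78) (nat_lit 912) (nat_lit 0) (XT.lf (nat_lit 0) (nat_lit 6504542965) (nat_lit 912) (nat_lit 1337823172) (nat_lit 76) (nat_lit 201896339) (nat_lit 392) (nat_lit 5) (nat_lit 404) (nat_lit 5) (nat_lit 393) (nat_lit 5) (nat_lit 434) (nat_lit 399) (nat_lit 367)) (XT.lf (nat_lit 0) (nat_lit 2428641293) (nat_lit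 912) (nat_lit 1259275736) (nat_lit 76) (nat_lit 4454797595) (nat_lit 380) (nat_lit 5) (nat_lit 392) (nat_lit 5) (nat_lit 381) (nat_lit 5) (nat_lit 435) (nat_lit 399) (nat_lit 366)))) (XT.nd (nat_lit 156) (nat_lit 1520) (nat_lit 0) (XT.nd (nat_lit 78) (nat_lit 836) (nat_lit 0) (XT.lf (nat_lit 0) (nat_lit 6461978064) (nat_lit 836) (nat_lit 1144001912) (nat_lit 76) (nat_lit 638605563) (nat_lit 370) (nat_lit 5) (nat_lit 381) (nat_lit 5) (nat_lit 371) (nat_lit 5) (nat_lit 436) (nat_lit 399) (nat_lit 365)) (XT.lf (nat_lit 0) (nat_lit 2227190488) (nat_lit 836) (nat_lit 1017326363) (nat_lit 76) (nat_lit 5104904382) (nat_lit 359) (nat_lit 5) (nat_lit 370) (nat_lit 5) (nat_lit 360) (nat_lit 5) (nat_lit 437) (nat_lit 399) (nat_lit 364))) (XT.nd (nat_lit 78) (nat_lit 836) (nat_lit 0) (XT.lf (nat_lit 0) (nat_lit 6309475349) (nat_lit 760) (nat_lit 860863022) (nat_lit 76) (nat_lit 1287304939) (nat_lit 350) (nat_lit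 5) (nat_lit 360) (nat_lit 5) (nat_lit 351) (nat_lit 5) (nat_lit 438) (nat_lit 399) (nat_lit 363)) (XT.lf (nat_lit 0) (nat_lit 1911906381) (nat_lit 836) (nat_lit 689043762) (nat_lit 76) (nat_lit 5968068274) (nat_lit 339) (nat_lit 5) (nat_lit 350) (nat_lit 5) (nat_lit 340) (nat_lit 5) (nat_lit 439) (nat_lit 399) (nat_lit 362))))) (XT.nd (nat_lit 234) (nat_lit 3268) (nat_lit 0) (XT.nd (nat_lit 78) (nat_lit 1368) (nat_lit 0) (XT.lf (nat_lit 0) (nat_lit 6051728472) (nat_lit 760) (nat_lit 496383954) (nat_lit 76) (nat_lit 2135600557) (nat_lit 330) (nat_lit 5) (nat_lit 340) (nat_lit 5) (nat_lit 331) (nat_lit 5) (nat_lit 440) (nat_lit 399) (nat_lit 361)) (XT.nd (nat_lit 78) (nat_lit 608) (nat_lit 0) (XT.lf (nat_lit 0) (nat_lit 1487002011) (nat_lit 760) (nat_lit 282286804) (nat_lit 76) (nat_lit 7032508360) (nat_lit 320) (nat_lit 5) (nat_lit 330) (nat_lit 5) (nat_lit 321) (nat_lit 5) (nat_lit 441) (nat_lit 399)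 (nat_lit 360)) (XT.lf (nat_lit 0) (nat_lit 5692744703) (nat_lit 684) (nat_lit 58215793) (nat_lit 76) (nat_lit 3172140991) (nat_lit 312) (nat_lit 5) (nat_lit 321) (nat_lit 5) (nat_lit 313) (nat_lit 5) (nat_lit 442) (nat_lit 399) (nat_lit 359)))) (XT.nd (nat_lit 156) (nat_lit 1292) (nat_lit 0) (XT.nd (nat_lit 78) (nat_lit 608) (nat_lit 0) (XT.lf (nat_lit 0) (nat_lit 197981459) (nat_lit 608) (nat_lit 759307897) (nat_lit 684) (nat_lit 8090763324) (nat_lit 294) (nat_lit 5) (nat_lit 302) (nat_lit 5) (nat_lit 303) (nat_lit 5) (nat_lit 443) (nat_lit 399) (nat_lit 358)) (XT.lf (nat_lit 0) (nat_lit 452182090) (nat_lit 608) (nat_lit 4786624489) (nat_lit 684) (nat_lit 3937280292) (nat_lit 286) (nat_lit 5) (nat_lit 294) (nat_lit 5) (nat_lit 295) (nat_lit 5) (nat_lit 444) (nat_lit 399) (nat_lit 357))) (XT.nd (nat_lit 78) (nat_lit 608) (nat_lit 0) (XT.lf (nat_lit 0) (nat_lit 329347860) (nat_lit 684) (nat_lit 8564406322)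 (nat_lit 76) (nat_lit 414307350) (nat_lit 277) (nat_lit 5) (nat_lit 286) (nat_lit 5) (nat_lit 278) (nat_lit 5) (nat_lit 445) (nat_lit 399) (nat_lit 356)) (XT.lf (nat_lit 0) (nat_lit 1023245175) (nat_lit 608) (nat_lit 3667212303) (nat_lit 684) (nat_lit 4752621746) (nat_lit 269) (nat_lit 5) (nat_lit 277) (nat_lit 5) (nat_lit 278) (nat_lit 5) (nat_lit 446) (nat_lit 399) (nat_lit 355))))))))
noncomputable def xc35 : XT := (XT.nd (nat_lit 2106) (nat_lit 3800) (nat_lit 0) (XT.nd (nat_lit 1014) (nat_lit 5168) (nat_lit 0) (XT.nd (nat_lit 468) (nat_lit 3268) (nat_lit 0) (XT.nd (nat_lit 234) (nat_lit 1672) (nat_lit 0) (XT.nd (nat_lit 78) (nat_lit 1140) (nat_lit 0) (XT.lf (nat_lit 0) (nat_lit 1337798867) (nat_lit 532) (nat_lit 7845823465) (nat_lit 608) (nat_lit 398504359) (nat_lit 262) (nat_lit 5) (nat_lit 269) (nat_lit 5) (nat_lit 270) (nat_lit 5) (nat_lit 447) (nat_lit 399) (nat_lit 354)) (XT.nd (nat_lit 78)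 (nat_lit 532) (nat_lit 0) (XT.lf (nat_lit 0) (nat_lit 1647044606) (nat_lit 532) (nat_lit 2402308381) (nat_lit 608) (nat_lit 5675131326) (nat_lit 254) (nat_lit 5) (nat_lit 261) (nat_lit 5) (nat_lit 262) (nat_lit 5) (nat_lit 448) (nat_lit 399) (nat_lit 353)) (XT.lf (nat_lit 0) (nat_lit 1978122677) (nat_lit 532) (nat_lit 6662469887) (nat_lit 608) (nat_lit 1230163611) (nat_lit 247) (nat_lit 5) (nat_lit 254) (nat_lit 5) (nat_lit 255) (nat_lit 5) (nat_lit 449) (nat_lit 399) (nat_lit 352)))) (XT.nd (nat_lit 78) (nat_lit 1064) (nat_lit 0) (XT.lf (nat_lit 0) (nat_lit 2316492591) (nat_lit 532) (nat_lit 1000429819) (nat_lit 608) (nat_lit 6703808636) (nat_lit 239) (nat_lit 5) (nat_lit 246) (nat_lit 5) (nat_lit 247) (nat_lit 5) (nat_lit 450) (nat_lit 399) (nat_lit 351)) (XT.nd (nat_lit 78) (nat_lit 608) (nat_lit 0) (XT.lf (nat_lit 0) (nat_lit 2659787640) (nat_lit 456) (nat_lit 5354283342) (nat_lit 532) (nat_lit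 2160367436) (nat_lit 233) (nat_lit 5) (nat_lit 239) (nat_lit 5) (nat_lit 240) (nat_lit 5) (nat_lit 451) (nat_lit 399) (nat_lit 350)) (XT.lf (nat_lit 0) (nat_lit 2497438064) (nat_lit 608) (nat_lit 7311222712) (nat_lit 76) (nat_lit 523550020) (nat_lit 225) (nat_lit 5) (nat_lit 233) (nat_lit 5) (nat_lit 226) (nat_lit 5) (nat_lit 452) (nat_lit 399) (nat_lit 349))))) (XT.nd (nat_lit 234) (nat_lit 1824) (nat_lit 0) (XT.nd (nat_lit 78) (nat_lit 988) (nat_lit 0) (XT.lf (nat_lit 0) (nat_lit 3375706490) (nat_lit 456) (nat_lit 3929096382) (nat_lit 532) (nat_lit 3188847258) (nat_lit 219) (nat_lit 5) (nat_lit 225) (nat_lit 5) (nat_lit 226) (nat_lit 5) (nat_lit 453) (nat_lit 399) (nat_lit 348)) (XT.nd (nat_lit 78) (nat_lit 456) (nat_lit 0) (XT.lf (nat_lit 0) (nat_lit 1594971070) (nat_lit 532) (nat_lit 6909882601) (nat_lit 76) (nat_lit 2154485376) (nat_lit 212) (nat_lit 5) (nat_lit 219) (nat_lit 5) (nat_lit 213)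 (nat_lit 5) (nat_lit 454) (nat_lit 399) (nat_lit 347)) (XT.lf (nat_lit 0) (nat_lit 4118683855) (nat_lit 456) (nat_lit 2394265803) (nat_lit 532) (nat_lit 4315950704) (nat_lit 206) (nat_lit 5) (nat_lit 212) (nat_lit 5) (nat_lit 213) (nat_lit 5) (nat_lit 455) (nat_lit 399) (nat_lit 346)))) (XT.nd (nat_lit 156) (nat_lit 912) (nat_lit 0) (XT.nd (nat_lit 78) (nat_lit 380) (nat_lit 0) (XT.lf (nat_lit 0) (nat_lit 602612506) (nat_lit 532) (nat_lit 6501500071) (nat_lit 76) (nat_lit 3898659168) (nat_lit 199) (nat_lit 5) (nat_lit 206) (nat_lit 5) (nat_lit 200) (nat_lit 5) (nat_lit 456) (nat_lit 399) (nat_lit 345)) (XT.lf (nat_lit 0) (nat_lit 4881343676) (nat_lit 380) (nat_lit 756742435) (nat_lit 456) (nat_lit 5542645265) (nat_lit 194) (nat_lit 5) (nat_lit 199) (nat_lit 5) (nat_lit 200) (nat_lit 5) (nat_lit 457) (nat_lit 399) (nat_lit 344))) (XT.nd (nat_lit 78) (nat_lit 456) (nat_lit 0) (XT.lf (nat_lit 0) (nat_lit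 5265739580) (nat_lit 456) (nat_lit 5610225821) (nat_lit 532) (nat_lit 487039978) (nat_lit 188) (nat_lit 5) (nat_lit 194) (nat_lit 5) (nat_lit 195) (nat_lit 5) (nat_lit 458) (nat_lit 399) (nat_lit 343)) (XT.lf (nat_lit 0) (nat_lit 4685535528) (nat_lit 456) (nat_lit 5900008716) (nat_lit 76) (nat_lit 964048538) (nat_lit 182) (nat_lit 5) (nat_lit 188) (nat_lit 5) (nat_lit 183) (nat_lit 5) (nat_lit 459) (nat_lit 399) (nat_lit 342)))))) (XT.nd (nat_lit 546) (nat_lit 2356) (nat_lit 0) (XT.nd (nat_lit 234) (nat_lit 1596) (nat_lit 0) (XT.nd (nat_lit 78) (nat_lit 836) (nat_lit 0) (XT.lf (nat_lit 0) (nat_lit 6033657153) (nat_lit 380) (nat_lit 4028485984) (nat_lit 456) (nat_lit 1678463075) (nat_lit 177) (nat_lit 5) (nat_lit 182) (nat_lit 5) (nat_lit 183) (nat_lit 5) (nat_lit 460) (nat_lit 399) (nat_lit 341)) (XT.nd (nat_lit 78) (nat_lit 380) (nat_lit 0) (XT.lf (nat_lit 0) (nat_lit 3652826505) (nat_lit 456) (nat_lit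 5519813793) (nat_lit 76) (nat_lit 2763472963) (nat_lit 171) (nat_lit 5) (nat_lit 177) (nat_lit 5) (nat_lit 172) (nat_lit 5) (nat_lit 461) (nat_lit 399) (nat_lit 340)) (XT.lf (nat_lit 0) (nat_lit 6800912753) (nat_lit 380) (nat_lit 2369440022) (nat_lit 456) (nat_lit 2965930877) (nat_lit 166) (nat_lit 5) (nat_lit 171) (nat_lit 5) (nat_lit 172) (nat_lit 5) (nat_lit 462) (nat_lit 399) (nat_lit 339)))) (XT.nd (nat_lit 156) (nat_lit 760) (nat_lit 0) (XT.nd (nat_lit 78) (nat_lit 380) (nat_lit 0) (XT.lf (nat_lit 0) (nat_lit 2532758686) (nat_lit 456) (nat_lit 5162888024) (nat_lit 76) (nat_lit 4645393462) (nat_lit 160) (nat_lit 5) (nat_lit 166) (nat_lit 5) (nat_lit 161) (nat_lit 5) (nat_lit 463) (nat_lit 399) (nat_lit 338)) (XT.lf (nat_lit 0) (nat_lit 7558882959) (nat_lit 380) (nat_lit 639441393) (nat_lit 456) (nat_lit 4352380623) (nat_lit 155) (nat_lit 5) (nat_lit 160) (nat_lit 5) (nat_lit 161) (nat_lit 5) (nat_lit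 464) (nat_lit 399) (nat_lit 337))) (XT.nd (nat_lit 78) (nat_lit 380) (nat_lit 0) (XT.lf (nat_lit 0) (nat_lit 1322401949) (nat_lit 380) (nat_lit 4838779504) (nat_lit 76) (nat_lit 6603879048) (nat_lit 150) (nat_lit 5) (nat_lit 155) (nat_lit 5) (nat_lit 151) (nat_lit 5) (nat_lit 465) (nat_lit 399) (nat_lit 336)) (XT.lf (nat_lit 0) (nat_lit 7150647072) (nat_lit 456) (nat_lit 4693693126) (nat_lit 76) (nat_lit 1140085849) (nat_lit 145) (nat_lit 5) (nat_lit 151) (nat_lit 5) (nat_lit 146) (nat_lit 5) (nat_lit 466) (nat_lit 399) (nat_lit 335))))) (XT.nd (nat_lit 234) (nat_lit 1292) (nat_lit 0) (XT.nd (nat_lit 78) (nat_lit 684) (nat_lit 0) (XT.lf (nat_lit 0) (nat_lit 18155891) (nat_lit 380) (nat_lit 4557683448) (nat_lit 76) (nat_lit 8633061324) (nat_lit 140) (nat_lit 5) (nat_lit 145) (nat_lit 5) (nat_lit 141) (nat_lit 5) (nat_lit 467) (nat_lit 399) (nat_lit 334)) (XT.nd (nat_lit 78) (nat_lit 304) (nat_lit 0)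 (XT.lf (nat_lit 0) (nat_lit 6020769421) (nat_lit 456) (nat_lit 4448605511) (nat_lit 76) (nat_lit 2968877412) (nat_lit 135) (nat_lit 5) (nat_lit 141) (nat_lit 5) (nat_lit 136) (nat_lit 5) (nat_lit 468) (nat_lit 399) (nat_lit 333)) (XT.lf (nat_lit 0) (nat_lit 9333491979) (nat_lit 304) (nat_lit 2936974711) (nat_lit 380) (nat_lit 1402679353) (nat_lit 131) (nat_lit 5) (nat_lit 135) (nat_lit 5) (nat_lit 136) (nat_lit 5) (nat_lit 469) (nat_lit 399) (nat_lit 332)))) (XT.nd (nat_lit 156) (nat_lit 608) (nat_lit 0) (XT.nd (nat_lit 78) (nat_lit 304) (nat_lit 0) (XT.lf (nat_lit 0) (nat_lit 4800211386) (nat_lit 380) (nat_lit 4263767185) (nat_lit 76) (nat_lit 4849077184) (nat_lit 126) (nat_lit 5) (nat_lit 131) (nat_lit 5) (nat_lit 127) (nat_lit 5) (nat_lit 470) (nat_lit 399) (nat_lit 331)) (XT.lf (nat_lit 0) (nat_lit 9970578370) (nat_lit 304) (nat_lit 1259829017) (nat_lit 380) (nat_lit 2928365887) (nat_lit 122) (nat_lit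 5) (nat_lit 126) (nat_lit 5) (nat_lit 127) (nat_lit 5) (nat_lit 471) (nat_lit 399) (nat_lit 330))) (XT.nd (nat_lit 78) (nat_lit 228) (nat_lit 0) (XT.lf (nat_lit 0) (nat_lit 3483897516) (nat_lit 380) (nat_lit 4151464852) (nat_lit 76) (nat_lit 6774306659) (nat_lit 117) (nat_lit 5) (nat_lit 122) (nat_lit 5) (nat_lit 118) (nat_lit 5) (nat_lit 472) (nat_lit 399) (nat_lit 329)) (XT.lf (nat_lit 0) (nat_lit 10104979759) (nat_lit 304) (nat_lit 4118936632) (nat_lit 76) (nat_lit 442664760) (nat_lit 114) (nat_lit 5) (nat_lit 118) (nat_lit 5) (nat_lit 115) (nat_lit 5) (nat_lit 473) (nat_lit 399) (nat_lit 328))))))) (XT.nd (nat_lit 56706) (nat_lit 0) (nat_lit 49780) (XT.nd (nat_lit 546) (nat_lit 1748) (nat_lit 0) (XT.nd (nat_lit 234) (nat_lit 1064) (nat_lit 0) (XT.nd (nat_lit 78) (nat_lit 608) (nat_lit 0) (XT.lf (nat_lit 0) (nat_lit 2065957398) (nat_lit 380) (nat_lit 4125039758) (nat_lit 76) (nat_lit 8737973732)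 (nat_lit 109) (nat_lit 5) (nat_lit 114) (nat_lit 5) (nat_lit 110) (nat_lit 5) (nat_lit 474) (nat_lit 399) (nat_lit 327)) (XT.nd (nat_lit 78) (nat_lit 380) (nat_lit 0) (XT.lf (nat_lit 0) (nat_lit 8893749737) (nat_lit 304) (nat_lit 4151266493) (nat_lit 76) (nat_lit 2152346667) (nat_lit 106) (nat_lit 5) (nat_lit 110) (nat_lit 5) (nat_lit 107) (nat_lit 5) (nat_lit 475) (nat_lit 399) (nat_lit 326)) (XT.lf (nat_lit 0) (nat_lit 539670819) (nat_lit 380) (nat_lit 4199026435) (nat_lit 76) (nat_lit 10733191085) (nat_lit 101) (nat_lit 5) (nat_lit 106) (nat_lit 5) (nat_lit 102) (nat_lit 5) (nat_lit 476) (nat_lit 399) (nat_lit 325)))) (XT.nd (nat_lit 156) (nat_lit 532) (nat_lit 0) (XT.nd (nat_lit 78) (nat_lit 304) (nat_lit 0) (XT.lf (nat_lit 0) (nat_lit 7581771024) (nat_lit 304) (nat_lit 4292190920) (nat_lit 76) (nat_lit 3878272231) (nat_lit 98) (nat_lit 5) (nat_lit 102) (nat_lit 5) (nat_lit 99) (nat_lit 5) (nat_lit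 477) (nat_lit 399) (nat_lit 324)) (XT.lf (nat_lit 0) (nat_lit 11642696171) (nat_lit 304) (nat_lit 3279310362) (nat_lit 380) (nat_lit 1117247525) (nat_lit 94) (nat_lit 5) (nat_lit 98) (nat_lit 5) (nat_lit 99) (nat_lit 5) (nat_lit 478) (nat_lit 399) (nat_lit 323))) (XT.nd (nat_lit 78) (nat_lit 228) (nat_lit 0) (XT.lf (nat_lit 0) (nat_lit 6161348692) (nat_lit 304) (nat_lit 4558322987) (nat_lit 76) (nat_lit 5612527429) (nat_lit 90) (nat_lit 5) (nat_lit 94) (nat_lit 5) (nat_lit 91) (nat_lit 5) (nat_lit 479) (nat_lit 399) (nat_lit 322)) (XT.lf (nat_lit 0) (nat_lit 11900017642) (nat_lit 228) (nat_lit 1824551659) (nat_lit 304) (nat_lit 2907587630) (nat_lit 87) (nat_lit 5) (nat_lit 90) (nat_lit 5) (nat_lit 91) (nat_lit 5) (nat_lit 480) (nat_lit 399) (nat_lit 321))))) (XT.nd (nat_lit 234) (nat_lit 912) (nat_lit 0) (XT.nd (nat_lit 78) (nat_lit 532) (nat_lit 0) (XT.lf (nat_lit 0) (nat_lit 4623785195) (nat_lit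 304) (nat_lit 4967875546) (nat_lit 76) (nat_lit 7346655929) (nat_lit 83) (nat_lit 5) (nat_lit 87) (nat_lit 5) (nat_lit 84) (nat_lit 5) (nat_lit 481) (nat_lit 399) (nat_lit 320)) (XT.nd (nat_lit 78) (nat_lit 304) (nat_lit 0) (XT.lf (nat_lit 0) (nat_lit 12030390827) (nat_lit 228) (nat_lit 387379906) (nat_lit 304) (nat_lit 4833983553) (nat_lit 80) (nat_lit 5) (nat_lit 83) (nat_lit 5) (nat_lit 84) (nat_lit 5) (nat_lit 482) (nat_lit 399) (nat_lit 319)) (XT.lf (nat_lit 0) (nat_lit 2959296792) (nat_lit 304) (nat_lit 5540850471) (nat_lit 76) (nat_lit 9071556482) (nat_lit 76) (nat_lit 5) (nat_lit 80) (nat_lit 5) (nat_lit 77) (nat_lit 5) (nat_lit 483) (nat_lit 399) (nat_lit 318)))) (XT.nd (nat_lit 156) (nat_lit 380) (nat_lit 0) (XT.nd (nat_lit 78) (nat_lit 304) (nat_lit 0) (XT.lf (nat_lit 0) (nat_lit 10998420288) (nat_lit 304) (nat_lit 5891906543) (nat_lit 76) (nat_lit 1008732292) (nat_lit 73) (nat_lit 5) (nat_lit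 77) (nat_lit 5) (nat_lit 74) (nat_lit 5) (nat_lit 484) (nat_lit 399) (nat_lit 317)) (XT.lf (nat_lit 0) (nat_lit 1156919894) (nat_lit 304) (nat_lit 6299246184) (nat_lit 76) (nat_lit 10777372355) (nat_lit 69) (nat_lit 5) (nat_lit 73) (nat_lit 5) (nat_lit 70) (nat_lit 5) (nat_lit 485) (nat_lit 399) (nat_lit 316))) (XT.nd (nat_lit 78) (nat_lit 152) (nat_lit 0) (XT.lf (nat_lit 0) (nat_lit 9451114488) (nat_lit 304) (nat_lit 6762551197) (nat_lit 76) (nat_lit 2361701753) (nat_lit 66) (nat_lit 5) (nat_lit 70) (nat_lit 5) (nat_lit 67) (nat_lit 5) (nat_lit 486) (nat_lit 399) (nat_lit 315)) (XT.lf (nat_lit 0) (nat_lit 11652439306) (nat_lit 152) (nat_lit 6466353040) (nat_lit 228) (nat_lit 806166611) (nat_lit 64) (nat_lit 5) (nat_lit 66) (nat_lit 5) (nat_lit 67) (nat_lit 5) (nat_lit 487) (nat_lit 399) (nat_lit 314)))))) (XT.nd (nat_lit 546) (nat_lit 3724) (nat_lit 0) (XT.nd (nat_lit 234) (nat_lit 912) (nat_lit 0)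 (XT.nd (nat_lit 78) (nat_lit 228) (nat_lit 0) (XT.lf (nat_lit 0) (nat_lit 0) (nat_lit 0) (nat_lit 0) (nat_lit 0) (nat_lit 1073741823) (nat_lit 1) (nat_lit 0) (nat_lit 1) (nat_lit 0) (nat_lit 783) (nat_lit 0) (nat_lit 400) (nat_lit 400) (nat_lit 400)) (XT.nd (nat_lit 78) (nat_lit 152) (nat_lit 0) (XT.lf (nat_lit 0) (nat_lit 4741086139) (nat_lit 76) (nat_lit 1624483569) (nat_lit 0) (nat_lit 78127714) (nat_lit 782) (nat_lit 5) (nat_lit 783) (nat_lit 0) (nat_lit 782) (nat_lit 4) (nat_lit 401) (nat_lit 400) (nat_lit 399)) (XT.lf (nat_lit 0) (nat_lit 2973535889) (nat_lit 152) (nat_lit 3183560032) (nat_lit 76) (nat_lit 290778050) (nat_lit 780) (nat_lit 5) (nat_lit 782) (nat_lit 5) (nat_lit 781) (nat_lit 4) (nat_lit 402) (nat_lit 400) (nat_lit 398)))) (XT.nd (nat_lit 156) (nat_lit 456) (nat_lit 0) (XT.nd (nat_lit 78) (nat_lit 228) (nat_lit 0) (XT.lf (nat_lit 0) (nat_lit 1138501035) (nat_lit 228) (nat_lit 4678307408)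 (nat_lit 76) (nat_lit 638175032) (nat_lit 777) (nat_lit 5) (nat_lit 780) (nat_lit 5) (nat_lit 778) (nat_lit 5) (nat_lit 403) (nat_lit 400) (nat_lit 397)) (XT.lf (nat_lit 0) (nat_lit 350161094) (nat_lit 228) (nat_lit 5339207621) (nat_lit 304) (nat_lit 775561423) (nat_lit 774) (nat_lit 5) (nat_lit 777) (nat_lit 5) (nat_lit 778) (nat_lit 5) (nat_lit 404) (nat_lit 400) (nat_lit 396))) (XT.nd (nat_lit 78) (nat_lit 380) (nat_lit 0) (XT.lf (nat_lit 0) (nat_lit 3708290870) (nat_lit 304) (nat_lit 1005771643) (nat_lit 76) (nat_lit 1763467717) (nat_lit 773) (nat_lit 5) (nat_lit 777) (nat_lit 5) (nat_lit 774) (nat_lit 5) (nat_lit 405) (nat_lit 400) (nat_lit 395)) (XT.lf (nat_lit 0) (nat_lit 1659242210) (nat_lit 380) (nat_lit 2293965429) (nat_lit 76) (nat_lit 2539829882) (nat_lit 768) (nat_lit 5) (nat_lit 773) (nat_lit 5) (nat_lit 769) (nat_lit 5) (nat_lit 406) (nat_lit 400) (nat_lit 394))))) (XT.nd (nat_lit 234)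 (nat_lit 2204) (nat_lit 0) (XT.nd (nat_lit 78) (nat_lit 1140) (nat_lit 0) (XT.lf (nat_lit 0) (nat_lit 2988608145) (nat_lit 380) (nat_lit 3055055038) (nat_lit 456) (nat_lit 467784275) (nat_lit 763) (nat_lit 5) (nat_lit 768) (nat_lit 5) (nat_lit 769) (nat_lit 5) (nat_lit 407) (nat_lit 400) (nat_lit 393)) (XT.nd (nat_lit 78) (nat_lit 608) (nat_lit 0) (XT.lf (nat_lit 0) (nat_lit 1831129353) (nat_lit 456) (nat_lit 2010121419) (nat_lit 532) (nat_lit 2691354798) (nat_lit 756) (nat_lit 5) (nat_lit 762) (nat_lit 5) (nat_lit 763) (nat_lit 5) (nat_lit 408) (nat_lit 400) (nat_lit 392)) (XT.lf (nat_lit 0) (nat_lit 737121693) (nat_lit 532) (nat_lit 828430608) (nat_lit 608) (nat_lit 4991192491) (nat_lit 748) (nat_lit 5) (nat_lit 755) (nat_lit 5) (nat_lit 756) (nat_lit 5) (nat_lit 409) (nat_lit 400) (nat_lit 391)))) (XT.nd (nat_lit 156) (nat_lit 1520) (nat_lit 0) (XT.nd (nat_lit 78) (nat_lit 684) (nat_lit 0) (XT.lf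 (nat_lit 0) (nat_lit 5793207552) (nat_lit 608) (nat_lit 298527391) (nat_lit 76) (nat_lit 491940888) (nat_lit 748) (nat_lit 5) (nat_lit 756) (nat_lit 5) (nat_lit 749) (nat_lit 5) (nat_lit 410) (nat_lit 400) (nat_lit 390)) (XT.lf (nat_lit 0) (nat_lit 3378790495) (nat_lit 684) (nat_lit 1280104344) (nat_lit 76) (nat_lit 1954297735) (nat_lit 739) (nat_lit 5) (nat_lit 748) (nat_lit 5) (nat_lit 740) (nat_lit 5) (nat_lit 411) (nat_lit 400) (nat_lit 389))) (XT.nd (nat_lit 78) (nat_lit 760) (nat_lit 0) (XT.lf (nat_lit 0) (nat_lit 887838915) (nat_lit 760) (nat_lit 2201985655) (nat_lit 76) (nat_lit 3555901442) (nat_lit 729) (nat_lit 5) (nat_lit 739) (nat_lit 5) (nat_lit 730) (nat_lit 5) (nat_lit 412) (nat_lit 400) (nat_lit 388)) (XT.lf (nat_lit 0) (nat_lit 3605454063) (nat_lit 760) (nat_lit 1371562385) (nat_lit 836) (nat_lit 1704060856) (nat_lit 719) (nat_lit 5) (nat_lit 729) (nat_lit 5) (nat_lit 730) (nat_lit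 5) (nat_lit 413) (nat_lit 400) (nat_lit 387))))))))
noncomputable def xc36 : XT := (XT.nd (nat_lit 2106) (nat_lit 14060) (nat_lit 0) (XT.nd (nat_lit 1014) (nat_lit 13984) (nat_lit 0) (XT.nd (nat_lit 468) (nat_lit 10336) (nat_lit 0) (XT.nd (nat_lit 234) (nat_lit 2356) (nat_lit 0) (XT.nd (nat_lit 78) (nat_lit 1976) (nat_lit 0) (XT.lf (nat_lit 0) (nat_lit 2332988438) (nat_lit 912) (nat_lit 3899846286) (nat_lit 76) (nat_lit 486466099) (nat_lit 707) (nat_lit 5) (nat_lit 719) (nat_lit 5) (nat_lit 708) (nat_lit 5) (nat_lit 414) (nat_lit 400) (nat_lit 386)) (XT.nd (nat_lit 78) (nat_lit 1064) (nat_lit 0) (XT.lf (nat_lit 0) (nat_lit 2082133060) (nat_lit 912) (nat_lit 4290939144) (nat_lit 988) (nat_lit 387284721) (nat_lit 695) (nat_lit 5) (nat_lit 707) (nat_lit 5) (nat_lit 708) (nat_lit 5) (nat_lit 415) (nat_lit 400) (nat_lit 385)) (XT.lf (nat_lit 0) (nat_lit 1388743714) (nat_lit 988) (nat_lit 2193413992) (nat_lit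 1064) (nat_lit 3222026740) (nat_lit 681) (nat_lit 5) (nat_lit 694) (nat_lit 5) (nat_lit 695) (nat_lit 5) (nat_lit 416) (nat_lit 400) (nat_lit 384)))) (XT.nd (nat_lit 78) (nat_lit 1216) (nat_lit 0) (XT.lf (nat_lit 0) (nat_lit 708773816) (nat_lit 1140) (nat_lit 6096612074) (nat_lit 76) (nat_lit 45728550) (nat_lit 666) (nat_lit 5) (nat_lit 681) (nat_lit 5) (nat_lit 667) (nat_lit 5) (nat_lit 417) (nat_lit 400) (nat_lit 383)) (XT.nd (nat_lit 78) (nat_lit 76) (nat_lit 0) (XT.lf (nat_lit 0) (nat_lit 149171925) (nat_lit 1140) (nat_lit 4487049871) (nat_lit 1216) (nat_lit 2264365744) (nat_lit 651) (nat_lit 5) (nat_lit 666) (nat_lit 5) (nat_lit 667) (nat_lit 5) (nat_lit 418) (nat_lit 400) (nat_lit 382)) (XT.lf (nat_lit 0) (nat_lit 1620814096) (nat_lit 1216) (nat_lit 397791029) (nat_lit 76) (nat_lit 4934454567) (nat_lit 650) (nat_lit 5) (nat_lit 666) (nat_lit 5) (nat_lit 651) (nat_lit 5) (nat_lit 419) (nat_lit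 400) (nat_lit 381))))) (XT.nd (nat_lit 234) (nat_lit 6384) (nat_lit 0) (XT.nd (nat_lit 78) (nat_lit 2736) (nat_lit 0) (XT.lf (nat_lit 0) (nat_lit 5511281013) (nat_lit 1292) (nat_lit 899360732) (nat_lit 76) (nat_lit 597785282) (nat_lit 634) (nat_lit 5) (nat_lit 651) (nat_lit 5) (nat_lit 635) (nat_lit 5) (nat_lit 420) (nat_lit 400) (nat_lit 380)) (XT.nd (nat_lit 78) (nat_lit 1368) (nat_lit 0) (XT.lf (nat_lit 0) (nat_lit 2352530664) (nat_lit 1368) (nat_lit 1369109003) (nat_lit 76) (nat_lit 3344873051) (nat_lit 616) (nat_lit 5) (nat_lit 634) (nat_lit 5) (nat_lit 617) (nat_lit 5) (nat_lit 421) (nat_lit 400) (nat_lit 379)) (XT.lf (nat_lit 0) (nat_lit 5338755012) (nat_lit 1368) (nat_lit 880465126) (nat_lit 1444) (nat_lit 908495161) (nat_lit 598) (nat_lit 5) (nat_lit 616) (nat_lit 5) (nat_lit 617) (nat_lit 5) (nat_lit 422) (nat_lit 400) (nat_lit 378)))) (XT.nd (nat_lit 156) (nat_lit 3344) (nat_lit 0) (XT.nd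 (nat_lit 78) (nat_lit 1520) (nat_lit 0) (XT.lf (nat_lit 0) (nat_lit 2910424976) (nat_lit 1520) (nat_lit 2182711695) (nat_lit 76) (nat_lit 2098460106) (nat_lit 578) (nat_lit 5) (nat_lit 598) (nat_lit 5) (nat_lit 579) (nat_lit 5) (nat_lit 423) (nat_lit 400) (nat_lit 377)) (XT.lf (nat_lit 0) (nat_lit 4727849369) (nat_lit 1520) (nat_lit 2038461933) (nat_lit 1596) (nat_lit 492277242) (nat_lit 558) (nat_lit 5) (nat_lit 578) (nat_lit 5) (nat_lit 579) (nat_lit 5) (nat_lit 424) (nat_lit 400) (nat_lit 376))) (XT.nd (nat_lit 78) (nat_lit 1672) (nat_lit 0) (XT.lf (nat_lit 0) (nat_lit 3305097260) (nat_lit 1672) (nat_lit 2851327709) (nat_lit 76) (nat_lit 1171939821) (nat_lit 536) (nat_lit 5) (nat_lit 558) (nat_lit 5) (nat_lit 537) (nat_lit 5) (nat_lit 425) (nat_lit 400) (nat_lit 375)) (XT.lf (nat_lit 0) (nat_lit 4268096645) (nat_lit 1672) (nat_lit 2890775509) (nat_lit 1748) (nat_lit 242321855) (nat_lit 514) (nat_lit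 5) (nat_lit 536) (nat_lit 5) (nat_lit 537) (nat_lit 5) (nat_lit 426) (nat_lit 400) (nat_lit 374)))))) (XT.nd (nat_lit 546) (nat_lit 5548) (nat_lit 0) (XT.nd (nat_lit 234) (nat_lit 3648) (nat_lit 0) (XT.nd (nat_lit 78) (nat_lit 2964) (nat_lit 0) (XT.lf (nat_lit 0) (nat_lit 3546115075) (nat_lit 1824) (nat_lit 3386835231) (nat_lit 76) (nat_lit 543952084) (nat_lit 490) (nat_lit 5) (nat_lit 514) (nat_lit 5) (nat_lit 491) (nat_lit 5) (nat_lit 427) (nat_lit 400) (nat_lit 373)) (XT.nd (nat_lit 78) (nat_lit 1140) (nat_lit 0) (XT.lf (nat_lit 0) (nat_lit 3948075682) (nat_lit 1824) (nat_lit 3458080796) (nat_lit 1900) (nat_lit 149476132) (nat_lit 466) (nat_lit 5) (nat_lit 490) (nat_lit 5) (nat_lit 491) (nat_lit 5) (nat_lit 428) (nat_lit 400) (nat_lit 372)) (XT.lf (nat_lit 0) (nat_lit 3642076925) (nat_lit 1140) (nat_lit 3800345760) (nat_lit 76) (nat_lit 194904401) (nat_lit 451) (nat_lit 5) (nat_lit 466) (nat_lit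 5) (nat_lit 452) (nat_lit 5) (nat_lit 429) (nat_lit 400) (nat_lit 371)))) (XT.nd (nat_lit 156) (nat_lit 1748) (nat_lit 0) (XT.nd (nat_lit 78) (nat_lit 988) (nat_lit 0) (XT.lf (nat_lit 0) (nat_lit 3757125748) (nat_lit 912) (nat_lit 3759356641) (nat_lit 988) (nat_lit 205554440) (nat_lit 439) (nat_lit 5) (nat_lit 451) (nat_lit 5) (nat_lit 452) (nat_lit 5) (nat_lit 430) (nat_lit 400) (nat_lit 370)) (XT.lf (nat_lit 0) (nat_lit 3600669750) (nat_lit 988) (nat_lit 4102283628) (nat_lit 76) (nat_lit 106834197) (nat_lit 426) (nat_lit 5) (nat_lit 439) (nat_lit 5) (nat_lit 427) (nat_lit 5) (nat_lit 431) (nat_lit 400) (nat_lit 369))) (XT.nd (nat_lit 78) (nat_lit 912) (nat_lit 0) (XT.lf (nat_lit 0) (nat_lit 3685268034) (nat_lit 836) (nat_lit 3812019344) (nat_lit 912) (nat_lit 403282704) (nat_lit 415) (nat_lit 5) (nat_lit 426) (nat_lit 5) (nat_lit 427) (nat_lit 5) (nat_lit 432) (nat_lit 400) (nat_lit 368)) (XT.lf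 (nat_lit 0) (nat_lit 3428720616) (nat_lit 912) (nat_lit 4302461861) (nat_lit 76) (nat_lit 263280708) (nat_lit 403) (nat_lit 5) (nat_lit 415) (nat_lit 5) (nat_lit 404) (nat_lit 5) (nat_lit 433) (nat_lit 400) (nat_lit 367))))) (XT.nd (nat_lit 234) (nat_lit 3040) (nat_lit 0) (XT.nd (nat_lit 78) (nat_lit 1672) (nat_lit 0) (XT.lf (nat_lit 0) (nat_lit 3723130695) (nat_lit 836) (nat_lit 3632047022) (nat_lit 912) (nat_lit 736248510) (nat_lit 392) (nat_lit 5) (nat_lit 403) (nat_lit 5) (nat_lit 404) (nat_lit 5) (nat_lit 434) (nat_lit 400) (nat_lit 366)) (XT.nd (nat_lit 78) (nat_lit 760) (nat_lit 0) (XT.lf (nat_lit 0) (nat_lit 3132242940) (nat_lit 912) (nat_lit 4410154892) (nat_lit 76) (nat_lit 649165617) (nat_lit 380) (nat_lit 5) (nat_lit 392) (nat_lit 5) (nat_lit 381) (nat_lit 5) (nat_lit 435) (nat_lit 400) (nat_lit 365)) (XT.lf (nat_lit 0) (nat_lit 3861876898) (nat_lit 760) (nat_lit 3234095632) (nat_lit 836)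 (nat_lit 1198856669) (nat_lit 370) (nat_lit 5) (nat_lit 380) (nat_lit 5) (nat_lit 381) (nat_lit 5) (nat_lit 436) (nat_lit 400) (nat_lit 364)))) (XT.nd (nat_lit 156) (nat_lit 1520) (nat_lit 0) (XT.nd (nat_lit 78) (nat_lit 684) (nat_lit 0) (XT.lf (nat_lit 0) (nat_lit 2716477487) (nat_lit 836) (nat_lit 4434168677) (nat_lit 76) (nat_lit 1250681648) (nat_lit 359) (nat_lit 5) (nat_lit 370) (nat_lit 5) (nat_lit 360) (nat_lit 5) (nat_lit 437) (nat_lit 400) (nat_lit 363)) (XT.lf (nat_lit 0) (nat_lit 4093135367) (nat_lit 684) (nat_lit 2631607400) (nat_lit 760) (nat_lit 1786290002) (nat_lit 350) (nat_lit 5) (nat_lit 359) (nat_lit 5) (nat_lit 360) (nat_lit 5) (nat_lit 438) (nat_lit 400) (nat_lit 362))) (XT.nd (nat_lit 78) (nat_lit 684) (nat_lit 0) (XT.lf (nat_lit 0) (nat_lit 2185928395) (nat_lit 836) (nat_lit 4382908685) (nat_lit 76) (nat_lit 2055188370) (nat_lit 339) (nat_lit 5) (nat_lit 350) (nat_lit 5) (nat_lit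 340) (nat_lit 5) (nat_lit 439) (nat_lit 400) (nat_lit 361)) (XT.lf (nat_lit 0) (nat_lit 4408932905) (nat_lit 684) (nat_lit 1836912394) (nat_lit 760) (nat_lit 2494475120) (nat_lit 330) (nat_lit 5) (nat_lit 339) (nat_lit 5) (nat_lit 340) (nat_lit 5) (nat_lit 440) (nat_lit 400) (nat_lit 360))))))) (XT.nd (nat_lit 1014) (nat_lit 6080) (nat_lit 0) (XT.nd (nat_lit 468) (nat_lit 3952) (nat_lit 0) (XT.nd (nat_lit 234) (nat_lit 1900) (nat_lit 0) (XT.nd (nat_lit 78) (nat_lit 1368) (nat_lit 0) (XT.lf (nat_lit 0) (nat_lit 1544394404) (nat_lit 760) (nat_lit 4264446296) (nat_lit 76) (nat_lit 3051114514) (nat_lit 320) (nat_lit 5) (nat_lit 330) (nat_lit 5) (nat_lit 321) (nat_lit 5) (nat_lit 441) (nat_lit 400) (nat_lit 359)) (XT.nd (nat_lit 78) (nat_lit 760) (nat_lit 0) (XT.lf (nat_lit 0) (nat_lit 4801628407) (nat_lit 608) (nat_lit 861323935) (nat_lit 684) (nat_lit 3320053004) (nat_lit 312) (nat_lit 5) (nat_lit 320)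 (nat_lit 5) (nat_lit 321) (nat_lit 5) (nat_lit 442) (nat_lit 400) (nat_lit 358)) (XT.lf (nat_lit 0) (nat_lit 794995476) (nat_lit 760) (nat_lit 4086584085) (nat_lit 76) (nat_lit 4227866129) (nat_lit 302) (nat_lit 5) (nat_lit 312) (nat_lit 5) (nat_lit 303) (nat_lit 5) (nat_lit 443) (nat_lit 400) (nat_lit 357)))) (XT.nd (nat_lit 78) (nat_lit 1292) (nat_lit 0) (XT.lf (nat_lit 0) (nat_lit 4980925245) (nat_lit 684) (nat_lit 3977431664) (nat_lit 76) (nat_lit 281036686) (nat_lit 294) (nat_lit 5) (nat_lit 303) (nat_lit 5) (nat_lit 295) (nat_lit 5) (nat_lit 444) (nat_lit 400) (nat_lit 356)) (XT.nd (nat_lit 78) (nat_lit 684) (nat_lit 0) (XT.lf (nat_lit 0) (nat_lit 5515533556) (nat_lit 608) (nat_lit 3796714106) (nat_lit 684) (nat_lit 60599847) (nat_lit 286) (nat_lit 5) (nat_lit 294) (nat_lit 5) (nat_lit 295) (nat_lit 5) (nat_lit 445) (nat_lit 400) (nat_lit 355)) (XT.lf (nat_lit 0) (nat_lit 4206925525) (nat_lit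 684) (nat_lit 3731884709) (nat_lit 76) (nat_lit 1570952231) (nat_lit 277) (nat_lit 5) (nat_lit 286) (nat_lit 5) (nat_lit 278) (nat_lit 5) (nat_lit 446) (nat_lit 400) (nat_lit 354))))) (XT.nd (nat_lit 234) (nat_lit 2204) (nat_lit 0) (XT.nd (nat_lit 78) (nat_lit 1140) (nat_lit 0) (XT.lf (nat_lit 0) (nat_lit 6060825992) (nat_lit 608) (nat_lit 2557899071) (nat_lit 684) (nat_lit 1031713936) (nat_lit 269) (nat_lit 5) (nat_lit 277) (nat_lit 5) (nat_lit 278) (nat_lit 5) (nat_lit 447) (nat_lit 400) (nat_lit 353)) (XT.nd (nat_lit 78) (nat_lit 532) (nat_lit 0) (XT.lf (nat_lit 0) (nat_lit 3337053733) (nat_lit 608) (nat_lit 3446523812) (nat_lit 76) (nat_lit 3011050866) (nat_lit 261) (nat_lit 5) (nat_lit 269) (nat_lit 5) (nat_lit 262) (nat_lit 5) (nat_lit 448) (nat_lit 400) (nat_lit 352)) (XT.lf (nat_lit 0) (nat_lit 6657116750) (nat_lit 532) (nat_lit 1179060624) (nat_lit 608) (nat_lit 2106566845) (nat_lit 254) (nat_lit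 5) (nat_lit 261) (nat_lit 5) (nat_lit 262) (nat_lit 5) (nat_lit 449) (nat_lit 400) (nat_lit 351)))) (XT.nd (nat_lit 156) (nat_lit 1064) (nat_lit 0) (XT.nd (nat_lit 78) (nat_lit 532) (nat_lit 0) (XT.lf (nat_lit 0) (nat_lit 2372395765) (nat_lit 608) (nat_lit 3128691513) (nat_lit 76) (nat_lit 4593339516) (nat_lit 246) (nat_lit 5) (nat_lit 254) (nat_lit 5) (nat_lit 247) (nat_lit 5) (nat_lit 450) (nat_lit 400) (nat_lit 350)) (XT.lf (nat_lit 0) (nat_lit 6967799953) (nat_lit 608) (nat_lit 2954883750) (nat_lit 76) (nat_lit 327486858) (nat_lit 239) (nat_lit 5) (nat_lit 247) (nat_lit 5) (nat_lit 240) (nat_lit 5) (nat_lit 451) (nat_lit 400) (nat_lit 349))) (XT.nd (nat_lit 78) (nat_lit 532) (nat_lit 0) (XT.lf (nat_lit 0) (nat_lit 1313437682) (nat_lit 532) (nat_lit 2785759222) (nat_lit 76) (nat_lit 6310427411) (nat_lit 232) (nat_lit 5) (nat_lit 239) (nat_lit 5) (nat_lit 233) (nat_lit 5) (nat_lit 452) (nat_lit 400)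 (nat_lit 348)) (XT.lf (nat_lit 0) (nat_lit 6020355795) (nat_lit 608) (nat_lit 2611126652) (nat_lit 76) (nat_lit 1941591527) (nat_lit 225) (nat_lit 5) (nat_lit 233) (nat_lit 5) (nat_lit 226) (nat_lit 5) (nat_lit 453) (nat_lit 400) (nat_lit 347)))))) (XT.nd (nat_lit 546) (nat_lit 2812) (nat_lit 0) (XT.nd (nat_lit 234) (nat_lit 1824) (nat_lit 0) (XT.nd (nat_lit 78) (nat_lit 912) (nat_lit 0) (XT.lf (nat_lit 0) (nat_lit 160068561) (nat_lit 532) (nat_lit 2425195367) (nat_lit 76) (nat_lit 8155455769) (nat_lit 218) (nat_lit 5) (nat_lit 225) (nat_lit 5) (nat_lit 219) (nat_lit 5) (nat_lit 454) (nat_lit 400) (nat_lit 346)) (XT.nd (nat_lit 78) (nat_lit 456) (nat_lit 0) (XT.lf (nat_lit 0) (nat_lit 4986011064) (nat_lit 532) (nat_lit 2254223070) (nat_lit 76) (nat_lit 3671888884) (nat_lit 212) (nat_lit 5) (nat_lit 219) (nat_lit 5) (nat_lit 213) (nat_lit 5) (nat_lit 455) (nat_lit 400) (nat_lit 345)) (XT.lf (nat_lit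 0) (nat_lit 9026304696) (nat_lit 456) (nat_lit 958911115) (nat_lit 532) (nat_lit 1102885480) (nat_lit 206) (nat_lit 5) (nat_lit 212) (nat_lit 5) (nat_lit 213) (nat_lit 5) (nat_lit 456) (nat_lit 400) (nat_lit 344)))) (XT.nd (nat_lit 156) (nat_lit 912) (nat_lit 0) (XT.nd (nat_lit 78) (nat_lit 380) (nat_lit 0) (XT.lf (nat_lit 0) (nat_lit 3864000304) (nat_lit 532) (nat_lit 1891902372) (nat_lit 76) (nat_lit 5511963695) (nat_lit 199) (nat_lit 5) (nat_lit 206) (nat_lit 5) (nat_lit 200) (nat_lit 5) (nat_lit 457) (nat_lit 400) (nat_lit 343)) (XT.lf (nat_lit 0) (nat_lit 8991746140) (nat_lit 456) (nat_lit 1702951335) (nat_lit 76) (nat_lit 757646720) (nat_lit 194) (nat_lit 5) (nat_lit 200) (nat_lit 5) (nat_lit 195) (nat_lit 5) (nat_lit 458) (nat_lit 400) (nat_lit 342))) (XT.nd (nat_lit 78) (nat_lit 380) (nat_lit 0) (XT.lf (nat_lit 0) (nat_lit 2652963371) (nat_lit 532) (nat_lit 1532176229) (nat_lit 76) (nat_lit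 7455747321) (nat_lit 187) (nat_lit 5) (nat_lit 194) (nat_lit 5) (nat_lit 188) (nat_lit 5) (nat_lit 459) (nat_lit 400) (nat_lit 341)) (XT.lf (nat_lit 0) (nat_lit 7923018512) (nat_lit 456) (nat_lit 1357659328) (nat_lit 76) (nat_lit 2553354626) (nat_lit 182) (nat_lit 5) (nat_lit 188) (nat_lit 5) (nat_lit 183) (nat_lit 5) (nat_lit 460) (nat_lit 400) (nat_lit 340))))) (XT.nd (nat_lit 234) (nat_lit 1596) (nat_lit 0) (XT.nd (nat_lit 78) (nat_lit 760) (nat_lit 0) (XT.lf (nat_lit 0) (nat_lit 1350933083) (nat_lit 456) (nat_lit 1183417687) (nat_lit 76) (nat_lit 9497452121) (nat_lit 176) (nat_lit 5) (nat_lit 182) (nat_lit 5) (nat_lit 177) (nat_lit 5) (nat_lit 461) (nat_lit 400) (nat_lit 339)) (XT.nd (nat_lit 78) (nat_lit 380) (nat_lit 0) (XT.lf (nat_lit 0) (nat_lit 6770812158) (nat_lit 456) (nat_lit 1028267482) (nat_lit 76) (nat_lit 4434847571) (nat_lit 171) (nat_lit 5) (nat_lit 177) (nat_lit 5) (nat_lit 172)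 (nat_lit 5) (nat_lit 462) (nat_lit 400) (nat_lit 338)) (XT.lf (nat_lit 0) (nat_lit 11586524285) (nat_lit 380) (nat_lit 809463289) (nat_lit 456) (nat_lit 45275627) (nat_lit 166) (nat_lit 5) (nat_lit 171) (nat_lit 5) (nat_lit 172) (nat_lit 5) (nat_lit 463) (nat_lit 400) (nat_lit 337)))) (XT.nd (nat_lit 156) (nat_lit 760) (nat_lit 0) (XT.nd (nat_lit 78) (nat_lit 380) (nat_lit 0) (XT.lf (nat_lit 0) (nat_lit 5532512598) (nat_lit 456) (nat_lit 723840286) (nat_lit 76) (nat_lit 6396349335) (nat_lit 160) (nat_lit 5) (nat_lit 166) (nat_lit 5) (nat_lit 161) (nat_lit 5) (nat_lit 464) (nat_lit 400) (nat_lit 336)) (XT.lf (nat_lit 0) (nat_lit 11318675880) (nat_lit 456) (nat_lit 571169371) (nat_lit 76) (nat_lit 979801833) (nat_lit 155) (nat_lit 5) (nat_lit 161) (nat_lit 5) (nat_lit 156) (nat_lit 5) (nat_lit 465) (nat_lit 400) (nat_lit 335))) (XT.nd (nat_lit 78) (nat_lit 380) (nat_lit 0) (XT.lf (nat_lit 0) (nat_lit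 4204861587) (nat_lit 380) (nat_lit 454026091) (nat_lit 76) (nat_lit 8432182264) (nat_lit 150) (nat_lit 5) (nat_lit 155) (nat_lit 5) (nat_lit 151) (nat_lit 5) (nat_lit 466) (nat_lit 400) (nat_lit 334)) (XT.lf (nat_lit 0) (nat_lit 10164915019) (nat_lit 456) (nat_lit 333043633) (nat_lit 76) (nat_lit 2819921108) (nat_lit 145) (nat_lit 5) (nat_lit 151) (nat_lit 5) (nat_lit 146) (nat_lit 5) (nat_lit 467) (nat_lit 400) (nat_lit 333))))))))
noncomputable def xc37 : XT := (XT.nd (nat_lit 57798) (nat_lit 0) (nat_lit 23864) (XT.nd (nat_lit 1014) (nat_lit 1824) (nat_lit 0) (XT.nd (nat_lit 468) (nat_lit 1824) (nat_lit 0) (XT.nd (nat_lit 234) (nat_lit 1216) (nat_lit 0) (XT.nd (nat_lit 78) (nat_lit 760) (nat_lit 0) (XT.lf (nat_lit 0) (nat_lit 2783927662) (nat_lit 380) (nat_lit 229156049) (nat_lit 76) (nat_lit 10536699383) (nat_lit 140) (nat_lit 5) (nat_lit 145) (nat_lit 5) (nat_lit 141) (nat_lit 5) (nat_lit 468)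 (nat_lit 400) (nat_lit 332)) (XT.nd (nat_lit 78) (nat_lit 380) (nat_lit 0) (XT.lf (nat_lit 0) (nat_lit 8925505188) (nat_lit 456) (nat_lit 145812532) (nat_lit 76) (nat_lit 4715522223) (nat_lit 135) (nat_lit 5) (nat_lit 141) (nat_lit 5) (nat_lit 136) (nat_lit 5) (nat_lit 469) (nat_lit 400) (nat_lit 331)) (XT.lf (nat_lit 0) (nat_lit 1265071083) (nat_lit 380) (nat_lit 60350723) (nat_lit 76) (nat_lit 12704214601) (nat_lit 130) (nat_lit 5) (nat_lit 135) (nat_lit 5) (nat_lit 131) (nat_lit 5) (nat_lit 470) (nat_lit 400) (nat_lit 330)))) (XT.nd (nat_lit 78) (nat_lit 912) (nat_lit 0) (XT.lf (nat_lit 0) (nat_lit 7595790357) (nat_lit 380) (nat_lit 21030465) (nat_lit 76) (nat_lit 6660523335) (nat_lit 126) (nat_lit 5) (nat_lit 131) (nat_lit 5) (nat_lit 127) (nat_lit 5) (nat_lit 471) (nat_lit 400) (nat_lit 329)) (XT.nd (nat_lit 78) (nat_lit 304) (nat_lit 0) (XT.lf (nat_lit 0) (nat_lit 35889852) (nat_lit 304) (nat_lit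 14136518051) (nat_lit 380) (nat_lit 358957075) (nat_lit 118) (nat_lit 5) (nat_lit 122) (nat_lit 5) (nat_lit 123) (nat_lit 5) (nat_lit 472) (nat_lit 400) (nat_lit 328)) (XT.lf (nat_lit 0) (nat_lit 29162707) (nat_lit 228) (nat_lit 6141385607) (nat_lit 304) (nat_lit 8619701738) (nat_lit 114) (nat_lit 5) (nat_lit 117) (nat_lit 5) (nat_lit 118) (nat_lit 5) (nat_lit 473) (nat_lit 400) (nat_lit 327))))) (XT.nd (nat_lit 234) (nat_lit 1216) (nat_lit 0) (XT.nd (nat_lit 78) (nat_lit 304) (nat_lit 0) (XT.lf (nat_lit 0) (nat_lit 32578546) (nat_lit 304) (nat_lit 12921042626) (nat_lit 380) (nat_lit 2101983137) (nat_lit 110) (nat_lit 5) (nat_lit 114) (nat_lit 5) (nat_lit 115) (nat_lit 5) (nat_lit 474) (nat_lit 400) (nat_lit 326)) (XT.nd (nat_lit 78) (nat_lit 228) (nat_lit 0) (XT.lf (nat_lit 0) (nat_lit 4642993627) (nat_lit 380) (nat_lit 10001038) (nat_lit 76) (nat_lit 10673482866) (nat_lit 109) (nat_lit 5) (nat_lit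 114) (nat_lit 5) (nat_lit 110) (nat_lit 5) (nat_lit 475) (nat_lit 400) (nat_lit 325)) (XT.lf (nat_lit 0) (nat_lit 11640485120) (nat_lit 304) (nat_lit 67391747) (nat_lit 76) (nat_lit 3895748912) (nat_lit 106) (nat_lit 5) (nat_lit 110) (nat_lit 5) (nat_lit 107) (nat_lit 5) (nat_lit 476) (nat_lit 400) (nat_lit 324)))) (XT.nd (nat_lit 156) (nat_lit 608) (nat_lit 0) (XT.nd (nat_lit 78) (nat_lit 228) (nat_lit 0) (XT.lf (nat_lit 0) (nat_lit 3006613632) (nat_lit 380) (nat_lit 152235094) (nat_lit 76) (nat_lit 12728124531) (nat_lit 101) (nat_lit 5) (nat_lit 106) (nat_lit 5) (nat_lit 102) (nat_lit 5) (nat_lit 477) (nat_lit 400) (nat_lit 323)) (XT.lf (nat_lit 0) (nat_lit 10226279788) (nat_lit 304) (nat_lit 278748400) (nat_lit 76) (nat_lit 5671376873) (nat_lit 98) (nat_lit 5) (nat_lit 102) (nat_lit 5) (nat_lit 99) (nat_lit 5) (nat_lit 478) (nat_lit 400) (nat_lit 322))) (XT.nd (nat_lit 78) (nat_lit 228) (nat_lit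 0) (XT.lf (nat_lit 0) (nat_lit 1253209841) (nat_lit 380) (nat_lit 414177889) (nat_lit 76) (nat_lit 14805363358) (nat_lit 93) (nat_lit 5) (nat_lit 98) (nat_lit 5) (nat_lit 94) (nat_lit 5) (nat_lit 479) (nat_lit 400) (nat_lit 321)) (XT.lf (nat_lit 0) (nat_lit 8702726613) (nat_lit 304) (nat_lit 618936703) (nat_lit 76) (nat_lit 7453320165) (nat_lit 90) (nat_lit 5) (nat_lit 94) (nat_lit 5) (nat_lit 91) (nat_lit 5) (nat_lit 480) (nat_lit 400) (nat_lit 320)))))) (XT.nd (nat_lit 56238) (nat_lit 0) (nat_lit 52820) (XT.nd (nat_lit 234) (nat_lit 1064) (nat_lit 0) (XT.nd (nat_lit 78) (nat_lit 532) (nat_lit 0) (XT.lf (nat_lit 0) (nat_lit 16267023680) (nat_lit 228) (nat_lit 183218761) (nat_lit 304) (nat_lit 634551105) (nat_lit 87) (nat_lit 5) (nat_lit 90) (nat_lit 5) (nat_lit 91) (nat_lit 5) (nat_lit 481) (nat_lit 400) (nat_lit 319)) (XT.nd (nat_lit 78) (nat_lit 228) (nat_lit 0) (XT.lf (nat_lit 0) (nat_lit 7060735653)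 (nat_lit 304) (nat_lit 1106631404) (nat_lit 76) (nat_lit 9233087382) (nat_lit 83) (nat_lit 5) (nat_lit 87) (nat_lit 5) (nat_lit 84) (nat_lit 5) (nat_lit 482) (nat_lit 400) (nat_lit 318)) (XT.lf (nat_lit 0) (nat_lit 15055587811) (nat_lit 304) (nat_lit 1395973126) (nat_lit 76) (nat_lit 1272394675) (nat_lit 80) (nat_lit 5) (nat_lit 84) (nat_lit 5) (nat_lit 81) (nat_lit 5) (nat_lit 483) (nat_lit 400) (nat_lit 317)))) (XT.nd (nat_lit 156) (nat_lit 532) (nat_lit 0) (XT.nd (nat_lit 78) (nat_lit 228) (nat_lit 0) (XT.lf (nat_lit 0) (nat_lit 5290107259) (nat_lit 304) (nat_lit 1762358180) (nat_lit 76) (nat_lit 11001505360) (nat_lit 76) (nat_lit 5) (nat_lit 80) (nat_lit 5) (nat_lit 77) (nat_lit 5) (nat_lit 484) (nat_lit 400) (nat_lit 316)) (XT.lf (nat_lit 0) (nat_lit 13541198616) (nat_lit 304) (nat_lit 2154763456) (nat_lit 76) (nat_lit 2695770148) (nat_lit 73) (nat_lit 5) (nat_lit 77) (nat_lit 5) (nat_lit 74)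 (nat_lit 5) (nat_lit 485) (nat_lit 400) (nat_lit 315))) (XT.nd (nat_lit 78) (nat_lit 228) (nat_lit 0) (XT.lf (nat_lit 0) (nat_lit 3379434940) (nat_lit 304) (nat_lit 2608706728) (nat_lit 76) (nat_lit 12748606638) (nat_lit 69) (nat_lit 5) (nat_lit 73) (nat_lit 5) (nat_lit 70) (nat_lit 5) (nat_lit 486) (nat_lit 400) (nat_lit 314)) (XT.lf (nat_lit 0) (nat_lit 11894340459) (nat_lit 304) (nat_lit 3116663079) (nat_lit 76) (nat_lit 4078392111) (nat_lit 66) (nat_lit 5) (nat_lit 70) (nat_lit 5) (nat_lit 67) (nat_lit 5) (nat_lit 487) (nat_lit 400) (nat_lit 313))))) (XT.nd (nat_lit 234) (nat_lit 1140) (nat_lit 0) (XT.nd (nat_lit 78) (nat_lit 228) (nat_lit 0) (XT.lf (nat_lit 0) (nat_lit 1452303431) (nat_lit 228) (nat_lit 885452278) (nat_lit 228) (nat_lit 885452278) (nat_lit 779) (nat_lit 3) (nat_lit 782) (nat_lit 3) (nat_lit 782) (nat_lit 5) (nat_lit 401) (nat_lit 401) (nat_lit 398)) (XT.nd (nat_lit 78) (nat_lit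 0) (nat_lit 0) (XT.lf (nat_lit 0) (nat_lit 1001087466) (nat_lit 228) (nat_lit 3398671614) (nat_lit 304) (nat_lit 2052327328) (nat_lit 776) (nat_lit 5) (nat_lit 779) (nat_lit 3) (nat_lit 780) (nat_lit 5) (nat_lit 402) (nat_lit 401) (nat_lit 397)) (XT.lf (nat_lit 76) (nat_lit 1491699917) (nat_lit 0) (nat_lit 3985148419) (nat_lit 304) (nat_lit 983736558) (nat_lit 777) (nat_lit 5) (nat_lit 776) (nat_lit 5) (nat_lit 780) (nat_lit 5) (nat_lit 403) (nat_lit 401) (nat_lit 396)))) (XT.nd (nat_lit 156) (nat_lit 456) (nat_lit 0) (XT.nd (nat_lit 78) (nat_lit 380) (nat_lit 0) (XT.lf (nat_lit 0) (nat_lit 3419346669) (nat_lit 304) (nat_lit 11149613) (nat_lit 380) (nat_lit 3041406485) (nat_lit 772) (nat_lit 5) (nat_lit 776) (nat_lit 5) (nat_lit 777) (nat_lit 5) (nat_lit 404) (nat_lit 401) (nat_lit 395)) (XT.lf (nat_lit 0) (nat_lit 1301775884) (nat_lit 380) (nat_lit 1430777537) (nat_lit 456) (nat_lit 3753442285) (nat_lit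 767) (nat_lit 5) (nat_lit 772) (nat_lit 5) (nat_lit 773) (nat_lit 5) (nat_lit 405) (nat_lit 401) (nat_lit 394))) (XT.nd (nat_lit 78) (nat_lit 456) (nat_lit 0) (XT.lf (nat_lit 76) (nat_lit 3709516998) (nat_lit 0) (nat_lit 1894505026) (nat_lit 456) (nat_lit 898928416) (nat_lit 768) (nat_lit 5) (nat_lit 767) (nat_lit 5) (nat_lit 773) (nat_lit 5) (nat_lit 406) (nat_lit 401) (nat_lit 393)) (XT.lf (nat_lit 76) (nat_lit 2419609380) (nat_lit 0) (nat_lit 912193600) (nat_lit 532) (nat_lit 3190911640) (nat_lit 762) (nat_lit 5) (nat_lit 761) (nat_lit 5) (nat_lit 768) (nat_lit 5) (nat_lit 407) (nat_lit 401) (nat_lit 392))))))) (XT.nd (nat_lit 1092) (nat_lit 17936) (nat_lit 0) (XT.nd (nat_lit 546) (nat_lit 6916) (nat_lit 0) (XT.nd (nat_lit 234) (nat_lit 3040) (nat_lit 0) (XT.nd (nat_lit 78) (nat_lit 608) (nat_lit 0) (XT.lf (nat_lit 0) (nat_lit 988177047) (nat_lit 532) (nat_lit 5353292506) (nat_lit 76) (nat_lit 203976805)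 (nat_lit 755) (nat_lit 5) (nat_lit 762) (nat_lit 5) (nat_lit 756) (nat_lit 5) (nat_lit 408) (nat_lit 401) (nat_lit 391)) (XT.nd (nat_lit 78) (nat_lit 76) (nat_lit 0) (XT.lf (nat_lit 0) (nat_lit 11377715) (nat_lit 532) (nat_lit 5117365572) (nat_lit 608) (nat_lit 1442121340) (nat_lit 748) (nat_lit 5) (nat_lit 755) (nat_lit 5) (nat_lit 756) (nat_lit 5) (nat_lit 409) (nat_lit 401) (nat_lit 390)) (XT.lf (nat_lit 0) (nat_lit 2644257505) (nat_lit 608) (nat_lit 1100220671) (nat_lit 76) (nat_lit 2854529886) (nat_lit 747) (nat_lit 5) (nat_lit 755) (nat_lit 5) (nat_lit 748) (nat_lit 5) (nat_lit 410) (nat_lit 401) (nat_lit 389)))) (XT.nd (nat_lit 156) (nat_lit 1672) (nat_lit 0) (XT.nd (nat_lit 78) (nat_lit 684) (nat_lit 0) (XT.lf (nat_lit 0) (nat_lit 83889644) (nat_lit 684) (nat_lit 2151797958) (nat_lit 76) (nat_lit 4394489726) (nat_lit 738) (nat_lit 5) (nat_lit 747) (nat_lit 5) (nat_lit 739) (nat_lit 5) (nat_lit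 411) (nat_lit 401) (nat_lit 388)) (XT.lf (nat_lit 0) (nat_lit 3503304721) (nat_lit 684) (nat_lit 572316808) (nat_lit 760) (nat_lit 2588437766) (nat_lit 729) (nat_lit 5) (nat_lit 738) (nat_lit 5) (nat_lit 739) (nat_lit 5) (nat_lit 412) (nat_lit 401) (nat_lit 387))) (XT.nd (nat_lit 78) (nat_lit 836) (nat_lit 0) (XT.lf (nat_lit 0) (nat_lit 1365894119) (nat_lit 836) (nat_lit 4119736089) (nat_lit 76) (nat_lit 1215202019) (nat_lit 718) (nat_lit 5) (nat_lit 729) (nat_lit 5) (nat_lit 719) (nat_lit 5) (nat_lit 413) (nat_lit 401) (nat_lit 386)) (XT.lf (nat_lit 0) (nat_lit 1705918192) (nat_lit 836) (nat_lit 3596059469) (nat_lit 912) (nat_lit 1438435369) (nat_lit 707) (nat_lit 5) (nat_lit 718) (nat_lit 5) (nat_lit 719) (nat_lit 5) (nat_lit 414) (nat_lit 401) (nat_lit 385))))) (XT.nd (nat_lit 234) (nat_lit 4864) (nat_lit 0) (XT.nd (nat_lit 78) (nat_lit 1064) (nat_lit 0) (XT.lf (nat_lit 0) (nat_lit 881130002) (nat_lit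 912) (nat_lit 1558023690) (nat_lit 988) (nat_lit 4343745986) (nat_lit 694) (nat_lit 5) (nat_lit 706) (nat_lit 5) (nat_lit 707) (nat_lit 5) (nat_lit 415) (nat_lit 401) (nat_lit 384)) (XT.nd (nat_lit 78) (nat_lit 76) (nat_lit 0) (XT.lf (nat_lit 0) (nat_lit 108224758) (nat_lit 988) (nat_lit 6211707530) (nat_lit 1064) (nat_lit 508422068) (nat_lit 681) (nat_lit 5) (nat_lit 694) (nat_lit 5) (nat_lit 695) (nat_lit 5) (nat_lit 416) (nat_lit 401) (nat_lit 383)) (XT.lf (nat_lit 0) (nat_lit 3317598755) (nat_lit 1064) (nat_lit 625258418) (nat_lit 76) (nat_lit 2933464090) (nat_lit 680) (nat_lit 5) (nat_lit 694) (nat_lit 5) (nat_lit 681) (nat_lit 5) (nat_lit 417) (nat_lit 401) (nat_lit 382)))) (XT.nd (nat_lit 156) (nat_lit 2584) (nat_lit 0) (XT.nd (nat_lit 78) (nat_lit 1140) (nat_lit 0) (XT.lf (nat_lit 0) (nat_lit 231425754) (nat_lit 1140) (nat_lit 1300433194) (nat_lit 76) (nat_lit 5395571964) (nat_lit 665) (nat_lit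 5) (nat_lit 680) (nat_lit 5) (nat_lit 666) (nat_lit 5) (nat_lit 418) (nat_lit 401) (nat_lit 381)) (XT.lf (nat_lit 0) (nat_lit 4007117149) (nat_lit 1216) (nat_lit 1944862823) (nat_lit 76) (nat_lit 1029229938) (nat_lit 650) (nat_lit 5) (nat_lit 666) (nat_lit 5) (nat_lit 651) (nat_lit 5) (nat_lit 419) (nat_lit 401) (nat_lit 380))) (XT.nd (nat_lit 78) (nat_lit 1292) (nat_lit 0) (XT.lf (nat_lit 0) (nat_lit 775350590) (nat_lit 1292) (nat_lit 2545398840) (nat_lit 76) (nat_lit 3717208109) (nat_lit 633) (nat_lit 5) (nat_lit 650) (nat_lit 5) (nat_lit 634) (nat_lit 5) (nat_lit 420) (nat_lit 401) (nat_lit 379)) (XT.lf (nat_lit 0) (nat_lit 3990373276) (nat_lit 1292) (nat_lit 527335447) (nat_lit 1368) (nat_lit 2579898440) (nat_lit 616) (nat_lit 5) (nat_lit 633) (nat_lit 5) (nat_lit 634) (nat_lit 5) (nat_lit 421) (nat_lit 401) (nat_lit 378)))))) (XT.nd (nat_lit 546) (nat_lit 6460) (nat_lit 0) (XT.nd (nat_lit 234)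 (nat_lit 6992) (nat_lit 0) (XT.nd (nat_lit 78) (nat_lit 3040) (nat_lit 0) (XT.lf (nat_lit 0) (nat_lit 1136946298) (nat_lit 1444) (nat_lit 3634893701) (nat_lit 76) (nat_lit 2388266418) (nat_lit 597) (nat_lit 5) (nat_lit 616) (nat_lit 5) (nat_lit 598) (nat_lit 5) (nat_lit 422) (nat_lit 401) (nat_lit 377)) (XT.nd (nat_lit 78) (nat_lit 1596) (nat_lit 0) (XT.lf (nat_lit 0) (nat_lit 3098390002) (nat_lit 1444) (nat_lit 1763304951) (nat_lit 1520) (nat_lit 2363824423) (nat_lit 578) (nat_lit 5) (nat_lit 597) (nat_lit 5) (nat_lit 598) (nat_lit 5) (nat_lit 423) (nat_lit 401) (nat_lit 376)) (XT.lf (nat_lit 0) (nat_lit 1326794411) (nat_lit 1596) (nat_lit 4582150694) (nat_lit 76) (nat_lit 1384976817) (nat_lit 557) (nat_lit 5) (nat_lit 578) (nat_lit 5) (nat_lit 558) (nat_lit 5) (nat_lit 424) (nat_lit 401) (nat_lit 375)))) (XT.nd (nat_lit 156) (nat_lit 3648) (nat_lit 0) (XT.nd (nat_lit 78) (nat_lit 1748) (nat_lit 0)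 (XT.lf (nat_lit 0) (nat_lit 2354532301) (nat_lit 1596) (nat_lit 2687987740) (nat_lit 1672) (nat_lit 2322622050) (nat_lit 536) (nat_lit 5) (nat_lit 557) (nat_lit 5) (nat_lit 558) (nat_lit 5) (nat_lit 425) (nat_lit 401) (nat_lit 374)) (XT.lf (nat_lit 0) (nat_lit 1354417284) (nat_lit 1748) (nat_lit 5399538738) (nat_lit 76) (nat_lit 685525326) (nat_lit 513) (nat_lit 5) (nat_lit 536) (nat_lit 5) (nat_lit 514) (nat_lit 5) (nat_lit 426) (nat_lit 401) (nat_lit 373))) (XT.nd (nat_lit 78) (nat_lit 1900) (nat_lit 0) (XT.lf (nat_lit 0) (nat_lit 1746884684) (nat_lit 1748) (nat_lit 3322492033) (nat_lit 1824) (nat_lit 2447191226) (nat_lit 490) (nat_lit 5) (nat_lit 513) (nat_lit 5) (nat_lit 514) (nat_lit 5) (nat_lit 427) (nat_lit 401) (nat_lit 372)) (XT.lf (nat_lit 0) (nat_lit 1228342997) (nat_lit 1900) (nat_lit 6098647804) (nat_lit 76) (nat_lit 269903232) (nat_lit 465) (nat_lit 5) (nat_lit 490) (nat_lit 5) (nat_lit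 466) (nat_lit 5) (nat_lit 428) (nat_lit 401) (nat_lit 371))))) (XT.nd (nat_lit 234) (nat_lit 3496) (nat_lit 0) (XT.nd (nat_lit 78) (nat_lit 1900) (nat_lit 0) (XT.lf (nat_lit 0) (nat_lit 1264303940) (nat_lit 1064) (nat_lit 3686193283) (nat_lit 1140) (nat_lit 2729424055) (nat_lit 451) (nat_lit 5) (nat_lit 465) (nat_lit 5) (nat_lit 466) (nat_lit 5) (nat_lit 429) (nat_lit 401) (nat_lit 370)) (XT.nd (nat_lit 78) (nat_lit 912) (nat_lit 0) (XT.lf (nat_lit 0) (nat_lit 956164035) (nat_lit 988) (nat_lit 6690369594) (nat_lit 76) (nat_lit 119767000) (nat_lit 438) (nat_lit 5) (nat_lit 451) (nat_lit 5) (nat_lit 439) (nat_lit 5) (nat_lit 430) (nat_lit 401) (nat_lit 369)) (XT.lf (nat_lit 0) (nat_lit 896339507) (nat_lit 912) (nat_lit 3796869996) (nat_lit 988) (nat_lit 3162147989) (nat_lit 426) (nat_lit 5) (nat_lit 438) (nat_lit 5) (nat_lit 439) (nat_lit 5) (nat_lit 431) (nat_lit 401) (nat_lit 368)))) (XT.nd (nat_lit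 156) (nat_lit 1748) (nat_lit 0) (XT.nd (nat_lit 78) (nat_lit 836) (nat_lit 0) (XT.lf (nat_lit 0) (nat_lit 544590101) (nat_lit 912) (nat_lit 7184974409) (nat_lit 76) (nat_lit 218308004) (nat_lit 414) (nat_lit 5) (nat_lit 426) (nat_lit 5) (nat_lit 415) (nat_lit 5) (nat_lit 432) (nat_lit 401) (nat_lit 367)) (XT.lf (nat_lit 0) (nat_lit 633157535) (nat_lit 836) (nat_lit 3670830140) (nat_lit 912) (nat_lit 3739074821) (nat_lit 403) (nat_lit 5) (nat_lit 414) (nat_lit 5) (nat_lit 415) (nat_lit 5) (nat_lit 433) (nat_lit 401) (nat_lit 366))) (XT.nd (nat_lit 78) (nat_lit 912) (nat_lit 0) (XT.lf (nat_lit 0) (nat_lit 549623217) (nat_lit 836) (nat_lit 7591676707) (nat_lit 912) (nat_lit 511341) (nat_lit 392) (nat_lit 5) (nat_lit 403) (nat_lit 5) (nat_lit 404) (nat_lit 5) (nat_lit 434) (nat_lit 401) (nat_lit 365)) (XT.lf (nat_lit 0) (nat_lit 465468114) (nat_lit 836) (nat_lit 3323028982) (nat_lit 912) (nat_lit 4454755219)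 (nat_lit 380) (nat_lit 5) (nat_lit 391) (nat_lit 5) (nat_lit 392) (nat_lit 5) (nat_lit 435) (nat_lit 401) (nat_lit 364))))))))
noncomputable def xc38 : XT := (XT.nd (nat_lit 2106) (nat_lit 7980) (nat_lit 0) (XT.nd (nat_lit 1014) (nat_lit 6840) (nat_lit 0) (XT.nd (nat_lit 468) (nat_lit 4484) (nat_lit 0) (XT.nd (nat_lit 234) (nat_lit 2280) (nat_lit 0) (XT.nd (nat_lit 78) (nat_lit 1520) (nat_lit 0) (XT.lf (nat_lit 0) (nat_lit 422579459) (nat_lit 760) (nat_lit 7242683302) (nat_lit 836) (nat_lit 682997198) (nat_lit 370) (nat_lit 5) (nat_lit 380) (nat_lit 5) (nat_lit 381) (nat_lit 5) (nat_lit 436) (nat_lit 401) (nat_lit 363)) (XT.nd (nat_lit 78) (nat_lit 684) (nat_lit 0) (XT.lf (nat_lit 0) (nat_lit 384455140) (nat_lit 760) (nat_lit 2767179134) (nat_lit 836) (nat_lit 5304538541) (nat_lit 359) (nat_lit 5) (nat_lit 369) (nat_lit 5) (nat_lit 370) (nat_lit 5) (nat_lit 437) (nat_lit 401) (nat_lit 362)) (XT.lf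 (nat_lit 0) (nat_lit 376874589) (nat_lit 684) (nat_lit 6699428816) (nat_lit 760) (nat_lit 1491248705) (nat_lit 350) (nat_lit 5) (nat_lit 359) (nat_lit 5) (nat_lit 360) (nat_lit 5) (nat_lit 438) (nat_lit 401) (nat_lit 361)))) (XT.nd (nat_lit 78) (nat_lit 1444) (nat_lit 0) (XT.lf (nat_lit 0) (nat_lit 381708321) (nat_lit 760) (nat_lit 2015853532) (nat_lit 836) (nat_lit 6284537692) (nat_lit 339) (nat_lit 5) (nat_lit 349) (nat_lit 5) (nat_lit 350) (nat_lit 5) (nat_lit 439) (nat_lit 401) (nat_lit 360)) (XT.nd (nat_lit 78) (nat_lit 760) (nat_lit 0) (XT.lf (nat_lit 0) (nat_lit 404328283) (nat_lit 684) (nat_lit 5974032267) (nat_lit 760) (nat_lit 2421618561) (nat_lit 330) (nat_lit 5) (nat_lit 339) (nat_lit 5) (nat_lit 340) (nat_lit 5) (nat_lit 440) (nat_lit 401) (nat_lit 359)) (XT.lf (nat_lit 0) (nat_lit 449156821) (nat_lit 684) (nat_lit 1080582057) (nat_lit 760) (nat_lit 7391598824) (nat_lit 320) (nat_lit 5)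 (nat_lit 329) (nat_lit 5) (nat_lit 330) (nat_lit 5) (nat_lit 441) (nat_lit 401) (nat_lit 358))))) (XT.nd (nat_lit 234) (nat_lit 2508) (nat_lit 0) (XT.nd (nat_lit 78) (nat_lit 1368) (nat_lit 0) (XT.lf (nat_lit 0) (nat_lit 497061300) (nat_lit 608) (nat_lit 5077634823) (nat_lit 684) (nat_lit 3471165788) (nat_lit 312) (nat_lit 5) (nat_lit 320) (nat_lit 5) (nat_lit 321) (nat_lit 5) (nat_lit 442) (nat_lit 401) (nat_lit 357)) (XT.nd (nat_lit 78) (nat_lit 608) (nat_lit 0) (XT.lf (nat_lit 0) (nat_lit 551128639) (nat_lit 760) (nat_lit 8595400346) (nat_lit 76) (nat_lit 27689576) (nat_lit 302) (nat_lit 5) (nat_lit 312) (nat_lit 5) (nat_lit 303) (nat_lit 5) (nat_lit 443) (nat_lit 401) (nat_lit 356)) (XT.lf (nat_lit 0) (nat_lit 647431002) (nat_lit 608) (nat_lit 4020487675) (nat_lit 684) (nat_lit 4637632488) (nat_lit 294) (nat_lit 5) (nat_lit 302) (nat_lit 5) (nat_lit 303) (nat_lit 5) (nat_lit 444) (nat_lit 401)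 (nat_lit 355)))) (XT.nd (nat_lit 156) (nat_lit 1216) (nat_lit 0) (XT.nd (nat_lit 78) (nat_lit 684) (nat_lit 0) (XT.lf (nat_lit 0) (nat_lit 751506530) (nat_lit 608) (nat_lit 8154104707) (nat_lit 684) (nat_lit 535268292) (nat_lit 286) (nat_lit 5) (nat_lit 294) (nat_lit 5) (nat_lit 295) (nat_lit 5) (nat_lit 445) (nat_lit 401) (nat_lit 354)) (XT.lf (nat_lit 0) (nat_lit 847967241) (nat_lit 608) (nat_lit 2812035197) (nat_lit 684) (nat_lit 5919425045) (nat_lit 277) (nat_lit 5) (nat_lit 285) (nat_lit 5) (nat_lit 286) (nat_lit 5) (nat_lit 446) (nat_lit 401) (nat_lit 353))) (XT.nd (nat_lit 78) (nat_lit 608) (nat_lit 0) (XT.lf (nat_lit 0) (nat_lit 966128026) (nat_lit 608) (nat_lit 7018953593) (nat_lit 684) (nat_lit 1736758516) (nat_lit 269) (nat_lit 5) (nat_lit 277) (nat_lit 5) (nat_lit 278) (nat_lit 5) (nat_lit 447) (nat_lit 401) (nat_lit 352)) (XT.lf (nat_lit 0) (nat_lit 1091308084) (nat_lit 532) (nat_lit 1460994002)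 (nat_lit 608) (nat_lit 7315599719) (nat_lit 261) (nat_lit 5) (nat_lit 268) (nat_lit 5) (nat_lit 269) (nat_lit 5) (nat_lit 448) (nat_lit 401) (nat_lit 351)))))) (XT.nd (nat_lit 546) (nat_lit 3116) (nat_lit 0) (XT.nd (nat_lit 234) (nat_lit 2052) (nat_lit 0) (XT.nd (nat_lit 78) (nat_lit 1140) (nat_lit 0) (XT.lf (nat_lit 0) (nat_lit 1219079449) (nat_lit 532) (nat_lit 5753317372) (nat_lit 608) (nat_lit 3045202950) (nat_lit 254) (nat_lit 5) (nat_lit 261) (nat_lit 5) (nat_lit 262) (nat_lit 5) (nat_lit 449) (nat_lit 401) (nat_lit 350)) (XT.nd (nat_lit 78) (nat_lit 532) (nat_lit 0) (XT.lf (nat_lit 0) (nat_lit 1345722849) (nat_lit 608) (nat_lit 8801440539) (nat_lit 76) (nat_lit 24249292) (nat_lit 246) (nat_lit 5) (nat_lit 254) (nat_lit 5) (nat_lit 247) (nat_lit 5) (nat_lit 450) (nat_lit 401) (nat_lit 349)) (XT.lf (nat_lit 0) (nat_lit 1503065456) (nat_lit 532) (nat_lit 4365141327) (nat_lit 608) (nat_lit 4460409529)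 (nat_lit 239) (nat_lit 5) (nat_lit 246) (nat_lit 5) (nat_lit 247) (nat_lit 5) (nat_lit 451) (nat_lit 401) (nat_lit 348)))) (XT.nd (nat_lit 156) (nat_lit 988) (nat_lit 0) (XT.nd (nat_lit 78) (nat_lit 532) (nat_lit 0) (XT.lf (nat_lit 0) (nat_lit 50558835) (nat_lit 532) (nat_lit 8823966413) (nat_lit 76) (nat_lit 1615704983) (nat_lit 232) (nat_lit 5) (nat_lit 239) (nat_lit 5) (nat_lit 233) (nat_lit 5) (nat_lit 452) (nat_lit 401) (nat_lit 347)) (XT.lf (nat_lit 0) (nat_lit 1810730264) (nat_lit 532) (nat_lit 2861843753) (nat_lit 608) (nat_lit 5982805281) (nat_lit 225) (nat_lit 5) (nat_lit 232) (nat_lit 5) (nat_lit 233) (nat_lit 5) (nat_lit 453) (nat_lit 401) (nat_lit 346))) (XT.nd (nat_lit 78) (nat_lit 532) (nat_lit 0) (XT.lf (nat_lit 0) (nat_lit 1973458995) (nat_lit 456) (nat_lit 7490386072) (nat_lit 532) (nat_lit 1361028522) (nat_lit 219) (nat_lit 5) (nat_lit 225) (nat_lit 5) (nat_lit 226) (nat_lit 5) (nat_lit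 454) (nat_lit 401) (nat_lit 345)) (XT.lf (nat_lit 0) (nat_lit 2134588869) (nat_lit 456) (nat_lit 1250384918) (nat_lit 532) (nat_lit 7613436909) (nat_lit 212) (nat_lit 5) (nat_lit 218) (nat_lit 5) (nat_lit 219) (nat_lit 5) (nat_lit 455) (nat_lit 401) (nat_lit 344))))) (XT.nd (nat_lit 234) (nat_lit 1748) (nat_lit 0) (XT.nd (nat_lit 78) (nat_lit 912) (nat_lit 0) (XT.lf (nat_lit 0) (nat_lit 2292012839) (nat_lit 456) (nat_lit 6009737855) (nat_lit 532) (nat_lit 2874288045) (nat_lit 206) (nat_lit 5) (nat_lit 212) (nat_lit 5) (nat_lit 213) (nat_lit 5) (nat_lit 456) (nat_lit 401) (nat_lit 343)) (XT.nd (nat_lit 78) (nat_lit 380) (nat_lit 0) (XT.lf (nat_lit 0) (nat_lit 2007293959) (nat_lit 532) (nat_lit 8894314124) (nat_lit 76) (nat_lit 456597631) (nat_lit 199) (nat_lit 5) (nat_lit 206) (nat_lit 5) (nat_lit 200) (nat_lit 5) (nat_lit 457) (nat_lit 401) (nat_lit 342)) (XT.lf (nat_lit 0) (nat_lit 2614466307) (nat_lit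 380) (nat_lit 4439559050) (nat_lit 456) (nat_lit 4490279590) (nat_lit 194) (nat_lit 5) (nat_lit 199) (nat_lit 5) (nat_lit 200) (nat_lit 5) (nat_lit 458) (nat_lit 401) (nat_lit 341)))) (XT.nd (nat_lit 156) (nat_lit 836) (nat_lit 0) (XT.nd (nat_lit 78) (nat_lit 380) (nat_lit 0) (XT.lf (nat_lit 0) (nat_lit 543552120) (nat_lit 532) (nat_lit 8950410051) (nat_lit 76) (nat_lit 2241277114) (nat_lit 187) (nat_lit 5) (nat_lit 194) (nat_lit 5) (nat_lit 188) (nat_lit 5) (nat_lit 459) (nat_lit 401) (nat_lit 340)) (XT.lf (nat_lit 0) (nat_lit 2932703825) (nat_lit 380) (nat_lit 2786214704) (nat_lit 456) (nat_lit 6211361111) (nat_lit 182) (nat_lit 5) (nat_lit 187) (nat_lit 5) (nat_lit 188) (nat_lit 5) (nat_lit 460) (nat_lit 401) (nat_lit 339))) (XT.nd (nat_lit 78) (nat_lit 456) (nat_lit 0) (XT.lf (nat_lit 0) (nat_lit 3090584132) (nat_lit 380) (nat_lit 8009332276) (nat_lit 456) (nat_lit 1030249425) (nat_lit 177) (nat_lit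 5) (nat_lit 182) (nat_lit 5) (nat_lit 183) (nat_lit 5) (nat_lit 461) (nat_lit 401) (nat_lit 338)) (XT.lf (nat_lit 0) (nat_lit 3238211797) (nat_lit 380) (nat_lit 1055861517) (nat_lit 456) (nat_lit 8040532941) (nat_lit 171) (nat_lit 5) (nat_lit 176) (nat_lit 5) (nat_lit 177) (nat_lit 5) (nat_lit 462) (nat_lit 401) (nat_lit 337))))))) (XT.nd (nat_lit 1092) (nat_lit 3040) (nat_lit 0) (XT.nd (nat_lit 546) (nat_lit 2204) (nat_lit 0) (XT.nd (nat_lit 234) (nat_lit 1520) (nat_lit 0) (XT.nd (nat_lit 78) (nat_lit 836) (nat_lit 0) (XT.lf (nat_lit 0) (nat_lit 3374949355) (nat_lit 380) (nat_lit 6456605918) (nat_lit 456) (nat_lit 2712141770) (nat_lit 166) (nat_lit 5) (nat_lit 171) (nat_lit 5) (nat_lit 172) (nat_lit 5) (nat_lit 463) (nat_lit 401) (nat_lit 336)) (XT.nd (nat_lit 78) (nat_lit 380) (nat_lit 0) (XT.lf (nat_lit 0) (nat_lit 2781346905) (nat_lit 456) (nat_lit 9240812983) (nat_lit 76) (nat_lit 735708876) (nat_lit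 160) (nat_lit 5) (nat_lit 166) (nat_lit 5) (nat_lit 161) (nat_lit 5) (nat_lit 464) (nat_lit 401) (nat_lit 335)) (XT.lf (nat_lit 0) (nat_lit 3632306612) (nat_lit 380) (nat_lit 4845699434) (nat_lit 456) (nat_lit 4498598525) (nat_lit 155) (nat_lit 5) (nat_lit 160) (nat_lit 5) (nat_lit 161) (nat_lit 5) (nat_lit 465) (nat_lit 401) (nat_lit 334)))) (XT.nd (nat_lit 156) (nat_lit 760) (nat_lit 0) (XT.nd (nat_lit 78) (nat_lit 380) (nat_lit 0) (XT.lf (nat_lit 0) (nat_lit 1179543048) (nat_lit 380) (nat_lit 9443561478) (nat_lit 76) (nat_lit 2577633475) (nat_lit 150) (nat_lit 5) (nat_lit 155) (nat_lit 5) (nat_lit 151) (nat_lit 5) (nat_lit 466) (nat_lit 401) (nat_lit 333)) (XT.lf (nat_lit 0) (nat_lit 3852763859) (nat_lit 380) (nat_lit 3182858218) (nat_lit 456) (nat_lit 6394006023) (nat_lit 145) (nat_lit 5) (nat_lit 150) (nat_lit 5) (nat_lit 151) (nat_lit 5) (nat_lit 467) (nat_lit 401) (nat_lit 332))) (XT.nd (nat_lit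 78) (nat_lit 456) (nat_lit 0) (XT.lf (nat_lit 0) (nat_lit 3951852363) (nat_lit 304) (nat_lit 9182699668) (nat_lit 380) (nat_lit 529491060) (nat_lit 141) (nat_lit 5) (nat_lit 145) (nat_lit 5) (nat_lit 146) (nat_lit 5) (nat_lit 468) (nat_lit 401) (nat_lit 331)) (XT.lf (nat_lit 0) (nat_lit 4025700891) (nat_lit 380) (nat_lit 1474373866) (nat_lit 456) (nat_lit 8403473792) (nat_lit 135) (nat_lit 5) (nat_lit 140) (nat_lit 5) (nat_lit 141) (nat_lit 5) (nat_lit 469) (nat_lit 401) (nat_lit 330))))) (XT.nd (nat_lit 234) (nat_lit 1216) (nat_lit 0) (XT.nd (nat_lit 78) (nat_lit 684) (nat_lit 0) (XT.lf (nat_lit 0) (nat_lit 4084980525) (nat_lit 304) (nat_lit 7702549694) (nat_lit 380) (nat_lit 2360956470) (nat_lit 131) (nat_lit 5) (nat_lit 135) (nat_lit 5) (nat_lit 136) (nat_lit 5) (nat_lit 470) (nat_lit 401) (nat_lit 329)) (XT.nd (nat_lit 78) (nat_lit 304) (nat_lit 0) (XT.lf (nat_lit 0) (nat_lit 3868090228) (nat_lit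 380) (nat_lit 10261305365) (nat_lit 76) (nat_lit 269758840) (nat_lit 126) (nat_lit 5) (nat_lit 131) (nat_lit 5) (nat_lit 127) (nat_lit 5) (nat_lit 471) (nat_lit 401) (nat_lit 328)) (XT.lf (nat_lit 0) (nat_lit 4152556710) (nat_lit 304) (nat_lit 6197430023) (nat_lit 380) (nat_lit 4305083599) (nat_lit 122) (nat_lit 5) (nat_lit 126) (nat_lit 5) (nat_lit 127) (nat_lit 5) (nat_lit 472) (nat_lit 401) (nat_lit 327)))) (XT.nd (nat_lit 156) (nat_lit 608) (nat_lit 0) (XT.nd (nat_lit 78) (nat_lit 228) (nat_lit 0) (XT.lf (nat_lit 0) (nat_lit 2141865493) (nat_lit 380) (nat_lit 10748532050) (nat_lit 76) (nat_lit 2026757115) (nat_lit 117) (nat_lit 5) (nat_lit 122) (nat_lit 5) (nat_lit 118) (nat_lit 5) (nat_lit 473) (nat_lit 401) (nat_lit 326)) (XT.lf (nat_lit 0) (nat_lit 4141638504) (nat_lit 228) (nat_lit 4674451850) (nat_lit 304) (nat_lit 6368596129) (nat_lit 114) (nat_lit 5) (nat_lit 117) (nat_lit 5) (nat_lit 118)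 (nat_lit 5) (nat_lit 474) (nat_lit 401) (nat_lit 325))) (XT.nd (nat_lit 78) (nat_lit 228) (nat_lit 0) (XT.lf (nat_lit 0) (nat_lit 305155697) (nat_lit 380) (nat_lit 11344329632) (nat_lit 76) (nat_lit 3809172635) (nat_lit 109) (nat_lit 5) (nat_lit 114) (nat_lit 5) (nat_lit 110) (nat_lit 5) (nat_lit 475) (nat_lit 401) (nat_lit 324)) (XT.lf (nat_lit 0) (nat_lit 4038125705) (nat_lit 228) (nat_lit 3141058839) (nat_lit 304) (nat_lit 8559091480) (nat_lit 106) (nat_lit 5) (nat_lit 109) (nat_lit 5) (nat_lit 110) (nat_lit 5) (nat_lit 476) (nat_lit 401) (nat_lit 323)))))) (XT.nd (nat_lit 546) (nat_lit 1064) (nat_lit 0) (XT.nd (nat_lit 234) (nat_lit 1064) (nat_lit 0) (XT.nd (nat_lit 78) (nat_lit 608) (nat_lit 0) (XT.lf (nat_lit 0) (nat_lit 3949213782) (nat_lit 304) (nat_lit 10403691979) (nat_lit 380) (nat_lit 1671508543) (nat_lit 102) (nat_lit 5) (nat_lit 106) (nat_lit 5) (nat_lit 107) (nat_lit 5) (nat_lit 477)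 (nat_lit 401) (nat_lit 322)) (XT.nd (nat_lit 78) (nat_lit 304) (nat_lit 0) (XT.lf (nat_lit 0) (nat_lit 3826613089) (nat_lit 228) (nat_lit 1605113321) (nat_lit 304) (nat_lit 10885104333) (nat_lit 98) (nat_lit 5) (nat_lit 101) (nat_lit 5) (nat_lit 102) (nat_lit 5) (nat_lit 478) (nat_lit 401) (nat_lit 321)) (XT.lf (nat_lit 0) (nat_lit 3665389945) (nat_lit 304) (nat_lit 9169783132) (nat_lit 380) (nat_lit 3780430170) (nat_lit 94) (nat_lit 5) (nat_lit 98) (nat_lit 5) (nat_lit 99) (nat_lit 5) (nat_lit 479) (nat_lit 401) (nat_lit 320)))) (XT.nd (nat_lit 156) (nat_lit 532) (nat_lit 0) (XT.nd (nat_lit 78) (nat_lit 228) (nat_lit 0) (XT.lf (nat_lit 0) (nat_lit 3490229548) (nat_lit 228) (nat_lit 74988160) (nat_lit 304) (nat_lit 13356178311) (nat_lit 90) (nat_lit 5) (nat_lit 93) (nat_lit 5) (nat_lit 94) (nat_lit 5) (nat_lit 480) (nat_lit 401) (nat_lit 319)) (XT.lf (nat_lit 0) (nat_lit 3247232324) (nat_lit 228) (nat_lit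 7958921843) (nat_lit 304) (nat_lit 6027183971) (nat_lit 87) (nat_lit 5) (nat_lit 90) (nat_lit 5) (nat_lit 91) (nat_lit 5) (nat_lit 481) (nat_lit 401) (nat_lit 318))) (XT.nd (nat_lit 78) (nat_lit 228) (nat_lit 0) (XT.lf (nat_lit 0) (nat_lit 1579478813) (nat_lit 304) (nat_lit 14551963299) (nat_lit 76) (nat_lit 1421444598) (nat_lit 83) (nat_lit 5) (nat_lit 87) (nat_lit 5) (nat_lit 84) (nat_lit 5) (nat_lit 482) (nat_lit 401) (nat_lit 317)) (XT.lf (nat_lit 0) (nat_lit 2675331007) (nat_lit 228) (nat_lit 6780905441) (nat_lit 304) (nat_lit 8422513755) (nat_lit 80) (nat_lit 5) (nat_lit 83) (nat_lit 5) (nat_lit 84) (nat_lit 5) (nat_lit 483) (nat_lit 401) (nat_lit 316))))) (XT.nd (nat_lit 234) (nat_lit 304) (nat_lit 0) (XT.nd (nat_lit 78) (nat_lit 532) (nat_lit 0) (XT.lf (nat_lit 0) (nat_lit 2343892738) (nat_lit 228) (nat_lit 15316270075) (nat_lit 304) (nat_lit 552410316) (nat_lit 77) (nat_lit 5) (nat_lit 80)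 (nat_lit 5) (nat_lit 81) (nat_lit 5) (nat_lit 484) (nat_lit 401) (nat_lit 315)) (XT.nd (nat_lit 78) (nat_lit 228) (nat_lit 0) (XT.lf (nat_lit 0) (nat_lit 1928336419) (nat_lit 228) (nat_lit 5646323877) (nat_lit 304) (nat_lit 10978371698) (nat_lit 73) (nat_lit 5) (nat_lit 76) (nat_lit 5) (nat_lit 77) (nat_lit 5) (nat_lit 485) (nat_lit 401) (nat_lit 314)) (XT.lf (nat_lit 0) (nat_lit 1489353169) (nat_lit 228) (nat_lit 14553551744) (nat_lit 304) (nat_lit 2858630125) (nat_lit 70) (nat_lit 5) (nat_lit 73) (nat_lit 5) (nat_lit 74) (nat_lit 5) (nat_lit 486) (nat_lit 401) (nat_lit 313)))) (XT.nd (nat_lit 55926) (nat_lit 0) (nat_lit 53200) (XT.nd (nat_lit 55848) (nat_lit 0) (nat_lit 53960) (XT.lf (nat_lit 0) (nat_lit 982737553) (nat_lit 228) (nat_lit 4566679370) (nat_lit 304) (nat_lit 13708024027) (nat_lit 66) (nat_lit 5) (nat_lit 69) (nat_lit 5) (nat_lit 70) (nat_lit 5) (nat_lit 487) (nat_lit 401) (nat_lit 312))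 (XT.lf (nat_lit 0) (nat_lit 1351508264) (nat_lit 0) (nat_lit 1351508264) (nat_lit 228) (nat_lit 526551880) (nat_lit 776) (nat_lit 5) (nat_lit 776) (nat_lit 3) (nat_lit 779) (nat_lit 3) (nat_lit 402) (nat_lit 402) (nat_lit 396))) (XT.nd (nat_lit 78) (nat_lit 380) (nat_lit 0) (XT.lf (nat_lit 76) (nat_lit 1065603838) (nat_lit 0) (nat_lit 2212543388) (nat_lit 380) (nat_lit 3190878846) (nat_lit 772) (nat_lit 5) (nat_lit 771) (nat_lit 3) (nat_lit 776) (nat_lit 5) (nat_lit 403) (nat_lit 402) (nat_lit 395)) (XT.lf (nat_lit 0) (nat_lit 1084728417) (nat_lit 380) (nat_lit 500108202) (nat_lit 456) (nat_lit 4896990308) (nat_lit 766) (nat_lit 5) (nat_lit 771) (nat_lit 3) (nat_lit 772) (nat_lit 5) (nat_lit 404) (nat_lit 402) (nat_lit 394))))))))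
noncomputable def xc39 : XT := (XT.nd (nat_lit 2106) (nat_lit 18544) (nat_lit 0) (XT.nd (nat_lit 1014) (nat_lit 18392) (nat_lit 0) (XT.nd (nat_lit 468) (nat_lit 5016) (nat_lit 0) (XT.nd (nat_lit 234) (nat_lit 608) (nat_lit 0) (XT.nd (nat_lit 78) (nat_lit 912) (nat_lit 0) (XT.lf (nat_lit 76) (nat_lit 4501062058) (nat_lit 0) (nat_lit 808085831) (nat_lit 456) (nat_lit 1188181858) (nat_lit 767) (nat_lit 5) (nat_lit 766) (nat_lit 5) (nat_lit 772) (nat_lit 5) (nat_lit 405) (nat_lit 402) (nat_lit 393)) (XT.nd (nat_lit 78) (nat_lit 532) (nat_lit 0) (XT.lf (nat_lit 0) (nat_lit 2967454842) (nat_lit 456) (nat_lit 3438311913) (nat_lit 532) (nat_lit 109904558) (nat_lit 761) (nat_lit 5) (nat_lit 767) (nat_lit 5) (nat_lit 768) (nat_lit 5) (nat_lit 406) (nat_lit 402) (nat_lit 392)) (XT.lf (nat_lit 0) (nat_lit 559700944) (nat_lit 532) (nat_lit 4825295278) (nat_lit 608) (nat_lit 1151902650) (nat_lit 754) (nat_lit 5)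 (nat_lit 761) (nat_lit 5) (nat_lit 762) (nat_lit 5) (nat_lit 407) (nat_lit 402) (nat_lit 391)))) (XT.nd (nat_lit 78) (nat_lit 608) (nat_lit 0) (XT.lf (nat_lit 76) (nat_lit 395548722) (nat_lit 0) (nat_lit 4218627292) (nat_lit 608) (nat_lit 1946703191) (nat_lit 755) (nat_lit 5) (nat_lit 754) (nat_lit 5) (nat_lit 762) (nat_lit 5) (nat_lit 408) (nat_lit 402) (nat_lit 390)) (XT.nd (nat_lit 78) (nat_lit 0) (nat_lit 0) (XT.lf (nat_lit 0) (nat_lit 2056851384) (nat_lit 608) (nat_lit 851492099) (nat_lit 684) (nat_lit 3679342782) (nat_lit 746) (nat_lit 5) (nat_lit 754) (nat_lit 5) (nat_lit 755) (nat_lit 5) (nat_lit 409) (nat_lit 402) (nat_lit 389)) (XT.lf (nat_lit 76) (nat_lit 4580365192) (nat_lit 0) (nat_lit 1456157660) (nat_lit 684) (nat_lit 580882538) (nat_lit 747) (nat_lit 5) (nat_lit 746) (nat_lit 5) (nat_lit 755) (nat_lit 5) (nat_lit 410) (nat_lit 402) (nat_lit 388))))) (XT.nd (nat_lit 234) (nat_lit 2888)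 (nat_lit 0) (XT.nd (nat_lit 78) (nat_lit 1520) (nat_lit 0) (XT.lf (nat_lit 0) (nat_lit 3326473567) (nat_lit 684) (nat_lit 3178012952) (nat_lit 76) (nat_lit 145397473) (nat_lit 738) (nat_lit 5) (nat_lit 747) (nat_lit 5) (nat_lit 739) (nat_lit 5) (nat_lit 411) (nat_lit 402) (nat_lit 387)) (XT.nd (nat_lit 78) (nat_lit 760) (nat_lit 0) (XT.lf (nat_lit 0) (nat_lit 549263506) (nat_lit 760) (nat_lit 4270729340) (nat_lit 76) (nat_lit 1865234248) (nat_lit 728) (nat_lit 5) (nat_lit 738) (nat_lit 5) (nat_lit 729) (nat_lit 5) (nat_lit 412) (nat_lit 402) (nat_lit 386)) (XT.lf (nat_lit 0) (nat_lit 1402039744) (nat_lit 760) (nat_lit 2983886392) (nat_lit 836) (nat_lit 2337418430) (nat_lit 718) (nat_lit 5) (nat_lit 728) (nat_lit 5) (nat_lit 729) (nat_lit 5) (nat_lit 413) (nat_lit 402) (nat_lit 385)))) (XT.nd (nat_lit 156) (nat_lit 1976) (nat_lit 0) (XT.nd (nat_lit 78) (nat_lit 0) (nat_lit 0) (XT.lf (nat_lit 0) (nat_lit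 445445978) (nat_lit 836) (nat_lit 1005461870) (nat_lit 912) (nat_lit 5313575573) (nat_lit 706) (nat_lit 5) (nat_lit 717) (nat_lit 5) (nat_lit 718) (nat_lit 5) (nat_lit 414) (nat_lit 402) (nat_lit 384)) (XT.lf (nat_lit 0) (nat_lit 5232405735) (nat_lit 912) (nat_lit 463517991) (nat_lit 76) (nat_lit 1112409829) (nat_lit 706) (nat_lit 5) (nat_lit 718) (nat_lit 5) (nat_lit 707) (nat_lit 5) (nat_lit 415) (nat_lit 402) (nat_lit 383))) (XT.nd (nat_lit 78) (nat_lit 988) (nat_lit 0) (XT.lf (nat_lit 0) (nat_lit 2158105963) (nat_lit 988) (nat_lit 1325912330) (nat_lit 76) (nat_lit 3370915184) (nat_lit 693) (nat_lit 5) (nat_lit 706) (nat_lit 5) (nat_lit 694) (nat_lit 5) (nat_lit 416) (nat_lit 402) (nat_lit 382)) (XT.lf (nat_lit 0) (nat_lit 4766401730) (nat_lit 988) (nat_lit 1124833741) (nat_lit 1064) (nat_lit 1013328678) (nat_lit 680) (nat_lit 5) (nat_lit 693) (nat_lit 5) (nat_lit 694) (nat_lit 5) (nat_lit 417)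 (nat_lit 402) (nat_lit 381)))))) (XT.nd (nat_lit 546) (nat_lit 9044) (nat_lit 0) (XT.nd (nat_lit 234) (nat_lit 5776) (nat_lit 0) (XT.nd (nat_lit 78) (nat_lit 2432) (nat_lit 0) (XT.lf (nat_lit 0) (nat_lit 2665095052) (nat_lit 1140) (nat_lit 2917571047) (nat_lit 76) (nat_lit 1374249059) (nat_lit 665) (nat_lit 5) (nat_lit 680) (nat_lit 5) (nat_lit 666) (nat_lit 5) (nat_lit 418) (nat_lit 402) (nat_lit 380)) (XT.nd (nat_lit 78) (nat_lit 1292) (nat_lit 0) (XT.lf (nat_lit 0) (nat_lit 3358850974) (nat_lit 1140) (nat_lit 3004986373) (nat_lit 1216) (nat_lit 648400705) (nat_lit 650) (nat_lit 5) (nat_lit 665) (nat_lit 5) (nat_lit 666) (nat_lit 5) (nat_lit 419) (nat_lit 402) (nat_lit 379)) (XT.lf (nat_lit 0) (nat_lit 2718246443) (nat_lit 1216) (nat_lit 264780975) (nat_lit 1292) (nat_lit 4087411210) (nat_lit 633) (nat_lit 5) (nat_lit 649) (nat_lit 5) (nat_lit 650) (nat_lit 5) (nat_lit 420) (nat_lit 402) (nat_lit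 378)))) (XT.nd (nat_lit 156) (nat_lit 3040) (nat_lit 0) (XT.nd (nat_lit 78) (nat_lit 1444) (nat_lit 0) (XT.lf (nat_lit 0) (nat_lit 2114997849) (nat_lit 1292) (nat_lit 4539786176) (nat_lit 1368) (nat_lit 476720800) (nat_lit 616) (nat_lit 5) (nat_lit 633) (nat_lit 5) (nat_lit 634) (nat_lit 5) (nat_lit 421) (nat_lit 402) (nat_lit 377)) (XT.lf (nat_lit 0) (nat_lit 1546440187) (nat_lit 1368) (nat_lit 1581718966) (nat_lit 1444) (nat_lit 4067263769) (nat_lit 597) (nat_lit 5) (nat_lit 615) (nat_lit 5) (nat_lit 616) (nat_lit 5) (nat_lit 422) (nat_lit 402) (nat_lit 376))) (XT.nd (nat_lit 78) (nat_lit 1596) (nat_lit 0) (XT.lf (nat_lit 0) (nat_lit 1021207808) (nat_lit 1444) (nat_lit 5753618632) (nat_lit 1520) (nat_lit 487575266) (nat_lit 578) (nat_lit 5) (nat_lit 597) (nat_lit 5) (nat_lit 598) (nat_lit 5) (nat_lit 423) (nat_lit 402) (nat_lit 375)) (XT.lf (nat_lit 0) (nat_lit 519864202) (nat_lit 1520) (nat_lit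 2581775762) (nat_lit 1596) (nat_lit 4230460572) (nat_lit 557) (nat_lit 5) (nat_lit 577) (nat_lit 5) (nat_lit 578) (nat_lit 5) (nat_lit 424) (nat_lit 402) (nat_lit 374))))) (XT.nd (nat_lit 234) (nat_lit 5700) (nat_lit 0) (XT.nd (nat_lit 78) (nat_lit 1748) (nat_lit 0) (XT.lf (nat_lit 0) (nat_lit 64749974) (nat_lit 1596) (nat_lit 6668898205) (nat_lit 1672) (nat_lit 671350752) (nat_lit 536) (nat_lit 5) (nat_lit 557) (nat_lit 5) (nat_lit 558) (nat_lit 5) (nat_lit 425) (nat_lit 402) (nat_lit 373)) (XT.nd (nat_lit 78) (nat_lit 1672) (nat_lit 0) (XT.lf (nat_lit 0) (nat_lit 2915039257) (nat_lit 1672) (nat_lit 368991369) (nat_lit 76) (nat_lit 4196476683) (nat_lit 535) (nat_lit 5) (nat_lit 557) (nat_lit 5) (nat_lit 536) (nat_lit 5) (nat_lit 426) (nat_lit 402) (nat_lit 372)) (XT.lf (nat_lit 0) (nat_lit 6544906945) (nat_lit 1748) (nat_lit 756239706) (nat_lit 76) (nat_lit 258152673) (nat_lit 513) (nat_lit 5) (nat_lit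 536) (nat_lit 5) (nat_lit 514) (nat_lit 5) (nat_lit 427) (nat_lit 402) (nat_lit 371)))) (XT.nd (nat_lit 156) (nat_lit 2052) (nat_lit 0) (XT.nd (nat_lit 78) (nat_lit 1824) (nat_lit 0) (XT.lf (nat_lit 0) (nat_lit 2576674274) (nat_lit 1824) (nat_lit 1131430761) (nat_lit 76) (nat_lit 3932651259) (nat_lit 489) (nat_lit 5) (nat_lit 513) (nat_lit 5) (nat_lit 490) (nat_lit 5) (nat_lit 428) (nat_lit 402) (nat_lit 370)) (XT.lf (nat_lit 0) (nat_lit 6211047386) (nat_lit 1900) (nat_lit 1463639868) (nat_lit 76) (nat_lit 50855222) (nat_lit 465) (nat_lit 5) (nat_lit 490) (nat_lit 5) (nat_lit 466) (nat_lit 5) (nat_lit 429) (nat_lit 402) (nat_lit 369))) (XT.nd (nat_lit 78) (nat_lit 912) (nat_lit 0) (XT.lf (nat_lit 0) (nat_lit 2090468859) (nat_lit 1140) (nat_lit 1785054535) (nat_lit 76) (nat_lit 3937537626) (nat_lit 450) (nat_lit 5) (nat_lit 465) (nat_lit 5) (nat_lit 451) (nat_lit 5) (nat_lit 430) (nat_lit 402) (nat_lit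 368)) (XT.lf (nat_lit 0) (nat_lit 5738571468) (nat_lit 988) (nat_lit 2068684920) (nat_lit 76) (nat_lit 96643414) (nat_lit 438) (nat_lit 5) (nat_lit 451) (nat_lit 5) (nat_lit 439) (nat_lit 5) (nat_lit 431) (nat_lit 402) (nat_lit 367))))))) (XT.nd (nat_lit 1092) (nat_lit 7600) (nat_lit 0) (XT.nd (nat_lit 546) (nat_lit 4940) (nat_lit 0) (XT.nd (nat_lit 234) (nat_lit 3268) (nat_lit 0) (XT.nd (nat_lit 78) (nat_lit 1748) (nat_lit 0) (XT.lf (nat_lit 0) (nat_lit 1462841517) (nat_lit 988) (nat_lit 2340026818) (nat_lit 76) (nat_lit 4194729858) (nat_lit 425) (nat_lit 5) (nat_lit 438) (nat_lit 5) (nat_lit 426) (nat_lit 5) (nat_lit 432) (nat_lit 402) (nat_lit 366)) (XT.nd (nat_lit 78) (nat_lit 912) (nat_lit 0) (XT.lf (nat_lit 0) (nat_lit 5133559051) (nat_lit 912) (nat_lit 2581186029) (nat_lit 76) (nat_lit 379819523) (nat_lit 414) (nat_lit 5) (nat_lit 426) (nat_lit 5) (nat_lit 415) (nat_lit 5) (nat_lit 433) (nat_lit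 402) (nat_lit 365)) (XT.lf (nat_lit 0) (nat_lit 699376668) (nat_lit 912) (nat_lit 2805966105) (nat_lit 76) (nat_lit 4689231993) (nat_lit 402) (nat_lit 5) (nat_lit 414) (nat_lit 5) (nat_lit 403) (nat_lit 5) (nat_lit 434) (nat_lit 402) (nat_lit 364)))) (XT.nd (nat_lit 156) (nat_lit 1596) (nat_lit 0) (XT.nd (nat_lit 78) (nat_lit 836) (nat_lit 0) (XT.lf (nat_lit 0) (nat_lit 4401291121) (nat_lit 912) (nat_lit 3010451052) (nat_lit 76) (nat_lit 886017937) (nat_lit 391) (nat_lit 5) (nat_lit 403) (nat_lit 5) (nat_lit 392) (nat_lit 5) (nat_lit 435) (nat_lit 402) (nat_lit 363)) (XT.lf (nat_lit 0) (nat_lit 5210902965) (nat_lit 836) (nat_lit 2995571702) (nat_lit 912) (nat_lit 197727266) (nat_lit 380) (nat_lit 5) (nat_lit 391) (nat_lit 5) (nat_lit 392) (nat_lit 5) (nat_lit 436) (nat_lit 402) (nat_lit 362))) (XT.nd (nat_lit 78) (nat_lit 760) (nat_lit 0) (XT.lf (nat_lit 0) (nat_lit 3546288361) (nat_lit 836) (nat_lit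 3365352801) (nat_lit 76) (nat_lit 1602098059) (nat_lit 369) (nat_lit 5) (nat_lit 380) (nat_lit 5) (nat_lit 370) (nat_lit 5) (nat_lit 437) (nat_lit 402) (nat_lit 361)) (XT.lf (nat_lit 0) (nat_lit 5111750063) (nat_lit 760) (nat_lit 2282089065) (nat_lit 836) (nat_lit 1232824101) (nat_lit 359) (nat_lit 5) (nat_lit 369) (nat_lit 5) (nat_lit 370) (nat_lit 5) (nat_lit 438) (nat_lit 402) (nat_lit 360))))) (XT.nd (nat_lit 234) (nat_lit 2660) (nat_lit 0) (XT.nd (nat_lit 78) (nat_lit 1520) (nat_lit 0) (XT.lf (nat_lit 0) (nat_lit 2572344891) (nat_lit 760) (nat_lit 3654395342) (nat_lit 76) (nat_lit 2516044151) (nat_lit 349) (nat_lit 5) (nat_lit 359) (nat_lit 5) (nat_lit 350) (nat_lit 5) (nat_lit 439) (nat_lit 402) (nat_lit 359)) (XT.nd (nat_lit 78) (nat_lit 760) (nat_lit 0) (XT.lf (nat_lit 0) (nat_lit 5087768921) (nat_lit 760) (nat_lit 1381313243) (nat_lit 836) (nat_lit 2393265183) (nat_lit 339) (nat_lit 5) (nat_lit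 349) (nat_lit 5) (nat_lit 350) (nat_lit 5) (nat_lit 440) (nat_lit 402) (nat_lit 358)) (XT.lf (nat_lit 0) (nat_lit 1482557365) (nat_lit 760) (nat_lit 3885778802) (nat_lit 76) (nat_lit 3616871412) (nat_lit 329) (nat_lit 5) (nat_lit 339) (nat_lit 5) (nat_lit 330) (nat_lit 5) (nat_lit 441) (nat_lit 402) (nat_lit 357)))) (XT.nd (nat_lit 156) (nat_lit 1292) (nat_lit 0) (XT.nd (nat_lit 78) (nat_lit 684) (nat_lit 0) (XT.lf (nat_lit 0) (nat_lit 5131187776) (nat_lit 684) (nat_lit 303989313) (nat_lit 760) (nat_lit 3676403453) (nat_lit 320) (nat_lit 5) (nat_lit 329) (nat_lit 5) (nat_lit 330) (nat_lit 5) (nat_lit 442) (nat_lit 402) (nat_lit 356)) (XT.lf (nat_lit 0) (nat_lit 279349564) (nat_lit 684) (nat_lit 4067463185) (nat_lit 76) (nat_lit 4894537662) (nat_lit 311) (nat_lit 5) (nat_lit 320) (nat_lit 5) (nat_lit 312) (nat_lit 5) (nat_lit 443) (nat_lit 402) (nat_lit 355))) (XT.nd (nat_lit 78) (nat_lit 608) (nat_lit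 0) (XT.lf (nat_lit 0) (nat_lit 4300545785) (nat_lit 760) (nat_lit 4146348340) (nat_lit 76) (nat_lit 927702618) (nat_lit 302) (nat_lit 5) (nat_lit 312) (nat_lit 5) (nat_lit 303) (nat_lit 5) (nat_lit 444) (nat_lit 402) (nat_lit 354)) (XT.lf (nat_lit 0) (nat_lit 5297403861) (nat_lit 608) (nat_lit 3164775509) (nat_lit 684) (nat_lit 1049268713) (nat_lit 294) (nat_lit 5) (nat_lit 302) (nat_lit 5) (nat_lit 303) (nat_lit 5) (nat_lit 445) (nat_lit 402) (nat_lit 353)))))) (XT.nd (nat_lit 546) (nat_lit 3420) (nat_lit 0) (XT.nd (nat_lit 234) (nat_lit 2204) (nat_lit 0) (XT.nd (nat_lit 78) (nat_lit 1292) (nat_lit 0) (XT.lf (nat_lit 0) (nat_lit 3063764690) (nat_lit 684) (nat_lit 4277082269) (nat_lit 76) (nat_lit 2310997105) (nat_lit 285) (nat_lit 5) (nat_lit 294) (nat_lit 5) (nat_lit 286) (nat_lit 5) (nat_lit 446) (nat_lit 402) (nat_lit 352)) (XT.nd (nat_lit 78) (nat_lit 684) (nat_lit 0) (XT.lf (nat_lit 0) (nat_lit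 5467043259) (nat_lit 608) (nat_lit 1835361169) (nat_lit 684) (nat_lit 2493582738) (nat_lit 277) (nat_lit 5) (nat_lit 285) (nat_lit 5) (nat_lit 286) (nat_lit 5) (nat_lit 447) (nat_lit 402) (nat_lit 351)) (XT.lf (nat_lit 0) (nat_lit 1723866856) (nat_lit 684) (nat_lit 4378227977) (nat_lit 76) (nat_lit 3841684596) (nat_lit 268) (nat_lit 5) (nat_lit 277) (nat_lit 5) (nat_lit 269) (nat_lit 5) (nat_lit 448) (nat_lit 402) (nat_lit 350)))) (XT.nd (nat_lit 156) (nat_lit 1064) (nat_lit 0) (XT.nd (nat_lit 78) (nat_lit 608) (nat_lit 0) (XT.lf (nat_lit 0) (nat_lit 5677495770) (nat_lit 532) (nat_lit 368577145) (nat_lit 608) (nat_lit 4049363789) (nat_lit 261) (nat_lit 5) (nat_lit 268) (nat_lit 5) (nat_lit 269) (nat_lit 5) (nat_lit 449) (nat_lit 402) (nat_lit 349)) (XT.lf (nat_lit 0) (nat_lit 281251767) (nat_lit 608) (nat_lit 4457379222) (nat_lit 76) (nat_lit 5512220079) (nat_lit 253) (nat_lit 5) (nat_lit 261) (nat_lit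 5) (nat_lit 254) (nat_lit 5) (nat_lit 450) (nat_lit 402) (nat_lit 348))) (XT.nd (nat_lit 78) (nat_lit 532) (nat_lit 0) (XT.lf (nat_lit 0) (nat_lit 4701512251) (nat_lit 608) (nat_lit 4496644200) (nat_lit 76) (nat_lit 1211944136) (nat_lit 246) (nat_lit 5) (nat_lit 254) (nat_lit 5) (nat_lit 247) (nat_lit 5) (nat_lit 451) (nat_lit 402) (nat_lit 347)) (XT.lf (nat_lit 0) (nat_lit 6042872982) (nat_lit 532) (nat_lit 3249414831) (nat_lit 608) (nat_lit 1281084429) (nat_lit 239) (nat_lit 5) (nat_lit 246) (nat_lit 5) (nat_lit 247) (nat_lit 5) (nat_lit 452) (nat_lit 402) (nat_lit 346))))) (XT.nd (nat_lit 234) (nat_lit 1824) (nat_lit 0) (XT.nd (nat_lit 78) (nat_lit 1064) (nat_lit 0) (XT.lf (nat_lit 0) (nat_lit 3263703506) (nat_lit 532) (nat_lit 4567991997) (nat_lit 76) (nat_lit 2908874046) (nat_lit 232) (nat_lit 5) (nat_lit 239) (nat_lit 5) (nat_lit 233) (nat_lit 5) (nat_lit 453) (nat_lit 402) (nat_lit 345)) (XT.nd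 (nat_lit 78) (nat_lit 532) (nat_lit 0) (XT.lf (nat_lit 0) (nat_lit 6312402701) (nat_lit 532) (nat_lit 1647309032) (nat_lit 608) (nat_lit 2952258636) (nat_lit 225) (nat_lit 5) (nat_lit 232) (nat_lit 5) (nat_lit 233) (nat_lit 5) (nat_lit 454) (nat_lit 402) (nat_lit 344)) (XT.lf (nat_lit 0) (nat_lit 1729384515) (nat_lit 532) (nat_lit 4637423598) (nat_lit 76) (nat_lit 4720611770) (nat_lit 218) (nat_lit 5) (nat_lit 225) (nat_lit 5) (nat_lit 219) (nat_lit 5) (nat_lit 455) (nat_lit 402) (nat_lit 343)))) (XT.nd (nat_lit 156) (nat_lit 836) (nat_lit 0) (XT.nd (nat_lit 78) (nat_lit 532) (nat_lit 0) (XT.lf (nat_lit 0) (nat_lit 6537654357) (nat_lit 532) (nat_lit 4671080973) (nat_lit 76) (nat_lit 58483911) (nat_lit 212) (nat_lit 5) (nat_lit 219) (nat_lit 5) (nat_lit 213) (nat_lit 5) (nat_lit 456) (nat_lit 402) (nat_lit 342)) (XT.lf (nat_lit 0) (nat_lit 97094014) (nat_lit 532) (nat_lit 4712998782) (nat_lit 76) (nat_lit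 6641120562) (nat_lit 205) (nat_lit 5) (nat_lit 212) (nat_lit 5) (nat_lit 206) (nat_lit 5) (nat_lit 457) (nat_lit 402) (nat_lit 341))) (XT.nd (nat_lit 78) (nat_lit 380) (nat_lit 0) (XT.lf (nat_lit 0) (nat_lit 5035600345) (nat_lit 532) (nat_lit 4764214854) (nat_lit 76) (nat_lit 1839662980) (nat_lit 199) (nat_lit 5) (nat_lit 206) (nat_lit 5) (nat_lit 200) (nat_lit 5) (nat_lit 458) (nat_lit 402) (nat_lit 340)) (XT.lf (nat_lit 0) (nat_lit 7018494046) (nat_lit 380) (nat_lit 3156875110) (nat_lit 456) (nat_lit 1656961782) (nat_lit 194) (nat_lit 5) (nat_lit 199) (nat_lit 5) (nat_lit 200) (nat_lit 5) (nat_lit 459) (nat_lit 402) (nat_lit 339))))))))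
noncomputable def xc40 : XT := (XT.nd (nat_lit 2106) (nat_lit 228) (nat_lit 0) (XT.nd (nat_lit 1014) (nat_lit 4028) (nat_lit 0) (XT.nd (nat_lit 468) (nat_lit 2584) (nat_lit 0) (XT.nd (nat_lit 234) (nat_lit 1216) (nat_lit 0) (XT.nd (nat_lit 78) (nat_lit 836) (nat_lit 0) (XT.lf (nat_lit 0) (nat_lit 3440756936) (nat_lit 532) (nat_lit 4876803514) (nat_lit 76) (nat_lit 3712014590) (nat_lit 187) (nat_lit 5) (nat_lit 194) (nat_lit 5) (nat_lit 188) (nat_lit 5) (nat_lit 460) (nat_lit 402) (nat_lit 338)) (XT.nd (nat_lit 78) (nat_lit 456) (nat_lit 0) (XT.lf (nat_lit 0) (nat_lit 7292358060) (nat_lit 380) (nat_lit 1422851154) (nat_lit 456) (nat_lit 3516383905) (nat_lit 182) (nat_lit 5) (nat_lit 187) (nat_lit 5) (nat_lit 188) (nat_lit 5) (nat_lit 461) (nat_lit 402) (nat_lit 337)) (XT.lf (nat_lit 0) (nat_lit 1750418238) (nat_lit 456) (nat_lit 5017799529) (nat_lit 76) (nat_lit 5669942068) (nat_lit 176) (nat_lit 5)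 (nat_lit 182) (nat_lit 5) (nat_lit 177) (nat_lit 5) (nat_lit 462) (nat_lit 402) (nat_lit 336)))) (XT.nd (nat_lit 78) (nat_lit 836) (nat_lit 0) (XT.lf (nat_lit 0) (nat_lit 7168947453) (nat_lit 456) (nat_lit 5100281788) (nat_lit 76) (nat_lit 380401339) (nat_lit 171) (nat_lit 5) (nat_lit 177) (nat_lit 5) (nat_lit 172) (nat_lit 5) (nat_lit 463) (nat_lit 402) (nat_lit 335)) (XT.nd (nat_lit 78) (nat_lit 456) (nat_lit 0) (XT.lf (nat_lit 0) (nat_lit 7668996357) (nat_lit 380) (nat_lit 5157653200) (nat_lit 456) (nat_lit 39265323) (nat_lit 166) (nat_lit 5) (nat_lit 171) (nat_lit 5) (nat_lit 172) (nat_lit 5) (nat_lit 464) (nat_lit 402) (nat_lit 334)) (XT.lf (nat_lit 0) (nat_lit 5540452096) (nat_lit 456) (nat_lit 5313936642) (nat_lit 76) (nat_lit 2232617014) (nat_lit 160) (nat_lit 5) (nat_lit 166) (nat_lit 5) (nat_lit 161) (nat_lit 5) (nat_lit 465) (nat_lit 402) (nat_lit 333))))) (XT.nd (nat_lit 234) (nat_lit 1444)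 (nat_lit 0) (XT.nd (nat_lit 78) (nat_lit 760) (nat_lit 0) (XT.lf (nat_lit 0) (nat_lit 7877170001) (nat_lit 380) (nat_lit 3479761994) (nat_lit 456) (nat_lit 1956395715) (nat_lit 155) (nat_lit 5) (nat_lit 160) (nat_lit 5) (nat_lit 161) (nat_lit 5) (nat_lit 466) (nat_lit 402) (nat_lit 332)) (XT.nd (nat_lit 78) (nat_lit 380) (nat_lit 0) (XT.lf (nat_lit 0) (nat_lit 3816482683) (nat_lit 380) (nat_lit 5581352748) (nat_lit 76) (nat_lit 4146814373) (nat_lit 150) (nat_lit 5) (nat_lit 155) (nat_lit 5) (nat_lit 151) (nat_lit 5) (nat_lit 467) (nat_lit 402) (nat_lit 331)) (XT.lf (nat_lit 0) (nat_lit 8046606284) (nat_lit 380) (nat_lit 1752343165) (nat_lit 456) (nat_lit 3982445357) (nat_lit 145) (nat_lit 5) (nat_lit 150) (nat_lit 5) (nat_lit 151) (nat_lit 5) (nat_lit 468) (nat_lit 402) (nat_lit 330)))) (XT.nd (nat_lit 156) (nat_lit 684) (nat_lit 0) (XT.nd (nat_lit 78) (nat_lit 380) (nat_lit 0) (XT.lf (nat_lit 0) (nat_lit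 1992351420) (nat_lit 380) (nat_lit 5913671982) (nat_lit 76) (nat_lit 6117327055) (nat_lit 140) (nat_lit 5) (nat_lit 145) (nat_lit 5) (nat_lit 141) (nat_lit 5) (nat_lit 469) (nat_lit 402) (nat_lit 329)) (XT.lf (nat_lit 0) (nat_lit 8148166212) (nat_lit 456) (nat_lit 6104525063) (nat_lit 76) (nat_lit 18230824) (nat_lit 135) (nat_lit 5) (nat_lit 141) (nat_lit 5) (nat_lit 136) (nat_lit 5) (nat_lit 470) (nat_lit 402) (nat_lit 328))) (XT.nd (nat_lit 78) (nat_lit 304) (nat_lit 0) (XT.lf (nat_lit 0) (nat_lit 62646842) (nat_lit 380) (nat_lit 6322896218) (nat_lit 76) (nat_lit 8138395535) (nat_lit 130) (nat_lit 5) (nat_lit 135) (nat_lit 5) (nat_lit 131) (nat_lit 5) (nat_lit 471) (nat_lit 402) (nat_lit 327)) (XT.lf (nat_lit 0) (nat_lit 6410697510) (nat_lit 380) (nat_lit 6569380874) (nat_lit 76) (nat_lit 1802453665) (nat_lit 126) (nat_lit 5) (nat_lit 131) (nat_lit 5) (nat_lit 127) (nat_lit 5) (nat_lit 472) (nat_lit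 402) (nat_lit 326)))))) (XT.nd (nat_lit 546) (nat_lit 1900) (nat_lit 0) (XT.nd (nat_lit 234) (nat_lit 1216) (nat_lit 0) (XT.nd (nat_lit 78) (nat_lit 608) (nat_lit 0) (XT.lf (nat_lit 0) (nat_lit 8212005650) (nat_lit 304) (nat_lit 4829916424) (nat_lit 380) (nat_lit 2005107843) (nat_lit 122) (nat_lit 5) (nat_lit 126) (nat_lit 5) (nat_lit 127) (nat_lit 5) (nat_lit 473) (nat_lit 402) (nat_lit 325)) (XT.nd (nat_lit 78) (nat_lit 228) (nat_lit 0) (XT.lf (nat_lit 0) (nat_lit 4568966458) (nat_lit 380) (nat_lit 7131496234) (nat_lit 76) (nat_lit 3616888968) (nat_lit 117) (nat_lit 5) (nat_lit 122) (nat_lit 5) (nat_lit 118) (nat_lit 5) (nat_lit 474) (nat_lit 402) (nat_lit 324)) (XT.lf (nat_lit 0) (nat_lit 8141465862) (nat_lit 228) (nat_lit 3258294299) (nat_lit 304) (nat_lit 4194024206) (nat_lit 114) (nat_lit 5) (nat_lit 117) (nat_lit 5) (nat_lit 118) (nat_lit 5) (nat_lit 475) (nat_lit 402) (nat_lit 323)))) (XT.nd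 (nat_lit 156) (nat_lit 608) (nat_lit 0) (XT.nd (nat_lit 78) (nat_lit 228) (nat_lit 0) (XT.lf (nat_lit 0) (nat_lit 2615944268) (nat_lit 380) (nat_lit 7805566287) (nat_lit 76) (nat_lit 5454818341) (nat_lit 109) (nat_lit 5) (nat_lit 114) (nat_lit 5) (nat_lit 110) (nat_lit 5) (nat_lit 476) (nat_lit 402) (nat_lit 322)) (XT.lf (nat_lit 0) (nat_lit 7975429032) (nat_lit 228) (nat_lit 1678504108) (nat_lit 304) (nat_lit 6511249212) (nat_lit 106) (nat_lit 5) (nat_lit 109) (nat_lit 5) (nat_lit 110) (nat_lit 5) (nat_lit 477) (nat_lit 402) (nat_lit 321))) (XT.nd (nat_lit 78) (nat_lit 228) (nat_lit 0) (XT.lf (nat_lit 0) (nat_lit 543711882) (nat_lit 380) (nat_lit 8607609956) (nat_lit 76) (nat_lit 7309140872) (nat_lit 101) (nat_lit 5) (nat_lit 106) (nat_lit 5) (nat_lit 102) (nat_lit 5) (nat_lit 478) (nat_lit 402) (nat_lit 320)) (XT.lf (nat_lit 0) (nat_lit 7698126587) (nat_lit 228) (nat_lit 98404723) (nat_lit 304) (nat_lit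 8965716936) (nat_lit 98) (nat_lit 5) (nat_lit 101) (nat_lit 5) (nat_lit 102) (nat_lit 5) (nat_lit 479) (nat_lit 402) (nat_lit 319))))) (XT.nd (nat_lit 234) (nat_lit 1064) (nat_lit 0) (XT.nd (nat_lit 78) (nat_lit 532) (nat_lit 0) (XT.lf (nat_lit 0) (nat_lit 7504559250) (nat_lit 304) (nat_lit 7887404133) (nat_lit 380) (nat_lit 1678624368) (nat_lit 94) (nat_lit 5) (nat_lit 98) (nat_lit 5) (nat_lit 99) (nat_lit 5) (nat_lit 480) (nat_lit 402) (nat_lit 318)) (XT.nd (nat_lit 78) (nat_lit 228) (nat_lit 0) (XT.lf (nat_lit 0) (nat_lit 5828238362) (nat_lit 304) (nat_lit 10103358148) (nat_lit 76) (nat_lit 1454273570) (nat_lit 90) (nat_lit 5) (nat_lit 94) (nat_lit 5) (nat_lit 91) (nat_lit 5) (nat_lit 481) (nat_lit 402) (nat_lit 317)) (XT.lf (nat_lit 0) (nat_lit 7014372390) (nat_lit 228) (nat_lit 6645545690) (nat_lit 304) (nat_lit 4048023436) (nat_lit 87) (nat_lit 5) (nat_lit 90) (nat_lit 5) (nat_lit 91) (nat_lit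 5) (nat_lit 482) (nat_lit 402) (nat_lit 316)))) (XT.nd (nat_lit 156) (nat_lit 532) (nat_lit 0) (XT.nd (nat_lit 78) (nat_lit 228) (nat_lit 0) (XT.lf (nat_lit 0) (nat_lit 3730075510) (nat_lit 304) (nat_lit 11318547531) (nat_lit 76) (nat_lit 2988743019) (nat_lit 83) (nat_lit 5) (nat_lit 87) (nat_lit 5) (nat_lit 84) (nat_lit 5) (nat_lit 483) (nat_lit 402) (nat_lit 315)) (XT.lf (nat_lit 0) (nat_lit 6366024625) (nat_lit 228) (nat_lit 5439293968) (nat_lit 304) (nat_lit 6568444464) (nat_lit 80) (nat_lit 5) (nat_lit 83) (nat_lit 5) (nat_lit 84) (nat_lit 5) (nat_lit 484) (nat_lit 402) (nat_lit 314))) (XT.nd (nat_lit 78) (nat_lit 228) (nat_lit 0) (XT.lf (nat_lit 0) (nat_lit 1490256168) (nat_lit 304) (nat_lit 12731070992) (nat_lit 76) (nat_lit 4496621775) (nat_lit 76) (nat_lit 5) (nat_lit 80) (nat_lit 5) (nat_lit 77) (nat_lit 5) (nat_lit 485) (nat_lit 402) (nat_lit 313)) (XT.lf (nat_lit 0) (nat_lit 5537594544)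 (nat_lit 228) (nat_lit 4279379662) (nat_lit 304) (nat_lit 9252308681) (nat_lit 73) (nat_lit 5) (nat_lit 76) (nat_lit 5) (nat_lit 77) (nat_lit 5) (nat_lit 486) (nat_lit 402) (nat_lit 312))))))) (XT.nd (nat_lit 56862) (nat_lit 0) (nat_lit 31844) (XT.nd (nat_lit 56316) (nat_lit 0) (nat_lit 49096) (XT.nd (nat_lit 56082) (nat_lit 0) (nat_lit 51908) (XT.nd (nat_lit 55926) (nat_lit 0) (nat_lit 52896) (XT.lf (nat_lit 0) (nat_lit 5057696949) (nat_lit 228) (nat_lit 13455440061) (nat_lit 304) (nat_lit 915627721) (nat_lit 70) (nat_lit 5) (nat_lit 73) (nat_lit 5) (nat_lit 74) (nat_lit 5) (nat_lit 487) (nat_lit 402) (nat_lit 311)) (XT.nd (nat_lit 78) (nat_lit 0) (nat_lit 0) (XT.lf (nat_lit 0) (nat_lit 252788662) (nat_lit 0) (nat_lit 252788662) (nat_lit 380) (nat_lit 2734654002) (nat_lit 766) (nat_lit 5) (nat_lit 766) (nat_lit 3) (nat_lit 771) (nat_lit 3) (nat_lit 403) (nat_lit 403) (nat_lit 394)) (XT.lf (nat_lit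 0) (nat_lit 5160066148) (nat_lit 380) (nat_lit 1131831971) (nat_lit 456) (nat_lit 202656690) (nat_lit 766) (nat_lit 5) (nat_lit 771) (nat_lit 3) (nat_lit 772) (nat_lit 5) (nat_lit 404) (nat_lit 403) (nat_lit 393)))) (XT.nd (nat_lit 78) (nat_lit 532) (nat_lit 0) (XT.lf (nat_lit 0) (nat_lit 2752549006) (nat_lit 456) (nat_lit 2711035430) (nat_lit 532) (nat_lit 1047791837) (nat_lit 760) (nat_lit 5) (nat_lit 766) (nat_lit 5) (nat_lit 767) (nat_lit 5) (nat_lit 405) (nat_lit 403) (nat_lit 392)) (XT.nd (nat_lit 78) (nat_lit 0) (nat_lit 0) (XT.lf (nat_lit 0) (nat_lit 274298311) (nat_lit 532) (nat_lit 4229532881) (nat_lit 608) (nat_lit 2027372694) (nat_lit 753) (nat_lit 5) (nat_lit 760) (nat_lit 5) (nat_lit 761) (nat_lit 5) (nat_lit 406) (nat_lit 403) (nat_lit 391)) (XT.lf (nat_lit 76) (nat_lit 850670839) (nat_lit 0) (nat_lit 3396337626) (nat_lit 608) (nat_lit 2306743329) (nat_lit 754) (nat_lit 5) (nat_lit 753)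 (nat_lit 5) (nat_lit 761) (nat_lit 5) (nat_lit 407) (nat_lit 403) (nat_lit 390))))) (XT.nd (nat_lit 234) (nat_lit 1596) (nat_lit 0) (XT.nd (nat_lit 78) (nat_lit 608) (nat_lit 0) (XT.lf (nat_lit 0) (nat_lit 1615961302) (nat_lit 608) (nat_lit 533331483) (nat_lit 684) (nat_lit 4429926459) (nat_lit 745) (nat_lit 5) (nat_lit 753) (nat_lit 5) (nat_lit 754) (nat_lit 5) (nat_lit 408) (nat_lit 403) (nat_lit 389)) (XT.nd (nat_lit 78) (nat_lit 608) (nat_lit 0) (XT.lf (nat_lit 76) (nat_lit 4754484491) (nat_lit 0) (nat_lit 754284497) (nat_lit 684) (nat_lit 1098715921) (nat_lit 746) (nat_lit 5) (nat_lit 745) (nat_lit 5) (nat_lit 754) (nat_lit 5) (nat_lit 409) (nat_lit 403) (nat_lit 388)) (XT.lf (nat_lit 0) (nat_lit 2731047345) (nat_lit 684) (nat_lit 3129178012) (nat_lit 760) (nat_lit 778271066) (nat_lit 737) (nat_lit 5) (nat_lit 746) (nat_lit 5) (nat_lit 747) (nat_lit 5) (nat_lit 410) (nat_lit 403) (nat_lit 387))))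 (XT.nd (nat_lit 156) (nat_lit 836) (nat_lit 0) (XT.nd (nat_lit 78) (nat_lit 760) (nat_lit 0) (XT.lf (nat_lit 76) (nat_lit 2319265901) (nat_lit 0) (nat_lit 4233883691) (nat_lit 760) (nat_lit 119309255) (nat_lit 738) (nat_lit 5) (nat_lit 737) (nat_lit 5) (nat_lit 747) (nat_lit 5) (nat_lit 411) (nat_lit 403) (nat_lit 386)) (XT.lf (nat_lit 76) (nat_lit 1170832875) (nat_lit 0) (nat_lit 2453146545) (nat_lit 836) (nat_lit 3085159953) (nat_lit 728) (nat_lit 5) (nat_lit 727) (nat_lit 5) (nat_lit 738) (nat_lit 5) (nat_lit 412) (nat_lit 403) (nat_lit 385))) (XT.nd (nat_lit 78) (nat_lit 0) (nat_lit 76) (XT.lf (nat_lit 76) (nat_lit 81971692) (nat_lit 0) (nat_lit 534436116) (nat_lit 912) (nat_lit 6132514753) (nat_lit 717) (nat_lit 5) (nat_lit 716) (nat_lit 5) (nat_lit 728) (nat_lit 5) (nat_lit 413) (nat_lit 403) (nat_lit 384)) (XT.lf (nat_lit 0) (nat_lit 4302891984) (nat_lit 836) (nat_lit 961462300) (nat_lit 76)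 (nat_lit 1526833096) (nat_lit 717) (nat_lit 5) (nat_lit 728) (nat_lit 5) (nat_lit 718) (nat_lit 5) (nat_lit 414) (nat_lit 403) (nat_lit 383)))))) (XT.nd (nat_lit 546) (nat_lit 9576) (nat_lit 0) (XT.nd (nat_lit 234) (nat_lit 4864) (nat_lit 0) (XT.nd (nat_lit 78) (nat_lit 1976) (nat_lit 0) (XT.lf (nat_lit 0) (nat_lit 1155592938) (nat_lit 912) (nat_lit 1954592825) (nat_lit 76) (nat_lit 3726242475) (nat_lit 705) (nat_lit 5) (nat_lit 717) (nat_lit 5) (nat_lit 706) (nat_lit 5) (nat_lit 415) (nat_lit 403) (nat_lit 382)) (XT.nd (nat_lit 78) (nat_lit 1064) (nat_lit 0) (XT.lf (nat_lit 0) (nat_lit 3979774059) (nat_lit 912) (nat_lit 802382256) (nat_lit 988) (nat_lit 2102408561) (nat_lit 693) (nat_lit 5) (nat_lit 705) (nat_lit 5) (nat_lit 706) (nat_lit 5) (nat_lit 416) (nat_lit 403) (nat_lit 381)) (XT.lf (nat_lit 0) (nat_lit 1483859472) (nat_lit 1064) (nat_lit 3817454839) (nat_lit 76) (nat_lit 1634210881) (nat_lit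 679) (nat_lit 5) (nat_lit 693) (nat_lit 5) (nat_lit 680) (nat_lit 5) (nat_lit 417) (nat_lit 403) (nat_lit 380)))) (XT.nd (nat_lit 156) (nat_lit 2584) (nat_lit 0) (XT.nd (nat_lit 78) (nat_lit 1216) (nat_lit 0) (XT.lf (nat_lit 0) (nat_lit 2296408522) (nat_lit 1064) (nat_lit 2773110351) (nat_lit 1140) (nat_lit 1919820145) (nat_lit 665) (nat_lit 5) (nat_lit 679) (nat_lit 5) (nat_lit 680) (nat_lit 5) (nat_lit 418) (nat_lit 403) (nat_lit 379)) (XT.lf (nat_lit 0) (nat_lit 1522271896) (nat_lit 1140) (nat_lit 91360834) (nat_lit 1216) (nat_lit 5432557271) (nat_lit 649) (nat_lit 5) (nat_lit 664) (nat_lit 5) (nat_lit 665) (nat_lit 5) (nat_lit 419) (nat_lit 403) (nat_lit 378))) (XT.nd (nat_lit 78) (nat_lit 1368) (nat_lit 0) (XT.lf (nat_lit 0) (nat_lit 774707107) (nat_lit 1216) (nat_lit 4392140684) (nat_lit 1292) (nat_lit 1938857314) (nat_lit 633) (nat_lit 5) (nat_lit 649) (nat_lit 5) (nat_lit 650) (nat_lit 5) (nat_lit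 420) (nat_lit 403) (nat_lit 377)) (XT.lf (nat_lit 0) (nat_lit 71772392) (nat_lit 1292) (nat_lit 1492203058) (nat_lit 1368) (nat_lit 5604301708) (nat_lit 615) (nat_lit 5) (nat_lit 632) (nat_lit 5) (nat_lit 633) (nat_lit 5) (nat_lit 421) (nat_lit 403) (nat_lit 376))))) (XT.nd (nat_lit 234) (nat_lit 6688) (nat_lit 0) (XT.nd (nat_lit 78) (nat_lit 2888) (nat_lit 0) (XT.lf (nat_lit 0) (nat_lit 5088779681) (nat_lit 1368) (nat_lit 591623533) (nat_lit 76) (nat_lit 1553210803) (nat_lit 615) (nat_lit 5) (nat_lit 633) (nat_lit 5) (nat_lit 616) (nat_lit 5) (nat_lit 422) (nat_lit 403) (nat_lit 375)) (XT.nd (nat_lit 78) (nat_lit 1444) (nat_lit 0) (XT.lf (nat_lit 0) (nat_lit 1342339311) (nat_lit 1444) (nat_lit 1220046569) (nat_lit 76) (nat_lit 4739498526) (nat_lit 596) (nat_lit 5) (nat_lit 615) (nat_lit 5) (nat_lit 597) (nat_lit 5) (nat_lit 423) (nat_lit 403) (nat_lit 374)) (XT.lf (nat_lit 0) (nat_lit 4845230336)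 (nat_lit 1520) (nat_lit 1815284224) (nat_lit 76) (nat_lit 712607832) (nat_lit 577) (nat_lit 5) (nat_lit 597) (nat_lit 5) (nat_lit 578) (nat_lit 5) (nat_lit 424) (nat_lit 403) (nat_lit 373)))) (XT.nd (nat_lit 156) (nat_lit 3496) (nat_lit 0) (XT.nd (nat_lit 78) (nat_lit 1596) (nat_lit 0) (XT.lf (nat_lit 0) (nat_lit 949423529) (nat_lit 1596) (nat_lit 2383072015) (nat_lit 76) (nat_lit 4114760421) (nat_lit 556) (nat_lit 5) (nat_lit 577) (nat_lit 5) (nat_lit 557) (nat_lit 5) (nat_lit 425) (nat_lit 403) (nat_lit 372)) (XT.lf (nat_lit 0) (nat_lit 4439873403) (nat_lit 1672) (nat_lit 2918681066) (nat_lit 76) (nat_lit 165868987) (nat_lit 535) (nat_lit 5) (nat_lit 557) (nat_lit 5) (nat_lit 536) (nat_lit 5) (nat_lit 426) (nat_lit 403) (nat_lit 371))) (XT.nd (nat_lit 78) (nat_lit 1748) (nat_lit 0) (XT.lf (nat_lit 0) (nat_lit 392931093) (nat_lit 1748) (nat_lit 3430205233) (nat_lit 76) (nat_lit 3781371496) (nat_lit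 512) (nat_lit 5) (nat_lit 535) (nat_lit 5) (nat_lit 513) (nat_lit 5) (nat_lit 427) (nat_lit 403) (nat_lit 370)) (XT.lf (nat_lit 0) (nat_lit 3773605687) (nat_lit 1748) (nat_lit 107534329) (nat_lit 1824) (nat_lit 3806487444) (nat_lit 489) (nat_lit 5) (nat_lit 512) (nat_lit 5) (nat_lit 513) (nat_lit 5) (nat_lit 428) (nat_lit 403) (nat_lit 369))))))))
noncomputable def xc41 : XT := (XT.nd (nat_lit 2106) (nat_lit 10488) (nat_lit 0) (XT.nd (nat_lit 1014) (nat_lit 7904) (nat_lit 0) (XT.nd (nat_lit 468) (nat_lit 5548) (nat_lit 0) (XT.nd (nat_lit 234) (nat_lit 2736) (nat_lit 0) (XT.nd (nat_lit 78) (nat_lit 2052) (nat_lit 0) (XT.lf (nat_lit 0) (nat_lit 3398930111) (nat_lit 1824) (nat_lit 4050628406) (nat_lit 1900) (nat_lit 324177432) (nat_lit 465) (nat_lit 5) (nat_lit 489) (nat_lit 5) (nat_lit 490) (nat_lit 5) (nat_lit 429) (nat_lit 403) (nat_lit 368)) (XT.nd (nat_lit 78) (nat_lit 912) (nat_lit 0) (XT.lf (nat_lit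 0) (nat_lit 3052056738) (nat_lit 1064) (nat_lit 122492196) (nat_lit 1140) (nat_lit 4688366580) (nat_lit 450) (nat_lit 5) (nat_lit 464) (nat_lit 5) (nat_lit 465) (nat_lit 5) (nat_lit 430) (nat_lit 403) (nat_lit 367)) (XT.lf (nat_lit 0) (nat_lit 2726111791) (nat_lit 912) (nat_lit 4030410262) (nat_lit 988) (nat_lit 1198557805) (nat_lit 438) (nat_lit 5) (nat_lit 450) (nat_lit 5) (nat_lit 451) (nat_lit 5) (nat_lit 431) (nat_lit 403) (nat_lit 366)))) (XT.nd (nat_lit 78) (nat_lit 1748) (nat_lit 0) (XT.lf (nat_lit 0) (nat_lit 2325761882) (nat_lit 988) (nat_lit 5619169240) (nat_lit 76) (nat_lit 105547834) (nat_lit 425) (nat_lit 5) (nat_lit 438) (nat_lit 5) (nat_lit 426) (nat_lit 5) (nat_lit 432) (nat_lit 403) (nat_lit 365)) (XT.nd (nat_lit 78) (nat_lit 912) (nat_lit 0) (XT.lf (nat_lit 0) (nat_lit 2148647939) (nat_lit 836) (nat_lit 3780680081) (nat_lit 912) (nat_lit 2219463122) (nat_lit 414) (nat_lit 5) (nat_lit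 425) (nat_lit 5) (nat_lit 426) (nat_lit 5) (nat_lit 433) (nat_lit 403) (nat_lit 364)) (XT.lf (nat_lit 0) (nat_lit 1341599315) (nat_lit 912) (nat_lit 6350397793) (nat_lit 76) (nat_lit 558502404) (nat_lit 402) (nat_lit 5) (nat_lit 414) (nat_lit 5) (nat_lit 403) (nat_lit 5) (nat_lit 434) (nat_lit 403) (nat_lit 363))))) (XT.nd (nat_lit 234) (nat_lit 3040) (nat_lit 0) (XT.nd (nat_lit 78) (nat_lit 1672) (nat_lit 0) (XT.lf (nat_lit 0) (nat_lit 1657210369) (nat_lit 836) (nat_lit 3315696296) (nat_lit 912) (nat_lit 3382192872) (nat_lit 391) (nat_lit 5) (nat_lit 402) (nat_lit 5) (nat_lit 403) (nat_lit 5) (nat_lit 435) (nat_lit 403) (nat_lit 362)) (XT.nd (nat_lit 78) (nat_lit 760) (nat_lit 0) (XT.lf (nat_lit 0) (nat_lit 225617836) (nat_lit 912) (nat_lit 7013063409) (nat_lit 76) (nat_lit 1224557014) (nat_lit 379) (nat_lit 5) (nat_lit 391) (nat_lit 5) (nat_lit 380) (nat_lit 5) (nat_lit 436) (nat_lit 403) (nat_lit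 361)) (XT.lf (nat_lit 0) (nat_lit 1242910886) (nat_lit 760) (nat_lit 2648520159) (nat_lit 836) (nat_lit 4682833355) (nat_lit 369) (nat_lit 5) (nat_lit 379) (nat_lit 5) (nat_lit 380) (nat_lit 5) (nat_lit 437) (nat_lit 403) (nat_lit 360)))) (XT.nd (nat_lit 156) (nat_lit 1520) (nat_lit 0) (XT.nd (nat_lit 78) (nat_lit 760) (nat_lit 0) (XT.lf (nat_lit 0) (nat_lit 1066030133) (nat_lit 760) (nat_lit 6590692502) (nat_lit 836) (nat_lit 1032113235) (nat_lit 359) (nat_lit 5) (nat_lit 369) (nat_lit 5) (nat_lit 370) (nat_lit 5) (nat_lit 438) (nat_lit 403) (nat_lit 359)) (XT.lf (nat_lit 0) (nat_lit 897234982) (nat_lit 684) (nat_lit 1791114766) (nat_lit 760) (nat_lit 6118224854) (nat_lit 349) (nat_lit 5) (nat_lit 358) (nat_lit 5) (nat_lit 359) (nat_lit 5) (nat_lit 439) (nat_lit 403) (nat_lit 358))) (XT.nd (nat_lit 78) (nat_lit 760) (nat_lit 0) (XT.lf (nat_lit 0) (nat_lit 743824011) (nat_lit 760) (nat_lit 5764028330)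 (nat_lit 836) (nat_lit 2419832021) (nat_lit 339) (nat_lit 5) (nat_lit 349) (nat_lit 5) (nat_lit 350) (nat_lit 5) (nat_lit 440) (nat_lit 403) (nat_lit 357)) (XT.lf (nat_lit 0) (nat_lit 611977050) (nat_lit 684) (nat_lit 754437971) (nat_lit 760) (nat_lit 7685933505) (nat_lit 329) (nat_lit 5) (nat_lit 338) (nat_lit 5) (nat_lit 339) (nat_lit 5) (nat_lit 441) (nat_lit 403) (nat_lit 356)))))) (XT.nd (nat_lit 546) (nat_lit 3876) (nat_lit 0) (XT.nd (nat_lit 234) (nat_lit 1976) (nat_lit 0) (XT.nd (nat_lit 78) (nat_lit 1368) (nat_lit 0) (XT.lf (nat_lit 0) (nat_lit 477037563) (nat_lit 684) (nat_lit 4770797341) (nat_lit 760) (nat_lit 3932312527) (nat_lit 320) (nat_lit 5) (nat_lit 329) (nat_lit 5) (nat_lit 330) (nat_lit 5) (nat_lit 442) (nat_lit 403) (nat_lit 355)) (XT.nd (nat_lit 78) (nat_lit 760) (nat_lit 0) (XT.lf (nat_lit 0) (nat_lit 375721297) (nat_lit 608) (nat_lit 8865861047) (nat_lit 684) (nat_lit 70284092)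 (nat_lit 312) (nat_lit 5) (nat_lit 320) (nat_lit 5) (nat_lit 321) (nat_lit 5) (nat_lit 443) (nat_lit 403) (nat_lit 354)) (XT.lf (nat_lit 0) (nat_lit 257846188) (nat_lit 684) (nat_lit 3620736606) (nat_lit 760) (nat_lit 5568005921) (nat_lit 302) (nat_lit 5) (nat_lit 311) (nat_lit 5) (nat_lit 312) (nat_lit 5) (nat_lit 444) (nat_lit 403) (nat_lit 353)))) (XT.nd (nat_lit 156) (nat_lit 684) (nat_lit 0) (XT.nd (nat_lit 78) (nat_lit 684) (nat_lit 0) (XT.lf (nat_lit 0) (nat_lit 168184880) (nat_lit 608) (nat_lit 7781069761) (nat_lit 684) (nat_lit 1636006393) (nat_lit 294) (nat_lit 5) (nat_lit 302) (nat_lit 5) (nat_lit 303) (nat_lit 5) (nat_lit 445) (nat_lit 403) (nat_lit 352)) (XT.lf (nat_lit 0) (nat_lit 78570807) (nat_lit 608) (nat_lit 2322805717) (nat_lit 684) (nat_lit 7326025254) (nat_lit 285) (nat_lit 5) (nat_lit 293) (nat_lit 5) (nat_lit 294) (nat_lit 5) (nat_lit 446) (nat_lit 403) (nat_lit 351))) (XT.nd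 (nat_lit 78) (nat_lit 684) (nat_lit 0) (XT.lf (nat_lit 0) (nat_lit 6556431978) (nat_lit 684) (nat_lit 4044616) (nat_lit 76) (nat_lit 3312741585) (nat_lit 285) (nat_lit 5) (nat_lit 294) (nat_lit 5) (nat_lit 286) (nat_lit 5) (nat_lit 447) (nat_lit 403) (nat_lit 350)) (XT.lf (nat_lit 0) (nat_lit 817321721) (nat_lit 684) (nat_lit 67488293) (nat_lit 76) (nat_lit 9138191620) (nat_lit 276) (nat_lit 5) (nat_lit 285) (nat_lit 5) (nat_lit 277) (nat_lit 5) (nat_lit 448) (nat_lit 403) (nat_lit 349))))) (XT.nd (nat_lit 234) (nat_lit 2128) (nat_lit 0) (XT.nd (nat_lit 78) (nat_lit 1140) (nat_lit 0) (XT.lf (nat_lit 0) (nat_lit 5064551559) (nat_lit 684) (nat_lit 146730983) (nat_lit 76) (nat_lit 4964877382) (nat_lit 268) (nat_lit 5) (nat_lit 277) (nat_lit 5) (nat_lit 269) (nat_lit 5) (nat_lit 449) (nat_lit 403) (nat_lit 348)) (XT.nd (nat_lit 78) (nat_lit 608) (nat_lit 0) (XT.lf (nat_lit 0) (nat_lit 9452984451) (nat_lit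 608) (nat_lit 198336380) (nat_lit 76) (nat_lit 682319344) (nat_lit 261) (nat_lit 5) (nat_lit 269) (nat_lit 5) (nat_lit 262) (nat_lit 5) (nat_lit 450) (nat_lit 403) (nat_lit 347)) (XT.lf (nat_lit 0) (nat_lit 3472528674) (nat_lit 608) (nat_lit 269550888) (nat_lit 76) (nat_lit 6752498387) (nat_lit 253) (nat_lit 5) (nat_lit 261) (nat_lit 5) (nat_lit 254) (nat_lit 5) (nat_lit 451) (nat_lit 403) (nat_lit 346)))) (XT.nd (nat_lit 156) (nat_lit 988) (nat_lit 0) (XT.nd (nat_lit 78) (nat_lit 608) (nat_lit 0) (XT.lf (nat_lit 0) (nat_lit 7967656794) (nat_lit 608) (nat_lit 324974051) (nat_lit 76) (nat_lit 2367133044) (nat_lit 246) (nat_lit 5) (nat_lit 254) (nat_lit 5) (nat_lit 247) (nat_lit 5) (nat_lit 452) (nat_lit 403) (nat_lit 345)) (XT.lf (nat_lit 0) (nat_lit 1779780439) (nat_lit 608) (nat_lit 380057411) (nat_lit 76) (nat_lit 8669135969) (nat_lit 238) (nat_lit 5) (nat_lit 246) (nat_lit 5) (nat_lit 239) (nat_lit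 5) (nat_lit 453) (nat_lit 403) (nat_lit 344))) (XT.nd (nat_lit 78) (nat_lit 532) (nat_lit 0) (XT.lf (nat_lit 0) (nat_lit 6388881937) (nat_lit 532) (nat_lit 443844644) (nat_lit 76) (nat_lit 4169387428) (nat_lit 232) (nat_lit 5) (nat_lit 239) (nat_lit 5) (nat_lit 233) (nat_lit 5) (nat_lit 454) (nat_lit 403) (nat_lit 343)) (XT.lf (nat_lit 0) (nat_lit 10693829197) (nat_lit 532) (nat_lit 470985976) (nat_lit 608) (nat_lit 15064492) (nat_lit 225) (nat_lit 5) (nat_lit 232) (nat_lit 5) (nat_lit 233) (nat_lit 5) (nat_lit 455) (nat_lit 403) (nat_lit 342))))))) (XT.nd (nat_lit 1092) (nat_lit 4408) (nat_lit 0) (XT.nd (nat_lit 546) (nat_lit 2812) (nat_lit 0) (XT.nd (nat_lit 234) (nat_lit 1748) (nat_lit 0) (XT.nd (nat_lit 78) (nat_lit 988) (nat_lit 0) (XT.lf (nat_lit 0) (nat_lit 4715433508) (nat_lit 532) (nat_lit 562735737) (nat_lit 76) (nat_lit 6083072264) (nat_lit 218) (nat_lit 5) (nat_lit 225) (nat_lit 5) (nat_lit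 219) (nat_lit 5) (nat_lit 456) (nat_lit 403) (nat_lit 341)) (XT.nd (nat_lit 78) (nat_lit 532) (nat_lit 0) (XT.lf (nat_lit 0) (nat_lit 9617649793) (nat_lit 532) (nat_lit 616384831) (nat_lit 76) (nat_lit 1313409683) (nat_lit 212) (nat_lit 5) (nat_lit 219) (nat_lit 5) (nat_lit 213) (nat_lit 5) (nat_lit 457) (nat_lit 403) (nat_lit 340)) (XT.lf (nat_lit 0) (nat_lit 2945499334) (nat_lit 532) (nat_lit 689692490) (nat_lit 76) (nat_lit 8102539389) (nat_lit 205) (nat_lit 5) (nat_lit 212) (nat_lit 5) (nat_lit 206) (nat_lit 5) (nat_lit 458) (nat_lit 403) (nat_lit 339)))) (XT.nd (nat_lit 156) (nat_lit 836) (nat_lit 0) (XT.nd (nat_lit 78) (nat_lit 456) (nat_lit 0) (XT.lf (nat_lit 0) (nat_lit 7984375554) (nat_lit 532) (nat_lit 762614300) (nat_lit 76) (nat_lit 3185612997) (nat_lit 199) (nat_lit 5) (nat_lit 206) (nat_lit 5) (nat_lit 200) (nat_lit 5) (nat_lit 459) (nat_lit 403) (nat_lit 338)) (XT.lf (nat_lit 0) (nat_lit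 1076670330) (nat_lit 456) (nat_lit 833092068) (nat_lit 76) (nat_lit 10222440485) (nat_lit 193) (nat_lit 5) (nat_lit 199) (nat_lit 5) (nat_lit 194) (nat_lit 5) (nat_lit 460) (nat_lit 403) (nat_lit 337))) (XT.nd (nat_lit 78) (nat_lit 380) (nat_lit 0) (XT.lf (nat_lit 0) (nat_lit 6259502550) (nat_lit 532) (nat_lit 930244164) (nat_lit 76) (nat_lit 5146307596) (nat_lit 187) (nat_lit 5) (nat_lit 194) (nat_lit 5) (nat_lit 188) (nat_lit 5) (nat_lit 461) (nat_lit 403) (nat_lit 336)) (XT.lf (nat_lit 0) (nat_lit 11537590409) (nat_lit 380) (nat_lit 101647547) (nat_lit 456) (nat_lit 905956826) (nat_lit 182) (nat_lit 5) (nat_lit 187) (nat_lit 5) (nat_lit 188) (nat_lit 5) (nat_lit 462) (nat_lit 403) (nat_lit 335))))) (XT.nd (nat_lit 234) (nat_lit 1520) (nat_lit 0) (XT.nd (nat_lit 78) (nat_lit 836) (nat_lit 0) (XT.lf (nat_lit 0) (nat_lit 4439991662) (nat_lit 456) (nat_lit 1128292146) (nat_lit 76) (nat_lit 7190189485)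 (nat_lit 176) (nat_lit 5) (nat_lit 182) (nat_lit 5) (nat_lit 177) (nat_lit 5) (nat_lit 463) (nat_lit 403) (nat_lit 334)) (XT.nd (nat_lit 78) (nat_lit 456) (nat_lit 0) (XT.lf (nat_lit 0) (nat_lit 9979088883) (nat_lit 456) (nat_lit 1235999742) (nat_lit 76) (nat_lit 1762041916) (nat_lit 171) (nat_lit 5) (nat_lit 177) (nat_lit 5) (nat_lit 172) (nat_lit 5) (nat_lit 464) (nat_lit 403) (nat_lit 333)) (XT.lf (nat_lit 0) (nat_lit 2522174362) (nat_lit 456) (nat_lit 1366316689) (nat_lit 76) (nat_lit 9312081502) (nat_lit 165) (nat_lit 5) (nat_lit 171) (nat_lit 5) (nat_lit 166) (nat_lit 5) (nat_lit 465) (nat_lit 403) (nat_lit 332)))) (XT.nd (nat_lit 156) (nat_lit 684) (nat_lit 0) (XT.nd (nat_lit 78) (nat_lit 456) (nat_lit 0) (XT.lf (nat_lit 0) (nat_lit 8228736338) (nat_lit 456) (nat_lit 1510586591) (nat_lit 76) (nat_lit 3689770726) (nat_lit 160) (nat_lit 5) (nat_lit 166) (nat_lit 5) (nat_lit 161) (nat_lit 5) (nat_lit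 466) (nat_lit 403) (nat_lit 331)) (XT.lf (nat_lit 0) (nat_lit 501725529) (nat_lit 456) (nat_lit 1654509345) (nat_lit 76) (nat_lit 11506869674) (nat_lit 154) (nat_lit 5) (nat_lit 160) (nat_lit 5) (nat_lit 155) (nat_lit 5) (nat_lit 467) (nat_lit 403) (nat_lit 330))) (XT.nd (nat_lit 78) (nat_lit 380) (nat_lit 0) (XT.lf (nat_lit 0) (nat_lit 6383190702) (nat_lit 380) (nat_lit 1841247308) (nat_lit 76) (nat_lit 5677432297) (nat_lit 150) (nat_lit 5) (nat_lit 155) (nat_lit 5) (nat_lit 151) (nat_lit 5) (nat_lit 468) (nat_lit 403) (nat_lit 329)) (XT.lf (nat_lit 0) (nat_lit 12132155203) (nat_lit 380) (nat_lit 366511349) (nat_lit 456) (nat_lit 1647982582) (nat_lit 145) (nat_lit 5) (nat_lit 150) (nat_lit 5) (nat_lit 151) (nat_lit 5) (nat_lit 469) (nat_lit 403) (nat_lit 328)))))) (XT.nd (nat_lit 546) (nat_lit 2052) (nat_lit 0) (XT.nd (nat_lit 234) (nat_lit 1216) (nat_lit 0) (XT.nd (nat_lit 78) (nat_lit 760) (nat_lit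 0) (XT.lf (nat_lit 0) (nat_lit 4437431144) (nat_lit 380) (nat_lit 2239311450) (nat_lit 76) (nat_lit 7719533142) (nat_lit 140) (nat_lit 5) (nat_lit 145) (nat_lit 5) (nat_lit 141) (nat_lit 5) (nat_lit 470) (nat_lit 403) (nat_lit 327)) (XT.nd (nat_lit 78) (nat_lit 380) (nat_lit 0) (XT.lf (nat_lit 0) (nat_lit 10742454730) (nat_lit 456) (nat_lit 2460911609) (nat_lit 76) (nat_lit 1448619514) (nat_lit 135) (nat_lit 5) (nat_lit 141) (nat_lit 5) (nat_lit 136) (nat_lit 5) (nat_lit 471) (nat_lit 403) (nat_lit 326)) (XT.lf (nat_lit 0) (nat_lit 2385705159) (nat_lit 380) (nat_lit 2717007301) (nat_lit 76) (nat_lit 9810456904) (nat_lit 130) (nat_lit 5) (nat_lit 135) (nat_lit 5) (nat_lit 131) (nat_lit 5) (nat_lit 472) (nat_lit 403) (nat_lit 325)))) (XT.nd (nat_lit 156) (nat_lit 532) (nat_lit 0) (XT.nd (nat_lit 78) (nat_lit 380) (nat_lit 0) (XT.lf (nat_lit 0) (nat_lit 8890288278) (nat_lit 380) (nat_lit 2996301445) (nat_lit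 76) (nat_lit 3293610939) (nat_lit 126) (nat_lit 5) (nat_lit 131) (nat_lit 5) (nat_lit 127) (nat_lit 5) (nat_lit 473) (nat_lit 403) (nat_lit 324)) (XT.lf (nat_lit 0) (nat_lit 221481906) (nat_lit 380) (nat_lit 3287582860) (nat_lit 76) (nat_lit 11944392127) (nat_lit 121) (nat_lit 5) (nat_lit 126) (nat_lit 5) (nat_lit 122) (nat_lit 5) (nat_lit 474) (nat_lit 403) (nat_lit 323))) (XT.nd (nat_lit 78) (nat_lit 228) (nat_lit 0) (XT.lf (nat_lit 0) (nat_lit 6933243483) (nat_lit 380) (nat_lit 3632092288) (nat_lit 76) (nat_lit 5166935028) (nat_lit 117) (nat_lit 5) (nat_lit 122) (nat_lit 5) (nat_lit 118) (nat_lit 5) (nat_lit 475) (nat_lit 403) (nat_lit 322)) (XT.lf (nat_lit 0) (nat_lit 12038813998) (nat_lit 228) (nat_lit 1888995238) (nat_lit 304) (nat_lit 2090011954) (nat_lit 114) (nat_lit 5) (nat_lit 117) (nat_lit 5) (nat_lit 118) (nat_lit 5) (nat_lit 476) (nat_lit 403) (nat_lit 321))))) (XT.nd (nat_lit 234) (nat_lit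 1064) (nat_lit 0) (XT.nd (nat_lit 78) (nat_lit 608) (nat_lit 0) (XT.lf (nat_lit 0) (nat_lit 4863933295) (nat_lit 380) (nat_lit 4383315862) (nat_lit 76) (nat_lit 7061926486) (nat_lit 109) (nat_lit 5) (nat_lit 114) (nat_lit 5) (nat_lit 110) (nat_lit 5) (nat_lit 477) (nat_lit 403) (nat_lit 320)) (XT.nd (nat_lit 78) (nat_lit 380) (nat_lit 0) (XT.lf (nat_lit 0) (nat_lit 11811788288) (nat_lit 228) (nat_lit 261438649) (nat_lit 304) (nat_lit 4534266004) (nat_lit 106) (nat_lit 5) (nat_lit 109) (nat_lit 5) (nat_lit 110) (nat_lit 5) (nat_lit 478) (nat_lit 403) (nat_lit 319)) (XT.lf (nat_lit 0) (nat_lit 2674064036) (nat_lit 380) (nat_lit 5266376982) (nat_lit 76) (nat_lit 8971505866) (nat_lit 101) (nat_lit 5) (nat_lit 106) (nat_lit 5) (nat_lit 102) (nat_lit 5) (nat_lit 479) (nat_lit 403) (nat_lit 318)))) (XT.nd (nat_lit 156) (nat_lit 456) (nat_lit 0) (XT.nd (nat_lit 78) (nat_lit 380) (nat_lit 0) (XT.lf (nat_lit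 0) (nat_lit 10114742596) (nat_lit 304) (nat_lit 5762282012) (nat_lit 76) (nat_lit 1346357312) (nat_lit 98) (nat_lit 5) (nat_lit 102) (nat_lit 5) (nat_lit 99) (nat_lit 5) (nat_lit 480) (nat_lit 403) (nat_lit 317)) (XT.lf (nat_lit 0) (nat_lit 354363684) (nat_lit 380) (nat_lit 6299217406) (nat_lit 76) (nat_lit 10888090210) (nat_lit 93) (nat_lit 5) (nat_lit 98) (nat_lit 5) (nat_lit 94) (nat_lit 5) (nat_lit 481) (nat_lit 403) (nat_lit 316))) (XT.nd (nat_lit 78) (nat_lit 228) (nat_lit 0) (XT.lf (nat_lit 0) (nat_lit 8035855427) (nat_lit 304) (nat_lit 6890348196) (nat_lit 76) (nat_lit 2940543297) (nat_lit 90) (nat_lit 5) (nat_lit 94) (nat_lit 5) (nat_lit 91) (nat_lit 5) (nat_lit 482) (nat_lit 403) (nat_lit 315)) (XT.lf (nat_lit 0) (nat_lit 10683869539) (nat_lit 228) (nat_lit 5381867657) (nat_lit 304) (nat_lit 2133479546) (nat_lit 87) (nat_lit 5) (nat_lit 90) (nat_lit 5) (nat_lit 91) (nat_lit 5) (nat_lit 483)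 (nat_lit 403) (nat_lit 314))))))))
noncomputable def xc42 : XT := (XT.nd (nat_lit 58032) (nat_lit 0) (nat_lit 12540) (XT.nd (nat_lit 56940) (nat_lit 0) (nat_lit 35112) (XT.nd (nat_lit 56394) (nat_lit 0) (nat_lit 49628) (XT.nd (nat_lit 234) (nat_lit 228) (nat_lit 0) (XT.nd (nat_lit 78) (nat_lit 532) (nat_lit 0) (XT.lf (nat_lit 0) (nat_lit 5824457116) (nat_lit 304) (nat_lit 8198800850) (nat_lit 76) (nat_lit 4515538953) (nat_lit 83) (nat_lit 5) (nat_lit 87) (nat_lit 5) (nat_lit 84) (nat_lit 5) (nat_lit 484) (nat_lit 403) (nat_lit 313)) (XT.nd (nat_lit 78) (nat_lit 304) (nat_lit 0) (XT.lf (nat_lit 0) (nat_lit 9960185388) (nat_lit 228) (nat_lit 4146125688) (nat_lit 304) (nat_lit 4779688858) (nat_lit 80) (nat_lit 5) (nat_lit 83) (nat_lit 5) (nat_lit 84) (nat_lit 5) (nat_lit 485) (nat_lit 403) (nat_lit 312)) (XT.lf (nat_lit 0) (nat_lit 3468959975) (nat_lit 304) (nat_lit 9710254892) (nat_lit 76) (nat_lit 6061555155)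 (nat_lit 76) (nat_lit 5) (nat_lit 80) (nat_lit 5) (nat_lit 77) (nat_lit 5) (nat_lit 486) (nat_lit 403) (nat_lit 311)))) (XT.nd (nat_lit 56004) (nat_lit 0) (nat_lit 51604) (XT.lf (nat_lit 0) (nat_lit 9051265063) (nat_lit 228) (nat_lit 2959618973) (nat_lit 304) (nat_lit 7592452956) (nat_lit 73) (nat_lit 5) (nat_lit 76) (nat_lit 5) (nat_lit 77) (nat_lit 5) (nat_lit 487) (nat_lit 403) (nat_lit 310)) (XT.nd (nat_lit 78) (nat_lit 532) (nat_lit 0) (XT.lf (nat_lit 0) (nat_lit 1340469319) (nat_lit 532) (nat_lit 957251572) (nat_lit 532) (nat_lit 957251572) (nat_lit 759) (nat_lit 3) (nat_lit 766) (nat_lit 3) (nat_lit 766) (nat_lit 5) (nat_lit 404) (nat_lit 404) (nat_lit 392)) (XT.lf (nat_lit 0) (nat_lit 131671400) (nat_lit 532) (nat_lit 3565213444) (nat_lit 608) (nat_lit 2831472552) (nat_lit 752) (nat_lit 5) (nat_lit 759) (nat_lit 3) (nat_lit 760) (nat_lit 5) (nat_lit 405) (nat_lit 404) (nat_lit 391))))) (XT.nd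 (nat_lit 234) (nat_lit 1368) (nat_lit 0) (XT.nd (nat_lit 78) (nat_lit 608) (nat_lit 0) (XT.lf (nat_lit 76) (nat_lit 1377471054) (nat_lit 0) (nat_lit 2649389015) (nat_lit 608) (nat_lit 2522617291) (nat_lit 753) (nat_lit 5) (nat_lit 752) (nat_lit 5) (nat_lit 760) (nat_lit 5) (nat_lit 406) (nat_lit 404) (nat_lit 390)) (XT.nd (nat_lit 78) (nat_lit 0) (nat_lit 0) (XT.lf (nat_lit 0) (nat_lit 1321128160) (nat_lit 608) (nat_lit 145078684) (nat_lit 684) (nat_lit 5107394230) (nat_lit 744) (nat_lit 5) (nat_lit 752) (nat_lit 5) (nat_lit 753) (nat_lit 5) (nat_lit 407) (nat_lit 404) (nat_lit 389)) (XT.lf (nat_lit 76) (nat_lit 5001893336) (nat_lit 0) (nat_lit 129491599) (nat_lit 684) (nat_lit 1469035022) (nat_lit 745) (nat_lit 5) (nat_lit 744) (nat_lit 5) (nat_lit 753) (nat_lit 5) (nat_lit 408) (nat_lit 404) (nat_lit 388)))) (XT.nd (nat_lit 156) (nat_lit 760) (nat_lit 0) (XT.nd (nat_lit 78) (nat_lit 0) (nat_lit 0)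 (XT.lf (nat_lit 0) (nat_lit 2285013650) (nat_lit 684) (nat_lit 3009997575) (nat_lit 760) (nat_lit 1334951588) (nat_lit 736) (nat_lit 5) (nat_lit 745) (nat_lit 5) (nat_lit 746) (nat_lit 5) (nat_lit 409) (nat_lit 404) (nat_lit 387)) (XT.lf (nat_lit 76) (nat_lit 2293975931) (nat_lit 0) (nat_lit 3724238608) (nat_lit 760) (nat_lit 644266710) (nat_lit 737) (nat_lit 5) (nat_lit 736) (nat_lit 5) (nat_lit 746) (nat_lit 5) (nat_lit 410) (nat_lit 404) (nat_lit 386))) (XT.nd (nat_lit 78) (nat_lit 0) (nat_lit 0) (XT.lf (nat_lit 76) (nat_lit 1012708275) (nat_lit 0) (nat_lit 2002648658) (nat_lit 836) (nat_lit 3682430402) (nat_lit 727) (nat_lit 5) (nat_lit 726) (nat_lit 5) (nat_lit 737) (nat_lit 5) (nat_lit 411) (nat_lit 404) (nat_lit 385)) (XT.lf (nat_lit 76) (nat_lit 6529552951) (nat_lit 0) (nat_lit 141924094) (nat_lit 836) (nat_lit 64693445) (nat_lit 727) (nat_lit 5) (nat_lit 726) (nat_lit 5) (nat_lit 737) (nat_lit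 5) (nat_lit 412) (nat_lit 404) (nat_lit 384)))))) (XT.nd (nat_lit 546) (nat_lit 9804) (nat_lit 0) (XT.nd (nat_lit 234) (nat_lit 3040) (nat_lit 0) (XT.nd (nat_lit 78) (nat_lit 912) (nat_lit 0) (XT.lf (nat_lit 0) (nat_lit 3529740887) (nat_lit 836) (nat_lit 1386745404) (nat_lit 912) (nat_lit 1860431316) (nat_lit 716) (nat_lit 5) (nat_lit 727) (nat_lit 5) (nat_lit 728) (nat_lit 5) (nat_lit 413) (nat_lit 404) (nat_lit 383)) (XT.nd (nat_lit 78) (nat_lit 0) (nat_lit 0) (XT.lf (nat_lit 0) (nat_lit 309037404) (nat_lit 912) (nat_lit 2511071801) (nat_lit 988) (nat_lit 4000683099) (nat_lit 704) (nat_lit 5) (nat_lit 716) (nat_lit 5) (nat_lit 717) (nat_lit 5) (nat_lit 414) (nat_lit 404) (nat_lit 382)) (XT.lf (nat_lit 76) (nat_lit 3268820889) (nat_lit 0) (nat_lit 564778893) (nat_lit 988) (nat_lit 3033849418) (nat_lit 705) (nat_lit 5) (nat_lit 704) (nat_lit 5) (nat_lit 717) (nat_lit 5) (nat_lit 415) (nat_lit 404)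 (nat_lit 381)))) (XT.nd (nat_lit 156) (nat_lit 1140) (nat_lit 0) (XT.nd (nat_lit 78) (nat_lit 988) (nat_lit 0) (XT.lf (nat_lit 0) (nat_lit 462217892) (nat_lit 988) (nat_lit 4644408230) (nat_lit 76) (nat_lit 1810398407) (nat_lit 692) (nat_lit 5) (nat_lit 705) (nat_lit 5) (nat_lit 693) (nat_lit 5) (nat_lit 416) (nat_lit 404) (nat_lit 380)) (XT.lf (nat_lit 0) (nat_lit 1310462793) (nat_lit 988) (nat_lit 2628995135) (nat_lit 1064) (nat_lit 3029887917) (nat_lit 679) (nat_lit 5) (nat_lit 692) (nat_lit 5) (nat_lit 693) (nat_lit 5) (nat_lit 417) (nat_lit 404) (nat_lit 379))) (XT.nd (nat_lit 78) (nat_lit 0) (nat_lit 0) (XT.lf (nat_lit 0) (nat_lit 402424728) (nat_lit 1064) (nat_lit 5722933) (nat_lit 1140) (nat_lit 6616696043) (nat_lit 664) (nat_lit 5) (nat_lit 678) (nat_lit 5) (nat_lit 679) (nat_lit 5) (nat_lit 418) (nat_lit 404) (nat_lit 378)) (XT.lf (nat_lit 0) (nat_lit 3850190493) (nat_lit 1140) (nat_lit 481724495)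 (nat_lit 76) (nat_lit 2750859571) (nat_lit 664) (nat_lit 5) (nat_lit 679) (nat_lit 5) (nat_lit 665) (nat_lit 5) (nat_lit 419) (nat_lit 404) (nat_lit 377))))) (XT.nd (nat_lit 234) (nat_lit 6080) (nat_lit 0) (XT.nd (nat_lit 78) (nat_lit 2508) (nat_lit 0) (XT.lf (nat_lit 0) (nat_lit 176192956) (nat_lit 1216) (nat_lit 1308374752) (nat_lit 76) (nat_lit 5659322339) (nat_lit 648) (nat_lit 5) (nat_lit 664) (nat_lit 5) (nat_lit 649) (nat_lit 5) (nat_lit 420) (nat_lit 404) (nat_lit 376)) (XT.nd (nat_lit 78) (nat_lit 1292) (nat_lit 0) (XT.lf (nat_lit 0) (nat_lit 3580942706) (nat_lit 1292) (nat_lit 2113539896) (nat_lit 76) (nat_lit 1513185019) (nat_lit 632) (nat_lit 5) (nat_lit 649) (nat_lit 5) (nat_lit 633) (nat_lit 5) (nat_lit 421) (nat_lit 404) (nat_lit 375)) (XT.lf (nat_lit 0) (nat_lit 4397053332) (nat_lit 1292) (nat_lit 2631982252) (nat_lit 1368) (nat_lit 245507200) (nat_lit 615) (nat_lit 5) (nat_lit 632)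 (nat_lit 5) (nat_lit 633) (nat_lit 5) (nat_lit 422) (nat_lit 404) (nat_lit 374)))) (XT.nd (nat_lit 156) (nat_lit 3192) (nat_lit 0) (XT.nd (nat_lit 78) (nat_lit 1444) (nat_lit 0) (XT.lf (nat_lit 0) (nat_lit 3132921763) (nat_lit 1444) (nat_lit 3615738959) (nat_lit 76) (nat_lit 595586389) (nat_lit 596) (nat_lit 5) (nat_lit 615) (nat_lit 5) (nat_lit 597) (nat_lit 5) (nat_lit 423) (nat_lit 404) (nat_lit 373)) (XT.lf (nat_lit 0) (nat_lit 3092713654) (nat_lit 1444) (nat_lit 3472269885) (nat_lit 1520) (nat_lit 851921908) (nat_lit 577) (nat_lit 5) (nat_lit 596) (nat_lit 5) (nat_lit 597) (nat_lit 5) (nat_lit 424) (nat_lit 404) (nat_lit 372))) (XT.nd (nat_lit 78) (nat_lit 1596) (nat_lit 0) (XT.lf (nat_lit 0) (nat_lit 2491382636) (nat_lit 1520) (nat_lit 23555187) (nat_lit 1596) (nat_lit 4977656656) (nat_lit 556) (nat_lit 5) (nat_lit 576) (nat_lit 5) (nat_lit 577) (nat_lit 5) (nat_lit 425) (nat_lit 404) (nat_lit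 371)) (XT.lf (nat_lit 0) (nat_lit 1911384781) (nat_lit 1596) (nat_lit 4027230206) (nat_lit 1672) (nat_lit 1632485917) (nat_lit 535) (nat_lit 5) (nat_lit 556) (nat_lit 5) (nat_lit 557) (nat_lit 5) (nat_lit 426) (nat_lit 404) (nat_lit 370))))))) (XT.nd (nat_lit 1014) (nat_lit 9120) (nat_lit 0) (XT.nd (nat_lit 468) (nat_lit 6004) (nat_lit 0) (XT.nd (nat_lit 234) (nat_lit 2052) (nat_lit 0) (XT.nd (nat_lit 78) (nat_lit 3648) (nat_lit 0) (XT.lf (nat_lit 0) (nat_lit 1368910886) (nat_lit 1672) (nat_lit 367670162) (nat_lit 1748) (nat_lit 5916206382) (nat_lit 512) (nat_lit 5) (nat_lit 534) (nat_lit 5) (nat_lit 535) (nat_lit 5) (nat_lit 427) (nat_lit 404) (nat_lit 369)) (XT.nd (nat_lit 78) (nat_lit 1900) (nat_lit 0) (XT.lf (nat_lit 0) (nat_lit 841514020) (nat_lit 1748) (nat_lit 4315776700) (nat_lit 1824) (nat_lit 2579969548) (nat_lit 489) (nat_lit 5) (nat_lit 512) (nat_lit 5) (nat_lit 513) (nat_lit 5) (nat_lit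 428) (nat_lit 404) (nat_lit 368)) (XT.lf (nat_lit 0) (nat_lit 353795274) (nat_lit 1824) (nat_lit 446978800) (nat_lit 1900) (nat_lit 7024275213) (nat_lit 464) (nat_lit 5) (nat_lit 488) (nat_lit 5) (nat_lit 489) (nat_lit 5) (nat_lit 429) (nat_lit 404) (nat_lit 367)))) (XT.nd (nat_lit 78) (nat_lit 2052) (nat_lit 0) (XT.lf (nat_lit 0) (nat_lit 4228292976) (nat_lit 1900) (nat_lit 126112642) (nat_lit 76) (nat_lit 3561123227) (nat_lit 464) (nat_lit 5) (nat_lit 489) (nat_lit 5) (nat_lit 465) (nat_lit 5) (nat_lit 430) (nat_lit 404) (nat_lit 366)) (XT.nd (nat_lit 78) (nat_lit 988) (nat_lit 0) (XT.lf (nat_lit 0) (nat_lit 7450363785) (nat_lit 1064) (nat_lit 272448464) (nat_lit 1140) (nat_lit 286632903) (nat_lit 450) (nat_lit 5) (nat_lit 464) (nat_lit 5) (nat_lit 465) (nat_lit 5) (nat_lit 431) (nat_lit 404) (nat_lit 365)) (XT.lf (nat_lit 0) (nat_lit 3161262740) (nat_lit 988) (nat_lit 993620483) (nat_lit 76) (nat_lit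 3951134636) (nat_lit 437) (nat_lit 5) (nat_lit 450) (nat_lit 5) (nat_lit 438) (nat_lit 5) (nat_lit 432) (nat_lit 404) (nat_lit 364))))) (XT.nd (nat_lit 234) (nat_lit 3344) (nat_lit 0) (XT.nd (nat_lit 78) (nat_lit 1748) (nat_lit 0) (XT.lf (nat_lit 0) (nat_lit 6675778243) (nat_lit 988) (nat_lit 1389010669) (nat_lit 76) (nat_lit 141324812) (nat_lit 425) (nat_lit 5) (nat_lit 438) (nat_lit 5) (nat_lit 426) (nat_lit 5) (nat_lit 433) (nat_lit 404) (nat_lit 363)) (XT.nd (nat_lit 78) (nat_lit 836) (nat_lit 0) (XT.lf (nat_lit 0) (nat_lit 1955576942) (nat_lit 912) (nat_lit 1781703541) (nat_lit 76) (nat_lit 4571776905) (nat_lit 413) (nat_lit 5) (nat_lit 425) (nat_lit 5) (nat_lit 414) (nat_lit 5) (nat_lit 434) (nat_lit 404) (nat_lit 362)) (XT.lf (nat_lit 0) (nat_lit 5500089030) (nat_lit 912) (nat_lit 2147103080) (nat_lit 76) (nat_lit 768203670) (nat_lit 402) (nat_lit 5) (nat_lit 414) (nat_lit 5) (nat_lit 403) (nat_lit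 5) (nat_lit 435) (nat_lit 404) (nat_lit 361)))) (XT.nd (nat_lit 156) (nat_lit 1596) (nat_lit 0) (XT.nd (nat_lit 78) (nat_lit 836) (nat_lit 0) (XT.lf (nat_lit 0) (nat_lit 615295655) (nat_lit 912) (nat_lit 2499577847) (nat_lit 76) (nat_lit 5410024420) (nat_lit 390) (nat_lit 5) (nat_lit 402) (nat_lit 5) (nat_lit 391) (nat_lit 5) (nat_lit 436) (nat_lit 404) (nat_lit 360)) (XT.lf (nat_lit 0) (nat_lit 4197774043) (nat_lit 912) (nat_lit 2840556734) (nat_lit 76) (nat_lit 1599262260) (nat_lit 379) (nat_lit 5) (nat_lit 391) (nat_lit 5) (nat_lit 380) (nat_lit 5) (nat_lit 437) (nat_lit 404) (nat_lit 359))) (XT.nd (nat_lit 78) (nat_lit 836) (nat_lit 0) (XT.lf (nat_lit 0) (nat_lit 5591989468) (nat_lit 760) (nat_lit 2294070462) (nat_lit 836) (nat_lit 867646902) (nat_lit 369) (nat_lit 5) (nat_lit 379) (nat_lit 5) (nat_lit 380) (nat_lit 5) (nat_lit 438) (nat_lit 404) (nat_lit 358)) (XT.lf (nat_lit 0) (nat_lit 2771913729)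 (nat_lit 836) (nat_lit 3478001589) (nat_lit 76) (nat_lit 2623085901) (nat_lit 358) (nat_lit 5) (nat_lit 369) (nat_lit 5) (nat_lit 359) (nat_lit 5) (nat_lit 439) (nat_lit 404) (nat_lit 357)))))) (XT.nd (nat_lit 546) (nat_lit 4180) (nat_lit 0) (XT.nd (nat_lit 234) (nat_lit 2736) (nat_lit 0) (XT.nd (nat_lit 78) (nat_lit 1520) (nat_lit 0) (XT.lf (nat_lit 0) (nat_lit 5219895480) (nat_lit 684) (nat_lit 1286750839) (nat_lit 760) (nat_lit 2489162103) (nat_lit 349) (nat_lit 5) (nat_lit 358) (nat_lit 5) (nat_lit 359) (nat_lit 5) (nat_lit 440) (nat_lit 404) (nat_lit 356)) (XT.nd (nat_lit 78) (nat_lit 684) (nat_lit 0) (XT.lf (nat_lit 0) (nat_lit 1224897620) (nat_lit 836) (nat_lit 4067793852) (nat_lit 76) (nat_lit 3829253993) (nat_lit 338) (nat_lit 5) (nat_lit 349) (nat_lit 5) (nat_lit 339) (nat_lit 5) (nat_lit 441) (nat_lit 404) (nat_lit 355)) (XT.lf (nat_lit 0) (nat_lit 4905237234) (nat_lit 684) (nat_lit 107242210)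 (nat_lit 760) (nat_lit 4239143575) (nat_lit 329) (nat_lit 5) (nat_lit 338) (nat_lit 5) (nat_lit 339) (nat_lit 5) (nat_lit 442) (nat_lit 404) (nat_lit 354)))) (XT.nd (nat_lit 156) (nat_lit 1368) (nat_lit 0) (XT.nd (nat_lit 78) (nat_lit 684) (nat_lit 0) (XT.lf (nat_lit 0) (nat_lit 4763739004) (nat_lit 684) (nat_lit 4173562319) (nat_lit 760) (nat_lit 447421046) (nat_lit 320) (nat_lit 5) (nat_lit 329) (nat_lit 5) (nat_lit 330) (nat_lit 5) (nat_lit 443) (nat_lit 404) (nat_lit 353)) (XT.lf (nat_lit 0) (nat_lit 3413196278) (nat_lit 684) (nat_lit 4889243385) (nat_lit 76) (nat_lit 1218919617) (nat_lit 311) (nat_lit 5) (nat_lit 320) (nat_lit 5) (nat_lit 312) (nat_lit 5) (nat_lit 444) (nat_lit 404) (nat_lit 352))) (XT.nd (nat_lit 78) (nat_lit 684) (nat_lit 0) (XT.lf (nat_lit 0) (nat_lit 4510099764) (nat_lit 684) (nat_lit 2895543840) (nat_lit 760) (nat_lit 2255954180) (nat_lit 302) (nat_lit 5) (nat_lit 311) (nat_lit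 5) (nat_lit 312) (nat_lit 5) (nat_lit 445) (nat_lit 404) (nat_lit 351)) (XT.lf (nat_lit 0) (nat_lit 1703459238) (nat_lit 684) (nat_lit 5406134184) (nat_lit 76) (nat_lit 2695949226) (nat_lit 293) (nat_lit 5) (nat_lit 302) (nat_lit 5) (nat_lit 294) (nat_lit 5) (nat_lit 446) (nat_lit 404) (nat_lit 350))))) (XT.nd (nat_lit 234) (nat_lit 2280) (nat_lit 0) (XT.nd (nat_lit 78) (nat_lit 1292) (nat_lit 0) (XT.lf (nat_lit 0) (nat_lit 4293962792) (nat_lit 608) (nat_lit 1475202640) (nat_lit 684) (nat_lit 4183982165) (nat_lit 285) (nat_lit 5) (nat_lit 293) (nat_lit 5) (nat_lit 294) (nat_lit 5) (nat_lit 447) (nat_lit 404) (nat_lit 349)) (XT.nd (nat_lit 78) (nat_lit 684) (nat_lit 0) (XT.lf (nat_lit 0) (nat_lit 4199607269) (nat_lit 608) (nat_lit 5786321440) (nat_lit 684) (nat_lit 118673356) (nat_lit 277) (nat_lit 5) (nat_lit 285) (nat_lit 5) (nat_lit 286) (nat_lit 5) (nat_lit 448) (nat_lit 404) (nat_lit 348)) (XT.lf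 (nat_lit 0) (nat_lit 4028637399) (nat_lit 684) (nat_lit 6152446707) (nat_lit 76) (nat_lit 78722615) (nat_lit 268) (nat_lit 5) (nat_lit 277) (nat_lit 5) (nat_lit 269) (nat_lit 5) (nat_lit 449) (nat_lit 404) (nat_lit 347)))) (XT.nd (nat_lit 156) (nat_lit 1140) (nat_lit 0) (XT.nd (nat_lit 78) (nat_lit 608) (nat_lit 0) (XT.lf (nat_lit 0) (nat_lit 4013908974) (nat_lit 532) (nat_lit 4328808531) (nat_lit 608) (nat_lit 2076057928) (nat_lit 261) (nat_lit 5) (nat_lit 268) (nat_lit 5) (nat_lit 269) (nat_lit 5) (nat_lit 450) (nat_lit 404) (nat_lit 346)) (XT.lf (nat_lit 0) (nat_lit 2193603463) (nat_lit 608) (nat_lit 6649100027) (nat_lit 76) (nat_lit 1739150297) (nat_lit 253) (nat_lit 5) (nat_lit 261) (nat_lit 5) (nat_lit 254) (nat_lit 5) (nat_lit 451) (nat_lit 404) (nat_lit 345))) (XT.nd (nat_lit 78) (nat_lit 608) (nat_lit 0) (XT.lf (nat_lit 0) (nat_lit 3846282348) (nat_lit 532) (nat_lit 2755526156) (nat_lit 608)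 (nat_lit 4146970983) (nat_lit 246) (nat_lit 5) (nat_lit 253) (nat_lit 5) (nat_lit 254) (nat_lit 5) (nat_lit 452) (nat_lit 404) (nat_lit 344)) (XT.lf (nat_lit 0) (nat_lit 253504624) (nat_lit 608) (nat_lit 7147560689) (nat_lit 76) (nat_lit 3518924114) (nat_lit 238) (nat_lit 5) (nat_lit 246) (nat_lit 5) (nat_lit 239) (nat_lit 5) (nat_lit 453) (nat_lit 404) (nat_lit 343))))))))
noncomputable def xc43 : XT := (XT.nd (nat_lit 2106) (nat_lit 2432) (nat_lit 0) (XT.nd (nat_lit 1014) (nat_lit 4484) (nat_lit 0) (XT.nd (nat_lit 468) (nat_lit 2964) (nat_lit 0) (XT.nd (nat_lit 234) (nat_lit 1444) (nat_lit 0) (XT.nd (nat_lit 78) (nat_lit 1064) (nat_lit 0) (XT.lf (nat_lit 0) (nat_lit 3689151776) (nat_lit 456) (nat_lit 1073047263) (nat_lit 532) (nat_lit 6332939918) (nat_lit 232) (nat_lit 5) (nat_lit 238) (nat_lit 5) (nat_lit 239) (nat_lit 5) (nat_lit 454) (nat_lit 404) (nat_lit 342)) (XT.nd (nat_lit 78) (nat_lit 532)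 (nat_lit 0) (XT.lf (nat_lit 0) (nat_lit 3606720343) (nat_lit 532) (nat_lit 5850735070) (nat_lit 608) (nat_lit 1817063903) (nat_lit 225) (nat_lit 5) (nat_lit 232) (nat_lit 5) (nat_lit 233) (nat_lit 5) (nat_lit 455) (nat_lit 404) (nat_lit 341)) (XT.lf (nat_lit 0) (nat_lit 2826928207) (nat_lit 532) (nat_lit 7928276578) (nat_lit 76) (nat_lit 703114267) (nat_lit 218) (nat_lit 5) (nat_lit 225) (nat_lit 5) (nat_lit 219) (nat_lit 5) (nat_lit 456) (nat_lit 404) (nat_lit 340)))) (XT.nd (nat_lit 78) (nat_lit 988) (nat_lit 0) (XT.lf (nat_lit 0) (nat_lit 3437384713) (nat_lit 456) (nat_lit 4207563824) (nat_lit 532) (nat_lit 4001258308) (nat_lit 212) (nat_lit 5) (nat_lit 218) (nat_lit 5) (nat_lit 219) (nat_lit 5) (nat_lit 457) (nat_lit 404) (nat_lit 339)) (XT.nd (nat_lit 78) (nat_lit 456) (nat_lit 0) (XT.lf (nat_lit 0) (nat_lit 796790137) (nat_lit 532) (nat_lit 8480937248) (nat_lit 76) (nat_lit 2561124637) (nat_lit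 205) (nat_lit 5) (nat_lit 212) (nat_lit 5) (nat_lit 206) (nat_lit 5) (nat_lit 458) (nat_lit 404) (nat_lit 338)) (XT.lf (nat_lit 0) (nat_lit 3257971266) (nat_lit 456) (nat_lit 2479195547) (nat_lit 532) (nat_lit 6298527831) (nat_lit 199) (nat_lit 5) (nat_lit 205) (nat_lit 5) (nat_lit 206) (nat_lit 5) (nat_lit 459) (nat_lit 404) (nat_lit 337))))) (XT.nd (nat_lit 234) (nat_lit 1672) (nat_lit 0) (XT.nd (nat_lit 78) (nat_lit 912) (nat_lit 0) (XT.lf (nat_lit 0) (nat_lit 3162599527) (nat_lit 380) (nat_lit 7718948347) (nat_lit 456) (nat_lit 1355780768) (nat_lit 194) (nat_lit 5) (nat_lit 199) (nat_lit 5) (nat_lit 200) (nat_lit 5) (nat_lit 460) (nat_lit 404) (nat_lit 336)) (XT.nd (nat_lit 78) (nat_lit 380) (nat_lit 0) (XT.lf (nat_lit 0) (nat_lit 3059961236) (nat_lit 456) (nat_lit 671343912) (nat_lit 532) (nat_lit 8712322447) (nat_lit 187) (nat_lit 5) (nat_lit 193) (nat_lit 5) (nat_lit 194) (nat_lit 5) (nat_lit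 461) (nat_lit 404) (nat_lit 335)) (XT.lf (nat_lit 0) (nat_lit 2938301207) (nat_lit 380) (nat_lit 6087704602) (nat_lit 456) (nat_lit 3628463844) (nat_lit 182) (nat_lit 5) (nat_lit 187) (nat_lit 5) (nat_lit 188) (nat_lit 5) (nat_lit 462) (nat_lit 404) (nat_lit 334)))) (XT.nd (nat_lit 156) (nat_lit 836) (nat_lit 0) (XT.nd (nat_lit 78) (nat_lit 380) (nat_lit 0) (XT.lf (nat_lit 0) (nat_lit 1631803161) (nat_lit 456) (nat_lit 10044158162) (nat_lit 76) (nat_lit 1194568969) (nat_lit 176) (nat_lit 5) (nat_lit 182) (nat_lit 5) (nat_lit 177) (nat_lit 5) (nat_lit 463) (nat_lit 404) (nat_lit 333)) (XT.lf (nat_lit 0) (nat_lit 2681149312) (nat_lit 380) (nat_lit 4395132693) (nat_lit 456) (nat_lit 6014798727) (nat_lit 171) (nat_lit 5) (nat_lit 176) (nat_lit 5) (nat_lit 177) (nat_lit 5) (nat_lit 464) (nat_lit 404) (nat_lit 332))) (XT.nd (nat_lit 78) (nat_lit 456) (nat_lit 0) (XT.lf (nat_lit 0) (nat_lit 2547006301) (nat_lit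 380) (nat_lit 10194097302) (nat_lit 456) (nat_lit 576005539) (nat_lit 166) (nat_lit 5) (nat_lit 171) (nat_lit 5) (nat_lit 172) (nat_lit 5) (nat_lit 465) (nat_lit 404) (nat_lit 331)) (XT.lf (nat_lit 0) (nat_lit 2381345517) (nat_lit 380) (nat_lit 2646968288) (nat_lit 456) (nat_lit 8519587939) (nat_lit 160) (nat_lit 5) (nat_lit 165) (nat_lit 5) (nat_lit 166) (nat_lit 5) (nat_lit 466) (nat_lit 404) (nat_lit 330)))))) (XT.nd (nat_lit 546) (nat_lit 1900) (nat_lit 0) (XT.nd (nat_lit 234) (nat_lit 1444) (nat_lit 0) (XT.nd (nat_lit 78) (nat_lit 760) (nat_lit 0) (XT.lf (nat_lit 0) (nat_lit 2208347735) (nat_lit 380) (nat_lit 8658882255) (nat_lit 456) (nat_lit 2916827628) (nat_lit 155) (nat_lit 5) (nat_lit 160) (nat_lit 5) (nat_lit 161) (nat_lit 5) (nat_lit 467) (nat_lit 404) (nat_lit 329)) (XT.nd (nat_lit 78) (nat_lit 380) (nat_lit 0) (XT.lf (nat_lit 0) (nat_lit 2028415435) (nat_lit 304) (nat_lit 848958278) (nat_lit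 380) (nat_lit 11148339498) (nat_lit 150) (nat_lit 5) (nat_lit 154) (nat_lit 5) (nat_lit 155) (nat_lit 5) (nat_lit 468) (nat_lit 404) (nat_lit 328)) (XT.lf (nat_lit 0) (nat_lit 1810497163) (nat_lit 380) (nat_lit 7087390657) (nat_lit 456) (nat_lit 5374504137) (nat_lit 145) (nat_lit 5) (nat_lit 150) (nat_lit 5) (nat_lit 151) (nat_lit 5) (nat_lit 469) (nat_lit 404) (nat_lit 327)))) (XT.nd (nat_lit 156) (nat_lit 684) (nat_lit 0) (XT.nd (nat_lit 78) (nat_lit 380) (nat_lit 0) (XT.lf (nat_lit 0) (nat_lit 624481818) (nat_lit 380) (nat_lit 12920679674) (nat_lit 76) (nat_lit 980047654) (nat_lit 140) (nat_lit 5) (nat_lit 145) (nat_lit 5) (nat_lit 141) (nat_lit 5) (nat_lit 470) (nat_lit 404) (nat_lit 326)) (XT.lf (nat_lit 0) (nat_lit 1341770058) (nat_lit 380) (nat_lit 5485878359) (nat_lit 456) (nat_lit 7955308619) (nat_lit 135) (nat_lit 5) (nat_lit 140) (nat_lit 5) (nat_lit 141) (nat_lit 5) (nat_lit 471) (nat_lit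 404) (nat_lit 325))) (XT.nd (nat_lit 78) (nat_lit 380) (nat_lit 0) (XT.lf (nat_lit 0) (nat_lit 1086590013) (nat_lit 304) (nat_lit 12200146122) (nat_lit 380) (nat_lit 1760305948) (nat_lit 131) (nat_lit 5) (nat_lit 135) (nat_lit 5) (nat_lit 136) (nat_lit 5) (nat_lit 472) (nat_lit 404) (nat_lit 324)) (XT.lf (nat_lit 0) (nat_lit 789531552) (nat_lit 304) (nat_lit 3860804671) (nat_lit 380) (nat_lit 10666306877) (nat_lit 126) (nat_lit 5) (nat_lit 130) (nat_lit 5) (nat_lit 131) (nat_lit 5) (nat_lit 473) (nat_lit 404) (nat_lit 323))))) (XT.nd (nat_lit 234) (nat_lit 1216) (nat_lit 0) (XT.nd (nat_lit 78) (nat_lit 380) (nat_lit 0) (XT.lf (nat_lit 0) (nat_lit 473761173) (nat_lit 304) (nat_lit 10842282921) (nat_lit 380) (nat_lit 4276323249) (nat_lit 122) (nat_lit 5) (nat_lit 126) (nat_lit 5) (nat_lit 127) (nat_lit 5) (nat_lit 474) (nat_lit 404) (nat_lit 322)) (XT.nd (nat_lit 78) (nat_lit 0) (nat_lit 0) (XT.lf (nat_lit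 0) (nat_lit 140071137) (nat_lit 304) (nat_lit 2218907836) (nat_lit 380) (nat_lit 13515408992) (nat_lit 117) (nat_lit 5) (nat_lit 121) (nat_lit 5) (nat_lit 122) (nat_lit 5) (nat_lit 475) (nat_lit 404) (nat_lit 321)) (XT.lf (nat_lit 0) (nat_lit 9240597966) (nat_lit 380) (nat_lit 240867638) (nat_lit 76) (nat_lit 6680732211) (nat_lit 117) (nat_lit 5) (nat_lit 122) (nat_lit 5) (nat_lit 118) (nat_lit 5) (nat_lit 476) (nat_lit 404) (nat_lit 320)))) (XT.nd (nat_lit 156) (nat_lit 608) (nat_lit 0) (XT.nd (nat_lit 78) (nat_lit 380) (nat_lit 0) (XT.lf (nat_lit 0) (nat_lit 15843379455) (nat_lit 228) (nat_lit 562831755) (nat_lit 304) (nat_lit 50880870) (nat_lit 114) (nat_lit 5) (nat_lit 117) (nat_lit 5) (nat_lit 118) (nat_lit 5) (nat_lit 477) (nat_lit 404) (nat_lit 319)) (XT.lf (nat_lit 0) (nat_lit 7054823204) (nat_lit 380) (nat_lit 1068291241) (nat_lit 76) (nat_lit 8634387160) (nat_lit 109) (nat_lit 5) (nat_lit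 114) (nat_lit 5) (nat_lit 110) (nat_lit 5) (nat_lit 478) (nat_lit 404) (nat_lit 318))) (XT.nd (nat_lit 78) (nat_lit 380) (nat_lit 0) (XT.lf (nat_lit 0) (nat_lit 14450079641) (nat_lit 304) (nat_lit 1516002762) (nat_lit 76) (nat_lit 1099293792) (nat_lit 106) (nat_lit 5) (nat_lit 110) (nat_lit 5) (nat_lit 107) (nat_lit 5) (nat_lit 479) (nat_lit 404) (nat_lit 317)) (XT.lf (nat_lit 0) (nat_lit 4746972165) (nat_lit 380) (nat_lit 2031530820) (nat_lit 76) (nat_lit 10600902496) (nat_lit 101) (nat_lit 5) (nat_lit 106) (nat_lit 5) (nat_lit 102) (nat_lit 5) (nat_lit 480) (nat_lit 404) (nat_lit 316))))))) (XT.nd (nat_lit 57018) (nat_lit 0) (nat_lit 38532) (XT.nd (nat_lit 624) (nat_lit 532) (nat_lit 0) (XT.nd (nat_lit 234) (nat_lit 1064) (nat_lit 0) (XT.nd (nat_lit 78) (nat_lit 608) (nat_lit 0) (XT.lf (nat_lit 0) (nat_lit 12383472292) (nat_lit 304) (nat_lit 2567156107) (nat_lit 76) (nat_lit 2750104487) (nat_lit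 98) (nat_lit 5) (nat_lit 102) (nat_lit 5) (nat_lit 99) (nat_lit 5) (nat_lit 481) (nat_lit 404) (nat_lit 315)) (XT.nd (nat_lit 78) (nat_lit 228) (nat_lit 0) (XT.lf (nat_lit 0) (nat_lit 2307374518) (nat_lit 380) (nat_lit 3148985476) (nat_lit 76) (nat_lit 12572671259) (nat_lit 93) (nat_lit 5) (nat_lit 98) (nat_lit 5) (nat_lit 94) (nat_lit 5) (nat_lit 482) (nat_lit 404) (nat_lit 314)) (XT.lf (nat_lit 0) (nat_lit 10193011695) (nat_lit 304) (nat_lit 3782787083) (nat_lit 76) (nat_lit 4388587591) (nat_lit 90) (nat_lit 5) (nat_lit 94) (nat_lit 5) (nat_lit 91) (nat_lit 5) (nat_lit 483) (nat_lit 404) (nat_lit 313)))) (XT.nd (nat_lit 156) (nat_lit 532) (nat_lit 0) (XT.nd (nat_lit 78) (nat_lit 304) (nat_lit 0) (XT.lf (nat_lit 0) (nat_lit 14264887066) (nat_lit 228) (nat_lit 4164264016) (nat_lit 304) (nat_lit 278373185) (nat_lit 87) (nat_lit 5) (nat_lit 90) (nat_lit 5) (nat_lit 91) (nat_lit 5) (nat_lit 484) (nat_lit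 404) (nat_lit 312)) (XT.lf (nat_lit 0) (nat_lit 7867867745) (nat_lit 304) (nat_lit 5184039918) (nat_lit 76) (nat_lit 6005641416) (nat_lit 83) (nat_lit 5) (nat_lit 87) (nat_lit 5) (nat_lit 84) (nat_lit 5) (nat_lit 485) (nat_lit 404) (nat_lit 311))) (XT.nd (nat_lit 78) (nat_lit 304) (nat_lit 0) (XT.lf (nat_lit 0) (nat_lit 13466814519) (nat_lit 228) (nat_lit 2897762641) (nat_lit 304) (nat_lit 3051264141) (nat_lit 80) (nat_lit 5) (nat_lit 83) (nat_lit 5) (nat_lit 84) (nat_lit 5) (nat_lit 486) (nat_lit 404) (nat_lit 310)) (XT.lf (nat_lit 0) (nat_lit 5396005606) (nat_lit 304) (nat_lit 6794145976) (nat_lit 76) (nat_lit 7591346693) (nat_lit 76) (nat_lit 5) (nat_lit 80) (nat_lit 5) (nat_lit 77) (nat_lit 5) (nat_lit 487) (nat_lit 404) (nat_lit 309))))) (XT.nd (nat_lit 56082) (nat_lit 0) (nat_lit 49856) (XT.nd (nat_lit 55926) (nat_lit 0) (nat_lit 51224) (XT.lf (nat_lit 0) (nat_lit 2764076744) (nat_lit 304) (nat_lit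 8638656229) (nat_lit 76) (nat_lit 9134846858) (nat_lit 69) (nat_lit 5) (nat_lit 73) (nat_lit 5) (nat_lit 70) (nat_lit 5) (nat_lit 489) (nat_lit 404) (nat_lit 307)) (XT.nd (nat_lit 78) (nat_lit 684) (nat_lit 0) (XT.lf (nat_lit 0) (nat_lit 988375654) (nat_lit 0) (nat_lit 988375654) (nat_lit 532) (nat_lit 1297275132) (nat_lit 752) (nat_lit 5) (nat_lit 752) (nat_lit 3) (nat_lit 759) (nat_lit 3) (nat_lit 405) (nat_lit 405) (nat_lit 390)) (XT.lf (nat_lit 76) (nat_lit 318172726) (nat_lit 0) (nat_lit 855937248) (nat_lit 684) (nat_lit 5396676562) (nat_lit 744) (nat_lit 5) (nat_lit 743) (nat_lit 3) (nat_lit 752) (nat_lit 5) (nat_lit 406) (nat_lit 405) (nat_lit 389)))) (XT.nd (nat_lit 156) (nat_lit 760) (nat_lit 0) (XT.nd (nat_lit 78) (nat_lit 684) (nat_lit 0) (XT.lf (nat_lit 0) (nat_lit 4906701450) (nat_lit 608) (nat_lit 1275667135) (nat_lit 684) (nat_lit 413782565) (nat_lit 744) (nat_lit 5) (nat_lit 752) (nat_lit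 5) (nat_lit 753) (nat_lit 5) (nat_lit 407) (nat_lit 405) (nat_lit 388)) (XT.lf (nat_lit 0) (nat_lit 1987912943) (nat_lit 684) (nat_lit 2819861523) (nat_lit 760) (nat_lit 1816502639) (nat_lit 735) (nat_lit 5) (nat_lit 744) (nat_lit 5) (nat_lit 745) (nat_lit 5) (nat_lit 408) (nat_lit 405) (nat_lit 387))) (XT.nd (nat_lit 78) (nat_lit 760) (nat_lit 0) (XT.lf (nat_lit 76) (nat_lit 2342857034) (nat_lit 0) (nat_lit 3293652073) (nat_lit 760) (nat_lit 1018850357) (nat_lit 736) (nat_lit 5) (nat_lit 735) (nat_lit 5) (nat_lit 745) (nat_lit 5) (nat_lit 409) (nat_lit 405) (nat_lit 386)) (XT.lf (nat_lit 76) (nat_lit 928152419) (nat_lit 0) (nat_lit 1631282614) (nat_lit 836) (nat_lit 4129845337) (nat_lit 726) (nat_lit 5) (nat_lit 725) (nat_lit 5) (nat_lit 736) (nat_lit 5) (nat_lit 410) (nat_lit 405) (nat_lit 385)))))) (XT.nd (nat_lit 546) (nat_lit 8740) (nat_lit 0) (XT.nd (nat_lit 234) (nat_lit 1824) (nat_lit 0) (XT.nd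 (nat_lit 78) (nat_lit 836) (nat_lit 0) (XT.lf (nat_lit 0) (nat_lit 6127612085) (nat_lit 760) (nat_lit 426280916) (nat_lit 836) (nat_lit 172275779) (nat_lit 726) (nat_lit 5) (nat_lit 736) (nat_lit 5) (nat_lit 737) (nat_lit 5) (nat_lit 411) (nat_lit 405) (nat_lit 384)) (XT.nd (nat_lit 78) (nat_lit 0) (nat_lit 0) (XT.lf (nat_lit 0) (nat_lit 2912164145) (nat_lit 836) (nat_lit 1739009809) (nat_lit 912) (nat_lit 2114340067) (nat_lit 715) (nat_lit 5) (nat_lit 726) (nat_lit 5) (nat_lit 727) (nat_lit 5) (nat_lit 412) (nat_lit 405) (nat_lit 383)) (XT.lf (nat_lit 76) (nat_lit 3810401915) (nat_lit 0) (nat_lit 2610055909) (nat_lit 912) (nat_lit 387506346) (nat_lit 716) (nat_lit 5) (nat_lit 715) (nat_lit 5) (nat_lit 727) (nat_lit 5) (nat_lit 413) (nat_lit 405) (nat_lit 382)))) (XT.nd (nat_lit 156) (nat_lit 912) (nat_lit 0) (XT.nd (nat_lit 78) (nat_lit 0) (nat_lit 76) (XT.lf (nat_lit 76) (nat_lit 2633772897) (nat_lit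 0) (nat_lit 410830165) (nat_lit 988) (nat_lit 3808601778) (nat_lit 704) (nat_lit 5) (nat_lit 703) (nat_lit 5) (nat_lit 716) (nat_lit 5) (nat_lit 414) (nat_lit 405) (nat_lit 381)) (XT.lf (nat_lit 76) (nat_lit 1500460020) (nat_lit 0) (nat_lit 4994699258) (nat_lit 988) (nat_lit 406187744) (nat_lit 705) (nat_lit 5) (nat_lit 704) (nat_lit 5) (nat_lit 717) (nat_lit 5) (nat_lit 415) (nat_lit 405) (nat_lit 380))) (XT.nd (nat_lit 78) (nat_lit 0) (nat_lit 76) (XT.lf (nat_lit 76) (nat_lit 401120410) (nat_lit 0) (nat_lit 2571398902) (nat_lit 1064) (nat_lit 3979724705) (nat_lit 692) (nat_lit 5) (nat_lit 691) (nat_lit 5) (nat_lit 705) (nat_lit 5) (nat_lit 416) (nat_lit 405) (nat_lit 379)) (XT.lf (nat_lit 0) (nat_lit 6367375383) (nat_lit 988) (nat_lit 636992280) (nat_lit 76) (nat_lit 1850121) (nat_lit 692) (nat_lit 5) (nat_lit 705) (nat_lit 5) (nat_lit 693) (nat_lit 5) (nat_lit 417) (nat_lit 405) (nat_lit 378)))))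 (XT.nd (nat_lit 234) (nat_lit 5472) (nat_lit 0) (XT.nd (nat_lit 78) (nat_lit 2280) (nat_lit 0) (XT.lf (nat_lit 0) (nat_lit 2704856987) (nat_lit 1064) (nat_lit 1651571448) (nat_lit 76) (nat_lit 2706240809) (nat_lit 678) (nat_lit 5) (nat_lit 692) (nat_lit 5) (nat_lit 679) (nat_lit 5) (nat_lit 418) (nat_lit 405) (nat_lit 377)) (XT.nd (nat_lit 78) (nat_lit 1216) (nat_lit 0) (XT.lf (nat_lit 0) (nat_lit 4503873964) (nat_lit 1064) (nat_lit 1559294210) (nat_lit 1140) (nat_lit 1059110969) (nat_lit 664) (nat_lit 5) (nat_lit 678) (nat_lit 5) (nat_lit 679) (nat_lit 5) (nat_lit 419) (nat_lit 405) (nat_lit 376)) (XT.lf (nat_lit 0) (nat_lit 2243189703) (nat_lit 1216) (nat_lit 3558074303) (nat_lit 76) (nat_lit 1383412006) (nat_lit 648) (nat_lit 5) (nat_lit 664) (nat_lit 5) (nat_lit 649) (nat_lit 5) (nat_lit 420) (nat_lit 405) (nat_lit 375)))) (XT.nd (nat_lit 156) (nat_lit 2888) (nat_lit 0) (XT.nd (nat_lit 78) (nat_lit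 1368) (nat_lit 0) (XT.lf (nat_lit 0) (nat_lit 2784406158) (nat_lit 1216) (nat_lit 2786383254) (nat_lit 1292) (nat_lit 1679211251) (nat_lit 632) (nat_lit 5) (nat_lit 648) (nat_lit 5) (nat_lit 649) (nat_lit 5) (nat_lit 421) (nat_lit 405) (nat_lit 374)) (XT.lf (nat_lit 0) (nat_lit 1594618445) (nat_lit 1368) (nat_lit 5337725877) (nat_lit 76) (nat_lit 386015689) (nat_lit 614) (nat_lit 5) (nat_lit 632) (nat_lit 5) (nat_lit 615) (nat_lit 5) (nat_lit 422) (nat_lit 405) (nat_lit 373))) (XT.nd (nat_lit 78) (nat_lit 1520) (nat_lit 0) (XT.lf (nat_lit 0) (nat_lit 1197205370) (nat_lit 1368) (nat_lit 3702341699) (nat_lit 1444) (nat_lit 2489894764) (nat_lit 596) (nat_lit 5) (nat_lit 614) (nat_lit 5) (nat_lit 615) (nat_lit 5) (nat_lit 423) (nat_lit 405) (nat_lit 372)) (XT.lf (nat_lit 0) (nat_lit 457973932) (nat_lit 1444) (nat_lit 311814471) (nat_lit 1520) (nat_lit 6693968774) (nat_lit 576) (nat_lit 5) (nat_lit 595)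 (nat_lit 5) (nat_lit 596) (nat_lit 5) (nat_lit 424) (nat_lit 405) (nat_lit 371))))))))
noncomputable def xc44 : XT := (XT.nd (nat_lit 2106) (nat_lit 11476) (nat_lit 0) (XT.nd (nat_lit 1014) (nat_lit 9044) (nat_lit 0) (XT.nd (nat_lit 468) (nat_lit 6460) (nat_lit 0) (XT.nd (nat_lit 234) (nat_lit 5320) (nat_lit 0) (XT.nd (nat_lit 78) (nat_lit 3192) (nat_lit 0) (XT.lf (nat_lit 0) (nat_lit 4059468928) (nat_lit 1520) (nat_lit 266973293) (nat_lit 76) (nat_lit 3214216965) (nat_lit 576) (nat_lit 5) (nat_lit 596) (nat_lit 5) (nat_lit 577) (nat_lit 5) (nat_lit 425) (nat_lit 405) (nat_lit 370)) (XT.nd (nat_lit 78) (nat_lit 1672) (nat_lit 0) (XT.lf (nat_lit 0) (nat_lit 6679535424) (nat_lit 1520) (nat_lit 719538298) (nat_lit 1596) (nat_lit 221776716) (nat_lit 556) (nat_lit 5) (nat_lit 576) (nat_lit 5) (nat_lit 577) (nat_lit 5) (nat_lit 426) (nat_lit 405) (nat_lit 369)) (XT.lf (nat_lit 0) (nat_lit 3063158268) (nat_lit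 1672) (nat_lit 1609425699) (nat_lit 76) (nat_lit 3031085632) (nat_lit 534) (nat_lit 5) (nat_lit 556) (nat_lit 5) (nat_lit 535) (nat_lit 5) (nat_lit 427) (nat_lit 405) (nat_lit 368)))) (XT.nd (nat_lit 78) (nat_lit 3648) (nat_lit 0) (XT.lf (nat_lit 0) (nat_lit 5550854267) (nat_lit 1672) (nat_lit 849725164) (nat_lit 1748) (nat_lit 1389231899) (nat_lit 512) (nat_lit 5) (nat_lit 534) (nat_lit 5) (nat_lit 535) (nat_lit 5) (nat_lit 428) (nat_lit 405) (nat_lit 367)) (XT.nd (nat_lit 78) (nat_lit 1824) (nat_lit 0) (XT.lf (nat_lit 0) (nat_lit 1909268300) (nat_lit 1824) (nat_lit 2857072086) (nat_lit 76) (nat_lit 3112440848) (nat_lit 488) (nat_lit 5) (nat_lit 512) (nat_lit 5) (nat_lit 489) (nat_lit 5) (nat_lit 429) (nat_lit 405) (nat_lit 366)) (XT.lf (nat_lit 0) (nat_lit 4524103249) (nat_lit 1824) (nat_lit 727492868) (nat_lit 1900) (nat_lit 2719371382) (nat_lit 464) (nat_lit 5) (nat_lit 488) (nat_lit 5) (nat_lit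 489) (nat_lit 5) (nat_lit 430) (nat_lit 405) (nat_lit 365))))) (XT.nd (nat_lit 234) (nat_lit 3496) (nat_lit 0) (XT.nd (nat_lit 78) (nat_lit 1824) (nat_lit 0) (XT.lf (nat_lit 0) (nat_lit 603339526) (nat_lit 1140) (nat_lit 4020542082) (nat_lit 76) (nat_lit 3442295636) (nat_lit 449) (nat_lit 5) (nat_lit 464) (nat_lit 5) (nat_lit 450) (nat_lit 5) (nat_lit 431) (nat_lit 405) (nat_lit 364)) (XT.nd (nat_lit 78) (nat_lit 912) (nat_lit 0) (XT.lf (nat_lit 0) (nat_lit 3589084180) (nat_lit 912) (nat_lit 368337486) (nat_lit 988) (nat_lit 4207094816) (nat_lit 437) (nat_lit 5) (nat_lit 449) (nat_lit 5) (nat_lit 450) (nat_lit 5) (nat_lit 432) (nat_lit 405) (nat_lit 363)) (XT.lf (nat_lit 0) (nat_lit 3150419467) (nat_lit 912) (nat_lit 4254315992) (nat_lit 988) (nat_lit 861223510) (nat_lit 425) (nat_lit 5) (nat_lit 437) (nat_lit 5) (nat_lit 438) (nat_lit 5) (nat_lit 433) (nat_lit 405) (nat_lit 362)))) (XT.nd (nat_lit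 156) (nat_lit 1748) (nat_lit 0) (XT.nd (nat_lit 78) (nat_lit 836) (nat_lit 0) (XT.lf (nat_lit 0) (nat_lit 2523925343) (nat_lit 912) (nat_lit 5635959292) (nat_lit 76) (nat_lit 210773336) (nat_lit 413) (nat_lit 5) (nat_lit 425) (nat_lit 5) (nat_lit 414) (nat_lit 5) (nat_lit 434) (nat_lit 405) (nat_lit 361)) (XT.lf (nat_lit 0) (nat_lit 2327333520) (nat_lit 836) (nat_lit 3671897880) (nat_lit 912) (nat_lit 2479151478) (nat_lit 402) (nat_lit 5) (nat_lit 413) (nat_lit 5) (nat_lit 414) (nat_lit 5) (nat_lit 435) (nat_lit 405) (nat_lit 360))) (XT.nd (nat_lit 78) (nat_lit 836) (nat_lit 0) (XT.lf (nat_lit 0) (nat_lit 957179286) (nat_lit 912) (nat_lit 6640307281) (nat_lit 76) (nat_lit 992115121) (nat_lit 390) (nat_lit 5) (nat_lit 402) (nat_lit 5) (nat_lit 391) (nat_lit 5) (nat_lit 436) (nat_lit 405) (nat_lit 359)) (XT.lf (nat_lit 0) (nat_lit 1571437826) (nat_lit 836) (nat_lit 2893110998) (nat_lit 912) (nat_lit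 4239252367) (nat_lit 379) (nat_lit 5) (nat_lit 390) (nat_lit 5) (nat_lit 391) (nat_lit 5) (nat_lit 437) (nat_lit 405) (nat_lit 358)))))) (XT.nd (nat_lit 546) (nat_lit 4484) (nat_lit 0) (XT.nd (nat_lit 234) (nat_lit 2280) (nat_lit 0) (XT.nd (nat_lit 78) (nat_lit 1520) (nat_lit 0) (XT.lf (nat_lit 0) (nat_lit 1221549676) (nat_lit 760) (nat_lit 6847846897) (nat_lit 836) (nat_lit 752189321) (nat_lit 369) (nat_lit 5) (nat_lit 379) (nat_lit 5) (nat_lit 380) (nat_lit 5) (nat_lit 438) (nat_lit 405) (nat_lit 357)) (XT.nd (nat_lit 78) (nat_lit 684) (nat_lit 0) (XT.lf (nat_lit 0) (nat_lit 874085797) (nat_lit 760) (nat_lit 1929332238) (nat_lit 836) (nat_lit 6139098078) (nat_lit 358) (nat_lit 5) (nat_lit 368) (nat_lit 5) (nat_lit 369) (nat_lit 5) (nat_lit 439) (nat_lit 405) (nat_lit 356)) (XT.lf (nat_lit 0) (nat_lit 540675634) (nat_lit 684) (nat_lit 5919610068) (nat_lit 760) (nat_lit 2606596896) (nat_lit 349) (nat_lit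 5) (nat_lit 358) (nat_lit 5) (nat_lit 359) (nat_lit 5) (nat_lit 440) (nat_lit 405) (nat_lit 355)))) (XT.nd (nat_lit 156) (nat_lit 1444) (nat_lit 0) (XT.nd (nat_lit 78) (nat_lit 0) (nat_lit 0) (XT.lf (nat_lit 0) (nat_lit 226909157) (nat_lit 760) (nat_lit 790969739) (nat_lit 836) (nat_lit 8176980365) (nat_lit 338) (nat_lit 5) (nat_lit 348) (nat_lit 5) (nat_lit 349) (nat_lit 5) (nat_lit 441) (nat_lit 405) (nat_lit 354)) (XT.lf (nat_lit 0) (nat_lit 4734767346) (nat_lit 836) (nat_lit 93871572) (nat_lit 76) (nat_lit 4497313598) (nat_lit 338) (nat_lit 5) (nat_lit 349) (nat_lit 5) (nat_lit 339) (nat_lit 5) (nat_lit 442) (nat_lit 405) (nat_lit 353))) (XT.nd (nat_lit 78) (nat_lit 760) (nat_lit 0) (XT.lf (nat_lit 0) (nat_lit 8564362070) (nat_lit 760) (nat_lit 382509555) (nat_lit 76) (nat_lit 514086563) (nat_lit 329) (nat_lit 5) (nat_lit 339) (nat_lit 5) (nat_lit 330) (nat_lit 5) (nat_lit 443) (nat_lit 405) (nat_lit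 352)) (XT.lf (nat_lit 0) (nat_lit 2896702575) (nat_lit 760) (nat_lit 684768905) (nat_lit 76) (nat_lit 6017647833) (nat_lit 319) (nat_lit 5) (nat_lit 329) (nat_lit 5) (nat_lit 320) (nat_lit 5) (nat_lit 444) (nat_lit 405) (nat_lit 351))))) (XT.nd (nat_lit 234) (nat_lit 2508) (nat_lit 0) (XT.nd (nat_lit 78) (nat_lit 1368) (nat_lit 0) (XT.lf (nat_lit 0) (nat_lit 6800199058) (nat_lit 684) (nat_lit 969075472) (nat_lit 76) (nat_lit 1971863948) (nat_lit 311) (nat_lit 5) (nat_lit 320) (nat_lit 5) (nat_lit 312) (nat_lit 5) (nat_lit 445) (nat_lit 405) (nat_lit 350)) (XT.nd (nat_lit 78) (nat_lit 608) (nat_lit 0) (XT.lf (nat_lit 0) (nat_lit 943210236) (nat_lit 760) (nat_lit 1246920001) (nat_lit 76) (nat_lit 7696728566) (nat_lit 301) (nat_lit 5) (nat_lit 311) (nat_lit 5) (nat_lit 302) (nat_lit 5) (nat_lit 446) (nat_lit 405) (nat_lit 349)) (XT.lf (nat_lit 0) (nat_lit 4927760875) (nat_lit 684) (nat_lit 1531638451)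 (nat_lit 76) (nat_lit 3576689060) (nat_lit 293) (nat_lit 5) (nat_lit 302) (nat_lit 5) (nat_lit 294) (nat_lit 5) (nat_lit 447) (nat_lit 405) (nat_lit 348)))) (XT.nd (nat_lit 156) (nat_lit 1216) (nat_lit 0) (XT.nd (nat_lit 78) (nat_lit 684) (nat_lit 0) (XT.lf (nat_lit 0) (nat_lit 8393971101) (nat_lit 608) (nat_lit 654827512) (nat_lit 684) (nat_lit 1140660226) (nat_lit 285) (nat_lit 5) (nat_lit 293) (nat_lit 5) (nat_lit 294) (nat_lit 5) (nat_lit 448) (nat_lit 405) (nat_lit 347)) (XT.lf (nat_lit 0) (nat_lit 2946949148) (nat_lit 684) (nat_lit 2077928171) (nat_lit 76) (nat_lit 5321382387) (nat_lit 276) (nat_lit 5) (nat_lit 285) (nat_lit 5) (nat_lit 277) (nat_lit 5) (nat_lit 449) (nat_lit 405) (nat_lit 346))) (XT.nd (nat_lit 78) (nat_lit 608) (nat_lit 0) (XT.lf (nat_lit 0) (nat_lit 7159368792) (nat_lit 684) (nat_lit 2344399963) (nat_lit 76) (nat_lit 1003494235) (nat_lit 268) (nat_lit 5) (nat_lit 277) (nat_lit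 5) (nat_lit 269) (nat_lit 5) (nat_lit 450) (nat_lit 405) (nat_lit 345)) (XT.lf (nat_lit 0) (nat_lit 857069157) (nat_lit 608) (nat_lit 2615715879) (nat_lit 76) (nat_lit 7199350326) (nat_lit 260) (nat_lit 5) (nat_lit 268) (nat_lit 5) (nat_lit 261) (nat_lit 5) (nat_lit 451) (nat_lit 405) (nat_lit 344))))))) (XT.nd (nat_lit 1014) (nat_lit 5092) (nat_lit 0) (XT.nd (nat_lit 468) (nat_lit 3192) (nat_lit 0) (XT.nd (nat_lit 234) (nat_lit 1520) (nat_lit 0) (XT.nd (nat_lit 78) (nat_lit 1140) (nat_lit 0) (XT.lf (nat_lit 0) (nat_lit 5172160455) (nat_lit 608) (nat_lit 2893742854) (nat_lit 76) (nat_lit 2775021288) (nat_lit 253) (nat_lit 5) (nat_lit 261) (nat_lit 5) (nat_lit 254) (nat_lit 5) (nat_lit 452) (nat_lit 405) (nat_lit 343)) (XT.nd (nat_lit 78) (nat_lit 608) (nat_lit 0) (XT.lf (nat_lit 0) (nat_lit 7852338571) (nat_lit 532) (nat_lit 1800696525) (nat_lit 608) (nat_lit 1361018285) (nat_lit 246) (nat_lit 5) (nat_lit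 253) (nat_lit 5) (nat_lit 254) (nat_lit 5) (nat_lit 453) (nat_lit 405) (nat_lit 342)) (XT.lf (nat_lit 0) (nat_lit 3081568761) (nat_lit 608) (nat_lit 3447203993) (nat_lit 76) (nat_lit 4662287202) (nat_lit 238) (nat_lit 5) (nat_lit 246) (nat_lit 5) (nat_lit 239) (nat_lit 5) (nat_lit 454) (nat_lit 405) (nat_lit 341)))) (XT.nd (nat_lit 78) (nat_lit 1064) (nat_lit 0) (XT.lf (nat_lit 0) (nat_lit 7651097134) (nat_lit 456) (nat_lit 17282588) (nat_lit 532) (nat_lit 3704230630) (nat_lit 232) (nat_lit 5) (nat_lit 238) (nat_lit 5) (nat_lit 239) (nat_lit 5) (nat_lit 455) (nat_lit 405) (nat_lit 340)) (XT.nd (nat_lit 78) (nat_lit 456) (nat_lit 0) (XT.lf (nat_lit 0) (nat_lit 885655059) (nat_lit 608) (nat_lit 4012930985) (nat_lit 76) (nat_lit 6659647316) (nat_lit 224) (nat_lit 5) (nat_lit 232) (nat_lit 5) (nat_lit 225) (nat_lit 5) (nat_lit 456) (nat_lit 405) (nat_lit 339)) (XT.lf (nat_lit 0) (nat_lit 5596914929) (nat_lit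 532) (nat_lit 4309891279) (nat_lit 76) (nat_lit 1841451197) (nat_lit 218) (nat_lit 5) (nat_lit 225) (nat_lit 5) (nat_lit 219) (nat_lit 5) (nat_lit 457) (nat_lit 405) (nat_lit 338))))) (XT.nd (nat_lit 234) (nat_lit 1748) (nat_lit 0) (XT.nd (nat_lit 78) (nat_lit 988) (nat_lit 0) (XT.lf (nat_lit 0) (nat_lit 7334177042) (nat_lit 456) (nat_lit 3171720760) (nat_lit 532) (nat_lit 1436958726) (nat_lit 212) (nat_lit 5) (nat_lit 218) (nat_lit 5) (nat_lit 219) (nat_lit 5) (nat_lit 458) (nat_lit 405) (nat_lit 337)) (XT.nd (nat_lit 78) (nat_lit 456) (nat_lit 0) (XT.lf (nat_lit 0) (nat_lit 3424722569) (nat_lit 532) (nat_lit 4924078324) (nat_lit 76) (nat_lit 3793036644) (nat_lit 205) (nat_lit 5) (nat_lit 212) (nat_lit 5) (nat_lit 206) (nat_lit 5) (nat_lit 459) (nat_lit 405) (nat_lit 336)) (XT.lf (nat_lit 0) (nat_lit 7105163841) (nat_lit 456) (nat_lit 1356645145) (nat_lit 532) (nat_lit 3883809379) (nat_lit 199) (nat_lit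 5) (nat_lit 205) (nat_lit 5) (nat_lit 206) (nat_lit 5) (nat_lit 460) (nat_lit 405) (nat_lit 335)))) (XT.nd (nat_lit 156) (nat_lit 836) (nat_lit 0) (XT.nd (nat_lit 78) (nat_lit 456) (nat_lit 0) (XT.lf (nat_lit 0) (nat_lit 1148527944) (nat_lit 456) (nat_lit 5572939113) (nat_lit 76) (nat_lit 5832537508) (nat_lit 193) (nat_lit 5) (nat_lit 199) (nat_lit 5) (nat_lit 194) (nat_lit 5) (nat_lit 461) (nat_lit 405) (nat_lit 334)) (XT.lf (nat_lit 0) (nat_lit 6323842867) (nat_lit 532) (nat_lit 5915136922) (nat_lit 76) (nat_lit 528255416) (nat_lit 187) (nat_lit 5) (nat_lit 194) (nat_lit 5) (nat_lit 188) (nat_lit 5) (nat_lit 462) (nat_lit 405) (nat_lit 333))) (XT.nd (nat_lit 78) (nat_lit 456) (nat_lit 0) (XT.lf (nat_lit 0) (nat_lit 6711233000) (nat_lit 380) (nat_lit 5022183968) (nat_lit 456) (nat_lit 1251867509) (nat_lit 182) (nat_lit 5) (nat_lit 187) (nat_lit 5) (nat_lit 188) (nat_lit 5) (nat_lit 463) (nat_lit 405)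 (nat_lit 332)) (XT.lf (nat_lit 0) (nat_lit 4094041522) (nat_lit 456) (nat_lit 6648272744) (nat_lit 76) (nat_lit 2465983776) (nat_lit 176) (nat_lit 5) (nat_lit 182) (nat_lit 5) (nat_lit 177) (nat_lit 5) (nat_lit 464) (nat_lit 405) (nat_lit 331)))))) (XT.nd (nat_lit 546) (nat_lit 2356) (nat_lit 0) (XT.nd (nat_lit 234) (nat_lit 1520) (nat_lit 0) (XT.nd (nat_lit 78) (nat_lit 836) (nat_lit 0) (XT.lf (nat_lit 0) (nat_lit 6398811112) (nat_lit 380) (nat_lit 3256369079) (nat_lit 456) (nat_lit 3781220698) (nat_lit 171) (nat_lit 5) (nat_lit 176) (nat_lit 5) (nat_lit 177) (nat_lit 5) (nat_lit 465) (nat_lit 405) (nat_lit 330)) (XT.nd (nat_lit 78) (nat_lit 380) (nat_lit 0) (XT.lf (nat_lit 0) (nat_lit 1759168097) (nat_lit 456) (nat_lit 7441373406) (nat_lit 76) (nat_lit 4469188284) (nat_lit 165) (nat_lit 5) (nat_lit 171) (nat_lit 5) (nat_lit 166) (nat_lit 5) (nat_lit 466) (nat_lit 405) (nat_lit 329)) (XT.lf (nat_lit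 0) (nat_lit 6041582249) (nat_lit 380) (nat_lit 1437263131) (nat_lit 456) (nat_lit 6429425778) (nat_lit 160) (nat_lit 5) (nat_lit 165) (nat_lit 5) (nat_lit 166) (nat_lit 5) (nat_lit 467) (nat_lit 405) (nat_lit 328)))) (XT.nd (nat_lit 156) (nat_lit 760) (nat_lit 0) (XT.nd (nat_lit 78) (nat_lit 380) (nat_lit 0) (XT.lf (nat_lit 0) (nat_lit 5842256828) (nat_lit 380) (nat_lit 7614980801) (nat_lit 456) (nat_lit 694990064) (nat_lit 155) (nat_lit 5) (nat_lit 160) (nat_lit 5) (nat_lit 161) (nat_lit 5) (nat_lit 468) (nat_lit 405) (nat_lit 327)) (XT.lf (nat_lit 0) (nat_lit 5202140332) (nat_lit 380) (nat_lit 8775581200) (nat_lit 76) (nat_lit 423925789) (nat_lit 150) (nat_lit 5) (nat_lit 155) (nat_lit 5) (nat_lit 151) (nat_lit 5) (nat_lit 469) (nat_lit 405) (nat_lit 326))) (XT.nd (nat_lit 78) (nat_lit 380) (nat_lit 0) (XT.lf (nat_lit 0) (nat_lit 5382754556) (nat_lit 380) (nat_lit 5983670682) (nat_lit 456) (nat_lit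 3290040074) (nat_lit 145) (nat_lit 5) (nat_lit 150) (nat_lit 5) (nat_lit 151) (nat_lit 5) (nat_lit 470) (nat_lit 405) (nat_lit 325)) (XT.lf (nat_lit 0) (nat_lit 2826112076) (nat_lit 380) (nat_lit 9783384243) (nat_lit 76) (nat_lit 2307747997) (nat_lit 140) (nat_lit 5) (nat_lit 145) (nat_lit 5) (nat_lit 141) (nat_lit 5) (nat_lit 471) (nat_lit 405) (nat_lit 324))))) (XT.nd (nat_lit 234) (nat_lit 1292) (nat_lit 0) (XT.nd (nat_lit 78) (nat_lit 684) (nat_lit 0) (XT.lf (nat_lit 0) (nat_lit 4849751410) (nat_lit 380) (nat_lit 4324557564) (nat_lit 456) (nat_lit 6009238801) (nat_lit 135) (nat_lit 5) (nat_lit 140) (nat_lit 5) (nat_lit 141) (nat_lit 5) (nat_lit 472) (nat_lit 405) (nat_lit 323)) (XT.nd (nat_lit 78) (nat_lit 304) (nat_lit 0) (XT.lf (nat_lit 0) (nat_lit 334871724) (nat_lit 380) (nat_lit 10894004149) (nat_lit 76) (nat_lit 4227270366) (nat_lit 130) (nat_lit 5) (nat_lit 135) (nat_lit 5) (nat_lit 131)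 (nat_lit 5) (nat_lit 473) (nat_lit 405) (nat_lit 322)) (XT.lf (nat_lit 0) (nat_lit 4230353796) (nat_lit 304) (nat_lit 2644016227) (nat_lit 380) (nat_lit 8860025201) (nat_lit 126) (nat_lit 5) (nat_lit 130) (nat_lit 5) (nat_lit 131) (nat_lit 5) (nat_lit 474) (nat_lit 405) (nat_lit 321)))) (XT.nd (nat_lit 156) (nat_lit 608) (nat_lit 0) (XT.nd (nat_lit 78) (nat_lit 380) (nat_lit 0) (XT.lf (nat_lit 0) (nat_lit 3882229367) (nat_lit 304) (nat_lit 9827543438) (nat_lit 380) (nat_lit 2309225568) (nat_lit 122) (nat_lit 5) (nat_lit 126) (nat_lit 5) (nat_lit 127) (nat_lit 5) (nat_lit 475) (nat_lit 405) (nat_lit 320)) (XT.lf (nat_lit 0) (nat_lit 3510549487) (nat_lit 304) (nat_lit 948730678) (nat_lit 380) (nat_lit 11850696411) (nat_lit 117) (nat_lit 5) (nat_lit 121) (nat_lit 5) (nat_lit 122) (nat_lit 5) (nat_lit 476) (nat_lit 405) (nat_lit 319))) (XT.nd (nat_lit 78) (nat_lit 380) (nat_lit 0) (XT.lf (nat_lit 0) (nat_lit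 3091717100) (nat_lit 228) (nat_lit 8425017772) (nat_lit 304) (nat_lit 5090299633) (nat_lit 114) (nat_lit 5) (nat_lit 117) (nat_lit 5) (nat_lit 118) (nat_lit 5) (nat_lit 477) (nat_lit 405) (nat_lit 318)) (XT.lf (nat_lit 0) (nat_lit 1925739498) (nat_lit 380) (nat_lit 14241141009) (nat_lit 76) (nat_lit 744333535) (nat_lit 109) (nat_lit 5) (nat_lit 114) (nat_lit 5) (nat_lit 110) (nat_lit 5) (nat_lit 478) (nat_lit 405) (nat_lit 317))))))))
noncomputable def xc45 : XT := (XT.nd (nat_lit 58110) (nat_lit 0) (nat_lit 14820) (XT.nd (nat_lit 57018) (nat_lit 0) (nat_lit 42408) (XT.nd (nat_lit 468) (nat_lit 1292) (nat_lit 0) (XT.nd (nat_lit 234) (nat_lit 608) (nat_lit 0) (XT.nd (nat_lit 78) (nat_lit 608) (nat_lit 0) (XT.lf (nat_lit 0) (nat_lit 2176889836) (nat_lit 228) (nat_lit 7031294033) (nat_lit 304) (nat_lit 8013161460) (nat_lit 106) (nat_lit 5) (nat_lit 109) (nat_lit 5) (nat_lit 110) (nat_lit 5) (nat_lit 479)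 (nat_lit 405) (nat_lit 316)) (XT.nd (nat_lit 78) (nat_lit 304) (nat_lit 0) (XT.lf (nat_lit 0) (nat_lit 1686027651) (nat_lit 304) (nat_lit 15109155587) (nat_lit 380) (nat_lit 743876582) (nat_lit 102) (nat_lit 5) (nat_lit 106) (nat_lit 5) (nat_lit 107) (nat_lit 5) (nat_lit 480) (nat_lit 405) (nat_lit 315)) (XT.lf (nat_lit 0) (nat_lit 1120290789) (nat_lit 228) (nat_lit 5654662078) (nat_lit 304) (nat_lit 11088079909) (nat_lit 98) (nat_lit 5) (nat_lit 101) (nat_lit 5) (nat_lit 102) (nat_lit 5) (nat_lit 481) (nat_lit 405) (nat_lit 314)))) (XT.nd (nat_lit 78) (nat_lit 304) (nat_lit 0) (XT.lf (nat_lit 0) (nat_lit 537536811) (nat_lit 304) (nat_lit 14073401576) (nat_lit 380) (nat_lit 3583655074) (nat_lit 94) (nat_lit 5) (nat_lit 98) (nat_lit 5) (nat_lit 99) (nat_lit 5) (nat_lit 482) (nat_lit 405) (nat_lit 313)) (XT.nd (nat_lit 78) (nat_lit 228) (nat_lit 0) (XT.lf (nat_lit 0) (nat_lit 4207475122) (nat_lit 380)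 (nat_lit 95930814) (nat_lit 76) (nat_lit 14229838524) (nat_lit 93) (nat_lit 5) (nat_lit 98) (nat_lit 5) (nat_lit 94) (nat_lit 5) (nat_lit 483) (nat_lit 405) (nat_lit 312)) (XT.lf (nat_lit 0) (nat_lit 12304891786) (nat_lit 304) (nat_lit 772251882) (nat_lit 76) (nat_lit 5802013524) (nat_lit 90) (nat_lit 5) (nat_lit 94) (nat_lit 5) (nat_lit 91) (nat_lit 5) (nat_lit 484) (nat_lit 405) (nat_lit 311))))) (XT.nd (nat_lit 312) (nat_lit 532) (nat_lit 0) (XT.nd (nat_lit 78) (nat_lit 456) (nat_lit 0) (XT.lf (nat_lit 0) (nat_lit 1502257350) (nat_lit 304) (nat_lit 1476957646) (nat_lit 76) (nat_lit 16253830709) (nat_lit 86) (nat_lit 5) (nat_lit 90) (nat_lit 5) (nat_lit 87) (nat_lit 5) (nat_lit 485) (nat_lit 405) (nat_lit 310)) (XT.nd (nat_lit 78) (nat_lit 228) (nat_lit 0) (XT.lf (nat_lit 0) (nat_lit 9865310995) (nat_lit 304) (nat_lit 2266015109) (nat_lit 76) (nat_lit 7462685287) (nat_lit 83) (nat_lit 5) (nat_lit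 87) (nat_lit 5) (nat_lit 84) (nat_lit 5) (nat_lit 486) (nat_lit 405) (nat_lit 309)) (XT.lf (nat_lit 0) (nat_lit 16894500328) (nat_lit 228) (nat_lit 1690749986) (nat_lit 304) (nat_lit 1378436542) (nat_lit 80) (nat_lit 5) (nat_lit 83) (nat_lit 5) (nat_lit 84) (nat_lit 5) (nat_lit 487) (nat_lit 405) (nat_lit 308)))) (XT.nd (nat_lit 56082) (nat_lit 0) (nat_lit 50236) (XT.nd (nat_lit 56004) (nat_lit 0) (nat_lit 50920) (XT.lf (nat_lit 0) (nat_lit 15826776862) (nat_lit 228) (nat_lit 447241106) (nat_lit 304) (nat_lit 4452461203) (nat_lit 73) (nat_lit 5) (nat_lit 76) (nat_lit 5) (nat_lit 77) (nat_lit 5) (nat_lit 489) (nat_lit 405) (nat_lit 306)) (XT.lf (nat_lit 0) (nat_lit 2416056410) (nat_lit 684) (nat_lit 440652532) (nat_lit 684) (nat_lit 440652532) (nat_lit 743) (nat_lit 3) (nat_lit 752) (nat_lit 3) (nat_lit 752) (nat_lit 5) (nat_lit 406) (nat_lit 406) (nat_lit 388))) (XT.nd (nat_lit 78) (nat_lit 0) (nat_lit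 0) (XT.lf (nat_lit 0) (nat_lit 1839439089) (nat_lit 684) (nat_lit 2558085537) (nat_lit 760) (nat_lit 2223910634) (nat_lit 734) (nat_lit 5) (nat_lit 743) (nat_lit 3) (nat_lit 744) (nat_lit 5) (nat_lit 407) (nat_lit 406) (nat_lit 387)) (XT.lf (nat_lit 76) (nat_lit 2466529229) (nat_lit 0) (nat_lit 2941112963) (nat_lit 760) (nat_lit 1243446227) (nat_lit 735) (nat_lit 5) (nat_lit 734) (nat_lit 5) (nat_lit 744) (nat_lit 5) (nat_lit 408) (nat_lit 406) (nat_lit 386)))))) (XT.nd (nat_lit 546) (nat_lit 4484) (nat_lit 0) (XT.nd (nat_lit 234) (nat_lit 1824) (nat_lit 0) (XT.nd (nat_lit 78) (nat_lit 760) (nat_lit 0) (XT.lf (nat_lit 76) (nat_lit 917727895) (nat_lit 0) (nat_lit 1338018575) (nat_lit 836) (nat_lit 4427865951) (nat_lit 725) (nat_lit 5) (nat_lit 724) (nat_lit 5) (nat_lit 735) (nat_lit 5) (nat_lit 409) (nat_lit 406) (nat_lit 385)) (XT.nd (nat_lit 78) (nat_lit 836) (nat_lit 0) (XT.lf (nat_lit 0) (nat_lit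 5740190244) (nat_lit 760) (nat_lit 572816936) (nat_lit 836) (nat_lit 406009477) (nat_lit 725) (nat_lit 5) (nat_lit 735) (nat_lit 5) (nat_lit 736) (nat_lit 5) (nat_lit 410) (nat_lit 406) (nat_lit 384)) (XT.lf (nat_lit 0) (nat_lit 2449531948) (nat_lit 836) (nat_lit 2017822429) (nat_lit 912) (nat_lit 2289614087) (nat_lit 714) (nat_lit 5) (nat_lit 725) (nat_lit 5) (nat_lit 726) (nat_lit 5) (nat_lit 411) (nat_lit 406) (nat_lit 383)))) (XT.nd (nat_lit 156) (nat_lit 912) (nat_lit 0) (XT.nd (nat_lit 78) (nat_lit 912) (nat_lit 0) (XT.lf (nat_lit 76) (nat_lit 3385777024) (nat_lit 0) (nat_lit 2480470877) (nat_lit 912) (nat_lit 931716762) (nat_lit 715) (nat_lit 5) (nat_lit 714) (nat_lit 5) (nat_lit 726) (nat_lit 5) (nat_lit 412) (nat_lit 406) (nat_lit 382)) (XT.lf (nat_lit 76) (nat_lit 2074938423) (nat_lit 0) (nat_lit 339426682) (nat_lit 988) (nat_lit 4427456482) (nat_lit 703) (nat_lit 5) (nat_lit 702) (nat_lit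 5) (nat_lit 715) (nat_lit 5) (nat_lit 413) (nat_lit 406) (nat_lit 381))) (XT.nd (nat_lit 78) (nat_lit 988) (nat_lit 0) (XT.lf (nat_lit 76) (nat_lit 802493745) (nat_lit 0) (nat_lit 4965053040) (nat_lit 988) (nat_lit 1120947229) (nat_lit 704) (nat_lit 5) (nat_lit 703) (nat_lit 5) (nat_lit 716) (nat_lit 5) (nat_lit 414) (nat_lit 406) (nat_lit 380)) (XT.lf (nat_lit 0) (nat_lit 2170533594) (nat_lit 988) (nat_lit 425775384) (nat_lit 1064) (nat_lit 4341656104) (nat_lit 690) (nat_lit 5) (nat_lit 703) (nat_lit 5) (nat_lit 704) (nat_lit 5) (nat_lit 415) (nat_lit 406) (nat_lit 379))))) (XT.nd (nat_lit 234) (nat_lit 3496) (nat_lit 0) (XT.nd (nat_lit 78) (nat_lit 988) (nat_lit 0) (XT.lf (nat_lit 76) (nat_lit 5392986424) (nat_lit 0) (nat_lit 72067684) (nat_lit 1064) (nat_lit 1525337182) (nat_lit 691) (nat_lit 5) (nat_lit 690) (nat_lit 5) (nat_lit 704) (nat_lit 5) (nat_lit 416) (nat_lit 406) (nat_lit 378)) (XT.nd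 (nat_lit 78) (nat_lit 0) (nat_lit 0) (XT.lf (nat_lit 0) (nat_lit 1724671545) (nat_lit 1064) (nat_lit 2744933414) (nat_lit 1140) (nat_lit 2575870134) (nat_lit 677) (nat_lit 5) (nat_lit 691) (nat_lit 5) (nat_lit 692) (nat_lit 5) (nat_lit 417) (nat_lit 406) (nat_lit 377)) (XT.lf (nat_lit 76) (nat_lit 3251122548) (nat_lit 0) (nat_lit 1722563783) (nat_lit 1140) (nat_lit 2129887797) (nat_lit 678) (nat_lit 5) (nat_lit 677) (nat_lit 5) (nat_lit 692) (nat_lit 5) (nat_lit 418) (nat_lit 406) (nat_lit 376)))) (XT.nd (nat_lit 156) (nat_lit 1292) (nat_lit 0) (XT.nd (nat_lit 78) (nat_lit 1140) (nat_lit 0) (XT.lf (nat_lit 0) (nat_lit 1074195446) (nat_lit 1140) (nat_lit 4925287767) (nat_lit 76) (nat_lit 1165139013) (nat_lit 663) (nat_lit 5) (nat_lit 678) (nat_lit 5) (nat_lit 664) (nat_lit 5) (nat_lit 419) (nat_lit 406) (nat_lit 375)) (XT.lf (nat_lit 0) (nat_lit 1252763601) (nat_lit 1140) (nat_lit 3033297542) (nat_lit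 1216) (nat_lit 2942355390) (nat_lit 648) (nat_lit 5) (nat_lit 663) (nat_lit 5) (nat_lit 664) (nat_lit 5) (nat_lit 420) (nat_lit 406) (nat_lit 374))) (XT.nd (nat_lit 78) (nat_lit 0) (nat_lit 0) (XT.lf (nat_lit 0) (nat_lit 228810273) (nat_lit 1292) (nat_lit 6981427932) (nat_lit 76) (nat_lit 85203587) (nat_lit 631) (nat_lit 5) (nat_lit 648) (nat_lit 5) (nat_lit 632) (nat_lit 5) (nat_lit 421) (nat_lit 406) (nat_lit 373)) (XT.lf (nat_lit 0) (nat_lit 3415483394) (nat_lit 1292) (nat_lit 608153091) (nat_lit 76) (nat_lit 3341253038) (nat_lit 631) (nat_lit 5) (nat_lit 648) (nat_lit 5) (nat_lit 632) (nat_lit 5) (nat_lit 422) (nat_lit 406) (nat_lit 372))))))) (XT.nd (nat_lit 1092) (nat_lit 10108) (nat_lit 0) (XT.nd (nat_lit 546) (nat_lit 6612) (nat_lit 0) (XT.nd (nat_lit 234) (nat_lit 6688) (nat_lit 0) (XT.nd (nat_lit 78) (nat_lit 2888) (nat_lit 0) (XT.lf (nat_lit 0) (nat_lit 5958327172) (nat_lit 1292) (nat_lit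 680128162) (nat_lit 1368) (nat_lit 799158802) (nat_lit 614) (nat_lit 5) (nat_lit 631) (nat_lit 5) (nat_lit 632) (nat_lit 5) (nat_lit 423) (nat_lit 406) (nat_lit 371)) (XT.nd (nat_lit 78) (nat_lit 1444) (nat_lit 0) (XT.lf (nat_lit 0) (nat_lit 2373561330) (nat_lit 1444) (nat_lit 2338097147) (nat_lit 76) (nat_lit 2801350710) (nat_lit 595) (nat_lit 5) (nat_lit 614) (nat_lit 5) (nat_lit 596) (nat_lit 5) (nat_lit 424) (nat_lit 406) (nat_lit 370)) (XT.lf (nat_lit 0) (nat_lit 4429695992) (nat_lit 1444) (nat_lit 1150551736) (nat_lit 1520) (nat_lit 2011326730) (nat_lit 576) (nat_lit 5) (nat_lit 595) (nat_lit 5) (nat_lit 596) (nat_lit 5) (nat_lit 425) (nat_lit 406) (nat_lit 369)))) (XT.nd (nat_lit 156) (nat_lit 3496) (nat_lit 0) (XT.nd (nat_lit 78) (nat_lit 1596) (nat_lit 0) (XT.lf (nat_lit 0) (nat_lit 1159459605) (nat_lit 1596) (nat_lit 3965866261) (nat_lit 76) (nat_lit 2547726158) (nat_lit 555) (nat_lit 5)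 (nat_lit 576) (nat_lit 5) (nat_lit 556) (nat_lit 5) (nat_lit 426) (nat_lit 406) (nat_lit 368)) (XT.lf (nat_lit 0) (nat_lit 3009646836) (nat_lit 1596) (nat_lit 1347450464) (nat_lit 1672) (nat_lit 3400435981) (nat_lit 534) (nat_lit 5) (nat_lit 555) (nat_lit 5) (nat_lit 556) (nat_lit 5) (nat_lit 427) (nat_lit 406) (nat_lit 367))) (XT.nd (nat_lit 78) (nat_lit 1824) (nat_lit 0) (XT.lf (nat_lit 0) (nat_lit 2340529471) (nat_lit 1672) (nat_lit 5281191307) (nat_lit 1748) (nat_lit 223413219) (nat_lit 512) (nat_lit 5) (nat_lit 534) (nat_lit 5) (nat_lit 535) (nat_lit 5) (nat_lit 428) (nat_lit 406) (nat_lit 366)) (XT.lf (nat_lit 0) (nat_lit 1686916998) (nat_lit 1748) (nat_lit 1288140718) (nat_lit 1824) (nat_lit 4960592472) (nat_lit 488) (nat_lit 5) (nat_lit 511) (nat_lit 5) (nat_lit 512) (nat_lit 5) (nat_lit 429) (nat_lit 406) (nat_lit 365))))) (XT.nd (nat_lit 234) (nat_lit 3648) (nat_lit 0) (XT.nd (nat_lit 78)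 (nat_lit 1140) (nat_lit 0) (XT.lf (nat_lit 0) (nat_lit 1056645674) (nat_lit 1824) (nat_lit 5188403184) (nat_lit 1900) (nat_lit 1784237131) (nat_lit 464) (nat_lit 5) (nat_lit 488) (nat_lit 5) (nat_lit 489) (nat_lit 5) (nat_lit 430) (nat_lit 406) (nat_lit 364)) (XT.nd (nat_lit 78) (nat_lit 0) (nat_lit 0) (XT.lf (nat_lit 0) (nat_lit 450837330) (nat_lit 1064) (nat_lit 988464944) (nat_lit 1140) (nat_lit 6686812837) (nat_lit 449) (nat_lit 5) (nat_lit 463) (nat_lit 5) (nat_lit 464) (nat_lit 5) (nat_lit 431) (nat_lit 406) (nat_lit 363)) (XT.lf (nat_lit 0) (nat_lit 4723846336) (nat_lit 1140) (nat_lit 145090710) (nat_lit 76) (nat_lit 3356910654) (nat_lit 449) (nat_lit 5) (nat_lit 464) (nat_lit 5) (nat_lit 450) (nat_lit 5) (nat_lit 432) (nat_lit 406) (nat_lit 362)))) (XT.nd (nat_lit 156) (nat_lit 1748) (nat_lit 0) (XT.nd (nat_lit 78) (nat_lit 988) (nat_lit 0) (XT.lf (nat_lit 0) (nat_lit 7627992890) (nat_lit 912)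 (nat_lit 456594671) (nat_lit 988) (nat_lit 244436591) (nat_lit 437) (nat_lit 5) (nat_lit 449) (nat_lit 5) (nat_lit 450) (nat_lit 5) (nat_lit 433) (nat_lit 406) (nat_lit 361)) (XT.lf (nat_lit 0) (nat_lit 3067593953) (nat_lit 988) (nat_lit 1263526480) (nat_lit 76) (nat_lit 4103825601) (nat_lit 424) (nat_lit 5) (nat_lit 437) (nat_lit 5) (nat_lit 425) (nat_lit 5) (nat_lit 434) (nat_lit 406) (nat_lit 360))) (XT.nd (nat_lit 78) (nat_lit 912) (nat_lit 0) (XT.lf (nat_lit 0) (nat_lit 6453892188) (nat_lit 912) (nat_lit 1793421789) (nat_lit 76) (nat_lit 297139443) (nat_lit 413) (nat_lit 5) (nat_lit 425) (nat_lit 5) (nat_lit 414) (nat_lit 5) (nat_lit 435) (nat_lit 406) (nat_lit 359)) (XT.lf (nat_lit 0) (nat_lit 1272757210) (nat_lit 912) (nat_lit 2321837071) (nat_lit 76) (nat_lit 5062388019) (nat_lit 401) (nat_lit 5) (nat_lit 413) (nat_lit 5) (nat_lit 402) (nat_lit 5) (nat_lit 436) (nat_lit 406) (nat_lit 358))))))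 (XT.nd (nat_lit 546) (nat_lit 4636) (nat_lit 0) (XT.nd (nat_lit 234) (nat_lit 2964) (nat_lit 0) (XT.nd (nat_lit 78) (nat_lit 1672) (nat_lit 0) (XT.lf (nat_lit 0) (nat_lit 4695206784) (nat_lit 912) (nat_lit 2834280267) (nat_lit 76) (nat_lit 1243395298) (nat_lit 390) (nat_lit 5) (nat_lit 402) (nat_lit 5) (nat_lit 391) (nat_lit 5) (nat_lit 437) (nat_lit 406) (nat_lit 357)) (XT.nd (nat_lit 78) (nat_lit 836) (nat_lit 0) (XT.lf (nat_lit 0) (nat_lit 5558836995) (nat_lit 836) (nat_lit 2666504952) (nat_lit 912) (nat_lit 666821440) (nat_lit 379) (nat_lit 5) (nat_lit 390) (nat_lit 5) (nat_lit 391) (nat_lit 5) (nat_lit 438) (nat_lit 406) (nat_lit 356)) (XT.lf (nat_lit 0) (nat_lit 2807928841) (nat_lit 836) (nat_lit 3829425965) (nat_lit 76) (nat_lit 2377324449) (nat_lit 368) (nat_lit 5) (nat_lit 379) (nat_lit 5) (nat_lit 369) (nat_lit 5) (nat_lit 439) (nat_lit 406) (nat_lit 355)))) (XT.nd (nat_lit 156) (nat_lit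 1444) (nat_lit 0) (XT.nd (nat_lit 78) (nat_lit 760) (nat_lit 0) (XT.lf (nat_lit 0) (nat_lit 4829098379) (nat_lit 760) (nat_lit 1552399237) (nat_lit 836) (nat_lit 2759216027) (nat_lit 358) (nat_lit 5) (nat_lit 368) (nat_lit 5) (nat_lit 369) (nat_lit 5) (nat_lit 440) (nat_lit 406) (nat_lit 354)) (XT.lf (nat_lit 0) (nat_lit 793734662) (nat_lit 760) (nat_lit 4787399177) (nat_lit 76) (nat_lit 3689048652) (nat_lit 348) (nat_lit 5) (nat_lit 358) (nat_lit 5) (nat_lit 349) (nat_lit 5) (nat_lit 441) (nat_lit 406) (nat_lit 353))) (XT.nd (nat_lit 78) (nat_lit 684) (nat_lit 0) (XT.lf (nat_lit 0) (nat_lit 4146354222) (nat_lit 760) (nat_lit 270491566) (nat_lit 836) (nat_lit 4986307284) (nat_lit 338) (nat_lit 5) (nat_lit 348) (nat_lit 5) (nat_lit 349) (nat_lit 5) (nat_lit 442) (nat_lit 406) (nat_lit 352)) (XT.lf (nat_lit 0) (nat_lit 3814167229) (nat_lit 684) (nat_lit 4361158580) (nat_lit 760) (nat_lit 1364256957)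 (nat_lit 329) (nat_lit 5) (nat_lit 338) (nat_lit 5) (nat_lit 339) (nat_lit 5) (nat_lit 443) (nat_lit 406) (nat_lit 351))))) (XT.nd (nat_lit 234) (nat_lit 2508) (nat_lit 0) (XT.nd (nat_lit 78) (nat_lit 1368) (nat_lit 0) (XT.lf (nat_lit 0) (nat_lit 2339894251) (nat_lit 760) (nat_lit 6184792136) (nat_lit 76) (nat_lit 1155025494) (nat_lit 319) (nat_lit 5) (nat_lit 329) (nat_lit 5) (nat_lit 320) (nat_lit 5) (nat_lit 444) (nat_lit 406) (nat_lit 350)) (XT.nd (nat_lit 78) (nat_lit 760) (nat_lit 0) (XT.lf (nat_lit 0) (nat_lit 3174432180) (nat_lit 608) (nat_lit 2988894259) (nat_lit 684) (nat_lit 3660007491) (nat_lit 311) (nat_lit 5) (nat_lit 319) (nat_lit 5) (nat_lit 320) (nat_lit 5) (nat_lit 445) (nat_lit 406) (nat_lit 349)) (XT.lf (nat_lit 0) (nat_lit 146055253) (nat_lit 760) (nat_lit 7098956784) (nat_lit 76) (nat_lit 2725887463) (nat_lit 301) (nat_lit 5) (nat_lit 311) (nat_lit 5) (nat_lit 302) (nat_lit 5)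 (nat_lit 446) (nat_lit 406) (nat_lit 348)))) (XT.nd (nat_lit 156) (nat_lit 1292) (nat_lit 0) (XT.nd (nat_lit 78) (nat_lit 608) (nat_lit 0) (XT.lf (nat_lit 0) (nat_lit 2561154561) (nat_lit 608) (nat_lit 1477568102) (nat_lit 684) (nat_lit 6083245558) (nat_lit 293) (nat_lit 5) (nat_lit 301) (nat_lit 5) (nat_lit 302) (nat_lit 5) (nat_lit 447) (nat_lit 406) (nat_lit 347)) (XT.lf (nat_lit 0) (nat_lit 2256970799) (nat_lit 608) (nat_lit 5824319975) (nat_lit 684) (nat_lit 2195618727) (nat_lit 285) (nat_lit 5) (nat_lit 293) (nat_lit 5) (nat_lit 294) (nat_lit 5) (nat_lit 448) (nat_lit 406) (nat_lit 346))) (XT.nd (nat_lit 78) (nat_lit 608) (nat_lit 0) (XT.lf (nat_lit 0) (nat_lit 1802134853) (nat_lit 684) (nat_lit 8470409134) (nat_lit 76) (nat_lit 163378569) (nat_lit 276) (nat_lit 5) (nat_lit 285) (nat_lit 5) (nat_lit 277) (nat_lit 5) (nat_lit 449) (nat_lit 406) (nat_lit 345)) (XT.lf (nat_lit 0) (nat_lit 1655050264)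 (nat_lit 608) (nat_lit 4282541014) (nat_lit 684) (nat_lit 4660875150) (nat_lit 268) (nat_lit 5) (nat_lit 276) (nat_lit 5) (nat_lit 277) (nat_lit 5) (nat_lit 450) (nat_lit 406) (nat_lit 344))))))))
noncomputable def xc46 : XT := (XT.nd (nat_lit 2106) (nat_lit 3344) (nat_lit 0) (XT.nd (nat_lit 1014) (nat_lit 5320) (nat_lit 0) (XT.nd (nat_lit 468) (nat_lit 3420) (nat_lit 0) (XT.nd (nat_lit 234) (nat_lit 1064) (nat_lit 0) (XT.nd (nat_lit 78) (nat_lit 1140) (nat_lit 0) (XT.lf (nat_lit 0) (nat_lit 1366618905) (nat_lit 532) (nat_lit 8853497238) (nat_lit 608) (nat_lit 545312989) (nat_lit 261) (nat_lit 5) (nat_lit 268) (nat_lit 5) (nat_lit 269) (nat_lit 5) (nat_lit 451) (nat_lit 406) (nat_lit 343)) (XT.nd (nat_lit 78) (nat_lit 532) (nat_lit 0) (XT.lf (nat_lit 0) (nat_lit 1059373837) (nat_lit 532) (nat_lit 2627310828) (nat_lit 608) (nat_lit 7249410646) (nat_lit 253) (nat_lit 5) (nat_lit 260) (nat_lit 5) (nat_lit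 261) (nat_lit 5) (nat_lit 452) (nat_lit 406) (nat_lit 342)) (XT.lf (nat_lit 0) (nat_lit 757182182) (nat_lit 532) (nat_lit 7320604400) (nat_lit 608) (nat_lit 3033234153) (nat_lit 246) (nat_lit 5) (nat_lit 253) (nat_lit 5) (nat_lit 254) (nat_lit 5) (nat_lit 453) (nat_lit 406) (nat_lit 341)))) (XT.nd (nat_lit 78) (nat_lit 456) (nat_lit 0) (XT.lf (nat_lit 0) (nat_lit 462017718) (nat_lit 532) (nat_lit 864835016) (nat_lit 608) (nat_lit 9963481481) (nat_lit 238) (nat_lit 5) (nat_lit 245) (nat_lit 5) (nat_lit 246) (nat_lit 5) (nat_lit 454) (nat_lit 406) (nat_lit 340)) (XT.nd (nat_lit 78) (nat_lit 0) (nat_lit 0) (XT.lf (nat_lit 0) (nat_lit 141291882) (nat_lit 456) (nat_lit 5692194415) (nat_lit 532) (nat_lit 5640002961) (nat_lit 232) (nat_lit 5) (nat_lit 238) (nat_lit 5) (nat_lit 239) (nat_lit 5) (nat_lit 455) (nat_lit 406) (nat_lit 339)) (XT.lf (nat_lit 0) (nat_lit 10509662926) (nat_lit 532) (nat_lit 157305603)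 (nat_lit 76) (nat_lit 994485705) (nat_lit 232) (nat_lit 5) (nat_lit 239) (nat_lit 5) (nat_lit 233) (nat_lit 5) (nat_lit 456) (nat_lit 406) (nat_lit 338))))) (XT.nd (nat_lit 234) (nat_lit 1824) (nat_lit 0) (XT.nd (nat_lit 78) (nat_lit 988) (nat_lit 0) (XT.lf (nat_lit 0) (nat_lit 3488042249) (nat_lit 608) (nat_lit 482880187) (nat_lit 76) (nat_lit 7882437068) (nat_lit 224) (nat_lit 5) (nat_lit 232) (nat_lit 5) (nat_lit 225) (nat_lit 5) (nat_lit 457) (nat_lit 406) (nat_lit 337)) (XT.nd (nat_lit 78) (nat_lit 532) (nat_lit 0) (XT.lf (nat_lit 0) (nat_lit 8295861001) (nat_lit 532) (nat_lit 804318005) (nat_lit 76) (nat_lit 2949803889) (nat_lit 218) (nat_lit 5) (nat_lit 225) (nat_lit 5) (nat_lit 219) (nat_lit 5) (nat_lit 458) (nat_lit 406) (nat_lit 336)) (XT.lf (nat_lit 0) (nat_lit 1036404626) (nat_lit 532) (nat_lit 1128150529) (nat_lit 76) (nat_lit 10086741472) (nat_lit 211) (nat_lit 5) (nat_lit 218) (nat_lit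 5) (nat_lit 212) (nat_lit 5) (nat_lit 459) (nat_lit 406) (nat_lit 335)))) (XT.nd (nat_lit 156) (nat_lit 912) (nat_lit 0) (XT.nd (nat_lit 78) (nat_lit 456) (nat_lit 0) (XT.lf (nat_lit 0) (nat_lit 5982011071) (nat_lit 532) (nat_lit 1479297100) (nat_lit 76) (nat_lit 4995599794) (nat_lit 205) (nat_lit 5) (nat_lit 212) (nat_lit 5) (nat_lit 206) (nat_lit 5) (nat_lit 460) (nat_lit 406) (nat_lit 334)) (XT.lf (nat_lit 0) (nat_lit 10852538228) (nat_lit 456) (nat_lit 269126696) (nat_lit 532) (nat_lit 1546110929) (nat_lit 199) (nat_lit 5) (nat_lit 205) (nat_lit 5) (nat_lit 206) (nat_lit 5) (nat_lit 461) (nat_lit 406) (nat_lit 333))) (XT.nd (nat_lit 78) (nat_lit 456) (nat_lit 0) (XT.lf (nat_lit 0) (nat_lit 3564610126) (nat_lit 456) (nat_lit 2191286520) (nat_lit 76) (nat_lit 7127008883) (nat_lit 193) (nat_lit 5) (nat_lit 199) (nat_lit 5) (nat_lit 194) (nat_lit 5) (nat_lit 462) (nat_lit 406) (nat_lit 332)) (XT.lf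 (nat_lit 0) (nat_lit 8855992066) (nat_lit 532) (nat_lit 2562051061) (nat_lit 76) (nat_lit 1685276333) (nat_lit 187) (nat_lit 5) (nat_lit 194) (nat_lit 5) (nat_lit 188) (nat_lit 5) (nat_lit 463) (nat_lit 406) (nat_lit 331)))))) (XT.nd (nat_lit 546) (nat_lit 2508) (nat_lit 0) (XT.nd (nat_lit 234) (nat_lit 1596) (nat_lit 0) (XT.nd (nat_lit 78) (nat_lit 760) (nat_lit 0) (XT.lf (nat_lit 0) (nat_lit 1039536807) (nat_lit 456) (nat_lit 2949834086) (nat_lit 76) (nat_lit 9339318497) (nat_lit 181) (nat_lit 5) (nat_lit 187) (nat_lit 5) (nat_lit 182) (nat_lit 5) (nat_lit 464) (nat_lit 406) (nat_lit 330)) (XT.nd (nat_lit 78) (nat_lit 380) (nat_lit 0) (XT.lf (nat_lit 0) (nat_lit 6491614644) (nat_lit 456) (nat_lit 3362745752) (nat_lit 76) (nat_lit 3704613811) (nat_lit 176) (nat_lit 5) (nat_lit 182) (nat_lit 5) (nat_lit 177) (nat_lit 5) (nat_lit 465) (nat_lit 406) (nat_lit 329)) (XT.lf (nat_lit 0) (nat_lit 10019211038)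 (nat_lit 380) (nat_lit 2156381204) (nat_lit 456) (nat_lit 1619210066) (nat_lit 171) (nat_lit 5) (nat_lit 176) (nat_lit 5) (nat_lit 177) (nat_lit 5) (nat_lit 466) (nat_lit 406) (nat_lit 328)))) (XT.nd (nat_lit 156) (nat_lit 760) (nat_lit 0) (XT.nd (nat_lit 78) (nat_lit 380) (nat_lit 0) (XT.lf (nat_lit 0) (nat_lit 4022022087) (nat_lit 456) (nat_lit 4226043097) (nat_lit 76) (nat_lit 5787483079) (nat_lit 165) (nat_lit 5) (nat_lit 171) (nat_lit 5) (nat_lit 166) (nat_lit 5) (nat_lit 467) (nat_lit 406) (nat_lit 327)) (XT.lf (nat_lit 0) (nat_lit 9605614491) (nat_lit 380) (nat_lit 265267249) (nat_lit 456) (nat_lit 4411214386) (nat_lit 160) (nat_lit 5) (nat_lit 165) (nat_lit 5) (nat_lit 166) (nat_lit 5) (nat_lit 468) (nat_lit 406) (nat_lit 326))) (XT.nd (nat_lit 78) (nat_lit 304) (nat_lit 0) (XT.lf (nat_lit 0) (nat_lit 1441776475) (nat_lit 456) (nat_lit 5163146620) (nat_lit 76) (nat_lit 7928933436) (nat_lit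 154) (nat_lit 5) (nat_lit 160) (nat_lit 5) (nat_lit 155) (nat_lit 5) (nat_lit 469) (nat_lit 406) (nat_lit 325)) (XT.lf (nat_lit 0) (nat_lit 7473505481) (nat_lit 380) (nat_lit 5668165111) (nat_lit 76) (nat_lit 1649655674) (nat_lit 150) (nat_lit 5) (nat_lit 155) (nat_lit 5) (nat_lit 151) (nat_lit 5) (nat_lit 470) (nat_lit 406) (nat_lit 324))))) (XT.nd (nat_lit 234) (nat_lit 1368) (nat_lit 0) (XT.nd (nat_lit 78) (nat_lit 760) (nat_lit 0) (XT.lf (nat_lit 0) (nat_lit 8860235382) (nat_lit 380) (nat_lit 4922402506) (nat_lit 456) (nat_lit 1271954409) (nat_lit 145) (nat_lit 5) (nat_lit 150) (nat_lit 5) (nat_lit 151) (nat_lit 5) (nat_lit 471) (nat_lit 406) (nat_lit 323)) (XT.nd (nat_lit 78) (nat_lit 380) (nat_lit 0) (XT.lf (nat_lit 0) (nat_lit 4968484091) (nat_lit 380) (nat_lit 6754314536) (nat_lit 76) (nat_lit 3600751680) (nat_lit 140) (nat_lit 5) (nat_lit 145) (nat_lit 5) (nat_lit 141) (nat_lit 5) (nat_lit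 472) (nat_lit 406) (nat_lit 322)) (XT.lf (nat_lit 0) (nat_lit 8263910415) (nat_lit 380) (nat_lit 3204509066) (nat_lit 456) (nat_lit 4130199274) (nat_lit 135) (nat_lit 5) (nat_lit 140) (nat_lit 5) (nat_lit 141) (nat_lit 5) (nat_lit 473) (nat_lit 406) (nat_lit 321)))) (XT.nd (nat_lit 156) (nat_lit 684) (nat_lit 0) (XT.nd (nat_lit 78) (nat_lit 304) (nat_lit 0) (XT.lf (nat_lit 0) (nat_lit 2347187195) (nat_lit 380) (nat_lit 7946727244) (nat_lit 76) (nat_lit 5585815758) (nat_lit 130) (nat_lit 5) (nat_lit 135) (nat_lit 5) (nat_lit 131) (nat_lit 5) (nat_lit 474) (nat_lit 406) (nat_lit 320)) (XT.lf (nat_lit 0) (nat_lit 7578243105) (nat_lit 304) (nat_lit 1467221545) (nat_lit 380) (nat_lit 7121611721) (nat_lit 126) (nat_lit 5) (nat_lit 130) (nat_lit 5) (nat_lit 131) (nat_lit 5) (nat_lit 475) (nat_lit 406) (nat_lit 319))) (XT.nd (nat_lit 78) (nat_lit 380) (nat_lit 0) (XT.lf (nat_lit 0) (nat_lit 7198107463) (nat_lit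 304) (nat_lit 8859283710) (nat_lit 380) (nat_lit 403398764) (nat_lit 122) (nat_lit 5) (nat_lit 126) (nat_lit 5) (nat_lit 127) (nat_lit 5) (nat_lit 476) (nat_lit 406) (nat_lit 318)) (XT.lf (nat_lit 0) (nat_lit 6507923200) (nat_lit 380) (nat_lit 9973897997) (nat_lit 76) (nat_lit 279107999) (nat_lit 117) (nat_lit 5) (nat_lit 122) (nat_lit 5) (nat_lit 118) (nat_lit 5) (nat_lit 477) (nat_lit 406) (nat_lit 317))))))) (XT.nd (nat_lit 57018) (nat_lit 0) (nat_lit 43624) (XT.nd (nat_lit 546) (nat_lit 1292) (nat_lit 0) (XT.nd (nat_lit 234) (nat_lit 1216) (nat_lit 0) (XT.nd (nat_lit 78) (nat_lit 608) (nat_lit 0) (XT.lf (nat_lit 0) (nat_lit 6335668352) (nat_lit 228) (nat_lit 7412279908) (nat_lit 304) (nat_lit 3319535107) (nat_lit 114) (nat_lit 5) (nat_lit 117) (nat_lit 5) (nat_lit 118) (nat_lit 5) (nat_lit 478) (nat_lit 406) (nat_lit 316)) (XT.nd (nat_lit 78) (nat_lit 228) (nat_lit 0) (XT.lf (nat_lit 0) (nat_lit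 3854950670) (nat_lit 380) (nat_lit 11514317459) (nat_lit 76) (nat_lit 2011807918) (nat_lit 109) (nat_lit 5) (nat_lit 114) (nat_lit 5) (nat_lit 110) (nat_lit 5) (nat_lit 479) (nat_lit 406) (nat_lit 315)) (XT.lf (nat_lit 0) (nat_lit 5345083471) (nat_lit 228) (nat_lit 5976422969) (nat_lit 304) (nat_lit 6379693399) (nat_lit 106) (nat_lit 5) (nat_lit 109) (nat_lit 5) (nat_lit 110) (nat_lit 5) (nat_lit 480) (nat_lit 406) (nat_lit 314)))) (XT.nd (nat_lit 156) (nat_lit 608) (nat_lit 0) (XT.nd (nat_lit 78) (nat_lit 228) (nat_lit 0) (XT.lf (nat_lit 0) (nat_lit 1067446040) (nat_lit 380) (nat_lit 13218721589) (nat_lit 76) (nat_lit 3742649501) (nat_lit 101) (nat_lit 5) (nat_lit 106) (nat_lit 5) (nat_lit 102) (nat_lit 5) (nat_lit 481) (nat_lit 406) (nat_lit 313)) (XT.lf (nat_lit 0) (nat_lit 4208452676) (nat_lit 228) (nat_lit 4560056849) (nat_lit 304) (nat_lit 9594567128) (nat_lit 98) (nat_lit 5) (nat_lit 101) (nat_lit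 5) (nat_lit 102) (nat_lit 5) (nat_lit 482) (nat_lit 406) (nat_lit 312))) (XT.nd (nat_lit 78) (nat_lit 304) (nat_lit 0) (XT.lf (nat_lit 0) (nat_lit 3585849964) (nat_lit 304) (nat_lit 13229235961) (nat_lit 380) (nat_lit 1889989200) (nat_lit 94) (nat_lit 5) (nat_lit 98) (nat_lit 5) (nat_lit 99) (nat_lit 5) (nat_lit 483) (nat_lit 406) (nat_lit 311)) (XT.lf (nat_lit 0) (nat_lit 2906149392) (nat_lit 228) (nat_lit 3172198037) (nat_lit 304) (nat_lit 12975963567) (nat_lit 90) (nat_lit 5) (nat_lit 93) (nat_lit 5) (nat_lit 94) (nat_lit 5) (nat_lit 484) (nat_lit 406) (nat_lit 310))))) (XT.nd (nat_lit 234) (nat_lit 532) (nat_lit 0) (XT.nd (nat_lit 78) (nat_lit 532) (nat_lit 0) (XT.lf (nat_lit 0) (nat_lit 2177830553) (nat_lit 228) (nat_lit 12212760707) (nat_lit 304) (nat_lit 5020572857) (nat_lit 87) (nat_lit 5) (nat_lit 90) (nat_lit 5) (nat_lit 91) (nat_lit 5) (nat_lit 485) (nat_lit 406) (nat_lit 309)) (XT.nd (nat_lit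 78) (nat_lit 228) (nat_lit 0) (XT.lf (nat_lit 0) (nat_lit 1416623927) (nat_lit 228) (nat_lit 1822641089) (nat_lit 304) (nat_lit 16536898294) (nat_lit 83) (nat_lit 5) (nat_lit 86) (nat_lit 5) (nat_lit 87) (nat_lit 5) (nat_lit 486) (nat_lit 406) (nat_lit 308)) (XT.lf (nat_lit 0) (nat_lit 570599848) (nat_lit 228) (nat_lit 11254670426) (nat_lit 304) (nat_lit 8323247512) (nat_lit 80) (nat_lit 5) (nat_lit 83) (nat_lit 5) (nat_lit 84) (nat_lit 5) (nat_lit 487) (nat_lit 406) (nat_lit 307)))) (XT.nd (nat_lit 156) (nat_lit 228) (nat_lit 0) (XT.nd (nat_lit 78) (nat_lit 228) (nat_lit 0) (XT.lf (nat_lit 0) (nat_lit 240103239) (nat_lit 304) (nat_lit 280090260) (nat_lit 76) (nat_lit 20009730572) (nat_lit 79) (nat_lit 5) (nat_lit 83) (nat_lit 5) (nat_lit 80) (nat_lit 5) (nat_lit 488) (nat_lit 406) (nat_lit 306)) (XT.lf (nat_lit 0) (nat_lit 9114194072) (nat_lit 304) (nat_lit 1244164732) (nat_lit 76) (nat_lit 10559975629)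 (nat_lit 76) (nat_lit 5) (nat_lit 80) (nat_lit 5) (nat_lit 77) (nat_lit 5) (nat_lit 489) (nat_lit 406) (nat_lit 305))) (XT.nd (nat_lit 56004) (nat_lit 0) (nat_lit 50236) (XT.lf (nat_lit 0) (nat_lit 18357839989) (nat_lit 304) (nat_lit 2216217640) (nat_lit 76) (nat_lit 742273429) (nat_lit 73) (nat_lit 5) (nat_lit 77) (nat_lit 5) (nat_lit 74) (nat_lit 5) (nat_lit 490) (nat_lit 406) (nat_lit 304)) (XT.lf (nat_lit 0) (nat_lit 1332844817) (nat_lit 0) (nat_lit 1332844817) (nat_lit 684) (nat_lit 659142902) (nat_lit 734) (nat_lit 5) (nat_lit 734) (nat_lit 3) (nat_lit 743) (nat_lit 3) (nat_lit 407) (nat_lit 407) (nat_lit 386)))))) (XT.nd (nat_lit 546) (nat_lit 3192) (nat_lit 0) (XT.nd (nat_lit 234) (nat_lit 1824) (nat_lit 0) (XT.nd (nat_lit 78) (nat_lit 760) (nat_lit 0) (XT.lf (nat_lit 76) (nat_lit 982073796) (nat_lit 0) (nat_lit 1121906176) (nat_lit 836) (nat_lit 4576799483) (nat_lit 724) (nat_lit 5) (nat_lit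 723) (nat_lit 3) (nat_lit 734) (nat_lit 5) (nat_lit 408) (nat_lit 407) (nat_lit 385)) (XT.nd (nat_lit 78) (nat_lit 836) (nat_lit 0) (XT.lf (nat_lit 0) (nat_lit 5507895046) (nat_lit 760) (nat_lit 644738778) (nat_lit 836) (nat_lit 562093606) (nat_lit 724) (nat_lit 5) (nat_lit 734) (nat_lit 5) (nat_lit 735) (nat_lit 5) (nat_lit 409) (nat_lit 407) (nat_lit 384)) (XT.lf (nat_lit 0) (nat_lit 2141372421) (nat_lit 836) (nat_lit 2222674269) (nat_lit 912) (nat_lit 2387228130) (nat_lit 713) (nat_lit 5) (nat_lit 724) (nat_lit 5) (nat_lit 725) (nat_lit 5) (nat_lit 410) (nat_lit 407) (nat_lit 383)))) (XT.nd (nat_lit 156) (nat_lit 912) (nat_lit 0) (XT.nd (nat_lit 78) (nat_lit 912) (nat_lit 0) (XT.lf (nat_lit 76) (nat_lit 3038362236) (nat_lit 0) (nat_lit 2432422803) (nat_lit 912) (nat_lit 1320042237) (nat_lit 714) (nat_lit 5) (nat_lit 713) (nat_lit 5) (nat_lit 725) (nat_lit 5) (nat_lit 411) (nat_lit 407) (nat_lit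 382)) (XT.lf (nat_lit 76) (nat_lit 1592703704) (nat_lit 0) (nat_lit 349542201) (nat_lit 988) (nat_lit 4891045373) (nat_lit 702) (nat_lit 5) (nat_lit 701) (nat_lit 5) (nat_lit 714) (nat_lit 5) (nat_lit 412) (nat_lit 407) (nat_lit 381))) (XT.nd (nat_lit 78) (nat_lit 988) (nat_lit 0) (XT.lf (nat_lit 76) (nat_lit 182138112) (nat_lit 0) (nat_lit 5019741458) (nat_lit 988) (nat_lit 1676637381) (nat_lit 703) (nat_lit 5) (nat_lit 702) (nat_lit 5) (nat_lit 715) (nat_lit 5) (nat_lit 413) (nat_lit 407) (nat_lit 380)) (XT.lf (nat_lit 0) (nat_lit 1531996869) (nat_lit 988) (nat_lit 1171369337) (nat_lit 1064) (nat_lit 4223146422) (nat_lit 689) (nat_lit 5) (nat_lit 702) (nat_lit 5) (nat_lit 703) (nat_lit 5) (nat_lit 414) (nat_lit 407) (nat_lit 379))))) (XT.nd (nat_lit 234) (nat_lit 2204) (nat_lit 0) (XT.nd (nat_lit 78) (nat_lit 988) (nat_lit 0) (XT.lf (nat_lit 76) (nat_lit 4496198239) (nat_lit 0) (nat_lit 231839286)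 (nat_lit 1064) (nat_lit 2249420159) (nat_lit 690) (nat_lit 5) (nat_lit 689) (nat_lit 5) (nat_lit 703) (nat_lit 5) (nat_lit 415) (nat_lit 407) (nat_lit 378)) (XT.nd (nat_lit 78) (nat_lit 0) (nat_lit 0) (XT.lf (nat_lit 0) (nat_lit 908654449) (nat_lit 1064) (nat_lit 3761671590) (nat_lit 1140) (nat_lit 2360853505) (nat_lit 676) (nat_lit 5) (nat_lit 690) (nat_lit 5) (nat_lit 691) (nat_lit 5) (nat_lit 416) (nat_lit 407) (nat_lit 377)) (XT.lf (nat_lit 76) (nat_lit 2078508206) (nat_lit 0) (nat_lit 1974409032) (nat_lit 1140) (nat_lit 3034867266) (nat_lit 677) (nat_lit 5) (nat_lit 676) (nat_lit 5) (nat_lit 691) (nat_lit 5) (nat_lit 417) (nat_lit 407) (nat_lit 376)))) (XT.nd (nat_lit 156) (nat_lit 1140) (nat_lit 0) (XT.nd (nat_lit 78) (nat_lit 0) (nat_lit 0) (XT.lf (nat_lit 0) (nat_lit 72803789) (nat_lit 1140) (nat_lit 6215162581) (nat_lit 1216) (nat_lit 859525065) (nat_lit 662) (nat_lit 5) (nat_lit 677) (nat_lit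 5) (nat_lit 678) (nat_lit 5) (nat_lit 418) (nat_lit 407) (nat_lit 375)) (XT.lf (nat_lit 0) (nat_lit 3174869356) (nat_lit 1140) (nat_lit 195337430) (nat_lit 1216) (nat_lit 3839541926) (nat_lit 662) (nat_lit 5) (nat_lit 677) (nat_lit 5) (nat_lit 678) (nat_lit 5) (nat_lit 419) (nat_lit 407) (nat_lit 374))) (XT.nd (nat_lit 78) (nat_lit 1140) (nat_lit 0) (XT.lf (nat_lit 76) (nat_lit 6012035653) (nat_lit 0) (nat_lit 294848089) (nat_lit 1216) (nat_lit 968260259) (nat_lit 663) (nat_lit 5) (nat_lit 662) (nat_lit 5) (nat_lit 678) (nat_lit 5) (nat_lit 420) (nat_lit 407) (nat_lit 373)) (XT.lf (nat_lit 0) (nat_lit 2114579316) (nat_lit 1216) (nat_lit 2316999200) (nat_lit 76) (nat_lit 2911586877) (nat_lit 647) (nat_lit 5) (nat_lit 663) (nat_lit 5) (nat_lit 648) (nat_lit 5) (nat_lit 421) (nat_lit 407) (nat_lit 372))))))))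
noncomputable def xc47 : XT := (XT.nd (nat_lit 2106) (nat_lit 12692) (nat_lit 0) (XT.nd (nat_lit 1014) (nat_lit 9956) (nat_lit 0) (XT.nd (nat_lit 468) (nat_lit 9956) (nat_lit 0) (XT.nd (nat_lit 234) (nat_lit 3040) (nat_lit 0) (XT.nd (nat_lit 78) (nat_lit 2736) (nat_lit 0) (XT.lf (nat_lit 0) (nat_lit 4080323163) (nat_lit 1216) (nat_lit 1135917940) (nat_lit 1292) (nat_lit 2198075904) (nat_lit 631) (nat_lit 5) (nat_lit 647) (nat_lit 5) (nat_lit 648) (nat_lit 5) (nat_lit 422) (nat_lit 407) (nat_lit 371)) (XT.nd (nat_lit 78) (nat_lit 1368) (nat_lit 0) (XT.lf (nat_lit 0) (nat_lit 866838009) (nat_lit 1368) (nat_lit 4327358329) (nat_lit 76) (nat_lit 2294182030) (nat_lit 613) (nat_lit 5) (nat_lit 631) (nat_lit 5) (nat_lit 614) (nat_lit 5) (nat_lit 423) (nat_lit 407) (nat_lit 370)) (XT.lf (nat_lit 0) (nat_lit 2265609879) (nat_lit 1368) (nat_lit 1679988703) (nat_lit 1444) (nat_lit 3619744011) (nat_lit 595) (nat_lit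 5) (nat_lit 613) (nat_lit 5) (nat_lit 614) (nat_lit 5) (nat_lit 424) (nat_lit 407) (nat_lit 369)))) (XT.nd (nat_lit 78) (nat_lit 1596) (nat_lit 0) (XT.lf (nat_lit 0) (nat_lit 1402457483) (nat_lit 1444) (nat_lit 5674394839) (nat_lit 1520) (nat_lit 568567475) (nat_lit 576) (nat_lit 5) (nat_lit 595) (nat_lit 5) (nat_lit 596) (nat_lit 5) (nat_lit 425) (nat_lit 407) (nat_lit 368)) (XT.nd (nat_lit 78) (nat_lit 0) (nat_lit 0) (XT.lf (nat_lit 0) (nat_lit 555471949) (nat_lit 1520) (nat_lit 1946397867) (nat_lit 1596) (nat_lit 5226471862) (nat_lit 555) (nat_lit 5) (nat_lit 575) (nat_lit 5) (nat_lit 576) (nat_lit 5) (nat_lit 426) (nat_lit 407) (nat_lit 367)) (XT.lf (nat_lit 0) (nat_lit 5624331543) (nat_lit 1596) (nat_lit 261302324) (nat_lit 76) (nat_lit 1928695621) (nat_lit 555) (nat_lit 5) (nat_lit 576) (nat_lit 5) (nat_lit 556) (nat_lit 5) (nat_lit 427) (nat_lit 407) (nat_lit 366))))) (XT.nd (nat_lit 234) (nat_lit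 4864) (nat_lit 0) (XT.nd (nat_lit 78) (nat_lit 3420) (nat_lit 0) (XT.lf (nat_lit 0) (nat_lit 897909660) (nat_lit 1672) (nat_lit 1047909998) (nat_lit 76) (nat_lit 5957508666) (nat_lit 533) (nat_lit 5) (nat_lit 555) (nat_lit 5) (nat_lit 534) (nat_lit 5) (nat_lit 428) (nat_lit 407) (nat_lit 365)) (XT.nd (nat_lit 78) (nat_lit 1748) (nat_lit 0) (XT.lf (nat_lit 0) (nat_lit 4021686237) (nat_lit 1748) (nat_lit 1822007683) (nat_lit 76) (nat_lit 2151559670) (nat_lit 511) (nat_lit 5) (nat_lit 534) (nat_lit 5) (nat_lit 512) (nat_lit 5) (nat_lit 429) (nat_lit 407) (nat_lit 364)) (XT.lf (nat_lit 0) (nat_lit 5521364736) (nat_lit 1748) (nat_lit 1692544774) (nat_lit 1824) (nat_lit 876537958) (nat_lit 488) (nat_lit 5) (nat_lit 511) (nat_lit 5) (nat_lit 512) (nat_lit 5) (nat_lit 430) (nat_lit 407) (nat_lit 363)))) (XT.nd (nat_lit 156) (nat_lit 1900) (nat_lit 0) (XT.nd (nat_lit 78) (nat_lit 1064) (nat_lit 0) (XT.lf (nat_lit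 0) (nat_lit 2264583671) (nat_lit 1900) (nat_lit 3308713701) (nat_lit 76) (nat_lit 2615274201) (nat_lit 463) (nat_lit 5) (nat_lit 488) (nat_lit 5) (nat_lit 464) (nat_lit 5) (nat_lit 431) (nat_lit 407) (nat_lit 362)) (XT.lf (nat_lit 0) (nat_lit 4262893330) (nat_lit 1064) (nat_lit 1203712058) (nat_lit 1140) (nat_lit 2823351735) (nat_lit 449) (nat_lit 5) (nat_lit 463) (nat_lit 5) (nat_lit 464) (nat_lit 5) (nat_lit 432) (nat_lit 407) (nat_lit 361))) (XT.nd (nat_lit 78) (nat_lit 912) (nat_lit 0) (XT.lf (nat_lit 0) (nat_lit 356969550) (nat_lit 988) (nat_lit 4731601308) (nat_lit 76) (nat_lit 3305939700) (nat_lit 436) (nat_lit 5) (nat_lit 449) (nat_lit 5) (nat_lit 437) (nat_lit 5) (nat_lit 433) (nat_lit 407) (nat_lit 360)) (XT.lf (nat_lit 0) (nat_lit 3076272689) (nat_lit 912) (nat_lit 498838059) (nat_lit 988) (nat_lit 4927105944) (nat_lit 424) (nat_lit 5) (nat_lit 436) (nat_lit 5) (nat_lit 437) (nat_lit 5)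 (nat_lit 434) (nat_lit 407) (nat_lit 359)))))) (XT.nd (nat_lit 546) (nat_lit 4864) (nat_lit 0) (XT.nd (nat_lit 234) (nat_lit 2508) (nat_lit 0) (XT.nd (nat_lit 78) (nat_lit 1748) (nat_lit 0) (XT.lf (nat_lit 0) (nat_lit 2501494823) (nat_lit 836) (nat_lit 4391043037) (nat_lit 912) (nat_lit 1720565896) (nat_lit 413) (nat_lit 5) (nat_lit 424) (nat_lit 5) (nat_lit 425) (nat_lit 5) (nat_lit 435) (nat_lit 407) (nat_lit 358)) (XT.nd (nat_lit 78) (nat_lit 836) (nat_lit 0) (XT.lf (nat_lit 0) (nat_lit 1545052857) (nat_lit 912) (nat_lit 6777999859) (nat_lit 76) (nat_lit 404390964) (nat_lit 401) (nat_lit 5) (nat_lit 413) (nat_lit 5) (nat_lit 402) (nat_lit 5) (nat_lit 436) (nat_lit 407) (nat_lit 357)) (XT.lf (nat_lit 0) (nat_lit 1394508023) (nat_lit 836) (nat_lit 3500557404) (nat_lit 912) (nat_lit 3949729125) (nat_lit 390) (nat_lit 5) (nat_lit 401) (nat_lit 5) (nat_lit 402) (nat_lit 5) (nat_lit 437) (nat_lit 407)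 (nat_lit 356)))) (XT.nd (nat_lit 156) (nat_lit 836) (nat_lit 0) (XT.nd (nat_lit 78) (nat_lit 836) (nat_lit 0) (XT.lf (nat_lit 0) (nat_lit 867386543) (nat_lit 836) (nat_lit 7470690522) (nat_lit 912) (nat_lit 627743019) (nat_lit 379) (nat_lit 5) (nat_lit 390) (nat_lit 5) (nat_lit 391) (nat_lit 5) (nat_lit 438) (nat_lit 407) (nat_lit 355)) (XT.lf (nat_lit 0) (nat_lit 335537131) (nat_lit 760) (nat_lit 2430323271) (nat_lit 836) (nat_lit 6324085086) (nat_lit 368) (nat_lit 5) (nat_lit 378) (nat_lit 5) (nat_lit 379) (nat_lit 5) (nat_lit 439) (nat_lit 407) (nat_lit 354))) (XT.nd (nat_lit 78) (nat_lit 836) (nat_lit 0) (XT.lf (nat_lit 0) (nat_lit 6259612074) (nat_lit 836) (nat_lit 179975519) (nat_lit 76) (nat_lit 2777990496) (nat_lit 368) (nat_lit 5) (nat_lit 379) (nat_lit 5) (nat_lit 369) (nat_lit 5) (nat_lit 440) (nat_lit 407) (nat_lit 353)) (XT.lf (nat_lit 0) (nat_lit 510684422) (nat_lit 836) (nat_lit 675006905)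 (nat_lit 76) (nat_lit 8163121337) (nat_lit 357) (nat_lit 5) (nat_lit 368) (nat_lit 5) (nat_lit 358) (nat_lit 5) (nat_lit 441) (nat_lit 407) (nat_lit 352))))) (XT.nd (nat_lit 234) (nat_lit 2660) (nat_lit 0) (XT.nd (nat_lit 78) (nat_lit 1520) (nat_lit 0) (XT.lf (nat_lit 0) (nat_lit 4063204067) (nat_lit 760) (nat_lit 1182164024) (nat_lit 76) (nat_lit 4237828712) (nat_lit 348) (nat_lit 5) (nat_lit 358) (nat_lit 5) (nat_lit 349) (nat_lit 5) (nat_lit 442) (nat_lit 407) (nat_lit 351)) (XT.nd (nat_lit 78) (nat_lit 760) (nat_lit 0) (XT.lf (nat_lit 0) (nat_lit 7725941624) (nat_lit 836) (nat_lit 1664313861) (nat_lit 76) (nat_lit 231287538) (nat_lit 338) (nat_lit 5) (nat_lit 349) (nat_lit 5) (nat_lit 339) (nat_lit 5) (nat_lit 443) (nat_lit 407) (nat_lit 350)) (XT.lf (nat_lit 0) (nat_lit 1743771413) (nat_lit 760) (nat_lit 2158720007) (nat_lit 76) (nat_lit 5860686253) (nat_lit 328) (nat_lit 5) (nat_lit 338) (nat_lit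 5) (nat_lit 329) (nat_lit 5) (nat_lit 444) (nat_lit 407) (nat_lit 349)))) (XT.nd (nat_lit 156) (nat_lit 1368) (nat_lit 0) (XT.nd (nat_lit 78) (nat_lit 608) (nat_lit 0) (XT.lf (nat_lit 0) (nat_lit 5477190367) (nat_lit 760) (nat_lit 2644014634) (nat_lit 76) (nat_lit 1787396534) (nat_lit 319) (nat_lit 5) (nat_lit 329) (nat_lit 5) (nat_lit 320) (nat_lit 5) (nat_lit 445) (nat_lit 407) (nat_lit 348)) (XT.lf (nat_lit 0) (nat_lit 6935531276) (nat_lit 608) (nat_lit 2414262490) (nat_lit 684) (nat_lit 708053767) (nat_lit 311) (nat_lit 5) (nat_lit 319) (nat_lit 5) (nat_lit 320) (nat_lit 5) (nat_lit 446) (nat_lit 407) (nat_lit 347))) (XT.nd (nat_lit 78) (nat_lit 608) (nat_lit 0) (XT.lf (nat_lit 0) (nat_lit 3112172257) (nat_lit 760) (nat_lit 3611059311) (nat_lit 76) (nat_lit 3487412614) (nat_lit 301) (nat_lit 5) (nat_lit 311) (nat_lit 5) (nat_lit 302) (nat_lit 5) (nat_lit 447) (nat_lit 407) (nat_lit 346)) (XT.lf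 (nat_lit 0) (nat_lit 6278813217) (nat_lit 608) (nat_lit 780180981) (nat_lit 684) (nat_lit 3308507577) (nat_lit 293) (nat_lit 5) (nat_lit 301) (nat_lit 5) (nat_lit 302) (nat_lit 5) (nat_lit 448) (nat_lit 407) (nat_lit 345))))))) (XT.nd (nat_lit 1092) (nat_lit 5092) (nat_lit 0) (XT.nd (nat_lit 546) (nat_lit 3420) (nat_lit 0) (XT.nd (nat_lit 234) (nat_lit 2280) (nat_lit 0) (XT.nd (nat_lit 78) (nat_lit 1216) (nat_lit 0) (XT.lf (nat_lit 0) (nat_lit 630078086) (nat_lit 684) (nat_lit 4573483294) (nat_lit 76) (nat_lit 5324574561) (nat_lit 284) (nat_lit 5) (nat_lit 293) (nat_lit 5) (nat_lit 285) (nat_lit 5) (nat_lit 449) (nat_lit 407) (nat_lit 344)) (XT.nd (nat_lit 78) (nat_lit 608) (nat_lit 0) (XT.lf (nat_lit 0) (nat_lit 4663468776) (nat_lit 684) (nat_lit 5060822379) (nat_lit 76) (nat_lit 968431258) (nat_lit 276) (nat_lit 5) (nat_lit 285) (nat_lit 5) (nat_lit 277) (nat_lit 5) (nat_lit 450) (nat_lit 407) (nat_lit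 343)) (XT.lf (nat_lit 0) (nat_lit 5308961637) (nat_lit 608) (nat_lit 3555663361) (nat_lit 684) (nat_lit 1996688739) (nat_lit 268) (nat_lit 5) (nat_lit 276) (nat_lit 5) (nat_lit 277) (nat_lit 5) (nat_lit 451) (nat_lit 407) (nat_lit 342)))) (XT.nd (nat_lit 156) (nat_lit 1140) (nat_lit 0) (XT.nd (nat_lit 78) (nat_lit 532) (nat_lit 0) (XT.lf (nat_lit 0) (nat_lit 2161252574) (nat_lit 608) (nat_lit 6046382819) (nat_lit 76) (nat_lit 2826396005) (nat_lit 260) (nat_lit 5) (nat_lit 268) (nat_lit 5) (nat_lit 261) (nat_lit 5) (nat_lit 452) (nat_lit 407) (nat_lit 341)) (XT.lf (nat_lit 0) (nat_lit 4662995494) (nat_lit 532) (nat_lit 1793945050) (nat_lit 608) (nat_lit 4753925711) (nat_lit 253) (nat_lit 5) (nat_lit 260) (nat_lit 5) (nat_lit 261) (nat_lit 5) (nat_lit 453) (nat_lit 407) (nat_lit 340))) (XT.nd (nat_lit 78) (nat_lit 608) (nat_lit 0) (XT.lf (nat_lit 0) (nat_lit 4340409791) (nat_lit 532) (nat_lit 6590767257)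 (nat_lit 608) (nat_lit 460837825) (nat_lit 246) (nat_lit 5) (nat_lit 253) (nat_lit 5) (nat_lit 254) (nat_lit 5) (nat_lit 454) (nat_lit 407) (nat_lit 339)) (XT.lf (nat_lit 0) (nat_lit 3941994309) (nat_lit 608) (nat_lit 7564800975) (nat_lit 76) (nat_lit 70632445) (nat_lit 238) (nat_lit 5) (nat_lit 246) (nat_lit 5) (nat_lit 239) (nat_lit 5) (nat_lit 455) (nat_lit 407) (nat_lit 338))))) (XT.nd (nat_lit 234) (nat_lit 1900) (nat_lit 0) (XT.nd (nat_lit 78) (nat_lit 1064) (nat_lit 0) (XT.lf (nat_lit 0) (nat_lit 3669988993) (nat_lit 456) (nat_lit 4867326303) (nat_lit 532) (nat_lit 3229695557) (nat_lit 232) (nat_lit 5) (nat_lit 238) (nat_lit 5) (nat_lit 239) (nat_lit 5) (nat_lit 456) (nat_lit 407) (nat_lit 337)) (XT.nd (nat_lit 78) (nat_lit 456) (nat_lit 0) (XT.lf (nat_lit 0) (nat_lit 1328934794) (nat_lit 608) (nat_lit 8623672309) (nat_lit 76) (nat_lit 2008748933) (nat_lit 224) (nat_lit 5) (nat_lit 232) (nat_lit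 5) (nat_lit 225) (nat_lit 5) (nat_lit 457) (nat_lit 407) (nat_lit 336)) (XT.lf (nat_lit 0) (nat_lit 2982639876) (nat_lit 456) (nat_lit 3057363990) (nat_lit 532) (nat_lit 6119911510) (nat_lit 218) (nat_lit 5) (nat_lit 224) (nat_lit 5) (nat_lit 225) (nat_lit 5) (nat_lit 458) (nat_lit 407) (nat_lit 335)))) (XT.nd (nat_lit 156) (nat_lit 912) (nat_lit 0) (XT.nd (nat_lit 78) (nat_lit 532) (nat_lit 0) (XT.lf (nat_lit 0) (nat_lit 2632289002) (nat_lit 456) (nat_lit 8315285047) (nat_lit 532) (nat_lit 1415755951) (nat_lit 212) (nat_lit 5) (nat_lit 218) (nat_lit 5) (nat_lit 219) (nat_lit 5) (nat_lit 459) (nat_lit 407) (nat_lit 334)) (XT.lf (nat_lit 0) (nat_lit 2269771496) (nat_lit 456) (nat_lit 1166181391) (nat_lit 532) (nat_lit 9135422486) (nat_lit 205) (nat_lit 5) (nat_lit 211) (nat_lit 5) (nat_lit 212) (nat_lit 5) (nat_lit 460) (nat_lit 407) (nat_lit 333))) (XT.nd (nat_lit 78) (nat_lit 456) (nat_lit 0) (XT.lf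 (nat_lit 0) (nat_lit 1887356174) (nat_lit 456) (nat_lit 6600014993) (nat_lit 532) (nat_lit 4296637661) (nat_lit 199) (nat_lit 5) (nat_lit 205) (nat_lit 5) (nat_lit 206) (nat_lit 5) (nat_lit 461) (nat_lit 407) (nat_lit 332)) (XT.lf (nat_lit 0) (nat_lit 726468323) (nat_lit 456) (nat_lit 11484899923) (nat_lit 76) (nat_lit 790602015) (nat_lit 193) (nat_lit 5) (nat_lit 199) (nat_lit 5) (nat_lit 194) (nat_lit 5) (nat_lit 462) (nat_lit 407) (nat_lit 331)))))) (XT.nd (nat_lit 546) (nat_lit 2584) (nat_lit 0) (XT.nd (nat_lit 234) (nat_lit 1216) (nat_lit 0) (XT.nd (nat_lit 78) (nat_lit 836) (nat_lit 0) (XT.lf (nat_lit 0) (nat_lit 1102557918) (nat_lit 456) (nat_lit 4821060297) (nat_lit 532) (nat_lit 7300651411) (nat_lit 187) (nat_lit 5) (nat_lit 193) (nat_lit 5) (nat_lit 194) (nat_lit 5) (nat_lit 463) (nat_lit 407) (nat_lit 330)) (XT.nd (nat_lit 78) (nat_lit 456) (nat_lit 0) (XT.lf (nat_lit 0) (nat_lit 698115853)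 (nat_lit 380) (nat_lit 10636057230) (nat_lit 456) (nat_lit 2117916642) (nat_lit 182) (nat_lit 5) (nat_lit 187) (nat_lit 5) (nat_lit 188) (nat_lit 5) (nat_lit 464) (nat_lit 407) (nat_lit 329)) (XT.lf (nat_lit 0) (nat_lit 268106509) (nat_lit 380) (nat_lit 2983685357) (nat_lit 456) (nat_lit 10433061351) (nat_lit 176) (nat_lit 5) (nat_lit 181) (nat_lit 5) (nat_lit 182) (nat_lit 5) (nat_lit 465) (nat_lit 407) (nat_lit 328)))) (XT.nd (nat_lit 156) (nat_lit 760) (nat_lit 0) (XT.nd (nat_lit 78) (nat_lit 456) (nat_lit 0) (XT.lf (nat_lit 0) (nat_lit 8830534897) (nat_lit 456) (nat_lit 178704782) (nat_lit 76) (nat_lit 4913547042) (nat_lit 176) (nat_lit 5) (nat_lit 182) (nat_lit 5) (nat_lit 177) (nat_lit 5) (nat_lit 466) (nat_lit 407) (nat_lit 327)) (XT.lf (nat_lit 0) (nat_lit 470784426) (nat_lit 456) (nat_lit 618201726) (nat_lit 76) (nat_lit 13077473095) (nat_lit 170) (nat_lit 5) (nat_lit 176) (nat_lit 5) (nat_lit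 171) (nat_lit 5) (nat_lit 467) (nat_lit 407) (nat_lit 326))) (XT.nd (nat_lit 78) (nat_lit 380) (nat_lit 0) (XT.lf (nat_lit 0) (nat_lit 6225894123) (nat_lit 456) (nat_lit 1111640949) (nat_lit 76) (nat_lit 7077347695) (nat_lit 165) (nat_lit 5) (nat_lit 171) (nat_lit 5) (nat_lit 166) (nat_lit 5) (nat_lit 468) (nat_lit 407) (nat_lit 325)) (XT.lf (nat_lit 0) (nat_lit 12215908493) (nat_lit 456) (nat_lit 1592908980) (nat_lit 76) (nat_lit 860697787) (nat_lit 160) (nat_lit 5) (nat_lit 166) (nat_lit 5) (nat_lit 161) (nat_lit 5) (nat_lit 469) (nat_lit 407) (nat_lit 324))))) (XT.nd (nat_lit 234) (nat_lit 1368) (nat_lit 0) (XT.nd (nat_lit 78) (nat_lit 760) (nat_lit 0) (XT.lf (nat_lit 0) (nat_lit 3509940576) (nat_lit 456) (nat_lit 2121249932) (nat_lit 76) (nat_lit 9298120927) (nat_lit 154) (nat_lit 5) (nat_lit 160) (nat_lit 5) (nat_lit 155) (nat_lit 5) (nat_lit 470) (nat_lit 407) (nat_lit 323)) (XT.nd (nat_lit 78)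 (nat_lit 456) (nat_lit 0) (XT.lf (nat_lit 0) (nat_lit 9691584658) (nat_lit 380) (nat_lit 2661017564) (nat_lit 76) (nat_lit 2842525599) (nat_lit 150) (nat_lit 5) (nat_lit 155) (nat_lit 5) (nat_lit 151) (nat_lit 5) (nat_lit 471) (nat_lit 407) (nat_lit 322)) (XT.lf (nat_lit 0) (nat_lit 676175582) (nat_lit 456) (nat_lit 3219808959) (nat_lit 76) (nat_lit 11570975694) (nat_lit 144) (nat_lit 5) (nat_lit 150) (nat_lit 5) (nat_lit 145) (nat_lit 5) (nat_lit 472) (nat_lit 407) (nat_lit 321)))) (XT.nd (nat_lit 156) (nat_lit 684) (nat_lit 0) (XT.nd (nat_lit 78) (nat_lit 380) (nat_lit 0) (XT.lf (nat_lit 0) (nat_lit 7057013262) (nat_lit 380) (nat_lit 3825101920) (nat_lit 76) (nat_lit 4862295999) (nat_lit 140) (nat_lit 5) (nat_lit 145) (nat_lit 5) (nat_lit 141) (nat_lit 5) (nat_lit 473) (nat_lit 407) (nat_lit 320)) (XT.lf (nat_lit 0) (nat_lit 11592859363) (nat_lit 380) (nat_lit 2122601898) (nat_lit 456) (nat_lit 2313001764)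 (nat_lit 135) (nat_lit 5) (nat_lit 140) (nat_lit 5) (nat_lit 141) (nat_lit 5) (nat_lit 474) (nat_lit 407) (nat_lit 319))) (XT.nd (nat_lit 78) (nat_lit 304) (nat_lit 0) (XT.lf (nat_lit 0) (nat_lit 4304933681) (nat_lit 380) (nat_lit 5098978595) (nat_lit 76) (nat_lit 6914411327) (nat_lit 130) (nat_lit 5) (nat_lit 135) (nat_lit 5) (nat_lit 131) (nat_lit 5) (nat_lit 475) (nat_lit 407) (nat_lit 318)) (XT.lf (nat_lit 0) (nat_lit 10841671740) (nat_lit 304) (nat_lit 327229171) (nat_lit 380) (nat_lit 5446095932) (nat_lit 126) (nat_lit 5) (nat_lit 130) (nat_lit 5) (nat_lit 131) (nat_lit 5) (nat_lit 476) (nat_lit 407) (nat_lit 317))))))))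
noncomputable def xc48 : XT := (XT.nd (nat_lit 58032) (nat_lit 0) (nat_lit 18316) (XT.nd (nat_lit 1014) (nat_lit 456) (nat_lit 0) (XT.nd (nat_lit 468) (nat_lit 1900) (nat_lit 0) (XT.nd (nat_lit 234) (nat_lit 988) (nat_lit 0) (XT.nd (nat_lit 78) (nat_lit 532) (nat_lit 0) (XT.lf (nat_lit 0) (nat_lit 1427256332) (nat_lit 380) (nat_lit 6497648521) (nat_lit 76) (nat_lit 8992968636) (nat_lit 121) (nat_lit 5) (nat_lit 126) (nat_lit 5) (nat_lit 122) (nat_lit 5) (nat_lit 477) (nat_lit 407) (nat_lit 316)) (XT.nd (nat_lit 78) (nat_lit 228) (nat_lit 0) (XT.lf (nat_lit 0) (nat_lit 8514084840) (nat_lit 380) (nat_lit 7253822522) (nat_lit 76) (nat_lit 1459584681) (nat_lit 117) (nat_lit 5) (nat_lit 122) (nat_lit 5) (nat_lit 118) (nat_lit 5) (nat_lit 478) (nat_lit 407) (nat_lit 315)) (XT.lf (nat_lit 0) (nat_lit 9496046385) (nat_lit 228) (nat_lit 6441804119) (nat_lit 304) (nat_lit 1606062894) (nat_lit 114) (nat_lit 5)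 (nat_lit 117) (nat_lit 5) (nat_lit 118) (nat_lit 5) (nat_lit 479) (nat_lit 407) (nat_lit 314)))) (XT.nd (nat_lit 78) (nat_lit 608) (nat_lit 0) (XT.lf (nat_lit 0) (nat_lit 5734609923) (nat_lit 380) (nat_lit 8886745022) (nat_lit 76) (nat_lit 3245830151) (nat_lit 109) (nat_lit 5) (nat_lit 114) (nat_lit 5) (nat_lit 110) (nat_lit 5) (nat_lit 480) (nat_lit 407) (nat_lit 313)) (XT.nd (nat_lit 78) (nat_lit 380) (nat_lit 0) (XT.lf (nat_lit 0) (nat_lit 8430204511) (nat_lit 228) (nat_lit 4962568439) (nat_lit 304) (nat_lit 4804788694) (nat_lit 106) (nat_lit 5) (nat_lit 109) (nat_lit 5) (nat_lit 110) (nat_lit 5) (nat_lit 481) (nat_lit 407) (nat_lit 312)) (XT.lf (nat_lit 0) (nat_lit 2818378048) (nat_lit 380) (nat_lit 10688591831) (nat_lit 76) (nat_lit 5028293840) (nat_lit 101) (nat_lit 5) (nat_lit 106) (nat_lit 5) (nat_lit 102) (nat_lit 5) (nat_lit 482) (nat_lit 407) (nat_lit 311))))) (XT.nd (nat_lit 234) (nat_lit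 1064) (nat_lit 0) (XT.nd (nat_lit 78) (nat_lit 608) (nat_lit 0) (XT.lf (nat_lit 0) (nat_lit 7213915571) (nat_lit 228) (nat_lit 3505186304) (nat_lit 304) (nat_lit 8161077741) (nat_lit 98) (nat_lit 5) (nat_lit 101) (nat_lit 5) (nat_lit 102) (nat_lit 5) (nat_lit 483) (nat_lit 407) (nat_lit 310)) (XT.nd (nat_lit 78) (nat_lit 304) (nat_lit 0) (XT.lf (nat_lit 0) (nat_lit 6551552571) (nat_lit 304) (nat_lit 12432440061) (nat_lit 380) (nat_lit 248908193) (nat_lit 94) (nat_lit 5) (nat_lit 98) (nat_lit 5) (nat_lit 99) (nat_lit 5) (nat_lit 484) (nat_lit 407) (nat_lit 309)) (XT.lf (nat_lit 0) (nat_lit 5827032853) (nat_lit 228) (nat_lit 2078775858) (nat_lit 304) (nat_lit 11687193731) (nat_lit 90) (nat_lit 5) (nat_lit 93) (nat_lit 5) (nat_lit 94) (nat_lit 5) (nat_lit 485) (nat_lit 407) (nat_lit 308)))) (XT.nd (nat_lit 156) (nat_lit 532) (nat_lit 0) (XT.nd (nat_lit 78) (nat_lit 304) (nat_lit 0) (XT.lf (nat_lit 0)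 (nat_lit 5055702654) (nat_lit 228) (nat_lit 11389554542) (nat_lit 304) (nat_lit 3515748253) (nat_lit 87) (nat_lit 5) (nat_lit 90) (nat_lit 5) (nat_lit 91) (nat_lit 5) (nat_lit 486) (nat_lit 407) (nat_lit 307)) (XT.lf (nat_lit 0) (nat_lit 4247422327) (nat_lit 228) (nat_lit 693270123) (nat_lit 304) (nat_lit 15396637810) (nat_lit 83) (nat_lit 5) (nat_lit 86) (nat_lit 5) (nat_lit 87) (nat_lit 5) (nat_lit 487) (nat_lit 407) (nat_lit 306))) (XT.nd (nat_lit 78) (nat_lit 304) (nat_lit 0) (XT.lf (nat_lit 0) (nat_lit 3354814632) (nat_lit 228) (nat_lit 10408167075) (nat_lit 304) (nat_lit 6958300545) (nat_lit 80) (nat_lit 5) (nat_lit 83) (nat_lit 5) (nat_lit 84) (nat_lit 5) (nat_lit 488) (nat_lit 407) (nat_lit 305)) (XT.lf (nat_lit 0) (nat_lit 1814432851) (nat_lit 304) (nat_lit 18667949607) (nat_lit 76) (nat_lit 632066347) (nat_lit 76) (nat_lit 5) (nat_lit 80) (nat_lit 5) (nat_lit 77) (nat_lit 5) (nat_lit 489)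 (nat_lit 407) (nat_lit 304)))))) (XT.nd (nat_lit 56472) (nat_lit 0) (nat_lit 44916) (XT.nd (nat_lit 56160) (nat_lit 0) (nat_lit 47880) (XT.nd (nat_lit 78) (nat_lit 228) (nat_lit 0) (XT.lf (nat_lit 0) (nat_lit 1423338542) (nat_lit 228) (nat_lit 9500237007) (nat_lit 304) (nat_lit 10591560233) (nat_lit 73) (nat_lit 5) (nat_lit 76) (nat_lit 5) (nat_lit 77) (nat_lit 5) (nat_lit 490) (nat_lit 407) (nat_lit 303)) (XT.nd (nat_lit 56004) (nat_lit 0) (nat_lit 49628) (XT.lf (nat_lit 0) (nat_lit 387554316) (nat_lit 228) (nat_lit 20030363771) (nat_lit 304) (nat_lit 1507687335) (nat_lit 70) (nat_lit 5) (nat_lit 73) (nat_lit 5) (nat_lit 74) (nat_lit 5) (nat_lit 491) (nat_lit 407) (nat_lit 302)) (XT.lf (nat_lit 0) (nat_lit 2715244812) (nat_lit 836) (nat_lit 320702101) (nat_lit 836) (nat_lit 320702101) (nat_lit 723) (nat_lit 3) (nat_lit 734) (nat_lit 3) (nat_lit 734) (nat_lit 5) (nat_lit 408) (nat_lit 408) (nat_lit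 384)))) (XT.nd (nat_lit 156) (nat_lit 912) (nat_lit 0) (XT.nd (nat_lit 78) (nat_lit 0) (nat_lit 0) (XT.lf (nat_lit 0) (nat_lit 1987371211) (nat_lit 836) (nat_lit 2352980049) (nat_lit 912) (nat_lit 2408077756) (nat_lit 712) (nat_lit 5) (nat_lit 723) (nat_lit 3) (nat_lit 724) (nat_lit 5) (nat_lit 409) (nat_lit 408) (nat_lit 383)) (XT.lf (nat_lit 76) (nat_lit 2768678943) (nat_lit 0) (nat_lit 2464988858) (nat_lit 912) (nat_lit 1552879090) (nat_lit 713) (nat_lit 5) (nat_lit 712) (nat_lit 5) (nat_lit 724) (nat_lit 5) (nat_lit 410) (nat_lit 408) (nat_lit 382))) (XT.nd (nat_lit 78) (nat_lit 0) (nat_lit 76) (XT.lf (nat_lit 76) (nat_lit 1187533188) (nat_lit 0) (nat_lit 440232763) (nat_lit 988) (nat_lit 5199841848) (nat_lit 701) (nat_lit 5) (nat_lit 700) (nat_lit 5) (nat_lit 713) (nat_lit 5) (nat_lit 411) (nat_lit 408) (nat_lit 381)) (XT.lf (nat_lit 0) (nat_lit 4799931123) (nat_lit 912) (nat_lit 355484510) (nat_lit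 988) (nat_lit 1715946126) (nat_lit 701) (nat_lit 5) (nat_lit 713) (nat_lit 5) (nat_lit 714) (nat_lit 5) (nat_lit 412) (nat_lit 408) (nat_lit 380))))) (XT.nd (nat_lit 234) (nat_lit 1064) (nat_lit 0) (XT.nd (nat_lit 78) (nat_lit 988) (nat_lit 0) (XT.lf (nat_lit 0) (nat_lit 1053658818) (nat_lit 988) (nat_lit 1840584641) (nat_lit 1064) (nat_lit 4023687033) (nat_lit 688) (nat_lit 5) (nat_lit 701) (nat_lit 5) (nat_lit 702) (nat_lit 5) (nat_lit 413) (nat_lit 408) (nat_lit 379)) (XT.nd (nat_lit 78) (nat_lit 988) (nat_lit 0) (XT.lf (nat_lit 76) (nat_lit 3679142195) (nat_lit 0) (nat_lit 476428873) (nat_lit 1064) (nat_lit 2811836809) (nat_lit 689) (nat_lit 5) (nat_lit 688) (nat_lit 5) (nat_lit 702) (nat_lit 5) (nat_lit 414) (nat_lit 408) (nat_lit 378)) (XT.lf (nat_lit 0) (nat_lit 255991233) (nat_lit 1064) (nat_lit 4701568969) (nat_lit 1140) (nat_lit 2062211934) (nat_lit 675) (nat_lit 5) (nat_lit 689) (nat_lit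 5) (nat_lit 690) (nat_lit 5) (nat_lit 415) (nat_lit 408) (nat_lit 377)))) (XT.nd (nat_lit 156) (nat_lit 1064) (nat_lit 0) (XT.nd (nat_lit 78) (nat_lit 0) (nat_lit 76) (XT.lf (nat_lit 76) (nat_lit 986176621) (nat_lit 0) (nat_lit 2313768429) (nat_lit 1140) (nat_lit 3774953646) (nat_lit 676) (nat_lit 5) (nat_lit 675) (nat_lit 5) (nat_lit 690) (nat_lit 5) (nat_lit 416) (nat_lit 408) (nat_lit 376)) (XT.lf (nat_lit 0) (nat_lit 6363015305) (nat_lit 1064) (nat_lit 295517267) (nat_lit 1140) (nat_lit 474599216) (nat_lit 676) (nat_lit 5) (nat_lit 690) (nat_lit 5) (nat_lit 691) (nat_lit 5) (nat_lit 417) (nat_lit 408) (nat_lit 375))) (XT.nd (nat_lit 78) (nat_lit 0) (nat_lit 0) (XT.lf (nat_lit 0) (nat_lit 2242442502) (nat_lit 1140) (nat_lit 1547102042) (nat_lit 1216) (nat_lit 3404312354) (nat_lit 661) (nat_lit 5) (nat_lit 676) (nat_lit 5) (nat_lit 677) (nat_lit 5) (nat_lit 418) (nat_lit 408) (nat_lit 374)) (XT.lf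 (nat_lit 76) (nat_lit 4500118184) (nat_lit 0) (nat_lit 764182668) (nat_lit 1216) (nat_lit 1993421425) (nat_lit 662) (nat_lit 5) (nat_lit 661) (nat_lit 5) (nat_lit 677) (nat_lit 5) (nat_lit 419) (nat_lit 408) (nat_lit 373))))))) (XT.nd (nat_lit 1014) (nat_lit 10488) (nat_lit 0) (XT.nd (nat_lit 468) (nat_lit 11020) (nat_lit 0) (XT.nd (nat_lit 234) (nat_lit 2812) (nat_lit 0) (XT.nd (nat_lit 78) (nat_lit 1140) (nat_lit 0) (XT.lf (nat_lit 0) (nat_lit 987783964) (nat_lit 1216) (nat_lit 3945133996) (nat_lit 1292) (nat_lit 2391490784) (nat_lit 646) (nat_lit 5) (nat_lit 662) (nat_lit 5) (nat_lit 663) (nat_lit 5) (nat_lit 420) (nat_lit 408) (nat_lit 372)) (XT.nd (nat_lit 78) (nat_lit 1140) (nat_lit 0) (XT.lf (nat_lit 76) (nat_lit 2286739559) (nat_lit 0) (nat_lit 1686147650) (nat_lit 1292) (nat_lit 3421121601) (nat_lit 647) (nat_lit 5) (nat_lit 646) (nat_lit 5) (nat_lit 663) (nat_lit 5) (nat_lit 421) (nat_lit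 408) (nat_lit 371)) (XT.lf (nat_lit 0) (nat_lit 1228668549) (nat_lit 1216) (nat_lit 5769709455) (nat_lit 1292) (nat_lit 468309389) (nat_lit 631) (nat_lit 5) (nat_lit 647) (nat_lit 5) (nat_lit 648) (nat_lit 5) (nat_lit 422) (nat_lit 408) (nat_lit 370)))) (XT.nd (nat_lit 78) (nat_lit 1444) (nat_lit 0) (XT.lf (nat_lit 0) (nat_lit 186973847) (nat_lit 1292) (nat_lit 2306565292) (nat_lit 1368) (nat_lit 5048595961) (nat_lit 613) (nat_lit 5) (nat_lit 630) (nat_lit 5) (nat_lit 631) (nat_lit 5) (nat_lit 423) (nat_lit 408) (nat_lit 369)) (XT.nd (nat_lit 78) (nat_lit 1444) (nat_lit 0) (XT.lf (nat_lit 0) (nat_lit 5497917676) (nat_lit 1368) (nat_lit 812307968) (nat_lit 76) (nat_lit 1310364602) (nat_lit 613) (nat_lit 5) (nat_lit 631) (nat_lit 5) (nat_lit 614) (nat_lit 5) (nat_lit 424) (nat_lit 408) (nat_lit 368)) (XT.lf (nat_lit 0) (nat_lit 844875526) (nat_lit 1444) (nat_lit 1788333000) (nat_lit 76) (nat_lit 5068770497)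 (nat_lit 594) (nat_lit 5) (nat_lit 613) (nat_lit 5) (nat_lit 595) (nat_lit 5) (nat_lit 425) (nat_lit 408) (nat_lit 367))))) (XT.nd (nat_lit 234) (nat_lit 6384) (nat_lit 0) (XT.nd (nat_lit 78) (nat_lit 3192) (nat_lit 0) (XT.lf (nat_lit 0) (nat_lit 3832502263) (nat_lit 1520) (nat_lit 2745409094) (nat_lit 76) (nat_lit 1208425822) (nat_lit 575) (nat_lit 5) (nat_lit 595) (nat_lit 5) (nat_lit 576) (nat_lit 5) (nat_lit 426) (nat_lit 408) (nat_lit 366)) (XT.nd (nat_lit 78) (nat_lit 1672) (nat_lit 0) (XT.lf (nat_lit 0) (nat_lit 4193455438) (nat_lit 1520) (nat_lit 2688969076) (nat_lit 1596) (nat_lit 991354207) (nat_lit 555) (nat_lit 5) (nat_lit 575) (nat_lit 5) (nat_lit 576) (nat_lit 5) (nat_lit 427) (nat_lit 408) (nat_lit 365)) (XT.lf (nat_lit 0) (nat_lit 1999699209) (nat_lit 1672) (nat_lit 4598435503) (nat_lit 76) (nat_lit 1366112674) (nat_lit 533) (nat_lit 5) (nat_lit 555) (nat_lit 5) (nat_lit 534) (nat_lit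 5) (nat_lit 428) (nat_lit 408) (nat_lit 364)))) (XT.nd (nat_lit 156) (nat_lit 2888) (nat_lit 0) (XT.nd (nat_lit 78) (nat_lit 1824) (nat_lit 0) (XT.lf (nat_lit 0) (nat_lit 2554564243) (nat_lit 1672) (nat_lit 2491330382) (nat_lit 1748) (nat_lit 3011832370) (nat_lit 511) (nat_lit 5) (nat_lit 533) (nat_lit 5) (nat_lit 534) (nat_lit 5) (nat_lit 429) (nat_lit 408) (nat_lit 363)) (XT.lf (nat_lit 0) (nat_lit 4161635) (nat_lit 1824) (nat_lit 6382515240) (nat_lit 76) (nat_lit 1767833883) (nat_lit 487) (nat_lit 5) (nat_lit 511) (nat_lit 5) (nat_lit 488) (nat_lit 5) (nat_lit 430) (nat_lit 408) (nat_lit 362))) (XT.nd (nat_lit 78) (nat_lit 1064) (nat_lit 0) (XT.lf (nat_lit 0) (nat_lit 991935372) (nat_lit 1824) (nat_lit 2061071665) (nat_lit 1900) (nat_lit 5201132124) (nat_lit 463) (nat_lit 5) (nat_lit 487) (nat_lit 5) (nat_lit 488) (nat_lit 5) (nat_lit 431) (nat_lit 408) (nat_lit 361)) (XT.lf (nat_lit 0) (nat_lit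 234628750) (nat_lit 1064) (nat_lit 5943553140) (nat_lit 1140) (nat_lit 2178882199) (nat_lit 449) (nat_lit 5) (nat_lit 463) (nat_lit 5) (nat_lit 464) (nat_lit 5) (nat_lit 432) (nat_lit 408) (nat_lit 360)))))) (XT.nd (nat_lit 546) (nat_lit 5092) (nat_lit 0) (XT.nd (nat_lit 234) (nat_lit 3496) (nat_lit 0) (XT.nd (nat_lit 78) (nat_lit 1824) (nat_lit 0) (XT.lf (nat_lit 0) (nat_lit 910617586) (nat_lit 1140) (nat_lit 498034469) (nat_lit 76) (nat_lit 7054531489) (nat_lit 448) (nat_lit 5) (nat_lit 463) (nat_lit 5) (nat_lit 449) (nat_lit 5) (nat_lit 433) (nat_lit 408) (nat_lit 359)) (XT.nd (nat_lit 78) (nat_lit 912) (nat_lit 0) (XT.lf (nat_lit 0) (nat_lit 4060499250) (nat_lit 988) (nat_lit 1226603362) (nat_lit 76) (nat_lit 3285154513) (nat_lit 436) (nat_lit 5) (nat_lit 449) (nat_lit 5) (nat_lit 437) (nat_lit 5) (nat_lit 434) (nat_lit 408) (nat_lit 358)) (XT.lf (nat_lit 0) (nat_lit 6756339490) (nat_lit 912) (nat_lit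 534581551) (nat_lit 988) (nat_lit 1393965442) (nat_lit 424) (nat_lit 5) (nat_lit 436) (nat_lit 5) (nat_lit 437) (nat_lit 5) (nat_lit 435) (nat_lit 408) (nat_lit 357)))) (XT.nd (nat_lit 156) (nat_lit 1748) (nat_lit 0) (XT.nd (nat_lit 78) (nat_lit 836) (nat_lit 0) (XT.lf (nat_lit 0) (nat_lit 1801333386) (nat_lit 912) (nat_lit 2635128986) (nat_lit 76) (nat_lit 4364044439) (nat_lit 412) (nat_lit 5) (nat_lit 424) (nat_lit 5) (nat_lit 413) (nat_lit 5) (nat_lit 436) (nat_lit 408) (nat_lit 356)) (XT.lf (nat_lit 0) (nat_lit 5062347579) (nat_lit 912) (nat_lit 3323368025) (nat_lit 76) (nat_lit 533924070) (nat_lit 401) (nat_lit 5) (nat_lit 413) (nat_lit 5) (nat_lit 402) (nat_lit 5) (nat_lit 437) (nat_lit 408) (nat_lit 355))) (XT.nd (nat_lit 78) (nat_lit 912) (nat_lit 0) (XT.lf (nat_lit 0) (nat_lit 5034968846) (nat_lit 836) (nat_lit 3400160913) (nat_lit 912) (nat_lit 606942000) (nat_lit 390) (nat_lit 5) (nat_lit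 401) (nat_lit 5) (nat_lit 402) (nat_lit 5) (nat_lit 438) (nat_lit 408) (nat_lit 354)) (XT.lf (nat_lit 0) (nat_lit 2703166884) (nat_lit 912) (nat_lit 4686699856) (nat_lit 76) (nat_lit 1777994027) (nat_lit 378) (nat_lit 5) (nat_lit 390) (nat_lit 5) (nat_lit 379) (nat_lit 5) (nat_lit 439) (nat_lit 408) (nat_lit 353))))) (XT.nd (nat_lit 234) (nat_lit 2812) (nat_lit 0) (XT.nd (nat_lit 78) (nat_lit 1520) (nat_lit 0) (XT.lf (nat_lit 0) (nat_lit 3936867099) (nat_lit 760) (nat_lit 2179229908) (nat_lit 836) (nat_lit 3181014607) (nat_lit 368) (nat_lit 5) (nat_lit 378) (nat_lit 5) (nat_lit 379) (nat_lit 5) (nat_lit 440) (nat_lit 408) (nat_lit 352)) (XT.nd (nat_lit 78) (nat_lit 684) (nat_lit 0) (XT.lf (nat_lit 0) (nat_lit 210863970) (nat_lit 836) (nat_lit 6023824744) (nat_lit 76) (nat_lit 3195282109) (nat_lit 357) (nat_lit 5) (nat_lit 368) (nat_lit 5) (nat_lit 358) (nat_lit 5) (nat_lit 441) (nat_lit 408) (nat_lit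 351)) (XT.lf (nat_lit 0) (nat_lit 2874829407) (nat_lit 684) (nat_lit 794926800) (nat_lit 760) (nat_lit 5896472981) (nat_lit 348) (nat_lit 5) (nat_lit 357) (nat_lit 5) (nat_lit 358) (nat_lit 5) (nat_lit 442) (nat_lit 408) (nat_lit 350)))) (XT.nd (nat_lit 156) (nat_lit 1292) (nat_lit 0) (XT.nd (nat_lit 78) (nat_lit 760) (nat_lit 0) (XT.lf (nat_lit 0) (nat_lit 2346807247) (nat_lit 760) (nat_lit 4912873325) (nat_lit 836) (nat_lit 2446352729) (nat_lit 338) (nat_lit 5) (nat_lit 348) (nat_lit 5) (nat_lit 349) (nat_lit 5) (nat_lit 443) (nat_lit 408) (nat_lit 349)) (XT.lf (nat_lit 0) (nat_lit 1101131378) (nat_lit 760) (nat_lit 8013974917) (nat_lit 76) (nat_lit 734616961) (nat_lit 328) (nat_lit 5) (nat_lit 338) (nat_lit 5) (nat_lit 329) (nat_lit 5) (nat_lit 444) (nat_lit 408) (nat_lit 348))) (XT.nd (nat_lit 78) (nat_lit 608) (nat_lit 0) (XT.lf (nat_lit 0) (nat_lit 1308940931) (nat_lit 684) (nat_lit 3446463921)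 (nat_lit 760) (nat_lit 5241326682) (nat_lit 319) (nat_lit 5) (nat_lit 328) (nat_lit 5) (nat_lit 329) (nat_lit 5) (nat_lit 445) (nat_lit 408) (nat_lit 347)) (XT.lf (nat_lit 0) (nat_lit 799566567) (nat_lit 608) (nat_lit 7738166071) (nat_lit 684) (nat_lit 1610051867) (nat_lit 311) (nat_lit 5) (nat_lit 319) (nat_lit 5) (nat_lit 320) (nat_lit 5) (nat_lit 446) (nat_lit 408) (nat_lit 346))))))))
noncomputable def xc49 : XT := (XT.nd (nat_lit 2106) (nat_lit 5624) (nat_lit 0) (XT.nd (nat_lit 1014) (nat_lit 5624) (nat_lit 0) (XT.nd (nat_lit 468) (nat_lit 3724) (nat_lit 0) (XT.nd (nat_lit 234) (nat_lit 1976) (nat_lit 0) (XT.nd (nat_lit 78) (nat_lit 608) (nat_lit 0) (XT.lf (nat_lit 0) (nat_lit 285923340) (nat_lit 684) (nat_lit 1844348903) (nat_lit 760) (nat_lit 8172262065) (nat_lit 301) (nat_lit 5) (nat_lit 310) (nat_lit 5) (nat_lit 311) (nat_lit 5) (nat_lit 447) (nat_lit 408) (nat_lit 345)) (XT.nd (nat_lit 78)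 (nat_lit 608) (nat_lit 0) (XT.lf (nat_lit 0) (nat_lit 5997257047) (nat_lit 760) (nat_lit 230969773) (nat_lit 76) (nat_lit 4232763173) (nat_lit 301) (nat_lit 5) (nat_lit 311) (nat_lit 5) (nat_lit 302) (nat_lit 5) (nat_lit 448) (nat_lit 408) (nat_lit 344)) (XT.lf (nat_lit 0) (nat_lit 9899003440) (nat_lit 608) (nat_lit 104449673) (nat_lit 684) (nat_lit 620284862) (nat_lit 293) (nat_lit 5) (nat_lit 301) (nat_lit 5) (nat_lit 302) (nat_lit 5) (nat_lit 449) (nat_lit 408) (nat_lit 343)))) (XT.nd (nat_lit 78) (nat_lit 1292) (nat_lit 0) (XT.lf (nat_lit 0) (nat_lit 3346600904) (nat_lit 684) (nat_lit 1249126388) (nat_lit 76) (nat_lit 6194171751) (nat_lit 284) (nat_lit 5) (nat_lit 293) (nat_lit 5) (nat_lit 285) (nat_lit 5) (nat_lit 450) (nat_lit 408) (nat_lit 342)) (XT.nd (nat_lit 78) (nat_lit 684) (nat_lit 0) (XT.lf (nat_lit 0) (nat_lit 7449493941) (nat_lit 684) (nat_lit 1759259334) (nat_lit 76) (nat_lit 1751703568)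 (nat_lit 276) (nat_lit 5) (nat_lit 285) (nat_lit 5) (nat_lit 277) (nat_lit 5) (nat_lit 451) (nat_lit 408) (nat_lit 341)) (XT.lf (nat_lit 0) (nat_lit 578769917) (nat_lit 684) (nat_lit 2273426421) (nat_lit 76) (nat_lit 8282937321) (nat_lit 267) (nat_lit 5) (nat_lit 276) (nat_lit 5) (nat_lit 268) (nat_lit 5) (nat_lit 452) (nat_lit 408) (nat_lit 340))))) (XT.nd (nat_lit 234) (nat_lit 2052) (nat_lit 0) (XT.nd (nat_lit 78) (nat_lit 1140) (nat_lit 0) (XT.lf (nat_lit 0) (nat_lit 4785764503) (nat_lit 608) (nat_lit 2805448952) (nat_lit 76) (nat_lit 3722530050) (nat_lit 260) (nat_lit 5) (nat_lit 268) (nat_lit 5) (nat_lit 261) (nat_lit 5) (nat_lit 453) (nat_lit 408) (nat_lit 339)) (XT.nd (nat_lit 78) (nat_lit 608) (nat_lit 0) (XT.lf (nat_lit 0) (nat_lit 8169687548) (nat_lit 532) (nat_lit 987941455) (nat_lit 608) (nat_lit 2339311646) (nat_lit 253) (nat_lit 5) (nat_lit 260) (nat_lit 5) (nat_lit 261) (nat_lit 5)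 (nat_lit 454) (nat_lit 408) (nat_lit 338)) (XT.lf (nat_lit 0) (nat_lit 2009140301) (nat_lit 608) (nat_lit 3870914925) (nat_lit 76) (nat_lit 5804123575) (nat_lit 245) (nat_lit 5) (nat_lit 253) (nat_lit 5) (nat_lit 246) (nat_lit 5) (nat_lit 455) (nat_lit 408) (nat_lit 337)))) (XT.nd (nat_lit 156) (nat_lit 1064) (nat_lit 0) (XT.nd (nat_lit 78) (nat_lit 456) (nat_lit 0) (XT.lf (nat_lit 0) (nat_lit 6493206846) (nat_lit 608) (nat_lit 4414818354) (nat_lit 76) (nat_lit 967962817) (nat_lit 238) (nat_lit 5) (nat_lit 246) (nat_lit 5) (nat_lit 239) (nat_lit 5) (nat_lit 456) (nat_lit 408) (nat_lit 336)) (XT.lf (nat_lit 0) (nat_lit 7102228690) (nat_lit 456) (nat_lit 4074865608) (nat_lit 532) (nat_lit 895153212) (nat_lit 232) (nat_lit 5) (nat_lit 238) (nat_lit 5) (nat_lit 239) (nat_lit 5) (nat_lit 457) (nat_lit 408) (nat_lit 335))) (XT.nd (nat_lit 78) (nat_lit 456) (nat_lit 0) (XT.lf (nat_lit 0) (nat_lit 3726040774)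 (nat_lit 608) (nat_lit 5541713924) (nat_lit 76) (nat_lit 3005201624) (nat_lit 224) (nat_lit 5) (nat_lit 232) (nat_lit 5) (nat_lit 225) (nat_lit 5) (nat_lit 458) (nat_lit 408) (nat_lit 334)) (XT.lf (nat_lit 0) (nat_lit 6358589248) (nat_lit 456) (nat_lit 2172533199) (nat_lit 532) (nat_lit 3947299170) (nat_lit 218) (nat_lit 5) (nat_lit 224) (nat_lit 5) (nat_lit 225) (nat_lit 5) (nat_lit 459) (nat_lit 408) (nat_lit 333)))))) (XT.nd (nat_lit 546) (nat_lit 2432) (nat_lit 0) (XT.nd (nat_lit 234) (nat_lit 1748) (nat_lit 0) (XT.nd (nat_lit 78) (nat_lit 912) (nat_lit 0) (XT.lf (nat_lit 0) (nat_lit 846060631) (nat_lit 532) (nat_lit 6710593684) (nat_lit 76) (nat_lit 5131973275) (nat_lit 211) (nat_lit 5) (nat_lit 218) (nat_lit 5) (nat_lit 212) (nat_lit 5) (nat_lit 460) (nat_lit 408) (nat_lit 332)) (XT.nd (nat_lit 78) (nat_lit 456) (nat_lit 0) (XT.lf (nat_lit 0) (nat_lit 5587189595) (nat_lit 456) (nat_lit 191544798)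 (nat_lit 532) (nat_lit 7124902378) (nat_lit 205) (nat_lit 5) (nat_lit 211) (nat_lit 5) (nat_lit 212) (nat_lit 5) (nat_lit 461) (nat_lit 408) (nat_lit 331)) (XT.lf (nat_lit 0) (nat_lit 5178288331) (nat_lit 456) (nat_lit 5765536330) (nat_lit 532) (nat_lit 2179584480) (nat_lit 199) (nat_lit 5) (nat_lit 205) (nat_lit 5) (nat_lit 206) (nat_lit 5) (nat_lit 462) (nat_lit 408) (nat_lit 330)))) (XT.nd (nat_lit 156) (nat_lit 836) (nat_lit 0) (XT.nd (nat_lit 78) (nat_lit 456) (nat_lit 0) (XT.lf (nat_lit 0) (nat_lit 2927787857) (nat_lit 456) (nat_lit 8581754893) (nat_lit 76) (nat_lit 1838816816) (nat_lit 193) (nat_lit 5) (nat_lit 199) (nat_lit 5) (nat_lit 194) (nat_lit 5) (nat_lit 463) (nat_lit 408) (nat_lit 329)) (XT.lf (nat_lit 0) (nat_lit 4330636738) (nat_lit 456) (nat_lit 3907478255) (nat_lit 532) (nat_lit 5340069973) (nat_lit 187) (nat_lit 5) (nat_lit 193) (nat_lit 5) (nat_lit 194) (nat_lit 5) (nat_lit 464)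 (nat_lit 408) (nat_lit 328))) (XT.nd (nat_lit 78) (nat_lit 456) (nat_lit 0) (XT.lf (nat_lit 0) (nat_lit 3897585303) (nat_lit 380) (nat_lit 9878472264) (nat_lit 456) (nat_lit 37482922) (nat_lit 182) (nat_lit 5) (nat_lit 187) (nat_lit 5) (nat_lit 188) (nat_lit 5) (nat_lit 465) (nat_lit 408) (nat_lit 327)) (XT.lf (nat_lit 0) (nat_lit 3430842337) (nat_lit 380) (nat_lit 1993211518) (nat_lit 456) (nat_lit 8629779653) (nat_lit 176) (nat_lit 5) (nat_lit 181) (nat_lit 5) (nat_lit 182) (nat_lit 5) (nat_lit 466) (nat_lit 408) (nat_lit 326))))) (XT.nd (nat_lit 234) (nat_lit 1216) (nat_lit 0) (XT.nd (nat_lit 78) (nat_lit 836) (nat_lit 0) (XT.lf (nat_lit 0) (nat_lit 2950992172) (nat_lit 380) (nat_lit 8184706149) (nat_lit 456) (nat_lit 3163897983) (nat_lit 171) (nat_lit 5) (nat_lit 176) (nat_lit 5) (nat_lit 177) (nat_lit 5) (nat_lit 467) (nat_lit 408) (nat_lit 325)) (XT.nd (nat_lit 78) (nat_lit 380) (nat_lit 0) (XT.lf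 (nat_lit 0) (nat_lit 2468326155) (nat_lit 380) (nat_lit 27798197) (nat_lit 456) (nat_lit 12055038602) (nat_lit 165) (nat_lit 5) (nat_lit 170) (nat_lit 5) (nat_lit 171) (nat_lit 5) (nat_lit 468) (nat_lit 408) (nat_lit 324)) (XT.lf (nat_lit 0) (nat_lit 1935520776) (nat_lit 380) (nat_lit 6453343374) (nat_lit 456) (nat_lit 6418877407) (nat_lit 160) (nat_lit 5) (nat_lit 165) (nat_lit 5) (nat_lit 166) (nat_lit 5) (nat_lit 469) (nat_lit 408) (nat_lit 323)))) (XT.nd (nat_lit 156) (nat_lit 456) (nat_lit 0) (XT.nd (nat_lit 78) (nat_lit 380) (nat_lit 0) (XT.lf (nat_lit 0) (nat_lit 1414993460) (nat_lit 380) (nat_lit 13109536532) (nat_lit 456) (nat_lit 546165872) (nat_lit 155) (nat_lit 5) (nat_lit 160) (nat_lit 5) (nat_lit 161) (nat_lit 5) (nat_lit 470) (nat_lit 408) (nat_lit 322)) (XT.lf (nat_lit 0) (nat_lit 839403700) (nat_lit 304) (nat_lit 4689957700) (nat_lit 380) (nat_lit 9809487940) (nat_lit 150) (nat_lit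 5) (nat_lit 154) (nat_lit 5) (nat_lit 155) (nat_lit 5) (nat_lit 471) (nat_lit 408) (nat_lit 321))) (XT.nd (nat_lit 78) (nat_lit 76) (nat_lit 0) (XT.lf (nat_lit 0) (nat_lit 257335564) (nat_lit 380) (nat_lit 11606084913) (nat_lit 456) (nat_lit 3749882145) (nat_lit 145) (nat_lit 5) (nat_lit 150) (nat_lit 5) (nat_lit 151) (nat_lit 5) (nat_lit 472) (nat_lit 408) (nat_lit 320)) (XT.lf (nat_lit 0) (nat_lit 2552532350) (nat_lit 456) (nat_lit 345461064) (nat_lit 76) (nat_lit 12995799688) (nat_lit 144) (nat_lit 5) (nat_lit 150) (nat_lit 5) (nat_lit 145) (nat_lit 5) (nat_lit 473) (nat_lit 408) (nat_lit 319))))))) (XT.nd (nat_lit 1092) (nat_lit 1292) (nat_lit 0) (XT.nd (nat_lit 546) (nat_lit 1976) (nat_lit 0) (XT.nd (nat_lit 234) (nat_lit 1292) (nat_lit 0) (XT.nd (nat_lit 78) (nat_lit 760) (nat_lit 0) (XT.lf (nat_lit 0) (nat_lit 9096864528) (nat_lit 380) (nat_lit 987793470) (nat_lit 76) (nat_lit 6095469779) (nat_lit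 140) (nat_lit 5) (nat_lit 145) (nat_lit 5) (nat_lit 141) (nat_lit 5) (nat_lit 474) (nat_lit 408) (nat_lit 318)) (XT.nd (nat_lit 78) (nat_lit 380) (nat_lit 0) (XT.lf (nat_lit 0) (nat_lit 14844812960) (nat_lit 380) (nat_lit 1075861970) (nat_lit 456) (nat_lit 552715609) (nat_lit 135) (nat_lit 5) (nat_lit 140) (nat_lit 5) (nat_lit 141) (nat_lit 5) (nat_lit 475) (nat_lit 408) (nat_lit 317)) (XT.lf (nat_lit 0) (nat_lit 6213072048) (nat_lit 380) (nat_lit 2342955148) (nat_lit 76) (nat_lit 8216217402) (nat_lit 130) (nat_lit 5) (nat_lit 135) (nat_lit 5) (nat_lit 131) (nat_lit 5) (nat_lit 476) (nat_lit 408) (nat_lit 316)))) (XT.nd (nat_lit 156) (nat_lit 608) (nat_lit 0) (XT.nd (nat_lit 78) (nat_lit 380) (nat_lit 0) (XT.lf (nat_lit 0) (nat_lit 13254781491) (nat_lit 380) (nat_lit 3054822167) (nat_lit 76) (nat_lit 768779339) (nat_lit 126) (nat_lit 5) (nat_lit 131) (nat_lit 5) (nat_lit 127) (nat_lit 5) (nat_lit 477)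 (nat_lit 408) (nat_lit 315)) (XT.lf (nat_lit 0) (nat_lit 3201912738) (nat_lit 380) (nat_lit 3826882132) (nat_lit 76) (nat_lit 10361932856) (nat_lit 121) (nat_lit 5) (nat_lit 126) (nat_lit 5) (nat_lit 122) (nat_lit 5) (nat_lit 478) (nat_lit 408) (nat_lit 314))) (XT.nd (nat_lit 78) (nat_lit 304) (nat_lit 0) (XT.lf (nat_lit 0) (nat_lit 10476476887) (nat_lit 380) (nat_lit 4625464519) (nat_lit 76) (nat_lit 2608192131) (nat_lit 117) (nat_lit 5) (nat_lit 122) (nat_lit 5) (nat_lit 118) (nat_lit 5) (nat_lit 479) (nat_lit 408) (nat_lit 313)) (XT.lf (nat_lit 0) (nat_lit 54018643) (nat_lit 304) (nat_lit 5456307055) (nat_lit 76) (nat_lit 12526346792) (nat_lit 113) (nat_lit 5) (nat_lit 117) (nat_lit 5) (nat_lit 114) (nat_lit 5) (nat_lit 480) (nat_lit 408) (nat_lit 312))))) (XT.nd (nat_lit 234) (nat_lit 1064) (nat_lit 0) (XT.nd (nat_lit 78) (nat_lit 608) (nat_lit 0) (XT.lf (nat_lit 0) (nat_lit 7569397522) (nat_lit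 380) (nat_lit 6351007886) (nat_lit 76) (nat_lit 4449499707) (nat_lit 109) (nat_lit 5) (nat_lit 114) (nat_lit 5) (nat_lit 110) (nat_lit 5) (nat_lit 481) (nat_lit 408) (nat_lit 311)) (XT.nd (nat_lit 78) (nat_lit 380) (nat_lit 0) (XT.lf (nat_lit 0) (nat_lit 11439985504) (nat_lit 228) (nat_lit 3986789805) (nat_lit 304) (nat_lit 3284029434) (nat_lit 106) (nat_lit 5) (nat_lit 109) (nat_lit 5) (nat_lit 110) (nat_lit 5) (nat_lit 482) (nat_lit 408) (nat_lit 310)) (XT.lf (nat_lit 0) (nat_lit 4523165630) (nat_lit 380) (nat_lit 8250562239) (nat_lit 76) (nat_lit 6285151566) (nat_lit 101) (nat_lit 5) (nat_lit 106) (nat_lit 5) (nat_lit 102) (nat_lit 5) (nat_lit 483) (nat_lit 408) (nat_lit 309)))) (XT.nd (nat_lit 156) (nat_lit 456) (nat_lit 0) (XT.nd (nat_lit 78) (nat_lit 380) (nat_lit 0) (XT.lf (nat_lit 0) (nat_lit 10144263960) (nat_lit 228) (nat_lit 2487076504) (nat_lit 304) (nat_lit 6783394850) (nat_lit 98) (nat_lit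 5) (nat_lit 101) (nat_lit 5) (nat_lit 102) (nat_lit 5) (nat_lit 484) (nat_lit 408) (nat_lit 308)) (XT.lf (nat_lit 0) (nat_lit 1326319597) (nat_lit 380) (nat_lit 10345042096) (nat_lit 76) (nat_lit 8106938168) (nat_lit 93) (nat_lit 5) (nat_lit 98) (nat_lit 5) (nat_lit 94) (nat_lit 5) (nat_lit 485) (nat_lit 408) (nat_lit 307))) (XT.nd (nat_lit 78) (nat_lit 228) (nat_lit 0) (XT.lf (nat_lit 0) (nat_lit 8672876905) (nat_lit 228) (nat_lit 1020780833) (nat_lit 304) (nat_lit 10456087663) (nat_lit 90) (nat_lit 5) (nat_lit 93) (nat_lit 5) (nat_lit 94) (nat_lit 5) (nat_lit 486) (nat_lit 408) (nat_lit 306)) (XT.lf (nat_lit 0) (nat_lit 7858459777) (nat_lit 228) (nat_lit 10609939467) (nat_lit 304) (nat_lit 2060808042) (nat_lit 87) (nat_lit 5) (nat_lit 90) (nat_lit 5) (nat_lit 91) (nat_lit 5) (nat_lit 487) (nat_lit 408) (nat_lit 305)))))) (XT.nd (nat_lit 56472) (nat_lit 0) (nat_lit 44840) (XT.nd (nat_lit 234) (nat_lit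 456) (nat_lit 0) (XT.nd (nat_lit 78) (nat_lit 532) (nat_lit 0) (XT.lf (nat_lit 0) (nat_lit 6603682358) (nat_lit 304) (nat_lit 13916701184) (nat_lit 76) (nat_lit 396740176) (nat_lit 83) (nat_lit 5) (nat_lit 87) (nat_lit 5) (nat_lit 84) (nat_lit 5) (nat_lit 488) (nat_lit 408) (nat_lit 304)) (XT.nd (nat_lit 78) (nat_lit 304) (nat_lit 0) (XT.lf (nat_lit 0) (nat_lit 6063713185) (nat_lit 228) (nat_lit 9604243303) (nat_lit 304) (nat_lit 5645092363) (nat_lit 80) (nat_lit 5) (nat_lit 83) (nat_lit 5) (nat_lit 84) (nat_lit 5) (nat_lit 489) (nat_lit 408) (nat_lit 303)) (XT.lf (nat_lit 0) (nat_lit 3351112825) (nat_lit 304) (nat_lit 16620064915) (nat_lit 76) (nat_lit 1747030879) (nat_lit 76) (nat_lit 5) (nat_lit 80) (nat_lit 5) (nat_lit 77) (nat_lit 5) (nat_lit 490) (nat_lit 408) (nat_lit 302)))) (XT.nd (nat_lit 56082) (nat_lit 0) (nat_lit 47804) (XT.nd (nat_lit 78) (nat_lit 228) (nat_lit 0) (XT.lf (nat_lit 0) (nat_lit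 4031651423) (nat_lit 228) (nat_lit 8675363798) (nat_lit 304) (nat_lit 9424432113) (nat_lit 73) (nat_lit 5) (nat_lit 76) (nat_lit 5) (nat_lit 77) (nat_lit 5) (nat_lit 491) (nat_lit 408) (nat_lit 301)) (XT.lf (nat_lit 0) (nat_lit 2944750202) (nat_lit 228) (nat_lit 19522561577) (nat_lit 304) (nat_lit 87297621) (nat_lit 70) (nat_lit 5) (nat_lit 73) (nat_lit 5) (nat_lit 74) (nat_lit 5) (nat_lit 492) (nat_lit 408) (nat_lit 300))) (XT.nd (nat_lit 78) (nat_lit 988) (nat_lit 0) (XT.lf (nat_lit 0) (nat_lit 1288663865) (nat_lit 0) (nat_lit 1288663865) (nat_lit 836) (nat_lit 815232488) (nat_lit 712) (nat_lit 5) (nat_lit 712) (nat_lit 3) (nat_lit 723) (nat_lit 3) (nat_lit 409) (nat_lit 409) (nat_lit 382)) (XT.lf (nat_lit 76) (nat_lit 859969901) (nat_lit 0) (nat_lit 610635897) (nat_lit 988) (nat_lit 5354161278) (nat_lit 700) (nat_lit 5) (nat_lit 699) (nat_lit 3) (nat_lit 712) (nat_lit 5) (nat_lit 410) (nat_lit 409)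 (nat_lit 381))))) (XT.nd (nat_lit 234) (nat_lit 2052) (nat_lit 0) (XT.nd (nat_lit 78) (nat_lit 988) (nat_lit 0) (XT.lf (nat_lit 0) (nat_lit 4559633583) (nat_lit 912) (nat_lit 813261164) (nat_lit 988) (nat_lit 1494161775) (nat_lit 700) (nat_lit 5) (nat_lit 712) (nat_lit 5) (nat_lit 713) (nat_lit 5) (nat_lit 411) (nat_lit 409) (nat_lit 380)) (XT.nd (nat_lit 78) (nat_lit 0) (nat_lit 0) (XT.lf (nat_lit 0) (nat_lit 735035449) (nat_lit 988) (nat_lit 2433005769) (nat_lit 1064) (nat_lit 3744171280) (nat_lit 687) (nat_lit 5) (nat_lit 700) (nat_lit 5) (nat_lit 701) (nat_lit 5) (nat_lit 412) (nat_lit 409) (nat_lit 379)) (XT.lf (nat_lit 76) (nat_lit 2942167650) (nat_lit 0) (nat_lit 804910337) (nat_lit 1064) (nat_lit 3213156628) (nat_lit 688) (nat_lit 5) (nat_lit 687) (nat_lit 5) (nat_lit 701) (nat_lit 5) (nat_lit 413) (nat_lit 409) (nat_lit 378)))) (XT.nd (nat_lit 156) (nat_lit 1064) (nat_lit 0) (XT.nd (nat_lit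 78) (nat_lit 1064) (nat_lit 0) (XT.lf (nat_lit 76) (nat_lit 1445344335) (nat_lit 0) (nat_lit 5328792030) (nat_lit 1064) (nat_lit 237077344) (nat_lit 689) (nat_lit 5) (nat_lit 688) (nat_lit 5) (nat_lit 702) (nat_lit 5) (nat_lit 414) (nat_lit 409) (nat_lit 377)) (XT.lf (nat_lit 0) (nat_lit 2714188734) (nat_lit 1064) (nat_lit 25309114) (nat_lit 1140) (nat_lit 4325406062) (nat_lit 674) (nat_lit 5) (nat_lit 688) (nat_lit 5) (nat_lit 689) (nat_lit 5) (nat_lit 415) (nat_lit 409) (nat_lit 376))) (XT.nd (nat_lit 78) (nat_lit 1140) (nat_lit 0) (XT.lf (nat_lit 0) (nat_lit 5681203306) (nat_lit 1064) (nat_lit 1431065458) (nat_lit 1140) (nat_lit 9304772) (nat_lit 675) (nat_lit 5) (nat_lit 689) (nat_lit 5) (nat_lit 690) (nat_lit 5) (nat_lit 416) (nat_lit 409) (nat_lit 375)) (XT.lf (nat_lit 0) (nat_lit 1479722716) (nat_lit 1140) (nat_lit 2818857644) (nat_lit 1216) (nat_lit 2882311710) (nat_lit 660) (nat_lit 5) (nat_lit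 675) (nat_lit 5) (nat_lit 676) (nat_lit 5) (nat_lit 417) (nat_lit 409) (nat_lit 374))))))))
noncomputable def xc50 : XT := (XT.nd (nat_lit 2106) (nat_lit 13908) (nat_lit 0) (XT.nd (nat_lit 1014) (nat_lit 13148) (nat_lit 0) (XT.nd (nat_lit 468) (nat_lit 9044) (nat_lit 0) (XT.nd (nat_lit 234) (nat_lit 1216) (nat_lit 0) (XT.nd (nat_lit 78) (nat_lit 1140) (nat_lit 0) (XT.lf (nat_lit 76) (nat_lit 3071748772) (nat_lit 0) (nat_lit 1324209417) (nat_lit 1216) (nat_lit 2847287413) (nat_lit 661) (nat_lit 5) (nat_lit 660) (nat_lit 5) (nat_lit 676) (nat_lit 5) (nat_lit 418) (nat_lit 409) (nat_lit 373)) (XT.nd (nat_lit 78) (nat_lit 0) (nat_lit 0) (XT.lf (nat_lit 0) (nat_lit 33993002) (nat_lit 1216) (nat_lit 5492575716) (nat_lit 1292) (nat_lit 1782036865) (nat_lit 645) (nat_lit 5) (nat_lit 661) (nat_lit 5) (nat_lit 662) (nat_lit 5) (nat_lit 419) (nat_lit 409) (nat_lit 372)) (XT.lf (nat_lit 76) (nat_lit 577482083)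 (nat_lit 0) (nat_lit 2329695979) (nat_lit 1292) (nat_lit 4469496318) (nat_lit 646) (nat_lit 5) (nat_lit 645) (nat_lit 5) (nat_lit 662) (nat_lit 5) (nat_lit 420) (nat_lit 409) (nat_lit 371)))) (XT.nd (nat_lit 78) (nat_lit 1292) (nat_lit 0) (XT.lf (nat_lit 0) (nat_lit 5815736291) (nat_lit 1216) (nat_lit 615648236) (nat_lit 1292) (nat_lit 1016424367) (nat_lit 646) (nat_lit 5) (nat_lit 662) (nat_lit 5) (nat_lit 663) (nat_lit 5) (nat_lit 421) (nat_lit 409) (nat_lit 370)) (XT.nd (nat_lit 78) (nat_lit 0) (nat_lit 76) (XT.lf (nat_lit 0) (nat_lit 1234391540) (nat_lit 1292) (nat_lit 1782738877) (nat_lit 1368) (nat_lit 4504569464) (nat_lit 629) (nat_lit 5) (nat_lit 646) (nat_lit 5) (nat_lit 647) (nat_lit 5) (nat_lit 422) (nat_lit 409) (nat_lit 369)) (XT.lf (nat_lit 0) (nat_lit 4112948479) (nat_lit 1292) (nat_lit 2923157904) (nat_lit 76) (nat_lit 562526667) (nat_lit 630) (nat_lit 5) (nat_lit 647) (nat_lit 5) (nat_lit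 631) (nat_lit 5) (nat_lit 423) (nat_lit 409) (nat_lit 368))))) (XT.nd (nat_lit 234) (nat_lit 4940) (nat_lit 0) (XT.nd (nat_lit 78) (nat_lit 2888) (nat_lit 0) (XT.lf (nat_lit 0) (nat_lit 3634687771) (nat_lit 1292) (nat_lit 3411327259) (nat_lit 1368) (nat_lit 632502591) (nat_lit 613) (nat_lit 5) (nat_lit 630) (nat_lit 5) (nat_lit 631) (nat_lit 5) (nat_lit 424) (nat_lit 409) (nat_lit 367)) (XT.nd (nat_lit 78) (nat_lit 1444) (nat_lit 0) (XT.lf (nat_lit 0) (nat_lit 2229318670) (nat_lit 1444) (nat_lit 5142897242) (nat_lit 76) (nat_lit 389223673) (nat_lit 594) (nat_lit 5) (nat_lit 613) (nat_lit 5) (nat_lit 595) (nat_lit 5) (nat_lit 425) (nat_lit 409) (nat_lit 366)) (XT.lf (nat_lit 0) (nat_lit 1616091272) (nat_lit 1444) (nat_lit 3529223176) (nat_lit 1520) (nat_lit 2701918856) (nat_lit 575) (nat_lit 5) (nat_lit 594) (nat_lit 5) (nat_lit 595) (nat_lit 5) (nat_lit 426) (nat_lit 409) (nat_lit 365)))) (XT.nd (nat_lit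 156) (nat_lit 3344) (nat_lit 0) (XT.nd (nat_lit 78) (nat_lit 0) (nat_lit 0) (XT.lf (nat_lit 0) (nat_lit 170303012) (nat_lit 1596) (nat_lit 7287030417) (nat_lit 76) (nat_lit 479047213) (nat_lit 554) (nat_lit 5) (nat_lit 575) (nat_lit 5) (nat_lit 555) (nat_lit 5) (nat_lit 427) (nat_lit 409) (nat_lit 364)) (XT.lf (nat_lit 0) (nat_lit 3077800917) (nat_lit 1596) (nat_lit 316088149) (nat_lit 76) (nat_lit 4634245305) (nat_lit 554) (nat_lit 5) (nat_lit 575) (nat_lit 5) (nat_lit 555) (nat_lit 5) (nat_lit 428) (nat_lit 409) (nat_lit 363))) (XT.nd (nat_lit 78) (nat_lit 1748) (nat_lit 0) (XT.lf (nat_lit 0) (nat_lit 6044604507) (nat_lit 1672) (nat_lit 1240846846) (nat_lit 76) (nat_lit 837753105) (nat_lit 533) (nat_lit 5) (nat_lit 555) (nat_lit 5) (nat_lit 534) (nat_lit 5) (nat_lit 429) (nat_lit 409) (nat_lit 362)) (XT.lf (nat_lit 0) (nat_lit 855704481) (nat_lit 1748) (nat_lit 2156968900) (nat_lit 76) (nat_lit 5208585171)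 (nat_lit 510) (nat_lit 5) (nat_lit 533) (nat_lit 5) (nat_lit 511) (nat_lit 5) (nat_lit 430) (nat_lit 409) (nat_lit 361)))))) (XT.nd (nat_lit 546) (nat_lit 4864) (nat_lit 0) (XT.nd (nat_lit 234) (nat_lit 3572) (nat_lit 0) (XT.nd (nat_lit 78) (nat_lit 2964) (nat_lit 0) (XT.lf (nat_lit 0) (nat_lit 3827160273) (nat_lit 1824) (nat_lit 3060185474) (nat_lit 76) (nat_lit 1435091441) (nat_lit 487) (nat_lit 5) (nat_lit 511) (nat_lit 5) (nat_lit 488) (nat_lit 5) (nat_lit 431) (nat_lit 409) (nat_lit 360)) (XT.nd (nat_lit 78) (nat_lit 1140) (nat_lit 0) (XT.lf (nat_lit 0) (nat_lit 4478491341) (nat_lit 1824) (nat_lit 2400077683) (nat_lit 1900) (nat_lit 1548270783) (nat_lit 463) (nat_lit 5) (nat_lit 487) (nat_lit 5) (nat_lit 488) (nat_lit 5) (nat_lit 432) (nat_lit 409) (nat_lit 359)) (XT.lf (nat_lit 0) (nat_lit 1455602773) (nat_lit 1140) (nat_lit 4826333138) (nat_lit 76) (nat_lit 2252490831) (nat_lit 448) (nat_lit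 5) (nat_lit 463) (nat_lit 5) (nat_lit 449) (nat_lit 5) (nat_lit 433) (nat_lit 409) (nat_lit 358)))) (XT.nd (nat_lit 156) (nat_lit 1748) (nat_lit 0) (XT.nd (nat_lit 78) (nat_lit 912) (nat_lit 0) (XT.lf (nat_lit 0) (nat_lit 2948219184) (nat_lit 912) (nat_lit 1572371067) (nat_lit 988) (nat_lit 4124610146) (nat_lit 436) (nat_lit 5) (nat_lit 448) (nat_lit 5) (nat_lit 449) (nat_lit 5) (nat_lit 434) (nat_lit 409) (nat_lit 357)) (XT.lf (nat_lit 0) (nat_lit 2203088809) (nat_lit 912) (nat_lit 5474366934) (nat_lit 988) (nat_lit 1081847263) (nat_lit 424) (nat_lit 5) (nat_lit 436) (nat_lit 5) (nat_lit 437) (nat_lit 5) (nat_lit 435) (nat_lit 409) (nat_lit 356))) (XT.nd (nat_lit 78) (nat_lit 836) (nat_lit 0) (XT.lf (nat_lit 0) (nat_lit 1469733491) (nat_lit 836) (nat_lit 547001930) (nat_lit 912) (nat_lit 6860001860) (nat_lit 412) (nat_lit 5) (nat_lit 423) (nat_lit 5) (nat_lit 424) (nat_lit 5) (nat_lit 436) (nat_lit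 409) (nat_lit 355)) (XT.lf (nat_lit 0) (nat_lit 734341585) (nat_lit 836) (nat_lit 4472273160) (nat_lit 912) (nat_lit 3790680061) (nat_lit 401) (nat_lit 5) (nat_lit 412) (nat_lit 5) (nat_lit 413) (nat_lit 5) (nat_lit 437) (nat_lit 409) (nat_lit 354))))) (XT.nd (nat_lit 234) (nat_lit 3116) (nat_lit 0) (XT.nd (nat_lit 78) (nat_lit 912) (nat_lit 0) (XT.lf (nat_lit 0) (nat_lit 25251391) (nat_lit 836) (nat_lit 8460827364) (nat_lit 912) (nat_lit 635516407) (nat_lit 390) (nat_lit 5) (nat_lit 401) (nat_lit 5) (nat_lit 402) (nat_lit 5) (nat_lit 438) (nat_lit 409) (nat_lit 353)) (XT.nd (nat_lit 78) (nat_lit 836) (nat_lit 0) (XT.lf (nat_lit 0) (nat_lit 2602846700) (nat_lit 912) (nat_lit 688230915) (nat_lit 76) (nat_lit 5957754492) (nat_lit 389) (nat_lit 5) (nat_lit 401) (nat_lit 5) (nat_lit 390) (nat_lit 5) (nat_lit 439) (nat_lit 409) (nat_lit 352)) (XT.lf (nat_lit 0) (nat_lit 5933722012) (nat_lit 912) (nat_lit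 1386365141) (nat_lit 76) (nat_lit 2059638658) (nat_lit 378) (nat_lit 5) (nat_lit 390) (nat_lit 5) (nat_lit 379) (nat_lit 5) (nat_lit 440) (nat_lit 409) (nat_lit 351)))) (XT.nd (nat_lit 156) (nat_lit 1520) (nat_lit 0) (XT.nd (nat_lit 78) (nat_lit 836) (nat_lit 0) (XT.lf (nat_lit 0) (nat_lit 7440083729) (nat_lit 760) (nat_lit 1939202845) (nat_lit 836) (nat_lit 134967967) (nat_lit 368) (nat_lit 5) (nat_lit 378) (nat_lit 5) (nat_lit 379) (nat_lit 5) (nat_lit 441) (nat_lit 409) (nat_lit 350)) (XT.lf (nat_lit 0) (nat_lit 3251253921) (nat_lit 836) (nat_lit 2775041802) (nat_lit 76) (nat_lit 3625725147) (nat_lit 357) (nat_lit 5) (nat_lit 368) (nat_lit 5) (nat_lit 358) (nat_lit 5) (nat_lit 442) (nat_lit 409) (nat_lit 349))) (XT.nd (nat_lit 78) (nat_lit 836) (nat_lit 0) (XT.lf (nat_lit 0) (nat_lit 6334932448) (nat_lit 684) (nat_lit 412515005) (nat_lit 760) (nat_lit 3046253729) (nat_lit 348) (nat_lit 5) (nat_lit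 357) (nat_lit 5) (nat_lit 358) (nat_lit 5) (nat_lit 443) (nat_lit 409) (nat_lit 348)) (XT.lf (nat_lit 0) (nat_lit 438340061) (nat_lit 836) (nat_lit 4149540004) (nat_lit 76) (nat_lit 5351005639) (nat_lit 337) (nat_lit 5) (nat_lit 348) (nat_lit 5) (nat_lit 338) (nat_lit 5) (nat_lit 444) (nat_lit 409) (nat_lit 347))))))) (XT.nd (nat_lit 1014) (nat_lit 6384) (nat_lit 0) (XT.nd (nat_lit 468) (nat_lit 3496) (nat_lit 0) (XT.nd (nat_lit 234) (nat_lit 1976) (nat_lit 0) (XT.nd (nat_lit 78) (nat_lit 1368) (nat_lit 0) (XT.lf (nat_lit 0) (nat_lit 3999040837) (nat_lit 760) (nat_lit 4841524705) (nat_lit 76) (nat_lit 1247201354) (nat_lit 328) (nat_lit 5) (nat_lit 338) (nat_lit 5) (nat_lit 329) (nat_lit 5) (nat_lit 445) (nat_lit 409) (nat_lit 346)) (XT.nd (nat_lit 78) (nat_lit 684) (nat_lit 0) (XT.lf (nat_lit 0) (nat_lit 4705708866) (nat_lit 684) (nat_lit 2995589788) (nat_lit 760) (nat_lit 2539124030) (nat_lit 319)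 (nat_lit 5) (nat_lit 328) (nat_lit 5) (nat_lit 329) (nat_lit 5) (nat_lit 446) (nat_lit 409) (nat_lit 345)) (XT.lf (nat_lit 0) (nat_lit 1128586841) (nat_lit 684) (nat_lit 6226223480) (nat_lit 76) (nat_lit 3042180125) (nat_lit 310) (nat_lit 5) (nat_lit 319) (nat_lit 5) (nat_lit 311) (nat_lit 5) (nat_lit 447) (nat_lit 409) (nat_lit 344)))) (XT.nd (nat_lit 78) (nat_lit 1292) (nat_lit 0) (XT.lf (nat_lit 0) (nat_lit 3631149027) (nat_lit 684) (nat_lit 1269346243) (nat_lit 760) (nat_lit 5656853700) (nat_lit 301) (nat_lit 5) (nat_lit 310) (nat_lit 5) (nat_lit 311) (nat_lit 5) (nat_lit 448) (nat_lit 409) (nat_lit 343)) (XT.nd (nat_lit 78) (nat_lit 684) (nat_lit 0) (XT.lf (nat_lit 0) (nat_lit 3090809316) (nat_lit 608) (nat_lit 5737896520) (nat_lit 684) (nat_lit 1892952098) (nat_lit 293) (nat_lit 5) (nat_lit 301) (nat_lit 5) (nat_lit 302) (nat_lit 5) (nat_lit 449) (nat_lit 409) (nat_lit 342)) (XT.lf (nat_lit 0)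 (nat_lit 1982892743) (nat_lit 684) (nat_lit 8333326819) (nat_lit 76) (nat_lit 573920556) (nat_lit 284) (nat_lit 5) (nat_lit 293) (nat_lit 5) (nat_lit 285) (nat_lit 5) (nat_lit 450) (nat_lit 409) (nat_lit 341))))) (XT.nd (nat_lit 234) (nat_lit 1672) (nat_lit 0) (XT.nd (nat_lit 78) (nat_lit 1216) (nat_lit 0) (XT.lf (nat_lit 0) (nat_lit 2002516806) (nat_lit 608) (nat_lit 4000249817) (nat_lit 684) (nat_lit 5059592853) (nat_lit 276) (nat_lit 5) (nat_lit 284) (nat_lit 5) (nat_lit 285) (nat_lit 5) (nat_lit 451) (nat_lit 409) (nat_lit 340)) (XT.nd (nat_lit 78) (nat_lit 608) (nat_lit 0) (XT.lf (nat_lit 0) (nat_lit 1462290218) (nat_lit 608) (nat_lit 8714405624) (nat_lit 684) (nat_lit 1062382709) (nat_lit 268) (nat_lit 5) (nat_lit 276) (nat_lit 5) (nat_lit 277) (nat_lit 5) (nat_lit 452) (nat_lit 409) (nat_lit 339)) (XT.lf (nat_lit 0) (nat_lit 905369289) (nat_lit 532) (nat_lit 2155296692) (nat_lit 608) (nat_lit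 8359119040) (nat_lit 260) (nat_lit 5) (nat_lit 267) (nat_lit 5) (nat_lit 268) (nat_lit 5) (nat_lit 453) (nat_lit 409) (nat_lit 338)))) (XT.nd (nat_lit 156) (nat_lit 1064) (nat_lit 0) (XT.nd (nat_lit 78) (nat_lit 76) (nat_lit 0) (XT.lf (nat_lit 0) (nat_lit 340726140) (nat_lit 532) (nat_lit 7003562090) (nat_lit 608) (nat_lit 4260459836) (nat_lit 253) (nat_lit 5) (nat_lit 260) (nat_lit 5) (nat_lit 261) (nat_lit 5) (nat_lit 454) (nat_lit 409) (nat_lit 337)) (XT.lf (nat_lit 0) (nat_lit 932874) (nat_lit 608) (nat_lit 206175915) (nat_lit 76) (nat_lit 11587373009) (nat_lit 252) (nat_lit 5) (nat_lit 260) (nat_lit 5) (nat_lit 253) (nat_lit 5) (nat_lit 455) (nat_lit 409) (nat_lit 336))) (XT.nd (nat_lit 78) (nat_lit 532) (nat_lit 0) (XT.lf (nat_lit 0) (nat_lit 4404769370) (nat_lit 608) (nat_lit 792437337) (nat_lit 76) (nat_lit 6790689884) (nat_lit 245) (nat_lit 5) (nat_lit 253) (nat_lit 5) (nat_lit 246) (nat_lit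 5) (nat_lit 456) (nat_lit 409) (nat_lit 335)) (XT.lf (nat_lit 0) (nat_lit 8981294321) (nat_lit 608) (nat_lit 1364185659) (nat_lit 76) (nat_lit 1840824303) (nat_lit 238) (nat_lit 5) (nat_lit 246) (nat_lit 5) (nat_lit 239) (nat_lit 5) (nat_lit 457) (nat_lit 409) (nat_lit 334)))))) (XT.nd (nat_lit 546) (nat_lit 2964) (nat_lit 0) (XT.nd (nat_lit 234) (nat_lit 1900) (nat_lit 0) (XT.nd (nat_lit 78) (nat_lit 988) (nat_lit 0) (XT.lf (nat_lit 0) (nat_lit 1351885343) (nat_lit 532) (nat_lit 1951546506) (nat_lit 76) (nat_lit 9085773944) (nat_lit 231) (nat_lit 5) (nat_lit 238) (nat_lit 5) (nat_lit 232) (nat_lit 5) (nat_lit 458) (nat_lit 409) (nat_lit 333)) (XT.nd (nat_lit 78) (nat_lit 456) (nat_lit 0) (XT.lf (nat_lit 0) (nat_lit 6059744833) (nat_lit 608) (nat_lit 2559064829) (nat_lit 76) (nat_lit 3977806746) (nat_lit 224) (nat_lit 5) (nat_lit 232) (nat_lit 5) (nat_lit 225) (nat_lit 5) (nat_lit 459) (nat_lit 409)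 (nat_lit 332)) (XT.lf (nat_lit 0) (nat_lit 9647160268) (nat_lit 456) (nat_lit 1317215547) (nat_lit 532) (nat_lit 1844764535) (nat_lit 218) (nat_lit 5) (nat_lit 224) (nat_lit 5) (nat_lit 225) (nat_lit 5) (nat_lit 460) (nat_lit 409) (nat_lit 331)))) (XT.nd (nat_lit 156) (nat_lit 912) (nat_lit 0) (XT.nd (nat_lit 78) (nat_lit 456) (nat_lit 0) (XT.lf (nat_lit 0) (nat_lit 3025429000) (nat_lit 532) (nat_lit 3798601326) (nat_lit 76) (nat_lit 6202093055) (nat_lit 211) (nat_lit 5) (nat_lit 218) (nat_lit 5) (nat_lit 212) (nat_lit 5) (nat_lit 461) (nat_lit 409) (nat_lit 330)) (XT.lf (nat_lit 0) (nat_lit 8068129133) (nat_lit 532) (nat_lit 4435734505) (nat_lit 76) (nat_lit 744480701) (nat_lit 205) (nat_lit 5) (nat_lit 212) (nat_lit 5) (nat_lit 206) (nat_lit 5) (nat_lit 462) (nat_lit 409) (nat_lit 329))) (XT.nd (nat_lit 78) (nat_lit 456) (nat_lit 0) (XT.lf (nat_lit 0) (nat_lit 8382285743) (nat_lit 456) (nat_lit 4965291831)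 (nat_lit 532) (nat_lit 127946553) (nat_lit 199) (nat_lit 5) (nat_lit 205) (nat_lit 5) (nat_lit 206) (nat_lit 5) (nat_lit 463) (nat_lit 409) (nat_lit 328)) (XT.lf (nat_lit 0) (nat_lit 5070033298) (nat_lit 456) (nat_lit 5777946320) (nat_lit 76) (nat_lit 2859667757) (nat_lit 193) (nat_lit 5) (nat_lit 199) (nat_lit 5) (nat_lit 194) (nat_lit 5) (nat_lit 464) (nat_lit 409) (nat_lit 327))))) (XT.nd (nat_lit 234) (nat_lit 1672) (nat_lit 0) (XT.nd (nat_lit 78) (nat_lit 836) (nat_lit 0) (XT.lf (nat_lit 0) (nat_lit 7472151734) (nat_lit 456) (nat_lit 3027234556) (nat_lit 532) (nat_lit 3445789104) (nat_lit 187) (nat_lit 5) (nat_lit 193) (nat_lit 5) (nat_lit 194) (nat_lit 5) (nat_lit 465) (nat_lit 409) (nat_lit 326)) (XT.nd (nat_lit 78) (nat_lit 380) (nat_lit 0) (XT.lf (nat_lit 0) (nat_lit 1956292986) (nat_lit 456) (nat_lit 7190544079) (nat_lit 76) (nat_lit 5041157701) (nat_lit 181) (nat_lit 5) (nat_lit 187) (nat_lit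 5) (nat_lit 182) (nat_lit 5) (nat_lit 466) (nat_lit 409) (nat_lit 325)) (XT.lf (nat_lit 0) (nat_lit 6507367977) (nat_lit 380) (nat_lit 1035018986) (nat_lit 456) (nat_lit 6893882262) (nat_lit 176) (nat_lit 5) (nat_lit 181) (nat_lit 5) (nat_lit 182) (nat_lit 5) (nat_lit 467) (nat_lit 409) (nat_lit 324)))) (XT.nd (nat_lit 156) (nat_lit 836) (nat_lit 0) (XT.nd (nat_lit 78) (nat_lit 456) (nat_lit 0) (XT.lf (nat_lit 0) (nat_lit 5996920596) (nat_lit 380) (nat_lit 7397118953) (nat_lit 456) (nat_lit 1295994134) (nat_lit 171) (nat_lit 5) (nat_lit 176) (nat_lit 5) (nat_lit 177) (nat_lit 5) (nat_lit 468) (nat_lit 409) (nat_lit 323)) (XT.lf (nat_lit 0) (nat_lit 4477255698) (nat_lit 456) (nat_lit 9478994013) (nat_lit 76) (nat_lit 993261210) (nat_lit 165) (nat_lit 5) (nat_lit 171) (nat_lit 5) (nat_lit 166) (nat_lit 5) (nat_lit 469) (nat_lit 409) (nat_lit 322))) (XT.nd (nat_lit 78) (nat_lit 456) (nat_lit 0) (XT.lf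 (nat_lit 0) (nat_lit 4911606261) (nat_lit 380) (nat_lit 5598775858) (nat_lit 456) (nat_lit 4704134479) (nat_lit 160) (nat_lit 5) (nat_lit 165) (nat_lit 5) (nat_lit 166) (nat_lit 5) (nat_lit 470) (nat_lit 409) (nat_lit 321)) (XT.lf (nat_lit 0) (nat_lit 1297907342) (nat_lit 456) (nat_lit 11136204323) (nat_lit 76) (nat_lit 3051659252) (nat_lit 154) (nat_lit 5) (nat_lit 160) (nat_lit 5) (nat_lit 155) (nat_lit 5) (nat_lit 471) (nat_lit 409) (nat_lit 320))))))))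
noncomputable def xc51 : XT := (XT.nd (nat_lit 57954) (nat_lit 0) (nat_lit 22952) (XT.nd (nat_lit 1014) (nat_lit 2660) (nat_lit 0) (XT.nd (nat_lit 468) (nat_lit 1900) (nat_lit 0) (XT.nd (nat_lit 234) (nat_lit 1064) (nat_lit 0) (XT.nd (nat_lit 78) (nat_lit 760) (nat_lit 0) (XT.lf (nat_lit 0) (nat_lit 3742639479) (nat_lit 304) (nat_lit 3770396022) (nat_lit 380) (nat_lit 8249567856) (nat_lit 150) (nat_lit 5) (nat_lit 154) (nat_lit 5) (nat_lit 155) (nat_lit 5) (nat_lit 472) (nat_lit 409) (nat_lit 319)) (XT.nd (nat_lit 78) (nat_lit 380) (nat_lit 0) (XT.lf (nat_lit 0) (nat_lit 3125464798) (nat_lit 380) (nat_lit 10883961203) (nat_lit 456) (nat_lit 2036419663) (nat_lit 145) (nat_lit 5) (nat_lit 150) (nat_lit 5) (nat_lit 151) (nat_lit 5) (nat_lit 473) (nat_lit 409) (nat_lit 318)) (XT.lf (nat_lit 0) (nat_lit 2477060121) (nat_lit 304) (nat_lit 1917656320) (nat_lit 380) (nat_lit 11940526912) (nat_lit 140) (nat_lit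 5) (nat_lit 144) (nat_lit 5) (nat_lit 145) (nat_lit 5) (nat_lit 474) (nat_lit 409) (nat_lit 317)))) (XT.nd (nat_lit 78) (nat_lit 684) (nat_lit 0) (XT.lf (nat_lit 0) (nat_lit 1788632055) (nat_lit 380) (nat_lit 9315949498) (nat_lit 456) (nat_lit 5526203952) (nat_lit 135) (nat_lit 5) (nat_lit 140) (nat_lit 5) (nat_lit 141) (nat_lit 5) (nat_lit 475) (nat_lit 409) (nat_lit 316)) (XT.nd (nat_lit 78) (nat_lit 304) (nat_lit 0) (XT.lf (nat_lit 0) (nat_lit 1100822042) (nat_lit 304) (nat_lit 46520854) (nat_lit 380) (nat_lit 15786092333) (nat_lit 130) (nat_lit 5) (nat_lit 134) (nat_lit 5) (nat_lit 135) (nat_lit 5) (nat_lit 476) (nat_lit 409) (nat_lit 315)) (XT.lf (nat_lit 0) (nat_lit 333129973) (nat_lit 304) (nat_lit 7745366169) (nat_lit 380) (nat_lit 9163289057) (nat_lit 126) (nat_lit 5) (nat_lit 130) (nat_lit 5) (nat_lit 131) (nat_lit 5) (nat_lit 477) (nat_lit 409) (nat_lit 314))))) (XT.nd (nat_lit 234) (nat_lit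 1216) (nat_lit 0) (XT.nd (nat_lit 78) (nat_lit 684) (nat_lit 0) (XT.lf (nat_lit 0) (nat_lit 15304797335) (nat_lit 380) (nat_lit 422822414) (nat_lit 76) (nat_lit 1830022534) (nat_lit 126) (nat_lit 5) (nat_lit 131) (nat_lit 5) (nat_lit 127) (nat_lit 5) (nat_lit 478) (nat_lit 409) (nat_lit 313)) (XT.nd (nat_lit 78) (nat_lit 304) (nat_lit 0) (XT.lf (nat_lit 0) (nat_lit 4930394209) (nat_lit 380) (nat_lit 1240495416) (nat_lit 76) (nat_lit 11708868851) (nat_lit 121) (nat_lit 5) (nat_lit 126) (nat_lit 5) (nat_lit 122) (nat_lit 5) (nat_lit 479) (nat_lit 409) (nat_lit 312)) (XT.lf (nat_lit 0) (nat_lit 12399753663) (nat_lit 380) (nat_lit 2081626250) (nat_lit 76) (nat_lit 3727836622) (nat_lit 117) (nat_lit 5) (nat_lit 122) (nat_lit 5) (nat_lit 118) (nat_lit 5) (nat_lit 480) (nat_lit 409) (nat_lit 311)))) (XT.nd (nat_lit 156) (nat_lit 608) (nat_lit 0) (XT.nd (nat_lit 78) (nat_lit 304) (nat_lit 0) (XT.lf (nat_lit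 0) (nat_lit 1645391024) (nat_lit 304) (nat_lit 2959749764) (nat_lit 76) (nat_lit 13940797474) (nat_lit 113) (nat_lit 5) (nat_lit 117) (nat_lit 5) (nat_lit 114) (nat_lit 5) (nat_lit 481) (nat_lit 409) (nat_lit 310)) (XT.lf (nat_lit 0) (nat_lit 9363780136) (nat_lit 380) (nat_lit 3900064387) (nat_lit 76) (nat_lit 5625773511) (nat_lit 109) (nat_lit 5) (nat_lit 114) (nat_lit 5) (nat_lit 110) (nat_lit 5) (nat_lit 482) (nat_lit 409) (nat_lit 309))) (XT.nd (nat_lit 78) (nat_lit 380) (nat_lit 0) (XT.lf (nat_lit 0) (nat_lit 14381804032) (nat_lit 228) (nat_lit 3046297649) (nat_lit 304) (nat_lit 1813219636) (nat_lit 106) (nat_lit 5) (nat_lit 109) (nat_lit 5) (nat_lit 110) (nat_lit 5) (nat_lit 483) (nat_lit 409) (nat_lit 308)) (XT.lf (nat_lit 0) (nat_lit 6186088651) (nat_lit 380) (nat_lit 5897751698) (nat_lit 76) (nat_lit 7516225588) (nat_lit 101) (nat_lit 5) (nat_lit 106) (nat_lit 5) (nat_lit 102) (nat_lit 5)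 (nat_lit 484) (nat_lit 409) (nat_lit 307)))))) (XT.nd (nat_lit 546) (nat_lit 760) (nat_lit 0) (XT.nd (nat_lit 234) (nat_lit 1064) (nat_lit 0) (XT.nd (nat_lit 78) (nat_lit 608) (nat_lit 0) (XT.lf (nat_lit 0) (nat_lit 13006732064) (nat_lit 228) (nat_lit 1502903439) (nat_lit 304) (nat_lit 5457520484) (nat_lit 98) (nat_lit 5) (nat_lit 101) (nat_lit 5) (nat_lit 102) (nat_lit 5) (nat_lit 485) (nat_lit 409) (nat_lit 306)) (XT.nd (nat_lit 78) (nat_lit 228) (nat_lit 0) (XT.lf (nat_lit 0) (nat_lit 2854781658) (nat_lit 380) (nat_lit 8096168129) (nat_lit 76) (nat_lit 9390892980) (nat_lit 93) (nat_lit 5) (nat_lit 98) (nat_lit 5) (nat_lit 94) (nat_lit 5) (nat_lit 486) (nat_lit 409) (nat_lit 305)) (XT.lf (nat_lit 0) (nat_lit 11446157293) (nat_lit 304) (nat_lit 9274234960) (nat_lit 76) (nat_lit 4580025) (nat_lit 90) (nat_lit 5) (nat_lit 94) (nat_lit 5) (nat_lit 91) (nat_lit 5) (nat_lit 487) (nat_lit 409) (nat_lit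 304)))) (XT.nd (nat_lit 156) (nat_lit 532) (nat_lit 0) (XT.nd (nat_lit 78) (nat_lit 304) (nat_lit 0) (XT.lf (nat_lit 0) (nat_lit 10593116430) (nat_lit 228) (nat_lit 9871303245) (nat_lit 304) (nat_lit 651793695) (nat_lit 87) (nat_lit 5) (nat_lit 90) (nat_lit 5) (nat_lit 91) (nat_lit 5) (nat_lit 488) (nat_lit 409) (nat_lit 303)) (XT.lf (nat_lit 0) (nat_lit 8233978085) (nat_lit 304) (nat_lit 11835128052) (nat_lit 76) (nat_lit 1446858304) (nat_lit 83) (nat_lit 5) (nat_lit 87) (nat_lit 5) (nat_lit 84) (nat_lit 5) (nat_lit 489) (nat_lit 409) (nat_lit 302))) (XT.nd (nat_lit 78) (nat_lit 304) (nat_lit 0) (XT.lf (nat_lit 0) (nat_lit 8704154239) (nat_lit 228) (nat_lit 8840274472) (nat_lit 304) (nat_lit 4379854505) (nat_lit 80) (nat_lit 5) (nat_lit 83) (nat_lit 5) (nat_lit 84) (nat_lit 5) (nat_lit 490) (nat_lit 409) (nat_lit 301)) (XT.lf (nat_lit 0) (nat_lit 4848806156) (nat_lit 304) (nat_lit 14660449142) (nat_lit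 76) (nat_lit 2832529319) (nat_lit 76) (nat_lit 5) (nat_lit 80) (nat_lit 5) (nat_lit 77) (nat_lit 5) (nat_lit 491) (nat_lit 409) (nat_lit 300))))) (XT.nd (nat_lit 56082) (nat_lit 0) (nat_lit 47120) (XT.nd (nat_lit 78) (nat_lit 532) (nat_lit 0) (XT.lf (nat_lit 0) (nat_lit 6570937024) (nat_lit 228) (nat_lit 7889456063) (nat_lit 304) (nat_lit 8307528045) (nat_lit 73) (nat_lit 5) (nat_lit 76) (nat_lit 5) (nat_lit 77) (nat_lit 5) (nat_lit 492) (nat_lit 409) (nat_lit 299)) (XT.nd (nat_lit 78) (nat_lit 228) (nat_lit 0) (XT.lf (nat_lit 0) (nat_lit 1274631992) (nat_lit 304) (nat_lit 17779984541) (nat_lit 76) (nat_lit 4149350431) (nat_lit 69) (nat_lit 5) (nat_lit 73) (nat_lit 5) (nat_lit 70) (nat_lit 5) (nat_lit 493) (nat_lit 409) (nat_lit 298)) (XT.lf (nat_lit 0) (nat_lit 4163703908) (nat_lit 228) (nat_lit 7032526051) (nat_lit 304) (nat_lit 12452469639) (nat_lit 66) (nat_lit 5) (nat_lit 69) (nat_lit 5) (nat_lit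 70) (nat_lit 5) (nat_lit 494) (nat_lit 409) (nat_lit 297)))) (XT.nd (nat_lit 156) (nat_lit 0) (nat_lit 0) (XT.nd (nat_lit 78) (nat_lit 988) (nat_lit 0) (XT.lf (nat_lit 0) (nat_lit 2239780697) (nat_lit 988) (nat_lit 596515098) (nat_lit 988) (nat_lit 596515098) (nat_lit 699) (nat_lit 3) (nat_lit 712) (nat_lit 3) (nat_lit 712) (nat_lit 5) (nat_lit 410) (nat_lit 410) (nat_lit 380)) (XT.lf (nat_lit 0) (nat_lit 575804336) (nat_lit 988) (nat_lit 2948138867) (nat_lit 1064) (nat_lit 3385411327) (nat_lit 686) (nat_lit 5) (nat_lit 699) (nat_lit 3) (nat_lit 700) (nat_lit 5) (nat_lit 411) (nat_lit 410) (nat_lit 379))) (XT.nd (nat_lit 78) (nat_lit 0) (nat_lit 76) (XT.lf (nat_lit 76) (nat_lit 2285704819) (nat_lit 0) (nat_lit 1216441861) (nat_lit 1064) (nat_lit 3453786047) (nat_lit 687) (nat_lit 5) (nat_lit 686) (nat_lit 5) (nat_lit 700) (nat_lit 5) (nat_lit 412) (nat_lit 410) (nat_lit 378)) (XT.lf (nat_lit 76) (nat_lit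 652240115) (nat_lit 0) (nat_lit 5784102180) (nat_lit 1064) (nat_lit 569174122) (nat_lit 688) (nat_lit 5) (nat_lit 687) (nat_lit 5) (nat_lit 701) (nat_lit 5) (nat_lit 413) (nat_lit 410) (nat_lit 377))))))) (XT.nd (nat_lit 1092) (nat_lit 15656) (nat_lit 0) (XT.nd (nat_lit 546) (nat_lit 5320) (nat_lit 0) (XT.nd (nat_lit 234) (nat_lit 1140) (nat_lit 0) (XT.nd (nat_lit 78) (nat_lit 1064) (nat_lit 0) (XT.lf (nat_lit 0) (nat_lit 2300780080) (nat_lit 1064) (nat_lit 944103338) (nat_lit 1140) (nat_lit 3812795119) (nat_lit 673) (nat_lit 5) (nat_lit 687) (nat_lit 5) (nat_lit 688) (nat_lit 5) (nat_lit 414) (nat_lit 410) (nat_lit 376)) (XT.nd (nat_lit 78) (nat_lit 1064) (nat_lit 0) (XT.lf (nat_lit 76) (nat_lit 4623479199) (nat_lit 0) (nat_lit 549193211) (nat_lit 1140) (nat_lit 1940195113) (nat_lit 674) (nat_lit 5) (nat_lit 673) (nat_lit 5) (nat_lit 688) (nat_lit 5) (nat_lit 415) (nat_lit 410) (nat_lit 375)) (XT.lf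 (nat_lit 0) (nat_lit 885955661) (nat_lit 1140) (nat_lit 4010420658) (nat_lit 1216) (nat_lit 2274468337) (nat_lit 659) (nat_lit 5) (nat_lit 674) (nat_lit 5) (nat_lit 675) (nat_lit 5) (nat_lit 416) (nat_lit 410) (nat_lit 374)))) (XT.nd (nat_lit 156) (nat_lit 1140) (nat_lit 0) (XT.nd (nat_lit 78) (nat_lit 0) (nat_lit 76) (XT.lf (nat_lit 76) (nat_lit 1727040466) (nat_lit 0) (nat_lit 1973958756) (nat_lit 1216) (nat_lit 3530704063) (nat_lit 660) (nat_lit 5) (nat_lit 659) (nat_lit 5) (nat_lit 675) (nat_lit 5) (nat_lit 417) (nat_lit 410) (nat_lit 373)) (XT.lf (nat_lit 76) (nat_lit 331465189) (nat_lit 0) (nat_lit 6206518240) (nat_lit 1216) (nat_lit 757662254) (nat_lit 661) (nat_lit 5) (nat_lit 660) (nat_lit 5) (nat_lit 676) (nat_lit 5) (nat_lit 418) (nat_lit 410) (nat_lit 372))) (XT.nd (nat_lit 78) (nat_lit 0) (nat_lit 76) (XT.lf (nat_lit 0) (nat_lit 2024875387) (nat_lit 1216) (nat_lit 1033721817) (nat_lit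 1292) (nat_lit 4303567511) (nat_lit 644) (nat_lit 5) (nat_lit 660) (nat_lit 5) (nat_lit 661) (nat_lit 5) (nat_lit 419) (nat_lit 410) (nat_lit 371)) (XT.lf (nat_lit 0) (nat_lit 4821152920) (nat_lit 1216) (nat_lit 2359382477) (nat_lit 1292) (nat_lit 251239815) (nat_lit 645) (nat_lit 5) (nat_lit 661) (nat_lit 5) (nat_lit 662) (nat_lit 5) (nat_lit 420) (nat_lit 410) (nat_lit 370))))) (XT.nd (nat_lit 234) (nat_lit 4104) (nat_lit 0) (XT.nd (nat_lit 78) (nat_lit 0) (nat_lit 0) (XT.lf (nat_lit 0) (nat_lit 155861824) (nat_lit 1292) (nat_lit 3666017468) (nat_lit 1368) (nat_lit 3682363663) (nat_lit 628) (nat_lit 5) (nat_lit 645) (nat_lit 5) (nat_lit 646) (nat_lit 5) (nat_lit 421) (nat_lit 410) (nat_lit 369)) (XT.nd (nat_lit 78) (nat_lit 0) (nat_lit 76) (XT.lf (nat_lit 76) (nat_lit 2629144743) (nat_lit 0) (nat_lit 284204702) (nat_lit 1368) (nat_lit 4666327279) (nat_lit 629) (nat_lit 5) (nat_lit 628) (nat_lit 5)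 (nat_lit 646) (nat_lit 5) (nat_lit 422) (nat_lit 410) (nat_lit 368)) (XT.lf (nat_lit 76) (nat_lit 1439200559) (nat_lit 0) (nat_lit 4283014899) (nat_lit 1368) (nat_lit 1935791439) (nat_lit 630) (nat_lit 5) (nat_lit 629) (nat_lit 5) (nat_lit 647) (nat_lit 5) (nat_lit 423) (nat_lit 410) (nat_lit 367)))) (XT.nd (nat_lit 156) (nat_lit 2812) (nat_lit 0) (XT.nd (nat_lit 78) (nat_lit 0) (nat_lit 76) (XT.lf (nat_lit 76) (nat_lit 281985324) (nat_lit 0) (nat_lit 534735146) (nat_lit 1444) (nat_lit 6922827670) (nat_lit 612) (nat_lit 5) (nat_lit 611) (nat_lit 5) (nat_lit 630) (nat_lit 5) (nat_lit 424) (nat_lit 410) (nat_lit 366)) (XT.lf (nat_lit 0) (nat_lit 3605956193) (nat_lit 1368) (nat_lit 859632360) (nat_lit 76) (nat_lit 3358088163) (nat_lit 612) (nat_lit 5) (nat_lit 630) (nat_lit 5) (nat_lit 613) (nat_lit 5) (nat_lit 425) (nat_lit 410) (nat_lit 365))) (XT.nd (nat_lit 78) (nat_lit 1520) (nat_lit 0) (XT.lf (nat_lit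 0) (nat_lit 5947512039) (nat_lit 1368) (nat_lit 492270611) (nat_lit 1444) (nat_lit 1471334030) (nat_lit 594) (nat_lit 5) (nat_lit 612) (nat_lit 5) (nat_lit 613) (nat_lit 5) (nat_lit 426) (nat_lit 410) (nat_lit 364)) (XT.lf (nat_lit 0) (nat_lit 1321674715) (nat_lit 1520) (nat_lit 3063023097) (nat_lit 76) (nat_lit 3616670607) (nat_lit 574) (nat_lit 5) (nat_lit 594) (nat_lit 5) (nat_lit 575) (nat_lit 5) (nat_lit 427) (nat_lit 410) (nat_lit 363)))))) (XT.nd (nat_lit 546) (nat_lit 6080) (nat_lit 0) (XT.nd (nat_lit 234) (nat_lit 4712) (nat_lit 0) (XT.nd (nat_lit 78) (nat_lit 3344) (nat_lit 0) (XT.lf (nat_lit 0) (nat_lit 3954987493) (nat_lit 1520) (nat_lit 188154885) (nat_lit 1596) (nat_lit 3951703015) (nat_lit 554) (nat_lit 5) (nat_lit 574) (nat_lit 5) (nat_lit 575) (nat_lit 5) (nat_lit 428) (nat_lit 410) (nat_lit 362)) (XT.nd (nat_lit 78) (nat_lit 1748) (nat_lit 0) (XT.lf (nat_lit 0) (nat_lit 2982481940)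 (nat_lit 1596) (nat_lit 4057996527) (nat_lit 1672) (nat_lit 1150828926) (nat_lit 533) (nat_lit 5) (nat_lit 554) (nat_lit 5) (nat_lit 555) (nat_lit 5) (nat_lit 429) (nat_lit 410) (nat_lit 361)) (XT.lf (nat_lit 0) (nat_lit 1681769740) (nat_lit 1748) (nat_lit 6258706341) (nat_lit 76) (nat_lit 350558131) (nat_lit 510) (nat_lit 5) (nat_lit 533) (nat_lit 5) (nat_lit 511) (nat_lit 5) (nat_lit 430) (nat_lit 410) (nat_lit 360)))) (XT.nd (nat_lit 156) (nat_lit 1140) (nat_lit 0) (XT.nd (nat_lit 78) (nat_lit 1824) (nat_lit 0) (XT.lf (nat_lit 0) (nat_lit 1083270460) (nat_lit 1748) (nat_lit 3497480890) (nat_lit 1824) (nat_lit 3812913350) (nat_lit 487) (nat_lit 5) (nat_lit 510) (nat_lit 5) (nat_lit 511) (nat_lit 5) (nat_lit 431) (nat_lit 410) (nat_lit 359)) (XT.lf (nat_lit 0) (nat_lit 162235132) (nat_lit 1824) (nat_lit 7384218482) (nat_lit 1900) (nat_lit 953330135) (nat_lit 463) (nat_lit 5) (nat_lit 487) (nat_lit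 5) (nat_lit 488) (nat_lit 5) (nat_lit 432) (nat_lit 410) (nat_lit 358))) (XT.nd (nat_lit 78) (nat_lit 1064) (nat_lit 0) (XT.lf (nat_lit 0) (nat_lit 1969358487) (nat_lit 1900) (nat_lit 750769047) (nat_lit 76) (nat_lit 5888635727) (nat_lit 462) (nat_lit 5) (nat_lit 487) (nat_lit 5) (nat_lit 463) (nat_lit 5) (nat_lit 433) (nat_lit 410) (nat_lit 357)) (XT.lf (nat_lit 0) (nat_lit 4958991578) (nat_lit 1140) (nat_lit 1648280159) (nat_lit 76) (nat_lit 2113774393) (nat_lit 448) (nat_lit 5) (nat_lit 463) (nat_lit 5) (nat_lit 449) (nat_lit 5) (nat_lit 434) (nat_lit 410) (nat_lit 356))))) (XT.nd (nat_lit 234) (nat_lit 3344) (nat_lit 0) (XT.nd (nat_lit 78) (nat_lit 1824) (nat_lit 0) (XT.lf (nat_lit 0) (nat_lit 6305599554) (nat_lit 912) (nat_lit 1730784648) (nat_lit 988) (nat_lit 800356059) (nat_lit 436) (nat_lit 5) (nat_lit 448) (nat_lit 5) (nat_lit 449) (nat_lit 5) (nat_lit 435) (nat_lit 410) (nat_lit 355)) (XT.nd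 (nat_lit 78) (nat_lit 836) (nat_lit 0) (XT.lf (nat_lit 0) (nat_lit 2224725940) (nat_lit 988) (nat_lit 3417958053) (nat_lit 76) (nat_lit 3312852131) (nat_lit 423) (nat_lit 5) (nat_lit 436) (nat_lit 5) (nat_lit 424) (nat_lit 5) (nat_lit 436) (nat_lit 410) (nat_lit 354)) (XT.lf (nat_lit 0) (nat_lit 4787545169) (nat_lit 836) (nat_lit 538534214) (nat_lit 912) (nat_lit 3751786691) (nat_lit 412) (nat_lit 5) (nat_lit 423) (nat_lit 5) (nat_lit 424) (nat_lit 5) (nat_lit 437) (nat_lit 410) (nat_lit 353)))) (XT.nd (nat_lit 156) (nat_lit 1596) (nat_lit 0) (XT.nd (nat_lit 78) (nat_lit 912) (nat_lit 0) (XT.lf (nat_lit 0) (nat_lit 4040936356) (nat_lit 836) (nat_lit 4497574657) (nat_lit 912) (nat_lit 664997916) (nat_lit 401) (nat_lit 5) (nat_lit 412) (nat_lit 5) (nat_lit 413) (nat_lit 5) (nat_lit 438) (nat_lit 410) (nat_lit 352)) (XT.lf (nat_lit 0) (nat_lit 2480020538) (nat_lit 912) (nat_lit 6030007215) (nat_lit 76)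 (nat_lit 822598337) (nat_lit 389) (nat_lit 5) (nat_lit 401) (nat_lit 5) (nat_lit 390) (nat_lit 5) (nat_lit 439) (nat_lit 410) (nat_lit 351))) (XT.nd (nat_lit 78) (nat_lit 760) (nat_lit 0) (XT.lf (nat_lit 0) (nat_lit 2562572395) (nat_lit 836) (nat_lit 3169966051) (nat_lit 912) (nat_lit 3732550209) (nat_lit 378) (nat_lit 5) (nat_lit 389) (nat_lit 5) (nat_lit 390) (nat_lit 5) (nat_lit 440) (nat_lit 410) (nat_lit 350)) (XT.lf (nat_lit 0) (nat_lit 1839582281) (nat_lit 760) (nat_lit 7252763406) (nat_lit 836) (nat_lit 508988505) (nat_lit 368) (nat_lit 5) (nat_lit 378) (nat_lit 5) (nat_lit 379) (nat_lit 5) (nat_lit 441) (nat_lit 410) (nat_lit 349))))))))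
noncomputable def xc52 : XT := (XT.nd (nat_lit 2106) (nat_lit 8360) (nat_lit 0) (XT.nd (nat_lit 1014) (nat_lit 6384) (nat_lit 0) (XT.nd (nat_lit 468) (nat_lit 4408) (nat_lit 0) (XT.nd (nat_lit 234) (nat_lit 2280) (nat_lit 0) (XT.nd (nat_lit 78) (nat_lit 684) (nat_lit 0) (XT.lf (nat_lit 0) (nat_lit 1108839541) (nat_lit 760) (nat_lit 1683473520) (nat_lit 836) (nat_lit 6948634123) (nat_lit 357) (nat_lit 5) (nat_lit 367) (nat_lit 5) (nat_lit 368) (nat_lit 5) (nat_lit 442) (nat_lit 410) (nat_lit 348)) (XT.nd (nat_lit 78) (nat_lit 0) (nat_lit 0) (XT.lf (nat_lit 0) (nat_lit 379312179) (nat_lit 684) (nat_lit 5831838451) (nat_lit 760) (nat_lit 3673025520) (nat_lit 348) (nat_lit 5) (nat_lit 357) (nat_lit 5) (nat_lit 358) (nat_lit 5) (nat_lit 443) (nat_lit 410) (nat_lit 347)) (XT.lf (nat_lit 0) (nat_lit 9705165320) (nat_lit 684) (nat_lit 41951819) (nat_lit 760) (nat_lit 284296595) (nat_lit 348) (nat_lit 5) (nat_lit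 357) (nat_lit 5) (nat_lit 358) (nat_lit 5) (nat_lit 444) (nat_lit 410) (nat_lit 346)))) (XT.nd (nat_lit 78) (nat_lit 1444) (nat_lit 0) (XT.lf (nat_lit 0) (nat_lit 3208617688) (nat_lit 836) (nat_lit 1055906694) (nat_lit 76) (nat_lit 5917239181) (nat_lit 337) (nat_lit 5) (nat_lit 348) (nat_lit 5) (nat_lit 338) (nat_lit 5) (nat_lit 445) (nat_lit 410) (nat_lit 345)) (XT.nd (nat_lit 78) (nat_lit 760) (nat_lit 0) (XT.lf (nat_lit 0) (nat_lit 6819432006) (nat_lit 760) (nat_lit 1769813655) (nat_lit 76) (nat_lit 1747003938) (nat_lit 328) (nat_lit 5) (nat_lit 338) (nat_lit 5) (nat_lit 329) (nat_lit 5) (nat_lit 446) (nat_lit 410) (nat_lit 344)) (XT.lf (nat_lit 0) (nat_lit 78951778) (nat_lit 760) (nat_lit 2483525099) (nat_lit 76) (nat_lit 7932164034) (nat_lit 318) (nat_lit 5) (nat_lit 328) (nat_lit 5) (nat_lit 319) (nat_lit 5) (nat_lit 447) (nat_lit 410) (nat_lit 343))))) (XT.nd (nat_lit 234) (nat_lit 2432) (nat_lit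 0) (XT.nd (nat_lit 78) (nat_lit 1368) (nat_lit 0) (XT.lf (nat_lit 0) (nat_lit 3768901851) (nat_lit 684) (nat_lit 3216032274) (nat_lit 76) (nat_lit 3671705749) (nat_lit 310) (nat_lit 5) (nat_lit 319) (nat_lit 5) (nat_lit 311) (nat_lit 5) (nat_lit 448) (nat_lit 410) (nat_lit 342)) (XT.nd (nat_lit 78) (nat_lit 684) (nat_lit 0) (XT.lf (nat_lit 0) (nat_lit 6885194239) (nat_lit 684) (nat_lit 713277203) (nat_lit 760) (nat_lit 3224451453) (nat_lit 301) (nat_lit 5) (nat_lit 310) (nat_lit 5) (nat_lit 311) (nat_lit 5) (nat_lit 449) (nat_lit 410) (nat_lit 341)) (XT.lf (nat_lit 0) (nat_lit 593311726) (nat_lit 684) (nat_lit 4672931102) (nat_lit 76) (nat_lit 5726847216) (nat_lit 292) (nat_lit 5) (nat_lit 301) (nat_lit 5) (nat_lit 293) (nat_lit 5) (nat_lit 450) (nat_lit 410) (nat_lit 340)))) (XT.nd (nat_lit 156) (nat_lit 1216) (nat_lit 0) (XT.nd (nat_lit 78) (nat_lit 608) (nat_lit 0) (XT.lf (nat_lit 0) (nat_lit 4511084404)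 (nat_lit 684) (nat_lit 5415507576) (nat_lit 76) (nat_lit 1240760588) (nat_lit 284) (nat_lit 5) (nat_lit 293) (nat_lit 5) (nat_lit 285) (nat_lit 5) (nat_lit 451) (nat_lit 410) (nat_lit 339)) (XT.lf (nat_lit 0) (nat_lit 5179017257) (nat_lit 608) (nat_lit 3420867116) (nat_lit 684) (nat_lit 2745890964) (nat_lit 276) (nat_lit 5) (nat_lit 284) (nat_lit 5) (nat_lit 285) (nat_lit 5) (nat_lit 452) (nat_lit 410) (nat_lit 338))) (XT.nd (nat_lit 78) (nat_lit 532) (nat_lit 0) (XT.lf (nat_lit 0) (nat_lit 1307140555) (nat_lit 684) (nat_lit 6922089862) (nat_lit 76) (nat_lit 3299312988) (nat_lit 267) (nat_lit 5) (nat_lit 276) (nat_lit 5) (nat_lit 268) (nat_lit 5) (nat_lit 453) (nat_lit 410) (nat_lit 337)) (XT.lf (nat_lit 0) (nat_lit 4022470535) (nat_lit 532) (nat_lit 1467595236) (nat_lit 608) (nat_lit 6225455644) (nat_lit 260) (nat_lit 5) (nat_lit 267) (nat_lit 5) (nat_lit 268) (nat_lit 5) (nat_lit 454) (nat_lit 410)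 (nat_lit 336)))))) (XT.nd (nat_lit 546) (nat_lit 3116) (nat_lit 0) (XT.nd (nat_lit 234) (nat_lit 1596) (nat_lit 0) (XT.nd (nat_lit 78) (nat_lit 1140) (nat_lit 0) (XT.lf (nat_lit 0) (nat_lit 3432048866) (nat_lit 532) (nat_lit 6426810070) (nat_lit 608) (nat_lit 2048044245) (nat_lit 253) (nat_lit 5) (nat_lit 260) (nat_lit 5) (nat_lit 261) (nat_lit 5) (nat_lit 455) (nat_lit 410) (nat_lit 335)) (XT.nd (nat_lit 78) (nat_lit 532) (nat_lit 0) (XT.lf (nat_lit 0) (nat_lit 2265504283) (nat_lit 608) (nat_lit 9260574989) (nat_lit 76) (nat_lit 576848563) (nat_lit 245) (nat_lit 5) (nat_lit 253) (nat_lit 5) (nat_lit 246) (nat_lit 5) (nat_lit 456) (nat_lit 410) (nat_lit 334)) (XT.lf (nat_lit 0) (nat_lit 2224181723) (nat_lit 532) (nat_lit 4528467528) (nat_lit 608) (nat_lit 5550474793) (nat_lit 238) (nat_lit 5) (nat_lit 245) (nat_lit 5) (nat_lit 246) (nat_lit 5) (nat_lit 457) (nat_lit 410) (nat_lit 333)))) (XT.nd (nat_lit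 156) (nat_lit 532) (nat_lit 0) (XT.nd (nat_lit 78) (nat_lit 608) (nat_lit 0) (XT.lf (nat_lit 0) (nat_lit 1616444318) (nat_lit 456) (nat_lit 9806430829) (nat_lit 532) (nat_lit 1085483474) (nat_lit 232) (nat_lit 5) (nat_lit 238) (nat_lit 5) (nat_lit 239) (nat_lit 5) (nat_lit 458) (nat_lit 410) (nat_lit 332)) (XT.lf (nat_lit 0) (nat_lit 982896552) (nat_lit 532) (nat_lit 2547891201) (nat_lit 608) (nat_lit 9187239777) (nat_lit 224) (nat_lit 5) (nat_lit 231) (nat_lit 5) (nat_lit 232) (nat_lit 5) (nat_lit 459) (nat_lit 410) (nat_lit 331))) (XT.nd (nat_lit 78) (nat_lit 76) (nat_lit 0) (XT.lf (nat_lit 0) (nat_lit 336720112) (nat_lit 456) (nat_lit 8001378650) (nat_lit 532) (nat_lit 4594399934) (nat_lit 218) (nat_lit 5) (nat_lit 224) (nat_lit 5) (nat_lit 225) (nat_lit 5) (nat_lit 460) (nat_lit 410) (nat_lit 330)) (XT.lf (nat_lit 0) (nat_lit 190818439) (nat_lit 532) (nat_lit 296979535) (nat_lit 76) (nat_lit 12664462329)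 (nat_lit 217) (nat_lit 5) (nat_lit 224) (nat_lit 5) (nat_lit 218) (nat_lit 5) (nat_lit 461) (nat_lit 410) (nat_lit 329))))) (XT.nd (nat_lit 234) (nat_lit 1672) (nat_lit 0) (XT.nd (nat_lit 78) (nat_lit 988) (nat_lit 0) (XT.lf (nat_lit 0) (nat_lit 5146530780) (nat_lit 532) (nat_lit 977965938) (nat_lit 76) (nat_lit 7251725062) (nat_lit 211) (nat_lit 5) (nat_lit 218) (nat_lit 5) (nat_lit 212) (nat_lit 5) (nat_lit 462) (nat_lit 410) (nat_lit 328)) (XT.nd (nat_lit 78) (nat_lit 532) (nat_lit 0) (XT.lf (nat_lit 0) (nat_lit 10305944195) (nat_lit 532) (nat_lit 1647772380) (nat_lit 76) (nat_lit 1652086434) (nat_lit 205) (nat_lit 5) (nat_lit 212) (nat_lit 5) (nat_lit 206) (nat_lit 5) (nat_lit 463) (nat_lit 410) (nat_lit 327)) (XT.lf (nat_lit 0) (nat_lit 1839271636) (nat_lit 532) (nat_lit 2345292149) (nat_lit 76) (nat_lit 9655784049) (nat_lit 198) (nat_lit 5) (nat_lit 205) (nat_lit 5) (nat_lit 199) (nat_lit 5)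 (nat_lit 464) (nat_lit 410) (nat_lit 326)))) (XT.nd (nat_lit 156) (nat_lit 836) (nat_lit 0) (XT.nd (nat_lit 78) (nat_lit 456) (nat_lit 0) (XT.lf (nat_lit 0) (nat_lit 7158614460) (nat_lit 456) (nat_lit 3065752407) (nat_lit 76) (nat_lit 3855709874) (nat_lit 193) (nat_lit 5) (nat_lit 199) (nat_lit 5) (nat_lit 194) (nat_lit 5) (nat_lit 465) (nat_lit 410) (nat_lit 325)) (XT.lf (nat_lit 0) (nat_lit 10535034255) (nat_lit 456) (nat_lit 2177842292) (nat_lit 532) (nat_lit 1612615535) (nat_lit 187) (nat_lit 5) (nat_lit 193) (nat_lit 5) (nat_lit 194) (nat_lit 5) (nat_lit 466) (nat_lit 410) (nat_lit 324))) (XT.nd (nat_lit 78) (nat_lit 380) (nat_lit 0) (XT.lf (nat_lit 0) (nat_lit 3894889451) (nat_lit 456) (nat_lit 4557133153) (nat_lit 76) (nat_lit 6123948747) (nat_lit 181) (nat_lit 5) (nat_lit 187) (nat_lit 5) (nat_lit 182) (nat_lit 5) (nat_lit 467) (nat_lit 410) (nat_lit 323)) (XT.lf (nat_lit 0) (nat_lit 9505492560)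 (nat_lit 380) (nat_lit 106517404) (nat_lit 456) (nat_lit 5220417101) (nat_lit 176) (nat_lit 5) (nat_lit 181) (nat_lit 5) (nat_lit 182) (nat_lit 5) (nat_lit 468) (nat_lit 410) (nat_lit 322))))))) (XT.nd (nat_lit 1014) (nat_lit 3648) (nat_lit 0) (XT.nd (nat_lit 468) (nat_lit 2356) (nat_lit 0) (XT.nd (nat_lit 234) (nat_lit 1140) (nat_lit 0) (XT.nd (nat_lit 78) (nat_lit 760) (nat_lit 0) (XT.lf (nat_lit 0) (nat_lit 508514991) (nat_lit 456) (nat_lit 6133282542) (nat_lit 76) (nat_lit 8452532697) (nat_lit 170) (nat_lit 5) (nat_lit 176) (nat_lit 5) (nat_lit 171) (nat_lit 5) (nat_lit 469) (nat_lit 410) (nat_lit 321)) (XT.nd (nat_lit 78) (nat_lit 380) (nat_lit 0) (XT.lf (nat_lit 0) (nat_lit 6408569800) (nat_lit 456) (nat_lit 6967490526) (nat_lit 76) (nat_lit 1985937582) (nat_lit 165) (nat_lit 5) (nat_lit 171) (nat_lit 5) (nat_lit 166) (nat_lit 5) (nat_lit 470) (nat_lit 410) (nat_lit 320)) (XT.lf (nat_lit 0) (nat_lit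 7809468034) (nat_lit 380) (nat_lit 4778740437) (nat_lit 456) (nat_lit 3047436617) (nat_lit 160) (nat_lit 5) (nat_lit 165) (nat_lit 5) (nat_lit 166) (nat_lit 5) (nat_lit 471) (nat_lit 410) (nat_lit 319)))) (XT.nd (nat_lit 78) (nat_lit 684) (nat_lit 0) (XT.lf (nat_lit 0) (nat_lit 3083550411) (nat_lit 456) (nat_lit 8712710380) (nat_lit 76) (nat_lit 4119095157) (nat_lit 154) (nat_lit 5) (nat_lit 160) (nat_lit 5) (nat_lit 155) (nat_lit 5) (nat_lit 472) (nat_lit 410) (nat_lit 318)) (XT.nd (nat_lit 78) (nat_lit 380) (nat_lit 0) (XT.lf (nat_lit 0) (nat_lit 6567760276) (nat_lit 304) (nat_lit 2884110779) (nat_lit 380) (nat_lit 6749289106) (nat_lit 150) (nat_lit 5) (nat_lit 154) (nat_lit 5) (nat_lit 155) (nat_lit 5) (nat_lit 473) (nat_lit 410) (nat_lit 317)) (XT.lf (nat_lit 0) (nat_lit 5915438720) (nat_lit 380) (nat_lit 10201613738) (nat_lit 456) (nat_lit 376370820) (nat_lit 145) (nat_lit 5) (nat_lit 150) (nat_lit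 5) (nat_lit 151) (nat_lit 5) (nat_lit 474) (nat_lit 410) (nat_lit 316))))) (XT.nd (nat_lit 234) (nat_lit 1216) (nat_lit 0) (XT.nd (nat_lit 78) (nat_lit 760) (nat_lit 0) (XT.lf (nat_lit 0) (nat_lit 5226095032) (nat_lit 304) (nat_lit 966924468) (nat_lit 380) (nat_lit 10598903493) (nat_lit 140) (nat_lit 5) (nat_lit 144) (nat_lit 5) (nat_lit 145) (nat_lit 5) (nat_lit 475) (nat_lit 410) (nat_lit 315)) (XT.nd (nat_lit 78) (nat_lit 380) (nat_lit 0) (XT.lf (nat_lit 0) (nat_lit 4500015971) (nat_lit 380) (nat_lit 8579238226) (nat_lit 456) (nat_lit 4017577150) (nat_lit 135) (nat_lit 5) (nat_lit 140) (nat_lit 5) (nat_lit 141) (nat_lit 5) (nat_lit 476) (nat_lit 410) (nat_lit 314)) (XT.lf (nat_lit 0) (nat_lit 2809480265) (nat_lit 380) (nat_lit 13645139975) (nat_lit 76) (nat_lit 954218949) (nat_lit 130) (nat_lit 5) (nat_lit 135) (nat_lit 5) (nat_lit 131) (nat_lit 5) (nat_lit 477) (nat_lit 410) (nat_lit 313)))) (XT.nd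 (nat_lit 156) (nat_lit 608) (nat_lit 0) (XT.nd (nat_lit 78) (nat_lit 304) (nat_lit 0) (XT.lf (nat_lit 0) (nat_lit 2962074307) (nat_lit 304) (nat_lit 6956390572) (nat_lit 380) (nat_lit 7808578147) (nat_lit 126) (nat_lit 5) (nat_lit 130) (nat_lit 5) (nat_lit 131) (nat_lit 5) (nat_lit 478) (nat_lit 410) (nat_lit 312)) (XT.lf (nat_lit 0) (nat_lit 2160119353) (nat_lit 304) (nat_lit 15175366294) (nat_lit 380) (nat_lit 717412832) (nat_lit 122) (nat_lit 5) (nat_lit 126) (nat_lit 5) (nat_lit 127) (nat_lit 5) (nat_lit 479) (nat_lit 410) (nat_lit 311))) (XT.nd (nat_lit 78) (nat_lit 228) (nat_lit 0) (XT.lf (nat_lit 0) (nat_lit 1285280041) (nat_lit 304) (nat_lit 5340087153) (nat_lit 380) (nat_lit 11759802660) (nat_lit 117) (nat_lit 5) (nat_lit 121) (nat_lit 5) (nat_lit 122) (nat_lit 5) (nat_lit 480) (nat_lit 410) (nat_lit 310)) (XT.lf (nat_lit 0) (nat_lit 389645090) (nat_lit 228) (nat_lit 13901251310) (nat_lit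 304) (nat_lit 4434174644) (nat_lit 114) (nat_lit 5) (nat_lit 117) (nat_lit 5) (nat_lit 118) (nat_lit 5) (nat_lit 481) (nat_lit 410) (nat_lit 309)))))) (XT.nd (nat_lit 546) (nat_lit 1824) (nat_lit 0) (XT.nd (nat_lit 234) (nat_lit 1216) (nat_lit 0) (XT.nd (nat_lit 78) (nat_lit 532) (nat_lit 0) (XT.lf (nat_lit 0) (nat_lit 3193246318) (nat_lit 304) (nat_lit 541004787) (nat_lit 76) (nat_lit 15338058327) (nat_lit 113) (nat_lit 5) (nat_lit 117) (nat_lit 5) (nat_lit 114) (nat_lit 5) (nat_lit 482) (nat_lit 410) (nat_lit 308)) (XT.nd (nat_lit 78) (nat_lit 228) (nat_lit 0) (XT.lf (nat_lit 0) (nat_lit 11122024758) (nat_lit 380) (nat_lit 1527223981) (nat_lit 76) (nat_lit 6777475186) (nat_lit 109) (nat_lit 5) (nat_lit 114) (nat_lit 5) (nat_lit 110) (nat_lit 5) (nat_lit 483) (nat_lit 410) (nat_lit 307)) (XT.lf (nat_lit 0) (nat_lit 17262705756) (nat_lit 228) (nat_lit 2138444566) (nat_lit 304) (nat_lit 388371545) (nat_lit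 106) (nat_lit 5) (nat_lit 109) (nat_lit 5) (nat_lit 110) (nat_lit 5) (nat_lit 484) (nat_lit 410) (nat_lit 306)))) (XT.nd (nat_lit 156) (nat_lit 608) (nat_lit 0) (XT.nd (nat_lit 78) (nat_lit 228) (nat_lit 0) (XT.lf (nat_lit 0) (nat_lit 7811230225) (nat_lit 380) (nat_lit 3623626272) (nat_lit 76) (nat_lit 8724386947) (nat_lit 101) (nat_lit 5) (nat_lit 106) (nat_lit 5) (nat_lit 102) (nat_lit 5) (nat_lit 485) (nat_lit 410) (nat_lit 305)) (XT.lf (nat_lit 0) (nat_lit 15808226499) (nat_lit 228) (nat_lit 549983793) (nat_lit 304) (nat_lit 4179662338) (nat_lit 98) (nat_lit 5) (nat_lit 101) (nat_lit 5) (nat_lit 102) (nat_lit 5) (nat_lit 486) (nat_lit 410) (nat_lit 304))) (XT.nd (nat_lit 78) (nat_lit 228) (nat_lit 0) (XT.lf (nat_lit 0) (nat_lit 4343641692) (nat_lit 380) (nat_lit 5926737941) (nat_lit 76) (nat_lit 10653623321) (nat_lit 93) (nat_lit 5) (nat_lit 98) (nat_lit 5) (nat_lit 94) (nat_lit 5) (nat_lit 487)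 (nat_lit 410) (nat_lit 303)) (XT.lf (nat_lit 0) (nat_lit 13173759409) (nat_lit 304) (nat_lit 7158161718) (nat_lit 76) (nat_lit 987086101) (nat_lit 90) (nat_lit 5) (nat_lit 94) (nat_lit 5) (nat_lit 91) (nat_lit 5) (nat_lit 488) (nat_lit 410) (nat_lit 302))))) (XT.nd (nat_lit 234) (nat_lit 1064) (nat_lit 0) (XT.nd (nat_lit 78) (nat_lit 456) (nat_lit 0) (XT.lf (nat_lit 0) (nat_lit 705680804) (nat_lit 304) (nat_lit 8460764002) (nat_lit 76) (nat_lit 12555949242) (nat_lit 86) (nat_lit 5) (nat_lit 90) (nat_lit 5) (nat_lit 87) (nat_lit 5) (nat_lit 489) (nat_lit 410) (nat_lit 301)) (XT.nd (nat_lit 78) (nat_lit 228) (nat_lit 0) (XT.lf (nat_lit 0) (nat_lit 9830969391) (nat_lit 304) (nat_lit 9834564807) (nat_lit 76) (nat_lit 2468882133) (nat_lit 83) (nat_lit 5) (nat_lit 87) (nat_lit 5) (nat_lit 84) (nat_lit 5) (nat_lit 490) (nat_lit 410) (nat_lit 300)) (XT.lf (nat_lit 0) (nat_lit 11282678864) (nat_lit 228) (nat_lit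 8113781198) (nat_lit 304) (nat_lit 3159010881) (nat_lit 80) (nat_lit 5) (nat_lit 83) (nat_lit 5) (nat_lit 84) (nat_lit 5) (nat_lit 491) (nat_lit 410) (nat_lit 299)))) (XT.nd (nat_lit 156) (nat_lit 532) (nat_lit 0) (XT.nd (nat_lit 78) (nat_lit 228) (nat_lit 0) (XT.lf (nat_lit 0) (nat_lit 6311227592) (nat_lit 304) (nat_lit 12783156649) (nat_lit 76) (nat_lit 3891289262) (nat_lit 76) (nat_lit 5) (nat_lit 80) (nat_lit 5) (nat_lit 77) (nat_lit 5) (nat_lit 492) (nat_lit 410) (nat_lit 298)) (XT.lf (nat_lit 0) (nat_lit 9047578810) (nat_lit 228) (nat_lit 7140025456) (nat_lit 304) (nat_lit 7237461746) (nat_lit 73) (nat_lit 5) (nat_lit 76) (nat_lit 5) (nat_lit 77) (nat_lit 5) (nat_lit 493) (nat_lit 410) (nat_lit 297))) (XT.nd (nat_lit 78) (nat_lit 228) (nat_lit 0) (XT.lf (nat_lit 0) (nat_lit 2597977250) (nat_lit 304) (nat_lit 16034576805) (nat_lit 76) (nat_lit 5241806220) (nat_lit 69) (nat_lit 5) (nat_lit 73)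 (nat_lit 5) (nat_lit 70) (nat_lit 5) (nat_lit 494) (nat_lit 410) (nat_lit 296)) (XT.lf (nat_lit 0) (nat_lit 6530451357) (nat_lit 228) (nat_lit 6263897006) (nat_lit 304) (nat_lit 11538544706) (nat_lit 66) (nat_lit 5) (nat_lit 69) (nat_lit 5) (nat_lit 70) (nat_lit 5) (nat_lit 495) (nat_lit 410) (nat_lit 295))))))))
noncomputable def xc53 : XT := (XT.nd (nat_lit 2106) (nat_lit 17480) (nat_lit 0) (XT.nd (nat_lit 1014) (nat_lit 15504) (nat_lit 0) (XT.nd (nat_lit 468) (nat_lit 2356) (nat_lit 0) (XT.nd (nat_lit 234) (nat_lit 1064) (nat_lit 0) (XT.nd (nat_lit 78) (nat_lit 1064) (nat_lit 0) (XT.lf (nat_lit 0) (nat_lit 855132582) (nat_lit 0) (nat_lit 855132582) (nat_lit 988) (nat_lit 1766984391) (nat_lit 686) (nat_lit 5) (nat_lit 686) (nat_lit 3) (nat_lit 699) (nat_lit 3) (nat_lit 411) (nat_lit 411) (nat_lit 378)) (XT.nd (nat_lit 78) (nat_lit 1064) (nat_lit 0) (XT.lf (nat_lit 0) (nat_lit 6265868589) (nat_lit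 988) (nat_lit 58171708) (nat_lit 1064) (nat_lit 678661724) (nat_lit 686) (nat_lit 5) (nat_lit 699) (nat_lit 3) (nat_lit 700) (nat_lit 5) (nat_lit 412) (nat_lit 411) (nat_lit 377)) (XT.lf (nat_lit 0) (nat_lit 2052900897) (nat_lit 1064) (nat_lit 1782755349) (nat_lit 1140) (nat_lit 3217689159) (nat_lit 672) (nat_lit 5) (nat_lit 686) (nat_lit 5) (nat_lit 687) (nat_lit 5) (nat_lit 413) (nat_lit 411) (nat_lit 376)))) (XT.nd (nat_lit 78) (nat_lit 1064) (nat_lit 0) (XT.lf (nat_lit 76) (nat_lit 3639844686) (nat_lit 0) (nat_lit 1194130390) (nat_lit 1140) (nat_lit 2273091128) (nat_lit 673) (nat_lit 5) (nat_lit 672) (nat_lit 5) (nat_lit 687) (nat_lit 5) (nat_lit 414) (nat_lit 411) (nat_lit 375)) (XT.nd (nat_lit 78) (nat_lit 0) (nat_lit 0) (XT.lf (nat_lit 0) (nat_lit 460556104) (nat_lit 1140) (nat_lit 5121526488) (nat_lit 1216) (nat_lit 1581624613) (nat_lit 658) (nat_lit 5) (nat_lit 673) (nat_lit 5) (nat_lit 674)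 (nat_lit 5) (nat_lit 415) (nat_lit 411) (nat_lit 374)) (XT.lf (nat_lit 76) (nat_lit 466189986) (nat_lit 0) (nat_lit 2712550318) (nat_lit 1216) (nat_lit 4044346462) (nat_lit 659) (nat_lit 5) (nat_lit 658) (nat_lit 5) (nat_lit 674) (nat_lit 5) (nat_lit 416) (nat_lit 411) (nat_lit 373))))) (XT.nd (nat_lit 234) (nat_lit 1216) (nat_lit 0) (XT.nd (nat_lit 78) (nat_lit 1216) (nat_lit 0) (XT.lf (nat_lit 0) (nat_lit 5916392100) (nat_lit 1140) (nat_lit 1054333687) (nat_lit 1216) (nat_lit 314771284) (nat_lit 659) (nat_lit 5) (nat_lit 674) (nat_lit 5) (nat_lit 675) (nat_lit 5) (nat_lit 417) (nat_lit 411) (nat_lit 372)) (XT.nd (nat_lit 78) (nat_lit 0) (nat_lit 0) (XT.lf (nat_lit 0) (nat_lit 1321516397) (nat_lit 1216) (nat_lit 2554068699) (nat_lit 1292) (nat_lit 3474955875) (nat_lit 643) (nat_lit 5) (nat_lit 659) (nat_lit 5) (nat_lit 660) (nat_lit 5) (nat_lit 418) (nat_lit 411) (nat_lit 371)) (XT.lf (nat_lit 76)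 (nat_lit 3396027786) (nat_lit 0) (nat_lit 613642410) (nat_lit 1292) (nat_lit 3408983911) (nat_lit 644) (nat_lit 5) (nat_lit 643) (nat_lit 5) (nat_lit 660) (nat_lit 5) (nat_lit 419) (nat_lit 411) (nat_lit 370)))) (XT.nd (nat_lit 156) (nat_lit 0) (nat_lit 76) (XT.nd (nat_lit 78) (nat_lit 1292) (nat_lit 0) (XT.lf (nat_lit 76) (nat_lit 2019418495) (nat_lit 0) (nat_lit 4716055492) (nat_lit 1292) (nat_lit 754203539) (nat_lit 645) (nat_lit 5) (nat_lit 644) (nat_lit 5) (nat_lit 661) (nat_lit 5) (nat_lit 420) (nat_lit 411) (nat_lit 369)) (XT.lf (nat_lit 76) (nat_lit 666636219) (nat_lit 0) (nat_lit 1233805878) (nat_lit 1368) (nat_lit 5663215215) (nat_lit 628) (nat_lit 5) (nat_lit 627) (nat_lit 5) (nat_lit 645) (nat_lit 5) (nat_lit 421) (nat_lit 411) (nat_lit 368))) (XT.nd (nat_lit 78) (nat_lit 0) (nat_lit 0) (XT.lf (nat_lit 0) (nat_lit 4589858290) (nat_lit 1292) (nat_lit 658587213) (nat_lit 1368) (nat_lit 2392010191)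 (nat_lit 628) (nat_lit 5) (nat_lit 645) (nat_lit 5) (nat_lit 646) (nat_lit 5) (nat_lit 422) (nat_lit 411) (nat_lit 367)) (XT.lf (nat_lit 76) (nat_lit 5774853578) (nat_lit 0) (nat_lit 1546119547) (nat_lit 1368) (nat_lit 399370856) (nat_lit 629) (nat_lit 5) (nat_lit 628) (nat_lit 5) (nat_lit 646) (nat_lit 5) (nat_lit 423) (nat_lit 411) (nat_lit 366)))))) (XT.nd (nat_lit 546) (nat_lit 8284) (nat_lit 0) (XT.nd (nat_lit 234) (nat_lit 4712) (nat_lit 0) (XT.nd (nat_lit 78) (nat_lit 1292) (nat_lit 0) (XT.lf (nat_lit 0) (nat_lit 2267134237) (nat_lit 1368) (nat_lit 3225442258) (nat_lit 1444) (nat_lit 2310429291) (nat_lit 611) (nat_lit 5) (nat_lit 629) (nat_lit 5) (nat_lit 630) (nat_lit 5) (nat_lit 424) (nat_lit 411) (nat_lit 365)) (XT.nd (nat_lit 78) (nat_lit 1292) (nat_lit 0) (XT.lf (nat_lit 76) (nat_lit 3406047125) (nat_lit 0) (nat_lit 1566907902) (nat_lit 1444) (nat_lit 2915850493) (nat_lit 612) (nat_lit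 5) (nat_lit 611) (nat_lit 5) (nat_lit 630) (nat_lit 5) (nat_lit 425) (nat_lit 411) (nat_lit 364)) (XT.lf (nat_lit 0) (nat_lit 2255941179) (nat_lit 1368) (nat_lit 5477826737) (nat_lit 1444) (nat_lit 243940613) (nat_lit 594) (nat_lit 5) (nat_lit 612) (nat_lit 5) (nat_lit 613) (nat_lit 5) (nat_lit 426) (nat_lit 411) (nat_lit 363)))) (XT.nd (nat_lit 156) (nat_lit 3192) (nat_lit 0) (XT.nd (nat_lit 78) (nat_lit 0) (nat_lit 0) (XT.lf (nat_lit 0) (nat_lit 1115809036) (nat_lit 1444) (nat_lit 1330205083) (nat_lit 1520) (nat_lit 5623528537) (nat_lit 574) (nat_lit 5) (nat_lit 593) (nat_lit 5) (nat_lit 594) (nat_lit 5) (nat_lit 427) (nat_lit 411) (nat_lit 362)) (XT.lf (nat_lit 0) (nat_lit 5195948296) (nat_lit 1520) (nat_lit 9486070) (nat_lit 76) (nat_lit 2959018499) (nat_lit 574) (nat_lit 5) (nat_lit 594) (nat_lit 5) (nat_lit 575) (nat_lit 5) (nat_lit 428) (nat_lit 411) (nat_lit 361))) (XT.nd (nat_lit 78) (nat_lit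 1672) (nat_lit 0) (XT.lf (nat_lit 0) (nat_lit 7168034010) (nat_lit 1520) (nat_lit 842428798) (nat_lit 1596) (nat_lit 252110978) (nat_lit 554) (nat_lit 5) (nat_lit 574) (nat_lit 5) (nat_lit 575) (nat_lit 5) (nat_lit 429) (nat_lit 411) (nat_lit 360)) (XT.lf (nat_lit 0) (nat_lit 2504800410) (nat_lit 1672) (nat_lit 2186081142) (nat_lit 76) (nat_lit 3672582729) (nat_lit 532) (nat_lit 5) (nat_lit 554) (nat_lit 5) (nat_lit 533) (nat_lit 5) (nat_lit 430) (nat_lit 411) (nat_lit 359))))) (XT.nd (nat_lit 234) (nat_lit 2964) (nat_lit 0) (XT.nd (nat_lit 78) (nat_lit 3648) (nat_lit 0) (XT.lf (nat_lit 0) (nat_lit 5215582898) (nat_lit 1672) (nat_lit 102101314) (nat_lit 1748) (nat_lit 3150134814) (nat_lit 510) (nat_lit 5) (nat_lit 532) (nat_lit 5) (nat_lit 533) (nat_lit 5) (nat_lit 431) (nat_lit 411) (nat_lit 358)) (XT.nd (nat_lit 78) (nat_lit 1900) (nat_lit 0) (XT.lf (nat_lit 0) (nat_lit 4258829521) (nat_lit 1748)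 (nat_lit 3960138070) (nat_lit 1824) (nat_lit 356261094) (nat_lit 487) (nat_lit 5) (nat_lit 510) (nat_lit 5) (nat_lit 511) (nat_lit 5) (nat_lit 432) (nat_lit 411) (nat_lit 357)) (XT.lf (nat_lit 0) (nat_lit 2470911614) (nat_lit 1900) (nat_lit 5371905657) (nat_lit 76) (nat_lit 843069226) (nat_lit 462) (nat_lit 5) (nat_lit 487) (nat_lit 5) (nat_lit 463) (nat_lit 5) (nat_lit 433) (nat_lit 411) (nat_lit 356)))) (XT.nd (nat_lit 156) (nat_lit 988) (nat_lit 0) (XT.nd (nat_lit 78) (nat_lit 912) (nat_lit 0) (XT.lf (nat_lit 0) (nat_lit 2373756707) (nat_lit 1064) (nat_lit 3009864893) (nat_lit 1140) (nat_lit 3416088291) (nat_lit 448) (nat_lit 5) (nat_lit 462) (nat_lit 5) (nat_lit 463) (nat_lit 5) (nat_lit 434) (nat_lit 411) (nat_lit 355)) (XT.lf (nat_lit 0) (nat_lit 1453431647) (nat_lit 912) (nat_lit 6924884919) (nat_lit 988) (nat_lit 538743413) (nat_lit 436) (nat_lit 5) (nat_lit 448) (nat_lit 5) (nat_lit 449) (nat_lit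 5) (nat_lit 435) (nat_lit 411) (nat_lit 354))) (XT.nd (nat_lit 78) (nat_lit 0) (nat_lit 0) (XT.lf (nat_lit 0) (nat_lit 529324873) (nat_lit 912) (nat_lit 1867995185) (nat_lit 988) (nat_lit 6640215469) (nat_lit 423) (nat_lit 5) (nat_lit 435) (nat_lit 5) (nat_lit 436) (nat_lit 5) (nat_lit 436) (nat_lit 411) (nat_lit 353)) (XT.lf (nat_lit 0) (nat_lit 5425047077) (nat_lit 988) (nat_lit 383813056) (nat_lit 76) (nat_lit 3352479723) (nat_lit 423) (nat_lit 5) (nat_lit 436) (nat_lit 5) (nat_lit 424) (nat_lit 5) (nat_lit 437) (nat_lit 411) (nat_lit 352))))))) (XT.nd (nat_lit 1092) (nat_lit 7524) (nat_lit 0) (XT.nd (nat_lit 546) (nat_lit 4256) (nat_lit 0) (XT.nd (nat_lit 234) (nat_lit 3116) (nat_lit 0) (XT.nd (nat_lit 78) (nat_lit 1748) (nat_lit 0) (XT.lf (nat_lit 0) (nat_lit 8016966295) (nat_lit 836) (nat_lit 531240553) (nat_lit 912) (nat_lit 740563099) (nat_lit 412) (nat_lit 5) (nat_lit 423) (nat_lit 5) (nat_lit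 424) (nat_lit 5) (nat_lit 438) (nat_lit 411) (nat_lit 351)) (XT.nd (nat_lit 78) (nat_lit 836) (nat_lit 0) (XT.lf (nat_lit 0) (nat_lit 2337436434) (nat_lit 912) (nat_lit 2176762730) (nat_lit 76) (nat_lit 4905059666) (nat_lit 400) (nat_lit 5) (nat_lit 412) (nat_lit 5) (nat_lit 401) (nat_lit 5) (nat_lit 439) (nat_lit 411) (nat_lit 350)) (XT.lf (nat_lit 0) (nat_lit 5500992442) (nat_lit 912) (nat_lit 3067371858) (nat_lit 76) (nat_lit 985137995) (nat_lit 389) (nat_lit 5) (nat_lit 401) (nat_lit 5) (nat_lit 390) (nat_lit 5) (nat_lit 440) (nat_lit 411) (nat_lit 349)))) (XT.nd (nat_lit 156) (nat_lit 1444) (nat_lit 0) (XT.nd (nat_lit 78) (nat_lit 836) (nat_lit 0) (XT.lf (nat_lit 0) (nat_lit 5731985011) (nat_lit 836) (nat_lit 3053357203) (nat_lit 912) (nat_lit 905916380) (nat_lit 378) (nat_lit 5) (nat_lit 389) (nat_lit 5) (nat_lit 390) (nat_lit 5) (nat_lit 441) (nat_lit 411) (nat_lit 348)) (XT.lf (nat_lit 0) (nat_lit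 2319809339) (nat_lit 836) (nat_lit 4855481940) (nat_lit 76) (nat_lit 2657249015) (nat_lit 367) (nat_lit 5) (nat_lit 378) (nat_lit 5) (nat_lit 368) (nat_lit 5) (nat_lit 442) (nat_lit 411) (nat_lit 347))) (XT.nd (nat_lit 78) (nat_lit 684) (nat_lit 0) (XT.lf (nat_lit 0) (nat_lit 4226950114) (nat_lit 760) (nat_lit 1423716308) (nat_lit 836) (nat_lit 4326863939) (nat_lit 357) (nat_lit 5) (nat_lit 367) (nat_lit 5) (nat_lit 368) (nat_lit 5) (nat_lit 443) (nat_lit 411) (nat_lit 346)) (XT.lf (nat_lit 0) (nat_lit 3478249698) (nat_lit 684) (nat_lit 5635008520) (nat_lit 760) (nat_lit 1012978668) (nat_lit 348) (nat_lit 5) (nat_lit 357) (nat_lit 5) (nat_lit 358) (nat_lit 5) (nat_lit 444) (nat_lit 411) (nat_lit 345))))) (XT.nd (nat_lit 234) (nat_lit 2052) (nat_lit 0) (XT.nd (nat_lit 78) (nat_lit 1368) (nat_lit 0) (XT.lf (nat_lit 0) (nat_lit 2385331755) (nat_lit 836) (nat_lit 7546317687) (nat_lit 76) (nat_lit 347116487)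 (nat_lit 337) (nat_lit 5) (nat_lit 348) (nat_lit 5) (nat_lit 338) (nat_lit 5) (nat_lit 445) (nat_lit 411) (nat_lit 344)) (XT.nd (nat_lit 78) (nat_lit 684) (nat_lit 0) (XT.lf (nat_lit 0) (nat_lit 1971661078) (nat_lit 684) (nat_lit 3944873504) (nat_lit 760) (nat_lit 4518310949) (nat_lit 328) (nat_lit 5) (nat_lit 337) (nat_lit 5) (nat_lit 338) (nat_lit 5) (nat_lit 446) (nat_lit 411) (nat_lit 343)) (XT.lf (nat_lit 0) (nat_lit 1225454298) (nat_lit 684) (nat_lit 8351921921) (nat_lit 760) (nat_lit 1017759883) (nat_lit 319) (nat_lit 5) (nat_lit 328) (nat_lit 5) (nat_lit 329) (nat_lit 5) (nat_lit 447) (nat_lit 411) (nat_lit 342)))) (XT.nd (nat_lit 156) (nat_lit 1368) (nat_lit 0) (XT.nd (nat_lit 78) (nat_lit 0) (nat_lit 0) (XT.lf (nat_lit 0) (nat_lit 464604977) (nat_lit 608) (nat_lit 2126989329) (nat_lit 684) (nat_lit 8167553035) (nat_lit 310) (nat_lit 5) (nat_lit 318) (nat_lit 5) (nat_lit 319) (nat_lit 5) (nat_lit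 448) (nat_lit 411) (nat_lit 341)) (XT.lf (nat_lit 0) (nat_lit 6338804993) (nat_lit 684) (nat_lit 299054943) (nat_lit 76) (nat_lit 4289218804) (nat_lit 310) (nat_lit 5) (nat_lit 319) (nat_lit 5) (nat_lit 311) (nat_lit 5) (nat_lit 449) (nat_lit 411) (nat_lit 340))) (XT.nd (nat_lit 78) (nat_lit 684) (nat_lit 0) (XT.lf (nat_lit 0) (nat_lit 10056318586) (nat_lit 684) (nat_lit 174632699) (nat_lit 760) (nat_lit 868448774) (nat_lit 301) (nat_lit 5) (nat_lit 310) (nat_lit 5) (nat_lit 311) (nat_lit 5) (nat_lit 450) (nat_lit 411) (nat_lit 339)) (XT.lf (nat_lit 0) (nat_lit 2984078548) (nat_lit 684) (nat_lit 1821146213) (nat_lit 76) (nat_lit 6470084406) (nat_lit 292) (nat_lit 5) (nat_lit 301) (nat_lit 5) (nat_lit 293) (nat_lit 5) (nat_lit 451) (nat_lit 411) (nat_lit 338)))))) (XT.nd (nat_lit 546) (nat_lit 3420) (nat_lit 0) (XT.nd (nat_lit 234) (nat_lit 2204) (nat_lit 0) (XT.nd (nat_lit 78) (nat_lit 1292) (nat_lit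 0) (XT.lf (nat_lit 0) (nat_lit 6973408056) (nat_lit 684) (nat_lit 2591999529) (nat_lit 76) (nat_lit 1890314837) (nat_lit 284) (nat_lit 5) (nat_lit 293) (nat_lit 5) (nat_lit 285) (nat_lit 5) (nat_lit 452) (nat_lit 411) (nat_lit 337)) (XT.nd (nat_lit 78) (nat_lit 684) (nat_lit 0) (XT.lf (nat_lit 0) (nat_lit 8271917180) (nat_lit 608) (nat_lit 2864250791) (nat_lit 684) (nat_lit 504307212) (nat_lit 276) (nat_lit 5) (nat_lit 284) (nat_lit 5) (nat_lit 285) (nat_lit 5) (nat_lit 453) (nat_lit 411) (nat_lit 336)) (XT.lf (nat_lit 0) (nat_lit 3596372121) (nat_lit 684) (nat_lit 4169155425) (nat_lit 76) (nat_lit 4063769328) (nat_lit 267) (nat_lit 5) (nat_lit 276) (nat_lit 5) (nat_lit 268) (nat_lit 5) (nat_lit 454) (nat_lit 411) (nat_lit 335)))) (XT.nd (nat_lit 156) (nat_lit 1064) (nat_lit 0) (XT.nd (nat_lit 78) (nat_lit 608) (nat_lit 0) (XT.lf (nat_lit 0) (nat_lit 7055709613) (nat_lit 532) (nat_lit 802451299) (nat_lit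 608) (nat_lit 4164658782) (nat_lit 260) (nat_lit 5) (nat_lit 267) (nat_lit 5) (nat_lit 268) (nat_lit 5) (nat_lit 455) (nat_lit 411) (nat_lit 334)) (XT.lf (nat_lit 0) (nat_lit 95140702) (nat_lit 608) (nat_lit 5782145261) (nat_lit 76) (nat_lit 6343464329) (nat_lit 252) (nat_lit 5) (nat_lit 260) (nat_lit 5) (nat_lit 253) (nat_lit 5) (nat_lit 456) (nat_lit 411) (nat_lit 333))) (XT.nd (nat_lit 78) (nat_lit 532) (nat_lit 0) (XT.lf (nat_lit 0) (nat_lit 4470649933) (nat_lit 608) (nat_lit 6614876085) (nat_lit 76) (nat_lit 1337654090) (nat_lit 245) (nat_lit 5) (nat_lit 253) (nat_lit 5) (nat_lit 246) (nat_lit 5) (nat_lit 457) (nat_lit 411) (nat_lit 332)) (XT.lf (nat_lit 0) (nat_lit 5166992752) (nat_lit 532) (nat_lit 3881841978) (nat_lit 608) (nat_lit 3581421644) (nat_lit 238) (nat_lit 5) (nat_lit 245) (nat_lit 5) (nat_lit 246) (nat_lit 5) (nat_lit 458) (nat_lit 411) (nat_lit 331))))) (XT.nd (nat_lit 234) (nat_lit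 1900) (nat_lit 0) (XT.nd (nat_lit 78) (nat_lit 988) (nat_lit 0) (XT.lf (nat_lit 0) (nat_lit 966483609) (nat_lit 532) (nat_lit 8318113022) (nat_lit 76) (nat_lit 3557675595) (nat_lit 231) (nat_lit 5) (nat_lit 238) (nat_lit 5) (nat_lit 232) (nat_lit 5) (nat_lit 459) (nat_lit 411) (nat_lit 330)) (XT.nd (nat_lit 78) (nat_lit 456) (nat_lit 0) (XT.lf (nat_lit 0) (nat_lit 3858742701) (nat_lit 532) (nat_lit 1806029901) (nat_lit 608) (nat_lit 7394152032) (nat_lit 224) (nat_lit 5) (nat_lit 231) (nat_lit 5) (nat_lit 232) (nat_lit 5) (nat_lit 460) (nat_lit 411) (nat_lit 329)) (XT.lf (nat_lit 0) (nat_lit 3181759759) (nat_lit 456) (nat_lit 7399037925) (nat_lit 532) (nat_lit 2699744759) (nat_lit 218) (nat_lit 5) (nat_lit 224) (nat_lit 5) (nat_lit 225) (nat_lit 5) (nat_lit 461) (nat_lit 411) (nat_lit 328)))) (XT.nd (nat_lit 156) (nat_lit 912) (nat_lit 0) (XT.nd (nat_lit 78) (nat_lit 456) (nat_lit 0) (XT.lf (nat_lit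 0) (nat_lit 2162457942) (nat_lit 532) (nat_lit 11004427104) (nat_lit 76) (nat_lit 340548531) (nat_lit 211) (nat_lit 5) (nat_lit 218) (nat_lit 5) (nat_lit 212) (nat_lit 5) (nat_lit 462) (nat_lit 411) (nat_lit 327)) (XT.lf (nat_lit 0) (nat_lit 1782204780) (nat_lit 456) (nat_lit 5444082329) (nat_lit 532) (nat_lit 6512640100) (nat_lit 205) (nat_lit 5) (nat_lit 211) (nat_lit 5) (nat_lit 212) (nat_lit 5) (nat_lit 463) (nat_lit 411) (nat_lit 326))) (XT.nd (nat_lit 78) (nat_lit 456) (nat_lit 0) (XT.lf (nat_lit 0) (nat_lit 1070184966) (nat_lit 456) (nat_lit 11433091663) (nat_lit 532) (nat_lit 1472865528) (nat_lit 199) (nat_lit 5) (nat_lit 205) (nat_lit 5) (nat_lit 206) (nat_lit 5) (nat_lit 464) (nat_lit 411) (nat_lit 325)) (XT.lf (nat_lit 0) (nat_lit 321994432) (nat_lit 380) (nat_lit 3430826663) (nat_lit 456) (nat_lit 10465501350) (nat_lit 193) (nat_lit 5) (nat_lit 198) (nat_lit 5) (nat_lit 199) (nat_lit 5)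 (nat_lit 465) (nat_lit 411) (nat_lit 324))))))))
noncomputable def xc54 : XT := (XT.nd (nat_lit 2106) (nat_lit 1064) (nat_lit 0) (XT.nd (nat_lit 1014) (nat_lit 3800) (nat_lit 0) (XT.nd (nat_lit 468) (nat_lit 2660) (nat_lit 0) (XT.nd (nat_lit 234) (nat_lit 1216) (nat_lit 0) (XT.nd (nat_lit 78) (nat_lit 912) (nat_lit 0) (XT.lf (nat_lit 0) (nat_lit 9198691174) (nat_lit 456) (nat_lit 437834036) (nat_lit 76) (nat_lit 4829381061) (nat_lit 193) (nat_lit 5) (nat_lit 199) (nat_lit 5) (nat_lit 194) (nat_lit 5) (nat_lit 466) (nat_lit 411) (nat_lit 323)) (XT.nd (nat_lit 78) (nat_lit 380) (nat_lit 0) (XT.lf (nat_lit 0) (nat_lit 162231533) (nat_lit 532) (nat_lit 1193619928) (nat_lit 76) (nat_lit 13363529034) (nat_lit 186) (nat_lit 5) (nat_lit 193) (nat_lit 5) (nat_lit 187) (nat_lit 5) (nat_lit 467) (nat_lit 411) (nat_lit 322)) (XT.lf (nat_lit 0) (nat_lit 5783729420) (nat_lit 456) (nat_lit 2008271458) (nat_lit 76)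 (nat_lit 7185748380) (nat_lit 181) (nat_lit 5) (nat_lit 187) (nat_lit 5) (nat_lit 182) (nat_lit 5) (nat_lit 468) (nat_lit 411) (nat_lit 321)))) (XT.nd (nat_lit 78) (nat_lit 836) (nat_lit 0) (XT.lf (nat_lit 0) (nat_lit 11643065834) (nat_lit 456) (nat_lit 2815086925) (nat_lit 76) (nat_lit 784333625) (nat_lit 176) (nat_lit 5) (nat_lit 182) (nat_lit 5) (nat_lit 177) (nat_lit 5) (nat_lit 469) (nat_lit 411) (nat_lit 320)) (XT.nd (nat_lit 78) (nat_lit 380) (nat_lit 0) (XT.lf (nat_lit 0) (nat_lit 2244839191) (nat_lit 456) (nat_lit 3666741806) (nat_lit 76) (nat_lit 9601101054) (nat_lit 170) (nat_lit 5) (nat_lit 176) (nat_lit 5) (nat_lit 171) (nat_lit 5) (nat_lit 470) (nat_lit 411) (nat_lit 319)) (XT.lf (nat_lit 0) (nat_lit 8294668378) (nat_lit 456) (nat_lit 4541136500) (nat_lit 76) (nat_lit 2953121078) (nat_lit 165) (nat_lit 5) (nat_lit 171) (nat_lit 5) (nat_lit 166) (nat_lit 5) (nat_lit 471) (nat_lit 411)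 (nat_lit 318))))) (XT.nd (nat_lit 234) (nat_lit 1520) (nat_lit 0) (XT.nd (nat_lit 78) (nat_lit 760) (nat_lit 0) (XT.lf (nat_lit 0) (nat_lit 10636374928) (nat_lit 380) (nat_lit 3990819120) (nat_lit 456) (nat_lit 1444240151) (nat_lit 160) (nat_lit 5) (nat_lit 165) (nat_lit 5) (nat_lit 166) (nat_lit 5) (nat_lit 472) (nat_lit 411) (nat_lit 317)) (XT.nd (nat_lit 78) (nat_lit 304) (nat_lit 0) (XT.lf (nat_lit 0) (nat_lit 4822494712) (nat_lit 456) (nat_lit 6374807995) (nat_lit 76) (nat_lit 5162534283) (nat_lit 154) (nat_lit 5) (nat_lit 160) (nat_lit 5) (nat_lit 155) (nat_lit 5) (nat_lit 473) (nat_lit 411) (nat_lit 316)) (XT.lf (nat_lit 0) (nat_lit 9321906491) (nat_lit 304) (nat_lit 2028606461) (nat_lit 380) (nat_lit 5304330899) (nat_lit 150) (nat_lit 5) (nat_lit 154) (nat_lit 5) (nat_lit 155) (nat_lit 5) (nat_lit 474) (nat_lit 411) (nat_lit 315)))) (XT.nd (nat_lit 156) (nat_lit 760) (nat_lit 0) (XT.nd (nat_lit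 78) (nat_lit 304) (nat_lit 0) (XT.lf (nat_lit 0) (nat_lit 1218485892) (nat_lit 456) (nat_lit 8330046329) (nat_lit 76) (nat_lit 7407675804) (nat_lit 144) (nat_lit 5) (nat_lit 150) (nat_lit 5) (nat_lit 145) (nat_lit 5) (nat_lit 475) (nat_lit 411) (nat_lit 314)) (XT.lf (nat_lit 0) (nat_lit 7904060942) (nat_lit 304) (nat_lit 45548998) (nat_lit 380) (nat_lit 9314609096) (nat_lit 140) (nat_lit 5) (nat_lit 144) (nat_lit 5) (nat_lit 145) (nat_lit 5) (nat_lit 476) (nat_lit 411) (nat_lit 313))) (XT.nd (nat_lit 78) (nat_lit 380) (nat_lit 0) (XT.lf (nat_lit 0) (nat_lit 7140177120) (nat_lit 380) (nat_lit 7878759064) (nat_lit 456) (nat_lit 2559809696) (nat_lit 135) (nat_lit 5) (nat_lit 140) (nat_lit 5) (nat_lit 141) (nat_lit 5) (nat_lit 477) (nat_lit 411) (nat_lit 312)) (XT.lf (nat_lit 0) (nat_lit 4428337382) (nat_lit 380) (nat_lit 11545171428) (nat_lit 76) (nat_lit 1926861915) (nat_lit 130) (nat_lit 5) (nat_lit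 135) (nat_lit 5) (nat_lit 131) (nat_lit 5) (nat_lit 478) (nat_lit 411) (nat_lit 311)))))) (XT.nd (nat_lit 546) (nat_lit 1900) (nat_lit 0) (XT.nd (nat_lit 234) (nat_lit 912) (nat_lit 0) (XT.nd (nat_lit 78) (nat_lit 684) (nat_lit 0) (XT.lf (nat_lit 0) (nat_lit 5519548503) (nat_lit 304) (nat_lit 6202374606) (nat_lit 380) (nat_lit 6506772166) (nat_lit 126) (nat_lit 5) (nat_lit 130) (nat_lit 5) (nat_lit 131) (nat_lit 5) (nat_lit 479) (nat_lit 411) (nat_lit 310)) (XT.nd (nat_lit 78) (nat_lit 304) (nat_lit 0) (XT.lf (nat_lit 0) (nat_lit 764655340) (nat_lit 380) (nat_lit 13892790433) (nat_lit 76) (nat_lit 3907218642) (nat_lit 121) (nat_lit 5) (nat_lit 126) (nat_lit 5) (nat_lit 122) (nat_lit 5) (nat_lit 480) (nat_lit 411) (nat_lit 309)) (XT.lf (nat_lit 0) (nat_lit 3755708003) (nat_lit 304) (nat_lit 4534597176) (nat_lit 380) (nat_lit 10617058381) (nat_lit 117) (nat_lit 5) (nat_lit 121) (nat_lit 5) (nat_lit 122)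 (nat_lit 5) (nat_lit 481) (nat_lit 411) (nat_lit 308)))) (XT.nd (nat_lit 156) (nat_lit 304) (nat_lit 0) (XT.nd (nat_lit 78) (nat_lit 380) (nat_lit 0) (XT.lf (nat_lit 0) (nat_lit 2816466650) (nat_lit 228) (nat_lit 13348397367) (nat_lit 304) (nat_lit 3093017597) (nat_lit 114) (nat_lit 5) (nat_lit 117) (nat_lit 5) (nat_lit 118) (nat_lit 5) (nat_lit 482) (nat_lit 411) (nat_lit 307)) (XT.lf (nat_lit 0) (nat_lit 1830365199) (nat_lit 304) (nat_lit 2883036356) (nat_lit 380) (nat_lit 14902555026) (nat_lit 109) (nat_lit 5) (nat_lit 113) (nat_lit 5) (nat_lit 114) (nat_lit 5) (nat_lit 483) (nat_lit 411) (nat_lit 306))) (XT.nd (nat_lit 78) (nat_lit 76) (nat_lit 0) (XT.lf (nat_lit 0) (nat_lit 784158884) (nat_lit 228) (nat_lit 12069144258) (nat_lit 304) (nat_lit 7128236190) (nat_lit 106) (nat_lit 5) (nat_lit 109) (nat_lit 5) (nat_lit 110) (nat_lit 5) (nat_lit 484) (nat_lit 411) (nat_lit 305)) (XT.lf (nat_lit 0) (nat_lit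 981266773) (nat_lit 304) (nat_lit 272864880) (nat_lit 76) (nat_lit 19101574629) (nat_lit 105) (nat_lit 5) (nat_lit 109) (nat_lit 5) (nat_lit 106) (nat_lit 5) (nat_lit 485) (nat_lit 411) (nat_lit 304))))) (XT.nd (nat_lit 234) (nat_lit 988) (nat_lit 0) (XT.nd (nat_lit 78) (nat_lit 608) (nat_lit 0) (XT.lf (nat_lit 0) (nat_lit 9402489475) (nat_lit 380) (nat_lit 1421977839) (nat_lit 76) (nat_lit 9912383606) (nat_lit 101) (nat_lit 5) (nat_lit 106) (nat_lit 5) (nat_lit 102) (nat_lit 5) (nat_lit 486) (nat_lit 411) (nat_lit 303)) (XT.nd (nat_lit 78) (nat_lit 380) (nat_lit 0) (XT.lf (nat_lit 0) (nat_lit 18183543716) (nat_lit 304) (nat_lit 2574417254) (nat_lit 76) (nat_lit 369325629) (nat_lit 98) (nat_lit 5) (nat_lit 102) (nat_lit 5) (nat_lit 99) (nat_lit 5) (nat_lit 487) (nat_lit 411) (nat_lit 302)) (XT.lf (nat_lit 0) (nat_lit 5796617154) (nat_lit 380) (nat_lit 3830701609) (nat_lit 76) (nat_lit 11897921955)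 (nat_lit 93) (nat_lit 5) (nat_lit 98) (nat_lit 5) (nat_lit 94) (nat_lit 5) (nat_lit 488) (nat_lit 411) (nat_lit 301)))) (XT.nd (nat_lit 156) (nat_lit 456) (nat_lit 0) (XT.nd (nat_lit 78) (nat_lit 304) (nat_lit 0) (XT.lf (nat_lit 0) (nat_lit 14873729847) (nat_lit 304) (nat_lit 5116048911) (nat_lit 76) (nat_lit 1942675380) (nat_lit 90) (nat_lit 5) (nat_lit 94) (nat_lit 5) (nat_lit 91) (nat_lit 5) (nat_lit 489) (nat_lit 411) (nat_lit 300)) (XT.lf (nat_lit 0) (nat_lit 2016533070) (nat_lit 304) (nat_lit 6477178105) (nat_lit 76) (nat_lit 13854534258) (nat_lit 86) (nat_lit 5) (nat_lit 90) (nat_lit 5) (nat_lit 87) (nat_lit 5) (nat_lit 490) (nat_lit 411) (nat_lit 299))) (XT.nd (nat_lit 78) (nat_lit 228) (nat_lit 0) (XT.lf (nat_lit 0) (nat_lit 11398376523) (nat_lit 304) (nat_lit 7909206722) (nat_lit 76) (nat_lit 3465389997) (nat_lit 83) (nat_lit 5) (nat_lit 87) (nat_lit 5) (nat_lit 84) (nat_lit 5) (nat_lit 491)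 (nat_lit 411) (nat_lit 298)) (XT.lf (nat_lit 0) (nat_lit 13805530987) (nat_lit 228) (nat_lit 7422420849) (nat_lit 304) (nat_lit 1979166014) (nat_lit 80) (nat_lit 5) (nat_lit 83) (nat_lit 5) (nat_lit 84) (nat_lit 5) (nat_lit 492) (nat_lit 411) (nat_lit 297))))))) (XT.nd (nat_lit 56940) (nat_lit 0) (nat_lit 29032) (XT.nd (nat_lit 56394) (nat_lit 0) (nat_lit 42560) (XT.nd (nat_lit 234) (nat_lit 228) (nat_lit 0) (XT.nd (nat_lit 78) (nat_lit 532) (nat_lit 0) (XT.lf (nat_lit 0) (nat_lit 7741922936) (nat_lit 304) (nat_lit 10982556742) (nat_lit 76) (nat_lit 4925912814) (nat_lit 76) (nat_lit 5) (nat_lit 80) (nat_lit 5) (nat_lit 77) (nat_lit 5) (nat_lit 493) (nat_lit 411) (nat_lit 296)) (XT.nd (nat_lit 78) (nat_lit 304) (nat_lit 0) (XT.lf (nat_lit 0) (nat_lit 11467666440) (nat_lit 228) (nat_lit 6424718925) (nat_lit 304) (nat_lit 6211026224) (nat_lit 73) (nat_lit 5) (nat_lit 76) (nat_lit 5) (nat_lit 77) (nat_lit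 5) (nat_lit 494) (nat_lit 411) (nat_lit 295)) (XT.lf (nat_lit 0) (nat_lit 3887252507) (nat_lit 304) (nat_lit 14367619696) (nat_lit 76) (nat_lit 6311469942) (nat_lit 69) (nat_lit 5) (nat_lit 73) (nat_lit 5) (nat_lit 70) (nat_lit 5) (nat_lit 495) (nat_lit 411) (nat_lit 294)))) (XT.nd (nat_lit 56004) (nat_lit 0) (nat_lit 44916) (XT.nd (nat_lit 55926) (nat_lit 0) (nat_lit 45980) (XT.lf (nat_lit 0) (nat_lit 8839510654) (nat_lit 228) (nat_lit 5528442415) (nat_lit 304) (nat_lit 10671109737) (nat_lit 66) (nat_lit 5) (nat_lit 69) (nat_lit 5) (nat_lit 70) (nat_lit 5) (nat_lit 496) (nat_lit 411) (nat_lit 293)) (XT.lf (nat_lit 0) (nat_lit 985151082) (nat_lit 1140) (nat_lit 1270399803) (nat_lit 1140) (nat_lit 1270399803) (nat_lit 671) (nat_lit 3) (nat_lit 686) (nat_lit 3) (nat_lit 686) (nat_lit 5) (nat_lit 412) (nat_lit 412) (nat_lit 376))) (XT.nd (nat_lit 78) (nat_lit 1064) (nat_lit 0) (XT.lf (nat_lit 76) (nat_lit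 2740069804) (nat_lit 0) (nat_lit 1924641311) (nat_lit 1140) (nat_lit 2439455482) (nat_lit 672) (nat_lit 5) (nat_lit 671) (nat_lit 3) (nat_lit 686) (nat_lit 5) (nat_lit 413) (nat_lit 412) (nat_lit 375)) (XT.lf (nat_lit 0) (nat_lit 203107411) (nat_lit 1140) (nat_lit 6151829206) (nat_lit 1216) (nat_lit 804537762) (nat_lit 657) (nat_lit 5) (nat_lit 672) (nat_lit 5) (nat_lit 673) (nat_lit 5) (nat_lit 414) (nat_lit 412) (nat_lit 374))))) (XT.nd (nat_lit 234) (nat_lit 1216) (nat_lit 0) (XT.nd (nat_lit 78) (nat_lit 1140) (nat_lit 0) (XT.lf (nat_lit 0) (nat_lit 2833283265) (nat_lit 1140) (nat_lit 701203376) (nat_lit 1216) (nat_lit 3682810715) (nat_lit 657) (nat_lit 5) (nat_lit 672) (nat_lit 5) (nat_lit 673) (nat_lit 5) (nat_lit 415) (nat_lit 412) (nat_lit 373)) (XT.nd (nat_lit 78) (nat_lit 1140) (nat_lit 0) (XT.lf (nat_lit 76) (nat_lit 4922895415) (nat_lit 0) (nat_lit 553034123) (nat_lit 1216) (nat_lit 1802261978)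 (nat_lit 658) (nat_lit 5) (nat_lit 657) (nat_lit 5) (nat_lit 673) (nat_lit 5) (nat_lit 416) (nat_lit 412) (nat_lit 372)) (XT.lf (nat_lit 0) (nat_lit 792662071) (nat_lit 1216) (nat_lit 3990975907) (nat_lit 1292) (nat_lit 2558231503) (nat_lit 642) (nat_lit 5) (nat_lit 658) (nat_lit 5) (nat_lit 659) (nat_lit 5) (nat_lit 417) (nat_lit 412) (nat_lit 371)))) (XT.nd (nat_lit 156) (nat_lit 1216) (nat_lit 0) (XT.nd (nat_lit 78) (nat_lit 0) (nat_lit 76) (XT.lf (nat_lit 76) (nat_lit 1804915329) (nat_lit 0) (nat_lit 1573851839) (nat_lit 1292) (nat_lit 4029703184) (nat_lit 643) (nat_lit 5) (nat_lit 642) (nat_lit 5) (nat_lit 659) (nat_lit 5) (nat_lit 418) (nat_lit 412) (nat_lit 370)) (XT.lf (nat_lit 76) (nat_lit 287704671) (nat_lit 0) (nat_lit 5703892053) (nat_lit 1292) (nat_lit 1486496695) (nat_lit 644) (nat_lit 5) (nat_lit 643) (nat_lit 5) (nat_lit 660) (nat_lit 5) (nat_lit 419) (nat_lit 412) (nat_lit 369))) (XT.nd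 (nat_lit 78) (nat_lit 0) (nat_lit 76) (XT.lf (nat_lit 0) (nat_lit 1077391648) (nat_lit 1292) (nat_lit 1192465202) (nat_lit 1368) (nat_lit 5280622959) (nat_lit 626) (nat_lit 5) (nat_lit 643) (nat_lit 5) (nat_lit 644) (nat_lit 5) (nat_lit 420) (nat_lit 412) (nat_lit 368)) (XT.lf (nat_lit 0) (nat_lit 3652293203) (nat_lit 1292) (nat_lit 2649823134) (nat_lit 1368) (nat_lit 1323645558) (nat_lit 627) (nat_lit 5) (nat_lit 644) (nat_lit 5) (nat_lit 645) (nat_lit 5) (nat_lit 421) (nat_lit 412) (nat_lit 367)))))) (XT.nd (nat_lit 546) (nat_lit 9576) (nat_lit 0) (XT.nd (nat_lit 234) (nat_lit 2736) (nat_lit 0) (XT.nd (nat_lit 78) (nat_lit 1292) (nat_lit 0) (XT.lf (nat_lit 76) (nat_lit 3617796432) (nat_lit 0) (nat_lit 2648917725) (nat_lit 1368) (nat_lit 1437349118) (nat_lit 628) (nat_lit 5) (nat_lit 627) (nat_lit 5) (nat_lit 645) (nat_lit 5) (nat_lit 422) (nat_lit 412) (nat_lit 366)) (XT.nd (nat_lit 78) (nat_lit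 0) (nat_lit 0) (XT.lf (nat_lit 0) (nat_lit 1117075855) (nat_lit 1368) (nat_lit 5502761134) (nat_lit 1444) (nat_lit 1165577518) (nat_lit 610) (nat_lit 5) (nat_lit 628) (nat_lit 5) (nat_lit 629) (nat_lit 5) (nat_lit 423) (nat_lit 412) (nat_lit 365)) (XT.lf (nat_lit 76) (nat_lit 956926018) (nat_lit 0) (nat_lit 2742819394) (nat_lit 1444) (nat_lit 4169853851) (nat_lit 611) (nat_lit 5) (nat_lit 610) (nat_lit 5) (nat_lit 629) (nat_lit 5) (nat_lit 424) (nat_lit 412) (nat_lit 364)))) (XT.nd (nat_lit 156) (nat_lit 1368) (nat_lit 0) (XT.nd (nat_lit 78) (nat_lit 1444) (nat_lit 0) (XT.lf (nat_lit 0) (nat_lit 6326900097) (nat_lit 1368) (nat_lit 337020518) (nat_lit 1444) (nat_lit 1293054479) (nat_lit 611) (nat_lit 5) (nat_lit 629) (nat_lit 5) (nat_lit 630) (nat_lit 5) (nat_lit 425) (nat_lit 412) (nat_lit 363)) (XT.lf (nat_lit 0) (nat_lit 956683340) (nat_lit 1444) (nat_lit 1608612593) (nat_lit 1520) (nat_lit 5481879278)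 (nat_lit 592) (nat_lit 5) (nat_lit 611) (nat_lit 5) (nat_lit 612) (nat_lit 5) (nat_lit 426) (nat_lit 412) (nat_lit 362))) (XT.nd (nat_lit 78) (nat_lit 1444) (nat_lit 0) (XT.lf (nat_lit 0) (nat_lit 3571811118) (nat_lit 1444) (nat_lit 2868635324) (nat_lit 76) (nat_lit 1699966337) (nat_lit 593) (nat_lit 5) (nat_lit 612) (nat_lit 5) (nat_lit 594) (nat_lit 5) (nat_lit 427) (nat_lit 412) (nat_lit 361)) (XT.lf (nat_lit 0) (nat_lit 4123389938) (nat_lit 1444) (nat_lit 2123833552) (nat_lit 1520) (nat_lit 1989592423) (nat_lit 574) (nat_lit 5) (nat_lit 593) (nat_lit 5) (nat_lit 594) (nat_lit 5) (nat_lit 428) (nat_lit 412) (nat_lit 360))))) (XT.nd (nat_lit 234) (nat_lit 4712) (nat_lit 0) (XT.nd (nat_lit 78) (nat_lit 3268) (nat_lit 0) (XT.lf (nat_lit 0) (nat_lit 640793986) (nat_lit 1596) (nat_lit 5346306065) (nat_lit 76) (nat_lit 2349274276) (nat_lit 553) (nat_lit 5) (nat_lit 574) (nat_lit 5) (nat_lit 554) (nat_lit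 5) (nat_lit 429) (nat_lit 412) (nat_lit 359)) (XT.nd (nat_lit 78) (nat_lit 1672) (nat_lit 0) (XT.lf (nat_lit 0) (nat_lit 1862946813) (nat_lit 1596) (nat_lit 1444645044) (nat_lit 1672) (nat_lit 5131378667) (nat_lit 532) (nat_lit 5) (nat_lit 553) (nat_lit 5) (nat_lit 554) (nat_lit 5) (nat_lit 430) (nat_lit 412) (nat_lit 358)) (XT.lf (nat_lit 0) (nat_lit 747405414) (nat_lit 1672) (nat_lit 5301062201) (nat_lit 1748) (nat_lit 2496300048) (nat_lit 510) (nat_lit 5) (nat_lit 532) (nat_lit 5) (nat_lit 533) (nat_lit 5) (nat_lit 431) (nat_lit 412) (nat_lit 357)))) (XT.nd (nat_lit 156) (nat_lit 2888) (nat_lit 0) (XT.nd (nat_lit 78) (nat_lit 1748) (nat_lit 0) (XT.lf (nat_lit 0) (nat_lit 202412531) (nat_lit 1748) (nat_lit 342504551) (nat_lit 76) (nat_lit 8109048894) (nat_lit 509) (nat_lit 5) (nat_lit 532) (nat_lit 5) (nat_lit 510) (nat_lit 5) (nat_lit 432) (nat_lit 412) (nat_lit 356)) (XT.lf (nat_lit 0) (nat_lit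 2959764729) (nat_lit 1824) (nat_lit 1436513334) (nat_lit 76) (nat_lit 4369604489) (nat_lit 486) (nat_lit 5) (nat_lit 510) (nat_lit 5) (nat_lit 487) (nat_lit 5) (nat_lit 433) (nat_lit 412) (nat_lit 355))) (XT.nd (nat_lit 78) (nat_lit 1064) (nat_lit 0) (XT.lf (nat_lit 0) (nat_lit 5787534453) (nat_lit 1900) (nat_lit 2507901098) (nat_lit 76) (nat_lit 585971202) (nat_lit 462) (nat_lit 5) (nat_lit 487) (nat_lit 5) (nat_lit 463) (nat_lit 5) (nat_lit 434) (nat_lit 412) (nat_lit 354)) (XT.lf (nat_lit 0) (nat_lit 5421051482) (nat_lit 1064) (nat_lit 3291455339) (nat_lit 1140) (nat_lit 287646418) (nat_lit 448) (nat_lit 5) (nat_lit 462) (nat_lit 5) (nat_lit 463) (nat_lit 5) (nat_lit 435) (nat_lit 412) (nat_lit 353))))))))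
noncomputable def xc55 : XT := (XT.nd (nat_lit 2106) (nat_lit 9728) (nat_lit 0) (XT.nd (nat_lit 1014) (nat_lit 7600) (nat_lit 0) (XT.nd (nat_lit 468) (nat_lit 5396) (nat_lit 0) (XT.nd (nat_lit 234) (nat_lit 1748) (nat_lit 0) (XT.nd (nat_lit 78) (nat_lit 1748) (nat_lit 0) (XT.lf (nat_lit 0) (nat_lit 2566389792) (nat_lit 988) (nat_lit 4650822448) (nat_lit 76) (nat_lit 1904960474) (nat_lit 435) (nat_lit 5) (nat_lit 448) (nat_lit 5) (nat_lit 436) (nat_lit 5) (nat_lit 436) (nat_lit 412) (nat_lit 352)) (XT.nd (nat_lit 78) (nat_lit 836) (nat_lit 0) (XT.lf (nat_lit 0) (nat_lit 3529107900) (nat_lit 912) (nat_lit 1982823511) (nat_lit 988) (nat_lit 3735691139) (nat_lit 423) (nat_lit 5) (nat_lit 435) (nat_lit 5) (nat_lit 436) (nat_lit 5) (nat_lit 437) (nat_lit 412) (nat_lit 351)) (XT.lf (nat_lit 0) (nat_lit 2595336111) (nat_lit 836) (nat_lit 5963012106) (nat_lit 912) (nat_lit 818241027) (nat_lit 412) (nat_lit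 5) (nat_lit 423) (nat_lit 5) (nat_lit 424) (nat_lit 5) (nat_lit 438) (nat_lit 412) (nat_lit 350)))) (XT.nd (nat_lit 78) (nat_lit 836) (nat_lit 0) (XT.lf (nat_lit 0) (nat_lit 1664267680) (nat_lit 836) (nat_lit 499604340) (nat_lit 912) (nat_lit 7345155961) (nat_lit 400) (nat_lit 5) (nat_lit 411) (nat_lit 5) (nat_lit 412) (nat_lit 5) (nat_lit 439) (nat_lit 412) (nat_lit 349)) (XT.nd (nat_lit 78) (nat_lit 0) (nat_lit 0) (XT.lf (nat_lit 0) (nat_lit 723631835) (nat_lit 836) (nat_lit 4529045515) (nat_lit 912) (nat_lit 4392090721) (nat_lit 389) (nat_lit 5) (nat_lit 400) (nat_lit 5) (nat_lit 401) (nat_lit 5) (nat_lit 440) (nat_lit 412) (nat_lit 348)) (XT.lf (nat_lit 0) (nat_lit 8443448257) (nat_lit 912) (nat_lit 196309241) (nat_lit 76) (nat_lit 1144640016) (nat_lit 389) (nat_lit 5) (nat_lit 401) (nat_lit 5) (nat_lit 390) (nat_lit 5) (nat_lit 441) (nat_lit 412) (nat_lit 347))))) (XT.nd (nat_lit 234) (nat_lit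 2964) (nat_lit 0) (XT.nd (nat_lit 78) (nat_lit 1520) (nat_lit 0) (XT.lf (nat_lit 0) (nat_lit 1812737875) (nat_lit 912) (nat_lit 1120500685) (nat_lit 76) (nat_lit 6994053518) (nat_lit 377) (nat_lit 5) (nat_lit 389) (nat_lit 5) (nat_lit 378) (nat_lit 5) (nat_lit 442) (nat_lit 412) (nat_lit 346)) (XT.nd (nat_lit 78) (nat_lit 760) (nat_lit 0) (XT.lf (nat_lit 0) (nat_lit 5063728966) (nat_lit 836) (nat_lit 2045430782) (nat_lit 76) (nat_lit 2964721163) (nat_lit 367) (nat_lit 5) (nat_lit 378) (nat_lit 5) (nat_lit 368) (nat_lit 5) (nat_lit 443) (nat_lit 412) (nat_lit 345)) (XT.lf (nat_lit 0) (nat_lit 7261521259) (nat_lit 760) (nat_lit 1173976655) (nat_lit 836) (nat_lit 1788907384) (nat_lit 357) (nat_lit 5) (nat_lit 367) (nat_lit 5) (nat_lit 368) (nat_lit 5) (nat_lit 444) (nat_lit 412) (nat_lit 344)))) (XT.nd (nat_lit 156) (nat_lit 1444) (nat_lit 0) (XT.nd (nat_lit 78) (nat_lit 760) (nat_lit 0) (XT.lf (nat_lit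 0) (nat_lit 1547284026) (nat_lit 760) (nat_lit 3895948560) (nat_lit 76) (nat_lit 4935249758) (nat_lit 347) (nat_lit 5) (nat_lit 357) (nat_lit 5) (nat_lit 348) (nat_lit 5) (nat_lit 445) (nat_lit 412) (nat_lit 343)) (XT.lf (nat_lit 0) (nat_lit 4980053875) (nat_lit 836) (nat_lit 4827671990) (nat_lit 76) (nat_lit 728806040) (nat_lit 337) (nat_lit 5) (nat_lit 348) (nat_lit 5) (nat_lit 338) (nat_lit 5) (nat_lit 446) (nat_lit 412) (nat_lit 342))) (XT.nd (nat_lit 78) (nat_lit 760) (nat_lit 0) (XT.lf (nat_lit 0) (nat_lit 4928066441) (nat_lit 684) (nat_lit 3634447091) (nat_lit 760) (nat_lit 2135877844) (nat_lit 328) (nat_lit 5) (nat_lit 337) (nat_lit 5) (nat_lit 338) (nat_lit 5) (nat_lit 447) (nat_lit 412) (nat_lit 341)) (XT.lf (nat_lit 0) (nat_lit 1399686402) (nat_lit 760) (nat_lit 6715284055) (nat_lit 76) (nat_lit 2749347634) (nat_lit 318) (nat_lit 5) (nat_lit 328) (nat_lit 5) (nat_lit 319) (nat_lit 5) (nat_lit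 448) (nat_lit 412) (nat_lit 340)))))) (XT.nd (nat_lit 546) (nat_lit 3724) (nat_lit 0) (XT.nd (nat_lit 234) (nat_lit 1900) (nat_lit 0) (XT.nd (nat_lit 78) (nat_lit 1368) (nat_lit 0) (XT.lf (nat_lit 0) (nat_lit 3359710733) (nat_lit 608) (nat_lit 1691668470) (nat_lit 684) (nat_lit 5982781808) (nat_lit 310) (nat_lit 5) (nat_lit 318) (nat_lit 5) (nat_lit 319) (nat_lit 5) (nat_lit 449) (nat_lit 412) (nat_lit 339)) (XT.nd (nat_lit 78) (nat_lit 684) (nat_lit 0) (XT.lf (nat_lit 0) (nat_lit 2566101760) (nat_lit 684) (nat_lit 6295331862) (nat_lit 760) (nat_lit 2346691677) (nat_lit 301) (nat_lit 5) (nat_lit 310) (nat_lit 5) (nat_lit 311) (nat_lit 5) (nat_lit 450) (nat_lit 412) (nat_lit 338)) (XT.lf (nat_lit 0) (nat_lit 1412798327) (nat_lit 684) (nat_lit 9609324870) (nat_lit 76) (nat_lit 364352737) (nat_lit 292) (nat_lit 5) (nat_lit 301) (nat_lit 5) (nat_lit 293) (nat_lit 5) (nat_lit 451) (nat_lit 412) (nat_lit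 337)))) (XT.nd (nat_lit 156) (nat_lit 684) (nat_lit 0) (XT.nd (nat_lit 78) (nat_lit 608) (nat_lit 0) (XT.lf (nat_lit 0) (nat_lit 956991862) (nat_lit 608) (nat_lit 4359571898) (nat_lit 684) (nat_lit 6252037754) (nat_lit 284) (nat_lit 5) (nat_lit 292) (nat_lit 5) (nat_lit 293) (nat_lit 5) (nat_lit 452) (nat_lit 412) (nat_lit 336)) (XT.lf (nat_lit 0) (nat_lit 146731083) (nat_lit 608) (nat_lit 9230244199) (nat_lit 684) (nat_lit 2378426977) (nat_lit 276) (nat_lit 5) (nat_lit 284) (nat_lit 5) (nat_lit 285) (nat_lit 5) (nat_lit 453) (nat_lit 412) (nat_lit 335))) (XT.nd (nat_lit 78) (nat_lit 608) (nat_lit 0) (XT.lf (nat_lit 0) (nat_lit 1649202184) (nat_lit 684) (nat_lit 668509986) (nat_lit 76) (nat_lit 9628708698) (nat_lit 275) (nat_lit 5) (nat_lit 284) (nat_lit 5) (nat_lit 276) (nat_lit 5) (nat_lit 454) (nat_lit 412) (nat_lit 334)) (XT.lf (nat_lit 0) (nat_lit 5825120434) (nat_lit 684) (nat_lit 1503583342)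 (nat_lit 76) (nat_lit 4812958259) (nat_lit 267) (nat_lit 5) (nat_lit 276) (nat_lit 5) (nat_lit 268) (nat_lit 5) (nat_lit 455) (nat_lit 412) (nat_lit 333))))) (XT.nd (nat_lit 234) (nat_lit 2052) (nat_lit 0) (XT.nd (nat_lit 78) (nat_lit 1140) (nat_lit 0) (XT.lf (nat_lit 0) (nat_lit 10012752719) (nat_lit 532) (nat_lit 158062406) (nat_lit 608) (nat_lit 2171057184) (nat_lit 260) (nat_lit 5) (nat_lit 267) (nat_lit 5) (nat_lit 268) (nat_lit 5) (nat_lit 456) (nat_lit 412) (nat_lit 332)) (XT.nd (nat_lit 78) (nat_lit 532) (nat_lit 0) (XT.lf (nat_lit 0) (nat_lit 2149988507) (nat_lit 608) (nat_lit 3190732152) (nat_lit 76) (nat_lit 7205522998) (nat_lit 252) (nat_lit 5) (nat_lit 260) (nat_lit 5) (nat_lit 253) (nat_lit 5) (nat_lit 457) (nat_lit 412) (nat_lit 331)) (XT.lf (nat_lit 0) (nat_lit 6619267049) (nat_lit 608) (nat_lit 4057628001) (nat_lit 76) (nat_lit 2078603839) (nat_lit 245) (nat_lit 5) (nat_lit 253) (nat_lit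 5) (nat_lit 246) (nat_lit 5) (nat_lit 458) (nat_lit 412) (nat_lit 330)))) (XT.nd (nat_lit 156) (nat_lit 988) (nat_lit 0) (XT.nd (nat_lit 78) (nat_lit 532) (nat_lit 0) (XT.lf (nat_lit 0) (nat_lit 8032989034) (nat_lit 532) (nat_lit 3260735190) (nat_lit 608) (nat_lit 1675887205) (nat_lit 238) (nat_lit 5) (nat_lit 245) (nat_lit 5) (nat_lit 246) (nat_lit 5) (nat_lit 459) (nat_lit 412) (nat_lit 329)) (XT.lf (nat_lit 0) (nat_lit 2946527403) (nat_lit 532) (nat_lit 5840444044) (nat_lit 76) (nat_lit 4401467865) (nat_lit 231) (nat_lit 5) (nat_lit 238) (nat_lit 5) (nat_lit 232) (nat_lit 5) (nat_lit 460) (nat_lit 412) (nat_lit 328))) (XT.nd (nat_lit 78) (nat_lit 456) (nat_lit 0) (XT.lf (nat_lit 0) (nat_lit 6657471570) (nat_lit 532) (nat_lit 1088886417) (nat_lit 608) (nat_lit 5666023780) (nat_lit 224) (nat_lit 5) (nat_lit 231) (nat_lit 5) (nat_lit 232) (nat_lit 5) (nat_lit 461) (nat_lit 412) (nat_lit 327)) (XT.lf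 (nat_lit 0) (nat_lit 5949413554) (nat_lit 456) (nat_lit 6826983156) (nat_lit 532) (nat_lit 864923008) (nat_lit 218) (nat_lit 5) (nat_lit 224) (nat_lit 5) (nat_lit 225) (nat_lit 5) (nat_lit 462) (nat_lit 412) (nat_lit 326))))))) (XT.nd (nat_lit 1092) (nat_lit 4104) (nat_lit 0) (XT.nd (nat_lit 546) (nat_lit 2432) (nat_lit 0) (XT.nd (nat_lit 234) (nat_lit 1672) (nat_lit 0) (XT.nd (nat_lit 78) (nat_lit 988) (nat_lit 0) (XT.lf (nat_lit 0) (nat_lit 4085379399) (nat_lit 532) (nat_lit 8648991217) (nat_lit 76) (nat_lit 1141053152) (nat_lit 211) (nat_lit 5) (nat_lit 218) (nat_lit 5) (nat_lit 212) (nat_lit 5) (nat_lit 463) (nat_lit 412) (nat_lit 325)) (XT.nd (nat_lit 78) (nat_lit 532) (nat_lit 0) (XT.lf (nat_lit 0) (nat_lit 4477669461) (nat_lit 456) (nat_lit 4786489693) (nat_lit 532) (nat_lit 4850444435) (nat_lit 205) (nat_lit 5) (nat_lit 211) (nat_lit 5) (nat_lit 212) (nat_lit 5) (nat_lit 464) (nat_lit 412)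 (nat_lit 324)) (XT.lf (nat_lit 0) (nat_lit 305059189) (nat_lit 532) (nat_lit 10629478113) (nat_lit 76) (nat_lit 3424975421) (nat_lit 198) (nat_lit 5) (nat_lit 205) (nat_lit 5) (nat_lit 199) (nat_lit 5) (nat_lit 465) (nat_lit 412) (nat_lit 323)))) (XT.nd (nat_lit 156) (nat_lit 836) (nat_lit 0) (XT.nd (nat_lit 78) (nat_lit 456) (nat_lit 0) (XT.lf (nat_lit 0) (nat_lit 2942407471) (nat_lit 380) (nat_lit 2689671601) (nat_lit 456) (nat_lit 8977395106) (nat_lit 193) (nat_lit 5) (nat_lit 198) (nat_lit 5) (nat_lit 199) (nat_lit 5) (nat_lit 466) (nat_lit 412) (nat_lit 322)) (XT.lf (nat_lit 0) (nat_lit 2140866873) (nat_lit 456) (nat_lit 9068222507) (nat_lit 532) (nat_lit 3656042734) (nat_lit 187) (nat_lit 5) (nat_lit 193) (nat_lit 5) (nat_lit 194) (nat_lit 5) (nat_lit 467) (nat_lit 412) (nat_lit 321))) (XT.nd (nat_lit 78) (nat_lit 380) (nat_lit 0) (XT.lf (nat_lit 0) (nat_lit 1332841600) (nat_lit 380) (nat_lit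 540941771) (nat_lit 456) (nat_lit 13252985261) (nat_lit 181) (nat_lit 5) (nat_lit 186) (nat_lit 5) (nat_lit 187) (nat_lit 5) (nat_lit 468) (nat_lit 412) (nat_lit 320)) (XT.lf (nat_lit 0) (nat_lit 469044661) (nat_lit 380) (nat_lit 7161515612) (nat_lit 456) (nat_lit 7762997238) (nat_lit 176) (nat_lit 5) (nat_lit 181) (nat_lit 5) (nat_lit 182) (nat_lit 5) (nat_lit 469) (nat_lit 412) (nat_lit 319))))) (XT.nd (nat_lit 234) (nat_lit 1596) (nat_lit 0) (XT.nd (nat_lit 78) (nat_lit 836) (nat_lit 0) (XT.lf (nat_lit 0) (nat_lit 13635686964) (nat_lit 456) (nat_lit 381919319) (nat_lit 76) (nat_lit 1649231950) (nat_lit 176) (nat_lit 5) (nat_lit 182) (nat_lit 5) (nat_lit 177) (nat_lit 5) (nat_lit 470) (nat_lit 412) (nat_lit 318)) (XT.nd (nat_lit 78) (nat_lit 380) (nat_lit 0) (XT.lf (nat_lit 0) (nat_lit 3934456730) (nat_lit 456) (nat_lit 1278356641) (nat_lit 76) (nat_lit 10732750238) (nat_lit 170) (nat_lit 5) (nat_lit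 176) (nat_lit 5) (nat_lit 171) (nat_lit 5) (nat_lit 471) (nat_lit 412) (nat_lit 317)) (XT.lf (nat_lit 0) (nat_lit 10140116484) (nat_lit 456) (nat_lit 2193273373) (nat_lit 76) (nat_lit 3897219818) (nat_lit 165) (nat_lit 5) (nat_lit 171) (nat_lit 5) (nat_lit 166) (nat_lit 5) (nat_lit 472) (nat_lit 412) (nat_lit 316)))) (XT.nd (nat_lit 156) (nat_lit 760) (nat_lit 0) (XT.nd (nat_lit 78) (nat_lit 380) (nat_lit 0) (XT.lf (nat_lit 0) (nat_lit 108334406) (nat_lit 456) (nat_lit 3123658261) (nat_lit 76) (nat_lit 13290200484) (nat_lit 159) (nat_lit 5) (nat_lit 165) (nat_lit 5) (nat_lit 160) (nat_lit 5) (nat_lit 473) (nat_lit 412) (nat_lit 315)) (XT.lf (nat_lit 0) (nat_lit 6519095077) (nat_lit 456) (nat_lit 4115978056) (nat_lit 76) (nat_lit 6184472497) (nat_lit 154) (nat_lit 5) (nat_lit 160) (nat_lit 5) (nat_lit 155) (nat_lit 5) (nat_lit 474) (nat_lit 412) (nat_lit 314))) (XT.nd (nat_lit 78) (nat_lit 456) (nat_lit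 0) (XT.lf (nat_lit 0) (nat_lit 12011888322) (nat_lit 304) (nat_lit 1201513255) (nat_lit 380) (nat_lit 3910593562) (nat_lit 150) (nat_lit 5) (nat_lit 154) (nat_lit 5) (nat_lit 155) (nat_lit 5) (nat_lit 475) (nat_lit 412) (nat_lit 313)) (XT.lf (nat_lit 0) (nat_lit 2764196450) (nat_lit 456) (nat_lit 6164299865) (nat_lit 76) (nat_lit 8506170510) (nat_lit 144) (nat_lit 5) (nat_lit 150) (nat_lit 5) (nat_lit 145) (nat_lit 5) (nat_lit 476) (nat_lit 412) (nat_lit 312)))))) (XT.nd (nat_lit 546) (nat_lit 1824) (nat_lit 0) (XT.nd (nat_lit 234) (nat_lit 1216) (nat_lit 0) (XT.nd (nat_lit 78) (nat_lit 760) (nat_lit 0) (XT.lf (nat_lit 0) (nat_lit 9674239454) (nat_lit 380) (nat_lit 7240362079) (nat_lit 76) (nat_lit 837778220) (nat_lit 140) (nat_lit 5) (nat_lit 145) (nat_lit 5) (nat_lit 141) (nat_lit 5) (nat_lit 477) (nat_lit 412) (nat_lit 311)) (XT.nd (nat_lit 78) (nat_lit 380) (nat_lit 0) (XT.lf (nat_lit 0) (nat_lit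 9715736632) (nat_lit 380) (nat_lit 7212250398) (nat_lit 456) (nat_lit 1148909794) (nat_lit 135) (nat_lit 5) (nat_lit 140) (nat_lit 5) (nat_lit 141) (nat_lit 5) (nat_lit 478) (nat_lit 412) (nat_lit 310)) (XT.lf (nat_lit 0) (nat_lit 6007669461) (nat_lit 380) (nat_lit 9526249215) (nat_lit 76) (nat_lit 2874493767) (nat_lit 130) (nat_lit 5) (nat_lit 135) (nat_lit 5) (nat_lit 131) (nat_lit 5) (nat_lit 479) (nat_lit 412) (nat_lit 309)))) (XT.nd (nat_lit 156) (nat_lit 532) (nat_lit 0) (XT.nd (nat_lit 78) (nat_lit 380) (nat_lit 0) (XT.lf (nat_lit 0) (nat_lit 8012038499) (nat_lit 304) (nat_lit 5481001520) (nat_lit 380) (nat_lit 5254088324) (nat_lit 126) (nat_lit 5) (nat_lit 130) (nat_lit 5) (nat_lit 131) (nat_lit 5) (nat_lit 480) (nat_lit 412) (nat_lit 308)) (XT.lf (nat_lit 0) (nat_lit 2195738359) (nat_lit 380) (nat_lit 11979501181) (nat_lit 76) (nat_lit 4918165194) (nat_lit 121) (nat_lit 5) (nat_lit 126) (nat_lit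 5) (nat_lit 122) (nat_lit 5) (nat_lit 481) (nat_lit 412) (nat_lit 307))) (XT.nd (nat_lit 78) (nat_lit 228) (nat_lit 0) (XT.lf (nat_lit 0) (nat_lit 6160649543) (nat_lit 304) (nat_lit 3760377206) (nat_lit 380) (nat_lit 9525881794) (nat_lit 117) (nat_lit 5) (nat_lit 121) (nat_lit 5) (nat_lit 122) (nat_lit 5) (nat_lit 482) (nat_lit 412) (nat_lit 306)) (XT.lf (nat_lit 0) (nat_lit 5177454387) (nat_lit 228) (nat_lit 12834633545) (nat_lit 304) (nat_lit 1796249933) (nat_lit 114) (nat_lit 5) (nat_lit 117) (nat_lit 5) (nat_lit 118) (nat_lit 5) (nat_lit 483) (nat_lit 412) (nat_lit 305))))) (XT.nd (nat_lit 234) (nat_lit 836) (nat_lit 0) (XT.nd (nat_lit 78) (nat_lit 608) (nat_lit 0) (XT.lf (nat_lit 0) (nat_lit 4142798532) (nat_lit 304) (nat_lit 2058054525) (nat_lit 380) (nat_lit 13976628263) (nat_lit 109) (nat_lit 5) (nat_lit 113) (nat_lit 5) (nat_lit 114) (nat_lit 5) (nat_lit 484) (nat_lit 412) (nat_lit 304)) (XT.nd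 (nat_lit 78) (nat_lit 380) (nat_lit 0) (XT.lf (nat_lit 0) (nat_lit 3049275195) (nat_lit 228) (nat_lit 11516770593) (nat_lit 304) (nat_lit 5988364844) (nat_lit 106) (nat_lit 5) (nat_lit 109) (nat_lit 5) (nat_lit 110) (nat_lit 5) (nat_lit 485) (nat_lit 412) (nat_lit 303)) (XT.lf (nat_lit 0) (nat_lit 1937935630) (nat_lit 304) (nat_lit 382404102) (nat_lit 380) (nat_lit 18619814573) (nat_lit 101) (nat_lit 5) (nat_lit 105) (nat_lit 5) (nat_lit 106) (nat_lit 5) (nat_lit 486) (nat_lit 412) (nat_lit 302)))) (XT.nd (nat_lit 156) (nat_lit 608) (nat_lit 0) (XT.nd (nat_lit 78) (nat_lit 0) (nat_lit 0) (XT.lf (nat_lit 0) (nat_lit 722572763) (nat_lit 228) (nat_lit 10245712267) (nat_lit 304) (nat_lit 10364967420) (nat_lit 98) (nat_lit 5) (nat_lit 101) (nat_lit 5) (nat_lit 102) (nat_lit 5) (nat_lit 487) (nat_lit 412) (nat_lit 301)) (XT.lf (nat_lit 0) (nat_lit 19990493237) (nat_lit 304) (nat_lit 489862350) (nat_lit 76)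 (nat_lit 1255492027) (nat_lit 98) (nat_lit 5) (nat_lit 102) (nat_lit 5) (nat_lit 99) (nat_lit 5) (nat_lit 488) (nat_lit 412) (nat_lit 300))) (XT.nd (nat_lit 78) (nat_lit 228) (nat_lit 0) (XT.lf (nat_lit 0) (nat_lit 7217255428) (nat_lit 380) (nat_lit 1802311818) (nat_lit 76) (nat_lit 13126468563) (nat_lit 93) (nat_lit 5) (nat_lit 98) (nat_lit 5) (nat_lit 94) (nat_lit 5) (nat_lit 489) (nat_lit 412) (nat_lit 299)) (XT.lf (nat_lit 0) (nat_lit 16549800971) (nat_lit 304) (nat_lit 3142225581) (nat_lit 76) (nat_lit 2873777486) (nat_lit 90) (nat_lit 5) (nat_lit 94) (nat_lit 5) (nat_lit 91) (nat_lit 5) (nat_lit 490) (nat_lit 412) (nat_lit 298))))))))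
noncomputable def xc56 : XT := (XT.nd (nat_lit 58032) (nat_lit 0) (nat_lit 12768) (XT.nd (nat_lit 56940) (nat_lit 0) (nat_lit 31692) (XT.nd (nat_lit 56394) (nat_lit 0) (nat_lit 42256) (XT.nd (nat_lit 234) (nat_lit 836) (nat_lit 0) (XT.nd (nat_lit 78) (nat_lit 456) (nat_lit 0) (XT.lf (nat_lit 0) (nat_lit 3292677892) (nat_lit 304) (nat_lit 4562521050) (nat_lit 76) (nat_lit 15139155617) (nat_lit 86) (nat_lit 5) (nat_lit 90) (nat_lit 5) (nat_lit 87) (nat_lit 5) (nat_lit 491) (nat_lit 412) (nat_lit 297)) (XT.nd (nat_lit 78) (nat_lit 228) (nat_lit 0) (XT.lf (nat_lit 0) (nat_lit 12939760423) (nat_lit 304) (nat_lit 6053547653) (nat_lit 76) (nat_lit 4438841186) (nat_lit 83) (nat_lit 5) (nat_lit 87) (nat_lit 5) (nat_lit 84) (nat_lit 5) (nat_lit 492) (nat_lit 412) (nat_lit 296)) (XT.lf (nat_lit 0) (nat_lit 16278676800) (nat_lit 228) (nat_lit 6763979529) (nat_lit 304) (nat_lit 837093928) (nat_lit 80) (nat_lit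 5) (nat_lit 83) (nat_lit 5) (nat_lit 84) (nat_lit 5) (nat_lit 493) (nat_lit 412) (nat_lit 295)))) (XT.nd (nat_lit 78) (nat_lit 532) (nat_lit 0) (XT.lf (nat_lit 0) (nat_lit 9144280084) (nat_lit 304) (nat_lit 9253314804) (nat_lit 76) (nat_lit 5938884727) (nat_lit 76) (nat_lit 5) (nat_lit 80) (nat_lit 5) (nat_lit 77) (nat_lit 5) (nat_lit 494) (nat_lit 412) (nat_lit 294)) (XT.nd (nat_lit 78) (nat_lit 304) (nat_lit 0) (XT.lf (nat_lit 0) (nat_lit 13837014810) (nat_lit 228) (nat_lit 5741310719) (nat_lit 304) (nat_lit 5225183032) (nat_lit 73) (nat_lit 5) (nat_lit 76) (nat_lit 5) (nat_lit 77) (nat_lit 5) (nat_lit 495) (nat_lit 412) (nat_lit 293)) (XT.lf (nat_lit 0) (nat_lit 5145670383) (nat_lit 304) (nat_lit 12773957541) (nat_lit 76) (nat_lit 7360847536) (nat_lit 69) (nat_lit 5) (nat_lit 73) (nat_lit 5) (nat_lit 70) (nat_lit 5) (nat_lit 496) (nat_lit 412) (nat_lit 292))))) (XT.nd (nat_lit 234) (nat_lit 2356)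 (nat_lit 0) (XT.nd (nat_lit 78) (nat_lit 0) (nat_lit 0) (XT.lf (nat_lit 0) (nat_lit 28432597) (nat_lit 0) (nat_lit 28432597) (nat_lit 1140) (nat_lit 3522202587) (nat_lit 656) (nat_lit 5) (nat_lit 656) (nat_lit 3) (nat_lit 671) (nat_lit 3) (nat_lit 413) (nat_lit 413) (nat_lit 374)) (XT.nd (nat_lit 78) (nat_lit 0) (nat_lit 0) (XT.lf (nat_lit 0) (nat_lit 2662153582) (nat_lit 1140) (nat_lit 1779087398) (nat_lit 1216) (nat_lit 2773132466) (nat_lit 656) (nat_lit 5) (nat_lit 671) (nat_lit 3) (nat_lit 672) (nat_lit 5) (nat_lit 414) (nat_lit 413) (nat_lit 373)) (XT.lf (nat_lit 76) (nat_lit 3699255842) (nat_lit 0) (nat_lit 1513813051) (nat_lit 1216) (nat_lit 2060716582) (nat_lit 657) (nat_lit 5) (nat_lit 656) (nat_lit 5) (nat_lit 672) (nat_lit 5) (nat_lit 415) (nat_lit 413) (nat_lit 372)))) (XT.nd (nat_lit 156) (nat_lit 1216) (nat_lit 0) (XT.nd (nat_lit 78) (nat_lit 0) (nat_lit 0) (XT.lf (nat_lit 0) (nat_lit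 437796516) (nat_lit 1216) (nat_lit 5344203391) (nat_lit 1292) (nat_lit 1554143838) (nat_lit 641) (nat_lit 5) (nat_lit 657) (nat_lit 5) (nat_lit 658) (nat_lit 5) (nat_lit 416) (nat_lit 413) (nat_lit 371)) (XT.lf (nat_lit 76) (nat_lit 300914244) (nat_lit 0) (nat_lit 2625261603) (nat_lit 1292) (nat_lit 4475073538) (nat_lit 642) (nat_lit 5) (nat_lit 641) (nat_lit 5) (nat_lit 658) (nat_lit 5) (nat_lit 417) (nat_lit 413) (nat_lit 370))) (XT.nd (nat_lit 78) (nat_lit 1292) (nat_lit 0) (XT.lf (nat_lit 0) (nat_lit 5438654514) (nat_lit 1216) (nat_lit 1337982552) (nat_lit 1292) (nat_lit 692689164) (nat_lit 642) (nat_lit 5) (nat_lit 658) (nat_lit 5) (nat_lit 659) (nat_lit 5) (nat_lit 418) (nat_lit 413) (nat_lit 369)) (XT.lf (nat_lit 0) (nat_lit 439313440) (nat_lit 1292) (nat_lit 2956362745) (nat_lit 1368) (nat_lit 4144539825) (nat_lit 625) (nat_lit 5) (nat_lit 642) (nat_lit 5) (nat_lit 643) (nat_lit 5) (nat_lit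 419) (nat_lit 413) (nat_lit 368)))))) (XT.nd (nat_lit 546) (nat_lit 8056) (nat_lit 0) (XT.nd (nat_lit 234) (nat_lit 1216) (nat_lit 0) (XT.nd (nat_lit 78) (nat_lit 1368) (nat_lit 0) (XT.lf (nat_lit 0) (nat_lit 2899274728) (nat_lit 1292) (nat_lit 4553399818) (nat_lit 1368) (nat_lit 161426640) (nat_lit 626) (nat_lit 5) (nat_lit 643) (nat_lit 5) (nat_lit 644) (nat_lit 5) (nat_lit 420) (nat_lit 413) (nat_lit 367)) (XT.nd (nat_lit 78) (nat_lit 1368) (nat_lit 0) (XT.lf (nat_lit 76) (nat_lit 1552077520) (nat_lit 0) (nat_lit 3849543851) (nat_lit 1368) (nat_lit 2289216092) (nat_lit 627) (nat_lit 5) (nat_lit 626) (nat_lit 5) (nat_lit 644) (nat_lit 5) (nat_lit 421) (nat_lit 413) (nat_lit 366)) (XT.lf (nat_lit 76) (nat_lit 78653620) (nat_lit 0) (nat_lit 76530276) (nat_lit 1444) (nat_lit 7615695456) (nat_lit 609) (nat_lit 5) (nat_lit 608) (nat_lit 5) (nat_lit 627) (nat_lit 5) (nat_lit 422) (nat_lit 413) (nat_lit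 365)))) (XT.nd (nat_lit 156) (nat_lit 1292) (nat_lit 0) (XT.nd (nat_lit 78) (nat_lit 0) (nat_lit 76) (XT.lf (nat_lit 0) (nat_lit 2628033033) (nat_lit 1368) (nat_lit 1381705966) (nat_lit 1444) (nat_lit 3843562294) (nat_lit 609) (nat_lit 5) (nat_lit 627) (nat_lit 5) (nat_lit 628) (nat_lit 5) (nat_lit 423) (nat_lit 413) (nat_lit 364)) (XT.lf (nat_lit 0) (nat_lit 5130674968) (nat_lit 1368) (nat_lit 2808076872) (nat_lit 1444) (nat_lit 337536) (nat_lit 610) (nat_lit 5) (nat_lit 628) (nat_lit 5) (nat_lit 629) (nat_lit 5) (nat_lit 424) (nat_lit 413) (nat_lit 363))) (XT.nd (nat_lit 78) (nat_lit 1368) (nat_lit 0) (XT.lf (nat_lit 76) (nat_lit 3799004571) (nat_lit 0) (nat_lit 3894161450) (nat_lit 1444) (nat_lit 334595151) (nat_lit 611) (nat_lit 5) (nat_lit 610) (nat_lit 5) (nat_lit 629) (nat_lit 5) (nat_lit 425) (nat_lit 413) (nat_lit 362)) (XT.lf (nat_lit 0) (nat_lit 2147171325) (nat_lit 1444) (nat_lit 5634491229)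 (nat_lit 1520) (nat_lit 337893105) (nat_lit 592) (nat_lit 5) (nat_lit 611) (nat_lit 5) (nat_lit 612) (nat_lit 5) (nat_lit 426) (nat_lit 413) (nat_lit 361))))) (XT.nd (nat_lit 234) (nat_lit 6612) (nat_lit 0) (XT.nd (nat_lit 78) (nat_lit 1444) (nat_lit 0) (XT.lf (nat_lit 76) (nat_lit 1176094457) (nat_lit 0) (nat_lit 3512485918) (nat_lit 1520) (nat_lit 3525689716) (nat_lit 593) (nat_lit 5) (nat_lit 592) (nat_lit 5) (nat_lit 612) (nat_lit 5) (nat_lit 427) (nat_lit 413) (nat_lit 360)) (XT.nd (nat_lit 78) (nat_lit 1520) (nat_lit 0) (XT.lf (nat_lit 0) (nat_lit 7279469406) (nat_lit 1444) (nat_lit 105082067) (nat_lit 76) (nat_lit 927814634) (nat_lit 593) (nat_lit 5) (nat_lit 612) (nat_lit 5) (nat_lit 594) (nat_lit 5) (nat_lit 428) (nat_lit 413) (nat_lit 359)) (XT.lf (nat_lit 0) (nat_lit 1514941790) (nat_lit 1520) (nat_lit 1372896283) (nat_lit 76) (nat_lit 5525364531) (nat_lit 573) (nat_lit 5) (nat_lit 593)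 (nat_lit 5) (nat_lit 574) (nat_lit 5) (nat_lit 429) (nat_lit 413) (nat_lit 358)))) (XT.nd (nat_lit 156) (nat_lit 3496) (nat_lit 0) (XT.nd (nat_lit 78) (nat_lit 1596) (nat_lit 0) (XT.lf (nat_lit 0) (nat_lit 4108333343) (nat_lit 1596) (nat_lit 2628827360) (nat_lit 76) (nat_lit 1780108459) (nat_lit 553) (nat_lit 5) (nat_lit 574) (nat_lit 5) (nat_lit 554) (nat_lit 5) (nat_lit 430) (nat_lit 413) (nat_lit 357)) (XT.lf (nat_lit 0) (nat_lit 4750013117) (nat_lit 1596) (nat_lit 2023067544) (nat_lit 1672) (nat_lit 1851510377) (nat_lit 532) (nat_lit 5) (nat_lit 553) (nat_lit 5) (nat_lit 554) (nat_lit 5) (nat_lit 431) (nat_lit 413) (nat_lit 356))) (XT.nd (nat_lit 78) (nat_lit 1748) (nat_lit 0) (XT.lf (nat_lit 0) (nat_lit 767869807) (nat_lit 1748) (nat_lit 5115334578) (nat_lit 76) (nat_lit 2851920817) (nat_lit 509) (nat_lit 5) (nat_lit 532) (nat_lit 5) (nat_lit 510) (nat_lit 5) (nat_lit 432) (nat_lit 413) (nat_lit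 355)) (XT.lf (nat_lit 0) (nat_lit 2494749767) (nat_lit 1748) (nat_lit 938998002) (nat_lit 1824) (nat_lit 5415125499) (nat_lit 486) (nat_lit 5) (nat_lit 509) (nat_lit 5) (nat_lit 510) (nat_lit 5) (nat_lit 433) (nat_lit 413) (nat_lit 354))))))) (XT.nd (nat_lit 1014) (nat_lit 8360) (nat_lit 0) (XT.nd (nat_lit 468) (nat_lit 4864) (nat_lit 0) (XT.nd (nat_lit 234) (nat_lit 2736) (nat_lit 0) (XT.nd (nat_lit 78) (nat_lit 1140) (nat_lit 0) (XT.lf (nat_lit 0) (nat_lit 1372776979) (nat_lit 1824) (nat_lit 4815904016) (nat_lit 1900) (nat_lit 2777175150) (nat_lit 462) (nat_lit 5) (nat_lit 486) (nat_lit 5) (nat_lit 487) (nat_lit 5) (nat_lit 434) (nat_lit 413) (nat_lit 353)) (XT.nd (nat_lit 78) (nat_lit 76) (nat_lit 0) (XT.lf (nat_lit 0) (nat_lit 271933393) (nat_lit 1064) (nat_lit 8747355650) (nat_lit 1140) (nat_lit 67202762) (nat_lit 448) (nat_lit 5) (nat_lit 462) (nat_lit 5) (nat_lit 463) (nat_lit 5) (nat_lit 435)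 (nat_lit 413) (nat_lit 352)) (XT.lf (nat_lit 0) (nat_lit 2713124429) (nat_lit 1140) (nat_lit 839181489) (nat_lit 76) (nat_lit 5657594892) (nat_lit 447) (nat_lit 5) (nat_lit 462) (nat_lit 5) (nat_lit 448) (nat_lit 5) (nat_lit 436) (nat_lit 413) (nat_lit 351)))) (XT.nd (nat_lit 78) (nat_lit 1824) (nat_lit 0) (XT.lf (nat_lit 0) (nat_lit 5578641944) (nat_lit 988) (nat_lit 1931348235) (nat_lit 76) (nat_lit 1826962694) (nat_lit 435) (nat_lit 5) (nat_lit 448) (nat_lit 5) (nat_lit 436) (nat_lit 5) (nat_lit 437) (nat_lit 413) (nat_lit 350)) (XT.nd (nat_lit 78) (nat_lit 912) (nat_lit 0) (XT.lf (nat_lit 0) (nat_lit 6447596164) (nat_lit 912) (nat_lit 2097721987) (nat_lit 988) (nat_lit 922197923) (nat_lit 423) (nat_lit 5) (nat_lit 435) (nat_lit 5) (nat_lit 436) (nat_lit 5) (nat_lit 438) (nat_lit 413) (nat_lit 349)) (XT.lf (nat_lit 0) (nat_lit 1989471358) (nat_lit 912) (nat_lit 4117620925) (nat_lit 76) (nat_lit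 3494313783) (nat_lit 411) (nat_lit 5) (nat_lit 423) (nat_lit 5) (nat_lit 412) (nat_lit 5) (nat_lit 439) (nat_lit 413) (nat_lit 348))))) (XT.nd (nat_lit 234) (nat_lit 2280) (nat_lit 0) (XT.nd (nat_lit 78) (nat_lit 1748) (nat_lit 0) (XT.lf (nat_lit 0) (nat_lit 4529367547) (nat_lit 836) (nat_lit 456733836) (nat_lit 912) (nat_lit 4752889845) (nat_lit 400) (nat_lit 5) (nat_lit 411) (nat_lit 5) (nat_lit 412) (nat_lit 5) (nat_lit 440) (nat_lit 413) (nat_lit 347)) (XT.nd (nat_lit 78) (nat_lit 912) (nat_lit 0) (XT.lf (nat_lit 0) (nat_lit 3568880539) (nat_lit 836) (nat_lit 4537077250) (nat_lit 912) (nat_lit 1774082693) (nat_lit 389) (nat_lit 5) (nat_lit 400) (nat_lit 5) (nat_lit 401) (nat_lit 5) (nat_lit 441) (nat_lit 413) (nat_lit 346)) (XT.lf (nat_lit 0) (nat_lit 1289572405) (nat_lit 912) (nat_lit 7408338314) (nat_lit 76) (nat_lit 1326996271) (nat_lit 377) (nat_lit 5) (nat_lit 389) (nat_lit 5) (nat_lit 378)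 (nat_lit 5) (nat_lit 442) (nat_lit 413) (nat_lit 345)))) (XT.nd (nat_lit 156) (nat_lit 760) (nat_lit 0) (XT.nd (nat_lit 78) (nat_lit 760) (nat_lit 0) (XT.lf (nat_lit 0) (nat_lit 1649583963) (nat_lit 760) (nat_lit 2804920813) (nat_lit 836) (nat_lit 5718713625) (nat_lit 367) (nat_lit 5) (nat_lit 377) (nat_lit 5) (nat_lit 378) (nat_lit 5) (nat_lit 443) (nat_lit 413) (nat_lit 344)) (XT.lf (nat_lit 0) (nat_lit 688278641) (nat_lit 760) (nat_lit 7052639088) (nat_lit 836) (nat_lit 2584533545) (nat_lit 357) (nat_lit 5) (nat_lit 367) (nat_lit 5) (nat_lit 368) (nat_lit 5) (nat_lit 444) (nat_lit 413) (nat_lit 343))) (XT.nd (nat_lit 78) (nat_lit 684) (nat_lit 0) (XT.lf (nat_lit 0) (nat_lit 663233364) (nat_lit 836) (nat_lit 265848694) (nat_lit 76) (nat_lit 9552528058) (nat_lit 356) (nat_lit 5) (nat_lit 367) (nat_lit 5) (nat_lit 357) (nat_lit 5) (nat_lit 445) (nat_lit 413) (nat_lit 342)) (XT.lf (nat_lit 0) (nat_lit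 4022742132) (nat_lit 760) (nat_lit 1237161067) (nat_lit 76) (nat_lit 5381222961) (nat_lit 347) (nat_lit 5) (nat_lit 357) (nat_lit 5) (nat_lit 348) (nat_lit 5) (nat_lit 446) (nat_lit 413) (nat_lit 341)))))) (XT.nd (nat_lit 546) (nat_lit 3572) (nat_lit 0) (XT.nd (nat_lit 234) (nat_lit 2584) (nat_lit 0) (XT.nd (nat_lit 78) (nat_lit 1444) (nat_lit 0) (XT.lf (nat_lit 0) (nat_lit 7507777828) (nat_lit 836) (nat_lit 2196523991) (nat_lit 76) (nat_lit 1100633514) (nat_lit 337) (nat_lit 5) (nat_lit 348) (nat_lit 5) (nat_lit 338) (nat_lit 5) (nat_lit 447) (nat_lit 413) (nat_lit 340)) (XT.nd (nat_lit 78) (nat_lit 684) (nat_lit 0) (XT.lf (nat_lit 0) (nat_lit 171210464) (nat_lit 760) (nat_lit 3166961811) (nat_lit 76) (nat_lit 7634490268) (nat_lit 327) (nat_lit 5) (nat_lit 337) (nat_lit 5) (nat_lit 328) (nat_lit 5) (nat_lit 448) (nat_lit 413) (nat_lit 339)) (XT.lf (nat_lit 0) (nat_lit 3736172738) (nat_lit 760) (nat_lit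 4156178912) (nat_lit 76) (nat_lit 3251889555) (nat_lit 318) (nat_lit 5) (nat_lit 328) (nat_lit 5) (nat_lit 319) (nat_lit 5) (nat_lit 449) (nat_lit 413) (nat_lit 338)))) (XT.nd (nat_lit 156) (nat_lit 1292) (nat_lit 0) (XT.nd (nat_lit 78) (nat_lit 684) (nat_lit 0) (XT.lf (nat_lit 0) (nat_lit 6176278855) (nat_lit 608) (nat_lit 1271940120) (nat_lit 684) (nat_lit 3871947779) (nat_lit 310) (nat_lit 5) (nat_lit 318) (nat_lit 5) (nat_lit 319) (nat_lit 5) (nat_lit 450) (nat_lit 413) (nat_lit 337)) (XT.lf (nat_lit 0) (nat_lit 5356084967) (nat_lit 684) (nat_lit 5971673303) (nat_lit 760) (nat_lit 172491331) (nat_lit 301) (nat_lit 5) (nat_lit 310) (nat_lit 5) (nat_lit 311) (nat_lit 5) (nat_lit 451) (nat_lit 413) (nat_lit 336))) (XT.nd (nat_lit 78) (nat_lit 608) (nat_lit 0) (XT.lf (nat_lit 0) (nat_lit 3626783665) (nat_lit 684) (nat_lit 7159525643) (nat_lit 76) (nat_lit 898224340) (nat_lit 292) (nat_lit 5) (nat_lit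 301) (nat_lit 5) (nat_lit 293) (nat_lit 5) (nat_lit 452) (nat_lit 413) (nat_lit 335)) (XT.lf (nat_lit 0) (nat_lit 3679358512) (nat_lit 608) (nat_lit 3922542030) (nat_lit 684) (nat_lit 4271140729) (nat_lit 284) (nat_lit 5) (nat_lit 292) (nat_lit 5) (nat_lit 293) (nat_lit 5) (nat_lit 453) (nat_lit 413) (nat_lit 334))))) (XT.nd (nat_lit 234) (nat_lit 1748) (nat_lit 0) (XT.nd (nat_lit 78) (nat_lit 1216) (nat_lit 0) (XT.lf (nat_lit 0) (nat_lit 2839388550) (nat_lit 608) (nat_lit 8903851398) (nat_lit 684) (nat_lit 323026736) (nat_lit 276) (nat_lit 5) (nat_lit 284) (nat_lit 5) (nat_lit 285) (nat_lit 5) (nat_lit 454) (nat_lit 413) (nat_lit 333)) (XT.nd (nat_lit 78) (nat_lit 532) (nat_lit 0) (XT.lf (nat_lit 0) (nat_lit 1974461083) (nat_lit 608) (nat_lit 1774765125) (nat_lit 684) (nat_lit 8514482537) (nat_lit 267) (nat_lit 5) (nat_lit 275) (nat_lit 5) (nat_lit 276) (nat_lit 5) (nat_lit 455) (nat_lit 413) (nat_lit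 332)) (XT.lf (nat_lit 0) (nat_lit 1096137402) (nat_lit 532) (nat_lit 6909964768) (nat_lit 608) (nat_lit 4459594106) (nat_lit 260) (nat_lit 5) (nat_lit 267) (nat_lit 5) (nat_lit 268) (nat_lit 5) (nat_lit 456) (nat_lit 413) (nat_lit 331)))) (XT.nd (nat_lit 156) (nat_lit 1140) (nat_lit 0) (XT.nd (nat_lit 78) (nat_lit 76) (nat_lit 0) (XT.lf (nat_lit 0) (nat_lit 227981283) (nat_lit 532) (nat_lit 12210158720) (nat_lit 608) (nat_lit 234656061) (nat_lit 253) (nat_lit 5) (nat_lit 260) (nat_lit 5) (nat_lit 261) (nat_lit 5) (nat_lit 457) (nat_lit 413) (nat_lit 330)) (XT.lf (nat_lit 0) (nat_lit 4148688920) (nat_lit 608) (nat_lit 680291928) (nat_lit 76) (nat_lit 8054881957) (nat_lit 252) (nat_lit 5) (nat_lit 260) (nat_lit 5) (nat_lit 253) (nat_lit 5) (nat_lit 458) (nat_lit 413) (nat_lit 329))) (XT.nd (nat_lit 78) (nat_lit 608) (nat_lit 0) (XT.lf (nat_lit 0) (nat_lit 8716702273) (nat_lit 608) (nat_lit 1581850605)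 (nat_lit 76) (nat_lit 2801552137) (nat_lit 245) (nat_lit 5) (nat_lit 253) (nat_lit 5) (nat_lit 246) (nat_lit 5) (nat_lit 459) (nat_lit 413) (nat_lit 328)) (XT.lf (nat_lit 0) (nat_lit 169014039) (nat_lit 608) (nat_lit 2493186065) (nat_lit 76) (nat_lit 10659195277) (nat_lit 237) (nat_lit 5) (nat_lit 245) (nat_lit 5) (nat_lit 238) (nat_lit 5) (nat_lit 460) (nat_lit 413) (nat_lit 327))))))))
noncomputable def xc57 : XT := (XT.nd (nat_lit 2106) (nat_lit 2432) (nat_lit 0) (XT.nd (nat_lit 1014) (nat_lit 4484) (nat_lit 0) (XT.nd (nat_lit 468) (nat_lit 2888) (nat_lit 0) (XT.nd (nat_lit 234) (nat_lit 1444) (nat_lit 0) (XT.nd (nat_lit 78) (nat_lit 1064) (nat_lit 0) (XT.lf (nat_lit 0) (nat_lit 4873974301) (nat_lit 532) (nat_lit 3444998144) (nat_lit 76) (nat_lit 5228263529) (nat_lit 231) (nat_lit 5) (nat_lit 238) (nat_lit 5) (nat_lit 232) (nat_lit 5) (nat_lit 461) (nat_lit 413) (nat_lit 326)) (XT.nd (nat_lit 78)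 (nat_lit 532) (nat_lit 0) (XT.lf (nat_lit 0) (nat_lit 9386149046) (nat_lit 532) (nat_lit 394505803) (nat_lit 608) (nat_lit 3997986950) (nat_lit 224) (nat_lit 5) (nat_lit 231) (nat_lit 5) (nat_lit 232) (nat_lit 5) (nat_lit 462) (nat_lit 413) (nat_lit 325)) (XT.lf (nat_lit 0) (nat_lit 902967861) (nat_lit 532) (nat_lit 5374319829) (nat_lit 76) (nat_lit 7737674443) (nat_lit 217) (nat_lit 5) (nat_lit 224) (nat_lit 5) (nat_lit 218) (nat_lit 5) (nat_lit 463) (nat_lit 413) (nat_lit 324)))) (XT.nd (nat_lit 78) (nat_lit 988) (nat_lit 0) (XT.lf (nat_lit 0) (nat_lit 5959328960) (nat_lit 532) (nat_lit 6377054884) (nat_lit 76) (nat_lit 1920207138) (nat_lit 211) (nat_lit 5) (nat_lit 218) (nat_lit 5) (nat_lit 212) (nat_lit 5) (nat_lit 464) (nat_lit 413) (nat_lit 323)) (XT.nd (nat_lit 78) (nat_lit 532) (nat_lit 0) (XT.lf (nat_lit 0) (nat_lit 7102336558) (nat_lit 456) (nat_lit 4156293162) (nat_lit 532) (nat_lit 3245015297)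 (nat_lit 205) (nat_lit 5) (nat_lit 211) (nat_lit 5) (nat_lit 212) (nat_lit 5) (nat_lit 465) (nat_lit 413) (nat_lit 322)) (XT.lf (nat_lit 0) (nat_lit 2012970772) (nat_lit 532) (nat_lit 8446893808) (nat_lit 76) (nat_lit 4296395732) (nat_lit 198) (nat_lit 5) (nat_lit 205) (nat_lit 5) (nat_lit 199) (nat_lit 5) (nat_lit 466) (nat_lit 413) (nat_lit 321))))) (XT.nd (nat_lit 234) (nat_lit 1596) (nat_lit 0) (XT.nd (nat_lit 78) (nat_lit 912) (nat_lit 0) (XT.lf (nat_lit 0) (nat_lit 5491564986) (nat_lit 380) (nat_lit 1974735524) (nat_lit 456) (nat_lit 7548091940) (nat_lit 193) (nat_lit 5) (nat_lit 198) (nat_lit 5) (nat_lit 199) (nat_lit 5) (nat_lit 467) (nat_lit 413) (nat_lit 320)) (XT.nd (nat_lit 78) (nat_lit 456) (nat_lit 0) (XT.lf (nat_lit 0) (nat_lit 4653795936) (nat_lit 456) (nat_lit 8529236380) (nat_lit 532) (nat_lit 2095241354) (nat_lit 187) (nat_lit 5) (nat_lit 193) (nat_lit 5) (nat_lit 194) (nat_lit 5)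 (nat_lit 468) (nat_lit 413) (nat_lit 319)) (XT.lf (nat_lit 0) (nat_lit 3548004230) (nat_lit 456) (nat_lit 11746445134) (nat_lit 76) (nat_lit 253706020) (nat_lit 181) (nat_lit 5) (nat_lit 187) (nat_lit 5) (nat_lit 182) (nat_lit 5) (nat_lit 469) (nat_lit 413) (nat_lit 318)))) (XT.nd (nat_lit 156) (nat_lit 836) (nat_lit 0) (XT.nd (nat_lit 78) (nat_lit 380) (nat_lit 0) (XT.lf (nat_lit 0) (nat_lit 2900925219) (nat_lit 380) (nat_lit 6548642965) (nat_lit 456) (nat_lit 6373939705) (nat_lit 176) (nat_lit 5) (nat_lit 181) (nat_lit 5) (nat_lit 182) (nat_lit 5) (nat_lit 470) (nat_lit 413) (nat_lit 317)) (XT.lf (nat_lit 0) (nat_lit 2006031074) (nat_lit 380) (nat_lit 13600746321) (nat_lit 456) (nat_lit 498772651) (nat_lit 171) (nat_lit 5) (nat_lit 176) (nat_lit 5) (nat_lit 177) (nat_lit 5) (nat_lit 471) (nat_lit 413) (nat_lit 316))) (XT.nd (nat_lit 78) (nat_lit 380) (nat_lit 0) (XT.lf (nat_lit 0) (nat_lit 1052060380)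 (nat_lit 380) (nat_lit 4536408019) (nat_lit 456) (nat_lit 10804692173) (nat_lit 165) (nat_lit 5) (nat_lit 170) (nat_lit 5) (nat_lit 171) (nat_lit 5) (nat_lit 472) (nat_lit 413) (nat_lit 315)) (XT.lf (nat_lit 0) (nat_lit 83523732) (nat_lit 380) (nat_lit 11866294758) (nat_lit 456) (nat_lit 4737550586) (nat_lit 160) (nat_lit 5) (nat_lit 165) (nat_lit 5) (nat_lit 166) (nat_lit 5) (nat_lit 473) (nat_lit 413) (nat_lit 314)))))) (XT.nd (nat_lit 546) (nat_lit 2204) (nat_lit 0) (XT.nd (nat_lit 234) (nat_lit 1520) (nat_lit 0) (XT.nd (nat_lit 78) (nat_lit 684) (nat_lit 0) (XT.lf (nat_lit 0) (nat_lit 1597485134) (nat_lit 456) (nat_lit 894062783) (nat_lit 76) (nat_lit 14496546451) (nat_lit 159) (nat_lit 5) (nat_lit 165) (nat_lit 5) (nat_lit 160) (nat_lit 5) (nat_lit 474) (nat_lit 413) (nat_lit 313)) (XT.nd (nat_lit 78) (nat_lit 304) (nat_lit 0) (XT.lf (nat_lit 0) (nat_lit 8177506579) (nat_lit 456) (nat_lit 1930027499)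 (nat_lit 76) (nat_lit 7187295940) (nat_lit 154) (nat_lit 5) (nat_lit 160) (nat_lit 5) (nat_lit 155) (nat_lit 5) (nat_lit 475) (nat_lit 413) (nat_lit 312)) (XT.lf (nat_lit 0) (nat_lit 14644207113) (nat_lit 304) (nat_lit 400579295) (nat_lit 380) (nat_lit 2564185039) (nat_lit 150) (nat_lit 5) (nat_lit 154) (nat_lit 5) (nat_lit 155) (nat_lit 5) (nat_lit 476) (nat_lit 413) (nat_lit 311)))) (XT.nd (nat_lit 156) (nat_lit 760) (nat_lit 0) (XT.nd (nat_lit 78) (nat_lit 304) (nat_lit 0) (XT.lf (nat_lit 0) (nat_lit 4269646599) (nat_lit 456) (nat_lit 4072249076) (nat_lit 76) (nat_lit 9587318894) (nat_lit 144) (nat_lit 5) (nat_lit 150) (nat_lit 5) (nat_lit 145) (nat_lit 5) (nat_lit 477) (nat_lit 413) (nat_lit 310)) (XT.lf (nat_lit 0) (nat_lit 11365584389) (nat_lit 380) (nat_lit 5195063607) (nat_lit 76) (nat_lit 1696240235) (nat_lit 140) (nat_lit 5) (nat_lit 145) (nat_lit 5) (nat_lit 141) (nat_lit 5) (nat_lit 478)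 (nat_lit 413) (nat_lit 309))) (XT.nd (nat_lit 78) (nat_lit 304) (nat_lit 0) (XT.lf (nat_lit 0) (nat_lit 216046230) (nat_lit 456) (nat_lit 6360078972) (nat_lit 76) (nat_lit 12015515524) (nat_lit 134) (nat_lit 5) (nat_lit 140) (nat_lit 5) (nat_lit 135) (nat_lit 5) (nat_lit 479) (nat_lit 413) (nat_lit 308)) (XT.lf (nat_lit 0) (nat_lit 7551347521) (nat_lit 380) (nat_lit 7582535931) (nat_lit 76) (nat_lit 3799474923) (nat_lit 130) (nat_lit 5) (nat_lit 135) (nat_lit 5) (nat_lit 131) (nat_lit 5) (nat_lit 480) (nat_lit 413) (nat_lit 307))))) (XT.nd (nat_lit 234) (nat_lit 1216) (nat_lit 0) (XT.nd (nat_lit 78) (nat_lit 684) (nat_lit 0) (XT.lf (nat_lit 0) (nat_lit 10445729412) (nat_lit 304) (nat_lit 4790078258) (nat_lit 380) (nat_lit 4046938604) (nat_lit 126) (nat_lit 5) (nat_lit 130) (nat_lit 5) (nat_lit 131) (nat_lit 5) (nat_lit 481) (nat_lit 413) (nat_lit 306)) (XT.nd (nat_lit 78) (nat_lit 304) (nat_lit 0)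 (XT.lf (nat_lit 0) (nat_lit 3588920680) (nat_lit 380) (nat_lit 10142568971) (nat_lit 76) (nat_lit 5908136385) (nat_lit 121) (nat_lit 5) (nat_lit 126) (nat_lit 5) (nat_lit 122) (nat_lit 5) (nat_lit 482) (nat_lit 413) (nat_lit 305)) (XT.lf (nat_lit 0) (nat_lit 8506153636) (nat_lit 304) (nat_lit 3015183163) (nat_lit 380) (nat_lit 8482891787) (nat_lit 117) (nat_lit 5) (nat_lit 121) (nat_lit 5) (nat_lit 122) (nat_lit 5) (nat_lit 483) (nat_lit 413) (nat_lit 304)))) (XT.nd (nat_lit 156) (nat_lit 608) (nat_lit 0) (XT.nd (nat_lit 78) (nat_lit 380) (nat_lit 0) (XT.lf (nat_lit 0) (nat_lit 7478591703) (nat_lit 228) (nat_lit 12357936531) (nat_lit 304) (nat_lit 540345564) (nat_lit 114) (nat_lit 5) (nat_lit 117) (nat_lit 5) (nat_lit 118) (nat_lit 5) (nat_lit 484) (nat_lit 413) (nat_lit 303)) (XT.lf (nat_lit 0) (nat_lit 6395013845) (nat_lit 304) (nat_lit 1260645513) (nat_lit 380) (nat_lit 13101739710) (nat_lit 109)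 (nat_lit 5) (nat_lit 113) (nat_lit 5) (nat_lit 114) (nat_lit 5) (nat_lit 485) (nat_lit 413) (nat_lit 302))) (XT.nd (nat_lit 78) (nat_lit 380) (nat_lit 0) (XT.lf (nat_lit 0) (nat_lit 5253668471) (nat_lit 228) (nat_lit 11000318773) (nat_lit 304) (nat_lit 4892006334) (nat_lit 106) (nat_lit 5) (nat_lit 109) (nat_lit 5) (nat_lit 110) (nat_lit 5) (nat_lit 486) (nat_lit 413) (nat_lit 301)) (XT.lf (nat_lit 0) (nat_lit 3629168784) (nat_lit 380) (nat_lit 17455423788) (nat_lit 76) (nat_lit 458953267) (nat_lit 101) (nat_lit 5) (nat_lit 106) (nat_lit 5) (nat_lit 102) (nat_lit 5) (nat_lit 487) (nat_lit 413) (nat_lit 300))))))) (XT.nd (nat_lit 57018) (nat_lit 0) (nat_lit 35188) (XT.nd (nat_lit 546) (nat_lit 760) (nat_lit 0) (XT.nd (nat_lit 234) (nat_lit 836) (nat_lit 0) (XT.nd (nat_lit 78) (nat_lit 608) (nat_lit 0) (XT.lf (nat_lit 0) (nat_lit 2824252015) (nat_lit 228) (nat_lit 9692194246) (nat_lit 304) (nat_lit 9432393627)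 (nat_lit 98) (nat_lit 5) (nat_lit 101) (nat_lit 5) (nat_lit 102) (nat_lit 5) (nat_lit 488) (nat_lit 413) (nat_lit 299)) (XT.nd (nat_lit 78) (nat_lit 304) (nat_lit 0) (XT.lf (nat_lit 0) (nat_lit 1553508300) (nat_lit 304) (nat_lit 20235817349) (nat_lit 380) (nat_lit 574587971) (nat_lit 94) (nat_lit 5) (nat_lit 98) (nat_lit 5) (nat_lit 99) (nat_lit 5) (nat_lit 489) (nat_lit 413) (nat_lit 298)) (XT.lf (nat_lit 0) (nat_lit 166072932) (nat_lit 228) (nat_lit 8443950212) (nat_lit 304) (nat_lit 14176842973) (nat_lit 90) (nat_lit 5) (nat_lit 93) (nat_lit 5) (nat_lit 94) (nat_lit 5) (nat_lit 490) (nat_lit 413) (nat_lit 297)))) (XT.nd (nat_lit 156) (nat_lit 532) (nat_lit 0) (XT.nd (nat_lit 78) (nat_lit 304) (nat_lit 0) (XT.lf (nat_lit 0) (nat_lit 18205555278) (nat_lit 304) (nat_lit 1231303550) (nat_lit 76) (nat_lit 3782709111) (nat_lit 90) (nat_lit 5) (nat_lit 94) (nat_lit 5) (nat_lit 91) (nat_lit 5) (nat_lit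 491) (nat_lit 413) (nat_lit 296)) (XT.lf (nat_lit 0) (nat_lit 4537323841) (nat_lit 304) (nat_lit 2711487927) (nat_lit 76) (nat_lit 16412432304) (nat_lit 86) (nat_lit 5) (nat_lit 90) (nat_lit 5) (nat_lit 87) (nat_lit 5) (nat_lit 492) (nat_lit 413) (nat_lit 295))) (XT.nd (nat_lit 78) (nat_lit 304) (nat_lit 0) (XT.lf (nat_lit 0) (nat_lit 14458533502) (nat_lit 304) (nat_lit 4262361858) (nat_lit 76) (nat_lit 5391583658) (nat_lit 83) (nat_lit 5) (nat_lit 87) (nat_lit 5) (nat_lit 84) (nat_lit 5) (nat_lit 493) (nat_lit 413) (nat_lit 294)) (XT.lf (nat_lit 0) (nat_lit 266727673) (nat_lit 304) (nat_lit 5867846958) (nat_lit 76) (nat_lit 18439305562) (nat_lit 79) (nat_lit 5) (nat_lit 83) (nat_lit 5) (nat_lit 80) (nat_lit 5) (nat_lit 494) (nat_lit 413) (nat_lit 293))))) (XT.nd (nat_lit 56160) (nat_lit 0) (nat_lit 43396) (XT.nd (nat_lit 78) (nat_lit 532) (nat_lit 0) (XT.lf (nat_lit 0) (nat_lit 10521539450) (nat_lit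 304) (nat_lit 7590374480) (nat_lit 76) (nat_lit 6932580091) (nat_lit 76) (nat_lit 5) (nat_lit 80) (nat_lit 5) (nat_lit 77) (nat_lit 5) (nat_lit 495) (nat_lit 413) (nat_lit 292)) (XT.nd (nat_lit 78) (nat_lit 304) (nat_lit 0) (XT.lf (nat_lit 0) (nat_lit 16161182071) (nat_lit 228) (nat_lit 5087694849) (nat_lit 304) (nat_lit 4277052125) (nat_lit 73) (nat_lit 5) (nat_lit 76) (nat_lit 5) (nat_lit 77) (nat_lit 5) (nat_lit 496) (nat_lit 413) (nat_lit 291)) (XT.lf (nat_lit 0) (nat_lit 6376296787) (nat_lit 304) (nat_lit 11248711052) (nat_lit 76) (nat_lit 8392337016) (nat_lit 69) (nat_lit 5) (nat_lit 73) (nat_lit 5) (nat_lit 70) (nat_lit 5) (nat_lit 497) (nat_lit 413) (nat_lit 290)))) (XT.nd (nat_lit 156) (nat_lit 0) (nat_lit 0) (XT.nd (nat_lit 78) (nat_lit 1216) (nat_lit 0) (XT.lf (nat_lit 0) (nat_lit 1281369433) (nat_lit 0) (nat_lit 1281369433) (nat_lit 1140) (nat_lit 1073419709) (nat_lit 656) (nat_lit 5) (nat_lit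 656) (nat_lit 3) (nat_lit 671) (nat_lit 3) (nat_lit 414) (nat_lit 414) (nat_lit 372)) (XT.lf (nat_lit 0) (nat_lit 256577122) (nat_lit 1216) (nat_lit 6613427146) (nat_lit 1292) (nat_lit 463355141) (nat_lit 640) (nat_lit 5) (nat_lit 656) (nat_lit 5) (nat_lit 657) (nat_lit 5) (nat_lit 415) (nat_lit 414) (nat_lit 371))) (XT.nd (nat_lit 78) (nat_lit 0) (nat_lit 0) (XT.lf (nat_lit 0) (nat_lit 2658702108) (nat_lit 1216) (nat_lit 1101083126) (nat_lit 1292) (nat_lit 3637055633) (nat_lit 640) (nat_lit 5) (nat_lit 656) (nat_lit 5) (nat_lit 657) (nat_lit 5) (nat_lit 416) (nat_lit 414) (nat_lit 370)) (XT.lf (nat_lit 76) (nat_lit 4587697107) (nat_lit 0) (nat_lit 484051673) (nat_lit 1292) (nat_lit 2391707826) (nat_lit 641) (nat_lit 5) (nat_lit 640) (nat_lit 5) (nat_lit 657) (nat_lit 5) (nat_lit 417) (nat_lit 414) (nat_lit 369)))))) (XT.nd (nat_lit 546) (nat_lit 5776) (nat_lit 0) (XT.nd (nat_lit 234) (nat_lit 1216)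 (nat_lit 0) (XT.nd (nat_lit 78) (nat_lit 1292) (nat_lit 0) (XT.lf (nat_lit 76) (nat_lit 2899154791) (nat_lit 0) (nat_lit 4614797399) (nat_lit 1292) (nat_lit 18990113) (nat_lit 642) (nat_lit 5) (nat_lit 641) (nat_lit 5) (nat_lit 658) (nat_lit 5) (nat_lit 418) (nat_lit 414) (nat_lit 368)) (XT.nd (nat_lit 78) (nat_lit 0) (nat_lit 76) (XT.lf (nat_lit 76) (nat_lit 1228876750) (nat_lit 0) (nat_lit 1108403646) (nat_lit 1368) (nat_lit 5268040271) (nat_lit 625) (nat_lit 5) (nat_lit 624) (nat_lit 5) (nat_lit 642) (nat_lit 5) (nat_lit 419) (nat_lit 414) (nat_lit 367)) (XT.lf (nat_lit 0) (nat_lit 4727610131) (nat_lit 1292) (nat_lit 416765836) (nat_lit 1368) (nat_lit 2536225598) (nat_lit 625) (nat_lit 5) (nat_lit 642) (nat_lit 5) (nat_lit 643) (nat_lit 5) (nat_lit 420) (nat_lit 414) (nat_lit 366)))) (XT.nd (nat_lit 156) (nat_lit 0) (nat_lit 0) (XT.nd (nat_lit 78) (nat_lit 1292) (nat_lit 0) (XT.lf (nat_lit 76) (nat_lit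 5739285109) (nat_lit 0) (nat_lit 1413261026) (nat_lit 1368) (nat_lit 606342922) (nat_lit 626) (nat_lit 5) (nat_lit 625) (nat_lit 5) (nat_lit 643) (nat_lit 5) (nat_lit 421) (nat_lit 414) (nat_lit 365)) (XT.lf (nat_lit 0) (nat_lit 1753321591) (nat_lit 1368) (nat_lit 3616993636) (nat_lit 1444) (nat_lit 2469653336) (nat_lit 608) (nat_lit 5) (nat_lit 626) (nat_lit 5) (nat_lit 627) (nat_lit 5) (nat_lit 422) (nat_lit 414) (nat_lit 364))) (XT.nd (nat_lit 78) (nat_lit 0) (nat_lit 76) (XT.lf (nat_lit 76) (nat_lit 2727981218) (nat_lit 0) (nat_lit 1410490652) (nat_lit 1444) (nat_lit 3785675385) (nat_lit 609) (nat_lit 5) (nat_lit 608) (nat_lit 5) (nat_lit 627) (nat_lit 5) (nat_lit 423) (nat_lit 414) (nat_lit 363)) (XT.lf (nat_lit 76) (nat_lit 1249022570) (nat_lit 0) (nat_lit 5320316672) (nat_lit 1444) (nat_lit 1442034281) (nat_lit 610) (nat_lit 5) (nat_lit 609) (nat_lit 5) (nat_lit 628) (nat_lit 5) (nat_lit 424)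 (nat_lit 414) (nat_lit 362))))) (XT.nd (nat_lit 234) (nat_lit 4408) (nat_lit 0) (XT.nd (nat_lit 78) (nat_lit 0) (nat_lit 76) (XT.lf (nat_lit 0) (nat_lit 929485405) (nat_lit 1444) (nat_lit 210269993) (nat_lit 1520) (nat_lit 6961933854) (nat_lit 590) (nat_lit 5) (nat_lit 609) (nat_lit 5) (nat_lit 610) (nat_lit 5) (nat_lit 425) (nat_lit 414) (nat_lit 361)) (XT.nd (nat_lit 78) (nat_lit 0) (nat_lit 0) (XT.lf (nat_lit 0) (nat_lit 3343941547) (nat_lit 1444) (nat_lit 1652294340) (nat_lit 1520) (nat_lit 3198465334) (nat_lit 591) (nat_lit 5) (nat_lit 610) (nat_lit 5) (nat_lit 611) (nat_lit 5) (nat_lit 426) (nat_lit 414) (nat_lit 360)) (XT.lf (nat_lit 76) (nat_lit 5219217267) (nat_lit 0) (nat_lit 584084324) (nat_lit 1520) (nat_lit 2487757459) (nat_lit 592) (nat_lit 5) (nat_lit 591) (nat_lit 5) (nat_lit 611) (nat_lit 5) (nat_lit 427) (nat_lit 414) (nat_lit 359)))) (XT.nd (nat_lit 156) (nat_lit 3116) (nat_lit 0)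 (XT.nd (nat_lit 78) (nat_lit 1444) (nat_lit 0) (XT.lf (nat_lit 76) (nat_lit 3902473880) (nat_lit 0) (nat_lit 4427656547) (nat_lit 1520) (nat_lit 60308189) (nat_lit 593) (nat_lit 5) (nat_lit 592) (nat_lit 5) (nat_lit 612) (nat_lit 5) (nat_lit 428) (nat_lit 414) (nat_lit 358)) (XT.lf (nat_lit 0) (nat_lit 2383668469) (nat_lit 1520) (nat_lit 5896912880) (nat_lit 76) (nat_lit 212391827) (nat_lit 573) (nat_lit 5) (nat_lit 593) (nat_lit 5) (nat_lit 574) (nat_lit 5) (nat_lit 429) (nat_lit 414) (nat_lit 357))) (XT.nd (nat_lit 78) (nat_lit 1596) (nat_lit 0) (XT.lf (nat_lit 0) (nat_lit 1289822606) (nat_lit 1520) (nat_lit 3613229038) (nat_lit 1596) (nat_lit 3695470426) (nat_lit 553) (nat_lit 5) (nat_lit 573) (nat_lit 5) (nat_lit 574) (nat_lit 5) (nat_lit 430) (nat_lit 414) (nat_lit 356)) (XT.lf (nat_lit 0) (nat_lit 5040422) (nat_lit 1596) (nat_lit 7476943767) (nat_lit 1672) (nat_lit 1225578157) (nat_lit 532) (nat_lit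 5) (nat_lit 553) (nat_lit 5) (nat_lit 554) (nat_lit 5) (nat_lit 431) (nat_lit 414) (nat_lit 355))))))))
noncomputable def xc58 : XT := (XT.nd (nat_lit 2106) (nat_lit 10868) (nat_lit 0) (XT.nd (nat_lit 1014) (nat_lit 8740) (nat_lit 0) (XT.nd (nat_lit 468) (nat_lit 5168) (nat_lit 0) (XT.nd (nat_lit 234) (nat_lit 3876) (nat_lit 0) (XT.nd (nat_lit 78) (nat_lit 3420) (nat_lit 0) (XT.lf (nat_lit 0) (nat_lit 1312200781) (nat_lit 1672) (nat_lit 1267120418) (nat_lit 76) (nat_lit 6240163877) (nat_lit 531) (nat_lit 5) (nat_lit 553) (nat_lit 5) (nat_lit 532) (nat_lit 5) (nat_lit 432) (nat_lit 414) (nat_lit 354)) (XT.nd (nat_lit 78) (nat_lit 1748) (nat_lit 0) (XT.lf (nat_lit 0) (nat_lit 3906503273) (nat_lit 1748) (nat_lit 2535969021) (nat_lit 76) (nat_lit 2492194302) (nat_lit 509) (nat_lit 5) (nat_lit 532) (nat_lit 5) (nat_lit 510) (nat_lit 5) (nat_lit 433) (nat_lit 414) (nat_lit 353)) (XT.lf (nat_lit 0) (nat_lit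 5258081006) (nat_lit 1748) (nat_lit 1320986464) (nat_lit 1824) (nat_lit 2474231270) (nat_lit 486) (nat_lit 5) (nat_lit 509) (nat_lit 5) (nat_lit 510) (nat_lit 5) (nat_lit 434) (nat_lit 414) (nat_lit 352)))) (XT.nd (nat_lit 78) (nat_lit 1976) (nat_lit 0) (XT.lf (nat_lit 0) (nat_lit 165917292) (nat_lit 1900) (nat_lit 5055211755) (nat_lit 76) (nat_lit 3954111181) (nat_lit 461) (nat_lit 5) (nat_lit 486) (nat_lit 5) (nat_lit 462) (nat_lit 5) (nat_lit 435) (nat_lit 414) (nat_lit 351)) (XT.nd (nat_lit 78) (nat_lit 912) (nat_lit 0) (XT.lf (nat_lit 0) (nat_lit 2849664243) (nat_lit 1140) (nat_lit 6316050894) (nat_lit 76) (nat_lit 134841091) (nat_lit 447) (nat_lit 5) (nat_lit 462) (nat_lit 5) (nat_lit 448) (nat_lit 5) (nat_lit 436) (nat_lit 414) (nat_lit 350)) (XT.lf (nat_lit 0) (nat_lit 1841832876) (nat_lit 912) (nat_lit 3797629388) (nat_lit 988) (nat_lit 3789662113) (nat_lit 435) (nat_lit 5) (nat_lit 447) (nat_lit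 5) (nat_lit 448) (nat_lit 5) (nat_lit 437) (nat_lit 414) (nat_lit 349))))) (XT.nd (nat_lit 234) (nat_lit 3344) (nat_lit 0) (XT.nd (nat_lit 78) (nat_lit 912) (nat_lit 0) (XT.lf (nat_lit 0) (nat_lit 714968918) (nat_lit 912) (nat_lit 7802438836) (nat_lit 988) (nat_lit 1044056083) (nat_lit 423) (nat_lit 5) (nat_lit 435) (nat_lit 5) (nat_lit 436) (nat_lit 5) (nat_lit 438) (nat_lit 414) (nat_lit 348)) (XT.nd (nat_lit 78) (nat_lit 836) (nat_lit 0) (XT.lf (nat_lit 0) (nat_lit 1784051642) (nat_lit 988) (nat_lit 416862873) (nat_lit 76) (nat_lit 7496159899) (nat_lit 422) (nat_lit 5) (nat_lit 435) (nat_lit 5) (nat_lit 423) (nat_lit 5) (nat_lit 439) (nat_lit 414) (nat_lit 347)) (XT.lf (nat_lit 0) (nat_lit 4708413014) (nat_lit 912) (nat_lit 1543819113) (nat_lit 76) (nat_lit 3583874341) (nat_lit 411) (nat_lit 5) (nat_lit 423) (nat_lit 5) (nat_lit 412) (nat_lit 5) (nat_lit 440) (nat_lit 414) (nat_lit 346)))) (XT.nd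 (nat_lit 156) (nat_lit 1596) (nat_lit 0) (XT.nd (nat_lit 78) (nat_lit 912) (nat_lit 0) (XT.lf (nat_lit 0) (nat_lit 7318818031) (nat_lit 836) (nat_lit 415898540) (nat_lit 912) (nat_lit 2244311684) (nat_lit 400) (nat_lit 5) (nat_lit 411) (nat_lit 5) (nat_lit 412) (nat_lit 5) (nat_lit 441) (nat_lit 414) (nat_lit 345)) (XT.lf (nat_lit 0) (nat_lit 754589389) (nat_lit 912) (nat_lit 3793035373) (nat_lit 76) (nat_lit 5577750890) (nat_lit 388) (nat_lit 5) (nat_lit 400) (nat_lit 5) (nat_lit 389) (nat_lit 5) (nat_lit 442) (nat_lit 414) (nat_lit 344))) (XT.nd (nat_lit 78) (nat_lit 760) (nat_lit 0) (XT.lf (nat_lit 0) (nat_lit 3829885375) (nat_lit 912) (nat_lit 4929554406) (nat_lit 76) (nat_lit 1516041375) (nat_lit 377) (nat_lit 5) (nat_lit 389) (nat_lit 5) (nat_lit 378) (nat_lit 5) (nat_lit 443) (nat_lit 414) (nat_lit 343)) (XT.lf (nat_lit 0) (nat_lit 4356284471) (nat_lit 760) (nat_lit 2677870749) (nat_lit 836)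 (nat_lit 3395202993) (nat_lit 367) (nat_lit 5) (nat_lit 377) (nat_lit 5) (nat_lit 378) (nat_lit 5) (nat_lit 444) (nat_lit 414) (nat_lit 342)))))) (XT.nd (nat_lit 546) (nat_lit 4408) (nat_lit 0) (XT.nd (nat_lit 234) (nat_lit 2052) (nat_lit 0) (XT.nd (nat_lit 78) (nat_lit 1520) (nat_lit 0) (XT.lf (nat_lit 0) (nat_lit 3369941729) (nat_lit 760) (nat_lit 6996584036) (nat_lit 836) (nat_lit 220688975) (nat_lit 357) (nat_lit 5) (nat_lit 367) (nat_lit 5) (nat_lit 368) (nat_lit 5) (nat_lit 445) (nat_lit 414) (nat_lit 341)) (XT.nd (nat_lit 78) (nat_lit 760) (nat_lit 0) (XT.lf (nat_lit 0) (nat_lit 2372007221) (nat_lit 684) (nat_lit 665709643) (nat_lit 760) (nat_lit 7711123745) (nat_lit 347) (nat_lit 5) (nat_lit 356) (nat_lit 5) (nat_lit 357) (nat_lit 5) (nat_lit 446) (nat_lit 414) (nat_lit 340)) (XT.lf (nat_lit 0) (nat_lit 1359890681) (nat_lit 760) (nat_lit 5081965802) (nat_lit 836) (nat_lit 4472412410) (nat_lit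 337) (nat_lit 5) (nat_lit 347) (nat_lit 5) (nat_lit 348) (nat_lit 5) (nat_lit 447) (nat_lit 414) (nat_lit 339)))) (XT.nd (nat_lit 156) (nat_lit 1292) (nat_lit 0) (XT.nd (nat_lit 78) (nat_lit 76) (nat_lit 0) (XT.lf (nat_lit 0) (nat_lit 358913154) (nat_lit 684) (nat_lit 9618225216) (nat_lit 760) (nat_lit 1106943636) (nat_lit 328) (nat_lit 5) (nat_lit 337) (nat_lit 5) (nat_lit 338) (nat_lit 5) (nat_lit 448) (nat_lit 414) (nat_lit 338)) (XT.lf (nat_lit 0) (nat_lit 2384200345) (nat_lit 760) (nat_lit 658342320) (nat_lit 76) (nat_lit 8215029563) (nat_lit 327) (nat_lit 5) (nat_lit 337) (nat_lit 5) (nat_lit 328) (nat_lit 5) (nat_lit 449) (nat_lit 414) (nat_lit 337))) (XT.nd (nat_lit 78) (nat_lit 608) (nat_lit 0) (XT.lf (nat_lit 0) (nat_lit 6011040223) (nat_lit 760) (nat_lit 1678768261) (nat_lit 76) (nat_lit 3745394486) (nat_lit 318) (nat_lit 5) (nat_lit 328) (nat_lit 5) (nat_lit 319) (nat_lit 5) (nat_lit 450)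 (nat_lit 414) (nat_lit 336)) (XT.lf (nat_lit 0) (nat_lit 8921447321) (nat_lit 608) (nat_lit 866627305) (nat_lit 684) (nat_lit 1829262322) (nat_lit 310) (nat_lit 5) (nat_lit 318) (nat_lit 5) (nat_lit 319) (nat_lit 5) (nat_lit 451) (nat_lit 414) (nat_lit 335))))) (XT.nd (nat_lit 234) (nat_lit 2432) (nat_lit 0) (XT.nd (nat_lit 78) (nat_lit 1216) (nat_lit 0) (XT.lf (nat_lit 0) (nat_lit 1912667396) (nat_lit 760) (nat_lit 3742223245) (nat_lit 76) (nat_lit 6148527961) (nat_lit 300) (nat_lit 5) (nat_lit 310) (nat_lit 5) (nat_lit 301) (nat_lit 5) (nat_lit 452) (nat_lit 414) (nat_lit 334)) (XT.nd (nat_lit 78) (nat_lit 608) (nat_lit 0) (XT.lf (nat_lit 0) (nat_lit 5782529759) (nat_lit 684) (nat_lit 4793409374) (nat_lit 76) (nat_lit 1418093138) (nat_lit 292) (nat_lit 5) (nat_lit 301) (nat_lit 5) (nat_lit 293) (nat_lit 5) (nat_lit 453) (nat_lit 414) (nat_lit 333)) (XT.lf (nat_lit 0) (nat_lit 6328769236) (nat_lit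 608) (nat_lit 3504996286) (nat_lit 684) (nat_lit 2355295163) (nat_lit 284) (nat_lit 5) (nat_lit 292) (nat_lit 5) (nat_lit 293) (nat_lit 5) (nat_lit 454) (nat_lit 414) (nat_lit 332)))) (XT.nd (nat_lit 156) (nat_lit 1140) (nat_lit 0) (XT.nd (nat_lit 78) (nat_lit 608) (nat_lit 0) (XT.lf (nat_lit 0) (nat_lit 1650023246) (nat_lit 684) (nat_lit 6941202938) (nat_lit 76) (nat_lit 3797413105) (nat_lit 275) (nat_lit 5) (nat_lit 284) (nat_lit 5) (nat_lit 276) (nat_lit 5) (nat_lit 455) (nat_lit 414) (nat_lit 331)) (XT.lf (nat_lit 0) (nat_lit 4552478062) (nat_lit 608) (nat_lit 1246333043) (nat_lit 684) (nat_lit 6793978335) (nat_lit 267) (nat_lit 5) (nat_lit 275) (nat_lit 5) (nat_lit 276) (nat_lit 5) (nat_lit 456) (nat_lit 414) (nat_lit 330))) (XT.nd (nat_lit 78) (nat_lit 608) (nat_lit 0) (XT.lf (nat_lit 0) (nat_lit 3641425645) (nat_lit 532) (nat_lit 6505525892) (nat_lit 608) (nat_lit 2654616472) (nat_lit 260) (nat_lit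 5) (nat_lit 267) (nat_lit 5) (nat_lit 268) (nat_lit 5) (nat_lit 457) (nat_lit 414) (nat_lit 329)) (XT.lf (nat_lit 0) (nat_lit 1639338953) (nat_lit 608) (nat_lit 10286335422) (nat_lit 76) (nat_lit 1089697963) (nat_lit 252) (nat_lit 5) (nat_lit 260) (nat_lit 5) (nat_lit 253) (nat_lit 5) (nat_lit 458) (nat_lit 414) (nat_lit 328))))))) (XT.nd (nat_lit 1092) (nat_lit 4636) (nat_lit 0) (XT.nd (nat_lit 546) (nat_lit 3116) (nat_lit 0) (XT.nd (nat_lit 234) (nat_lit 1976) (nat_lit 0) (XT.nd (nat_lit 78) (nat_lit 608) (nat_lit 0) (XT.lf (nat_lit 0) (nat_lit 1779191549) (nat_lit 532) (nat_lit 4328679452) (nat_lit 608) (nat_lit 7125733943) (nat_lit 245) (nat_lit 5) (nat_lit 252) (nat_lit 5) (nat_lit 253) (nat_lit 5) (nat_lit 459) (nat_lit 414) (nat_lit 327)) (XT.nd (nat_lit 78) (nat_lit 76) (nat_lit 0) (XT.lf (nat_lit 0) (nat_lit 829977939) (nat_lit 532) (nat_lit 9943469210) (nat_lit 608) (nat_lit 2683679133) (nat_lit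 238) (nat_lit 5) (nat_lit 245) (nat_lit 5) (nat_lit 246) (nat_lit 5) (nat_lit 460) (nat_lit 414) (nat_lit 326)) (XT.lf (nat_lit 0) (nat_lit 1939131978) (nat_lit 608) (nat_lit 135775405) (nat_lit 76) (nat_lit 11610755611) (nat_lit 237) (nat_lit 5) (nat_lit 245) (nat_lit 5) (nat_lit 238) (nat_lit 5) (nat_lit 461) (nat_lit 414) (nat_lit 325)))) (XT.nd (nat_lit 156) (nat_lit 988) (nat_lit 0) (XT.nd (nat_lit 78) (nat_lit 532) (nat_lit 0) (XT.lf (nat_lit 0) (nat_lit 6753675550) (nat_lit 532) (nat_lit 1125255223) (nat_lit 76) (nat_lit 6039981477) (nat_lit 231) (nat_lit 5) (nat_lit 238) (nat_lit 5) (nat_lit 232) (nat_lit 5) (nat_lit 462) (nat_lit 414) (nat_lit 324)) (XT.lf (nat_lit 0) (nat_lit 11774355100) (nat_lit 608) (nat_lit 2108259260) (nat_lit 76) (nat_lit 275311992) (nat_lit 224) (nat_lit 5) (nat_lit 232) (nat_lit 5) (nat_lit 225) (nat_lit 5) (nat_lit 463) (nat_lit 414) (nat_lit 323))) (XT.nd (nat_lit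 78) (nat_lit 456) (nat_lit 0) (XT.lf (nat_lit 0) (nat_lit 2609908561) (nat_lit 532) (nat_lit 3138943337) (nat_lit 76) (nat_lit 8652896303) (nat_lit 217) (nat_lit 5) (nat_lit 224) (nat_lit 5) (nat_lit 218) (nat_lit 5) (nat_lit 464) (nat_lit 414) (nat_lit 322)) (XT.lf (nat_lit 0) (nat_lit 7788960162) (nat_lit 532) (nat_lit 4182273525) (nat_lit 76) (nat_lit 2679974151) (nat_lit 211) (nat_lit 5) (nat_lit 218) (nat_lit 5) (nat_lit 212) (nat_lit 5) (nat_lit 465) (nat_lit 414) (nat_lit 321))))) (XT.nd (nat_lit 234) (nat_lit 1748) (nat_lit 0) (XT.nd (nat_lit 78) (nat_lit 912) (nat_lit 0) (XT.lf (nat_lit 0) (nat_lit 9662788137) (nat_lit 456) (nat_lit 3551609518) (nat_lit 532) (nat_lit 1691934546) (nat_lit 205) (nat_lit 5) (nat_lit 211) (nat_lit 5) (nat_lit 212) (nat_lit 5) (nat_lit 466) (nat_lit 414) (nat_lit 320)) (XT.nd (nat_lit 78) (nat_lit 380) (nat_lit 0) (XT.lf (nat_lit 0) (nat_lit 3674603941) (nat_lit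 532) (nat_lit 6342426507) (nat_lit 76) (nat_lit 5149833791) (nat_lit 198) (nat_lit 5) (nat_lit 205) (nat_lit 5) (nat_lit 199) (nat_lit 5) (nat_lit 467) (nat_lit 414) (nat_lit 319)) (XT.lf (nat_lit 0) (nat_lit 7975932344) (nat_lit 380) (nat_lit 1284023565) (nat_lit 456) (nat_lit 6173417703) (nat_lit 193) (nat_lit 5) (nat_lit 198) (nat_lit 5) (nat_lit 199) (nat_lit 5) (nat_lit 468) (nat_lit 414) (nat_lit 318)))) (XT.nd (nat_lit 156) (nat_lit 836) (nat_lit 0) (XT.nd (nat_lit 78) (nat_lit 456) (nat_lit 0) (XT.lf (nat_lit 0) (nat_lit 7101547298) (nat_lit 456) (nat_lit 8020637270) (nat_lit 532) (nat_lit 583508472) (nat_lit 187) (nat_lit 5) (nat_lit 193) (nat_lit 5) (nat_lit 194) (nat_lit 5) (nat_lit 469) (nat_lit 414) (nat_lit 317)) (XT.lf (nat_lit 0) (nat_lit 5182981331) (nat_lit 456) (nat_lit 9782237307) (nat_lit 76) (nat_lit 1018757732) (nat_lit 181) (nat_lit 5) (nat_lit 187) (nat_lit 5) (nat_lit 182)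 (nat_lit 5) (nat_lit 470) (nat_lit 414) (nat_lit 316))) (XT.nd (nat_lit 78) (nat_lit 456) (nat_lit 0) (XT.lf (nat_lit 0) (nat_lit 5266970055) (nat_lit 380) (nat_lit 5964898545) (nat_lit 456) (nat_lit 5036316865) (nat_lit 176) (nat_lit 5) (nat_lit 181) (nat_lit 5) (nat_lit 182) (nat_lit 5) (nat_lit 471) (nat_lit 414) (nat_lit 315)) (XT.lf (nat_lit 0) (nat_lit 977610929) (nat_lit 456) (nat_lit 12232790620) (nat_lit 76) (nat_lit 3348640610) (nat_lit 170) (nat_lit 5) (nat_lit 176) (nat_lit 5) (nat_lit 171) (nat_lit 5) (nat_lit 472) (nat_lit 414) (nat_lit 314)))))) (XT.nd (nat_lit 546) (nat_lit 2356) (nat_lit 0) (XT.nd (nat_lit 234) (nat_lit 1064) (nat_lit 0) (XT.nd (nat_lit 78) (nat_lit 836) (nat_lit 0) (XT.lf (nat_lit 0) (nat_lit 3332906826) (nat_lit 380) (nat_lit 3879187456) (nat_lit 456) (nat_lit 9643694176) (nat_lit 165) (nat_lit 5) (nat_lit 170) (nat_lit 5) (nat_lit 171) (nat_lit 5) (nat_lit 473)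 (nat_lit 414) (nat_lit 313)) (XT.nd (nat_lit 78) (nat_lit 456) (nat_lit 0) (XT.lf (nat_lit 0) (nat_lit 2322448691) (nat_lit 380) (nat_lit 11418950247) (nat_lit 456) (nat_lit 3417883381) (nat_lit 160) (nat_lit 5) (nat_lit 165) (nat_lit 5) (nat_lit 166) (nat_lit 5) (nat_lit 474) (nat_lit 414) (nat_lit 312)) (XT.lf (nat_lit 0) (nat_lit 1285918386) (nat_lit 380) (nat_lit 1768444255) (nat_lit 456) (nat_lit 14415151609) (nat_lit 154) (nat_lit 5) (nat_lit 159) (nat_lit 5) (nat_lit 160) (nat_lit 5) (nat_lit 475) (nat_lit 414) (nat_lit 311)))) (XT.nd (nat_lit 156) (nat_lit 760) (nat_lit 0) (XT.nd (nat_lit 78) (nat_lit 0) (nat_lit 0) (XT.lf (nat_lit 0) (nat_lit 191441641) (nat_lit 304) (nat_lit 9611498828) (nat_lit 380) (nat_lit 7983089664) (nat_lit 150) (nat_lit 5) (nat_lit 154) (nat_lit 5) (nat_lit 155) (nat_lit 5) (nat_lit 476) (nat_lit 414) (nat_lit 310)) (XT.lf (nat_lit 0) (nat_lit 16851182330) (nat_lit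 380) (nat_lit 887514923) (nat_lit 76) (nat_lit 371400921) (nat_lit 150) (nat_lit 5) (nat_lit 155) (nat_lit 5) (nat_lit 151) (nat_lit 5) (nat_lit 477) (nat_lit 414) (nat_lit 309))) (XT.nd (nat_lit 78) (nat_lit 304) (nat_lit 0) (XT.lf (nat_lit 0) (nat_lit 5738601540) (nat_lit 456) (nat_lit 2048144718) (nat_lit 76) (nat_lit 10653488059) (nat_lit 144) (nat_lit 5) (nat_lit 150) (nat_lit 5) (nat_lit 145) (nat_lit 5) (nat_lit 478) (nat_lit 414) (nat_lit 308)) (XT.lf (nat_lit 0) (nat_lit 13027239780) (nat_lit 380) (nat_lit 3218283473) (nat_lit 76) (nat_lit 2532619636) (nat_lit 140) (nat_lit 5) (nat_lit 145) (nat_lit 5) (nat_lit 141) (nat_lit 5) (nat_lit 479) (nat_lit 414) (nat_lit 307))))) (XT.nd (nat_lit 234) (nat_lit 1292) (nat_lit 0) (XT.nd (nat_lit 78) (nat_lit 608) (nat_lit 0) (XT.lf (nat_lit 0) (nat_lit 1526989033) (nat_lit 456) (nat_lit 4435476724) (nat_lit 76) (nat_lit 13160798573) (nat_lit 134) (nat_lit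 5) (nat_lit 140) (nat_lit 5) (nat_lit 135) (nat_lit 5) (nat_lit 480) (nat_lit 414) (nat_lit 306)) (XT.nd (nat_lit 78) (nat_lit 304) (nat_lit 0) (XT.lf (nat_lit 0) (nat_lit 9063068431) (nat_lit 380) (nat_lit 5708493714) (nat_lit 76) (nat_lit 4704058042) (nat_lit 130) (nat_lit 5) (nat_lit 135) (nat_lit 5) (nat_lit 131) (nat_lit 5) (nat_lit 481) (nat_lit 414) (nat_lit 305)) (XT.lf (nat_lit 0) (nat_lit 12826524952) (nat_lit 304) (nat_lit 4127528077) (nat_lit 380) (nat_lit 2881917909) (nat_lit 126) (nat_lit 5) (nat_lit 130) (nat_lit 5) (nat_lit 131) (nat_lit 5) (nat_lit 482) (nat_lit 414) (nat_lit 304)))) (XT.nd (nat_lit 156) (nat_lit 608) (nat_lit 0) (XT.nd (nat_lit 78) (nat_lit 304) (nat_lit 0) (XT.lf (nat_lit 0) (nat_lit 4947705436) (nat_lit 380) (nat_lit 8376606390) (nat_lit 76) (nat_lit 6879447999) (nat_lit 121) (nat_lit 5) (nat_lit 126) (nat_lit 5) (nat_lit 122) (nat_lit 5) (nat_lit 483) (nat_lit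 414) (nat_lit 303)) (XT.lf (nat_lit 0) (nat_lit 10797990717) (nat_lit 304) (nat_lit 2296886316) (nat_lit 380) (nat_lit 7484888710) (nat_lit 117) (nat_lit 5) (nat_lit 121) (nat_lit 5) (nat_lit 122) (nat_lit 5) (nat_lit 484) (nat_lit 414) (nat_lit 302))) (XT.nd (nat_lit 78) (nat_lit 304) (nat_lit 0) (XT.lf (nat_lit 0) (nat_lit 669155795) (nat_lit 304) (nat_lit 11242759597) (nat_lit 76) (nat_lit 9051938472) (nat_lit 113) (nat_lit 5) (nat_lit 117) (nat_lit 5) (nat_lit 114) (nat_lit 5) (nat_lit 485) (nat_lit 414) (nat_lit 301)) (XT.lf (nat_lit 0) (nat_lit 8592643653) (nat_lit 304) (nat_lit 488632993) (nat_lit 380) (nat_lit 12274896152) (nat_lit 109) (nat_lit 5) (nat_lit 113) (nat_lit 5) (nat_lit 114) (nat_lit 5) (nat_lit 486) (nat_lit 414) (nat_lit 300))))))))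
noncomputable def xc59 : XT := (XT.nd (nat_lit 58032) (nat_lit 0) (nat_lit 15048) (XT.nd (nat_lit 56940) (nat_lit 0) (nat_lit 38152) (XT.nd (nat_lit 468) (nat_lit 1368) (nat_lit 0) (XT.nd (nat_lit 234) (nat_lit 836) (nat_lit 0) (XT.nd (nat_lit 78) (nat_lit 608) (nat_lit 0) (XT.lf (nat_lit 0) (nat_lit 7402903579) (nat_lit 228) (nat_lit 10517853139) (nat_lit 304) (nat_lit 3836005231) (nat_lit 106) (nat_lit 5) (nat_lit 109) (nat_lit 5) (nat_lit 110) (nat_lit 5) (nat_lit 487) (nat_lit 414) (nat_lit 299)) (XT.nd (nat_lit 78) (nat_lit 228) (nat_lit 0) (XT.lf (nat_lit 0) (nat_lit 4908536981) (nat_lit 380) (nat_lit 15986152067) (nat_lit 76) (nat_lit 1271726234) (nat_lit 101) (nat_lit 5) (nat_lit 106) (nat_lit 5) (nat_lit 102) (nat_lit 5) (nat_lit 488) (nat_lit 414) (nat_lit 298)) (XT.lf (nat_lit 0) (nat_lit 4869581017) (nat_lit 228) (nat_lit 9171489257) (nat_lit 304) (nat_lit 8543225917) (nat_lit 98) (nat_lit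 5) (nat_lit 101) (nat_lit 5) (nat_lit 102) (nat_lit 5) (nat_lit 489) (nat_lit 414) (nat_lit 297)))) (XT.nd (nat_lit 78) (nat_lit 456) (nat_lit 0) (XT.lf (nat_lit 0) (nat_lit 556879780) (nat_lit 380) (nat_lit 19469441918) (nat_lit 76) (nat_lit 2985742296) (nat_lit 93) (nat_lit 5) (nat_lit 98) (nat_lit 5) (nat_lit 94) (nat_lit 5) (nat_lit 490) (nat_lit 414) (nat_lit 296)) (XT.nd (nat_lit 78) (nat_lit 228) (nat_lit 0) (XT.lf (nat_lit 0) (nat_lit 2100666237) (nat_lit 228) (nat_lit 7887898045) (nat_lit 304) (nat_lit 13459478723) (nat_lit 90) (nat_lit 5) (nat_lit 93) (nat_lit 5) (nat_lit 94) (nat_lit 5) (nat_lit 491) (nat_lit 414) (nat_lit 295)) (XT.lf (nat_lit 0) (nat_lit 630104030) (nat_lit 228) (nat_lit 19218422954) (nat_lit 304) (nat_lit 4045668312) (nat_lit 87) (nat_lit 5) (nat_lit 90) (nat_lit 5) (nat_lit 91) (nat_lit 5) (nat_lit 492) (nat_lit 414) (nat_lit 294))))) (XT.nd (nat_lit 234) (nat_lit 760)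 (nat_lit 0) (XT.nd (nat_lit 78) (nat_lit 532) (nat_lit 0) (XT.lf (nat_lit 0) (nat_lit 5753531796) (nat_lit 304) (nat_lit 919037905) (nat_lit 76) (nat_lit 17676887485) (nat_lit 86) (nat_lit 5) (nat_lit 90) (nat_lit 5) (nat_lit 87) (nat_lit 5) (nat_lit 493) (nat_lit 414) (nat_lit 293)) (XT.nd (nat_lit 78) (nat_lit 304) (nat_lit 0) (XT.lf (nat_lit 0) (nat_lit 15957969841) (nat_lit 304) (nat_lit 2530686833) (nat_lit 76) (nat_lit 6325861317) (nat_lit 83) (nat_lit 5) (nat_lit 87) (nat_lit 5) (nat_lit 84) (nat_lit 5) (nat_lit 494) (nat_lit 414) (nat_lit 292)) (XT.lf (nat_lit 0) (nat_lit 1328199598) (nat_lit 304) (nat_lit 4200484605) (nat_lit 76) (nat_lit 19761322254) (nat_lit 79) (nat_lit 5) (nat_lit 83) (nat_lit 5) (nat_lit 80) (nat_lit 5) (nat_lit 495) (nat_lit 414) (nat_lit 291)))) (XT.nd (nat_lit 156) (nat_lit 304) (nat_lit 0) (XT.nd (nat_lit 78) (nat_lit 228) (nat_lit 0) (XT.lf (nat_lit 0) (nat_lit 11876803849)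 (nat_lit 304) (nat_lit 5988940867) (nat_lit 76) (nat_lit 7909271626) (nat_lit 76) (nat_lit 5) (nat_lit 80) (nat_lit 5) (nat_lit 77) (nat_lit 5) (nat_lit 496) (nat_lit 414) (nat_lit 290)) (XT.lf (nat_lit 0) (nat_lit 18445486678) (nat_lit 228) (nat_lit 4461877969) (nat_lit 304) (nat_lit 3363902291) (nat_lit 73) (nat_lit 5) (nat_lit 76) (nat_lit 5) (nat_lit 77) (nat_lit 5) (nat_lit 497) (nat_lit 414) (nat_lit 289))) (XT.nd (nat_lit 56004) (nat_lit 0) (nat_lit 43320) (XT.lf (nat_lit 0) (nat_lit 7582060469) (nat_lit 304) (nat_lit 9787260880) (nat_lit 76) (nat_lit 9408235748) (nat_lit 69) (nat_lit 5) (nat_lit 73) (nat_lit 5) (nat_lit 70) (nat_lit 5) (nat_lit 498) (nat_lit 414) (nat_lit 288)) (XT.lf (nat_lit 0) (nat_lit 1285112366) (nat_lit 1292) (nat_lit 1206283491) (nat_lit 1292) (nat_lit 1206283491) (nat_lit 639) (nat_lit 3) (nat_lit 656) (nat_lit 3) (nat_lit 656) (nat_lit 5) (nat_lit 415) (nat_lit 415)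 (nat_lit 370)))))) (XT.nd (nat_lit 546) (nat_lit 2736) (nat_lit 0) (XT.nd (nat_lit 234) (nat_lit 1216) (nat_lit 0) (XT.nd (nat_lit 78) (nat_lit 1216) (nat_lit 0) (XT.lf (nat_lit 76) (nat_lit 3129349078) (nat_lit 0) (nat_lit 1761315080) (nat_lit 1292) (nat_lit 2569813155) (nat_lit 640) (nat_lit 5) (nat_lit 639) (nat_lit 3) (nat_lit 656) (nat_lit 5) (nat_lit 416) (nat_lit 415) (nat_lit 369)) (XT.nd (nat_lit 78) (nat_lit 1292) (nat_lit 0) (XT.lf (nat_lit 76) (nat_lit 1302517963) (nat_lit 0) (nat_lit 5924939977) (nat_lit 1292) (nat_lit 301163516) (nat_lit 641) (nat_lit 5) (nat_lit 640) (nat_lit 5) (nat_lit 657) (nat_lit 5) (nat_lit 417) (nat_lit 415) (nat_lit 368)) (XT.lf (nat_lit 0) (nat_lit 1963581813) (nat_lit 1292) (nat_lit 507009570) (nat_lit 1368) (nat_lit 5128866029) (nat_lit 623) (nat_lit 5) (nat_lit 640) (nat_lit 5) (nat_lit 641) (nat_lit 5) (nat_lit 418) (nat_lit 415) (nat_lit 367)))) (XT.nd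 (nat_lit 156) (nat_lit 1292) (nat_lit 0) (XT.nd (nat_lit 78) (nat_lit 0) (nat_lit 0) (XT.lf (nat_lit 0) (nat_lit 4250781125) (nat_lit 1292) (nat_lit 2275026694) (nat_lit 1368) (nat_lit 1147405025) (nat_lit 624) (nat_lit 5) (nat_lit 641) (nat_lit 5) (nat_lit 642) (nat_lit 5) (nat_lit 419) (nat_lit 415) (nat_lit 366)) (XT.lf (nat_lit 76) (nat_lit 3722869139) (nat_lit 0) (nat_lit 2846195982) (nat_lit 1368) (nat_lit 1180872538) (nat_lit 625) (nat_lit 5) (nat_lit 624) (nat_lit 5) (nat_lit 642) (nat_lit 5) (nat_lit 420) (nat_lit 415) (nat_lit 365))) (XT.nd (nat_lit 78) (nat_lit 0) (nat_lit 0) (XT.lf (nat_lit 0) (nat_lit 1068564805) (nat_lit 1368) (nat_lit 5761522427) (nat_lit 1444) (nat_lit 999627832) (nat_lit 607) (nat_lit 5) (nat_lit 625) (nat_lit 5) (nat_lit 626) (nat_lit 5) (nat_lit 421) (nat_lit 415) (nat_lit 364)) (XT.lf (nat_lit 76) (nat_lit 419422424) (nat_lit 0) (nat_lit 2921422417) (nat_lit 1444)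 (nat_lit 4571462412) (nat_lit 608) (nat_lit 5) (nat_lit 607) (nat_lit 5) (nat_lit 626) (nat_lit 5) (nat_lit 422) (nat_lit 415) (nat_lit 363))))) (XT.nd (nat_lit 234) (nat_lit 1444) (nat_lit 0) (XT.nd (nat_lit 78) (nat_lit 1368) (nat_lit 0) (XT.lf (nat_lit 0) (nat_lit 5651985885) (nat_lit 1368) (nat_lit 1189335942) (nat_lit 1444) (nat_lit 1156646996) (nat_lit 608) (nat_lit 5) (nat_lit 626) (nat_lit 5) (nat_lit 627) (nat_lit 5) (nat_lit 423) (nat_lit 415) (nat_lit 362)) (XT.nd (nat_lit 78) (nat_lit 1368) (nat_lit 0) (XT.lf (nat_lit 76) (nat_lit 5304841853) (nat_lit 0) (nat_lit 2708026851) (nat_lit 1444) (nat_lit 73728693) (nat_lit 609) (nat_lit 5) (nat_lit 608) (nat_lit 5) (nat_lit 627) (nat_lit 5) (nat_lit 424) (nat_lit 415) (nat_lit 361)) (XT.lf (nat_lit 0) (nat_lit 2208181405) (nat_lit 1444) (nat_lit 4369883037) (nat_lit 1520) (nat_lit 1600106776) (nat_lit 590) (nat_lit 5) (nat_lit 609) (nat_lit 5)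 (nat_lit 610) (nat_lit 5) (nat_lit 425) (nat_lit 415) (nat_lit 360)))) (XT.nd (nat_lit 156) (nat_lit 1444) (nat_lit 0) (XT.nd (nat_lit 78) (nat_lit 0) (nat_lit 76) (XT.lf (nat_lit 76) (nat_lit 2324288792) (nat_lit 0) (nat_lit 2215159184) (nat_lit 1520) (nat_lit 3733401418) (nat_lit 591) (nat_lit 5) (nat_lit 590) (nat_lit 5) (nat_lit 610) (nat_lit 5) (nat_lit 426) (nat_lit 415) (nat_lit 359)) (XT.lf (nat_lit 76) (nat_lit 855389322) (nat_lit 0) (nat_lit 6066999049) (nat_lit 1520) (nat_lit 1448349591) (nat_lit 592) (nat_lit 5) (nat_lit 591) (nat_lit 5) (nat_lit 611) (nat_lit 5) (nat_lit 427) (nat_lit 415) (nat_lit 358))) (XT.nd (nat_lit 78) (nat_lit 0) (nat_lit 76) (XT.lf (nat_lit 0) (nat_lit 881576911) (nat_lit 1520) (nat_lit 597080783) (nat_lit 1596) (nat_lit 6993028561) (nat_lit 571) (nat_lit 5) (nat_lit 591) (nat_lit 5) (nat_lit 592) (nat_lit 5) (nat_lit 428) (nat_lit 415) (nat_lit 357)) (XT.lf (nat_lit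 0) (nat_lit 3260703009) (nat_lit 1520) (nat_lit 2041212645) (nat_lit 1596) (nat_lit 3273580691) (nat_lit 572) (nat_lit 5) (nat_lit 592) (nat_lit 5) (nat_lit 593) (nat_lit 5) (nat_lit 429) (nat_lit 415) (nat_lit 356))))))) (XT.nd (nat_lit 1092) (nat_lit 9196) (nat_lit 0) (XT.nd (nat_lit 546) (nat_lit 5548) (nat_lit 0) (XT.nd (nat_lit 234) (nat_lit 5320) (nat_lit 0) (XT.nd (nat_lit 78) (nat_lit 3116) (nat_lit 0) (XT.lf (nat_lit 76) (nat_lit 5214524390) (nat_lit 0) (nat_lit 480948826) (nat_lit 1596) (nat_lit 2987266386) (nat_lit 573) (nat_lit 5) (nat_lit 572) (nat_lit 5) (nat_lit 593) (nat_lit 5) (nat_lit 430) (nat_lit 415) (nat_lit 355)) (XT.nd (nat_lit 78) (nat_lit 1672) (nat_lit 0) (XT.lf (nat_lit 0) (nat_lit 3894921469) (nat_lit 1520) (nat_lit 4314770013) (nat_lit 1596) (nat_lit 583384726) (nat_lit 553) (nat_lit 5) (nat_lit 573) (nat_lit 5) (nat_lit 574) (nat_lit 5) (nat_lit 431) (nat_lit 415) (nat_lit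 354)) (XT.lf (nat_lit 0) (nat_lit 1855419213) (nat_lit 1672) (nat_lit 6323058907) (nat_lit 76) (nat_lit 728250422) (nat_lit 531) (nat_lit 5) (nat_lit 553) (nat_lit 5) (nat_lit 532) (nat_lit 5) (nat_lit 432) (nat_lit 415) (nat_lit 353)))) (XT.nd (nat_lit 156) (nat_lit 3648) (nat_lit 0) (XT.nd (nat_lit 78) (nat_lit 0) (nat_lit 0) (XT.lf (nat_lit 0) (nat_lit 1267157483) (nat_lit 1672) (nat_lit 3103518906) (nat_lit 1748) (nat_lit 4652816468) (nat_lit 509) (nat_lit 5) (nat_lit 531) (nat_lit 5) (nat_lit 532) (nat_lit 5) (nat_lit 433) (nat_lit 415) (nat_lit 352)) (XT.lf (nat_lit 0) (nat_lit 6960447707) (nat_lit 1748) (nat_lit 36097865) (nat_lit 76) (nat_lit 2147237122) (nat_lit 509) (nat_lit 5) (nat_lit 532) (nat_lit 5) (nat_lit 510) (nat_lit 5) (nat_lit 434) (nat_lit 415) (nat_lit 351))) (XT.nd (nat_lit 78) (nat_lit 1824) (nat_lit 0) (XT.lf (nat_lit 0) (nat_lit 371803837) (nat_lit 1824) (nat_lit 1319825113)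 (nat_lit 76) (nat_lit 7575683094) (nat_lit 485) (nat_lit 5) (nat_lit 509) (nat_lit 5) (nat_lit 486) (nat_lit 5) (nat_lit 435) (nat_lit 415) (nat_lit 350)) (XT.lf (nat_lit 0) (nat_lit 2988212042) (nat_lit 1900) (nat_lit 2617474589) (nat_lit 76) (nat_lit 3788289884) (nat_lit 461) (nat_lit 5) (nat_lit 486) (nat_lit 5) (nat_lit 462) (nat_lit 5) (nat_lit 436) (nat_lit 415) (nat_lit 349))))) (XT.nd (nat_lit 234) (nat_lit 2584) (nat_lit 0) (XT.nd (nat_lit 78) (nat_lit 1900) (nat_lit 0) (XT.lf (nat_lit 0) (nat_lit 5622356182) (nat_lit 1064) (nat_lit 63683015) (nat_lit 1140) (nat_lit 3838346527) (nat_lit 447) (nat_lit 5) (nat_lit 461) (nat_lit 5) (nat_lit 462) (nat_lit 5) (nat_lit 437) (nat_lit 415) (nat_lit 348)) (XT.nd (nat_lit 78) (nat_lit 988) (nat_lit 0) (XT.lf (nat_lit 0) (nat_lit 4458758763) (nat_lit 912) (nat_lit 4036880167) (nat_lit 988) (nat_lit 1162454766) (nat_lit 435) (nat_lit 5) (nat_lit 447)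 (nat_lit 5) (nat_lit 448) (nat_lit 5) (nat_lit 438) (nat_lit 415) (nat_lit 347)) (XT.lf (nat_lit 0) (nat_lit 1580918112) (nat_lit 988) (nat_lit 6495696547) (nat_lit 76) (nat_lit 1718832263) (nat_lit 422) (nat_lit 5) (nat_lit 435) (nat_lit 5) (nat_lit 423) (nat_lit 5) (nat_lit 439) (nat_lit 415) (nat_lit 346)))) (XT.nd (nat_lit 156) (nat_lit 912) (nat_lit 0) (XT.nd (nat_lit 78) (nat_lit 836) (nat_lit 0) (XT.lf (nat_lit 0) (nat_lit 2131804958) (nat_lit 836) (nat_lit 2284844377) (nat_lit 912) (nat_lit 5519603720) (nat_lit 411) (nat_lit 5) (nat_lit 422) (nat_lit 5) (nat_lit 423) (nat_lit 5) (nat_lit 440) (nat_lit 415) (nat_lit 345)) (XT.lf (nat_lit 0) (nat_lit 965015299) (nat_lit 836) (nat_lit 6397520879) (nat_lit 912) (nat_lit 2718248431) (nat_lit 400) (nat_lit 5) (nat_lit 411) (nat_lit 5) (nat_lit 412) (nat_lit 5) (nat_lit 441) (nat_lit 415) (nat_lit 344))) (XT.nd (nat_lit 78) (nat_lit 836) (nat_lit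 0) (XT.lf (nat_lit 0) (nat_lit 184879165) (nat_lit 912) (nat_lit 190849047) (nat_lit 76) (nat_lit 9853506485) (nat_lit 399) (nat_lit 5) (nat_lit 411) (nat_lit 5) (nat_lit 400) (nat_lit 5) (nat_lit 442) (nat_lit 415) (nat_lit 343)) (XT.lf (nat_lit 0) (nat_lit 3188320602) (nat_lit 912) (nat_lit 1365969339) (nat_lit 76) (nat_lit 5826488674) (nat_lit 388) (nat_lit 5) (nat_lit 400) (nat_lit 5) (nat_lit 389) (nat_lit 5) (nat_lit 443) (nat_lit 415) (nat_lit 342)))))) (XT.nd (nat_lit 546) (nat_lit 3876) (nat_lit 0) (XT.nd (nat_lit 234) (nat_lit 2888) (nat_lit 0) (XT.nd (nat_lit 78) (nat_lit 1596) (nat_lit 0) (XT.lf (nat_lit 0) (nat_lit 6302804180) (nat_lit 912) (nat_lit 2531457385) (nat_lit 76) (nat_lit 1702191120) (nat_lit 377) (nat_lit 5) (nat_lit 389) (nat_lit 5) (nat_lit 378) (nat_lit 5) (nat_lit 444) (nat_lit 415) (nat_lit 341)) (XT.nd (nat_lit 78) (nat_lit 836) (nat_lit 0) (XT.lf (nat_lit 0) (nat_lit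 6991651098) (nat_lit 760) (nat_lit 2559132795) (nat_lit 836) (nat_lit 1145214384) (nat_lit 367) (nat_lit 5) (nat_lit 377) (nat_lit 5) (nat_lit 378) (nat_lit 5) (nat_lit 445) (nat_lit 415) (nat_lit 340)) (XT.lf (nat_lit 0) (nat_lit 2046725790) (nat_lit 836) (nat_lit 4893750235) (nat_lit 76) (nat_lit 3918841181) (nat_lit 356) (nat_lit 5) (nat_lit 367) (nat_lit 5) (nat_lit 357) (nat_lit 5) (nat_lit 446) (nat_lit 415) (nat_lit 339)))) (XT.nd (nat_lit 156) (nat_lit 1444) (nat_lit 0) (XT.nd (nat_lit 78) (nat_lit 760) (nat_lit 0) (XT.lf (nat_lit 0) (nat_lit 4940547357) (nat_lit 684) (nat_lit 409422678) (nat_lit 760) (nat_lit 5676794516) (nat_lit 347) (nat_lit 5) (nat_lit 356) (nat_lit 5) (nat_lit 357) (nat_lit 5) (nat_lit 447) (nat_lit 415) (nat_lit 338)) (XT.lf (nat_lit 0) (nat_lit 3899604394) (nat_lit 760) (nat_lit 4909902621) (nat_lit 836) (nat_lit 2388586666) (nat_lit 337) (nat_lit 5) (nat_lit 347) (nat_lit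 5) (nat_lit 348) (nat_lit 5) (nat_lit 448) (nat_lit 415) (nat_lit 337))) (XT.nd (nat_lit 78) (nat_lit 684) (nat_lit 0) (XT.lf (nat_lit 0) (nat_lit 1018348505) (nat_lit 760) (nat_lit 8511726786) (nat_lit 76) (nat_lit 1843696460) (nat_lit 327) (nat_lit 5) (nat_lit 337) (nat_lit 5) (nat_lit 328) (nat_lit 5) (nat_lit 449) (nat_lit 415) (nat_lit 336)) (XT.lf (nat_lit 0) (nat_lit 1799679962) (nat_lit 684) (nat_lit 2748844849) (nat_lit 760) (nat_lit 7004811988) (nat_lit 318) (nat_lit 5) (nat_lit 327) (nat_lit 5) (nat_lit 328) (nat_lit 5) (nat_lit 450) (nat_lit 415) (nat_lit 335))))) (XT.nd (nat_lit 234) (nat_lit 2508) (nat_lit 0) (XT.nd (nat_lit 78) (nat_lit 760) (nat_lit 0) (XT.lf (nat_lit 0) (nat_lit 733209932) (nat_lit 608) (nat_lit 7501551733) (nat_lit 684) (nat_lit 3502526070) (nat_lit 310) (nat_lit 5) (nat_lit 318) (nat_lit 5) (nat_lit 319) (nat_lit 5) (nat_lit 451) (nat_lit 415) (nat_lit 334)) (XT.nd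 (nat_lit 78) (nat_lit 684) (nat_lit 0) (XT.lf (nat_lit 0) (nat_lit 148799756) (nat_lit 684) (nat_lit 324813876) (nat_lit 76) (nat_lit 11452224971) (nat_lit 309) (nat_lit 5) (nat_lit 318) (nat_lit 5) (nat_lit 310) (nat_lit 5) (nat_lit 452) (nat_lit 415) (nat_lit 333)) (XT.lf (nat_lit 0) (nat_lit 3938190830) (nat_lit 760) (nat_lit 1417773190) (nat_lit 76) (nat_lit 6762098607) (nat_lit 300) (nat_lit 5) (nat_lit 310) (nat_lit 5) (nat_lit 301) (nat_lit 5) (nat_lit 453) (nat_lit 415) (nat_lit 332)))) (XT.nd (nat_lit 156) (nat_lit 1292) (nat_lit 0) (XT.nd (nat_lit 78) (nat_lit 608) (nat_lit 0) (XT.lf (nat_lit 0) (nat_lit 7885445359) (nat_lit 684) (nat_lit 2504463952) (nat_lit 76) (nat_lit 1925262256) (nat_lit 292) (nat_lit 5) (nat_lit 301) (nat_lit 5) (nat_lit 293) (nat_lit 5) (nat_lit 454) (nat_lit 415) (nat_lit 331)) (XT.lf (nat_lit 0) (nat_lit 8911911575) (nat_lit 608) (nat_lit 3105648103) (nat_lit 684)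 (nat_lit 499307031) (nat_lit 284) (nat_lit 5) (nat_lit 292) (nat_lit 5) (nat_lit 293) (nat_lit 5) (nat_lit 455) (nat_lit 415) (nat_lit 330))) (XT.nd (nat_lit 78) (nat_lit 608) (nat_lit 0) (XT.lf (nat_lit 0) (nat_lit 3564334138) (nat_lit 684) (nat_lit 4736090625) (nat_lit 76) (nat_lit 4422491671) (nat_lit 275) (nat_lit 5) (nat_lit 284) (nat_lit 5) (nat_lit 276) (nat_lit 5) (nat_lit 456) (nat_lit 415) (nat_lit 329)) (XT.lf (nat_lit 0) (nat_lit 7063247094) (nat_lit 608) (nat_lit 735438525) (nat_lit 684) (nat_lit 5135285971) (nat_lit 267) (nat_lit 5) (nat_lit 275) (nat_lit 5) (nat_lit 276) (nat_lit 5) (nat_lit 457) (nat_lit 415) (nat_lit 328))))))))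
noncomputable def xc60 : XT := (XT.nd (nat_lit 2106) (nat_lit 3648) (nat_lit 0) (XT.nd (nat_lit 1014) (nat_lit 4940) (nat_lit 0) (XT.nd (nat_lit 468) (nat_lit 2888) (nat_lit 0) (XT.nd (nat_lit 234) (nat_lit 1596) (nat_lit 0) (XT.nd (nat_lit 78) (nat_lit 1140) (nat_lit 0) (XT.lf (nat_lit 0) (nat_lit 6118850260) (nat_lit 532) (nat_lit 6124070103) (nat_lit 608) (nat_lit 906782577) (nat_lit 260) (nat_lit 5) (nat_lit 267) (nat_lit 5) (nat_lit 268) (nat_lit 5) (nat_lit 458) (nat_lit 415) (nat_lit 327)) (XT.nd (nat_lit 78) (nat_lit 532) (nat_lit 0) (XT.lf (nat_lit 0) (nat_lit 3458586813) (nat_lit 608) (nat_lit 8209917895) (nat_lit 76) (nat_lit 1701850441) (nat_lit 252) (nat_lit 5) (nat_lit 260) (nat_lit 5) (nat_lit 253) (nat_lit 5) (nat_lit 459) (nat_lit 415) (nat_lit 326)) (XT.lf (nat_lit 0) (nat_lit 4178880971) (nat_lit 532) (nat_lit 3845972306) (nat_lit 608) (nat_lit 5571010129) (nat_lit 245) (nat_lit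 5) (nat_lit 252) (nat_lit 5) (nat_lit 253) (nat_lit 5) (nat_lit 460) (nat_lit 415) (nat_lit 325)))) (XT.nd (nat_lit 78) (nat_lit 1064) (nat_lit 0) (XT.lf (nat_lit 0) (nat_lit 3193398046) (nat_lit 532) (nat_lit 9605545785) (nat_lit 608) (nat_lit 1027777788) (nat_lit 238) (nat_lit 5) (nat_lit 245) (nat_lit 5) (nat_lit 246) (nat_lit 5) (nat_lit 461) (nat_lit 415) (nat_lit 324)) (XT.nd (nat_lit 78) (nat_lit 532) (nat_lit 0) (XT.lf (nat_lit 0) (nat_lit 2181347754) (nat_lit 456) (nat_lit 1493847509) (nat_lit 532) (nat_lit 10387410744) (nat_lit 231) (nat_lit 5) (nat_lit 237) (nat_lit 5) (nat_lit 238) (nat_lit 5) (nat_lit 462) (nat_lit 415) (nat_lit 323)) (XT.lf (nat_lit 0) (nat_lit 1139934995) (nat_lit 532) (nat_lit 7457725096) (nat_lit 608) (nat_lit 5705924963) (nat_lit 224) (nat_lit 5) (nat_lit 231) (nat_lit 5) (nat_lit 232) (nat_lit 5) (nat_lit 463) (nat_lit 415) (nat_lit 322))))) (XT.nd (nat_lit 234)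 (nat_lit 1900) (nat_lit 0) (XT.nd (nat_lit 78) (nat_lit 532) (nat_lit 0) (XT.lf (nat_lit 0) (nat_lit 104698834) (nat_lit 456) (nat_lit 13628731024) (nat_lit 532) (nat_lit 817052279) (nat_lit 218) (nat_lit 5) (nat_lit 224) (nat_lit 5) (nat_lit 225) (nat_lit 5) (nat_lit 464) (nat_lit 415) (nat_lit 321)) (XT.nd (nat_lit 78) (nat_lit 456) (nat_lit 0) (XT.lf (nat_lit 0) (nat_lit 4271627124) (nat_lit 532) (nat_lit 974080544) (nat_lit 76) (nat_lit 9556362565) (nat_lit 217) (nat_lit 5) (nat_lit 224) (nat_lit 5) (nat_lit 218) (nat_lit 5) (nat_lit 465) (nat_lit 415) (nat_lit 320)) (XT.lf (nat_lit 0) (nat_lit 9578714680) (nat_lit 532) (nat_lit 2058620225) (nat_lit 76) (nat_lit 3422227273) (nat_lit 211) (nat_lit 5) (nat_lit 218) (nat_lit 5) (nat_lit 212) (nat_lit 5) (nat_lit 466) (nat_lit 415) (nat_lit 319)))) (XT.nd (nat_lit 156) (nat_lit 912) (nat_lit 0) (XT.nd (nat_lit 78) (nat_lit 532) (nat_lit 0) (XT.lf (nat_lit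 0) (nat_lit 12165303962) (nat_lit 456) (nat_lit 2970654326) (nat_lit 532) (nat_lit 187002875) (nat_lit 205) (nat_lit 5) (nat_lit 211) (nat_lit 5) (nat_lit 212) (nat_lit 5) (nat_lit 467) (nat_lit 415) (nat_lit 318)) (XT.lf (nat_lit 0) (nat_lit 5294168146) (nat_lit 532) (nat_lit 4310176808) (nat_lit 76) (nat_lit 5987283076) (nat_lit 198) (nat_lit 5) (nat_lit 205) (nat_lit 5) (nat_lit 199) (nat_lit 5) (nat_lit 468) (nat_lit 415) (nat_lit 317))) (XT.nd (nat_lit 78) (nat_lit 532) (nat_lit 0) (XT.lf (nat_lit 0) (nat_lit 10401675023) (nat_lit 380) (nat_lit 615640676) (nat_lit 456) (nat_lit 4849413905) (nat_lit 193) (nat_lit 5) (nat_lit 198) (nat_lit 5) (nat_lit 199) (nat_lit 5) (nat_lit 469) (nat_lit 415) (nat_lit 316)) (XT.lf (nat_lit 0) (nat_lit 871605306) (nat_lit 532) (nat_lit 6663210012) (nat_lit 76) (nat_lit 8612780430) (nat_lit 186) (nat_lit 5) (nat_lit 193) (nat_lit 5) (nat_lit 187) (nat_lit 5) (nat_lit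 470) (nat_lit 415) (nat_lit 315)))))) (XT.nd (nat_lit 546) (nat_lit 2204) (nat_lit 0) (XT.nd (nat_lit 234) (nat_lit 1520) (nat_lit 0) (XT.nd (nat_lit 78) (nat_lit 836) (nat_lit 0) (XT.lf (nat_lit 0) (nat_lit 6779263469) (nat_lit 456) (nat_lit 7892085630) (nat_lit 76) (nat_lit 1763280810) (nat_lit 181) (nat_lit 5) (nat_lit 187) (nat_lit 5) (nat_lit 182) (nat_lit 5) (nat_lit 471) (nat_lit 415) (nat_lit 314)) (XT.nd (nat_lit 78) (nat_lit 456) (nat_lit 0) (XT.lf (nat_lit 0) (nat_lit 7573171331) (nat_lit 380) (nat_lit 5408428677) (nat_lit 456) (nat_lit 3746327069) (nat_lit 176) (nat_lit 5) (nat_lit 181) (nat_lit 5) (nat_lit 182) (nat_lit 5) (nat_lit 472) (nat_lit 415) (nat_lit 313)) (XT.lf (nat_lit 0) (nat_lit 2406325648) (nat_lit 456) (nat_lit 10444643404) (nat_lit 76) (nat_lit 4176810532) (nat_lit 170) (nat_lit 5) (nat_lit 176) (nat_lit 5) (nat_lit 171) (nat_lit 5) (nat_lit 473) (nat_lit 415) (nat_lit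 312)))) (XT.nd (nat_lit 156) (nat_lit 760) (nat_lit 0) (XT.nd (nat_lit 78) (nat_lit 380) (nat_lit 0) (XT.lf (nat_lit 0) (nat_lit 5553060527) (nat_lit 380) (nat_lit 3247789676) (nat_lit 456) (nat_lit 8533119279) (nat_lit 165) (nat_lit 5) (nat_lit 170) (nat_lit 5) (nat_lit 171) (nat_lit 5) (nat_lit 474) (nat_lit 415) (nat_lit 311)) (XT.lf (nat_lit 0) (nat_lit 4500161786) (nat_lit 380) (nat_lit 11004300021) (nat_lit 456) (nat_lit 2142539099) (nat_lit 160) (nat_lit 5) (nat_lit 165) (nat_lit 5) (nat_lit 166) (nat_lit 5) (nat_lit 475) (nat_lit 415) (nat_lit 310))) (XT.nd (nat_lit 78) (nat_lit 304) (nat_lit 0) (XT.lf (nat_lit 0) (nat_lit 3416155024) (nat_lit 380) (nat_lit 1063622457) (nat_lit 456) (nat_lit 13487105146) (nat_lit 154) (nat_lit 5) (nat_lit 159) (nat_lit 5) (nat_lit 160) (nat_lit 5) (nat_lit 476) (nat_lit 415) (nat_lit 309)) (XT.lf (nat_lit 0) (nat_lit 2276352094) (nat_lit 304) (nat_lit 9133889115)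 (nat_lit 380) (nat_lit 6883065411) (nat_lit 150) (nat_lit 5) (nat_lit 154) (nat_lit 5) (nat_lit 155) (nat_lit 5) (nat_lit 477) (nat_lit 415) (nat_lit 308))))) (XT.nd (nat_lit 234) (nat_lit 1444) (nat_lit 0) (XT.nd (nat_lit 78) (nat_lit 304) (nat_lit 0) (XT.lf (nat_lit 0) (nat_lit 16080212) (nat_lit 456) (nat_lit 17487592401) (nat_lit 76) (nat_lit 1123943507) (nat_lit 144) (nat_lit 5) (nat_lit 150) (nat_lit 5) (nat_lit 145) (nat_lit 5) (nat_lit 478) (nat_lit 415) (nat_lit 307)) (XT.nd (nat_lit 78) (nat_lit 304) (nat_lit 0) (XT.lf (nat_lit 0) (nat_lit 7174653962) (nat_lit 456) (nat_lit 86522013) (nat_lit 76) (nat_lit 11706950367) (nat_lit 144) (nat_lit 5) (nat_lit 150) (nat_lit 5) (nat_lit 145) (nat_lit 5) (nat_lit 479) (nat_lit 415) (nat_lit 306)) (XT.lf (nat_lit 0) (nat_lit 14662931948) (nat_lit 380) (nat_lit 1304621738) (nat_lit 76) (nat_lit 3348999953) (nat_lit 140) (nat_lit 5) (nat_lit 145) (nat_lit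 5) (nat_lit 141) (nat_lit 5) (nat_lit 480) (nat_lit 415) (nat_lit 305)))) (XT.nd (nat_lit 156) (nat_lit 684) (nat_lit 0) (XT.nd (nat_lit 78) (nat_lit 304) (nat_lit 0) (XT.lf (nat_lit 0) (nat_lit 2802378698) (nat_lit 456) (nat_lit 2574569288) (nat_lit 76) (nat_lit 14295388373) (nat_lit 134) (nat_lit 5) (nat_lit 140) (nat_lit 5) (nat_lit 135) (nat_lit 5) (nat_lit 481) (nat_lit 415) (nat_lit 304)) (XT.lf (nat_lit 0) (nat_lit 10546366351) (nat_lit 380) (nat_lit 3898865977) (nat_lit 76) (nat_lit 5590395044) (nat_lit 130) (nat_lit 5) (nat_lit 135) (nat_lit 5) (nat_lit 131) (nat_lit 5) (nat_lit 482) (nat_lit 415) (nat_lit 303))) (XT.nd (nat_lit 78) (nat_lit 380) (nat_lit 0) (XT.lf (nat_lit 0) (nat_lit 15160065783) (nat_lit 304) (nat_lit 3491383584) (nat_lit 380) (nat_lit 1755792873) (nat_lit 126) (nat_lit 5) (nat_lit 130) (nat_lit 5) (nat_lit 131) (nat_lit 5) (nat_lit 483) (nat_lit 415) (nat_lit 302)) (XT.lf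 (nat_lit 0) (nat_lit 6275434494) (nat_lit 380) (nat_lit 6676505156) (nat_lit 76) (nat_lit 7834316237) (nat_lit 121) (nat_lit 5) (nat_lit 126) (nat_lit 5) (nat_lit 122) (nat_lit 5) (nat_lit 484) (nat_lit 415) (nat_lit 301))))))) (XT.nd (nat_lit 1014) (nat_lit 228) (nat_lit 0) (XT.nd (nat_lit 468) (nat_lit 1672) (nat_lit 0) (XT.nd (nat_lit 234) (nat_lit 836) (nat_lit 0) (XT.nd (nat_lit 78) (nat_lit 608) (nat_lit 0) (XT.lf (nat_lit 0) (nat_lit 13041670727) (nat_lit 304) (nat_lit 1603466256) (nat_lit 380) (nat_lit 6528843581) (nat_lit 117) (nat_lit 5) (nat_lit 121) (nat_lit 5) (nat_lit 122) (nat_lit 5) (nat_lit 485) (nat_lit 415) (nat_lit 300)) (XT.nd (nat_lit 78) (nat_lit 304) (nat_lit 0) (XT.lf (nat_lit 0) (nat_lit 1837701010) (nat_lit 304) (nat_lit 9658223710) (nat_lit 76) (nat_lit 10073846910) (nat_lit 113) (nat_lit 5) (nat_lit 117) (nat_lit 5) (nat_lit 114) (nat_lit 5) (nat_lit 486) (nat_lit 415)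 (nat_lit 299)) (XT.lf (nat_lit 0) (nat_lit 10482698605) (nat_lit 380) (nat_lit 11234910487) (nat_lit 76) (nat_lit 256641606) (nat_lit 109) (nat_lit 5) (nat_lit 114) (nat_lit 5) (nat_lit 110) (nat_lit 5) (nat_lit 487) (nat_lit 415) (nat_lit 298)))) (XT.nd (nat_lit 78) (nat_lit 608) (nat_lit 0) (XT.lf (nat_lit 0) (nat_lit 9502288315) (nat_lit 228) (nat_lit 10067552936) (nat_lit 304) (nat_lit 2817367514) (nat_lit 106) (nat_lit 5) (nat_lit 109) (nat_lit 5) (nat_lit 110) (nat_lit 5) (nat_lit 488) (nat_lit 415) (nat_lit 297)) (XT.nd (nat_lit 78) (nat_lit 228) (nat_lit 0) (XT.lf (nat_lit 0) (nat_lit 6159095129) (nat_lit 380) (nat_lit 14587204784) (nat_lit 76) (nat_lit 2063016271) (nat_lit 101) (nat_lit 5) (nat_lit 106) (nat_lit 5) (nat_lit 102) (nat_lit 5) (nat_lit 489) (nat_lit 415) (nat_lit 296)) (XT.lf (nat_lit 0) (nat_lit 6863723345) (nat_lit 228) (nat_lit 8681744863) (nat_lit 304) (nat_lit 7694668779)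 (nat_lit 98) (nat_lit 5) (nat_lit 101) (nat_lit 5) (nat_lit 102) (nat_lit 5) (nat_lit 490) (nat_lit 415) (nat_lit 295))))) (XT.nd (nat_lit 234) (nat_lit 836) (nat_lit 0) (XT.nd (nat_lit 78) (nat_lit 456) (nat_lit 0) (XT.lf (nat_lit 0) (nat_lit 1649034842) (nat_lit 380) (nat_lit 18204686418) (nat_lit 76) (nat_lit 3827172101) (nat_lit 93) (nat_lit 5) (nat_lit 98) (nat_lit 5) (nat_lit 94) (nat_lit 5) (nat_lit 491) (nat_lit 415) (nat_lit 294)) (XT.nd (nat_lit 78) (nat_lit 228) (nat_lit 0) (XT.lf (nat_lit 0) (nat_lit 3982529770) (nat_lit 228) (nat_lit 7361625500) (nat_lit 304) (nat_lit 12786187451) (nat_lit 90) (nat_lit 5) (nat_lit 93) (nat_lit 5) (nat_lit 94) (nat_lit 5) (nat_lit 492) (nat_lit 415) (nat_lit 293)) (XT.lf (nat_lit 0) (nat_lit 2454267745) (nat_lit 228) (nat_lit 19031423740) (nat_lit 304) (nat_lit 3104473270) (nat_lit 87) (nat_lit 5) (nat_lit 90) (nat_lit 5) (nat_lit 91) (nat_lit 5) (nat_lit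 493) (nat_lit 415) (nat_lit 292)))) (XT.nd (nat_lit 156) (nat_lit 532) (nat_lit 0) (XT.nd (nat_lit 78) (nat_lit 0) (nat_lit 0) (XT.lf (nat_lit 0) (nat_lit 830514485) (nat_lit 228) (nat_lit 6119102271) (nat_lit 304) (nat_lit 18109833410) (nat_lit 83) (nat_lit 5) (nat_lit 86) (nat_lit 5) (nat_lit 87) (nat_lit 5) (nat_lit 494) (nat_lit 415) (nat_lit 291)) (XT.lf (nat_lit 0) (nat_lit 17441214860) (nat_lit 304) (nat_lit 853807098) (nat_lit 76) (nat_lit 7243820916) (nat_lit 83) (nat_lit 5) (nat_lit 87) (nat_lit 5) (nat_lit 84) (nat_lit 5) (nat_lit 495) (nat_lit 415) (nat_lit 290))) (XT.nd (nat_lit 78) (nat_lit 228) (nat_lit 0) (XT.lf (nat_lit 0) (nat_lit 2361042187) (nat_lit 304) (nat_lit 2588919954) (nat_lit 76) (nat_lit 21078865027) (nat_lit 79) (nat_lit 5) (nat_lit 83) (nat_lit 5) (nat_lit 80) (nat_lit 5) (nat_lit 496) (nat_lit 415) (nat_lit 289)) (XT.lf (nat_lit 0) (nat_lit 13213047840) (nat_lit 304)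 (nat_lit 4444464642) (nat_lit 76) (nat_lit 8871136570) (nat_lit 76) (nat_lit 5) (nat_lit 80) (nat_lit 5) (nat_lit 77) (nat_lit 5) (nat_lit 497) (nat_lit 415) (nat_lit 288)))))) (XT.nd (nat_lit 56550) (nat_lit 0) (nat_lit 37848) (XT.nd (nat_lit 56238) (nat_lit 0) (nat_lit 40432) (XT.nd (nat_lit 56082) (nat_lit 0) (nat_lit 41724) (XT.lf (nat_lit 0) (nat_lit 20695023534) (nat_lit 228) (nat_lit 3861972666) (nat_lit 304) (nat_lit 2483142106) (nat_lit 73) (nat_lit 5) (nat_lit 76) (nat_lit 5) (nat_lit 77) (nat_lit 5) (nat_lit 498) (nat_lit 415) (nat_lit 287)) (XT.nd (nat_lit 78) (nat_lit 1292) (nat_lit 0) (XT.lf (nat_lit 0) (nat_lit 3563494404) (nat_lit 1292) (nat_lit 100073190) (nat_lit 1292) (nat_lit 100073190) (nat_lit 639) (nat_lit 3) (nat_lit 656) (nat_lit 3) (nat_lit 656) (nat_lit 5) (nat_lit 416) (nat_lit 416) (nat_lit 368)) (XT.lf (nat_lit 0) (nat_lit 1780812233) (nat_lit 1292) (nat_lit 2137438255)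 (nat_lit 1368) (nat_lit 3678196614) (nat_lit 622) (nat_lit 5) (nat_lit 639) (nat_lit 3) (nat_lit 640) (nat_lit 5) (nat_lit 417) (nat_lit 416) (nat_lit 367)))) (XT.nd (nat_lit 156) (nat_lit 1292) (nat_lit 0) (XT.nd (nat_lit 78) (nat_lit 0) (nat_lit 76) (XT.lf (nat_lit 76) (nat_lit 3623737800) (nat_lit 0) (nat_lit 339063770) (nat_lit 1368) (nat_lit 3706021596) (nat_lit 623) (nat_lit 5) (nat_lit 622) (nat_lit 5) (nat_lit 640) (nat_lit 5) (nat_lit 418) (nat_lit 416) (nat_lit 366)) (XT.lf (nat_lit 76) (nat_lit 1800410957) (nat_lit 0) (nat_lit 4376224333) (nat_lit 1368) (nat_lit 1567413622) (nat_lit 624) (nat_lit 5) (nat_lit 623) (nat_lit 5) (nat_lit 641) (nat_lit 5) (nat_lit 419) (nat_lit 416) (nat_lit 365))) (XT.nd (nat_lit 78) (nat_lit 0) (nat_lit 76) (XT.lf (nat_lit 76) (nat_lit 3498015) (nat_lit 0) (nat_lit 573340860) (nat_lit 1444) (nat_lit 7245619472) (nat_lit 606) (nat_lit 5) (nat_lit 605) (nat_lit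 5) (nat_lit 624) (nat_lit 5) (nat_lit 420) (nat_lit 416) (nat_lit 364)) (XT.lf (nat_lit 0) (nat_lit 2748689234) (nat_lit 1368) (nat_lit 1771140122) (nat_lit 1444) (nat_lit 3383497825) (nat_lit 606) (nat_lit 5) (nat_lit 624) (nat_lit 5) (nat_lit 625) (nat_lit 5) (nat_lit 421) (nat_lit 416) (nat_lit 363))))) (XT.nd (nat_lit 234) (nat_lit 1292) (nat_lit 0) (XT.nd (nat_lit 78) (nat_lit 1368) (nat_lit 0) (XT.lf (nat_lit 76) (nat_lit 4467559453) (nat_lit 0) (nat_lit 475434588) (nat_lit 1444) (nat_lit 3044487526) (nat_lit 607) (nat_lit 5) (nat_lit 606) (nat_lit 5) (nat_lit 625) (nat_lit 5) (nat_lit 422) (nat_lit 416) (nat_lit 362)) (XT.nd (nat_lit 78) (nat_lit 1444) (nat_lit 0) (XT.lf (nat_lit 76) (nat_lit 2810316322) (nat_lit 0) (nat_lit 4373657046) (nat_lit 1444) (nat_lit 890575617) (nat_lit 608) (nat_lit 5) (nat_lit 607) (nat_lit 5) (nat_lit 626) (nat_lit 5) (nat_lit 423) (nat_lit 416) (nat_lit 361)) (XT.lf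 (nat_lit 76) (nat_lit 1171843412) (nat_lit 0) (nat_lit 101414062) (nat_lit 1520) (nat_lit 6891549162) (nat_lit 589) (nat_lit 5) (nat_lit 588) (nat_lit 5) (nat_lit 608) (nat_lit 5) (nat_lit 424) (nat_lit 416) (nat_lit 360)))) (XT.nd (nat_lit 156) (nat_lit 1368) (nat_lit 0) (XT.nd (nat_lit 78) (nat_lit 0) (nat_lit 76) (XT.lf (nat_lit 0) (nat_lit 3483679804) (nat_lit 1444) (nat_lit 465377158) (nat_lit 1520) (nat_lit 4308726754) (nat_lit 589) (nat_lit 5) (nat_lit 608) (nat_lit 5) (nat_lit 609) (nat_lit 5) (nat_lit 425) (nat_lit 416) (nat_lit 359)) (XT.lf (nat_lit 0) (nat_lit 5737521201) (nat_lit 1444) (nat_lit 2063714071) (nat_lit 1520) (nat_lit 552777470) (nat_lit 590) (nat_lit 5) (nat_lit 609) (nat_lit 5) (nat_lit 610) (nat_lit 5) (nat_lit 426) (nat_lit 416) (nat_lit 358))) (XT.nd (nat_lit 78) (nat_lit 1444) (nat_lit 0) (XT.lf (nat_lit 76) (nat_lit 4791741176) (nat_lit 0) (nat_lit 3261685380) (nat_lit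 1520) (nat_lit 399817733) (nat_lit 591) (nat_lit 5) (nat_lit 590) (nat_lit 5) (nat_lit 610) (nat_lit 5) (nat_lit 427) (nat_lit 416) (nat_lit 357)) (XT.lf (nat_lit 0) (nat_lit 1838795134) (nat_lit 1520) (nat_lit 5255123813) (nat_lit 1596) (nat_lit 1461690888) (nat_lit 571) (nat_lit 5) (nat_lit 591) (nat_lit 5) (nat_lit 592) (nat_lit 5) (nat_lit 428) (nat_lit 416) (nat_lit 356))))))))
noncomputable def xc61 : XT := (XT.nd (nat_lit 2106) (nat_lit 12312) (nat_lit 0) (XT.nd (nat_lit 1014) (nat_lit 9044) (nat_lit 0) (XT.nd (nat_lit 468) (nat_lit 7448) (nat_lit 0) (XT.nd (nat_lit 234) (nat_lit 3192) (nat_lit 0) (XT.nd (nat_lit 78) (nat_lit 1520) (nat_lit 0) (XT.lf (nat_lit 76) (nat_lit 1812663236) (nat_lit 0) (nat_lit 2321722215) (nat_lit 1596) (nat_lit 4526707293) (nat_lit 572) (nat_lit 5) (nat_lit 571) (nat_lit 5) (nat_lit 592) (nat_lit 5) (nat_lit 429) (nat_lit 416) (nat_lit 355)) (XT.nd (nat_lit 78) (nat_lit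 1596) (nat_lit 0) (XT.lf (nat_lit 76) (nat_lit 334770015) (nat_lit 0) (nat_lit 6157236675) (nat_lit 1596) (nat_lit 2277874335) (nat_lit 573) (nat_lit 5) (nat_lit 572) (nat_lit 5) (nat_lit 593) (nat_lit 5) (nat_lit 430) (nat_lit 416) (nat_lit 354)) (XT.lf (nat_lit 0) (nat_lit 39552457) (nat_lit 1596) (nat_lit 1117845835) (nat_lit 1672) (nat_lit 7724500967) (nat_lit 551) (nat_lit 5) (nat_lit 572) (nat_lit 5) (nat_lit 573) (nat_lit 5) (nat_lit 431) (nat_lit 416) (nat_lit 353)))) (XT.nd (nat_lit 78) (nat_lit 3268) (nat_lit 0) (XT.lf (nat_lit 0) (nat_lit 2405090650) (nat_lit 1596) (nat_lit 2582078244) (nat_lit 76) (nat_lit 4009621124) (nat_lit 552) (nat_lit 5) (nat_lit 573) (nat_lit 5) (nat_lit 553) (nat_lit 5) (nat_lit 432) (nat_lit 416) (nat_lit 352)) (XT.nd (nat_lit 78) (nat_lit 1672) (nat_lit 0) (XT.lf (nat_lit 0) (nat_lit 4834268544) (nat_lit 1672) (nat_lit 4031515222) (nat_lit 76) (nat_lit 249493985)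 (nat_lit 531) (nat_lit 5) (nat_lit 553) (nat_lit 5) (nat_lit 532) (nat_lit 5) (nat_lit 433) (nat_lit 416) (nat_lit 351)) (XT.lf (nat_lit 0) (nat_lit 3746152562) (nat_lit 1672) (nat_lit 3609537975) (nat_lit 1748) (nat_lit 1881245819) (nat_lit 509) (nat_lit 5) (nat_lit 531) (nat_lit 5) (nat_lit 532) (nat_lit 5) (nat_lit 434) (nat_lit 416) (nat_lit 350))))) (XT.nd (nat_lit 234) (nat_lit 3800) (nat_lit 0) (XT.nd (nat_lit 78) (nat_lit 1824) (nat_lit 0) (XT.lf (nat_lit 0) (nat_lit 583168490) (nat_lit 1824) (nat_lit 6943403655) (nat_lit 76) (nat_lit 1835591280) (nat_lit 485) (nat_lit 5) (nat_lit 509) (nat_lit 5) (nat_lit 486) (nat_lit 5) (nat_lit 435) (nat_lit 416) (nat_lit 349)) (XT.nd (nat_lit 78) (nat_lit 0) (nat_lit 0) (XT.lf (nat_lit 0) (nat_lit 1079760590) (nat_lit 1824) (nat_lit 2031330099) (nat_lit 1900) (nat_lit 6379508571) (nat_lit 461) (nat_lit 5) (nat_lit 485) (nat_lit 5) (nat_lit 486) (nat_lit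 5) (nat_lit 436) (nat_lit 416) (nat_lit 348)) (XT.lf (nat_lit 0) (nat_lit 5733450100) (nat_lit 1900) (nat_lit 255247088) (nat_lit 76) (nat_lit 3633822233) (nat_lit 461) (nat_lit 5) (nat_lit 486) (nat_lit 5) (nat_lit 462) (nat_lit 5) (nat_lit 437) (nat_lit 416) (nat_lit 347)))) (XT.nd (nat_lit 156) (nat_lit 1748) (nat_lit 0) (XT.nd (nat_lit 78) (nat_lit 988) (nat_lit 0) (XT.lf (nat_lit 0) (nat_lit 8192180308) (nat_lit 1064) (nat_lit 258274312) (nat_lit 1140) (nat_lit 1307626229) (nat_lit 447) (nat_lit 5) (nat_lit 461) (nat_lit 5) (nat_lit 462) (nat_lit 5) (nat_lit 438) (nat_lit 416) (nat_lit 346)) (XT.lf (nat_lit 0) (nat_lit 1368049430) (nat_lit 988) (nat_lit 2898884718) (nat_lit 76) (nat_lit 5629912276) (nat_lit 434) (nat_lit 5) (nat_lit 447) (nat_lit 5) (nat_lit 435) (nat_lit 5) (nat_lit 439) (nat_lit 416) (nat_lit 345))) (XT.nd (nat_lit 78) (nat_lit 836) (nat_lit 0) (XT.lf (nat_lit 0) (nat_lit 4118865124)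 (nat_lit 988) (nat_lit 4231135683) (nat_lit 76) (nat_lit 1689351494) (nat_lit 422) (nat_lit 5) (nat_lit 435) (nat_lit 5) (nat_lit 423) (nat_lit 5) (nat_lit 440) (nat_lit 416) (nat_lit 344)) (XT.lf (nat_lit 0) (nat_lit 4615289508) (nat_lit 836) (nat_lit 2367548571) (nat_lit 912) (nat_lit 3202685445) (nat_lit 411) (nat_lit 5) (nat_lit 422) (nat_lit 5) (nat_lit 423) (nat_lit 5) (nat_lit 441) (nat_lit 416) (nat_lit 343)))))) (XT.nd (nat_lit 546) (nat_lit 4180) (nat_lit 0) (XT.nd (nat_lit 234) (nat_lit 2280) (nat_lit 0) (XT.nd (nat_lit 78) (nat_lit 1748) (nat_lit 0) (XT.lf (nat_lit 0) (nat_lit 3422357714) (nat_lit 836) (nat_lit 6539537140) (nat_lit 912) (nat_lit 373604479) (nat_lit 400) (nat_lit 5) (nat_lit 411) (nat_lit 5) (nat_lit 412) (nat_lit 5) (nat_lit 442) (nat_lit 416) (nat_lit 342)) (XT.nd (nat_lit 78) (nat_lit 836) (nat_lit 0) (XT.lf (nat_lit 0) (nat_lit 2221245207) (nat_lit 836) (nat_lit 308234623)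 (nat_lit 912) (nat_lit 7959718361) (nat_lit 388) (nat_lit 5) (nat_lit 399) (nat_lit 5) (nat_lit 400) (nat_lit 5) (nat_lit 443) (nat_lit 416) (nat_lit 341)) (XT.lf (nat_lit 0) (nat_lit 1001183788) (nat_lit 836) (nat_lit 4561973680) (nat_lit 912) (nat_lit 5083332158) (nat_lit 377) (nat_lit 5) (nat_lit 388) (nat_lit 5) (nat_lit 389) (nat_lit 5) (nat_lit 444) (nat_lit 416) (nat_lit 340)))) (XT.nd (nat_lit 156) (nat_lit 1444) (nat_lit 0) (XT.nd (nat_lit 78) (nat_lit 836) (nat_lit 0) (XT.lf (nat_lit 0) (nat_lit 8714550426) (nat_lit 912) (nat_lit 207567330) (nat_lit 76) (nat_lit 1885850409) (nat_lit 377) (nat_lit 5) (nat_lit 389) (nat_lit 5) (nat_lit 378) (nat_lit 5) (nat_lit 445) (nat_lit 416) (nat_lit 339)) (XT.lf (nat_lit 0) (nat_lit 1023664414) (nat_lit 836) (nat_lit 1417726626) (nat_lit 76) (nat_lit 8531766214) (nat_lit 366) (nat_lit 5) (nat_lit 377) (nat_lit 5) (nat_lit 367) (nat_lit 5) (nat_lit 446)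 (nat_lit 416) (nat_lit 338))) (XT.nd (nat_lit 78) (nat_lit 684) (nat_lit 0) (XT.lf (nat_lit 0) (nat_lit 4248813989) (nat_lit 836) (nat_lit 2647721643) (nat_lit 76) (nat_lit 4245631980) (nat_lit 356) (nat_lit 5) (nat_lit 367) (nat_lit 5) (nat_lit 357) (nat_lit 5) (nat_lit 447) (nat_lit 416) (nat_lit 337)) (XT.lf (nat_lit 0) (nat_lit 7442783873) (nat_lit 684) (nat_lit 161305458) (nat_lit 760) (nat_lit 3711493731) (nat_lit 347) (nat_lit 5) (nat_lit 356) (nat_lit 5) (nat_lit 357) (nat_lit 5) (nat_lit 448) (nat_lit 416) (nat_lit 336))))) (XT.nd (nat_lit 234) (nat_lit 1976) (nat_lit 0) (XT.nd (nat_lit 78) (nat_lit 1444) (nat_lit 0) (XT.lf (nat_lit 0) (nat_lit 6372061460) (nat_lit 760) (nat_lit 4751306444) (nat_lit 836) (nat_lit 369568316) (nat_lit 337) (nat_lit 5) (nat_lit 347) (nat_lit 5) (nat_lit 348) (nat_lit 5) (nat_lit 449) (nat_lit 416) (nat_lit 335)) (XT.nd (nat_lit 78) (nat_lit 684) (nat_lit 0) (XT.lf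 (nat_lit 0) (nat_lit 3069397737) (nat_lit 760) (nat_lit 6384389826) (nat_lit 76) (nat_lit 2220683845) (nat_lit 327) (nat_lit 5) (nat_lit 337) (nat_lit 5) (nat_lit 328) (nat_lit 5) (nat_lit 450) (nat_lit 416) (nat_lit 334)) (XT.lf (nat_lit 0) (nat_lit 4197702830) (nat_lit 684) (nat_lit 2464146037) (nat_lit 760) (nat_lit 5198450165) (nat_lit 318) (nat_lit 5) (nat_lit 327) (nat_lit 5) (nat_lit 328) (nat_lit 5) (nat_lit 451) (nat_lit 416) (nat_lit 333)))) (XT.nd (nat_lit 156) (nat_lit 608) (nat_lit 0) (XT.nd (nat_lit 78) (nat_lit 760) (nat_lit 0) (XT.lf (nat_lit 0) (nat_lit 3097859153) (nat_lit 608) (nat_lit 7320759481) (nat_lit 684) (nat_lit 1631953872) (nat_lit 310) (nat_lit 5) (nat_lit 318) (nat_lit 5) (nat_lit 319) (nat_lit 5) (nat_lit 452) (nat_lit 416) (nat_lit 332)) (XT.lf (nat_lit 0) (nat_lit 1991226483) (nat_lit 684) (nat_lit 67914173) (nat_lit 760) (nat_lit 10186262688) (nat_lit 300) (nat_lit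 5) (nat_lit 309) (nat_lit 5) (nat_lit 310) (nat_lit 5) (nat_lit 453) (nat_lit 416) (nat_lit 331))) (XT.nd (nat_lit 78) (nat_lit 0) (nat_lit 0) (XT.lf (nat_lit 0) (nat_lit 847649938) (nat_lit 608) (nat_lit 5069354051) (nat_lit 684) (nat_lit 6527296995) (nat_lit 292) (nat_lit 5) (nat_lit 300) (nat_lit 5) (nat_lit 301) (nat_lit 5) (nat_lit 454) (nat_lit 416) (nat_lit 330)) (XT.lf (nat_lit 0) (nat_lit 9940690694) (nat_lit 684) (nat_lit 286499838) (nat_lit 76) (nat_lit 2420974997) (nat_lit 292) (nat_lit 5) (nat_lit 301) (nat_lit 5) (nat_lit 293) (nat_lit 5) (nat_lit 455) (nat_lit 416) (nat_lit 329))))))) (XT.nd (nat_lit 1092) (nat_lit 5168) (nat_lit 0) (XT.nd (nat_lit 546) (nat_lit 2964) (nat_lit 0) (XT.nd (nat_lit 234) (nat_lit 2280) (nat_lit 0) (XT.nd (nat_lit 78) (nat_lit 1216) (nat_lit 0) (XT.lf (nat_lit 0) (nat_lit 1284690465) (nat_lit 684) (nat_lit 1429968312) (nat_lit 76) (nat_lit 10141852750) (nat_lit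 283) (nat_lit 5) (nat_lit 292) (nat_lit 5) (nat_lit 284) (nat_lit 5) (nat_lit 456) (nat_lit 416) (nat_lit 328)) (XT.nd (nat_lit 78) (nat_lit 608) (nat_lit 0) (XT.lf (nat_lit 0) (nat_lit 5429026622) (nat_lit 684) (nat_lit 2603361015) (nat_lit 76) (nat_lit 5036980139) (nat_lit 275) (nat_lit 5) (nat_lit 284) (nat_lit 5) (nat_lit 276) (nat_lit 5) (nat_lit 457) (nat_lit 416) (nat_lit 327)) (XT.lf (nat_lit 0) (nat_lit 9513050709) (nat_lit 608) (nat_lit 240690945) (nat_lit 684) (nat_lit 3533748628) (nat_lit 267) (nat_lit 5) (nat_lit 275) (nat_lit 5) (nat_lit 276) (nat_lit 5) (nat_lit 458) (nat_lit 416) (nat_lit 326)))) (XT.nd (nat_lit 156) (nat_lit 1140) (nat_lit 0) (XT.nd (nat_lit 78) (nat_lit 532) (nat_lit 0) (XT.lf (nat_lit 0) (nat_lit 778239549) (nat_lit 608) (nat_lit 4980809131) (nat_lit 76) (nat_lit 7751192343) (nat_lit 259) (nat_lit 5) (nat_lit 267) (nat_lit 5) (nat_lit 260) (nat_lit 5) (nat_lit 459)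 (nat_lit 416) (nat_lit 325)) (XT.lf (nat_lit 0) (nat_lit 5230802982) (nat_lit 608) (nat_lit 6208117033) (nat_lit 76) (nat_lit 2299104030) (nat_lit 252) (nat_lit 5) (nat_lit 260) (nat_lit 5) (nat_lit 253) (nat_lit 5) (nat_lit 460) (nat_lit 416) (nat_lit 324))) (XT.nd (nat_lit 78) (nat_lit 608) (nat_lit 0) (XT.lf (nat_lit 0) (nat_lit 6515873073) (nat_lit 532) (nat_lit 3383947827) (nat_lit 608) (nat_lit 4071163495) (nat_lit 245) (nat_lit 5) (nat_lit 252) (nat_lit 5) (nat_lit 253) (nat_lit 5) (nat_lit 461) (nat_lit 416) (nat_lit 323)) (XT.lf (nat_lit 0) (nat_lit 570541267) (nat_lit 608) (nat_lit 8719636820) (nat_lit 76) (nat_lit 4919110198) (nat_lit 237) (nat_lit 5) (nat_lit 245) (nat_lit 5) (nat_lit 238) (nat_lit 5) (nat_lit 462) (nat_lit 416) (nat_lit 322))))) (XT.nd (nat_lit 234) (nat_lit 1444) (nat_lit 0) (XT.nd (nat_lit 78) (nat_lit 1064) (nat_lit 0) (XT.lf (nat_lit 0) (nat_lit 4436490268) (nat_lit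 456) (nat_lit 931399710) (nat_lit 532) (nat_lit 9084880308) (nat_lit 231) (nat_lit 5) (nat_lit 237) (nat_lit 5) (nat_lit 238) (nat_lit 5) (nat_lit 463) (nat_lit 416) (nat_lit 321)) (XT.nd (nat_lit 78) (nat_lit 532) (nat_lit 0) (XT.lf (nat_lit 0) (nat_lit 3355630402) (nat_lit 532) (nat_lit 7054299543) (nat_lit 608) (nat_lit 4291612633) (nat_lit 224) (nat_lit 5) (nat_lit 231) (nat_lit 5) (nat_lit 232) (nat_lit 5) (nat_lit 464) (nat_lit 416) (nat_lit 320)) (XT.lf (nat_lit 0) (nat_lit 706775653) (nat_lit 532) (nat_lit 12680458740) (nat_lit 76) (nat_lit 1569065260) (nat_lit 217) (nat_lit 5) (nat_lit 224) (nat_lit 5) (nat_lit 218) (nat_lit 5) (nat_lit 465) (nat_lit 416) (nat_lit 319)))) (XT.nd (nat_lit 156) (nat_lit 988) (nat_lit 0) (XT.nd (nat_lit 78) (nat_lit 0) (nat_lit 0) (XT.lf (nat_lit 0) (nat_lit 1141015125) (nat_lit 456) (nat_lit 4758695486) (nat_lit 532) (nat_lit 9316364606) (nat_lit 211) (nat_lit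 5) (nat_lit 217) (nat_lit 5) (nat_lit 218) (nat_lit 5) (nat_lit 466) (nat_lit 416) (nat_lit 318)) (XT.lf (nat_lit 0) (nat_lit 11332836148) (nat_lit 532) (nat_lit 366101) (nat_lit 76) (nat_lit 4148754866) (nat_lit 211) (nat_lit 5) (nat_lit 218) (nat_lit 5) (nat_lit 212) (nat_lit 5) (nat_lit 467) (nat_lit 416) (nat_lit 317))) (XT.nd (nat_lit 78) (nat_lit 456) (nat_lit 0) (XT.lf (nat_lit 0) (nat_lit 1257068019) (nat_lit 532) (nat_lit 1146232382) (nat_lit 76) (nat_lit 13350377517) (nat_lit 204) (nat_lit 5) (nat_lit 211) (nat_lit 5) (nat_lit 205) (nat_lit 5) (nat_lit 468) (nat_lit 416) (nat_lit 316)) (XT.lf (nat_lit 0) (nat_lit 6875677785) (nat_lit 532) (nat_lit 2344541500) (nat_lit 76) (nat_lit 6810651470) (nat_lit 198) (nat_lit 5) (nat_lit 205) (nat_lit 5) (nat_lit 199) (nat_lit 5) (nat_lit 469) (nat_lit 416) (nat_lit 315)))))) (XT.nd (nat_lit 546) (nat_lit 2280) (nat_lit 0) (XT.nd (nat_lit 234) (nat_lit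 1596) (nat_lit 0) (XT.nd (nat_lit 78) (nat_lit 912) (nat_lit 0) (XT.lf (nat_lit 0) (nat_lit 12742672580) (nat_lit 456) (nat_lit 3540319227) (nat_lit 76) (nat_lit 31792041) (nat_lit 193) (nat_lit 5) (nat_lit 199) (nat_lit 5) (nat_lit 194) (nat_lit 5) (nat_lit 470) (nat_lit 416) (nat_lit 314)) (XT.nd (nat_lit 78) (nat_lit 380) (nat_lit 0) (XT.lf (nat_lit 0) (nat_lit 2278408220) (nat_lit 532) (nat_lit 4793959434) (nat_lit 76) (nat_lit 9531994426) (nat_lit 186) (nat_lit 5) (nat_lit 193) (nat_lit 5) (nat_lit 187) (nat_lit 5) (nat_lit 471) (nat_lit 416) (nat_lit 313)) (XT.lf (nat_lit 0) (nat_lit 8340726676) (nat_lit 456) (nat_lit 6070578055) (nat_lit 76) (nat_lit 2489155336) (nat_lit 181) (nat_lit 5) (nat_lit 187) (nat_lit 5) (nat_lit 182) (nat_lit 5) (nat_lit 472) (nat_lit 416) (nat_lit 312)))) (XT.nd (nat_lit 156) (nat_lit 760) (nat_lit 0) (XT.nd (nat_lit 78) (nat_lit 456) (nat_lit 0) (XT.lf (nat_lit 0)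 (nat_lit 9825243628) (nat_lit 380) (nat_lit 4877480647) (nat_lit 456) (nat_lit 2500361426) (nat_lit 176) (nat_lit 5) (nat_lit 181) (nat_lit 5) (nat_lit 182) (nat_lit 5) (nat_lit 473) (nat_lit 416) (nat_lit 311)) (XT.lf (nat_lit 0) (nat_lit 3797571306) (nat_lit 456) (nat_lit 8726565104) (nat_lit 76) (nat_lit 4988051980) (nat_lit 170) (nat_lit 5) (nat_lit 176) (nat_lit 5) (nat_lit 171) (nat_lit 5) (nat_lit 474) (nat_lit 416) (nat_lit 310))) (XT.nd (nat_lit 78) (nat_lit 380) (nat_lit 0) (XT.lf (nat_lit 0) (nat_lit 7718112608) (nat_lit 380) (nat_lit 2640375215) (nat_lit 456) (nat_lit 7469586303) (nat_lit 165) (nat_lit 5) (nat_lit 170) (nat_lit 5) (nat_lit 171) (nat_lit 5) (nat_lit 475) (nat_lit 416) (nat_lit 309)) (XT.lf (nat_lit 0) (nat_lit 6622196175) (nat_lit 380) (nat_lit 10620677742) (nat_lit 456) (nat_lit 908030483) (nat_lit 160) (nat_lit 5) (nat_lit 165) (nat_lit 5) (nat_lit 166) (nat_lit 5) (nat_lit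 476) (nat_lit 416) (nat_lit 308))))) (XT.nd (nat_lit 234) (nat_lit 1064) (nat_lit 0) (XT.nd (nat_lit 78) (nat_lit 760) (nat_lit 0) (XT.lf (nat_lit 0) (nat_lit 5490228974) (nat_lit 380) (nat_lit 381161137) (nat_lit 456) (nat_lit 12609315613) (nat_lit 154) (nat_lit 5) (nat_lit 159) (nat_lit 5) (nat_lit 160) (nat_lit 5) (nat_lit 477) (nat_lit 416) (nat_lit 307)) (XT.nd (nat_lit 78) (nat_lit 456) (nat_lit 0) (XT.lf (nat_lit 0) (nat_lit 4304457158) (nat_lit 304) (nat_lit 8685920042) (nat_lit 380) (nat_lit 5826934183) (nat_lit 150) (nat_lit 5) (nat_lit 154) (nat_lit 5) (nat_lit 155) (nat_lit 5) (nat_lit 478) (nat_lit 416) (nat_lit 306)) (XT.lf (nat_lit 0) (nat_lit 1243644537) (nat_lit 456) (nat_lit 16048077408) (nat_lit 76) (nat_lit 1870144983) (nat_lit 144) (nat_lit 5) (nat_lit 150) (nat_lit 5) (nat_lit 145) (nat_lit 5) (nat_lit 479) (nat_lit 416) (nat_lit 305)))) (XT.nd (nat_lit 156) (nat_lit 380) (nat_lit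 0) (XT.nd (nat_lit 78) (nat_lit 380) (nat_lit 0) (XT.lf (nat_lit 0) (nat_lit 1841974881) (nat_lit 304) (nat_lit 6751219691) (nat_lit 380) (nat_lit 10919874553) (nat_lit 140) (nat_lit 5) (nat_lit 144) (nat_lit 5) (nat_lit 145) (nat_lit 5) (nat_lit 480) (nat_lit 416) (nat_lit 304)) (XT.lf (nat_lit 0) (nat_lit 558378794) (nat_lit 380) (nat_lit 15721480535) (nat_lit 456) (nat_lit 3592616163) (nat_lit 135) (nat_lit 5) (nat_lit 140) (nat_lit 5) (nat_lit 141) (nat_lit 5) (nat_lit 481) (nat_lit 416) (nat_lit 303))) (XT.nd (nat_lit 78) (nat_lit 304) (nat_lit 0) (XT.lf (nat_lit 0) (nat_lit 4045447132) (nat_lit 456) (nat_lit 772296763) (nat_lit 76) (nat_lit 15421550281) (nat_lit 134) (nat_lit 5) (nat_lit 140) (nat_lit 5) (nat_lit 135) (nat_lit 5) (nat_lit 482) (nat_lit 416) (nat_lit 302)) (XT.lf (nat_lit 0) (nat_lit 12004623557) (nat_lit 380) (nat_lit 2148660170) (nat_lit 76) (nat_lit 6460543753) (nat_lit 130)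 (nat_lit 5) (nat_lit 135) (nat_lit 5) (nat_lit 131) (nat_lit 5) (nat_lit 483) (nat_lit 416) (nat_lit 301))))))))
noncomputable def xc62 : XT := (XT.nd (nat_lit 58110) (nat_lit 0) (nat_lit 16644) (XT.nd (nat_lit 1014) (nat_lit 532) (nat_lit 0) (XT.nd (nat_lit 468) (nat_lit 1976) (nat_lit 0) (XT.nd (nat_lit 234) (nat_lit 836) (nat_lit 0) (XT.nd (nat_lit 78) (nat_lit 684) (nat_lit 0) (XT.lf (nat_lit 0) (nat_lit 17451746899) (nat_lit 304) (nat_lit 2879780162) (nat_lit 380) (nat_lit 665491285) (nat_lit 126) (nat_lit 5) (nat_lit 130) (nat_lit 5) (nat_lit 131) (nat_lit 5) (nat_lit 484) (nat_lit 416) (nat_lit 300)) (XT.nd (nat_lit 78) (nat_lit 304) (nat_lit 0) (XT.lf (nat_lit 0) (nat_lit 7575298899) (nat_lit 380) (nat_lit 5037419195) (nat_lit 76) (nat_lit 8774864434) (nat_lit 121) (nat_lit 5) (nat_lit 126) (nat_lit 5) (nat_lit 122) (nat_lit 5) (nat_lit 485) (nat_lit 416) (nat_lit 299)) (XT.lf (nat_lit 0) (nat_lit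 15242460191) (nat_lit 304) (nat_lit 933004263) (nat_lit 380) (nat_lit 5611887896) (nat_lit 117) (nat_lit 5) (nat_lit 121) (nat_lit 5) (nat_lit 122) (nat_lit 5) (nat_lit 486) (nat_lit 416) (nat_lit 298)))) (XT.nd (nat_lit 78) (nat_lit 532) (nat_lit 0) (XT.lf (nat_lit 0) (nat_lit 2975375673) (nat_lit 304) (nat_lit 8136472001) (nat_lit 76) (nat_lit 11083339425) (nat_lit 113) (nat_lit 5) (nat_lit 117) (nat_lit 5) (nat_lit 114) (nat_lit 5) (nat_lit 487) (nat_lit 416) (nat_lit 297)) (XT.nd (nat_lit 78) (nat_lit 228) (nat_lit 0) (XT.lf (nat_lit 0) (nat_lit 11864435067) (nat_lit 380) (nat_lit 9773242722) (nat_lit 76) (nat_lit 974429294) (nat_lit 109) (nat_lit 5) (nat_lit 114) (nat_lit 5) (nat_lit 110) (nat_lit 5) (nat_lit 488) (nat_lit 416) (nat_lit 296)) (XT.lf (nat_lit 0) (nat_lit 11556890029) (nat_lit 228) (nat_lit 9647705834) (nat_lit 304) (nat_lit 1833250709) (nat_lit 106) (nat_lit 5) (nat_lit 109) (nat_lit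 5) (nat_lit 110) (nat_lit 5) (nat_lit 489) (nat_lit 416) (nat_lit 295))))) (XT.nd (nat_lit 234) (nat_lit 988) (nat_lit 0) (XT.nd (nat_lit 78) (nat_lit 608) (nat_lit 0) (XT.lf (nat_lit 0) (nat_lit 7383835972) (nat_lit 380) (nat_lit 13254124495) (nat_lit 76) (nat_lit 2834811792) (nat_lit 101) (nat_lit 5) (nat_lit 106) (nat_lit 5) (nat_lit 102) (nat_lit 5) (nat_lit 490) (nat_lit 416) (nat_lit 294)) (XT.nd (nat_lit 78) (nat_lit 380) (nat_lit 0) (XT.lf (nat_lit 0) (nat_lit 8811604032) (nat_lit 228) (nat_lit 8221215899) (nat_lit 304) (nat_lit 6884078062) (nat_lit 98) (nat_lit 5) (nat_lit 101) (nat_lit 5) (nat_lit 102) (nat_lit 5) (nat_lit 491) (nat_lit 416) (nat_lit 293)) (XT.lf (nat_lit 0) (nat_lit 2712219403) (nat_lit 380) (nat_lit 17008119161) (nat_lit 76) (nat_lit 4650685102) (nat_lit 93) (nat_lit 5) (nat_lit 98) (nat_lit 5) (nat_lit 94) (nat_lit 5) (nat_lit 492) (nat_lit 416) (nat_lit 292)))) (XT.nd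 (nat_lit 156) (nat_lit 532) (nat_lit 0) (XT.nd (nat_lit 78) (nat_lit 228) (nat_lit 0) (XT.lf (nat_lit 0) (nat_lit 5816440148) (nat_lit 228) (nat_lit 6863358905) (nat_lit 304) (nat_lit 12154525988) (nat_lit 90) (nat_lit 5) (nat_lit 93) (nat_lit 5) (nat_lit 94) (nat_lit 5) (nat_lit 493) (nat_lit 416) (nat_lit 291)) (XT.lf (nat_lit 0) (nat_lit 4229527028) (nat_lit 228) (nat_lit 18882645552) (nat_lit 304) (nat_lit 2196037961) (nat_lit 87) (nat_lit 5) (nat_lit 90) (nat_lit 5) (nat_lit 91) (nat_lit 5) (nat_lit 494) (nat_lit 416) (nat_lit 290))) (XT.nd (nat_lit 78) (nat_lit 228) (nat_lit 0) (XT.lf (nat_lit 0) (nat_lit 2542397083) (nat_lit 228) (nat_lit 5586305497) (nat_lit 304) (nat_lit 17663099204) (nat_lit 83) (nat_lit 5) (nat_lit 86) (nat_lit 5) (nat_lit 87) (nat_lit 5) (nat_lit 495) (nat_lit 416) (nat_lit 289)) (XT.lf (nat_lit 0) (nat_lit 783030707) (nat_lit 228) (nat_lit 18133347727) (nat_lit 304) (nat_lit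 7369571823) (nat_lit 80) (nat_lit 5) (nat_lit 83) (nat_lit 5) (nat_lit 84) (nat_lit 5) (nat_lit 496) (nat_lit 416) (nat_lit 288)))))) (XT.nd (nat_lit 56550) (nat_lit 0) (nat_lit 37696) (XT.nd (nat_lit 56238) (nat_lit 0) (nat_lit 40356) (XT.nd (nat_lit 78) (nat_lit 456) (nat_lit 0) (XT.lf (nat_lit 0) (nat_lit 3367867987) (nat_lit 304) (nat_lit 1028752518) (nat_lit 76) (nat_lit 22394333160) (nat_lit 79) (nat_lit 5) (nat_lit 83) (nat_lit 5) (nat_lit 80) (nat_lit 5) (nat_lit 497) (nat_lit 416) (nat_lit 287)) (XT.nd (nat_lit 78) (nat_lit 228) (nat_lit 0) (XT.lf (nat_lit 0) (nat_lit 14533126594) (nat_lit 304) (nat_lit 2952627076) (nat_lit 76) (nat_lit 9820263217) (nat_lit 76) (nat_lit 5) (nat_lit 80) (nat_lit 5) (nat_lit 77) (nat_lit 5) (nat_lit 498) (nat_lit 416) (nat_lit 286)) (XT.lf (nat_lit 0) (nat_lit 22914679269) (nat_lit 228) (nat_lit 3286191125) (nat_lit 304) (nat_lit 1632311406) (nat_lit 73) (nat_lit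 5) (nat_lit 76) (nat_lit 5) (nat_lit 77) (nat_lit 5) (nat_lit 499) (nat_lit 416) (nat_lit 285)))) (XT.nd (nat_lit 156) (nat_lit 1368) (nat_lit 0) (XT.nd (nat_lit 78) (nat_lit 0) (nat_lit 0) (XT.lf (nat_lit 0) (nat_lit 967338836) (nat_lit 0) (nat_lit 967338836) (nat_lit 1292) (nat_lit 1898977319) (nat_lit 622) (nat_lit 5) (nat_lit 622) (nat_lit 3) (nat_lit 639) (nat_lit 3) (nat_lit 417) (nat_lit 417) (nat_lit 366)) (XT.lf (nat_lit 0) (nat_lit 5975065251) (nat_lit 1292) (nat_lit 27522051) (nat_lit 1368) (nat_lit 1738627339) (nat_lit 622) (nat_lit 5) (nat_lit 639) (nat_lit 3) (nat_lit 640) (nat_lit 5) (nat_lit 418) (nat_lit 417) (nat_lit 365))) (XT.nd (nat_lit 78) (nat_lit 0) (nat_lit 76) (XT.lf (nat_lit 0) (nat_lit 293981645) (nat_lit 1368) (nat_lit 1948621413) (nat_lit 1444) (nat_lit 5575263663) (nat_lit 604) (nat_lit 5) (nat_lit 622) (nat_lit 5) (nat_lit 623) (nat_lit 5) (nat_lit 419) (nat_lit 417)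 (nat_lit 364)) (XT.lf (nat_lit 0) (nat_lit 2351897903) (nat_lit 1368) (nat_lit 3862906226) (nat_lit 1444) (nat_lit 1682586856) (nat_lit 605) (nat_lit 5) (nat_lit 623) (nat_lit 5) (nat_lit 624) (nat_lit 5) (nat_lit 420) (nat_lit 417) (nat_lit 363))))) (XT.nd (nat_lit 234) (nat_lit 1368) (nat_lit 0) (XT.nd (nat_lit 78) (nat_lit 1368) (nat_lit 0) (XT.lf (nat_lit 76) (nat_lit 2215681639) (nat_lit 0) (nat_lit 2223077419) (nat_lit 1444) (nat_lit 3541203236) (nat_lit 606) (nat_lit 5) (nat_lit 605) (nat_lit 5) (nat_lit 624) (nat_lit 5) (nat_lit 421) (nat_lit 417) (nat_lit 362)) (XT.nd (nat_lit 78) (nat_lit 1444) (nat_lit 0) (XT.lf (nat_lit 76) (nat_lit 414017723) (nat_lit 0) (nat_lit 6142165417) (nat_lit 1444) (nat_lit 1509473769) (nat_lit 607) (nat_lit 5) (nat_lit 606) (nat_lit 5) (nat_lit 625) (nat_lit 5) (nat_lit 422) (nat_lit 417) (nat_lit 361)) (XT.lf (nat_lit 0) (nat_lit 557779961) (nat_lit 1444) (nat_lit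 1359727423) (nat_lit 1520) (nat_lit 6236699875) (nat_lit 587) (nat_lit 5) (nat_lit 606) (nat_lit 5) (nat_lit 607) (nat_lit 5) (nat_lit 423) (nat_lit 417) (nat_lit 360)))) (XT.nd (nat_lit 156) (nat_lit 1444) (nat_lit 0) (XT.nd (nat_lit 78) (nat_lit 0) (nat_lit 0) (XT.lf (nat_lit 0) (nat_lit 2646397964) (nat_lit 1444) (nat_lit 3126968865) (nat_lit 1520) (nat_lit 2472255555) (nat_lit 588) (nat_lit 5) (nat_lit 607) (nat_lit 5) (nat_lit 608) (nat_lit 5) (nat_lit 424) (nat_lit 417) (nat_lit 359)) (XT.lf (nat_lit 76) (nat_lit 3459093700) (nat_lit 0) (nat_lit 1315197564) (nat_lit 1520) (nat_lit 3565961126) (nat_lit 589) (nat_lit 5) (nat_lit 588) (nat_lit 5) (nat_lit 608) (nat_lit 5) (nat_lit 425) (nat_lit 417) (nat_lit 358))) (XT.nd (nat_lit 78) (nat_lit 1520) (nat_lit 0) (XT.lf (nat_lit 76) (nat_lit 1805953105) (nat_lit 0) (nat_lit 5148307325) (nat_lit 1520) (nat_lit 1483700708) (nat_lit 590) (nat_lit 5)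 (nat_lit 589) (nat_lit 5) (nat_lit 609) (nat_lit 5) (nat_lit 426) (nat_lit 417) (nat_lit 357)) (XT.lf (nat_lit 76) (nat_lit 166729069) (nat_lit 0) (nat_lit 463920545) (nat_lit 1596) (nat_lit 7908304269) (nat_lit 570) (nat_lit 5) (nat_lit 569) (nat_lit 5) (nat_lit 590) (nat_lit 5) (nat_lit 427) (nat_lit 417) (nat_lit 356))))))) (XT.nd (nat_lit 1092) (nat_lit 9880) (nat_lit 0) (XT.nd (nat_lit 546) (nat_lit 8284) (nat_lit 0) (XT.nd (nat_lit 234) (nat_lit 2964) (nat_lit 0) (XT.nd (nat_lit 78) (nat_lit 0) (nat_lit 76) (XT.lf (nat_lit 0) (nat_lit 2798788322) (nat_lit 1520) (nat_lit 1465777588) (nat_lit 1596) (nat_lit 4378008316) (nat_lit 570) (nat_lit 5) (nat_lit 590) (nat_lit 5) (nat_lit 591) (nat_lit 5) (nat_lit 428) (nat_lit 417) (nat_lit 355)) (XT.nd (nat_lit 78) (nat_lit 0) (nat_lit 0) (XT.lf (nat_lit 0) (nat_lit 5014922309) (nat_lit 1520) (nat_lit 3078910499) (nat_lit 1596) (nat_lit 655815498) (nat_lit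 571) (nat_lit 5) (nat_lit 591) (nat_lit 5) (nat_lit 592) (nat_lit 5) (nat_lit 429) (nat_lit 417) (nat_lit 354)) (XT.lf (nat_lit 76) (nat_lit 4163045942) (nat_lit 0) (nat_lit 3140339722) (nat_lit 1596) (nat_lit 1556436064) (nat_lit 572) (nat_lit 5) (nat_lit 571) (nat_lit 5) (nat_lit 592) (nat_lit 5) (nat_lit 430) (nat_lit 417) (nat_lit 353)))) (XT.nd (nat_lit 156) (nat_lit 1520) (nat_lit 0) (XT.nd (nat_lit 78) (nat_lit 0) (nat_lit 0) (XT.lf (nat_lit 0) (nat_lit 671048702) (nat_lit 1596) (nat_lit 6309398506) (nat_lit 1672) (nat_lit 1992910566) (nat_lit 551) (nat_lit 5) (nat_lit 572) (nat_lit 5) (nat_lit 573) (nat_lit 5) (nat_lit 431) (nat_lit 417) (nat_lit 352)) (XT.lf (nat_lit 76) (nat_lit 1158504709) (nat_lit 0) (nat_lit 1789259301) (nat_lit 1672) (nat_lit 6142262814) (nat_lit 552) (nat_lit 5) (nat_lit 551) (nat_lit 5) (nat_lit 573) (nat_lit 5) (nat_lit 432) (nat_lit 417) (nat_lit 351))) (XT.nd (nat_lit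 78) (nat_lit 1596) (nat_lit 0) (XT.lf (nat_lit 0) (nat_lit 5303236572) (nat_lit 1596) (nat_lit 341584341) (nat_lit 76) (nat_lit 3565169532) (nat_lit 552) (nat_lit 5) (nat_lit 573) (nat_lit 5) (nat_lit 553) (nat_lit 5) (nat_lit 433) (nat_lit 417) (nat_lit 350)) (XT.lf (nat_lit 0) (nat_lit 7518350033) (nat_lit 1596) (nat_lit 217744184) (nat_lit 1672) (nat_lit 1597327848) (nat_lit 531) (nat_lit 5) (nat_lit 552) (nat_lit 5) (nat_lit 553) (nat_lit 5) (nat_lit 434) (nat_lit 417) (nat_lit 349))))) (XT.nd (nat_lit 234) (nat_lit 2964) (nat_lit 0) (XT.nd (nat_lit 78) (nat_lit 3572) (nat_lit 0) (XT.lf (nat_lit 0) (nat_lit 795784181) (nat_lit 1748) (nat_lit 3305910379) (nat_lit 76) (nat_lit 5358270923) (nat_lit 508) (nat_lit 5) (nat_lit 531) (nat_lit 5) (nat_lit 509) (nat_lit 5) (nat_lit 435) (nat_lit 417) (nat_lit 348)) (XT.nd (nat_lit 78) (nat_lit 1824) (nat_lit 0) (XT.lf (nat_lit 0) (nat_lit 3242529773) (nat_lit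 1824) (nat_lit 4797318188) (nat_lit 76) (nat_lit 1550178487) (nat_lit 485) (nat_lit 5) (nat_lit 509) (nat_lit 5) (nat_lit 486) (nat_lit 5) (nat_lit 436) (nat_lit 417) (nat_lit 347)) (XT.lf (nat_lit 0) (nat_lit 3428343843) (nat_lit 1824) (nat_lit 2356036480) (nat_lit 1900) (nat_lit 3939178014) (nat_lit 461) (nat_lit 5) (nat_lit 485) (nat_lit 5) (nat_lit 486) (nat_lit 5) (nat_lit 437) (nat_lit 417) (nat_lit 346)))) (XT.nd (nat_lit 156) (nat_lit 912) (nat_lit 0) (XT.nd (nat_lit 78) (nat_lit 988) (nat_lit 0) (XT.lf (nat_lit 0) (nat_lit 2064818569) (nat_lit 1064) (nat_lit 6357191075) (nat_lit 1140) (nat_lit 1438699129) (nat_lit 447) (nat_lit 5) (nat_lit 461) (nat_lit 5) (nat_lit 462) (nat_lit 5) (nat_lit 438) (nat_lit 417) (nat_lit 345)) (XT.lf (nat_lit 0) (nat_lit 701238118) (nat_lit 912) (nat_lit 435401819) (nat_lit 988) (nat_lit 8864893978) (nat_lit 434) (nat_lit 5) (nat_lit 446) (nat_lit 5) (nat_lit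 447) (nat_lit 5) (nat_lit 439) (nat_lit 417) (nat_lit 344))) (XT.nd (nat_lit 78) (nat_lit 912) (nat_lit 0) (XT.lf (nat_lit 0) (nat_lit 3812403820) (nat_lit 988) (nat_lit 677757740) (nat_lit 76) (nat_lit 5655380660) (nat_lit 434) (nat_lit 5) (nat_lit 447) (nat_lit 5) (nat_lit 435) (nat_lit 5) (nat_lit 440) (nat_lit 417) (nat_lit 343)) (XT.lf (nat_lit 0) (nat_lit 6589984541) (nat_lit 988) (nat_lit 2039819438) (nat_lit 76) (nat_lit 1663638659) (nat_lit 422) (nat_lit 5) (nat_lit 435) (nat_lit 5) (nat_lit 423) (nat_lit 5) (nat_lit 441) (nat_lit 417) (nat_lit 342)))))) (XT.nd (nat_lit 546) (nat_lit 4864) (nat_lit 0) (XT.nd (nat_lit 234) (nat_lit 2432) (nat_lit 0) (XT.nd (nat_lit 78) (nat_lit 1748) (nat_lit 0) (XT.lf (nat_lit 0) (nat_lit 7034387652) (nat_lit 836) (nat_lit 2451921113) (nat_lit 912) (nat_lit 958765644) (nat_lit 411) (nat_lit 5) (nat_lit 422) (nat_lit 5) (nat_lit 423) (nat_lit 5) (nat_lit 442)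 (nat_lit 417) (nat_lit 341)) (XT.nd (nat_lit 78) (nat_lit 836) (nat_lit 0) (XT.lf (nat_lit 0) (nat_lit 1877159024) (nat_lit 912) (nat_lit 4798923140) (nat_lit 76) (nat_lit 3924265019) (nat_lit 399) (nat_lit 5) (nat_lit 411) (nat_lit 5) (nat_lit 400) (nat_lit 5) (nat_lit 443) (nat_lit 417) (nat_lit 340)) (XT.lf (nat_lit 0) (nat_lit 4569371958) (nat_lit 836) (nat_lit 241994288) (nat_lit 912) (nat_lit 5948262993) (nat_lit 388) (nat_lit 5) (nat_lit 399) (nat_lit 5) (nat_lit 400) (nat_lit 5) (nat_lit 444) (nat_lit 417) (nat_lit 339)))) (XT.nd (nat_lit 156) (nat_lit 836) (nat_lit 0) (XT.nd (nat_lit 78) (nat_lit 760) (nat_lit 0) (XT.lf (nat_lit 0) (nat_lit 3318739156) (nat_lit 836) (nat_lit 4568390508) (nat_lit 912) (nat_lit 3035491883) (nat_lit 377) (nat_lit 5) (nat_lit 388) (nat_lit 5) (nat_lit 389) (nat_lit 5) (nat_lit 445) (nat_lit 417) (nat_lit 338)) (XT.lf (nat_lit 0) (nat_lit 2075499700) (nat_lit 760)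 (nat_lit 9009034981) (nat_lit 836) (nat_lit 5383885) (nat_lit 367) (nat_lit 5) (nat_lit 377) (nat_lit 5) (nat_lit 378) (nat_lit 5) (nat_lit 446) (nat_lit 417) (nat_lit 337))) (XT.nd (nat_lit 78) (nat_lit 0) (nat_lit 0) (XT.lf (nat_lit 0) (nat_lit 803166578) (nat_lit 760) (nat_lit 2318600747) (nat_lit 836) (nat_lit 8139124765) (nat_lit 356) (nat_lit 5) (nat_lit 366) (nat_lit 5) (nat_lit 367) (nat_lit 5) (nat_lit 447) (nat_lit 417) (nat_lit 336)) (XT.lf (nat_lit 0) (nat_lit 6394080676) (nat_lit 836) (nat_lit 471671061) (nat_lit 76) (nat_lit 4570216100) (nat_lit 356) (nat_lit 5) (nat_lit 367) (nat_lit 5) (nat_lit 357) (nat_lit 5) (nat_lit 448) (nat_lit 417) (nat_lit 335))))) (XT.nd (nat_lit 234) (nat_lit 2660) (nat_lit 0) (XT.nd (nat_lit 78) (nat_lit 1520) (nat_lit 0) (XT.lf (nat_lit 0) (nat_lit 9806164758) (nat_lit 760) (nat_lit 1731034022) (nat_lit 76) (nat_lit 78267129) (nat_lit 347) (nat_lit 5) (nat_lit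 357) (nat_lit 5) (nat_lit 348) (nat_lit 5) (nat_lit 449) (nat_lit 417) (nat_lit 334)) (XT.nd (nat_lit 78) (nat_lit 684) (nat_lit 0) (XT.lf (nat_lit 0) (nat_lit 1569154001) (nat_lit 836) (nat_lit 3025828055) (nat_lit 76) (nat_lit 7203794835) (nat_lit 336) (nat_lit 5) (nat_lit 347) (nat_lit 5) (nat_lit 337) (nat_lit 5) (nat_lit 450) (nat_lit 417) (nat_lit 333)) (XT.lf (nat_lit 0) (nat_lit 5065993551) (nat_lit 760) (nat_lit 4330008839) (nat_lit 76) (nat_lit 2590515304) (nat_lit 327) (nat_lit 5) (nat_lit 337) (nat_lit 5) (nat_lit 328) (nat_lit 5) (nat_lit 451) (nat_lit 417) (nat_lit 332)))) (XT.nd (nat_lit 156) (nat_lit 1292) (nat_lit 0) (XT.nd (nat_lit 78) (nat_lit 684) (nat_lit 0) (XT.lf (nat_lit 0) (nat_lit 6533109331) (nat_lit 684) (nat_lit 2191982986) (nat_lit 760) (nat_lit 3453653191) (nat_lit 318) (nat_lit 5) (nat_lit 327) (nat_lit 5) (nat_lit 328) (nat_lit 5) (nat_lit 452) (nat_lit 417) (nat_lit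 331)) (XT.lf (nat_lit 0) (nat_lit 178947102) (nat_lit 684) (nat_lit 6977692338) (nat_lit 76) (nat_lit 5218822058) (nat_lit 309) (nat_lit 5) (nat_lit 318) (nat_lit 5) (nat_lit 310) (nat_lit 5) (nat_lit 453) (nat_lit 417) (nat_lit 330))) (XT.nd (nat_lit 78) (nat_lit 608) (nat_lit 0) (XT.lf (nat_lit 0) (nat_lit 3921590732) (nat_lit 760) (nat_lit 8331406984) (nat_lit 76) (nat_lit 323666666) (nat_lit 300) (nat_lit 5) (nat_lit 310) (nat_lit 5) (nat_lit 301) (nat_lit 5) (nat_lit 454) (nat_lit 417) (nat_lit 329)) (XT.lf (nat_lit 0) (nat_lit 3066842304) (nat_lit 608) (nat_lit 4790585097) (nat_lit 684) (nat_lit 4924859349) (nat_lit 292) (nat_lit 5) (nat_lit 300) (nat_lit 5) (nat_lit 301) (nat_lit 5) (nat_lit 455) (nat_lit 417) (nat_lit 328))))))))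
noncomputable def xc63 : XT := (XT.nd (nat_lit 2106) (nat_lit 4484) (nat_lit 0) (XT.nd (nat_lit 1014) (nat_lit 5320) (nat_lit 0) (XT.nd (nat_lit 468) (nat_lit 3572) (nat_lit 0) (XT.nd (nat_lit 234) (nat_lit 1748) (nat_lit 0) (XT.nd (nat_lit 78) (nat_lit 684) (nat_lit 0) (XT.lf (nat_lit 0) (nat_lit 1891173066) (nat_lit 608) (nat_lit 10074299287) (nat_lit 684) (nat_lit 1027524401) (nat_lit 284) (nat_lit 5) (nat_lit 292) (nat_lit 5) (nat_lit 293) (nat_lit 5) (nat_lit 456) (nat_lit 417) (nat_lit 327)) (XT.nd (nat_lit 78) (nat_lit 0) (nat_lit 0) (XT.lf (nat_lit 0) (nat_lit 685043860) (nat_lit 608) (nat_lit 2331985394) (nat_lit 684) (nat_lit 10191223110) (nat_lit 275) (nat_lit 5) (nat_lit 283) (nat_lit 5) (nat_lit 284) (nat_lit 5) (nat_lit 457) (nat_lit 417) (nat_lit 326)) (XT.lf (nat_lit 0) (nat_lit 7248757125) (nat_lit 684) (nat_lit 537233049) (nat_lit 76) (nat_lit 5642245181) (nat_lit 275) (nat_lit 5)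 (nat_lit 284) (nat_lit 5) (nat_lit 276) (nat_lit 5) (nat_lit 458) (nat_lit 417) (nat_lit 325)))) (XT.nd (nat_lit 78) (nat_lit 1140) (nat_lit 0) (XT.lf (nat_lit 0) (nat_lit 11670204703) (nat_lit 684) (nat_lit 1747264794) (nat_lit 76) (nat_lit 236094439) (nat_lit 267) (nat_lit 5) (nat_lit 276) (nat_lit 5) (nat_lit 268) (nat_lit 5) (nat_lit 459) (nat_lit 417) (nat_lit 324)) (XT.nd (nat_lit 78) (nat_lit 532) (nat_lit 0) (XT.lf (nat_lit 0) (nat_lit 2403977355) (nat_lit 608) (nat_lit 3004769107) (nat_lit 76) (nat_lit 8474683506) (nat_lit 259) (nat_lit 5) (nat_lit 267) (nat_lit 5) (nat_lit 260) (nat_lit 5) (nat_lit 460) (nat_lit 417) (nat_lit 323)) (XT.lf (nat_lit 0) (nat_lit 6960409288) (nat_lit 608) (nat_lit 4275312191) (nat_lit 76) (nat_lit 2882921223) (nat_lit 252) (nat_lit 5) (nat_lit 260) (nat_lit 5) (nat_lit 253) (nat_lit 5) (nat_lit 461) (nat_lit 417) (nat_lit 322))))) (XT.nd (nat_lit 234) (nat_lit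 1976) (nat_lit 0) (XT.nd (nat_lit 78) (nat_lit 1064) (nat_lit 0) (XT.lf (nat_lit 0) (nat_lit 8796018576) (nat_lit 532) (nat_lit 2941207946) (nat_lit 608) (nat_lit 2622012759) (nat_lit 245) (nat_lit 5) (nat_lit 252) (nat_lit 5) (nat_lit 253) (nat_lit 5) (nat_lit 462) (nat_lit 417) (nat_lit 321)) (XT.nd (nat_lit 78) (nat_lit 456) (nat_lit 0) (XT.lf (nat_lit 0) (nat_lit 2110202999) (nat_lit 608) (nat_lit 6883183454) (nat_lit 76) (nat_lit 5611666343) (nat_lit 237) (nat_lit 5) (nat_lit 245) (nat_lit 5) (nat_lit 238) (nat_lit 5) (nat_lit 463) (nat_lit 417) (nat_lit 320)) (XT.lf (nat_lit 0) (nat_lit 6633589199) (nat_lit 456) (nat_lit 386937872) (nat_lit 532) (nat_lit 7835932931) (nat_lit 231) (nat_lit 5) (nat_lit 237) (nat_lit 5) (nat_lit 238) (nat_lit 5) (nat_lit 464) (nat_lit 417) (nat_lit 319)))) (XT.nd (nat_lit 156) (nat_lit 912) (nat_lit 0) (XT.nd (nat_lit 78) (nat_lit 532) (nat_lit 0) (XT.lf (nat_lit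 0) (nat_lit 5512569799) (nat_lit 532) (nat_lit 6674772617) (nat_lit 608) (nat_lit 2925884549) (nat_lit 224) (nat_lit 5) (nat_lit 231) (nat_lit 5) (nat_lit 232) (nat_lit 5) (nat_lit 465) (nat_lit 417) (nat_lit 318)) (XT.lf (nat_lit 0) (nat_lit 2177033724) (nat_lit 532) (nat_lit 10993539039) (nat_lit 76) (nat_lit 2205378056) (nat_lit 217) (nat_lit 5) (nat_lit 224) (nat_lit 5) (nat_lit 218) (nat_lit 5) (nat_lit 466) (nat_lit 417) (nat_lit 317))) (XT.nd (nat_lit 78) (nat_lit 456) (nat_lit 0) (XT.lf (nat_lit 0) (nat_lit 3209039013) (nat_lit 456) (nat_lit 4287716975) (nat_lit 532) (nat_lit 8147345330) (nat_lit 211) (nat_lit 5) (nat_lit 217) (nat_lit 5) (nat_lit 218) (nat_lit 5) (nat_lit 467) (nat_lit 417) (nat_lit 316)) (XT.lf (nat_lit 0) (nat_lit 2024489790) (nat_lit 456) (nat_lit 11044037774) (nat_lit 532) (nat_lit 2849920667) (nat_lit 205) (nat_lit 5) (nat_lit 211) (nat_lit 5) (nat_lit 212) (nat_lit 5)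 (nat_lit 468) (nat_lit 417) (nat_lit 315)))))) (XT.nd (nat_lit 546) (nat_lit 2660) (nat_lit 0) (XT.nd (nat_lit 234) (nat_lit 1748) (nat_lit 0) (XT.nd (nat_lit 78) (nat_lit 380) (nat_lit 0) (XT.lf (nat_lit 0) (nat_lit 814131999) (nat_lit 456) (nat_lit 1850016166) (nat_lit 532) (nat_lit 13534701833) (nat_lit 198) (nat_lit 5) (nat_lit 204) (nat_lit 5) (nat_lit 205) (nat_lit 5) (nat_lit 469) (nat_lit 417) (nat_lit 314)) (XT.nd (nat_lit 78) (nat_lit 380) (nat_lit 0) (XT.lf (nat_lit 0) (nat_lit 8422964798) (nat_lit 532) (nat_lit 440195295) (nat_lit 76) (nat_lit 7621767039) (nat_lit 198) (nat_lit 5) (nat_lit 205) (nat_lit 5) (nat_lit 199) (nat_lit 5) (nat_lit 470) (nat_lit 417) (nat_lit 313)) (XT.lf (nat_lit 0) (nat_lit 14443601519) (nat_lit 456) (nat_lit 1681621716) (nat_lit 76) (nat_lit 652583179) (nat_lit 193) (nat_lit 5) (nat_lit 199) (nat_lit 5) (nat_lit 194) (nat_lit 5) (nat_lit 471) (nat_lit 417) (nat_lit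 312)))) (XT.nd (nat_lit 156) (nat_lit 836) (nat_lit 0) (XT.nd (nat_lit 78) (nat_lit 380) (nat_lit 0) (XT.lf (nat_lit 0) (nat_lit 3648159991) (nat_lit 532) (nat_lit 2987408834) (nat_lit 76) (nat_lit 10440850464) (nat_lit 186) (nat_lit 5) (nat_lit 193) (nat_lit 5) (nat_lit 187) (nat_lit 5) (nat_lit 472) (nat_lit 417) (nat_lit 311)) (XT.lf (nat_lit 0) (nat_lit 9871074127) (nat_lit 456) (nat_lit 4312578379) (nat_lit 76) (nat_lit 3198174516) (nat_lit 181) (nat_lit 5) (nat_lit 187) (nat_lit 5) (nat_lit 182) (nat_lit 5) (nat_lit 473) (nat_lit 417) (nat_lit 310))) (XT.nd (nat_lit 78) (nat_lit 456) (nat_lit 0) (XT.lf (nat_lit 0) (nat_lit 12028641861) (nat_lit 380) (nat_lit 4370396743) (nat_lit 456) (nat_lit 1294991974) (nat_lit 176) (nat_lit 5) (nat_lit 181) (nat_lit 5) (nat_lit 182) (nat_lit 5) (nat_lit 474) (nat_lit 417) (nat_lit 309)) (XT.lf (nat_lit 0) (nat_lit 5154835129) (nat_lit 456) (nat_lit 7073556136)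 (nat_lit 76) (nat_lit 5784255074) (nat_lit 170) (nat_lit 5) (nat_lit 176) (nat_lit 5) (nat_lit 171) (nat_lit 5) (nat_lit 475) (nat_lit 417) (nat_lit 308))))) (XT.nd (nat_lit 234) (nat_lit 1444) (nat_lit 0) (XT.nd (nat_lit 78) (nat_lit 836) (nat_lit 0) (XT.lf (nat_lit 0) (nat_lit 9833396456) (nat_lit 380) (nat_lit 2055199488) (nat_lit 456) (nat_lit 6449893560) (nat_lit 165) (nat_lit 5) (nat_lit 170) (nat_lit 5) (nat_lit 171) (nat_lit 5) (nat_lit 476) (nat_lit 417) (nat_lit 307)) (XT.nd (nat_lit 78) (nat_lit 380) (nat_lit 0) (XT.lf (nat_lit 0) (nat_lit 285168097) (nat_lit 456) (nat_lit 9979437312) (nat_lit 76) (nat_lit 8406746245) (nat_lit 159) (nat_lit 5) (nat_lit 165) (nat_lit 5) (nat_lit 160) (nat_lit 5) (nat_lit 477) (nat_lit 417) (nat_lit 306)) (XT.lf (nat_lit 0) (nat_lit 7234404510) (nat_lit 456) (nat_lit 11499864214) (nat_lit 76) (nat_lit 277083961) (nat_lit 154) (nat_lit 5) (nat_lit 160) (nat_lit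 5) (nat_lit 155) (nat_lit 5) (nat_lit 478) (nat_lit 417) (nat_lit 305)))) (XT.nd (nat_lit 156) (nat_lit 684) (nat_lit 0) (XT.nd (nat_lit 78) (nat_lit 456) (nat_lit 0) (XT.lf (nat_lit 0) (nat_lit 6280904005) (nat_lit 304) (nat_lit 8265956832) (nat_lit 380) (nat_lit 4811598755) (nat_lit 150) (nat_lit 5) (nat_lit 154) (nat_lit 5) (nat_lit 155) (nat_lit 5) (nat_lit 479) (nat_lit 417) (nat_lit 304)) (XT.lf (nat_lit 0) (nat_lit 2437596269) (nat_lit 456) (nat_lit 14678126796) (nat_lit 76) (nat_lit 2597833055) (nat_lit 144) (nat_lit 5) (nat_lit 150) (nat_lit 5) (nat_lit 145) (nat_lit 5) (nat_lit 480) (nat_lit 417) (nat_lit 303))) (XT.nd (nat_lit 78) (nat_lit 380) (nat_lit 0) (XT.lf (nat_lit 0) (nat_lit 3718590411) (nat_lit 304) (nat_lit 6267179234) (nat_lit 380) (nat_lit 10089962990) (nat_lit 140) (nat_lit 5) (nat_lit 144) (nat_lit 5) (nat_lit 145) (nat_lit 5) (nat_lit 481) (nat_lit 417) (nat_lit 302)) (XT.lf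 (nat_lit 0) (nat_lit 2384911527) (nat_lit 380) (nat_lit 15501149174) (nat_lit 456) (nat_lit 2560200926) (nat_lit 135) (nat_lit 5) (nat_lit 140) (nat_lit 5) (nat_lit 141) (nat_lit 5) (nat_lit 482) (nat_lit 417) (nat_lit 301))))))) (XT.nd (nat_lit 1092) (nat_lit 532) (nat_lit 0) (XT.nd (nat_lit 546) (nat_lit 1976) (nat_lit 0) (XT.nd (nat_lit 234) (nat_lit 1216) (nat_lit 0) (XT.nd (nat_lit 78) (nat_lit 380) (nat_lit 0) (XT.lf (nat_lit 0) (nat_lit 989124947) (nat_lit 304) (nat_lit 4276573552) (nat_lit 380) (nat_lit 15558766267) (nat_lit 130) (nat_lit 5) (nat_lit 134) (nat_lit 5) (nat_lit 135) (nat_lit 5) (nat_lit 483) (nat_lit 417) (nat_lit 300)) (XT.nd (nat_lit 78) (nat_lit 380) (nat_lit 0) (XT.lf (nat_lit 0) (nat_lit 13441080686) (nat_lit 380) (nat_lit 453131488) (nat_lit 76) (nat_lit 7316474173) (nat_lit 130) (nat_lit 5) (nat_lit 135) (nat_lit 5) (nat_lit 131) (nat_lit 5) (nat_lit 484) (nat_lit 417)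 (nat_lit 299)) (XT.lf (nat_lit 0) (nat_lit 386767944) (nat_lit 380) (nat_lit 1901586406) (nat_lit 76) (nat_lit 19317370710) (nat_lit 125) (nat_lit 5) (nat_lit 130) (nat_lit 5) (nat_lit 126) (nat_lit 5) (nat_lit 485) (nat_lit 417) (nat_lit 298)))) (XT.nd (nat_lit 156) (nat_lit 608) (nat_lit 0) (XT.nd (nat_lit 78) (nat_lit 304) (nat_lit 0) (XT.lf (nat_lit 0) (nat_lit 8850348771) (nat_lit 380) (nat_lit 3454748656) (nat_lit 76) (nat_lit 9703129416) (nat_lit 121) (nat_lit 5) (nat_lit 126) (nat_lit 5) (nat_lit 122) (nat_lit 5) (nat_lit 486) (nat_lit 417) (nat_lit 297)) (XT.lf (nat_lit 0) (nat_lit 17405398378) (nat_lit 304) (nat_lit 283677037) (nat_lit 380) (nat_lit 4731304018) (nat_lit 117) (nat_lit 5) (nat_lit 121) (nat_lit 5) (nat_lit 122) (nat_lit 5) (nat_lit 487) (nat_lit 417) (nat_lit 296))) (XT.nd (nat_lit 78) (nat_lit 304) (nat_lit 0) (XT.lf (nat_lit 0) (nat_lit 4085038143) (nat_lit 304) (nat_lit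 6673055160) (nat_lit 76) (nat_lit 12082516116) (nat_lit 113) (nat_lit 5) (nat_lit 117) (nat_lit 5) (nat_lit 114) (nat_lit 5) (nat_lit 488) (nat_lit 417) (nat_lit 295)) (XT.lf (nat_lit 0) (nat_lit 13226358792) (nat_lit 380) (nat_lit 8370978527) (nat_lit 76) (nat_lit 1672988631) (nat_lit 109) (nat_lit 5) (nat_lit 114) (nat_lit 5) (nat_lit 110) (nat_lit 5) (nat_lit 489) (nat_lit 417) (nat_lit 294))))) (XT.nd (nat_lit 234) (nat_lit 1140) (nat_lit 0) (XT.nd (nat_lit 78) (nat_lit 608) (nat_lit 0) (XT.lf (nat_lit 0) (nat_lit 13571551358) (nat_lit 228) (nat_lit 9256701822) (nat_lit 304) (nat_lit 880954583) (nat_lit 106) (nat_lit 5) (nat_lit 109) (nat_lit 5) (nat_lit 110) (nat_lit 5) (nat_lit 490) (nat_lit 417) (nat_lit 293)) (XT.nd (nat_lit 78) (nat_lit 228) (nat_lit 0) (XT.lf (nat_lit 0) (nat_lit 8585620622) (nat_lit 380) (nat_lit 11982697016) (nat_lit 76) (nat_lit 3589009727) (nat_lit 101) (nat_lit 5) (nat_lit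 106) (nat_lit 5) (nat_lit 102) (nat_lit 5) (nat_lit 491) (nat_lit 417) (nat_lit 292)) (XT.lf (nat_lit 0) (nat_lit 10717924994) (nat_lit 228) (nat_lit 7788258343) (nat_lit 304) (nat_lit 6108952010) (nat_lit 98) (nat_lit 5) (nat_lit 101) (nat_lit 5) (nat_lit 102) (nat_lit 5) (nat_lit 492) (nat_lit 417) (nat_lit 291)))) (XT.nd (nat_lit 156) (nat_lit 532) (nat_lit 0) (XT.nd (nat_lit 78) (nat_lit 228) (nat_lit 0) (XT.lf (nat_lit 0) (nat_lit 3749108198) (nat_lit 380) (nat_lit 15875693446) (nat_lit 76) (nat_lit 5458221338) (nat_lit 93) (nat_lit 5) (nat_lit 98) (nat_lit 5) (nat_lit 94) (nat_lit 5) (nat_lit 493) (nat_lit 417) (nat_lit 290)) (XT.lf (nat_lit 0) (nat_lit 7606952285) (nat_lit 228) (nat_lit 6391424475) (nat_lit 304) (nat_lit 11562194018) (nat_lit 90) (nat_lit 5) (nat_lit 93) (nat_lit 5) (nat_lit 94) (nat_lit 5) (nat_lit 494) (nat_lit 417) (nat_lit 289))) (XT.nd (nat_lit 78) (nat_lit 304) (nat_lit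 0) (XT.lf (nat_lit 0) (nat_lit 5960363494) (nat_lit 228) (nat_lit 18770718943) (nat_lit 304) (nat_lit 1317843779) (nat_lit 87) (nat_lit 5) (nat_lit 90) (nat_lit 5) (nat_lit 91) (nat_lit 5) (nat_lit 495) (nat_lit 417) (nat_lit 288)) (XT.lf (nat_lit 0) (nat_lit 4208797343) (nat_lit 228) (nat_lit 5078647379) (nat_lit 304) (nat_lit 17259794698) (nat_lit 83) (nat_lit 5) (nat_lit 86) (nat_lit 5) (nat_lit 87) (nat_lit 5) (nat_lit 496) (nat_lit 417) (nat_lit 287)))))) (XT.nd (nat_lit 56628) (nat_lit 0) (nat_lit 37468) (XT.nd (nat_lit 56316) (nat_lit 0) (nat_lit 40052) (XT.nd (nat_lit 78) (nat_lit 304) (nat_lit 0) (XT.lf (nat_lit 0) (nat_lit 2384558262) (nat_lit 228) (nat_lit 18002047688) (nat_lit 304) (nat_lit 6669849842) (nat_lit 80) (nat_lit 5) (nat_lit 83) (nat_lit 5) (nat_lit 84) (nat_lit 5) (nat_lit 497) (nat_lit 417) (nat_lit 286)) (XT.nd (nat_lit 78) (nat_lit 0) (nat_lit 0) (XT.lf (nat_lit 0) (nat_lit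 490636293) (nat_lit 228) (nat_lit 3863717889) (nat_lit 304) (nat_lit 23222601720) (nat_lit 76) (nat_lit 5) (nat_lit 79) (nat_lit 5) (nat_lit 80) (nat_lit 5) (nat_lit 498) (nat_lit 417) (nat_lit 285)) (XT.lf (nat_lit 0) (nat_lit 15839784280) (nat_lit 304) (nat_lit 1509325875) (nat_lit 76) (nat_lit 10758657097) (nat_lit 76) (nat_lit 5) (nat_lit 80) (nat_lit 5) (nat_lit 77) (nat_lit 5) (nat_lit 499) (nat_lit 417) (nat_lit 284)))) (XT.nd (nat_lit 156) (nat_lit 0) (nat_lit 76) (XT.nd (nat_lit 78) (nat_lit 0) (nat_lit 0) (XT.lf (nat_lit 0) (nat_lit 99867214) (nat_lit 1444) (nat_lit 1904150494) (nat_lit 1444) (nat_lit 1904150494) (nat_lit 603) (nat_lit 3) (nat_lit 622) (nat_lit 3) (nat_lit 622) (nat_lit 5) (nat_lit 418) (nat_lit 418) (nat_lit 364)) (XT.lf (nat_lit 76) (nat_lit 2032574271) (nat_lit 0) (nat_lit 115548135) (nat_lit 1444) (nat_lit 5746411105) (nat_lit 604) (nat_lit 5) (nat_lit 603) (nat_lit 3)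 (nat_lit 622) (nat_lit 5) (nat_lit 419) (nat_lit 418) (nat_lit 363))) (XT.nd (nat_lit 78) (nat_lit 0) (nat_lit 76) (XT.lf (nat_lit 76) (nat_lit 60861814) (nat_lit 0) (nat_lit 4070330095) (nat_lit 1444) (nat_lit 3844365494) (nat_lit 605) (nat_lit 5) (nat_lit 604) (nat_lit 5) (nat_lit 623) (nat_lit 5) (nat_lit 420) (nat_lit 418) (nat_lit 362)) (XT.lf (nat_lit 0) (nat_lit 6141146814) (nat_lit 1368) (nat_lit 1859311011) (nat_lit 1444) (nat_lit 59211627) (nat_lit 605) (nat_lit 5) (nat_lit 623) (nat_lit 5) (nat_lit 624) (nat_lit 5) (nat_lit 421) (nat_lit 418) (nat_lit 361))))) (XT.nd (nat_lit 234) (nat_lit 1292) (nat_lit 0) (XT.nd (nat_lit 78) (nat_lit 0) (nat_lit 76) (XT.lf (nat_lit 0) (nat_lit 48573478) (nat_lit 1444) (nat_lit 3779692377) (nat_lit 1520) (nat_lit 4318348973) (nat_lit 586) (nat_lit 5) (nat_lit 605) (nat_lit 5) (nat_lit 606) (nat_lit 5) (nat_lit 422) (nat_lit 418) (nat_lit 360)) (XT.nd (nat_lit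 78) (nat_lit 0) (nat_lit 0) (XT.lf (nat_lit 0) (nat_lit 2011725416) (nat_lit 1444) (nat_lit 5691062273) (nat_lit 1520) (nat_lit 533869993) (nat_lit 587) (nat_lit 5) (nat_lit 606) (nat_lit 5) (nat_lit 607) (nat_lit 5) (nat_lit 423) (nat_lit 418) (nat_lit 359)) (XT.lf (nat_lit 76) (nat_lit 725531736) (nat_lit 0) (nat_lit 3296500478) (nat_lit 1520) (nat_lit 4307609162) (nat_lit 588) (nat_lit 5) (nat_lit 587) (nat_lit 5) (nat_lit 607) (nat_lit 5) (nat_lit 424) (nat_lit 418) (nat_lit 358)))) (XT.nd (nat_lit 156) (nat_lit 1444) (nat_lit 0) (XT.nd (nat_lit 78) (nat_lit 0) (nat_lit 0) (XT.lf (nat_lit 0) (nat_lit 6073570457) (nat_lit 1444) (nat_lit 1062954287) (nat_lit 1520) (nat_lit 1289276017) (nat_lit 588) (nat_lit 5) (nat_lit 607) (nat_lit 5) (nat_lit 608) (nat_lit 5) (nat_lit 425) (nat_lit 418) (nat_lit 357)) (XT.lf (nat_lit 76) (nat_lit 5685682030) (nat_lit 0) (nat_lit 2495893080) (nat_lit 1520) (nat_lit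 343375900) (nat_lit 589) (nat_lit 5) (nat_lit 588) (nat_lit 5) (nat_lit 608) (nat_lit 5) (nat_lit 426) (nat_lit 418) (nat_lit 356))) (XT.nd (nat_lit 78) (nat_lit 0) (nat_lit 0) (XT.lf (nat_lit 0) (nat_lit 1688897797) (nat_lit 1520) (nat_lit 4618230925) (nat_lit 1596) (nat_lit 2320011484) (nat_lit 569) (nat_lit 5) (nat_lit 589) (nat_lit 5) (nat_lit 590) (nat_lit 5) (nat_lit 427) (nat_lit 418) (nat_lit 355)) (XT.lf (nat_lit 76) (nat_lit 2338808068) (nat_lit 0) (nat_lit 1428779443) (nat_lit 1596) (nat_lit 4964964062) (nat_lit 570) (nat_lit 5) (nat_lit 569) (nat_lit 5) (nat_lit 590) (nat_lit 5) (nat_lit 428) (nat_lit 418) (nat_lit 354))))))))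
noncomputable def xc64 : XT := (XT.nd (nat_lit 2106) (nat_lit 12160) (nat_lit 0) (XT.nd (nat_lit 1014) (nat_lit 9272) (nat_lit 0) (XT.nd (nat_lit 468) (nat_lit 8284) (nat_lit 0) (XT.nd (nat_lit 234) (nat_lit 1444) (nat_lit 0) (XT.nd (nat_lit 78) (nat_lit 1520) (nat_lit 0) (XT.lf (nat_lit 76) (nat_lit 669733924) (nat_lit 0) (nat_lit 5238574430) (nat_lit 1596) (nat_lit 2932827545) (nat_lit 571) (nat_lit 5) (nat_lit 570) (nat_lit 5) (nat_lit 591) (nat_lit 5) (nat_lit 429) (nat_lit 418) (nat_lit 353)) (XT.nd (nat_lit 78) (nat_lit 1520) (nat_lit 0) (XT.lf (nat_lit 76) (nat_lit 7980876947) (nat_lit 0) (nat_lit 127125674) (nat_lit 1596) (nat_lit 845084010) (nat_lit 571) (nat_lit 5) (nat_lit 570) (nat_lit 5) (nat_lit 591) (nat_lit 5) (nat_lit 430) (nat_lit 418) (nat_lit 352)) (XT.lf (nat_lit 0) (nat_lit 1307269117) (nat_lit 1596) (nat_lit 2624480470) (nat_lit 1672) (nat_lit 5136098594) (nat_lit 550) (nat_lit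 5) (nat_lit 571) (nat_lit 5) (nat_lit 572) (nat_lit 5) (nat_lit 431) (nat_lit 418) (nat_lit 351)))) (XT.nd (nat_lit 78) (nat_lit 1520) (nat_lit 0) (XT.lf (nat_lit 0) (nat_lit 3506231813) (nat_lit 1596) (nat_lit 4270824226) (nat_lit 1672) (nat_lit 1409018026) (nat_lit 551) (nat_lit 5) (nat_lit 572) (nat_lit 5) (nat_lit 573) (nat_lit 5) (nat_lit 432) (nat_lit 418) (nat_lit 350)) (XT.nd (nat_lit 78) (nat_lit 1520) (nat_lit 0) (XT.lf (nat_lit 76) (nat_lit 3384971765) (nat_lit 0) (nat_lit 2398515067) (nat_lit 1672) (nat_lit 3524116932) (nat_lit 552) (nat_lit 5) (nat_lit 551) (nat_lit 5) (nat_lit 573) (nat_lit 5) (nat_lit 433) (nat_lit 418) (nat_lit 349)) (XT.lf (nat_lit 0) (nat_lit 1857424665) (nat_lit 1596) (nat_lit 6280738268) (nat_lit 1672) (nat_lit 1294437759) (nat_lit 531) (nat_lit 5) (nat_lit 552) (nat_lit 5) (nat_lit 553) (nat_lit 5) (nat_lit 434) (nat_lit 418) (nat_lit 348))))) (XT.nd (nat_lit 234)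 (nat_lit 4788) (nat_lit 0) (XT.nd (nat_lit 78) (nat_lit 1748) (nat_lit 0) (XT.lf (nat_lit 0) (nat_lit 329883141) (nat_lit 1672) (nat_lit 666113583) (nat_lit 1748) (nat_lit 8565083755) (nat_lit 508) (nat_lit 5) (nat_lit 530) (nat_lit 5) (nat_lit 531) (nat_lit 5) (nat_lit 435) (nat_lit 418) (nat_lit 347)) (XT.nd (nat_lit 78) (nat_lit 1748) (nat_lit 0) (XT.lf (nat_lit 0) (nat_lit 3372258623) (nat_lit 1748) (nat_lit 1202225776) (nat_lit 76) (nat_lit 5118068267) (nat_lit 508) (nat_lit 5) (nat_lit 531) (nat_lit 5) (nat_lit 509) (nat_lit 5) (nat_lit 436) (nat_lit 418) (nat_lit 346)) (XT.lf (nat_lit 0) (nat_lit 5830017966) (nat_lit 1824) (nat_lit 2722001636) (nat_lit 76) (nat_lit 1275748285) (nat_lit 485) (nat_lit 5) (nat_lit 509) (nat_lit 5) (nat_lit 486) (nat_lit 5) (nat_lit 437) (nat_lit 418) (nat_lit 345)))) (XT.nd (nat_lit 156) (nat_lit 1824) (nat_lit 0) (XT.nd (nat_lit 78) (nat_lit 1140) (nat_lit 0)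 (XT.lf (nat_lit 0) (nat_lit 5714425786) (nat_lit 1824) (nat_lit 2675342778) (nat_lit 1900) (nat_lit 1576708795) (nat_lit 461) (nat_lit 5) (nat_lit 485) (nat_lit 5) (nat_lit 486) (nat_lit 5) (nat_lit 438) (nat_lit 418) (nat_lit 344)) (XT.lf (nat_lit 0) (nat_lit 927164860) (nat_lit 1140) (nat_lit 5790850415) (nat_lit 76) (nat_lit 3390772046) (nat_lit 446) (nat_lit 5) (nat_lit 461) (nat_lit 5) (nat_lit 447) (nat_lit 5) (nat_lit 439) (nat_lit 418) (nat_lit 343))) (XT.nd (nat_lit 78) (nat_lit 912) (nat_lit 0) (XT.lf (nat_lit 0) (nat_lit 2915402872) (nat_lit 912) (nat_lit 589565894) (nat_lit 988) (nat_lit 6749787411) (nat_lit 434) (nat_lit 5) (nat_lit 446) (nat_lit 5) (nat_lit 447) (nat_lit 5) (nat_lit 440) (nat_lit 418) (nat_lit 342)) (XT.lf (nat_lit 0) (nat_lit 1497144352) (nat_lit 912) (nat_lit 4704704951) (nat_lit 988) (nat_lit 4202422606) (nat_lit 422) (nat_lit 5) (nat_lit 434) (nat_lit 5) (nat_lit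 435) (nat_lit 5) (nat_lit 441) (nat_lit 418) (nat_lit 341)))))) (XT.nd (nat_lit 546) (nat_lit 4256) (nat_lit 0) (XT.nd (nat_lit 234) (nat_lit 3268) (nat_lit 0) (XT.nd (nat_lit 78) (nat_lit 912) (nat_lit 0) (XT.lf (nat_lit 0) (nat_lit 85277674) (nat_lit 836) (nat_lit 8915754373) (nat_lit 912) (nat_lit 1556815736) (nat_lit 411) (nat_lit 5) (nat_lit 422) (nat_lit 5) (nat_lit 423) (nat_lit 5) (nat_lit 442) (nat_lit 418) (nat_lit 340)) (XT.nd (nat_lit 78) (nat_lit 836) (nat_lit 0) (XT.lf (nat_lit 0) (nat_lit 1202169951) (nat_lit 912) (nat_lit 1327821567) (nat_lit 76) (nat_lit 8184903561) (nat_lit 410) (nat_lit 5) (nat_lit 422) (nat_lit 5) (nat_lit 411) (nat_lit 5) (nat_lit 443) (nat_lit 418) (nat_lit 339)) (XT.lf (nat_lit 0) (nat_lit 4060841833) (nat_lit 912) (nat_lit 2756903212) (nat_lit 76) (nat_lit 4057943973) (nat_lit 399) (nat_lit 5) (nat_lit 411) (nat_lit 5) (nat_lit 400) (nat_lit 5) (nat_lit 444)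 (nat_lit 418) (nat_lit 338)))) (XT.nd (nat_lit 156) (nat_lit 1596) (nat_lit 0) (XT.nd (nat_lit 78) (nat_lit 836) (nat_lit 0) (XT.lf (nat_lit 0) (nat_lit 6856975687) (nat_lit 836) (nat_lit 178100028) (nat_lit 912) (nat_lit 4005637343) (nat_lit 388) (nat_lit 5) (nat_lit 399) (nat_lit 5) (nat_lit 400) (nat_lit 5) (nat_lit 445) (nat_lit 418) (nat_lit 337)) (XT.lf (nat_lit 0) (nat_lit 5574508186) (nat_lit 836) (nat_lit 4582487766) (nat_lit 912) (nat_lit 1052524930) (nat_lit 377) (nat_lit 5) (nat_lit 388) (nat_lit 5) (nat_lit 389) (nat_lit 5) (nat_lit 446) (nat_lit 418) (nat_lit 336))) (XT.nd (nat_lit 78) (nat_lit 760) (nat_lit 0) (XT.lf (nat_lit 0) (nat_lit 1996642170) (nat_lit 836) (nat_lit 7097542292) (nat_lit 76) (nat_lit 2288281326) (nat_lit 366) (nat_lit 5) (nat_lit 377) (nat_lit 5) (nat_lit 367) (nat_lit 5) (nat_lit 447) (nat_lit 418) (nat_lit 335)) (XT.lf (nat_lit 0) (nat_lit 2979048804) (nat_lit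 760) (nat_lit 2194143191) (nat_lit 836) (nat_lit 6386265835) (nat_lit 356) (nat_lit 5) (nat_lit 366) (nat_lit 5) (nat_lit 367) (nat_lit 5) (nat_lit 448) (nat_lit 418) (nat_lit 334))))) (XT.nd (nat_lit 234) (nat_lit 2736) (nat_lit 0) (XT.nd (nat_lit 78) (nat_lit 836) (nat_lit 0) (XT.lf (nat_lit 0) (nat_lit 1661984354) (nat_lit 684) (nat_lit 6836681608) (nat_lit 760) (nat_lit 3242023136) (nat_lit 347) (nat_lit 5) (nat_lit 356) (nat_lit 5) (nat_lit 357) (nat_lit 5) (nat_lit 449) (nat_lit 418) (nat_lit 333)) (XT.nd (nat_lit 78) (nat_lit 0) (nat_lit 0) (XT.lf (nat_lit 0) (nat_lit 37225135) (nat_lit 836) (nat_lit 11577868780) (nat_lit 76) (nat_lit 311453102) (nat_lit 336) (nat_lit 5) (nat_lit 347) (nat_lit 5) (nat_lit 337) (nat_lit 5) (nat_lit 450) (nat_lit 418) (nat_lit 332)) (XT.lf (nat_lit 0) (nat_lit 3449405172) (nat_lit 836) (nat_lit 999342569) (nat_lit 76) (nat_lit 7667234189) (nat_lit 336) (nat_lit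 5) (nat_lit 347) (nat_lit 5) (nat_lit 337) (nat_lit 5) (nat_lit 451) (nat_lit 418) (nat_lit 331)))) (XT.nd (nat_lit 156) (nat_lit 1368) (nat_lit 0) (XT.nd (nat_lit 78) (nat_lit 684) (nat_lit 0) (XT.lf (nat_lit 0) (nat_lit 7013160351) (nat_lit 760) (nat_lit 2342920999) (nat_lit 76) (nat_lit 2954036159) (nat_lit 327) (nat_lit 5) (nat_lit 337) (nat_lit 5) (nat_lit 328) (nat_lit 5) (nat_lit 452) (nat_lit 418) (nat_lit 330)) (XT.lf (nat_lit 0) (nat_lit 8811745100) (nat_lit 684) (nat_lit 1931521877) (nat_lit 760) (nat_lit 1765623161) (nat_lit 318) (nat_lit 5) (nat_lit 327) (nat_lit 5) (nat_lit 328) (nat_lit 5) (nat_lit 453) (nat_lit 418) (nat_lit 329))) (XT.nd (nat_lit 78) (nat_lit 684) (nat_lit 0) (XT.lf (nat_lit 0) (nat_lit 1916631588) (nat_lit 684) (nat_lit 5082499762) (nat_lit 76) (nat_lit 5712862675) (nat_lit 309) (nat_lit 5) (nat_lit 318) (nat_lit 5) (nat_lit 310) (nat_lit 5) (nat_lit 454) (nat_lit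 418) (nat_lit 328)) (XT.lf (nat_lit 0) (nat_lit 5736976250) (nat_lit 760) (nat_lit 6479415917) (nat_lit 76) (nat_lit 703534868) (nat_lit 300) (nat_lit 5) (nat_lit 310) (nat_lit 5) (nat_lit 301) (nat_lit 5) (nat_lit 455) (nat_lit 418) (nat_lit 327))))))) (XT.nd (nat_lit 1014) (nat_lit 5396) (nat_lit 0) (XT.nd (nat_lit 468) (nat_lit 3648) (nat_lit 0) (XT.nd (nat_lit 234) (nat_lit 1216) (nat_lit 0) (XT.nd (nat_lit 78) (nat_lit 1292) (nat_lit 0) (XT.lf (nat_lit 0) (nat_lit 5226679479) (nat_lit 608) (nat_lit 4528185603) (nat_lit 684) (nat_lit 3377575856) (nat_lit 292) (nat_lit 5) (nat_lit 300) (nat_lit 5) (nat_lit 301) (nat_lit 5) (nat_lit 456) (nat_lit 418) (nat_lit 326)) (XT.nd (nat_lit 78) (nat_lit 608) (nat_lit 0) (XT.lf (nat_lit 0) (nat_lit 595676257) (nat_lit 684) (nat_lit 9341670237) (nat_lit 76) (nat_lit 3412698414) (nat_lit 283) (nat_lit 5) (nat_lit 292) (nat_lit 5) (nat_lit 284) (nat_lit 5) (nat_lit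 457) (nat_lit 418) (nat_lit 325)) (XT.lf (nat_lit 0) (nat_lit 2758083493) (nat_lit 608) (nat_lit 1955157453) (nat_lit 684) (nat_lit 8859070936) (nat_lit 275) (nat_lit 5) (nat_lit 283) (nat_lit 5) (nat_lit 284) (nat_lit 5) (nat_lit 458) (nat_lit 418) (nat_lit 324)))) (XT.nd (nat_lit 78) (nat_lit 608) (nat_lit 0) (XT.lf (nat_lit 0) (nat_lit 1487297423) (nat_lit 608) (nat_lit 7550328115) (nat_lit 684) (nat_lit 4761956882) (nat_lit 267) (nat_lit 5) (nat_lit 275) (nat_lit 5) (nat_lit 276) (nat_lit 5) (nat_lit 459) (nat_lit 418) (nat_lit 323)) (XT.nd (nat_lit 78) (nat_lit 76) (nat_lit 0) (XT.lf (nat_lit 0) (nat_lit 219214889) (nat_lit 532) (nat_lit 13334671573) (nat_lit 608) (nat_lit 478543093) (nat_lit 260) (nat_lit 5) (nat_lit 267) (nat_lit 5) (nat_lit 268) (nat_lit 5) (nat_lit 460) (nat_lit 418) (nat_lit 322)) (XT.lf (nat_lit 0) (nat_lit 3986503519) (nat_lit 608) (nat_lit 1091458229) (nat_lit 76) (nat_lit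 9191696556) (nat_lit 259) (nat_lit 5) (nat_lit 267) (nat_lit 5) (nat_lit 260) (nat_lit 5) (nat_lit 461) (nat_lit 418) (nat_lit 321))))) (XT.nd (nat_lit 234) (nat_lit 1976) (nat_lit 0) (XT.nd (nat_lit 78) (nat_lit 1140) (nat_lit 0) (XT.lf (nat_lit 0) (nat_lit 8651625392) (nat_lit 608) (nat_lit 2406165248) (nat_lit 76) (nat_lit 3454698776) (nat_lit 252) (nat_lit 5) (nat_lit 260) (nat_lit 5) (nat_lit 253) (nat_lit 5) (nat_lit 462) (nat_lit 418) (nat_lit 320)) (XT.nd (nat_lit 78) (nat_lit 608) (nat_lit 0) (XT.lf (nat_lit 0) (nat_lit 11024899899) (nat_lit 532) (nat_lit 2516428522) (nat_lit 608) (nat_lit 1219585723) (nat_lit 245) (nat_lit 5) (nat_lit 252) (nat_lit 5) (nat_lit 253) (nat_lit 5) (nat_lit 463) (nat_lit 418) (nat_lit 319)) (XT.lf (nat_lit 0) (nat_lit 3608654243) (nat_lit 608) (nat_lit 5112072709) (nat_lit 76) (nat_lit 6293714927) (nat_lit 237) (nat_lit 5) (nat_lit 245) (nat_lit 5) (nat_lit 238)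 (nat_lit 5) (nat_lit 464) (nat_lit 418) (nat_lit 318)))) (XT.nd (nat_lit 156) (nat_lit 988) (nat_lit 0) (XT.nd (nat_lit 78) (nat_lit 532) (nat_lit 0) (XT.lf (nat_lit 0) (nat_lit 8638034774) (nat_lit 532) (nat_lit 6496773061) (nat_lit 76) (nat_lit 139150266) (nat_lit 231) (nat_lit 5) (nat_lit 238) (nat_lit 5) (nat_lit 232) (nat_lit 5) (nat_lit 465) (nat_lit 418) (nat_lit 317)) (XT.lf (nat_lit 0) (nat_lit 7616179041) (nat_lit 532) (nat_lit 6317794652) (nat_lit 608) (nat_lit 1604973686) (nat_lit 224) (nat_lit 5) (nat_lit 231) (nat_lit 5) (nat_lit 232) (nat_lit 5) (nat_lit 466) (nat_lit 418) (nat_lit 316))) (XT.nd (nat_lit 78) (nat_lit 456) (nat_lit 0) (XT.lf (nat_lit 0) (nat_lit 3608217865) (nat_lit 532) (nat_lit 9374685145) (nat_lit 76) (nat_lit 2826955401) (nat_lit 217) (nat_lit 5) (nat_lit 224) (nat_lit 5) (nat_lit 218) (nat_lit 5) (nat_lit 467) (nat_lit 418) (nat_lit 315)) (XT.lf (nat_lit 0) (nat_lit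 5222355554) (nat_lit 456) (nat_lit 3837840260) (nat_lit 532) (nat_lit 7026405887) (nat_lit 211) (nat_lit 5) (nat_lit 217) (nat_lit 5) (nat_lit 218) (nat_lit 5) (nat_lit 468) (nat_lit 418) (nat_lit 314)))))) (XT.nd (nat_lit 546) (nat_lit 2736) (nat_lit 0) (XT.nd (nat_lit 234) (nat_lit 1292) (nat_lit 0) (XT.nd (nat_lit 78) (nat_lit 912) (nat_lit 0) (XT.lf (nat_lit 0) (nat_lit 3993860440) (nat_lit 456) (nat_lit 10782312368) (nat_lit 532) (nat_lit 1593466680) (nat_lit 205) (nat_lit 5) (nat_lit 211) (nat_lit 5) (nat_lit 212) (nat_lit 5) (nat_lit 469) (nat_lit 418) (nat_lit 313)) (XT.nd (nat_lit 78) (nat_lit 380) (nat_lit 0) (XT.lf (nat_lit 0) (nat_lit 2733589574) (nat_lit 456) (nat_lit 1308565171) (nat_lit 532) (nat_lit 12616651135) (nat_lit 198) (nat_lit 5) (nat_lit 204) (nat_lit 5) (nat_lit 205) (nat_lit 5) (nat_lit 470) (nat_lit 418) (nat_lit 312)) (XT.lf (nat_lit 0) (nat_lit 1426637046) (nat_lit 380)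 (nat_lit 8522316205) (nat_lit 456) (nat_lit 7005009127) (nat_lit 193) (nat_lit 5) (nat_lit 198) (nat_lit 5) (nat_lit 199) (nat_lit 5) (nat_lit 471) (nat_lit 418) (nat_lit 311)))) (XT.nd (nat_lit 156) (nat_lit 760) (nat_lit 0) (XT.nd (nat_lit 78) (nat_lit 76) (nat_lit 0) (XT.lf (nat_lit 0) (nat_lit 121638323) (nat_lit 456) (nat_lit 15999013927) (nat_lit 532) (nat_lit 1135568283) (nat_lit 187) (nat_lit 5) (nat_lit 193) (nat_lit 5) (nat_lit 194) (nat_lit 5) (nat_lit 472) (nat_lit 418) (nat_lit 310)) (XT.lf (nat_lit 0) (nat_lit 4984298659) (nat_lit 532) (nat_lit 1238620897) (nat_lit 76) (nat_lit 11341215392) (nat_lit 186) (nat_lit 5) (nat_lit 193) (nat_lit 5) (nat_lit 187) (nat_lit 5) (nat_lit 473) (nat_lit 418) (nat_lit 309))) (XT.nd (nat_lit 78) (nat_lit 380) (nat_lit 0) (XT.lf (nat_lit 0) (nat_lit 11373847553) (nat_lit 456) (nat_lit 2613209366) (nat_lit 76) (nat_lit 3892050301) (nat_lit 181) (nat_lit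 5) (nat_lit 187) (nat_lit 5) (nat_lit 182) (nat_lit 5) (nat_lit 474) (nat_lit 418) (nat_lit 308)) (XT.lf (nat_lit 0) (nat_lit 14188578244) (nat_lit 380) (nat_lit 3885608632) (nat_lit 456) (nat_lit 126960505) (nat_lit 176) (nat_lit 5) (nat_lit 181) (nat_lit 5) (nat_lit 182) (nat_lit 5) (nat_lit 475) (nat_lit 418) (nat_lit 307))))) (XT.nd (nat_lit 234) (nat_lit 1444) (nat_lit 0) (XT.nd (nat_lit 78) (nat_lit 836) (nat_lit 0) (XT.lf (nat_lit 0) (nat_lit 6481444255) (nat_lit 456) (nat_lit 5480874591) (nat_lit 76) (nat_lit 6567228985) (nat_lit 170) (nat_lit 5) (nat_lit 176) (nat_lit 5) (nat_lit 171) (nat_lit 5) (nat_lit 476) (nat_lit 418) (nat_lit 306)) (XT.nd (nat_lit 78) (nat_lit 456) (nat_lit 0) (XT.lf (nat_lit 0) (nat_lit 11904004411) (nat_lit 380) (nat_lit 1490607019) (nat_lit 456) (nat_lit 5471008114) (nat_lit 165) (nat_lit 5) (nat_lit 170) (nat_lit 5) (nat_lit 171) (nat_lit 5) (nat_lit 477) (nat_lit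 418) (nat_lit 305)) (XT.lf (nat_lit 0) (nat_lit 1432542297) (nat_lit 456) (nat_lit 8498200432) (nat_lit 76) (nat_lit 9277937406) (nat_lit 159) (nat_lit 5) (nat_lit 165) (nat_lit 5) (nat_lit 160) (nat_lit 5) (nat_lit 478) (nat_lit 418) (nat_lit 304)))) (XT.nd (nat_lit 156) (nat_lit 760) (nat_lit 0) (XT.nd (nat_lit 78) (nat_lit 304) (nat_lit 0) (XT.lf (nat_lit 0) (nat_lit 8572580663) (nat_lit 456) (nat_lit 10074874424) (nat_lit 76) (nat_lit 911780650) (nat_lit 154) (nat_lit 5) (nat_lit 160) (nat_lit 5) (nat_lit 155) (nat_lit 5) (nat_lit 479) (nat_lit 418) (nat_lit 303)) (XT.lf (nat_lit 0) (nat_lit 8210600926) (nat_lit 304) (nat_lit 7872460553) (nat_lit 380) (nat_lit 3834122367) (nat_lit 150) (nat_lit 5) (nat_lit 154) (nat_lit 5) (nat_lit 155) (nat_lit 5) (nat_lit 480) (nat_lit 418) (nat_lit 302))) (XT.nd (nat_lit 78) (nat_lit 304) (nat_lit 0) (XT.lf (nat_lit 0) (nat_lit 3600970548) (nat_lit 456) (nat_lit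 13373355194) (nat_lit 76) (nat_lit 3308800116) (nat_lit 144) (nat_lit 5) (nat_lit 150) (nat_lit 5) (nat_lit 145) (nat_lit 5) (nat_lit 481) (nat_lit 418) (nat_lit 301)) (XT.lf (nat_lit 0) (nat_lit 5546951105) (nat_lit 304) (nat_lit 5808029895) (nat_lit 380) (nat_lit 9301599764) (nat_lit 140) (nat_lit 5) (nat_lit 144) (nat_lit 5) (nat_lit 145) (nat_lit 5) (nat_lit 482) (nat_lit 418) (nat_lit 300))))))))
noncomputable def xc65 : XT := (XT.nd (nat_lit 58266) (nat_lit 0) (nat_lit 17024) (XT.nd (nat_lit 1014) (nat_lit 1064) (nat_lit 0) (XT.nd (nat_lit 468) (nat_lit 2052) (nat_lit 0) (XT.nd (nat_lit 234) (nat_lit 684) (nat_lit 0) (XT.nd (nat_lit 78) (nat_lit 684) (nat_lit 0) (XT.lf (nat_lit 0) (nat_lit 4162351388) (nat_lit 380) (nat_lit 15313930113) (nat_lit 456) (nat_lit 1562265016) (nat_lit 135) (nat_lit 5) (nat_lit 140) (nat_lit 5) (nat_lit 141) (nat_lit 5) (nat_lit 483) (nat_lit 418) (nat_lit 299)) (XT.nd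 (nat_lit 78) (nat_lit 304) (nat_lit 0) (XT.lf (nat_lit 0) (nat_lit 2710910992) (nat_lit 304) (nat_lit 3753498666) (nat_lit 380) (nat_lit 14963945522) (nat_lit 130) (nat_lit 5) (nat_lit 134) (nat_lit 5) (nat_lit 135) (nat_lit 5) (nat_lit 484) (nat_lit 418) (nat_lit 298)) (XT.lf (nat_lit 0) (nat_lit 1208076658) (nat_lit 304) (nat_lit 13658613426) (nat_lit 380) (nat_lit 6959841425) (nat_lit 126) (nat_lit 5) (nat_lit 130) (nat_lit 5) (nat_lit 131) (nat_lit 5) (nat_lit 485) (nat_lit 418) (nat_lit 297)))) (XT.nd (nat_lit 78) (nat_lit 608) (nat_lit 0) (XT.lf (nat_lit 0) (nat_lit 1400571086) (nat_lit 380) (nat_lit 313245413) (nat_lit 76) (nat_lit 20520009765) (nat_lit 125) (nat_lit 5) (nat_lit 130) (nat_lit 5) (nat_lit 126) (nat_lit 5) (nat_lit 486) (nat_lit 418) (nat_lit 296)) (XT.nd (nat_lit 78) (nat_lit 304) (nat_lit 0) (XT.lf (nat_lit 0) (nat_lit 10103502654) (nat_lit 380) (nat_lit 1924124819) (nat_lit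 76) (nat_lit 10621067533) (nat_lit 121) (nat_lit 5) (nat_lit 126) (nat_lit 5) (nat_lit 122) (nat_lit 5) (nat_lit 487) (nat_lit 418) (nat_lit 295)) (XT.lf (nat_lit 0) (nat_lit 19191311459) (nat_lit 380) (nat_lit 3540514962) (nat_lit 76) (nat_lit 341708097) (nat_lit 117) (nat_lit 5) (nat_lit 122) (nat_lit 5) (nat_lit 118) (nat_lit 5) (nat_lit 488) (nat_lit 418) (nat_lit 294))))) (XT.nd (nat_lit 234) (nat_lit 1140) (nat_lit 0) (XT.nd (nat_lit 78) (nat_lit 608) (nat_lit 0) (XT.lf (nat_lit 0) (nat_lit 5169415284) (nat_lit 304) (nat_lit 5263753931) (nat_lit 76) (nat_lit 13073398150) (nat_lit 113) (nat_lit 5) (nat_lit 117) (nat_lit 5) (nat_lit 114) (nat_lit 5) (nat_lit 489) (nat_lit 418) (nat_lit 293)) (XT.nd (nat_lit 78) (nat_lit 304) (nat_lit 0) (XT.lf (nat_lit 0) (nat_lit 14571392248) (nat_lit 380) (nat_lit 7023972832) (nat_lit 76) (nat_lit 2354082671) (nat_lit 109) (nat_lit 5) (nat_lit 114) (nat_lit 5)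 (nat_lit 110) (nat_lit 5) (nat_lit 490) (nat_lit 418) (nat_lit 292)) (XT.lf (nat_lit 0) (nat_lit 41535663) (nat_lit 304) (nat_lit 8851213063) (nat_lit 76) (nat_lit 15509090717) (nat_lit 105) (nat_lit 5) (nat_lit 109) (nat_lit 5) (nat_lit 106) (nat_lit 5) (nat_lit 491) (nat_lit 418) (nat_lit 291)))) (XT.nd (nat_lit 156) (nat_lit 608) (nat_lit 0) (XT.nd (nat_lit 78) (nat_lit 228) (nat_lit 0) (XT.lf (nat_lit 0) (nat_lit 9767187329) (nat_lit 380) (nat_lit 10768937080) (nat_lit 76) (nat_lit 4327421446) (nat_lit 101) (nat_lit 5) (nat_lit 106) (nat_lit 5) (nat_lit 102) (nat_lit 5) (nat_lit 492) (nat_lit 418) (nat_lit 290)) (XT.lf (nat_lit 0) (nat_lit 12587179627) (nat_lit 228) (nat_lit 7381323537) (nat_lit 304) (nat_lit 5366922810) (nat_lit 98) (nat_lit 5) (nat_lit 101) (nat_lit 5) (nat_lit 102) (nat_lit 5) (nat_lit 493) (nat_lit 418) (nat_lit 289))) (XT.nd (nat_lit 78) (nat_lit 228) (nat_lit 0) (XT.lf (nat_lit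 0) (nat_lit 4762252773) (nat_lit 380) (nat_lit 14803590896) (nat_lit 76) (nat_lit 6251636828) (nat_lit 93) (nat_lit 5) (nat_lit 98) (nat_lit 5) (nat_lit 94) (nat_lit 5) (nat_lit 494) (nat_lit 418) (nat_lit 288)) (XT.lf (nat_lit 0) (nat_lit 9358413688) (nat_lit 228) (nat_lit 5944242526) (nat_lit 304) (nat_lit 11007025952) (nat_lit 90) (nat_lit 5) (nat_lit 93) (nat_lit 5) (nat_lit 94) (nat_lit 5) (nat_lit 495) (nat_lit 418) (nat_lit 287)))))) (XT.nd (nat_lit 56706) (nat_lit 0) (nat_lit 37392) (XT.nd (nat_lit 234) (nat_lit 304) (nat_lit 0) (XT.nd (nat_lit 78) (nat_lit 532) (nat_lit 0) (XT.lf (nat_lit 0) (nat_lit 7651051726) (nat_lit 228) (nat_lit 18694377813) (nat_lit 304) (nat_lit 467497557) (nat_lit 87) (nat_lit 5) (nat_lit 90) (nat_lit 5) (nat_lit 91) (nat_lit 5) (nat_lit 496) (nat_lit 418) (nat_lit 286)) (XT.nd (nat_lit 78) (nat_lit 228) (nat_lit 0) (XT.lf (nat_lit 0) (nat_lit 5833909738) (nat_lit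 228) (nat_lit 4594521474) (nat_lit 304) (nat_lit 16897960410) (nat_lit 83) (nat_lit 5) (nat_lit 86) (nat_lit 5) (nat_lit 87) (nat_lit 5) (nat_lit 497) (nat_lit 418) (nat_lit 285)) (XT.lf (nat_lit 0) (nat_lit 3943545885) (nat_lit 228) (nat_lit 17905573657) (nat_lit 304) (nat_lit 6001994414) (nat_lit 80) (nat_lit 5) (nat_lit 83) (nat_lit 5) (nat_lit 84) (nat_lit 5) (nat_lit 498) (nat_lit 418) (nat_lit 284)))) (XT.nd (nat_lit 56316) (nat_lit 0) (nat_lit 40052) (XT.nd (nat_lit 56238) (nat_lit 0) (nat_lit 40052) (XT.lf (nat_lit 0) (nat_lit 1979889376) (nat_lit 228) (nat_lit 3346288105) (nat_lit 304) (nat_lit 23061246872) (nat_lit 76) (nat_lit 5) (nat_lit 79) (nat_lit 5) (nat_lit 80) (nat_lit 5) (nat_lit 499) (nat_lit 418) (nat_lit 283)) (XT.lf (nat_lit 0) (nat_lit 2016484930) (nat_lit 1444) (nat_lit 985258565) (nat_lit 1444) (nat_lit 985258565) (nat_lit 603) (nat_lit 3) (nat_lit 622) (nat_lit 3) (nat_lit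 622) (nat_lit 5) (nat_lit 419) (nat_lit 419) (nat_lit 362))) (XT.nd (nat_lit 78) (nat_lit 0) (nat_lit 76) (XT.lf (nat_lit 76) (nat_lit 4013914971) (nat_lit 0) (nat_lit 1926889672) (nat_lit 1444) (nat_lit 2115730681) (nat_lit 604) (nat_lit 5) (nat_lit 603) (nat_lit 3) (nat_lit 622) (nat_lit 5) (nat_lit 420) (nat_lit 419) (nat_lit 361)) (XT.lf (nat_lit 76) (nat_lit 2037063112) (nat_lit 0) (nat_lit 5839136558) (nat_lit 1444) (nat_lit 265941440) (nat_lit 605) (nat_lit 5) (nat_lit 604) (nat_lit 5) (nat_lit 623) (nat_lit 5) (nat_lit 421) (nat_lit 419) (nat_lit 360))))) (XT.nd (nat_lit 234) (nat_lit 1292) (nat_lit 0) (XT.nd (nat_lit 78) (nat_lit 0) (nat_lit 76) (XT.lf (nat_lit 76) (nat_lit 63123035) (nat_lit 0) (nat_lit 1525857869) (nat_lit 1520) (nat_lit 6641703404) (nat_lit 586) (nat_lit 5) (nat_lit 585) (nat_lit 5) (nat_lit 605) (nat_lit 5) (nat_lit 422) (nat_lit 419) (nat_lit 359)) (XT.nd (nat_lit 78)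 (nat_lit 0) (nat_lit 0) (XT.lf (nat_lit 0) (nat_lit 3488786446) (nat_lit 1444) (nat_lit 1881738911) (nat_lit 1520) (nat_lit 2951471077) (nat_lit 586) (nat_lit 5) (nat_lit 605) (nat_lit 5) (nat_lit 606) (nat_lit 5) (nat_lit 423) (nat_lit 419) (nat_lit 358)) (XT.lf (nat_lit 76) (nat_lit 4604365864) (nat_lit 0) (nat_lit 815538585) (nat_lit 1520) (nat_lit 2996661734) (nat_lit 587) (nat_lit 5) (nat_lit 586) (nat_lit 5) (nat_lit 606) (nat_lit 5) (nat_lit 424) (nat_lit 419) (nat_lit 357)))) (XT.nd (nat_lit 156) (nat_lit 0) (nat_lit 0) (XT.nd (nat_lit 78) (nat_lit 1444) (nat_lit 0) (XT.lf (nat_lit 76) (nat_lit 2768848397) (nat_lit 0) (nat_lit 4632146977) (nat_lit 1520) (nat_lit 1113141351) (nat_lit 588) (nat_lit 5) (nat_lit 587) (nat_lit 5) (nat_lit 607) (nat_lit 5) (nat_lit 425) (nat_lit 419) (nat_lit 356)) (XT.lf (nat_lit 0) (nat_lit 791918104) (nat_lit 1520) (nat_lit 7668734768) (nat_lit 1596) (nat_lit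 154360847) (nat_lit 568) (nat_lit 5) (nat_lit 588) (nat_lit 5) (nat_lit 589) (nat_lit 5) (nat_lit 426) (nat_lit 419) (nat_lit 355))) (XT.nd (nat_lit 78) (nat_lit 0) (nat_lit 76) (XT.lf (nat_lit 0) (nat_lit 2748233704) (nat_lit 1520) (nat_lit 879821842) (nat_lit 1596) (nat_lit 5090533917) (nat_lit 568) (nat_lit 5) (nat_lit 588) (nat_lit 5) (nat_lit 589) (nat_lit 5) (nat_lit 427) (nat_lit 419) (nat_lit 354)) (XT.lf (nat_lit 0) (nat_lit 4753106777) (nat_lit 1520) (nat_lit 2680413269) (nat_lit 1596) (nat_lit 1391959100) (nat_lit 569) (nat_lit 5) (nat_lit 589) (nat_lit 5) (nat_lit 590) (nat_lit 5) (nat_lit 428) (nat_lit 419) (nat_lit 353))))))) (XT.nd (nat_lit 1092) (nat_lit 9272) (nat_lit 0) (XT.nd (nat_lit 546) (nat_lit 8208) (nat_lit 0) (XT.nd (nat_lit 234) (nat_lit 1444) (nat_lit 0) (XT.nd (nat_lit 78) (nat_lit 1520) (nat_lit 0) (XT.lf (nat_lit 76) (nat_lit 4451650345) (nat_lit 0) (nat_lit 2367996189)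 (nat_lit 1596) (nat_lit 2115902487) (nat_lit 570) (nat_lit 5) (nat_lit 569) (nat_lit 5) (nat_lit 590) (nat_lit 5) (nat_lit 429) (nat_lit 419) (nat_lit 352)) (XT.nd (nat_lit 78) (nat_lit 1596) (nat_lit 0) (XT.lf (nat_lit 76) (nat_lit 2763111488) (nat_lit 0) (nat_lit 6183685589) (nat_lit 1596) (nat_lit 102155420) (nat_lit 571) (nat_lit 5) (nat_lit 570) (nat_lit 5) (nat_lit 591) (nat_lit 5) (nat_lit 430) (nat_lit 419) (nat_lit 351)) (XT.lf (nat_lit 76) (nat_lit 1068535303) (nat_lit 0) (nat_lit 875865465) (nat_lit 1672) (nat_lit 7221139653) (nat_lit 550) (nat_lit 5) (nat_lit 549) (nat_lit 5) (nat_lit 571) (nat_lit 5) (nat_lit 431) (nat_lit 419) (nat_lit 350)))) (XT.nd (nat_lit 156) (nat_lit 1520) (nat_lit 0) (XT.nd (nat_lit 78) (nat_lit 0) (nat_lit 76) (XT.lf (nat_lit 0) (nat_lit 4069998301) (nat_lit 1596) (nat_lit 626874029) (nat_lit 1672) (nat_lit 4588363006) (nat_lit 550) (nat_lit 5) (nat_lit 571) (nat_lit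 5) (nat_lit 572) (nat_lit 5) (nat_lit 432) (nat_lit 419) (nat_lit 349)) (XT.lf (nat_lit 0) (nat_lit 6264874936) (nat_lit 1596) (nat_lit 2298980779) (nat_lit 1672) (nat_lit 844558567) (nat_lit 551) (nat_lit 5) (nat_lit 572) (nat_lit 5) (nat_lit 573) (nat_lit 5) (nat_lit 433) (nat_lit 419) (nat_lit 348))) (XT.nd (nat_lit 78) (nat_lit 1596) (nat_lit 0) (XT.lf (nat_lit 76) (nat_lit 5552419603) (nat_lit 0) (nat_lit 2994156056) (nat_lit 1672) (nat_lit 988296687) (nat_lit 552) (nat_lit 5) (nat_lit 551) (nat_lit 5) (nat_lit 573) (nat_lit 5) (nat_lit 434) (nat_lit 419) (nat_lit 347)) (XT.lf (nat_lit 0) (nat_lit 1225501475) (nat_lit 1672) (nat_lit 5672999277) (nat_lit 76) (nat_lit 2766265602) (nat_lit 530) (nat_lit 5) (nat_lit 552) (nat_lit 5) (nat_lit 531) (nat_lit 5) (nat_lit 435) (nat_lit 419) (nat_lit 346))))) (XT.nd (nat_lit 234) (nat_lit 4788) (nat_lit 0) (XT.nd (nat_lit 78) (nat_lit 1748) (nat_lit 0)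 (XT.lf (nat_lit 0) (nat_lit 2426148123) (nat_lit 1672) (nat_lit 1080542823) (nat_lit 1748) (nat_lit 6291450551) (nat_lit 508) (nat_lit 5) (nat_lit 530) (nat_lit 5) (nat_lit 531) (nat_lit 5) (nat_lit 436) (nat_lit 419) (nat_lit 345)) (XT.nd (nat_lit 78) (nat_lit 0) (nat_lit 0) (XT.lf (nat_lit 0) (nat_lit 849254199) (nat_lit 1748) (nat_lit 5035757286) (nat_lit 1824) (nat_lit 4049935469) (nat_lit 485) (nat_lit 5) (nat_lit 508) (nat_lit 5) (nat_lit 509) (nat_lit 5) (nat_lit 437) (nat_lit 419) (nat_lit 344)) (XT.lf (nat_lit 0) (nat_lit 8352182431) (nat_lit 1824) (nat_lit 711818818) (nat_lit 76) (nat_lit 1011508190) (nat_lit 485) (nat_lit 5) (nat_lit 509) (nat_lit 5) (nat_lit 486) (nat_lit 5) (nat_lit 438) (nat_lit 419) (nat_lit 343)))) (XT.nd (nat_lit 156) (nat_lit 1824) (nat_lit 0) (XT.nd (nat_lit 78) (nat_lit 1064) (nat_lit 0) (XT.lf (nat_lit 0) (nat_lit 704868029) (nat_lit 1900) (nat_lit 2280358096)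 (nat_lit 76) (nat_lit 7234165697) (nat_lit 460) (nat_lit 5) (nat_lit 485) (nat_lit 5) (nat_lit 461) (nat_lit 5) (nat_lit 439) (nat_lit 419) (nat_lit 342)) (XT.lf (nat_lit 0) (nat_lit 3207397661) (nat_lit 1140) (nat_lit 3863251319) (nat_lit 76) (nat_lit 3296218494) (nat_lit 446) (nat_lit 5) (nat_lit 461) (nat_lit 5) (nat_lit 447) (nat_lit 5) (nat_lit 440) (nat_lit 419) (nat_lit 341))) (XT.nd (nat_lit 78) (nat_lit 912) (nat_lit 0) (XT.lf (nat_lit 0) (nat_lit 5070098071) (nat_lit 912) (nat_lit 740255057) (nat_lit 988) (nat_lit 4707909853) (nat_lit 434) (nat_lit 5) (nat_lit 446) (nat_lit 5) (nat_lit 447) (nat_lit 5) (nat_lit 441) (nat_lit 419) (nat_lit 340)) (XT.lf (nat_lit 0) (nat_lit 3620022752) (nat_lit 912) (nat_lit 4916685941) (nat_lit 988) (nat_lit 2136587941) (nat_lit 422) (nat_lit 5) (nat_lit 434) (nat_lit 5) (nat_lit 435) (nat_lit 5) (nat_lit 442) (nat_lit 419) (nat_lit 339)))))) (XT.nd (nat_lit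 546) (nat_lit 4256) (nat_lit 0) (XT.nd (nat_lit 234) (nat_lit 3268) (nat_lit 0) (XT.nd (nat_lit 78) (nat_lit 836) (nat_lit 0) (XT.lf (nat_lit 0) (nat_lit 530856800) (nat_lit 912) (nat_lit 8661021434) (nat_lit 76) (nat_lit 1640525053) (nat_lit 410) (nat_lit 5) (nat_lit 422) (nat_lit 5) (nat_lit 411) (nat_lit 5) (nat_lit 443) (nat_lit 419) (nat_lit 338)) (XT.nd (nat_lit 78) (nat_lit 0) (nat_lit 0) (XT.lf (nat_lit 0) (nat_lit 695164549) (nat_lit 836) (nat_lit 2599376740) (nat_lit 912) (nat_lit 7700556828) (nat_lit 399) (nat_lit 5) (nat_lit 410) (nat_lit 5) (nat_lit 411) (nat_lit 5) (nat_lit 444) (nat_lit 419) (nat_lit 337)) (XT.lf (nat_lit 0) (nat_lit 6187915497) (nat_lit 912) (nat_lit 779107318) (nat_lit 76) (nat_lit 4194717643) (nat_lit 399) (nat_lit 5) (nat_lit 411) (nat_lit 5) (nat_lit 400) (nat_lit 5) (nat_lit 445) (nat_lit 419) (nat_lit 336)))) (XT.nd (nat_lit 156) (nat_lit 1520) (nat_lit 0) (XT.nd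 (nat_lit 78) (nat_lit 912) (nat_lit 0) (XT.lf (nat_lit 0) (nat_lit 9089758735) (nat_lit 836) (nat_lit 116373475) (nat_lit 912) (nat_lit 2126491221) (nat_lit 388) (nat_lit 5) (nat_lit 399) (nat_lit 5) (nat_lit 400) (nat_lit 5) (nat_lit 446) (nat_lit 419) (nat_lit 335)) (XT.lf (nat_lit 0) (nat_lit 859451468) (nat_lit 912) (nat_lit 3738847191) (nat_lit 76) (nat_lit 6908956354) (nat_lit 376) (nat_lit 5) (nat_lit 388) (nat_lit 5) (nat_lit 377) (nat_lit 5) (nat_lit 447) (nat_lit 419) (nat_lit 334))) (XT.nd (nat_lit 78) (nat_lit 760) (nat_lit 0) (XT.lf (nat_lit 0) (nat_lit 3943726697) (nat_lit 836) (nat_lit 5248753851) (nat_lit 76) (nat_lit 2493612993) (nat_lit 366) (nat_lit 5) (nat_lit 377) (nat_lit 5) (nat_lit 367) (nat_lit 5) (nat_lit 448) (nat_lit 419) (nat_lit 333)) (XT.lf (nat_lit 0) (nat_lit 5096686106) (nat_lit 760) (nat_lit 2077089196) (nat_lit 836) (nat_lit 4695458982) (nat_lit 356) (nat_lit 5)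 (nat_lit 366) (nat_lit 5) (nat_lit 367) (nat_lit 5) (nat_lit 449) (nat_lit 419) (nat_lit 332))))) (XT.nd (nat_lit 234) (nat_lit 2052) (nat_lit 0) (XT.nd (nat_lit 78) (nat_lit 1520) (nat_lit 0) (XT.lf (nat_lit 0) (nat_lit 3742442298) (nat_lit 684) (nat_lit 6817158815) (nat_lit 760) (nat_lit 1497092525) (nat_lit 347) (nat_lit 5) (nat_lit 356) (nat_lit 5) (nat_lit 357) (nat_lit 5) (nat_lit 450) (nat_lit 419) (nat_lit 331)) (XT.nd (nat_lit 78) (nat_lit 684) (nat_lit 0) (XT.lf (nat_lit 0) (nat_lit 1818124949) (nat_lit 836) (nat_lit 9869612293) (nat_lit 76) (nat_lit 560918548) (nat_lit 336) (nat_lit 5) (nat_lit 347) (nat_lit 5) (nat_lit 337) (nat_lit 5) (nat_lit 451) (nat_lit 419) (nat_lit 330)) (XT.lf (nat_lit 0) (nat_lit 979240997) (nat_lit 684) (nat_lit 4307948930) (nat_lit 760) (nat_lit 7157496111) (nat_lit 327) (nat_lit 5) (nat_lit 336) (nat_lit 5) (nat_lit 337) (nat_lit 5) (nat_lit 452) (nat_lit 419)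 (nat_lit 329)))) (XT.nd (nat_lit 156) (nat_lit 1368) (nat_lit 0) (XT.nd (nat_lit 78) (nat_lit 684) (nat_lit 0) (XT.lf (nat_lit 0) (nat_lit 8915691078) (nat_lit 760) (nat_lit 417744301) (nat_lit 76) (nat_lit 3312056240) (nat_lit 327) (nat_lit 5) (nat_lit 337) (nat_lit 5) (nat_lit 328) (nat_lit 5) (nat_lit 453) (nat_lit 419) (nat_lit 328)) (XT.lf (nat_lit 0) (nat_lit 11039187743) (nat_lit 684) (nat_lit 1681973332) (nat_lit 760) (nat_lit 129799674) (nat_lit 318) (nat_lit 5) (nat_lit 327) (nat_lit 5) (nat_lit 328) (nat_lit 5) (nat_lit 454) (nat_lit 419) (nat_lit 327))) (XT.nd (nat_lit 78) (nat_lit 684) (nat_lit 0) (XT.lf (nat_lit 0) (nat_lit 3607004579) (nat_lit 684) (nat_lit 3251259658) (nat_lit 76) (nat_lit 6202352010) (nat_lit 309) (nat_lit 5) (nat_lit 318) (nat_lit 5) (nat_lit 310) (nat_lit 5) (nat_lit 455) (nat_lit 419) (nat_lit 326)) (XT.lf (nat_lit 0) (nat_lit 7509366239) (nat_lit 760) (nat_lit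 4692524688) (nat_lit 76) (nat_lit 1073550522) (nat_lit 300) (nat_lit 5) (nat_lit 310) (nat_lit 5) (nat_lit 301) (nat_lit 5) (nat_lit 456) (nat_lit 419) (nat_lit 325))))))))
noncomputable def xc66 : XT := (XT.nd (nat_lit 2106) (nat_lit 4864) (nat_lit 0) (XT.nd (nat_lit 1014) (nat_lit 5396) (nat_lit 0) (XT.nd (nat_lit 468) (nat_lit 3116) (nat_lit 0) (XT.nd (nat_lit 234) (nat_lit 1748) (nat_lit 0) (XT.nd (nat_lit 78) (nat_lit 1292) (nat_lit 0) (XT.lf (nat_lit 0) (nat_lit 7332609758) (nat_lit 608) (nat_lit 4281226904) (nat_lit 684) (nat_lit 1881175473) (nat_lit 292) (nat_lit 5) (nat_lit 300) (nat_lit 5) (nat_lit 301) (nat_lit 5) (nat_lit 457) (nat_lit 419) (nat_lit 324)) (XT.nd (nat_lit 78) (nat_lit 608) (nat_lit 0) (XT.lf (nat_lit 0) (nat_lit 2159541398) (nat_lit 684) (nat_lit 7655347953) (nat_lit 76) (nat_lit 3904665127) (nat_lit 283) (nat_lit 5) (nat_lit 292) (nat_lit 5) (nat_lit 284) (nat_lit 5) (nat_lit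 458) (nat_lit 419) (nat_lit 323)) (XT.lf (nat_lit 0) (nat_lit 4775493089) (nat_lit 608) (nat_lit 1592672104) (nat_lit 684) (nat_lit 7580975717) (nat_lit 275) (nat_lit 5) (nat_lit 283) (nat_lit 5) (nat_lit 284) (nat_lit 5) (nat_lit 459) (nat_lit 419) (nat_lit 322)))) (XT.nd (nat_lit 78) (nat_lit 1140) (nat_lit 0) (XT.lf (nat_lit 0) (nat_lit 3462353894) (nat_lit 608) (nat_lit 7331032479) (nat_lit 684) (nat_lit 3390423124) (nat_lit 267) (nat_lit 5) (nat_lit 275) (nat_lit 5) (nat_lit 276) (nat_lit 5) (nat_lit 460) (nat_lit 419) (nat_lit 321)) (XT.nd (nat_lit 78) (nat_lit 532) (nat_lit 0) (XT.lf (nat_lit 0) (nat_lit 979979488) (nat_lit 608) (nat_lit 12279309953) (nat_lit 76) (nat_lit 1164784225) (nat_lit 259) (nat_lit 5) (nat_lit 267) (nat_lit 5) (nat_lit 260) (nat_lit 5) (nat_lit 461) (nat_lit 419) (nat_lit 320)) (XT.lf (nat_lit 0) (nat_lit 774401943) (nat_lit 532) (nat_lit 4760427924) (nat_lit 608) (nat_lit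 9134280948) (nat_lit 252) (nat_lit 5) (nat_lit 259) (nat_lit 5) (nat_lit 260) (nat_lit 5) (nat_lit 462) (nat_lit 419) (nat_lit 319))))) (XT.nd (nat_lit 234) (nat_lit 1976) (nat_lit 0) (XT.nd (nat_lit 78) (nat_lit 1140) (nat_lit 0) (XT.lf (nat_lit 0) (nat_lit 10308481934) (nat_lit 608) (nat_lit 595603189) (nat_lit 76) (nat_lit 4015772029) (nat_lit 252) (nat_lit 5) (nat_lit 260) (nat_lit 5) (nat_lit 253) (nat_lit 5) (nat_lit 463) (nat_lit 419) (nat_lit 318)) (XT.nd (nat_lit 78) (nat_lit 532) (nat_lit 0) (XT.lf (nat_lit 0) (nat_lit 138058915) (nat_lit 608) (nat_lit 1969369550) (nat_lit 76) (nat_lit 13068863215) (nat_lit 244) (nat_lit 5) (nat_lit 252) (nat_lit 5) (nat_lit 245) (nat_lit 5) (nat_lit 464) (nat_lit 419) (nat_lit 317)) (XT.lf (nat_lit 0) (nat_lit 5069675821) (nat_lit 608) (nat_lit 3401351330) (nat_lit 76) (nat_lit 6966736569) (nat_lit 237) (nat_lit 5) (nat_lit 245) (nat_lit 5) (nat_lit 238)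 (nat_lit 5) (nat_lit 465) (nat_lit 419) (nat_lit 316)))) (XT.nd (nat_lit 156) (nat_lit 988) (nat_lit 0) (XT.nd (nat_lit 78) (nat_lit 532) (nat_lit 0) (XT.lf (nat_lit 0) (nat_lit 10225745443) (nat_lit 532) (nat_lit 4834577337) (nat_lit 76) (nat_lit 645228132) (nat_lit 231) (nat_lit 5) (nat_lit 238) (nat_lit 5) (nat_lit 232) (nat_lit 5) (nat_lit 466) (nat_lit 419) (nat_lit 315)) (XT.lf (nat_lit 0) (nat_lit 9671634105) (nat_lit 532) (nat_lit 5982094120) (nat_lit 608) (nat_lit 325299916) (nat_lit 224) (nat_lit 5) (nat_lit 231) (nat_lit 5) (nat_lit 232) (nat_lit 5) (nat_lit 467) (nat_lit 419) (nat_lit 314))) (XT.nd (nat_lit 78) (nat_lit 456) (nat_lit 0) (XT.lf (nat_lit 0) (nat_lit 5003930824) (nat_lit 532) (nat_lit 7819126693) (nat_lit 76) (nat_lit 3435296916) (nat_lit 217) (nat_lit 5) (nat_lit 224) (nat_lit 5) (nat_lit 218) (nat_lit 5) (nat_lit 468) (nat_lit 419) (nat_lit 313)) (XT.lf (nat_lit 0) (nat_lit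 7186025345) (nat_lit 456) (nat_lit 3407675981) (nat_lit 532) (nat_lit 5950215499) (nat_lit 211) (nat_lit 5) (nat_lit 217) (nat_lit 5) (nat_lit 218) (nat_lit 5) (nat_lit 469) (nat_lit 419) (nat_lit 312)))))) (XT.nd (nat_lit 546) (nat_lit 2660) (nat_lit 0) (XT.nd (nat_lit 234) (nat_lit 1368) (nat_lit 0) (XT.nd (nat_lit 78) (nat_lit 912) (nat_lit 0) (XT.lf (nat_lit 0) (nat_lit 5912748698) (nat_lit 456) (nat_lit 10546778497) (nat_lit 532) (nat_lit 376352585) (nat_lit 205) (nat_lit 5) (nat_lit 211) (nat_lit 5) (nat_lit 212) (nat_lit 5) (nat_lit 470) (nat_lit 419) (nat_lit 311)) (XT.nd (nat_lit 78) (nat_lit 380) (nat_lit 0) (XT.lf (nat_lit 0) (nat_lit 4601848196) (nat_lit 456) (nat_lit 785138104) (nat_lit 532) (nat_lit 11747067200) (nat_lit 198) (nat_lit 5) (nat_lit 204) (nat_lit 5) (nat_lit 205) (nat_lit 5) (nat_lit 471) (nat_lit 419) (nat_lit 310)) (XT.lf (nat_lit 0) (nat_lit 3247232052) (nat_lit 380)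 (nat_lit 8203208378) (nat_lit 456) (nat_lit 5988036546) (nat_lit 193) (nat_lit 5) (nat_lit 198) (nat_lit 5) (nat_lit 199) (nat_lit 5) (nat_lit 472) (nat_lit 419) (nat_lit 309)))) (XT.nd (nat_lit 156) (nat_lit 456) (nat_lit 0) (XT.nd (nat_lit 78) (nat_lit 380) (nat_lit 0) (XT.lf (nat_lit 0) (nat_lit 36669566) (nat_lit 532) (nat_lit 15856161354) (nat_lit 76) (nat_lit 1857367023) (nat_lit 186) (nat_lit 5) (nat_lit 193) (nat_lit 5) (nat_lit 187) (nat_lit 5) (nat_lit 473) (nat_lit 419) (nat_lit 308)) (XT.lf (nat_lit 0) (nat_lit 463173008) (nat_lit 380) (nat_lit 5829938458) (nat_lit 456) (nat_lit 11774721283) (nat_lit 181) (nat_lit 5) (nat_lit 186) (nat_lit 5) (nat_lit 187) (nat_lit 5) (nat_lit 474) (nat_lit 419) (nat_lit 307))) (XT.nd (nat_lit 78) (nat_lit 456) (nat_lit 0) (XT.lf (nat_lit 0) (nat_lit 12852438040) (nat_lit 456) (nat_lit 967836805) (nat_lit 76) (nat_lit 4572418701) (nat_lit 181) (nat_lit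 5) (nat_lit 187) (nat_lit 5) (nat_lit 182) (nat_lit 5) (nat_lit 475) (nat_lit 419) (nat_lit 306)) (XT.lf (nat_lit 0) (nat_lit 993627205) (nat_lit 456) (nat_lit 2421337092) (nat_lit 76) (nat_lit 15309743364) (nat_lit 175) (nat_lit 5) (nat_lit 181) (nat_lit 5) (nat_lit 176) (nat_lit 5) (nat_lit 476) (nat_lit 419) (nat_lit 305))))) (XT.nd (nat_lit 234) (nat_lit 1444) (nat_lit 0) (XT.nd (nat_lit 78) (nat_lit 836) (nat_lit 0) (XT.lf (nat_lit 0) (nat_lit 7780576122) (nat_lit 456) (nat_lit 3944020568) (nat_lit 76) (nat_lit 7338707404) (nat_lit 170) (nat_lit 5) (nat_lit 176) (nat_lit 5) (nat_lit 171) (nat_lit 5) (nat_lit 477) (nat_lit 419) (nat_lit 304)) (XT.nd (nat_lit 78) (nat_lit 456) (nat_lit 0) (XT.lf (nat_lit 0) (nat_lit 13934803553) (nat_lit 380) (nat_lit 945026000) (nat_lit 456) (nat_lit 4530055641) (nat_lit 165) (nat_lit 5) (nat_lit 170) (nat_lit 5) (nat_lit 171) (nat_lit 5) (nat_lit 478) (nat_lit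 419) (nat_lit 303)) (XT.lf (nat_lit 0) (nat_lit 2548964844) (nat_lit 456) (nat_lit 7074741317) (nat_lit 76) (nat_lit 10139731814) (nat_lit 159) (nat_lit 5) (nat_lit 165) (nat_lit 5) (nat_lit 160) (nat_lit 5) (nat_lit 479) (nat_lit 419) (nat_lit 302)))) (XT.nd (nat_lit 156) (nat_lit 760) (nat_lit 0) (XT.nd (nat_lit 78) (nat_lit 304) (nat_lit 0) (XT.lf (nat_lit 0) (nat_lit 9886543848) (nat_lit 456) (nat_lit 8708739362) (nat_lit 76) (nat_lit 1529561226) (nat_lit 154) (nat_lit 5) (nat_lit 160) (nat_lit 5) (nat_lit 155) (nat_lit 5) (nat_lit 480) (nat_lit 419) (nat_lit 301)) (XT.lf (nat_lit 0) (nat_lit 10098232744) (nat_lit 304) (nat_lit 7503982674) (nat_lit 380) (nat_lit 2891718994) (nat_lit 150) (nat_lit 5) (nat_lit 154) (nat_lit 5) (nat_lit 155) (nat_lit 5) (nat_lit 481) (nat_lit 419) (nat_lit 300))) (XT.nd (nat_lit 78) (nat_lit 304) (nat_lit 0) (XT.lf (nat_lit 0) (nat_lit 4736661453) (nat_lit 456) (nat_lit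 12129617206) (nat_lit 76) (nat_lit 4004757558) (nat_lit 144) (nat_lit 5) (nat_lit 150) (nat_lit 5) (nat_lit 145) (nat_lit 5) (nat_lit 482) (nat_lit 419) (nat_lit 299)) (XT.lf (nat_lit 0) (nat_lit 7331611106) (nat_lit 304) (nat_lit 5372255977) (nat_lit 380) (nat_lit 8552217069) (nat_lit 140) (nat_lit 5) (nat_lit 144) (nat_lit 5) (nat_lit 145) (nat_lit 5) (nat_lit 483) (nat_lit 419) (nat_lit 298))))))) (XT.nd (nat_lit 1014) (nat_lit 1064) (nat_lit 0) (XT.nd (nat_lit 468) (nat_lit 2052) (nat_lit 0) (XT.nd (nat_lit 234) (nat_lit 684) (nat_lit 0) (XT.nd (nat_lit 78) (nat_lit 684) (nat_lit 0) (XT.lf (nat_lit 0) (nat_lit 5895189235) (nat_lit 380) (nat_lit 15158536501) (nat_lit 456) (nat_lit 596085612) (nat_lit 135) (nat_lit 5) (nat_lit 140) (nat_lit 5) (nat_lit 141) (nat_lit 5) (nat_lit 484) (nat_lit 419) (nat_lit 297)) (XT.nd (nat_lit 78) (nat_lit 304) (nat_lit 0) (XT.lf (nat_lit 0) (nat_lit 4387216449)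 (nat_lit 304) (nat_lit 3252122955) (nat_lit 380) (nat_lit 14412219403) (nat_lit 130) (nat_lit 5) (nat_lit 134) (nat_lit 5) (nat_lit 135) (nat_lit 5) (nat_lit 485) (nat_lit 419) (nat_lit 296)) (XT.lf (nat_lit 0) (nat_lit 2828827041) (nat_lit 304) (nat_lit 13450446400) (nat_lit 380) (nat_lit 6182696070) (nat_lit 126) (nat_lit 5) (nat_lit 130) (nat_lit 5) (nat_lit 131) (nat_lit 5) (nat_lit 486) (nat_lit 419) (nat_lit 295)))) (XT.nd (nat_lit 78) (nat_lit 304) (nat_lit 0) (XT.lf (nat_lit 0) (nat_lit 1244617151) (nat_lit 304) (nat_lit 1150721665) (nat_lit 380) (nat_lit 20486422201) (nat_lit 121) (nat_lit 5) (nat_lit 125) (nat_lit 5) (nat_lit 126) (nat_lit 5) (nat_lit 487) (nat_lit 419) (nat_lit 294)) (XT.nd (nat_lit 78) (nat_lit 304) (nat_lit 0) (XT.lf (nat_lit 0) (nat_lit 11337556382) (nat_lit 380) (nat_lit 441395837) (nat_lit 76) (nat_lit 11530560371) (nat_lit 121) (nat_lit 5) (nat_lit 126) (nat_lit 5)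 (nat_lit 122) (nat_lit 5) (nat_lit 488) (nat_lit 419) (nat_lit 293)) (XT.lf (nat_lit 0) (nat_lit 20684631022) (nat_lit 380) (nat_lit 2116879859) (nat_lit 76) (nat_lit 945854482) (nat_lit 117) (nat_lit 5) (nat_lit 122) (nat_lit 5) (nat_lit 118) (nat_lit 5) (nat_lit 489) (nat_lit 419) (nat_lit 292))))) (XT.nd (nat_lit 234) (nat_lit 1140) (nat_lit 0) (XT.nd (nat_lit 78) (nat_lit 608) (nat_lit 0) (XT.lf (nat_lit 0) (nat_lit 6231110993) (nat_lit 304) (nat_lit 3904565141) (nat_lit 76) (nat_lit 14057933537) (nat_lit 113) (nat_lit 5) (nat_lit 117) (nat_lit 5) (nat_lit 114) (nat_lit 5) (nat_lit 490) (nat_lit 419) (nat_lit 291)) (XT.nd (nat_lit 78) (nat_lit 304) (nat_lit 0) (XT.lf (nat_lit 0) (nat_lit 15902343698) (nat_lit 380) (nat_lit 5728296455) (nat_lit 76) (nat_lit 3019393040) (nat_lit 109) (nat_lit 5) (nat_lit 114) (nat_lit 5) (nat_lit 110) (nat_lit 5) (nat_lit 491) (nat_lit 419) (nat_lit 290)) (XT.lf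 (nat_lit 0) (nat_lit 926011434) (nat_lit 304) (nat_lit 7623034967) (nat_lit 76) (nat_lit 16567162885) (nat_lit 105) (nat_lit 5) (nat_lit 109) (nat_lit 5) (nat_lit 106) (nat_lit 5) (nat_lit 492) (nat_lit 419) (nat_lit 289)))) (XT.nd (nat_lit 156) (nat_lit 608) (nat_lit 0) (XT.nd (nat_lit 78) (nat_lit 228) (nat_lit 0) (XT.lf (nat_lit 0) (nat_lit 10931159767) (nat_lit 380) (nat_lit 9609074807) (nat_lit 76) (nat_lit 5051778378) (nat_lit 101) (nat_lit 5) (nat_lit 106) (nat_lit 5) (nat_lit 102) (nat_lit 5) (nat_lit 493) (nat_lit 419) (nat_lit 288)) (XT.lf (nat_lit 0) (nat_lit 14423666617) (nat_lit 228) (nat_lit 6998952747) (nat_lit 304) (nat_lit 4655748611) (nat_lit 98) (nat_lit 5) (nat_lit 101) (nat_lit 5) (nat_lit 102) (nat_lit 5) (nat_lit 494) (nat_lit 419) (nat_lit 287))) (XT.nd (nat_lit 78) (nat_lit 228) (nat_lit 0) (XT.lf (nat_lit 0) (nat_lit 5754089466) (nat_lit 380) (nat_lit 13788208235) (nat_lit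 76) (nat_lit 7032709215) (nat_lit 93) (nat_lit 5) (nat_lit 98) (nat_lit 5) (nat_lit 94) (nat_lit 5) (nat_lit 495) (nat_lit 419) (nat_lit 286)) (XT.lf (nat_lit 0) (nat_lit 11074977989) (nat_lit 228) (nat_lit 5520322009) (nat_lit 304) (nat_lit 10486983279) (nat_lit 90) (nat_lit 5) (nat_lit 93) (nat_lit 5) (nat_lit 94) (nat_lit 5) (nat_lit 496) (nat_lit 419) (nat_lit 285)))))) (XT.nd (nat_lit 56706) (nat_lit 0) (nat_lit 37240) (XT.nd (nat_lit 234) (nat_lit 304) (nat_lit 0) (XT.nd (nat_lit 78) (nat_lit 456) (nat_lit 0) (XT.lf (nat_lit 0) (nat_lit 352590469) (nat_lit 304) (nat_lit 18297497688) (nat_lit 76) (nat_lit 8950716124) (nat_lit 86) (nat_lit 5) (nat_lit 90) (nat_lit 5) (nat_lit 87) (nat_lit 5) (nat_lit 497) (nat_lit 419) (nat_lit 284)) (XT.nd (nat_lit 78) (nat_lit 228) (nat_lit 0) (XT.lf (nat_lit 0) (nat_lit 7421735471) (nat_lit 228) (nat_lit 4132408653) (nat_lit 304) (nat_lit 16575765347) (nat_lit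 83) (nat_lit 5) (nat_lit 86) (nat_lit 5) (nat_lit 87) (nat_lit 5) (nat_lit 498) (nat_lit 419) (nat_lit 283)) (XT.lf (nat_lit 0) (nat_lit 5463917372) (nat_lit 228) (nat_lit 17842745145) (nat_lit 304) (nat_lit 5363927256) (nat_lit 80) (nat_lit 5) (nat_lit 83) (nat_lit 5) (nat_lit 84) (nat_lit 5) (nat_lit 499) (nat_lit 419) (nat_lit 282)))) (XT.nd (nat_lit 56316) (nat_lit 0) (nat_lit 38608) (XT.nd (nat_lit 56238) (nat_lit 0) (nat_lit 40052) (XT.lf (nat_lit 0) (nat_lit 3429175768) (nat_lit 228) (nat_lit 2849691810) (nat_lit 304) (nat_lit 22944305977) (nat_lit 76) (nat_lit 5) (nat_lit 79) (nat_lit 5) (nat_lit 80) (nat_lit 5) (nat_lit 500) (nat_lit 419) (nat_lit 281)) (XT.lf (nat_lit 0) (nat_lit 3880751464) (nat_lit 1444) (nat_lit 94827216) (nat_lit 1444) (nat_lit 94827216) (nat_lit 603) (nat_lit 3) (nat_lit 622) (nat_lit 3) (nat_lit 622) (nat_lit 5) (nat_lit 420) (nat_lit 420) (nat_lit 360))) (XT.nd (nat_lit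 78) (nat_lit 0) (nat_lit 76) (XT.lf (nat_lit 0) (nat_lit 1387124073) (nat_lit 1444) (nat_lit 2292359623) (nat_lit 1520) (nat_lit 4548026767) (nat_lit 584) (nat_lit 5) (nat_lit 603) (nat_lit 3) (nat_lit 604) (nat_lit 5) (nat_lit 421) (nat_lit 420) (nat_lit 359)) (XT.lf (nat_lit 0) (nat_lit 3165727829) (nat_lit 1444) (nat_lit 4379508567) (nat_lit 1520) (nat_lit 772241692) (nat_lit 585) (nat_lit 5) (nat_lit 604) (nat_lit 5) (nat_lit 605) (nat_lit 5) (nat_lit 422) (nat_lit 420) (nat_lit 358))))) (XT.nd (nat_lit 234) (nat_lit 0) (nat_lit 76) (XT.nd (nat_lit 78) (nat_lit 1444) (nat_lit 0) (XT.lf (nat_lit 76) (nat_lit 1941022140) (nat_lit 0) (nat_lit 3043784198) (nat_lit 1520) (nat_lit 3425600695) (nat_lit 586) (nat_lit 5) (nat_lit 585) (nat_lit 5) (nat_lit 605) (nat_lit 5) (nat_lit 423) (nat_lit 420) (nat_lit 357)) (XT.nd (nat_lit 78) (nat_lit 1520) (nat_lit 0) (XT.lf (nat_lit 0) (nat_lit 6834807155) (nat_lit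 1444) (nat_lit 42306228) (nat_lit 1520) (nat_lit 1629487954) (nat_lit 586) (nat_lit 5) (nat_lit 605) (nat_lit 5) (nat_lit 606) (nat_lit 5) (nat_lit 424) (nat_lit 420) (nat_lit 356)) (XT.lf (nat_lit 0) (nat_lit 134116744) (nat_lit 1520) (nat_lit 1998919927) (nat_lit 1596) (nat_lit 6472606473) (nat_lit 566) (nat_lit 5) (nat_lit 586) (nat_lit 5) (nat_lit 587) (nat_lit 5) (nat_lit 425) (nat_lit 420) (nat_lit 355)))) (XT.nd (nat_lit 156) (nat_lit 0) (nat_lit 76) (XT.nd (nat_lit 78) (nat_lit 0) (nat_lit 0) (XT.lf (nat_lit 0) (nat_lit 1960315185) (nat_lit 1520) (nat_lit 3963398344) (nat_lit 1596) (nat_lit 2783949346) (nat_lit 567) (nat_lit 5) (nat_lit 587) (nat_lit 5) (nat_lit 588) (nat_lit 5) (nat_lit 426) (nat_lit 420) (nat_lit 354)) (XT.lf (nat_lit 76) (nat_lit 2890954211) (nat_lit 0) (nat_lit 937871245) (nat_lit 1596) (nat_lit 4984171253) (nat_lit 568) (nat_lit 5) (nat_lit 567) (nat_lit 5) (nat_lit 588)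 (nat_lit 5) (nat_lit 427) (nat_lit 420) (nat_lit 353))) (XT.nd (nat_lit 78) (nat_lit 0) (nat_lit 76) (XT.lf (nat_lit 76) (nat_lit 1032414674) (nat_lit 0) (nat_lit 4724445401) (nat_lit 1596) (nat_lit 3164565013) (nat_lit 569) (nat_lit 5) (nat_lit 568) (nat_lit 5) (nat_lit 589) (nat_lit 5) (nat_lit 428) (nat_lit 420) (nat_lit 352)) (XT.lf (nat_lit 0) (nat_lit 7736252385) (nat_lit 1520) (nat_lit 803652906) (nat_lit 1596) (nat_lit 493334492) (nat_lit 569) (nat_lit 5) (nat_lit 589) (nat_lit 5) (nat_lit 590) (nat_lit 5) (nat_lit 429) (nat_lit 420) (nat_lit 351))))))))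
noncomputable def xc67 : XT := (XT.nd (nat_lit 2106) (nat_lit 12844) (nat_lit 0) (XT.nd (nat_lit 1014) (nat_lit 9500) (nat_lit 0) (XT.nd (nat_lit 468) (nat_lit 7220) (nat_lit 0) (XT.nd (nat_lit 234) (nat_lit 1444) (nat_lit 0) (XT.nd (nat_lit 78) (nat_lit 0) (nat_lit 76) (XT.lf (nat_lit 0) (nat_lit 638053471) (nat_lit 1596) (nat_lit 2641599941) (nat_lit 1672) (nat_lit 5868284667) (nat_lit 548) (nat_lit 5) (nat_lit 569) (nat_lit 5) (nat_lit 570) (nat_lit 5) (nat_lit 430) (nat_lit 420) (nat_lit 350)) (XT.nd (nat_lit 78) (nat_lit 0) (nat_lit 0) (XT.lf (nat_lit 0) (nat_lit 2611192644) (nat_lit 1596) (nat_lit 4483203183) (nat_lit 1672) (nat_lit 2171560186) (nat_lit 549) (nat_lit 5) (nat_lit 570) (nat_lit 5) (nat_lit 571) (nat_lit 5) (nat_lit 431) (nat_lit 420) (nat_lit 349)) (XT.lf (nat_lit 76) (nat_lit 3058827277) (nat_lit 0) (nat_lit 1592573803) (nat_lit 1672) (nat_lit 4735959306) (nat_lit 550) (nat_lit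 5) (nat_lit 549) (nat_lit 5) (nat_lit 571) (nat_lit 5) (nat_lit 432) (nat_lit 420) (nat_lit 348)))) (XT.nd (nat_lit 78) (nat_lit 1596) (nat_lit 0) (XT.lf (nat_lit 76) (nat_lit 1328898892) (nat_lit 0) (nat_lit 5438997882) (nat_lit 1672) (nat_lit 2744211806) (nat_lit 551) (nat_lit 5) (nat_lit 550) (nat_lit 5) (nat_lit 572) (nat_lit 5) (nat_lit 433) (nat_lit 420) (nat_lit 347)) (XT.nd (nat_lit 78) (nat_lit 1672) (nat_lit 0) (XT.lf (nat_lit 0) (nat_lit 8953958113) (nat_lit 1596) (nat_lit 388528793) (nat_lit 1672) (nat_lit 297994108) (nat_lit 551) (nat_lit 5) (nat_lit 572) (nat_lit 5) (nat_lit 573) (nat_lit 5) (nat_lit 434) (nat_lit 420) (nat_lit 346)) (XT.lf (nat_lit 0) (nat_lit 1452657690) (nat_lit 1672) (nat_lit 2115198795) (nat_lit 1748) (nat_lit 6203894052) (nat_lit 529) (nat_lit 5) (nat_lit 551) (nat_lit 5) (nat_lit 552) (nat_lit 5) (nat_lit 435) (nat_lit 420) (nat_lit 345))))) (XT.nd (nat_lit 234)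 (nat_lit 3876) (nat_lit 0) (XT.nd (nat_lit 78) (nat_lit 3420) (nat_lit 0) (XT.lf (nat_lit 0) (nat_lit 3657672571) (nat_lit 1672) (nat_lit 3844154896) (nat_lit 76) (nat_lit 2404823166) (nat_lit 530) (nat_lit 5) (nat_lit 552) (nat_lit 5) (nat_lit 531) (nat_lit 5) (nat_lit 436) (nat_lit 420) (nat_lit 344)) (XT.nd (nat_lit 78) (nat_lit 1748) (nat_lit 0) (XT.lf (nat_lit 0) (nat_lit 4465534969) (nat_lit 1672) (nat_lit 1484762136) (nat_lit 1748) (nat_lit 4094874324) (nat_lit 508) (nat_lit 5) (nat_lit 530) (nat_lit 5) (nat_lit 531) (nat_lit 5) (nat_lit 437) (nat_lit 420) (nat_lit 343)) (XT.lf (nat_lit 0) (nat_lit 2857956452) (nat_lit 1748) (nat_lit 5484434640) (nat_lit 1824) (nat_lit 1844845739) (nat_lit 485) (nat_lit 5) (nat_lit 508) (nat_lit 5) (nat_lit 509) (nat_lit 5) (nat_lit 438) (nat_lit 420) (nat_lit 342)))) (XT.nd (nat_lit 156) (nat_lit 1976) (nat_lit 0) (XT.nd (nat_lit 78) (nat_lit 0) (nat_lit 0)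 (XT.lf (nat_lit 0) (nat_lit 483765392) (nat_lit 1900) (nat_lit 9081356835) (nat_lit 76) (nat_lit 768037631) (nat_lit 460) (nat_lit 5) (nat_lit 485) (nat_lit 5) (nat_lit 461) (nat_lit 5) (nat_lit 439) (nat_lit 420) (nat_lit 341)) (XT.lf (nat_lit 0) (nat_lit 2901128506) (nat_lit 1900) (nat_lit 379958513) (nat_lit 76) (nat_lit 7201253094) (nat_lit 460) (nat_lit 5) (nat_lit 485) (nat_lit 5) (nat_lit 461) (nat_lit 5) (nat_lit 440) (nat_lit 420) (nat_lit 340))) (XT.nd (nat_lit 78) (nat_lit 912) (nat_lit 0) (XT.lf (nat_lit 0) (nat_lit 5426739447) (nat_lit 1140) (nat_lit 1998448878) (nat_lit 76) (nat_lit 3210095422) (nat_lit 446) (nat_lit 5) (nat_lit 461) (nat_lit 5) (nat_lit 447) (nat_lit 5) (nat_lit 441) (nat_lit 420) (nat_lit 339)) (XT.lf (nat_lit 0) (nat_lit 7170766490) (nat_lit 912) (nat_lit 887830026) (nat_lit 988) (nat_lit 2733612055) (nat_lit 434) (nat_lit 5) (nat_lit 446) (nat_lit 5) (nat_lit 447)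 (nat_lit 5) (nat_lit 442) (nat_lit 420) (nat_lit 338)))))) (XT.nd (nat_lit 546) (nat_lit 4332) (nat_lit 0) (XT.nd (nat_lit 234) (nat_lit 2508) (nat_lit 0) (XT.nd (nat_lit 78) (nat_lit 1748) (nat_lit 0) (XT.lf (nat_lit 0) (nat_lit 5687303866) (nat_lit 912) (nat_lit 5130959865) (nat_lit 988) (nat_lit 134602684) (nat_lit 422) (nat_lit 5) (nat_lit 434) (nat_lit 5) (nat_lit 435) (nat_lit 5) (nat_lit 443) (nat_lit 420) (nat_lit 337)) (XT.nd (nat_lit 78) (nat_lit 836) (nat_lit 0) (XT.lf (nat_lit 0) (nat_lit 2538814320) (nat_lit 912) (nat_lit 6926965130) (nat_lit 76) (nat_lit 1651641038) (nat_lit 410) (nat_lit 5) (nat_lit 422) (nat_lit 5) (nat_lit 411) (nat_lit 5) (nat_lit 444) (nat_lit 420) (nat_lit 336)) (XT.lf (nat_lit 0) (nat_lit 2677557985) (nat_lit 836) (nat_lit 2662566622) (nat_lit 912) (nat_lit 5945780577) (nat_lit 399) (nat_lit 5) (nat_lit 410) (nat_lit 5) (nat_lit 411) (nat_lit 5) (nat_lit 445) (nat_lit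 420) (nat_lit 335)))) (XT.nd (nat_lit 156) (nat_lit 1672) (nat_lit 0) (XT.nd (nat_lit 78) (nat_lit 0) (nat_lit 0) (XT.lf (nat_lit 0) (nat_lit 1154887710) (nat_lit 836) (nat_lit 7116302496) (nat_lit 912) (nat_lit 3187342019) (nat_lit 388) (nat_lit 5) (nat_lit 399) (nat_lit 5) (nat_lit 400) (nat_lit 5) (nat_lit 446) (nat_lit 420) (nat_lit 334)) (XT.lf (nat_lit 0) (nat_lit 11273162946) (nat_lit 836) (nat_lit 56645193) (nat_lit 912) (nat_lit 305739590) (nat_lit 388) (nat_lit 5) (nat_lit 399) (nat_lit 5) (nat_lit 400) (nat_lit 5) (nat_lit 447) (nat_lit 420) (nat_lit 333))) (XT.nd (nat_lit 78) (nat_lit 760) (nat_lit 0) (XT.lf (nat_lit 0) (nat_lit 2703817321) (nat_lit 912) (nat_lit 1910983211) (nat_lit 76) (nat_lit 7201200955) (nat_lit 376) (nat_lit 5) (nat_lit 388) (nat_lit 5) (nat_lit 377) (nat_lit 5) (nat_lit 448) (nat_lit 420) (nat_lit 332)) (XT.lf (nat_lit 0) (nat_lit 5840891605) (nat_lit 836) (nat_lit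 3462852614) (nat_lit 76) (nat_lit 2697258435) (nat_lit 366) (nat_lit 5) (nat_lit 377) (nat_lit 5) (nat_lit 367) (nat_lit 5) (nat_lit 449) (nat_lit 420) (nat_lit 331))))) (XT.nd (nat_lit 234) (nat_lit 2052) (nat_lit 0) (XT.nd (nat_lit 78) (nat_lit 1520) (nat_lit 0) (XT.lf (nat_lit 0) (nat_lit 7161421771) (nat_lit 760) (nat_lit 1967021543) (nat_lit 836) (nat_lit 3061985087) (nat_lit 356) (nat_lit 5) (nat_lit 366) (nat_lit 5) (nat_lit 367) (nat_lit 5) (nat_lit 450) (nat_lit 420) (nat_lit 330)) (XT.nd (nat_lit 78) (nat_lit 760) (nat_lit 0) (XT.lf (nat_lit 0) (nat_lit 191886614) (nat_lit 760) (nat_lit 6616770356) (nat_lit 76) (nat_lit 5575575049) (nat_lit 346) (nat_lit 5) (nat_lit 356) (nat_lit 5) (nat_lit 347) (nat_lit 5) (nat_lit 451) (nat_lit 420) (nat_lit 329)) (XT.lf (nat_lit 0) (nat_lit 3550284929) (nat_lit 836) (nat_lit 8228107532) (nat_lit 76) (nat_lit 804083981) (nat_lit 336) (nat_lit 5) (nat_lit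 347) (nat_lit 5) (nat_lit 337) (nat_lit 5) (nat_lit 452) (nat_lit 420) (nat_lit 328)))) (XT.nd (nat_lit 156) (nat_lit 684) (nat_lit 0) (XT.nd (nat_lit 78) (nat_lit 684) (nat_lit 0) (XT.lf (nat_lit 0) (nat_lit 2914776210) (nat_lit 684) (nat_lit 4172159080) (nat_lit 760) (nat_lit 5698184565) (nat_lit 327) (nat_lit 5) (nat_lit 336) (nat_lit 5) (nat_lit 337) (nat_lit 5) (nat_lit 453) (nat_lit 420) (nat_lit 327)) (XT.lf (nat_lit 0) (nat_lit 1469918122) (nat_lit 684) (nat_lit 9317787764) (nat_lit 760) (nat_lit 2204977880) (nat_lit 318) (nat_lit 5) (nat_lit 327) (nat_lit 5) (nat_lit 328) (nat_lit 5) (nat_lit 454) (nat_lit 420) (nat_lit 326))) (XT.nd (nat_lit 78) (nat_lit 0) (nat_lit 0) (XT.lf (nat_lit 0) (nat_lit 6178910) (nat_lit 608) (nat_lit 1432892180) (nat_lit 684) (nat_lit 11765937830) (nat_lit 309) (nat_lit 5) (nat_lit 317) (nat_lit 5) (nat_lit 318) (nat_lit 5) (nat_lit 455) (nat_lit 420) (nat_lit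 325)) (XT.lf (nat_lit 0) (nat_lit 5254355110) (nat_lit 684) (nat_lit 1478955713) (nat_lit 76) (nat_lit 6688265585) (nat_lit 309) (nat_lit 5) (nat_lit 318) (nat_lit 5) (nat_lit 310) (nat_lit 5) (nat_lit 456) (nat_lit 420) (nat_lit 324))))))) (XT.nd (nat_lit 1092) (nat_lit 5396) (nat_lit 0) (XT.nd (nat_lit 546) (nat_lit 3116) (nat_lit 0) (XT.nd (nat_lit 234) (nat_lit 2356) (nat_lit 0) (XT.nd (nat_lit 78) (nat_lit 1292) (nat_lit 0) (XT.lf (nat_lit 0) (nat_lit 9243065268) (nat_lit 760) (nat_lit 2965759937) (nat_lit 76) (nat_lit 1434637806) (nat_lit 300) (nat_lit 5) (nat_lit 310) (nat_lit 5) (nat_lit 301) (nat_lit 5) (nat_lit 457) (nat_lit 420) (nat_lit 323)) (XT.nd (nat_lit 78) (nat_lit 684) (nat_lit 0) (XT.lf (nat_lit 0) (nat_lit 9389829916) (nat_lit 608) (nat_lit 4048833975) (nat_lit 684) (nat_lit 431599182) (nat_lit 292) (nat_lit 5) (nat_lit 300) (nat_lit 5) (nat_lit 301) (nat_lit 5) (nat_lit 458) (nat_lit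 420) (nat_lit 322)) (XT.lf (nat_lit 0) (nat_lit 3681576063) (nat_lit 684) (nat_lit 6031325300) (nat_lit 76) (nat_lit 4389027025) (nat_lit 283) (nat_lit 5) (nat_lit 292) (nat_lit 5) (nat_lit 284) (nat_lit 5) (nat_lit 459) (nat_lit 420) (nat_lit 321)))) (XT.nd (nat_lit 156) (nat_lit 1140) (nat_lit 0) (XT.nd (nat_lit 78) (nat_lit 608) (nat_lit 0) (XT.lf (nat_lit 0) (nat_lit 6742367167) (nat_lit 608) (nat_lit 1243487358) (nat_lit 684) (nat_lit 6353161944) (nat_lit 275) (nat_lit 5) (nat_lit 283) (nat_lit 5) (nat_lit 284) (nat_lit 5) (nat_lit 460) (nat_lit 420) (nat_lit 320)) (XT.lf (nat_lit 0) (nat_lit 5385847047) (nat_lit 608) (nat_lit 7130749031) (nat_lit 684) (nat_lit 2064675676) (nat_lit 267) (nat_lit 5) (nat_lit 275) (nat_lit 5) (nat_lit 276) (nat_lit 5) (nat_lit 461) (nat_lit 420) (nat_lit 319))) (XT.nd (nat_lit 78) (nat_lit 532) (nat_lit 0) (XT.lf (nat_lit 0) (nat_lit 2391615098) (nat_lit 608) (nat_lit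 10814245077) (nat_lit 76) (nat_lit 1623230186) (nat_lit 259) (nat_lit 5) (nat_lit 267) (nat_lit 5) (nat_lit 260) (nat_lit 5) (nat_lit 462) (nat_lit 420) (nat_lit 318)) (XT.lf (nat_lit 0) (nat_lit 2601332722) (nat_lit 532) (nat_lit 4453229767) (nat_lit 608) (nat_lit 8027488876) (nat_lit 252) (nat_lit 5) (nat_lit 259) (nat_lit 5) (nat_lit 260) (nat_lit 5) (nat_lit 463) (nat_lit 420) (nat_lit 317))))) (XT.nd (nat_lit 234) (nat_lit 1976) (nat_lit 0) (XT.nd (nat_lit 78) (nat_lit 608) (nat_lit 0) (XT.lf (nat_lit 0) (nat_lit 1176630064) (nat_lit 532) (nat_lit 10765842388) (nat_lit 608) (nat_lit 3398428394) (nat_lit 245) (nat_lit 5) (nat_lit 252) (nat_lit 5) (nat_lit 253) (nat_lit 5) (nat_lit 464) (nat_lit 420) (nat_lit 316)) (XT.nd (nat_lit 78) (nat_lit 532) (nat_lit 0) (XT.lf (nat_lit 0) (nat_lit 1440869051) (nat_lit 608) (nat_lit 265259748) (nat_lit 76) (nat_lit 13899423723) (nat_lit 244) (nat_lit 5) (nat_lit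 252) (nat_lit 5) (nat_lit 245) (nat_lit 5) (nat_lit 465) (nat_lit 420) (nat_lit 315)) (XT.lf (nat_lit 0) (nat_lit 6496873977) (nat_lit 608) (nat_lit 1746314331) (nat_lit 76) (nat_lit 7632153214) (nat_lit 237) (nat_lit 5) (nat_lit 245) (nat_lit 5) (nat_lit 238) (nat_lit 5) (nat_lit 466) (nat_lit 420) (nat_lit 314)))) (XT.nd (nat_lit 156) (nat_lit 912) (nat_lit 0) (XT.nd (nat_lit 78) (nat_lit 608) (nat_lit 0) (XT.lf (nat_lit 0) (nat_lit 11784822100) (nat_lit 532) (nat_lit 3229120815) (nat_lit 76) (nat_lit 1137677028) (nat_lit 231) (nat_lit 5) (nat_lit 238) (nat_lit 5) (nat_lit 232) (nat_lit 5) (nat_lit 467) (nat_lit 420) (nat_lit 313)) (XT.lf (nat_lit 0) (nat_lit 904520987) (nat_lit 608) (nat_lit 4755882376) (nat_lit 76) (nat_lit 10773286487) (nat_lit 223) (nat_lit 5) (nat_lit 231) (nat_lit 5) (nat_lit 224) (nat_lit 5) (nat_lit 468) (nat_lit 420) (nat_lit 312))) (XT.nd (nat_lit 78) (nat_lit 456) (nat_lit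 0) (XT.lf (nat_lit 0) (nat_lit 6367609333) (nat_lit 532) (nat_lit 6322341265) (nat_lit 76) (nat_lit 4031835748) (nat_lit 217) (nat_lit 5) (nat_lit 224) (nat_lit 5) (nat_lit 218) (nat_lit 5) (nat_lit 469) (nat_lit 420) (nat_lit 311)) (XT.lf (nat_lit 0) (nat_lit 9104876087) (nat_lit 456) (nat_lit 2995909196) (nat_lit 532) (nat_lit 4915617464) (nat_lit 211) (nat_lit 5) (nat_lit 217) (nat_lit 5) (nat_lit 218) (nat_lit 5) (nat_lit 470) (nat_lit 420) (nat_lit 310)))))) (XT.nd (nat_lit 546) (nat_lit 2660) (nat_lit 0) (XT.nd (nat_lit 234) (nat_lit 1368) (nat_lit 0) (XT.nd (nat_lit 78) (nat_lit 836) (nat_lit 0) (XT.lf (nat_lit 0) (nat_lit 794110152) (nat_lit 532) (nat_lit 9536828633) (nat_lit 76) (nat_lit 6986490436) (nat_lit 204) (nat_lit 5) (nat_lit 211) (nat_lit 5) (nat_lit 205) (nat_lit 5) (nat_lit 471) (nat_lit 420) (nat_lit 309)) (XT.nd (nat_lit 78) (nat_lit 380) (nat_lit 0) (XT.lf (nat_lit 0) (nat_lit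 6423616464) (nat_lit 456) (nat_lit 278308589) (nat_lit 532) (nat_lit 10923040843) (nat_lit 198) (nat_lit 5) (nat_lit 204) (nat_lit 5) (nat_lit 205) (nat_lit 5) (nat_lit 472) (nat_lit 420) (nat_lit 308)) (XT.lf (nat_lit 0) (nat_lit 5020392150) (nat_lit 380) (nat_lit 7907521886) (nat_lit 456) (nat_lit 5010996659) (nat_lit 193) (nat_lit 5) (nat_lit 198) (nat_lit 5) (nat_lit 199) (nat_lit 5) (nat_lit 473) (nat_lit 420) (nat_lit 307)))) (XT.nd (nat_lit 156) (nat_lit 456) (nat_lit 0) (XT.nd (nat_lit 78) (nat_lit 380) (nat_lit 0) (XT.lf (nat_lit 0) (nat_lit 1160368314) (nat_lit 532) (nat_lit 14649440432) (nat_lit 76) (nat_lit 2450403771) (nat_lit 186) (nat_lit 5) (nat_lit 193) (nat_lit 5) (nat_lit 187) (nat_lit 5) (nat_lit 474) (nat_lit 420) (nat_lit 306)) (XT.lf (nat_lit 0) (nat_lit 2132178926) (nat_lit 380) (nat_lit 5450373574) (nat_lit 456) (nat_lit 11005264035) (nat_lit 181) (nat_lit 5) (nat_lit 186)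 (nat_lit 5) (nat_lit 187) (nat_lit 5) (nat_lit 475) (nat_lit 420) (nat_lit 305))) (XT.nd (nat_lit 78) (nat_lit 76) (nat_lit 0) (XT.lf (nat_lit 0) (nat_lit 636290614) (nat_lit 380) (nat_lit 13677936867) (nat_lit 456) (nat_lit 4608685417) (nat_lit 176) (nat_lit 5) (nat_lit 181) (nat_lit 5) (nat_lit 182) (nat_lit 5) (nat_lit 476) (nat_lit 420) (nat_lit 304)) (XT.lf (nat_lit 0) (nat_lit 2081670975) (nat_lit 456) (nat_lit 881421753) (nat_lit 76) (nat_lit 16302156124) (nat_lit 175) (nat_lit 5) (nat_lit 181) (nat_lit 5) (nat_lit 176) (nat_lit 5) (nat_lit 477) (nat_lit 420) (nat_lit 303))))) (XT.nd (nat_lit 234) (nat_lit 1444) (nat_lit 0) (XT.nd (nat_lit 78) (nat_lit 836) (nat_lit 0) (XT.lf (nat_lit 0) (nat_lit 9055268304) (nat_lit 456) (nat_lit 2458721371) (nat_lit 76) (nat_lit 8100353732) (nat_lit 170) (nat_lit 5) (nat_lit 176) (nat_lit 5) (nat_lit 171) (nat_lit 5) (nat_lit 478) (nat_lit 420) (nat_lit 302))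 (XT.nd (nat_lit 78) (nat_lit 456) (nat_lit 0) (XT.lf (nat_lit 0) (nat_lit 15930450648) (nat_lit 380) (nat_lit 416963141) (nat_lit 456) (nat_lit 3624310864) (nat_lit 165) (nat_lit 5) (nat_lit 170) (nat_lit 5) (nat_lit 171) (nat_lit 5) (nat_lit 479) (nat_lit 420) (nat_lit 301)) (XT.lf (nat_lit 0) (nat_lit 3637259859) (nat_lit 456) (nat_lit 5704925749) (nat_lit 76) (nat_lit 10993887276) (nat_lit 159) (nat_lit 5) (nat_lit 165) (nat_lit 5) (nat_lit 160) (nat_lit 5) (nat_lit 480) (nat_lit 420) (nat_lit 300)))) (XT.nd (nat_lit 156) (nat_lit 760) (nat_lit 0) (XT.nd (nat_lit 78) (nat_lit 304) (nat_lit 0) (XT.lf (nat_lit 0) (nat_lit 11179262103) (nat_lit 456) (nat_lit 7397392159) (nat_lit 76) (nat_lit 2131982285) (nat_lit 154) (nat_lit 5) (nat_lit 160) (nat_lit 5) (nat_lit 155) (nat_lit 5) (nat_lit 481) (nat_lit 420) (nat_lit 299)) (XT.lf (nat_lit 0) (nat_lit 11948275391) (nat_lit 304) (nat_lit 7159159939) (nat_lit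 380) (nat_lit 1981744158) (nat_lit 150) (nat_lit 5) (nat_lit 154) (nat_lit 5) (nat_lit 155) (nat_lit 5) (nat_lit 482) (nat_lit 420) (nat_lit 298))) (XT.nd (nat_lit 78) (nat_lit 304) (nat_lit 0) (XT.lf (nat_lit 0) (nat_lit 5847431094) (nat_lit 456) (nat_lit 10942993287) (nat_lit 76) (nat_lit 4687341079) (nat_lit 144) (nat_lit 5) (nat_lit 150) (nat_lit 5) (nat_lit 145) (nat_lit 5) (nat_lit 483) (nat_lit 420) (nat_lit 297)) (XT.lf (nat_lit 0) (nat_lit 9076916653) (nat_lit 304) (nat_lit 4958426188) (nat_lit 380) (nat_lit 7839389022) (nat_lit 140) (nat_lit 5) (nat_lit 144) (nat_lit 5) (nat_lit 145) (nat_lit 5) (nat_lit 484) (nat_lit 420) (nat_lit 296))))))))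
noncomputable def xc68 : XT := (XT.nd (nat_lit 58344) (nat_lit 0) (nat_lit 16720) (XT.nd (nat_lit 1014) (nat_lit 760) (nat_lit 0) (XT.nd (nat_lit 468) (nat_lit 2052) (nat_lit 0) (XT.nd (nat_lit 234) (nat_lit 684) (nat_lit 0) (XT.nd (nat_lit 78) (nat_lit 608) (nat_lit 0) (XT.lf (nat_lit 0) (nat_lit 336454803) (nat_lit 456) (nat_lit 14695061185) (nat_lit 76) (nat_lit 7248995725) (nat_lit 134) (nat_lit 5) (nat_lit 140) (nat_lit 5) (nat_lit 135) (nat_lit 5) (nat_lit 485) (nat_lit 420) (nat_lit 295)) (XT.nd (nat_lit 78) (nat_lit 304) (nat_lit 0) (XT.lf (nat_lit 0) (nat_lit 6022252802) (nat_lit 304) (nat_lit 2770950976) (nat_lit 380) (nat_lit 13901382587) (nat_lit 130) (nat_lit 5) (nat_lit 134) (nat_lit 5) (nat_lit 135) (nat_lit 5) (nat_lit 486) (nat_lit 420) (nat_lit 294)) (XT.lf (nat_lit 0) (nat_lit 4407242691) (nat_lit 304) (nat_lit 13271505811) (nat_lit 380) (nat_lit 5438833378) (nat_lit 126) (nat_lit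 5) (nat_lit 130) (nat_lit 5) (nat_lit 131) (nat_lit 5) (nat_lit 487) (nat_lit 420) (nat_lit 293)))) (XT.nd (nat_lit 78) (nat_lit 304) (nat_lit 0) (XT.lf (nat_lit 0) (nat_lit 2763290079) (nat_lit 304) (nat_lit 603968518) (nat_lit 380) (nat_lit 20182930471) (nat_lit 121) (nat_lit 5) (nat_lit 125) (nat_lit 5) (nat_lit 126) (nat_lit 5) (nat_lit 488) (nat_lit 420) (nat_lit 292)) (XT.nd (nat_lit 78) (nat_lit 0) (nat_lit 0) (XT.lf (nat_lit 0) (nat_lit 1010641470) (nat_lit 304) (nat_lit 11551111745) (nat_lit 380) (nat_lit 11429340451) (nat_lit 117) (nat_lit 5) (nat_lit 121) (nat_lit 5) (nat_lit 122) (nat_lit 5) (nat_lit 489) (nat_lit 420) (nat_lit 291)) (XT.lf (nat_lit 0) (nat_lit 22170077314) (nat_lit 380) (nat_lit 738355382) (nat_lit 76) (nat_lit 1534033248) (nat_lit 117) (nat_lit 5) (nat_lit 122) (nat_lit 5) (nat_lit 118) (nat_lit 5) (nat_lit 490) (nat_lit 420) (nat_lit 290))))) (XT.nd (nat_lit 234) (nat_lit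 1140) (nat_lit 0) (XT.nd (nat_lit 78) (nat_lit 608) (nat_lit 0) (XT.lf (nat_lit 0) (nat_lit 7272614263) (nat_lit 304) (nat_lit 2591688514) (nat_lit 76) (nat_lit 15038002623) (nat_lit 113) (nat_lit 5) (nat_lit 117) (nat_lit 5) (nat_lit 114) (nat_lit 5) (nat_lit 491) (nat_lit 420) (nat_lit 289)) (XT.nd (nat_lit 78) (nat_lit 304) (nat_lit 0) (XT.lf (nat_lit 0) (nat_lit 17221915359) (nat_lit 380) (nat_lit 4480223055) (nat_lit 76) (nat_lit 3670525202) (nat_lit 109) (nat_lit 5) (nat_lit 114) (nat_lit 5) (nat_lit 110) (nat_lit 5) (nat_lit 492) (nat_lit 420) (nat_lit 288)) (XT.lf (nat_lit 0) (nat_lit 1786320480) (nat_lit 304) (nat_lit 6443756850) (nat_lit 76) (nat_lit 17622948104) (nat_lit 105) (nat_lit 5) (nat_lit 109) (nat_lit 5) (nat_lit 106) (nat_lit 5) (nat_lit 493) (nat_lit 420) (nat_lit 287)))) (XT.nd (nat_lit 156) (nat_lit 608) (nat_lit 0) (XT.nd (nat_lit 78) (nat_lit 228) (nat_lit 0) (XT.lf (nat_lit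 0) (nat_lit 12080054893) (nat_lit 380) (nat_lit 8499542936) (nat_lit 76) (nat_lit 5763737319) (nat_lit 101) (nat_lit 5) (nat_lit 106) (nat_lit 5) (nat_lit 102) (nat_lit 5) (nat_lit 494) (nat_lit 420) (nat_lit 286)) (XT.lf (nat_lit 0) (nat_lit 16231503020) (nat_lit 228) (nat_lit 6639772026) (nat_lit 304) (nat_lit 3973305994) (nat_lit 98) (nat_lit 5) (nat_lit 101) (nat_lit 5) (nat_lit 102) (nat_lit 5) (nat_lit 495) (nat_lit 420) (nat_lit 285))) (XT.nd (nat_lit 78) (nat_lit 228) (nat_lit 0) (XT.lf (nat_lit 0) (nat_lit 6726946960) (nat_lit 380) (nat_lit 12826144813) (nat_lit 76) (nat_lit 7803143109) (nat_lit 93) (nat_lit 5) (nat_lit 98) (nat_lit 5) (nat_lit 94) (nat_lit 5) (nat_lit 496) (nat_lit 420) (nat_lit 284)) (XT.lf (nat_lit 0) (nat_lit 12760617743) (nat_lit 228) (nat_lit 5118255363) (nat_lit 304) (nat_lit 10000147352) (nat_lit 90) (nat_lit 5) (nat_lit 93) (nat_lit 5) (nat_lit 94) (nat_lit 5) (nat_lit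 497) (nat_lit 420) (nat_lit 283)))))) (XT.nd (nat_lit 56784) (nat_lit 0) (nat_lit 35492) (XT.nd (nat_lit 56472) (nat_lit 0) (nat_lit 38304) (XT.nd (nat_lit 78) (nat_lit 456) (nat_lit 0) (XT.lf (nat_lit 0) (nat_lit 1143446907) (nat_lit 304) (nat_lit 17492753488) (nat_lit 76) (nat_lit 9777006225) (nat_lit 86) (nat_lit 5) (nat_lit 90) (nat_lit 5) (nat_lit 87) (nat_lit 5) (nat_lit 498) (nat_lit 420) (nat_lit 282)) (XT.nd (nat_lit 78) (nat_lit 228) (nat_lit 0) (XT.lf (nat_lit 0) (nat_lit 8976094992) (nat_lit 228) (nat_lit 3690871944) (nat_lit 304) (nat_lit 16291500107) (nat_lit 83) (nat_lit 5) (nat_lit 86) (nat_lit 5) (nat_lit 87) (nat_lit 5) (nat_lit 499) (nat_lit 420) (nat_lit 281)) (XT.lf (nat_lit 0) (nat_lit 6949415731) (nat_lit 228) (nat_lit 17812473986) (nat_lit 304) (nat_lit 4753681920) (nat_lit 80) (nat_lit 5) (nat_lit 83) (nat_lit 5) (nat_lit 84) (nat_lit 5) (nat_lit 500) (nat_lit 420) (nat_lit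 280)))) (XT.nd (nat_lit 156) (nat_lit 0) (nat_lit 0) (XT.nd (nat_lit 78) (nat_lit 0) (nat_lit 0) (XT.lf (nat_lit 0) (nat_lit 764443396) (nat_lit 0) (nat_lit 764443396) (nat_lit 1444) (nat_lit 2629102407) (nat_lit 584) (nat_lit 5) (nat_lit 584) (nat_lit 3) (nat_lit 603) (nat_lit 3) (nat_lit 421) (nat_lit 421) (nat_lit 358)) (XT.lf (nat_lit 0) (nat_lit 4763402740) (nat_lit 1444) (nat_lit 610361714) (nat_lit 1520) (nat_lit 3033643339) (nat_lit 584) (nat_lit 5) (nat_lit 603) (nat_lit 3) (nat_lit 604) (nat_lit 5) (nat_lit 422) (nat_lit 421) (nat_lit 357))) (XT.nd (nat_lit 78) (nat_lit 0) (nat_lit 76) (XT.lf (nat_lit 76) (nat_lit 5783810775) (nat_lit 0) (nat_lit 720377450) (nat_lit 1520) (nat_lit 1997716585) (nat_lit 585) (nat_lit 5) (nat_lit 584) (nat_lit 5) (nat_lit 604) (nat_lit 5) (nat_lit 423) (nat_lit 421) (nat_lit 356)) (XT.lf (nat_lit 76) (nat_lit 3767567833) (nat_lit 0) (nat_lit 4522740850) (nat_lit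 1520) (nat_lit 309070186) (nat_lit 586) (nat_lit 5) (nat_lit 585) (nat_lit 5) (nat_lit 605) (nat_lit 5) (nat_lit 424) (nat_lit 421) (nat_lit 355))))) (XT.nd (nat_lit 234) (nat_lit 1444) (nat_lit 0) (XT.nd (nat_lit 78) (nat_lit 0) (nat_lit 0) (XT.lf (nat_lit 0) (nat_lit 1387917478) (nat_lit 1520) (nat_lit 6942732647) (nat_lit 1596) (nat_lit 369416657) (nat_lit 566) (nat_lit 5) (nat_lit 586) (nat_lit 5) (nat_lit 587) (nat_lit 5) (nat_lit 425) (nat_lit 421) (nat_lit 354)) (XT.nd (nat_lit 78) (nat_lit 0) (nat_lit 76) (XT.lf (nat_lit 0) (nat_lit 3135781418) (nat_lit 1520) (nat_lit 260785538) (nat_lit 1596) (nat_lit 5407088232) (nat_lit 566) (nat_lit 5) (nat_lit 586) (nat_lit 5) (nat_lit 587) (nat_lit 5) (nat_lit 426) (nat_lit 421) (nat_lit 353)) (XT.lf (nat_lit 0) (nat_lit 4933455639) (nat_lit 1520) (nat_lit 2247250277) (nat_lit 1596) (nat_lit 1729701755) (nat_lit 567) (nat_lit 5) (nat_lit 587) (nat_lit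 5) (nat_lit 588) (nat_lit 5) (nat_lit 427) (nat_lit 421) (nat_lit 352)))) (XT.nd (nat_lit 156) (nat_lit 1520) (nat_lit 0) (XT.nd (nat_lit 78) (nat_lit 0) (nat_lit 76) (XT.lf (nat_lit 76) (nat_lit 4782961349) (nat_lit 0) (nat_lit 2001897508) (nat_lit 1596) (nat_lit 2235511691) (nat_lit 568) (nat_lit 5) (nat_lit 567) (nat_lit 5) (nat_lit 588) (nat_lit 5) (nat_lit 428) (nat_lit 421) (nat_lit 351)) (XT.lf (nat_lit 76) (nat_lit 2902084742) (nat_lit 0) (nat_lit 5791305541) (nat_lit 1596) (nat_lit 440213992) (nat_lit 569) (nat_lit 5) (nat_lit 568) (nat_lit 5) (nat_lit 589) (nat_lit 5) (nat_lit 429) (nat_lit 421) (nat_lit 350))) (XT.nd (nat_lit 78) (nat_lit 0) (nat_lit 76) (XT.lf (nat_lit 76) (nat_lit 1018858587) (nat_lit 0) (nat_lit 367289171) (nat_lit 1672) (nat_lit 7863994135) (nat_lit 548) (nat_lit 5) (nat_lit 547) (nat_lit 5) (nat_lit 569) (nat_lit 5) (nat_lit 430) (nat_lit 421) (nat_lit 349)) (XT.lf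 (nat_lit 0) (nat_lit 3285953752) (nat_lit 1596) (nat_lit 870847262) (nat_lit 1672) (nat_lit 5212827154) (nat_lit 548) (nat_lit 5) (nat_lit 569) (nat_lit 5) (nat_lit 570) (nat_lit 5) (nat_lit 431) (nat_lit 421) (nat_lit 348))))))) (XT.nd (nat_lit 1014) (nat_lit 9196) (nat_lit 0) (XT.nd (nat_lit 468) (nat_lit 8132) (nat_lit 0) (XT.nd (nat_lit 234) (nat_lit 1596) (nat_lit 0) (XT.nd (nat_lit 78) (nat_lit 0) (nat_lit 0) (XT.lf (nat_lit 0) (nat_lit 5248707183) (nat_lit 1596) (nat_lit 2741433939) (nat_lit 1672) (nat_lit 1502442149) (nat_lit 549) (nat_lit 5) (nat_lit 570) (nat_lit 5) (nat_lit 571) (nat_lit 5) (nat_lit 432) (nat_lit 421) (nat_lit 347)) (XT.nd (nat_lit 78) (nat_lit 0) (nat_lit 76) (XT.lf (nat_lit 76) (nat_lit 4996417259) (nat_lit 0) (nat_lit 2291149748) (nat_lit 1672) (nat_lit 2331318756) (nat_lit 550) (nat_lit 5) (nat_lit 549) (nat_lit 5) (nat_lit 571) (nat_lit 5) (nat_lit 433) (nat_lit 421)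 (nat_lit 346)) (XT.lf (nat_lit 76) (nat_lit 3238084262) (nat_lit 0) (nat_lit 6164790616) (nat_lit 1672) (nat_lit 345799923) (nat_lit 551) (nat_lit 5) (nat_lit 550) (nat_lit 5) (nat_lit 572) (nat_lit 5) (nat_lit 434) (nat_lit 421) (nat_lit 345)))) (XT.nd (nat_lit 78) (nat_lit 0) (nat_lit 76) (XT.lf (nat_lit 76) (nat_lit 1472359890) (nat_lit 0) (nat_lit 214218398) (nat_lit 1748) (nat_lit 8195369930) (nat_lit 529) (nat_lit 5) (nat_lit 528) (nat_lit 5) (nat_lit 551) (nat_lit 5) (nat_lit 435) (nat_lit 421) (nat_lit 344)) (XT.nd (nat_lit 78) (nat_lit 0) (nat_lit 76) (XT.lf (nat_lit 0) (nat_lit 3812433800) (nat_lit 1672) (nat_lit 312203299) (nat_lit 1748) (nat_lit 5893795820) (nat_lit 529) (nat_lit 5) (nat_lit 551) (nat_lit 5) (nat_lit 552) (nat_lit 5) (nat_lit 436) (nat_lit 421) (nat_lit 343)) (XT.lf (nat_lit 0) (nat_lit 6025302693) (nat_lit 1672) (nat_lit 2075197934) (nat_lit 76) (nat_lit 2058049580) (nat_lit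 530) (nat_lit 5) (nat_lit 552) (nat_lit 5) (nat_lit 531) (nat_lit 5) (nat_lit 437) (nat_lit 421) (nat_lit 342))))) (XT.nd (nat_lit 234) (nat_lit 2964) (nat_lit 0) (XT.nd (nat_lit 78) (nat_lit 3648) (nat_lit 0) (XT.lf (nat_lit 0) (nat_lit 6453212397) (nat_lit 1672) (nat_lit 1879765014) (nat_lit 1748) (nat_lit 1969327921) (nat_lit 508) (nat_lit 5) (nat_lit 530) (nat_lit 5) (nat_lit 531) (nat_lit 5) (nat_lit 438) (nat_lit 421) (nat_lit 341)) (XT.nd (nat_lit 78) (nat_lit 1824) (nat_lit 0) (XT.lf (nat_lit 0) (nat_lit 289000362) (nat_lit 1824) (nat_lit 5638548884) (nat_lit 76) (nat_lit 4522134858) (nat_lit 484) (nat_lit 5) (nat_lit 508) (nat_lit 5) (nat_lit 485) (nat_lit 5) (nat_lit 439) (nat_lit 421) (nat_lit 340)) (XT.lf (nat_lit 0) (nat_lit 2610039942) (nat_lit 1900) (nat_lit 7442331204) (nat_lit 76) (nat_lit 548420921) (nat_lit 460) (nat_lit 5) (nat_lit 485) (nat_lit 5) (nat_lit 461) (nat_lit 5) (nat_lit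 440) (nat_lit 421) (nat_lit 339)))) (XT.nd (nat_lit 156) (nat_lit 1900) (nat_lit 0) (XT.nd (nat_lit 78) (nat_lit 0) (nat_lit 0) (XT.lf (nat_lit 0) (nat_lit 1483896863) (nat_lit 1064) (nat_lit 3564153909) (nat_lit 1140) (nat_lit 5707438131) (nat_lit 446) (nat_lit 5) (nat_lit 460) (nat_lit 5) (nat_lit 461) (nat_lit 5) (nat_lit 441) (nat_lit 421) (nat_lit 338)) (XT.lf (nat_lit 0) (nat_lit 7590785721) (nat_lit 1140) (nat_lit 191402646) (nat_lit 76) (nat_lit 3132008967) (nat_lit 446) (nat_lit 5) (nat_lit 461) (nat_lit 5) (nat_lit 447) (nat_lit 5) (nat_lit 442) (nat_lit 421) (nat_lit 337))) (XT.nd (nat_lit 78) (nat_lit 988) (nat_lit 0) (XT.lf (nat_lit 0) (nat_lit 9222599331) (nat_lit 912) (nat_lit 1032635647) (nat_lit 988) (nat_lit 821525691) (nat_lit 434) (nat_lit 5) (nat_lit 446) (nat_lit 5) (nat_lit 447) (nat_lit 5) (nat_lit 443) (nat_lit 421) (nat_lit 336)) (XT.lf (nat_lit 0) (nat_lit 1785117250) (nat_lit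 988) (nat_lit 3550732615) (nat_lit 76) (nat_lit 5907070816) (nat_lit 421) (nat_lit 5) (nat_lit 434) (nat_lit 5) (nat_lit 422) (nat_lit 5) (nat_lit 444) (nat_lit 421) (nat_lit 335)))))) (XT.nd (nat_lit 546) (nat_lit 4256) (nat_lit 0) (XT.nd (nat_lit 234) (nat_lit 2432) (nat_lit 0) (XT.nd (nat_lit 78) (nat_lit 1672) (nat_lit 0) (XT.lf (nat_lit 0) (nat_lit 4492659789) (nat_lit 912) (nat_lit 5255344404) (nat_lit 76) (nat_lit 1665277586) (nat_lit 410) (nat_lit 5) (nat_lit 422) (nat_lit 5) (nat_lit 411) (nat_lit 5) (nat_lit 445) (nat_lit 421) (nat_lit 334)) (XT.nd (nat_lit 78) (nat_lit 836) (nat_lit 0) (XT.lf (nat_lit 0) (nat_lit 4606822891) (nat_lit 836) (nat_lit 2728501289) (nat_lit 912) (nat_lit 4252353678) (nat_lit 399) (nat_lit 5) (nat_lit 410) (nat_lit 5) (nat_lit 411) (nat_lit 5) (nat_lit 446) (nat_lit 421) (nat_lit 333)) (XT.lf (nat_lit 0) (nat_lit 3044594002) (nat_lit 836) (nat_lit 7268413429) (nat_lit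 912) (nat_lit 1453305611) (nat_lit 388) (nat_lit 5) (nat_lit 399) (nat_lit 5) (nat_lit 400) (nat_lit 5) (nat_lit 447) (nat_lit 421) (nat_lit 332)))) (XT.nd (nat_lit 156) (nat_lit 1520) (nat_lit 0) (XT.nd (nat_lit 78) (nat_lit 0) (nat_lit 0) (XT.lf (nat_lit 0) (nat_lit 1451981530) (nat_lit 912) (nat_lit 10476916607) (nat_lit 76) (nat_lit 20405022) (nat_lit 376) (nat_lit 5) (nat_lit 388) (nat_lit 5) (nat_lit 377) (nat_lit 5) (nat_lit 448) (nat_lit 421) (nat_lit 331)) (XT.lf (nat_lit 0) (nat_lit 4499120085) (nat_lit 912) (nat_lit 139648936) (nat_lit 76) (nat_lit 7497334930) (nat_lit 376) (nat_lit 5) (nat_lit 388) (nat_lit 5) (nat_lit 377) (nat_lit 5) (nat_lit 449) (nat_lit 421) (nat_lit 330))) (XT.nd (nat_lit 78) (nat_lit 760) (nat_lit 0) (XT.lf (nat_lit 0) (nat_lit 7692858016) (nat_lit 836) (nat_lit 1734931376) (nat_lit 76) (nat_lit 2899617466) (nat_lit 366) (nat_lit 5) (nat_lit 377) (nat_lit 5) (nat_lit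 367) (nat_lit 5) (nat_lit 450) (nat_lit 421) (nat_lit 329)) (XT.lf (nat_lit 0) (nat_lit 9178352352) (nat_lit 760) (nat_lit 1863547196) (nat_lit 836) (nat_lit 1481361216) (nat_lit 356) (nat_lit 5) (nat_lit 366) (nat_lit 5) (nat_lit 367) (nat_lit 5) (nat_lit 451) (nat_lit 421) (nat_lit 328))))) (XT.nd (nat_lit 234) (nat_lit 2052) (nat_lit 0) (XT.nd (nat_lit 78) (nat_lit 1444) (nat_lit 0) (XT.lf (nat_lit 0) (nat_lit 1812939885) (nat_lit 760) (nat_lit 4989562463) (nat_lit 76) (nat_lit 5920866526) (nat_lit 346) (nat_lit 5) (nat_lit 356) (nat_lit 5) (nat_lit 347) (nat_lit 5) (nat_lit 452) (nat_lit 421) (nat_lit 327)) (XT.nd (nat_lit 78) (nat_lit 684) (nat_lit 0) (XT.lf (nat_lit 0) (nat_lit 5238107674) (nat_lit 836) (nat_lit 6648583401) (nat_lit 76) (nat_lit 1041551657) (nat_lit 336) (nat_lit 5) (nat_lit 347) (nat_lit 5) (nat_lit 337) (nat_lit 5) (nat_lit 453) (nat_lit 421) (nat_lit 326)) (XT.lf (nat_lit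 0) (nat_lit 4798956213) (nat_lit 684) (nat_lit 4047509244) (nat_lit 760) (nat_lit 4291190212) (nat_lit 327) (nat_lit 5) (nat_lit 336) (nat_lit 5) (nat_lit 337) (nat_lit 5) (nat_lit 454) (nat_lit 421) (nat_lit 325)))) (XT.nd (nat_lit 156) (nat_lit 684) (nat_lit 0) (XT.nd (nat_lit 78) (nat_lit 684) (nat_lit 0) (XT.lf (nat_lit 0) (nat_lit 3310521371) (nat_lit 684) (nat_lit 9315920643) (nat_lit 760) (nat_lit 725643137) (nat_lit 318) (nat_lit 5) (nat_lit 327) (nat_lit 5) (nat_lit 328) (nat_lit 5) (nat_lit 455) (nat_lit 421) (nat_lit 324)) (XT.lf (nat_lit 0) (nat_lit 1793738562) (nat_lit 608) (nat_lit 1180900527) (nat_lit 684) (nat_lit 10596598863) (nat_lit 309) (nat_lit 5) (nat_lit 317) (nat_lit 5) (nat_lit 318) (nat_lit 5) (nat_lit 456) (nat_lit 421) (nat_lit 323))) (XT.nd (nat_lit 78) (nat_lit 0) (nat_lit 0) (XT.lf (nat_lit 0) (nat_lit 242359372) (nat_lit 684) (nat_lit 6621987387) (nat_lit 760) (nat_lit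 6930758538) (nat_lit 300) (nat_lit 5) (nat_lit 309) (nat_lit 5) (nat_lit 310) (nat_lit 5) (nat_lit 457) (nat_lit 421) (nat_lit 322)) (XT.lf (nat_lit 0) (nat_lit 10942185902) (nat_lit 760) (nat_lit 1294396709) (nat_lit 76) (nat_lit 1787678608) (nat_lit 300) (nat_lit 5) (nat_lit 310) (nat_lit 5) (nat_lit 301) (nat_lit 5) (nat_lit 458) (nat_lit 421) (nat_lit 321))))))))
noncomputable def xc69 : XT := (XT.nd (nat_lit 2106) (nat_lit 4332) (nat_lit 0) (XT.nd (nat_lit 1014) (nat_lit 5396) (nat_lit 0) (XT.nd (nat_lit 468) (nat_lit 3116) (nat_lit 0) (XT.nd (nat_lit 234) (nat_lit 1748) (nat_lit 0) (XT.nd (nat_lit 78) (nat_lit 1216) (nat_lit 0) (XT.lf (nat_lit 0) (nat_lit 962225700) (nat_lit 684) (nat_lit 2861499620) (nat_lit 76) (nat_lit 10434618739) (nat_lit 291) (nat_lit 5) (nat_lit 300) (nat_lit 5) (nat_lit 292) (nat_lit 5) (nat_lit 459) (nat_lit 421) (nat_lit 320)) (XT.nd (nat_lit 78) (nat_lit 608) (nat_lit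 0) (XT.lf (nat_lit 0) (nat_lit 5165619748) (nat_lit 684) (nat_lit 4464990961) (nat_lit 76) (nat_lit 4866839739) (nat_lit 283) (nat_lit 5) (nat_lit 292) (nat_lit 5) (nat_lit 284) (nat_lit 5) (nat_lit 460) (nat_lit 421) (nat_lit 319)) (XT.lf (nat_lit 0) (nat_lit 8663564834) (nat_lit 608) (nat_lit 906614478) (nat_lit 684) (nat_lit 5172050661) (nat_lit 275) (nat_lit 5) (nat_lit 283) (nat_lit 5) (nat_lit 284) (nat_lit 5) (nat_lit 461) (nat_lit 421) (nat_lit 318)))) (XT.nd (nat_lit 78) (nat_lit 1140) (nat_lit 0) (XT.lf (nat_lit 0) (nat_lit 7262591217) (nat_lit 608) (nat_lit 6948579107) (nat_lit 684) (nat_lit 781097856) (nat_lit 267) (nat_lit 5) (nat_lit 275) (nat_lit 5) (nat_lit 276) (nat_lit 5) (nat_lit 462) (nat_lit 421) (nat_lit 317)) (XT.nd (nat_lit 78) (nat_lit 532) (nat_lit 0) (XT.lf (nat_lit 0) (nat_lit 3766253762) (nat_lit 608) (nat_lit 9410475452) (nat_lit 76) (nat_lit 2071118754) (nat_lit 259)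 (nat_lit 5) (nat_lit 267) (nat_lit 5) (nat_lit 260) (nat_lit 5) (nat_lit 463) (nat_lit 421) (nat_lit 316)) (XT.lf (nat_lit 0) (nat_lit 4379531739) (nat_lit 532) (nat_lit 4162648138) (nat_lit 608) (nat_lit 6966757789) (nat_lit 252) (nat_lit 5) (nat_lit 259) (nat_lit 5) (nat_lit 260) (nat_lit 5) (nat_lit 464) (nat_lit 421) (nat_lit 315))))) (XT.nd (nat_lit 234) (nat_lit 1976) (nat_lit 0) (XT.nd (nat_lit 78) (nat_lit 608) (nat_lit 0) (XT.lf (nat_lit 0) (nat_lit 2906955887) (nat_lit 532) (nat_lit 10646285843) (nat_lit 608) (nat_lit 2222782228) (nat_lit 245) (nat_lit 5) (nat_lit 252) (nat_lit 5) (nat_lit 253) (nat_lit 5) (nat_lit 465) (nat_lit 421) (nat_lit 314)) (XT.nd (nat_lit 78) (nat_lit 0) (nat_lit 0) (XT.lf (nat_lit 0) (nat_lit 1407214852) (nat_lit 532) (nat_lit 1310136333) (nat_lit 608) (nat_lit 13331651381) (nat_lit 237) (nat_lit 5) (nat_lit 244) (nat_lit 5) (nat_lit 245) (nat_lit 5) (nat_lit 466)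 (nat_lit 421) (nat_lit 313)) (XT.lf (nat_lit 0) (nat_lit 7893691669) (nat_lit 608) (nat_lit 142489661) (nat_lit 76) (nat_lit 8291332295) (nat_lit 237) (nat_lit 5) (nat_lit 245) (nat_lit 5) (nat_lit 238) (nat_lit 5) (nat_lit 467) (nat_lit 421) (nat_lit 312)))) (XT.nd (nat_lit 156) (nat_lit 912) (nat_lit 0) (XT.nd (nat_lit 78) (nat_lit 608) (nat_lit 0) (XT.lf (nat_lit 0) (nat_lit 13318783668) (nat_lit 532) (nat_lit 1675986106) (nat_lit 76) (nat_lit 1617741972) (nat_lit 231) (nat_lit 5) (nat_lit 238) (nat_lit 5) (nat_lit 232) (nat_lit 5) (nat_lit 468) (nat_lit 421) (nat_lit 311)) (XT.lf (nat_lit 0) (nat_lit 2095937457) (nat_lit 608) (nat_lit 3259801134) (nat_lit 76) (nat_lit 11547630213) (nat_lit 223) (nat_lit 5) (nat_lit 231) (nat_lit 5) (nat_lit 224) (nat_lit 5) (nat_lit 469) (nat_lit 421) (nat_lit 310))) (XT.nd (nat_lit 78) (nat_lit 456) (nat_lit 0) (XT.lf (nat_lit 0) (nat_lit 7702534854) (nat_lit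 532) (nat_lit 4880039377) (nat_lit 76) (nat_lit 4617942979) (nat_lit 217) (nat_lit 5) (nat_lit 224) (nat_lit 5) (nat_lit 218) (nat_lit 5) (nat_lit 470) (nat_lit 421) (nat_lit 309)) (XT.lf (nat_lit 0) (nat_lit 10983517687) (nat_lit 456) (nat_lit 2601294941) (nat_lit 532) (nat_lit 3919618648) (nat_lit 211) (nat_lit 5) (nat_lit 217) (nat_lit 5) (nat_lit 218) (nat_lit 5) (nat_lit 471) (nat_lit 421) (nat_lit 308)))))) (XT.nd (nat_lit 546) (nat_lit 2280) (nat_lit 0) (XT.nd (nat_lit 234) (nat_lit 1748) (nat_lit 0) (XT.nd (nat_lit 78) (nat_lit 836) (nat_lit 0) (XT.lf (nat_lit 0) (nat_lit 1927057131) (nat_lit 532) (nat_lit 8209699874) (nat_lit 76) (nat_lit 7677971236) (nat_lit 204) (nat_lit 5) (nat_lit 211) (nat_lit 5) (nat_lit 205) (nat_lit 5) (nat_lit 472) (nat_lit 421) (nat_lit 307)) (XT.nd (nat_lit 78) (nat_lit 380) (nat_lit 0) (XT.lf (nat_lit 0) (nat_lit 7991490911) (nat_lit 532) (nat_lit 9929931205) (nat_lit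 76) (nat_lit 210482418) (nat_lit 198) (nat_lit 5) (nat_lit 205) (nat_lit 5) (nat_lit 199) (nat_lit 5) (nat_lit 473) (nat_lit 421) (nat_lit 306)) (XT.lf (nat_lit 0) (nat_lit 6750552540) (nat_lit 380) (nat_lit 7634065344) (nat_lit 456) (nat_lit 4071043796) (nat_lit 193) (nat_lit 5) (nat_lit 198) (nat_lit 5) (nat_lit 199) (nat_lit 5) (nat_lit 474) (nat_lit 421) (nat_lit 305)))) (XT.nd (nat_lit 156) (nat_lit 836) (nat_lit 0) (XT.nd (nat_lit 78) (nat_lit 380) (nat_lit 0) (XT.lf (nat_lit 0) (nat_lit 2253336270) (nat_lit 532) (nat_lit 13503094856) (nat_lit 76) (nat_lit 3030387501) (nat_lit 186) (nat_lit 5) (nat_lit 193) (nat_lit 5) (nat_lit 187) (nat_lit 5) (nat_lit 475) (nat_lit 421) (nat_lit 304)) (XT.lf (nat_lit 0) (nat_lit 3756244895) (nat_lit 380) (nat_lit 5091250190) (nat_lit 456) (nat_lit 10277170579) (nat_lit 181) (nat_lit 5) (nat_lit 186) (nat_lit 5) (nat_lit 187) (nat_lit 5) (nat_lit 476) (nat_lit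 421) (nat_lit 303))) (XT.nd (nat_lit 78) (nat_lit 456) (nat_lit 0) (XT.lf (nat_lit 0) (nat_lit 2207279066) (nat_lit 380) (nat_lit 13556994212) (nat_lit 456) (nat_lit 3705879631) (nat_lit 176) (nat_lit 5) (nat_lit 181) (nat_lit 5) (nat_lit 182) (nat_lit 5) (nat_lit 477) (nat_lit 421) (nat_lit 302)) (XT.lf (nat_lit 0) (nat_lit 620258568) (nat_lit 380) (nat_lit 2525377605) (nat_lit 456) (nat_lit 16677506532) (nat_lit 170) (nat_lit 5) (nat_lit 175) (nat_lit 5) (nat_lit 176) (nat_lit 5) (nat_lit 478) (nat_lit 421) (nat_lit 301))))) (XT.nd (nat_lit 234) (nat_lit 1444) (nat_lit 0) (XT.nd (nat_lit 78) (nat_lit 836) (nat_lit 0) (XT.lf (nat_lit 0) (nat_lit 10308427813) (nat_lit 456) (nat_lit 1020917536) (nat_lit 76) (nat_lit 8853765991) (nat_lit 170) (nat_lit 5) (nat_lit 176) (nat_lit 5) (nat_lit 171) (nat_lit 5) (nat_lit 479) (nat_lit 421) (nat_lit 300)) (XT.nd (nat_lit 78) (nat_lit 456) (nat_lit 0) (XT.lf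 (nat_lit 0) (nat_lit 17801021916) (nat_lit 456) (nat_lit 2656804136) (nat_lit 76) (nat_lit 93755227) (nat_lit 165) (nat_lit 5) (nat_lit 171) (nat_lit 5) (nat_lit 166) (nat_lit 5) (nat_lit 480) (nat_lit 421) (nat_lit 299)) (XT.lf (nat_lit 0) (nat_lit 4700120769) (nat_lit 456) (nat_lit 4384832305) (nat_lit 76) (nat_lit 11842097248) (nat_lit 159) (nat_lit 5) (nat_lit 165) (nat_lit 5) (nat_lit 160) (nat_lit 5) (nat_lit 481) (nat_lit 421) (nat_lit 298)))) (XT.nd (nat_lit 156) (nat_lit 760) (nat_lit 0) (XT.nd (nat_lit 78) (nat_lit 304) (nat_lit 0) (XT.lf (nat_lit 0) (nat_lit 12453580430) (nat_lit 456) (nat_lit 6136978752) (nat_lit 76) (nat_lit 2720528635) (nat_lit 154) (nat_lit 5) (nat_lit 160) (nat_lit 5) (nat_lit 155) (nat_lit 5) (nat_lit 482) (nat_lit 421) (nat_lit 297)) (XT.lf (nat_lit 0) (nat_lit 13765009698) (nat_lit 304) (nat_lit 6836709537) (nat_lit 380) (nat_lit 1101686250) (nat_lit 150) (nat_lit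 5) (nat_lit 154) (nat_lit 5) (nat_lit 155) (nat_lit 5) (nat_lit 483) (nat_lit 421) (nat_lit 296))) (XT.nd (nat_lit 78) (nat_lit 304) (nat_lit 0) (XT.lf (nat_lit 0) (nat_lit 6935918216) (nat_lit 456) (nat_lit 9809776406) (nat_lit 76) (nat_lit 5358115704) (nat_lit 144) (nat_lit 5) (nat_lit 150) (nat_lit 5) (nat_lit 145) (nat_lit 5) (nat_lit 484) (nat_lit 421) (nat_lit 295)) (XT.lf (nat_lit 0) (nat_lit 10787019622) (nat_lit 304) (nat_lit 4565188712) (nat_lit 380) (nat_lit 7160823347) (nat_lit 140) (nat_lit 5) (nat_lit 144) (nat_lit 5) (nat_lit 145) (nat_lit 5) (nat_lit 485) (nat_lit 421) (nat_lit 294))))))) (XT.nd (nat_lit 1092) (nat_lit 228) (nat_lit 0) (XT.nd (nat_lit 546) (nat_lit 2052) (nat_lit 0) (XT.nd (nat_lit 234) (nat_lit 988) (nat_lit 0) (XT.nd (nat_lit 78) (nat_lit 608) (nat_lit 0) (XT.lf (nat_lit 0) (nat_lit 1234823196) (nat_lit 456) (nat_lit 13695425412) (nat_lit 76) (nat_lit 8000888181)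 (nat_lit 134) (nat_lit 5) (nat_lit 140) (nat_lit 5) (nat_lit 135) (nat_lit 5) (nat_lit 486) (nat_lit 421) (nat_lit 293)) (XT.nd (nat_lit 78) (nat_lit 304) (nat_lit 0) (XT.lf (nat_lit 0) (nat_lit 7620037794) (nat_lit 304) (nat_lit 2308565632) (nat_lit 380) (nat_lit 13429364401) (nat_lit 130) (nat_lit 5) (nat_lit 134) (nat_lit 5) (nat_lit 135) (nat_lit 5) (nat_lit 487) (nat_lit 421) (nat_lit 292)) (XT.lf (nat_lit 0) (nat_lit 5947274882) (nat_lit 304) (nat_lit 13120632245) (nat_lit 380) (nat_lit 4726002929) (nat_lit 126) (nat_lit 5) (nat_lit 130) (nat_lit 5) (nat_lit 131) (nat_lit 5) (nat_lit 488) (nat_lit 421) (nat_lit 291)))) (XT.nd (nat_lit 156) (nat_lit 304) (nat_lit 0) (XT.nd (nat_lit 78) (nat_lit 304) (nat_lit 0) (XT.lf (nat_lit 0) (nat_lit 4242488540) (nat_lit 304) (nat_lit 74180328) (nat_lit 380) (nat_lit 19923035790) (nat_lit 121) (nat_lit 5) (nat_lit 125) (nat_lit 5) (nat_lit 126) (nat_lit 5)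 (nat_lit 489) (nat_lit 421) (nat_lit 290)) (XT.lf (nat_lit 0) (nat_lit 2427821943) (nat_lit 304) (nat_lit 11346924106) (nat_lit 380) (nat_lit 10919336036) (nat_lit 117) (nat_lit 5) (nat_lit 121) (nat_lit 5) (nat_lit 122) (nat_lit 5) (nat_lit 490) (nat_lit 421) (nat_lit 289))) (XT.nd (nat_lit 78) (nat_lit 76) (nat_lit 0) (XT.lf (nat_lit 0) (nat_lit 606703381) (nat_lit 228) (nat_lit 23047673514) (nat_lit 304) (nat_lit 1504958127) (nat_lit 114) (nat_lit 5) (nat_lit 117) (nat_lit 5) (nat_lit 118) (nat_lit 5) (nat_lit 491) (nat_lit 421) (nat_lit 288)) (XT.lf (nat_lit 0) (nat_lit 8296306821) (nat_lit 304) (nat_lit 1321514218) (nat_lit 76) (nat_lit 16015423294) (nat_lit 113) (nat_lit 5) (nat_lit 117) (nat_lit 5) (nat_lit 114) (nat_lit 5) (nat_lit 492) (nat_lit 421) (nat_lit 287))))) (XT.nd (nat_lit 234) (nat_lit 1140) (nat_lit 0) (XT.nd (nat_lit 78) (nat_lit 608) (nat_lit 0) (XT.lf (nat_lit 0) (nat_lit 18532711147)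 (nat_lit 380) (nat_lit 3276216801) (nat_lit 76) (nat_lit 4309013445) (nat_lit 109) (nat_lit 5) (nat_lit 114) (nat_lit 5) (nat_lit 110) (nat_lit 5) (nat_lit 493) (nat_lit 421) (nat_lit 286)) (XT.nd (nat_lit 78) (nat_lit 304) (nat_lit 0) (XT.lf (nat_lit 0) (nat_lit 2624648245) (nat_lit 304) (nat_lit 5309923580) (nat_lit 76) (nat_lit 18678331177) (nat_lit 105) (nat_lit 5) (nat_lit 109) (nat_lit 5) (nat_lit 106) (nat_lit 5) (nat_lit 494) (nat_lit 421) (nat_lit 285)) (XT.lf (nat_lit 0) (nat_lit 13216290392) (nat_lit 380) (nat_lit 7436964783) (nat_lit 76) (nat_lit 6464885454) (nat_lit 101) (nat_lit 5) (nat_lit 106) (nat_lit 5) (nat_lit 102) (nat_lit 5) (nat_lit 495) (nat_lit 421) (nat_lit 284)))) (XT.nd (nat_lit 156) (nat_lit 532) (nat_lit 0) (XT.nd (nat_lit 78) (nat_lit 380) (nat_lit 0) (XT.lf (nat_lit 0) (nat_lit 18014636634) (nat_lit 228) (nat_lit 6302487381) (nat_lit 304) (nat_lit 3317582867) (nat_lit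 98) (nat_lit 5) (nat_lit 101) (nat_lit 5) (nat_lit 102) (nat_lit 5) (nat_lit 496) (nat_lit 421) (nat_lit 283)) (XT.lf (nat_lit 0) (nat_lit 7683053428) (nat_lit 380) (nat_lit 11914190851) (nat_lit 76) (nat_lit 8564575151) (nat_lit 93) (nat_lit 5) (nat_lit 98) (nat_lit 5) (nat_lit 94) (nat_lit 5) (nat_lit 497) (nat_lit 421) (nat_lit 282))) (XT.nd (nat_lit 78) (nat_lit 304) (nat_lit 0) (XT.lf (nat_lit 0) (nat_lit 14419136544) (nat_lit 228) (nat_lit 4736713661) (nat_lit 304) (nat_lit 9544712594) (nat_lit 90) (nat_lit 5) (nat_lit 93) (nat_lit 5) (nat_lit 94) (nat_lit 5) (nat_lit 498) (nat_lit 421) (nat_lit 281)) (XT.lf (nat_lit 0) (nat_lit 1913237848) (nat_lit 304) (nat_lit 16741573108) (nat_lit 76) (nat_lit 10596066829) (nat_lit 86) (nat_lit 5) (nat_lit 90) (nat_lit 5) (nat_lit 87) (nat_lit 5) (nat_lit 499) (nat_lit 421) (nat_lit 280)))))) (XT.nd (nat_lit 56862) (nat_lit 0) (nat_lit 35188) (XT.nd (nat_lit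 56550) (nat_lit 0) (nat_lit 36556) (XT.nd (nat_lit 56394) (nat_lit 0) (nat_lit 38076) (XT.lf (nat_lit 0) (nat_lit 10500639843) (nat_lit 228) (nat_lit 3268551662) (nat_lit 304) (nat_lit 16043570401) (nat_lit 83) (nat_lit 5) (nat_lit 86) (nat_lit 5) (nat_lit 87) (nat_lit 5) (nat_lit 500) (nat_lit 421) (nat_lit 279)) (XT.nd (nat_lit 78) (nat_lit 0) (nat_lit 0) (XT.lf (nat_lit 0) (nat_lit 1599397482) (nat_lit 0) (nat_lit 1599397482) (nat_lit 1444) (nat_lit 1051339155) (nat_lit 584) (nat_lit 5) (nat_lit 584) (nat_lit 3) (nat_lit 603) (nat_lit 3) (nat_lit 422) (nat_lit 422) (nat_lit 356)) (XT.lf (nat_lit 76) (nat_lit 1035171304) (nat_lit 0) (nat_lit 7021096073) (nat_lit 1520) (nat_lit 540142187) (nat_lit 585) (nat_lit 5) (nat_lit 584) (nat_lit 5) (nat_lit 604) (nat_lit 5) (nat_lit 423) (nat_lit 422) (nat_lit 355)))) (XT.nd (nat_lit 156) (nat_lit 0) (nat_lit 76) (XT.nd (nat_lit 78) (nat_lit 0) (nat_lit 76)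 (XT.lf (nat_lit 0) (nat_lit 1052061583) (nat_lit 1520) (nat_lit 1121605129) (nat_lit 1596) (nat_lit 6521697413) (nat_lit 564) (nat_lit 5) (nat_lit 584) (nat_lit 5) (nat_lit 585) (nat_lit 5) (nat_lit 424) (nat_lit 422) (nat_lit 354)) (XT.lf (nat_lit 0) (nat_lit 2680532467) (nat_lit 1520) (nat_lit 3267889559) (nat_lit 1596) (nat_lit 2848881128) (nat_lit 565) (nat_lit 5) (nat_lit 585) (nat_lit 5) (nat_lit 586) (nat_lit 5) (nat_lit 425) (nat_lit 422) (nat_lit 353))) (XT.nd (nat_lit 78) (nat_lit 0) (nat_lit 76) (XT.lf (nat_lit 76) (nat_lit 3491725482) (nat_lit 0) (nat_lit 853703565) (nat_lit 1596) (nat_lit 4557123787) (nat_lit 566) (nat_lit 5) (nat_lit 565) (nat_lit 5) (nat_lit 586) (nat_lit 5) (nat_lit 426) (nat_lit 422) (nat_lit 352)) (XT.lf (nat_lit 76) (nat_lit 1445228908) (nat_lit 0) (nat_lit 4619573643) (nat_lit 1596) (nat_lit 2946070649) (nat_lit 567) (nat_lit 5) (nat_lit 566) (nat_lit 5) (nat_lit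 587) (nat_lit 5) (nat_lit 427) (nat_lit 422) (nat_lit 351))))) (XT.nd (nat_lit 234) (nat_lit 0) (nat_lit 76) (XT.nd (nat_lit 78) (nat_lit 1596) (nat_lit 0) (XT.lf (nat_lit 0) (nat_lit 7828495785) (nat_lit 1520) (nat_lit 584957145) (nat_lit 1596) (nat_lit 709139163) (nat_lit 567) (nat_lit 5) (nat_lit 587) (nat_lit 5) (nat_lit 588) (nat_lit 5) (nat_lit 428) (nat_lit 422) (nat_lit 350)) (XT.nd (nat_lit 78) (nat_lit 0) (nat_lit 76) (XT.lf (nat_lit 0) (nat_lit 423610440) (nat_lit 1596) (nat_lit 2611927138) (nat_lit 1672) (nat_lit 6201645240) (nat_lit 546) (nat_lit 5) (nat_lit 567) (nat_lit 5) (nat_lit 568) (nat_lit 5) (nat_lit 429) (nat_lit 422) (nat_lit 349)) (XT.lf (nat_lit 0) (nat_lit 2175122660) (nat_lit 1596) (nat_lit 4647346545) (nat_lit 1672) (nat_lit 2532577267) (nat_lit 547) (nat_lit 5) (nat_lit 568) (nat_lit 5) (nat_lit 569) (nat_lit 5) (nat_lit 430) (nat_lit 422) (nat_lit 348)))) (XT.nd (nat_lit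 156) (nat_lit 0) (nat_lit 152) (XT.nd (nat_lit 78) (nat_lit 0) (nat_lit 76) (XT.lf (nat_lit 76) (nat_lit 2788912480) (nat_lit 0) (nat_lit 1196323702) (nat_lit 1672) (nat_lit 5491092042) (nat_lit 548) (nat_lit 5) (nat_lit 547) (nat_lit 5) (nat_lit 569) (nat_lit 5) (nat_lit 431) (nat_lit 422) (nat_lit 347)) (XT.lf (nat_lit 76) (nat_lit 858084320) (nat_lit 0) (nat_lit 5009876471) (nat_lit 1672) (nat_lit 3732924696) (nat_lit 549) (nat_lit 5) (nat_lit 548) (nat_lit 5) (nat_lit 570) (nat_lit 5) (nat_lit 432) (nat_lit 422) (nat_lit 346))) (XT.nd (nat_lit 78) (nat_lit 0) (nat_lit 0) (XT.lf (nat_lit 0) (nat_lit 7818439828) (nat_lit 1596) (nat_lit 1055116925) (nat_lit 1672) (nat_lit 855400377) (nat_lit 549) (nat_lit 5) (nat_lit 570) (nat_lit 5) (nat_lit 571) (nat_lit 5) (nat_lit 433) (nat_lit 422) (nat_lit 345)) (XT.lf (nat_lit 76) (nat_lit 6886177024) (nat_lit 0) (nat_lit 2973324463) (nat_lit 1672) (nat_lit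 731098) (nat_lit 550) (nat_lit 5) (nat_lit 549) (nat_lit 5) (nat_lit 571) (nat_lit 5) (nat_lit 434) (nat_lit 422) (nat_lit 344))))))))
noncomputable def xc70 : XT := (XT.nd (nat_lit 2106) (nat_lit 11932) (nat_lit 0) (XT.nd (nat_lit 1014) (nat_lit 8816) (nat_lit 0) (XT.nd (nat_lit 468) (nat_lit 6460) (nat_lit 0) (XT.nd (nat_lit 234) (nat_lit 3344) (nat_lit 0) (XT.nd (nat_lit 78) (nat_lit 0) (nat_lit 0) (XT.lf (nat_lit 0) (nat_lit 1956163409) (nat_lit 1672) (nat_lit 4910769987) (nat_lit 1748) (nat_lit 3127948375) (nat_lit 528) (nat_lit 5) (nat_lit 550) (nat_lit 5) (nat_lit 551) (nat_lit 5) (nat_lit 435) (nat_lit 422) (nat_lit 343)) (XT.nd (nat_lit 78) (nat_lit 0) (nat_lit 76) (XT.lf (nat_lit 76) (nat_lit 3280269971) (nat_lit 0) (nat_lit 708809503) (nat_lit 1748) (nat_lit 6144147167) (nat_lit 529) (nat_lit 5) (nat_lit 528) (nat_lit 5) (nat_lit 551) (nat_lit 5) (nat_lit 436) (nat_lit 422) (nat_lit 342))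 (XT.lf (nat_lit 76) (nat_lit 1456846920) (nat_lit 0) (nat_lit 4662655943) (nat_lit 1748) (nat_lit 4155491312) (nat_lit 530) (nat_lit 5) (nat_lit 529) (nat_lit 5) (nat_lit 552) (nat_lit 5) (nat_lit 437) (nat_lit 422) (nat_lit 341)))) (XT.nd (nat_lit 78) (nat_lit 3496) (nat_lit 0) (XT.lf (nat_lit 0) (nat_lit 8334349025) (nat_lit 1672) (nat_lit 361337735) (nat_lit 76) (nat_lit 1724920410) (nat_lit 530) (nat_lit 5) (nat_lit 552) (nat_lit 5) (nat_lit 531) (nat_lit 5) (nat_lit 438) (nat_lit 422) (nat_lit 340)) (XT.nd (nat_lit 78) (nat_lit 1748) (nat_lit 0) (XT.lf (nat_lit 0) (nat_lit 89725533) (nat_lit 1748) (nat_lit 2176172501) (nat_lit 76) (nat_lit 8303781892) (nat_lit 507) (nat_lit 5) (nat_lit 530) (nat_lit 5) (nat_lit 508) (nat_lit 5) (nat_lit 439) (nat_lit 422) (nat_lit 339)) (XT.lf (nat_lit 0) (nat_lit 2337702541) (nat_lit 1824) (nat_lit 4018401359) (nat_lit 76) (nat_lit 4366146441) (nat_lit 484) (nat_lit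 5) (nat_lit 508) (nat_lit 5) (nat_lit 485) (nat_lit 5) (nat_lit 440) (nat_lit 422) (nat_lit 338))))) (XT.nd (nat_lit 234) (nat_lit 2660) (nat_lit 0) (XT.nd (nat_lit 78) (nat_lit 1976) (nat_lit 0) (XT.lf (nat_lit 0) (nat_lit 4678878974) (nat_lit 1900) (nat_lit 5863860792) (nat_lit 76) (nat_lit 336145263) (nat_lit 460) (nat_lit 5) (nat_lit 485) (nat_lit 5) (nat_lit 461) (nat_lit 5) (nat_lit 441) (nat_lit 422) (nat_lit 337)) (XT.nd (nat_lit 78) (nat_lit 912) (nat_lit 0) (XT.lf (nat_lit 0) (nat_lit 3300923020) (nat_lit 1064) (nat_lit 3842638585) (nat_lit 1140) (nat_lit 3895594033) (nat_lit 446) (nat_lit 5) (nat_lit 460) (nat_lit 5) (nat_lit 461) (nat_lit 5) (nat_lit 442) (nat_lit 422) (nat_lit 336)) (XT.lf (nat_lit 0) (nat_lit 1583448767) (nat_lit 912) (nat_lit 8131705818) (nat_lit 988) (nat_lit 1488422611) (nat_lit 434) (nat_lit 5) (nat_lit 446) (nat_lit 5) (nat_lit 447) (nat_lit 5) (nat_lit 443) (nat_lit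 422) (nat_lit 335)))) (XT.nd (nat_lit 156) (nat_lit 1672) (nat_lit 0) (XT.nd (nat_lit 78) (nat_lit 912) (nat_lit 0) (XT.lf (nat_lit 0) (nat_lit 1019900131) (nat_lit 988) (nat_lit 148257756) (nat_lit 76) (nat_lit 10203808300) (nat_lit 433) (nat_lit 5) (nat_lit 446) (nat_lit 5) (nat_lit 434) (nat_lit 5) (nat_lit 444) (nat_lit 422) (nat_lit 334)) (XT.lf (nat_lit 0) (nat_lit 3650283283) (nat_lit 988) (nat_lit 1892812457) (nat_lit 76) (nat_lit 6000775746) (nat_lit 421) (nat_lit 5) (nat_lit 434) (nat_lit 5) (nat_lit 422) (nat_lit 5) (nat_lit 445) (nat_lit 422) (nat_lit 333))) (XT.nd (nat_lit 78) (nat_lit 836) (nat_lit 0) (XT.lf (nat_lit 0) (nat_lit 6397334050) (nat_lit 912) (nat_lit 3641462009) (nat_lit 76) (nat_lit 1681384764) (nat_lit 410) (nat_lit 5) (nat_lit 422) (nat_lit 5) (nat_lit 411) (nat_lit 5) (nat_lit 446) (nat_lit 422) (nat_lit 332)) (XT.lf (nat_lit 0) (nat_lit 6487829129) (nat_lit 836) (nat_lit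 2797214343) (nat_lit 912) (nat_lit 2615572967) (nat_lit 399) (nat_lit 5) (nat_lit 410) (nat_lit 5) (nat_lit 411) (nat_lit 5) (nat_lit 447) (nat_lit 422) (nat_lit 331)))))) (XT.nd (nat_lit 546) (nat_lit 4028) (nat_lit 0) (XT.nd (nat_lit 234) (nat_lit 2280) (nat_lit 0) (XT.nd (nat_lit 78) (nat_lit 1596) (nat_lit 0) (XT.lf (nat_lit 0) (nat_lit 224735494) (nat_lit 912) (nat_lit 7202367458) (nat_lit 76) (nat_lit 4658259881) (nat_lit 387) (nat_lit 5) (nat_lit 399) (nat_lit 5) (nat_lit 388) (nat_lit 5) (nat_lit 448) (nat_lit 422) (nat_lit 330)) (XT.nd (nat_lit 78) (nat_lit 760) (nat_lit 0) (XT.lf (nat_lit 0) (nat_lit 3159801408) (nat_lit 912) (nat_lit 9015822385) (nat_lit 76) (nat_lit 98782169) (nat_lit 376) (nat_lit 5) (nat_lit 388) (nat_lit 5) (nat_lit 377) (nat_lit 5) (nat_lit 449) (nat_lit 422) (nat_lit 329)) (XT.lf (nat_lit 0) (nat_lit 1600847995) (nat_lit 760) (nat_lit 4659426286) (nat_lit 836) (nat_lit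 6207300746) (nat_lit 366) (nat_lit 5) (nat_lit 376) (nat_lit 5) (nat_lit 377) (nat_lit 5) (nat_lit 450) (nat_lit 422) (nat_lit 328)))) (XT.nd (nat_lit 156) (nat_lit 1444) (nat_lit 0) (XT.nd (nat_lit 78) (nat_lit 836) (nat_lit 0) (XT.lf (nat_lit 0) (nat_lit 9504131702) (nat_lit 836) (nat_lit 60325706) (nat_lit 76) (nat_lit 3101076041) (nat_lit 366) (nat_lit 5) (nat_lit 377) (nat_lit 5) (nat_lit 367) (nat_lit 5) (nat_lit 451) (nat_lit 422) (nat_lit 327)) (XT.lf (nat_lit 0) (nat_lit 50009382) (nat_lit 836) (nat_lit 1715950951) (nat_lit 76) (nat_lit 11101998659) (nat_lit 355) (nat_lit 5) (nat_lit 366) (nat_lit 5) (nat_lit 356) (nat_lit 5) (nat_lit 452) (nat_lit 422) (nat_lit 326))) (XT.nd (nat_lit 78) (nat_lit 760) (nat_lit 0) (XT.lf (nat_lit 0) (nat_lit 3389900116) (nat_lit 760) (nat_lit 3418341614) (nat_lit 76) (nat_lit 6266297430) (nat_lit 346) (nat_lit 5) (nat_lit 356) (nat_lit 5) (nat_lit 347) (nat_lit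 5) (nat_lit 453) (nat_lit 422) (nat_lit 325)) (XT.lf (nat_lit 0) (nat_lit 6885791197) (nat_lit 836) (nat_lit 5126514504) (nat_lit 76) (nat_lit 1273896478) (nat_lit 336) (nat_lit 5) (nat_lit 347) (nat_lit 5) (nat_lit 337) (nat_lit 5) (nat_lit 454) (nat_lit 422) (nat_lit 324))))) (XT.nd (nat_lit 234) (nat_lit 1976) (nat_lit 0) (XT.nd (nat_lit 78) (nat_lit 1368) (nat_lit 0) (XT.lf (nat_lit 0) (nat_lit 6636521578) (nat_lit 684) (nat_lit 3933460294) (nat_lit 760) (nat_lit 2932566233) (nat_lit 327) (nat_lit 5) (nat_lit 336) (nat_lit 5) (nat_lit 337) (nat_lit 5) (nat_lit 455) (nat_lit 422) (nat_lit 323)) (XT.nd (nat_lit 78) (nat_lit 608) (nat_lit 0) (XT.lf (nat_lit 0) (nat_lit 700051227) (nat_lit 760) (nat_lit 8625402123) (nat_lit 76) (nat_lit 4398467002) (nat_lit 317) (nat_lit 5) (nat_lit 327) (nat_lit 5) (nat_lit 318) (nat_lit 5) (nat_lit 456) (nat_lit 422) (nat_lit 322)) (XT.lf (nat_lit 0) (nat_lit 3532322407)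 (nat_lit 608) (nat_lit 938282092) (nat_lit 684) (nat_lit 9479566956) (nat_lit 309) (nat_lit 5) (nat_lit 317) (nat_lit 5) (nat_lit 318) (nat_lit 5) (nat_lit 457) (nat_lit 422) (nat_lit 321)))) (XT.nd (nat_lit 156) (nat_lit 684) (nat_lit 0) (XT.nd (nat_lit 78) (nat_lit 608) (nat_lit 0) (XT.lf (nat_lit 0) (nat_lit 1933038520) (nat_lit 684) (nat_lit 6515674750) (nat_lit 760) (nat_lit 5732609366) (nat_lit 300) (nat_lit 5) (nat_lit 309) (nat_lit 5) (nat_lit 310) (nat_lit 5) (nat_lit 458) (nat_lit 422) (nat_lit 320)) (XT.lf (nat_lit 0) (nat_lit 330390052) (nat_lit 608) (nat_lit 12282416432) (nat_lit 684) (nat_lit 1805270328) (nat_lit 292) (nat_lit 5) (nat_lit 300) (nat_lit 5) (nat_lit 301) (nat_lit 5) (nat_lit 459) (nat_lit 422) (nat_lit 319))) (XT.nd (nat_lit 78) (nat_lit 608) (nat_lit 0) (XT.lf (nat_lit 0) (nat_lit 2311615180) (nat_lit 684) (nat_lit 1297367950) (nat_lit 76) (nat_lit 11050638791) (nat_lit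 291) (nat_lit 5) (nat_lit 300) (nat_lit 5) (nat_lit 292) (nat_lit 5) (nat_lit 460) (nat_lit 422) (nat_lit 318)) (XT.lf (nat_lit 0) (nat_lit 6615334690) (nat_lit 684) (nat_lit 2951967272) (nat_lit 76) (nat_lit 5339116872) (nat_lit 283) (nat_lit 5) (nat_lit 292) (nat_lit 5) (nat_lit 284) (nat_lit 5) (nat_lit 461) (nat_lit 422) (nat_lit 317))))))) (XT.nd (nat_lit 1092) (nat_lit 5092) (nat_lit 0) (XT.nd (nat_lit 546) (nat_lit 2888) (nat_lit 0) (XT.nd (nat_lit 234) (nat_lit 2128) (nat_lit 0) (XT.nd (nat_lit 78) (nat_lit 1216) (nat_lit 0) (XT.lf (nat_lit 0) (nat_lit 10543725010) (nat_lit 608) (nat_lit 581114732) (nat_lit 684) (nat_lit 4034247584) (nat_lit 275) (nat_lit 5) (nat_lit 283) (nat_lit 5) (nat_lit 284) (nat_lit 5) (nat_lit 462) (nat_lit 422) (nat_lit 316)) (XT.nd (nat_lit 78) (nat_lit 532) (nat_lit 0) (XT.lf (nat_lit 0) (nat_lit 457666903) (nat_lit 684) (nat_lit 6322943319) (nat_lit 76) (nat_lit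 8636441920) (nat_lit 266) (nat_lit 5) (nat_lit 275) (nat_lit 5) (nat_lit 267) (nat_lit 5) (nat_lit 463) (nat_lit 422) (nat_lit 315)) (XT.lf (nat_lit 0) (nat_lit 5107340358) (nat_lit 608) (nat_lit 8063798314) (nat_lit 76) (nat_lit 2509528745) (nat_lit 259) (nat_lit 5) (nat_lit 267) (nat_lit 5) (nat_lit 260) (nat_lit 5) (nat_lit 464) (nat_lit 422) (nat_lit 314)))) (XT.nd (nat_lit 156) (nat_lit 1064) (nat_lit 0) (XT.nd (nat_lit 78) (nat_lit 532) (nat_lit 0) (XT.lf (nat_lit 0) (nat_lit 6113480642) (nat_lit 532) (nat_lit 3887698642) (nat_lit 608) (nat_lit 5948919393) (nat_lit 252) (nat_lit 5) (nat_lit 259) (nat_lit 5) (nat_lit 260) (nat_lit 5) (nat_lit 465) (nat_lit 422) (nat_lit 313)) (XT.lf (nat_lit 0) (nat_lit 4591890005) (nat_lit 532) (nat_lit 10548545738) (nat_lit 608) (nat_lit 1085206088) (nat_lit 245) (nat_lit 5) (nat_lit 252) (nat_lit 5) (nat_lit 253) (nat_lit 5) (nat_lit 466) (nat_lit 422) (nat_lit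 312))) (XT.nd (nat_lit 78) (nat_lit 456) (nat_lit 0) (XT.lf (nat_lit 0) (nat_lit 3036822486) (nat_lit 532) (nat_lit 926205657) (nat_lit 608) (nat_lit 12544112915) (nat_lit 237) (nat_lit 5) (nat_lit 244) (nat_lit 5) (nat_lit 245) (nat_lit 5) (nat_lit 467) (nat_lit 422) (nat_lit 311)) (XT.lf (nat_lit 0) (nat_lit 1433172599) (nat_lit 456) (nat_lit 7839551764) (nat_lit 532) (nat_lit 7521723186) (nat_lit 231) (nat_lit 5) (nat_lit 237) (nat_lit 5) (nat_lit 238) (nat_lit 5) (nat_lit 468) (nat_lit 422) (nat_lit 310))))) (XT.nd (nat_lit 234) (nat_lit 1824) (nat_lit 0) (XT.nd (nat_lit 78) (nat_lit 1064) (nat_lit 0) (XT.lf (nat_lit 0) (nat_lit 14831003324) (nat_lit 532) (nat_lit 170974583) (nat_lit 76) (nat_lit 2086610391) (nat_lit 231) (nat_lit 5) (nat_lit 238) (nat_lit 5) (nat_lit 232) (nat_lit 5) (nat_lit 469) (nat_lit 422) (nat_lit 309)) (XT.nd (nat_lit 78) (nat_lit 456) (nat_lit 0) (XT.lf (nat_lit 0) (nat_lit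 3256261938) (nat_lit 608) (nat_lit 1812908851) (nat_lit 76) (nat_lit 12319306675) (nat_lit 223) (nat_lit 5) (nat_lit 231) (nat_lit 5) (nat_lit 224) (nat_lit 5) (nat_lit 470) (nat_lit 422) (nat_lit 308)) (XT.lf (nat_lit 0) (nat_lit 9011843761) (nat_lit 532) (nat_lit 3488150308) (nat_lit 76) (nat_lit 5194931790) (nat_lit 217) (nat_lit 5) (nat_lit 224) (nat_lit 5) (nat_lit 218) (nat_lit 5) (nat_lit 471) (nat_lit 422) (nat_lit 307)))) (XT.nd (nat_lit 156) (nat_lit 836) (nat_lit 0) (XT.nd (nat_lit 78) (nat_lit 532) (nat_lit 0) (XT.lf (nat_lit 0) (nat_lit 12826356536) (nat_lit 456) (nat_lit 2222654055) (nat_lit 532) (nat_lit 2959379571) (nat_lit 211) (nat_lit 5) (nat_lit 217) (nat_lit 5) (nat_lit 218) (nat_lit 5) (nat_lit 472) (nat_lit 422) (nat_lit 306)) (XT.lf (nat_lit 0) (nat_lit 3030324283) (nat_lit 532) (nat_lit 6935363462) (nat_lit 76) (nat_lit 8362534228) (nat_lit 204) (nat_lit 5) (nat_lit 211) (nat_lit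 5) (nat_lit 205) (nat_lit 5) (nat_lit 473) (nat_lit 422) (nat_lit 305))) (XT.nd (nat_lit 78) (nat_lit 380) (nat_lit 0) (XT.lf (nat_lit 0) (nat_lit 9259013260) (nat_lit 532) (nat_lit 8714399470) (nat_lit 76) (nat_lit 681855517) (nat_lit 198) (nat_lit 5) (nat_lit 205) (nat_lit 5) (nat_lit 199) (nat_lit 5) (nat_lit 474) (nat_lit 422) (nat_lit 304)) (XT.lf (nat_lit 0) (nat_lit 8441945189) (nat_lit 380) (nat_lit 7381720353) (nat_lit 456) (nat_lit 3165479037) (nat_lit 193) (nat_lit 5) (nat_lit 198) (nat_lit 5) (nat_lit 199) (nat_lit 5) (nat_lit 475) (nat_lit 422) (nat_lit 303)))))) (XT.nd (nat_lit 546) (nat_lit 2508) (nat_lit 0) (XT.nd (nat_lit 234) (nat_lit 1292) (nat_lit 0) (XT.nd (nat_lit 78) (nat_lit 760) (nat_lit 0) (XT.lf (nat_lit 0) (nat_lit 3318350728) (nat_lit 532) (nat_lit 12413391972) (nat_lit 76) (nat_lit 3598697200) (nat_lit 186) (nat_lit 5) (nat_lit 193) (nat_lit 5) (nat_lit 187) (nat_lit 5)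 (nat_lit 476) (nat_lit 422) (nat_lit 302)) (XT.nd (nat_lit 78) (nat_lit 380) (nat_lit 0) (XT.lf (nat_lit 0) (nat_lit 5339476686) (nat_lit 380) (nat_lit 4751354467) (nat_lit 456) (nat_lit 9587982277) (nat_lit 181) (nat_lit 5) (nat_lit 186) (nat_lit 5) (nat_lit 187) (nat_lit 5) (nat_lit 477) (nat_lit 422) (nat_lit 301)) (XT.lf (nat_lit 0) (nat_lit 3736311778) (nat_lit 380) (nat_lit 13462920966) (nat_lit 456) (nat_lit 2835751138) (nat_lit 176) (nat_lit 5) (nat_lit 181) (nat_lit 5) (nat_lit 182) (nat_lit 5) (nat_lit 478) (nat_lit 422) (nat_lit 300)))) (XT.nd (nat_lit 156) (nat_lit 456) (nat_lit 0) (XT.nd (nat_lit 78) (nat_lit 380) (nat_lit 0) (XT.lf (nat_lit 0) (nat_lit 2090641247) (nat_lit 380) (nat_lit 2099017947) (nat_lit 456) (nat_lit 16209153314) (nat_lit 170) (nat_lit 5) (nat_lit 175) (nat_lit 5) (nat_lit 176) (nat_lit 5) (nat_lit 479) (nat_lit 422) (nat_lit 299)) (XT.lf (nat_lit 0) (nat_lit 378210673)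 (nat_lit 380) (nat_lit 11167084830) (nat_lit 456) (nat_lit 9224726395) (nat_lit 165) (nat_lit 5) (nat_lit 170) (nat_lit 5) (nat_lit 171) (nat_lit 5) (nat_lit 480) (nat_lit 422) (nat_lit 298))) (XT.nd (nat_lit 78) (nat_lit 456) (nat_lit 0) (XT.lf (nat_lit 0) (nat_lit 19245575837) (nat_lit 456) (nat_lit 1319862325) (nat_lit 76) (nat_lit 584450492) (nat_lit 165) (nat_lit 5) (nat_lit 171) (nat_lit 5) (nat_lit 166) (nat_lit 5) (nat_lit 481) (nat_lit 422) (nat_lit 297)) (XT.lf (nat_lit 0) (nat_lit 5740118751) (nat_lit 456) (nat_lit 3110739404) (nat_lit 76) (nat_lit 12685995619) (nat_lit 159) (nat_lit 5) (nat_lit 165) (nat_lit 5) (nat_lit 160) (nat_lit 5) (nat_lit 482) (nat_lit 422) (nat_lit 296))))) (XT.nd (nat_lit 234) (nat_lit 1368) (nat_lit 0) (XT.nd (nat_lit 78) (nat_lit 760) (nat_lit 0) (XT.lf (nat_lit 0) (nat_lit 13712229284) (nat_lit 456) (nat_lit 4923845045) (nat_lit 76) (nat_lit 3296617942) (nat_lit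 154) (nat_lit 5) (nat_lit 160) (nat_lit 5) (nat_lit 155) (nat_lit 5) (nat_lit 483) (nat_lit 422) (nat_lit 295)) (XT.nd (nat_lit 78) (nat_lit 456) (nat_lit 0) (XT.lf (nat_lit 0) (nat_lit 15552534449) (nat_lit 304) (nat_lit 6535424546) (nat_lit 380) (nat_lit 249158335) (nat_lit 150) (nat_lit 5) (nat_lit 154) (nat_lit 5) (nat_lit 155) (nat_lit 5) (nat_lit 484) (nat_lit 422) (nat_lit 294)) (XT.lf (nat_lit 0) (nat_lit 8004646331) (nat_lit 456) (nat_lit 8726459482) (nat_lit 76) (nat_lit 6018580536) (nat_lit 144) (nat_lit 5) (nat_lit 150) (nat_lit 5) (nat_lit 145) (nat_lit 5) (nat_lit 485) (nat_lit 422) (nat_lit 293)))) (XT.nd (nat_lit 156) (nat_lit 608) (nat_lit 0) (XT.nd (nat_lit 78) (nat_lit 456) (nat_lit 0) (XT.lf (nat_lit 0) (nat_lit 12465890339) (nat_lit 304) (nat_lit 4191266570) (nat_lit 380) (nat_lit 6514353537) (nat_lit 140) (nat_lit 5) (nat_lit 144) (nat_lit 5) (nat_lit 145) (nat_lit 5) (nat_lit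 486) (nat_lit 422) (nat_lit 292)) (XT.lf (nat_lit 0) (nat_lit 2109152036) (nat_lit 456) (nat_lit 12748490447) (nat_lit 76) (nat_lit 8744659369) (nat_lit 134) (nat_lit 5) (nat_lit 140) (nat_lit 5) (nat_lit 135) (nat_lit 5) (nat_lit 487) (nat_lit 422) (nat_lit 291))) (XT.nd (nat_lit 78) (nat_lit 304) (nat_lit 0) (XT.lf (nat_lit 0) (nat_lit 9184408000) (nat_lit 304) (nat_lit 1863623456) (nat_lit 380) (nat_lit 12994221331) (nat_lit 130) (nat_lit 5) (nat_lit 134) (nat_lit 5) (nat_lit 135) (nat_lit 5) (nat_lit 488) (nat_lit 422) (nat_lit 290)) (XT.lf (nat_lit 0) (nat_lit 7452693703) (nat_lit 304) (nat_lit 12996748395) (nat_lit 380) (nat_lit 4042073288) (nat_lit 126) (nat_lit 5) (nat_lit 130) (nat_lit 5) (nat_lit 131) (nat_lit 5) (nat_lit 489) (nat_lit 422) (nat_lit 289))))))))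
noncomputable def xc71 : XT := (XT.nd (nat_lit 58344) (nat_lit 0) (nat_lit 14440) (XT.nd (nat_lit 57252) (nat_lit 0) (nat_lit 34276) (XT.nd (nat_lit 468) (nat_lit 2204) (nat_lit 0) (XT.nd (nat_lit 234) (nat_lit 684) (nat_lit 0) (XT.nd (nat_lit 78) (nat_lit 532) (nat_lit 0) (XT.lf (nat_lit 0) (nat_lit 5248717340) (nat_lit 380) (nat_lit 19267828472) (nat_lit 76) (nat_lit 434278062) (nat_lit 121) (nat_lit 5) (nat_lit 126) (nat_lit 5) (nat_lit 122) (nat_lit 5) (nat_lit 490) (nat_lit 422) (nat_lit 288)) (XT.nd (nat_lit 78) (nat_lit 228) (nat_lit 0) (XT.lf (nat_lit 0) (nat_lit 3807906323) (nat_lit 304) (nat_lit 11168224476) (nat_lit 380) (nat_lit 10442990555) (nat_lit 117) (nat_lit 5) (nat_lit 121) (nat_lit 5) (nat_lit 122) (nat_lit 5) (nat_lit 491) (nat_lit 422) (nat_lit 287)) (XT.lf (nat_lit 0) (nat_lit 1923157051) (nat_lit 228) (nat_lit 23217739255) (nat_lit 304) (nat_lit 757661250) (nat_lit 114) (nat_lit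 5) (nat_lit 117) (nat_lit 5) (nat_lit 118) (nat_lit 5) (nat_lit 492) (nat_lit 422) (nat_lit 286)))) (XT.nd (nat_lit 78) (nat_lit 608) (nat_lit 0) (XT.lf (nat_lit 0) (nat_lit 9304470349) (nat_lit 304) (nat_lit 90611099) (nat_lit 76) (nat_lit 16991955926) (nat_lit 113) (nat_lit 5) (nat_lit 117) (nat_lit 5) (nat_lit 114) (nat_lit 5) (nat_lit 493) (nat_lit 422) (nat_lit 285)) (XT.nd (nat_lit 78) (nat_lit 304) (nat_lit 0) (XT.lf (nat_lit 0) (nat_lit 19837244019) (nat_lit 380) (nat_lit 2112920737) (nat_lit 76) (nat_lit 4936325593) (nat_lit 109) (nat_lit 5) (nat_lit 114) (nat_lit 5) (nat_lit 110) (nat_lit 5) (nat_lit 494) (nat_lit 422) (nat_lit 284)) (XT.lf (nat_lit 0) (nat_lit 3443078662) (nat_lit 304) (nat_lit 4218258920) (nat_lit 76) (nat_lit 19735141316) (nat_lit 105) (nat_lit 5) (nat_lit 109) (nat_lit 5) (nat_lit 106) (nat_lit 5) (nat_lit 495) (nat_lit 422) (nat_lit 283))))) (XT.nd (nat_lit 234) (nat_lit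 1292) (nat_lit 0) (XT.nd (nat_lit 78) (nat_lit 608) (nat_lit 0) (XT.lf (nat_lit 0) (nat_lit 14342191727) (nat_lit 380) (nat_lit 6418142875) (nat_lit 76) (nat_lit 7156745124) (nat_lit 101) (nat_lit 5) (nat_lit 106) (nat_lit 5) (nat_lit 102) (nat_lit 5) (nat_lit 496) (nat_lit 422) (nat_lit 282)) (XT.nd (nat_lit 78) (nat_lit 380) (nat_lit 0) (XT.lf (nat_lit 0) (nat_lit 19776857732) (nat_lit 228) (nat_lit 5985880218) (nat_lit 304) (nat_lit 2686671757) (nat_lit 98) (nat_lit 5) (nat_lit 101) (nat_lit 5) (nat_lit 102) (nat_lit 5) (nat_lit 497) (nat_lit 422) (nat_lit 281)) (XT.lf (nat_lit 0) (nat_lit 8624543295) (nat_lit 380) (nat_lit 11049316354) (nat_lit 76) (nat_lit 9318578810) (nat_lit 93) (nat_lit 5) (nat_lit 98) (nat_lit 5) (nat_lit 94) (nat_lit 5) (nat_lit 498) (nat_lit 422) (nat_lit 280)))) (XT.nd (nat_lit 156) (nat_lit 760) (nat_lit 0) (XT.nd (nat_lit 78) (nat_lit 304) (nat_lit 0) (XT.lf (nat_lit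 0) (nat_lit 16054180494) (nat_lit 228) (nat_lit 4374442025) (nat_lit 304) (nat_lit 9118980092) (nat_lit 90) (nat_lit 5) (nat_lit 93) (nat_lit 5) (nat_lit 94) (nat_lit 5) (nat_lit 499) (nat_lit 422) (nat_lit 279)) (XT.lf (nat_lit 0) (nat_lit 2663902525) (nat_lit 304) (nat_lit 16041102812) (nat_lit 76) (nat_lit 11409519026) (nat_lit 86) (nat_lit 5) (nat_lit 90) (nat_lit 5) (nat_lit 87) (nat_lit 5) (nat_lit 500) (nat_lit 422) (nat_lit 278))) (XT.nd (nat_lit 156) (nat_lit 532) (nat_lit 0) (XT.lf (nat_lit 0) (nat_lit 11998863865) (nat_lit 228) (nat_lit 2864160817) (nat_lit 304) (nat_lit 15830490945) (nat_lit 83) (nat_lit 5) (nat_lit 86) (nat_lit 5) (nat_lit 87) (nat_lit 5) (nat_lit 501) (nat_lit 422) (nat_lit 277)) (XT.lf (nat_lit 0) (nat_lit 7572999388) (nat_lit 228) (nat_lit 1470658971) (nat_lit 304) (nat_lit 22845598525) (nat_lit 76) (nat_lit 5) (nat_lit 79) (nat_lit 5) (nat_lit 80) (nat_lit 5) (nat_lit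 503) (nat_lit 422) (nat_lit 275)))))) (XT.nd (nat_lit 546) (nat_lit 1368) (nat_lit 0) (XT.nd (nat_lit 234) (nat_lit 1368) (nat_lit 0) (XT.nd (nat_lit 78) (nat_lit 0) (nat_lit 76) (XT.lf (nat_lit 0) (nat_lit 472381589) (nat_lit 1596) (nat_lit 1937235357) (nat_lit 1596) (nat_lit 1937235357) (nat_lit 563) (nat_lit 3) (nat_lit 584) (nat_lit 3) (nat_lit 584) (nat_lit 5) (nat_lit 423) (nat_lit 423) (nat_lit 354)) (XT.nd (nat_lit 78) (nat_lit 0) (nat_lit 0) (XT.lf (nat_lit 0) (nat_lit 2443885316) (nat_lit 1520) (nat_lit 6168276722) (nat_lit 1596) (nat_lit 182148927) (nat_lit 564) (nat_lit 5) (nat_lit 584) (nat_lit 5) (nat_lit 585) (nat_lit 5) (nat_lit 424) (nat_lit 423) (nat_lit 353)) (XT.lf (nat_lit 76) (nat_lit 419359819) (nat_lit 0) (nat_lit 3572748690) (nat_lit 1596) (nat_lit 4905748366) (nat_lit 565) (nat_lit 5) (nat_lit 564) (nat_lit 5) (nat_lit 585) (nat_lit 5) (nat_lit 425) (nat_lit 423) (nat_lit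 352)))) (XT.nd (nat_lit 156) (nat_lit 1520) (nat_lit 0) (XT.nd (nat_lit 78) (nat_lit 0) (nat_lit 0) (XT.lf (nat_lit 0) (nat_lit 5583740074) (nat_lit 1520) (nat_lit 1757095141) (nat_lit 1596) (nat_lit 1663738511) (nat_lit 565) (nat_lit 5) (nat_lit 585) (nat_lit 5) (nat_lit 586) (nat_lit 5) (nat_lit 426) (nat_lit 423) (nat_lit 351)) (XT.lf (nat_lit 76) (nat_lit 5179206978) (nat_lit 0) (nat_lit 2047435473) (nat_lit 1596) (nat_lit 1887782880) (nat_lit 566) (nat_lit 5) (nat_lit 565) (nat_lit 5) (nat_lit 586) (nat_lit 5) (nat_lit 427) (nat_lit 423) (nat_lit 350))) (XT.nd (nat_lit 78) (nat_lit 1596) (nat_lit 0) (XT.lf (nat_lit 76) (nat_lit 3107407236) (nat_lit 0) (nat_lit 5813215211) (nat_lit 1596) (nat_lit 306917804) (nat_lit 567) (nat_lit 5) (nat_lit 566) (nat_lit 5) (nat_lit 587) (nat_lit 5) (nat_lit 428) (nat_lit 423) (nat_lit 349)) (XT.lf (nat_lit 76) (nat_lit 1031082753) (nat_lit 0) (nat_lit 268698815)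 (nat_lit 1672) (nat_lit 8044184105) (nat_lit 546) (nat_lit 5) (nat_lit 545) (nat_lit 5) (nat_lit 567) (nat_lit 5) (nat_lit 429) (nat_lit 423) (nat_lit 348))))) (XT.nd (nat_lit 234) (nat_lit 1444) (nat_lit 0) (XT.nd (nat_lit 78) (nat_lit 0) (nat_lit 76) (XT.lf (nat_lit 0) (nat_lit 2977546739) (nat_lit 1596) (nat_lit 1052378949) (nat_lit 1672) (nat_lit 5433380209) (nat_lit 546) (nat_lit 5) (nat_lit 567) (nat_lit 5) (nat_lit 568) (nat_lit 5) (nat_lit 430) (nat_lit 423) (nat_lit 347)) (XT.nd (nat_lit 78) (nat_lit 0) (nat_lit 0) (XT.lf (nat_lit 0) (nat_lit 4712424961) (nat_lit 1596) (nat_lit 3120092732) (nat_lit 1672) (nat_lit 1753576243) (nat_lit 547) (nat_lit 5) (nat_lit 568) (nat_lit 5) (nat_lit 569) (nat_lit 5) (nat_lit 431) (nat_lit 423) (nat_lit 346)) (XT.lf (nat_lit 76) (nat_lit 4512214255) (nat_lit 0) (nat_lit 2003271813) (nat_lit 1672) (nat_lit 3196759937) (nat_lit 548) (nat_lit 5) (nat_lit 547)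 (nat_lit 5) (nat_lit 569) (nat_lit 5) (nat_lit 432) (nat_lit 423) (nat_lit 345)))) (XT.nd (nat_lit 156) (nat_lit 0) (nat_lit 0) (XT.nd (nat_lit 78) (nat_lit 1596) (nat_lit 0) (XT.lf (nat_lit 76) (nat_lit 2549372419) (nat_lit 0) (nat_lit 5841059057) (nat_lit 1672) (nat_lit 1451398335) (nat_lit 549) (nat_lit 5) (nat_lit 548) (nat_lit 5) (nat_lit 570) (nat_lit 5) (nat_lit 433) (nat_lit 423) (nat_lit 344)) (XT.lf (nat_lit 0) (nat_lit 350821101) (nat_lit 1672) (nat_lit 9389453993) (nat_lit 1748) (nat_lit 234803166) (nat_lit 527) (nat_lit 5) (nat_lit 549) (nat_lit 5) (nat_lit 550) (nat_lit 5) (nat_lit 434) (nat_lit 423) (nat_lit 343))) (XT.nd (nat_lit 78) (nat_lit 0) (nat_lit 76) (XT.lf (nat_lit 0) (nat_lit 2232307910) (nat_lit 1672) (nat_lit 1393462569) (nat_lit 1748) (nat_lit 6485466213) (nat_lit 527) (nat_lit 5) (nat_lit 549) (nat_lit 5) (nat_lit 550) (nat_lit 5) (nat_lit 435) (nat_lit 423) (nat_lit 342))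 (XT.lf (nat_lit 0) (nat_lit 4190044886) (nat_lit 1672) (nat_lit 3368182867) (nat_lit 1748) (nat_lit 2692858727) (nat_lit 528) (nat_lit 5) (nat_lit 550) (nat_lit 5) (nat_lit 551) (nat_lit 5) (nat_lit 436) (nat_lit 423) (nat_lit 341))))))) (XT.nd (nat_lit 1092) (nat_lit 8360) (nat_lit 0) (XT.nd (nat_lit 546) (nat_lit 5320) (nat_lit 0) (XT.nd (nat_lit 234) (nat_lit 4712) (nat_lit 0) (XT.nd (nat_lit 78) (nat_lit 1520) (nat_lit 0) (XT.lf (nat_lit 76) (nat_lit 5041171504) (nat_lit 0) (nat_lit 1190215699) (nat_lit 1748) (nat_lit 4163249732) (nat_lit 529) (nat_lit 5) (nat_lit 528) (nat_lit 5) (nat_lit 551) (nat_lit 5) (nat_lit 437) (nat_lit 423) (nat_lit 340)) (XT.nd (nat_lit 78) (nat_lit 1596) (nat_lit 0) (XT.lf (nat_lit 76) (nat_lit 3180908448) (nat_lit 0) (nat_lit 5190999971) (nat_lit 1748) (nat_lit 2169829270) (nat_lit 530) (nat_lit 5) (nat_lit 529) (nat_lit 5) (nat_lit 552) (nat_lit 5) (nat_lit 438) (nat_lit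 423) (nat_lit 339)) (XT.lf (nat_lit 0) (nat_lit 1319284591) (nat_lit 1672) (nat_lit 9279775431) (nat_lit 1748) (nat_lit 93745634) (nat_lit 508) (nat_lit 5) (nat_lit 530) (nat_lit 5) (nat_lit 531) (nat_lit 5) (nat_lit 439) (nat_lit 423) (nat_lit 338)))) (XT.nd (nat_lit 156) (nat_lit 2888) (nat_lit 0) (XT.nd (nat_lit 78) (nat_lit 1748) (nat_lit 0) (XT.lf (nat_lit 0) (nat_lit 2063885260) (nat_lit 1748) (nat_lit 568139310) (nat_lit 76) (nat_lit 8215196351) (nat_lit 507) (nat_lit 5) (nat_lit 530) (nat_lit 5) (nat_lit 508) (nat_lit 5) (nat_lit 440) (nat_lit 423) (nat_lit 337)) (XT.lf (nat_lit 0) (nat_lit 4330759592) (nat_lit 1824) (nat_lit 2452362776) (nat_lit 76) (nat_lit 4222220415) (nat_lit 484) (nat_lit 5) (nat_lit 508) (nat_lit 5) (nat_lit 485) (nat_lit 5) (nat_lit 441) (nat_lit 423) (nat_lit 336))) (XT.nd (nat_lit 78) (nat_lit 1064) (nat_lit 0) (XT.lf (nat_lit 0) (nat_lit 6695518163) (nat_lit 1900)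 (nat_lit 4341463535) (nat_lit 76) (nat_lit 130631274) (nat_lit 460) (nat_lit 5) (nat_lit 485) (nat_lit 5) (nat_lit 461) (nat_lit 5) (nat_lit 442) (nat_lit 423) (nat_lit 335)) (XT.lf (nat_lit 0) (nat_lit 5070710680) (nat_lit 1064) (nat_lit 4119629551) (nat_lit 1140) (nat_lit 2143230783) (nat_lit 446) (nat_lit 5) (nat_lit 460) (nat_lit 5) (nat_lit 461) (nat_lit 5) (nat_lit 443) (nat_lit 423) (nat_lit 334))))) (XT.nd (nat_lit 234) (nat_lit 3420) (nat_lit 0) (XT.nd (nat_lit 78) (nat_lit 912) (nat_lit 0) (XT.lf (nat_lit 0) (nat_lit 287976805) (nat_lit 988) (nat_lit 8193890660) (nat_lit 76) (nat_lit 3021892645) (nat_lit 433) (nat_lit 5) (nat_lit 446) (nat_lit 5) (nat_lit 434) (nat_lit 5) (nat_lit 444) (nat_lit 423) (nat_lit 333)) (XT.nd (nat_lit 78) (nat_lit 0) (nat_lit 0) (XT.lf (nat_lit 0) (nat_lit 1522493235) (nat_lit 912) (nat_lit 1286379748) (nat_lit 988) (nat_lit 8868983152) (nat_lit 421) (nat_lit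 5) (nat_lit 433) (nat_lit 5) (nat_lit 434) (nat_lit 5) (nat_lit 445) (nat_lit 423) (nat_lit 332)) (XT.lf (nat_lit 0) (nat_lit 5467410327) (nat_lit 988) (nat_lit 286440891) (nat_lit 76) (nat_lit 6102085478) (nat_lit 421) (nat_lit 5) (nat_lit 434) (nat_lit 5) (nat_lit 422) (nat_lit 5) (nat_lit 446) (nat_lit 423) (nat_lit 331)))) (XT.nd (nat_lit 156) (nat_lit 1748) (nat_lit 0) (XT.nd (nat_lit 78) (nat_lit 836) (nat_lit 0) (XT.lf (nat_lit 0) (nat_lit 8257549356) (nat_lit 912) (nat_lit 2080856941) (nat_lit 76) (nat_lit 1699918352) (nat_lit 410) (nat_lit 5) (nat_lit 422) (nat_lit 5) (nat_lit 411) (nat_lit 5) (nat_lit 447) (nat_lit 423) (nat_lit 330)) (XT.lf (nat_lit 0) (nat_lit 8325221616) (nat_lit 836) (nat_lit 2868743192) (nat_lit 912) (nat_lit 1030969819) (nat_lit 399) (nat_lit 5) (nat_lit 410) (nat_lit 5) (nat_lit 411) (nat_lit 5) (nat_lit 448) (nat_lit 423) (nat_lit 329))) (XT.nd (nat_lit 78) (nat_lit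 836) (nat_lit 0) (XT.lf (nat_lit 0) (nat_lit 1835783429) (nat_lit 912) (nat_lit 5748833190) (nat_lit 76) (nat_lit 4831132550) (nat_lit 387) (nat_lit 5) (nat_lit 399) (nat_lit 5) (nat_lit 388) (nat_lit 5) (nat_lit 449) (nat_lit 423) (nat_lit 328)) (XT.lf (nat_lit 0) (nat_lit 4823320525) (nat_lit 912) (nat_lit 7612810658) (nat_lit 76) (nat_lit 175046601) (nat_lit 376) (nat_lit 5) (nat_lit 388) (nat_lit 5) (nat_lit 377) (nat_lit 5) (nat_lit 450) (nat_lit 423) (nat_lit 327)))))) (XT.nd (nat_lit 546) (nat_lit 3876) (nat_lit 0) (XT.nd (nat_lit 234) (nat_lit 2888) (nat_lit 0) (XT.nd (nat_lit 78) (nat_lit 836) (nat_lit 0) (XT.lf (nat_lit 0) (nat_lit 3295209504) (nat_lit 760) (nat_lit 4686596164) (nat_lit 836) (nat_lit 4829038792) (nat_lit 366) (nat_lit 5) (nat_lit 376) (nat_lit 5) (nat_lit 377) (nat_lit 5) (nat_lit 451) (nat_lit 423) (nat_lit 326)) (XT.nd (nat_lit 78) (nat_lit 76) (nat_lit 0) (XT.lf (nat_lit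 0) (nat_lit 1586204510) (nat_lit 760) (nat_lit 9703111307) (nat_lit 836) (nat_lit 1726101506) (nat_lit 356) (nat_lit 5) (nat_lit 366) (nat_lit 5) (nat_lit 367) (nat_lit 5) (nat_lit 452) (nat_lit 423) (nat_lit 325)) (XT.lf (nat_lit 0) (nat_lit 1518000630) (nat_lit 836) (nat_lit 146731775) (nat_lit 76) (nat_lit 11559858508) (nat_lit 355) (nat_lit 5) (nat_lit 366) (nat_lit 5) (nat_lit 356) (nat_lit 5) (nat_lit 453) (nat_lit 423) (nat_lit 324)))) (XT.nd (nat_lit 156) (nat_lit 1444) (nat_lit 0) (XT.nd (nat_lit 78) (nat_lit 760) (nat_lit 0) (XT.lf (nat_lit 0) (nat_lit 4926767291) (nat_lit 760) (nat_lit 1898771283) (nat_lit 76) (nat_lit 6612458572) (nat_lit 346) (nat_lit 5) (nat_lit 356) (nat_lit 5) (nat_lit 347) (nat_lit 5) (nat_lit 454) (nat_lit 423) (nat_lit 323)) (XT.lf (nat_lit 0) (nat_lit 8497342115) (nat_lit 836) (nat_lit 3657606197) (nat_lit 76) (nat_lit 1501667781) (nat_lit 336) (nat_lit 5) (nat_lit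 347) (nat_lit 5) (nat_lit 337) (nat_lit 5) (nat_lit 455) (nat_lit 423) (nat_lit 322))) (XT.nd (nat_lit 78) (nat_lit 760) (nat_lit 0) (XT.lf (nat_lit 0) (nat_lit 8431994526) (nat_lit 684) (nat_lit 3829507059) (nat_lit 760) (nat_lit 1618564065) (nat_lit 327) (nat_lit 5) (nat_lit 336) (nat_lit 5) (nat_lit 337) (nat_lit 5) (nat_lit 456) (nat_lit 423) (nat_lit 321)) (XT.lf (nat_lit 0) (nat_lit 2076186339) (nat_lit 760) (nat_lit 7269916027) (nat_lit 76) (nat_lit 4762365827) (nat_lit 317) (nat_lit 5) (nat_lit 327) (nat_lit 5) (nat_lit 318) (nat_lit 5) (nat_lit 457) (nat_lit 423) (nat_lit 320))))) (XT.nd (nat_lit 234) (nat_lit 1976) (nat_lit 0) (XT.nd (nat_lit 78) (nat_lit 1292) (nat_lit 0) (XT.lf (nat_lit 0) (nat_lit 5226350981) (nat_lit 608) (nat_lit 704346051) (nat_lit 684) (nat_lit 8411394936) (nat_lit 309) (nat_lit 5) (nat_lit 317) (nat_lit 5) (nat_lit 318) (nat_lit 5) (nat_lit 458) (nat_lit 423) (nat_lit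 319)) (XT.nd (nat_lit 78) (nat_lit 608) (nat_lit 0) (XT.lf (nat_lit 0) (nat_lit 3577803515) (nat_lit 684) (nat_lit 6423679389) (nat_lit 760) (nat_lit 4579230001) (nat_lit 300) (nat_lit 5) (nat_lit 309) (nat_lit 5) (nat_lit 310) (nat_lit 5) (nat_lit 459) (nat_lit 423) (nat_lit 318)) (XT.lf (nat_lit 0) (nat_lit 1925122725) (nat_lit 608) (nat_lit 12339634025) (nat_lit 684) (nat_lit 560329641) (nat_lit 292) (nat_lit 5) (nat_lit 300) (nat_lit 5) (nat_lit 301) (nat_lit 5) (nat_lit 460) (nat_lit 423) (nat_lit 317)))) (XT.nd (nat_lit 156) (nat_lit 1292) (nat_lit 0) (XT.nd (nat_lit 78) (nat_lit 0) (nat_lit 0) (XT.lf (nat_lit 0) (nat_lit 221882285) (nat_lit 608) (nat_lit 3405241261) (nat_lit 684) (nat_lit 11447305390) (nat_lit 283) (nat_lit 5) (nat_lit 291) (nat_lit 5) (nat_lit 292) (nat_lit 5) (nat_lit 461) (nat_lit 423) (nat_lit 316)) (XT.lf (nat_lit 0) (nat_lit 8034217343) (nat_lit 684) (nat_lit 1488095884)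 (nat_lit 76) (nat_lit 5806832975) (nat_lit 283) (nat_lit 5) (nat_lit 292) (nat_lit 5) (nat_lit 284) (nat_lit 5) (nat_lit 462) (nat_lit 423) (nat_lit 315))) (XT.nd (nat_lit 78) (nat_lit 684) (nat_lit 0) (XT.lf (nat_lit 0) (nat_lit 12387280827) (nat_lit 608) (nat_lit 266096312) (nat_lit 684) (nat_lit 2936531872) (nat_lit 275) (nat_lit 5) (nat_lit 283) (nat_lit 5) (nat_lit 284) (nat_lit 5) (nat_lit 463) (nat_lit 423) (nat_lit 314)) (XT.lf (nat_lit 0) (nat_lit 1651193432) (nat_lit 684) (nat_lit 4972995079) (nat_lit 76) (nat_lit 9231726827) (nat_lit 266) (nat_lit 5) (nat_lit 275) (nat_lit 5) (nat_lit 267) (nat_lit 5) (nat_lit 464) (nat_lit 423) (nat_lit 313))))))))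
noncomputable def xc72 : XT := (XT.nd (nat_lit 2106) (nat_lit 3116) (nat_lit 0) (XT.nd (nat_lit 1014) (nat_lit 4940) (nat_lit 0) (XT.nd (nat_lit 468) (nat_lit 2888) (nat_lit 0) (XT.nd (nat_lit 234) (nat_lit 1520) (nat_lit 0) (XT.nd (nat_lit 78) (nat_lit 1140) (nat_lit 0) (XT.lf (nat_lit 0) (nat_lit 6418161646) (nat_lit 608) (nat_lit 6770231632) (nat_lit 76) (nat_lit 2939491229) (nat_lit 259) (nat_lit 5) (nat_lit 267) (nat_lit 5) (nat_lit 260) (nat_lit 5) (nat_lit 465) (nat_lit 423) (nat_lit 312)) (XT.nd (nat_lit 78) (nat_lit 608) (nat_lit 0) (XT.lf (nat_lit 0) (nat_lit 7807454344) (nat_lit 532) (nat_lit 3627452478) (nat_lit 608) (nat_lit 4970971545) (nat_lit 252) (nat_lit 5) (nat_lit 259) (nat_lit 5) (nat_lit 260) (nat_lit 5) (nat_lit 466) (nat_lit 423) (nat_lit 311)) (XT.lf (nat_lit 0) (nat_lit 17140124) (nat_lit 608) (nat_lit 10454563179) (nat_lit 76) (nat_lit 6218401027) (nat_lit 244) (nat_lit 5)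 (nat_lit 252) (nat_lit 5) (nat_lit 245) (nat_lit 5) (nat_lit 467) (nat_lit 423) (nat_lit 310)))) (XT.nd (nat_lit 78) (nat_lit 988) (nat_lit 0) (XT.lf (nat_lit 0) (nat_lit 4624195601) (nat_lit 532) (nat_lit 555052467) (nat_lit 608) (nat_lit 11801114963) (nat_lit 237) (nat_lit 5) (nat_lit 244) (nat_lit 5) (nat_lit 245) (nat_lit 5) (nat_lit 468) (nat_lit 423) (nat_lit 309)) (XT.nd (nat_lit 78) (nat_lit 532) (nat_lit 0) (XT.lf (nat_lit 0) (nat_lit 2967248343) (nat_lit 456) (nat_lit 7661221611) (nat_lit 532) (nat_lit 6648215398) (nat_lit 231) (nat_lit 5) (nat_lit 237) (nat_lit 5) (nat_lit 238) (nat_lit 5) (nat_lit 469) (nat_lit 423) (nat_lit 308)) (XT.lf (nat_lit 0) (nat_lit 1307049400) (nat_lit 532) (nat_lit 15026155385) (nat_lit 608) (nat_lit 1246852680) (nat_lit 224) (nat_lit 5) (nat_lit 231) (nat_lit 5) (nat_lit 232) (nat_lit 5) (nat_lit 470) (nat_lit 423) (nat_lit 307))))) (XT.nd (nat_lit 234) (nat_lit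 1900) (nat_lit 0) (XT.nd (nat_lit 78) (nat_lit 912) (nat_lit 0) (XT.lf (nat_lit 0) (nat_lit 4388398243) (nat_lit 608) (nat_lit 411281114) (nat_lit 76) (nat_lit 13089722481) (nat_lit 223) (nat_lit 5) (nat_lit 231) (nat_lit 5) (nat_lit 224) (nat_lit 5) (nat_lit 471) (nat_lit 423) (nat_lit 306)) (XT.nd (nat_lit 78) (nat_lit 456) (nat_lit 0) (XT.lf (nat_lit 0) (nat_lit 10298536957) (nat_lit 532) (nat_lit 2142808721) (nat_lit 76) (nat_lit 5764061412) (nat_lit 217) (nat_lit 5) (nat_lit 224) (nat_lit 5) (nat_lit 218) (nat_lit 5) (nat_lit 472) (nat_lit 423) (nat_lit 305)) (XT.lf (nat_lit 0) (nat_lit 14637609028) (nat_lit 456) (nat_lit 1858869227) (nat_lit 532) (nat_lit 2032205038) (nat_lit 211) (nat_lit 5) (nat_lit 217) (nat_lit 5) (nat_lit 218) (nat_lit 5) (nat_lit 473) (nat_lit 423) (nat_lit 304)))) (XT.nd (nat_lit 156) (nat_lit 912) (nat_lit 0) (XT.nd (nat_lit 78) (nat_lit 456) (nat_lit 0) (XT.lf (nat_lit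 0) (nat_lit 4106676031) (nat_lit 532) (nat_lit 5710087191) (nat_lit 76) (nat_lit 9041559802) (nat_lit 204) (nat_lit 5) (nat_lit 211) (nat_lit 5) (nat_lit 205) (nat_lit 5) (nat_lit 474) (nat_lit 423) (nat_lit 303)) (XT.lf (nat_lit 0) (nat_lit 10505562639) (nat_lit 532) (nat_lit 7549278837) (nat_lit 76) (nat_lit 1140673541) (nat_lit 198) (nat_lit 5) (nat_lit 205) (nat_lit 5) (nat_lit 199) (nat_lit 5) (nat_lit 475) (nat_lit 423) (nat_lit 302))) (XT.nd (nat_lit 78) (nat_lit 532) (nat_lit 0) (XT.lf (nat_lit 0) (nat_lit 10098612040) (nat_lit 380) (nat_lit 7149437445) (nat_lit 456) (nat_lit 2291741295) (nat_lit 193) (nat_lit 5) (nat_lit 198) (nat_lit 5) (nat_lit 199) (nat_lit 5) (nat_lit 476) (nat_lit 423) (nat_lit 301)) (XT.lf (nat_lit 0) (nat_lit 4358059956) (nat_lit 532) (nat_lit 11376805392) (nat_lit 76) (nat_lit 4156651588) (nat_lit 186) (nat_lit 5) (nat_lit 193) (nat_lit 5) (nat_lit 187) (nat_lit 5)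 (nat_lit 477) (nat_lit 423) (nat_lit 300)))))) (XT.nd (nat_lit 546) (nat_lit 2508) (nat_lit 0) (XT.nd (nat_lit 234) (nat_lit 1216) (nat_lit 0) (XT.nd (nat_lit 78) (nat_lit 836) (nat_lit 0) (XT.lf (nat_lit 0) (nat_lit 6885790165) (nat_lit 380) (nat_lit 4429541036) (nat_lit 456) (nat_lit 8935379104) (nat_lit 181) (nat_lit 5) (nat_lit 186) (nat_lit 5) (nat_lit 187) (nat_lit 5) (nat_lit 478) (nat_lit 423) (nat_lit 299)) (XT.nd (nat_lit 78) (nat_lit 456) (nat_lit 0) (XT.lf (nat_lit 0) (nat_lit 5227243945) (nat_lit 380) (nat_lit 13394772520) (nat_lit 456) (nat_lit 1995849705) (nat_lit 176) (nat_lit 5) (nat_lit 181) (nat_lit 5) (nat_lit 182) (nat_lit 5) (nat_lit 479) (nat_lit 423) (nat_lit 298)) (XT.lf (nat_lit 0) (nat_lit 3521797586) (nat_lit 380) (nat_lit 1688691298) (nat_lit 456) (nat_lit 15782355603) (nat_lit 170) (nat_lit 5) (nat_lit 175) (nat_lit 5) (nat_lit 176) (nat_lit 5) (nat_lit 480) (nat_lit 423)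 (nat_lit 297)))) (XT.nd (nat_lit 156) (nat_lit 836) (nat_lit 0) (XT.nd (nat_lit 78) (nat_lit 0) (nat_lit 0) (XT.lf (nat_lit 0) (nat_lit 1750411188) (nat_lit 380) (nat_lit 11022130081) (nat_lit 456) (nat_lit 8602934812) (nat_lit 165) (nat_lit 5) (nat_lit 170) (nat_lit 5) (nat_lit 171) (nat_lit 5) (nat_lit 481) (nat_lit 423) (nat_lit 296)) (XT.lf (nat_lit 0) (nat_lit 20681198615) (nat_lit 456) (nat_lit 24133533) (nat_lit 76) (nat_lit 1061860158) (nat_lit 165) (nat_lit 5) (nat_lit 171) (nat_lit 5) (nat_lit 166) (nat_lit 5) (nat_lit 482) (nat_lit 423) (nat_lit 295))) (XT.nd (nat_lit 78) (nat_lit 380) (nat_lit 0) (XT.lf (nat_lit 0) (nat_lit 6759710718) (nat_lit 456) (nat_lit 1879113079) (nat_lit 76) (nat_lit 13527161267) (nat_lit 159) (nat_lit 5) (nat_lit 165) (nat_lit 5) (nat_lit 160) (nat_lit 5) (nat_lit 483) (nat_lit 423) (nat_lit 294)) (XT.lf (nat_lit 0) (nat_lit 14957832604) (nat_lit 456) (nat_lit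 3754524796) (nat_lit 76) (nat_lit 3861605130) (nat_lit 154) (nat_lit 5) (nat_lit 160) (nat_lit 5) (nat_lit 155) (nat_lit 5) (nat_lit 484) (nat_lit 423) (nat_lit 293))))) (XT.nd (nat_lit 234) (nat_lit 1444) (nat_lit 0) (XT.nd (nat_lit 78) (nat_lit 684) (nat_lit 0) (XT.lf (nat_lit 0) (nat_lit 570527575) (nat_lit 380) (nat_lit 5679813534) (nat_lit 76) (nat_lit 16740422629) (nat_lit 149) (nat_lit 5) (nat_lit 154) (nat_lit 5) (nat_lit 150) (nat_lit 5) (nat_lit 485) (nat_lit 423) (nat_lit 292)) (XT.nd (nat_lit 78) (nat_lit 304) (nat_lit 0) (XT.lf (nat_lit 0) (nat_lit 9056031427) (nat_lit 456) (nat_lit 7689723512) (nat_lit 76) (nat_lit 6670173263) (nat_lit 144) (nat_lit 5) (nat_lit 150) (nat_lit 5) (nat_lit 145) (nat_lit 5) (nat_lit 486) (nat_lit 423) (nat_lit 291)) (XT.lf (nat_lit 0) (nat_lit 14117329701) (nat_lit 304) (nat_lit 3835453239) (nat_lit 380) (nat_lit 5897931462) (nat_lit 140) (nat_lit 5) (nat_lit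 144) (nat_lit 5) (nat_lit 145) (nat_lit 5) (nat_lit 487) (nat_lit 423) (nat_lit 290)))) (XT.nd (nat_lit 156) (nat_lit 684) (nat_lit 0) (XT.nd (nat_lit 78) (nat_lit 304) (nat_lit 0) (XT.lf (nat_lit 0) (nat_lit 2961647207) (nat_lit 456) (nat_lit 11851090578) (nat_lit 76) (nat_lit 9481826694) (nat_lit 134) (nat_lit 5) (nat_lit 140) (nat_lit 5) (nat_lit 135) (nat_lit 5) (nat_lit 488) (nat_lit 423) (nat_lit 289)) (XT.lf (nat_lit 0) (nat_lit 10719030702) (nat_lit 304) (nat_lit 1434850149) (nat_lit 380) (nat_lit 12594129975) (nat_lit 130) (nat_lit 5) (nat_lit 134) (nat_lit 5) (nat_lit 135) (nat_lit 5) (nat_lit 489) (nat_lit 423) (nat_lit 288))) (XT.nd (nat_lit 78) (nat_lit 380) (nat_lit 0) (XT.lf (nat_lit 0) (nat_lit 8927099828) (nat_lit 304) (nat_lit 12898854807) (nat_lit 380) (nat_lit 3385024874) (nat_lit 126) (nat_lit 5) (nat_lit 130) (nat_lit 5) (nat_lit 131) (nat_lit 5) (nat_lit 490) (nat_lit 423) (nat_lit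 287)) (XT.lf (nat_lit 0) (nat_lit 6163125303) (nat_lit 380) (nat_lit 18593334291) (nat_lit 76) (nat_lit 927730314) (nat_lit 121) (nat_lit 5) (nat_lit 126) (nat_lit 5) (nat_lit 122) (nat_lit 5) (nat_lit 491) (nat_lit 423) (nat_lit 286))))))) (XT.nd (nat_lit 57330) (nat_lit 0) (nat_lit 33896) (XT.nd (nat_lit 468) (nat_lit 1596) (nat_lit 0) (XT.nd (nat_lit 234) (nat_lit 608) (nat_lit 0) (XT.nd (nat_lit 78) (nat_lit 608) (nat_lit 0) (XT.lf (nat_lit 0) (nat_lit 5154351753) (nat_lit 304) (nat_lit 11013962743) (nat_lit 380) (nat_lit 9998503326) (nat_lit 117) (nat_lit 5) (nat_lit 121) (nat_lit 5) (nat_lit 122) (nat_lit 5) (nat_lit 492) (nat_lit 423) (nat_lit 285)) (XT.nd (nat_lit 78) (nat_lit 380) (nat_lit 0) (XT.lf (nat_lit 0) (nat_lit 3204579323) (nat_lit 228) (nat_lit 23422835422) (nat_lit 304) (nat_lit 33435088) (nat_lit 114) (nat_lit 5) (nat_lit 117) (nat_lit 5) (nat_lit 118) (nat_lit 5) (nat_lit 493)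 (nat_lit 423) (nat_lit 284)) (XT.lf (nat_lit 0) (nat_lit 1118959787) (nat_lit 304) (nat_lit 9187598573) (nat_lit 380) (nat_lit 16857613336) (nat_lit 109) (nat_lit 5) (nat_lit 113) (nat_lit 5) (nat_lit 114) (nat_lit 5) (nat_lit 494) (nat_lit 423) (nat_lit 283)))) (XT.nd (nat_lit 78) (nat_lit 608) (nat_lit 0) (XT.lf (nat_lit 0) (nat_lit 21137942957) (nat_lit 380) (nat_lit 987145793) (nat_lit 76) (nat_lit 5553867472) (nat_lit 109) (nat_lit 5) (nat_lit 114) (nat_lit 5) (nat_lit 110) (nat_lit 5) (nat_lit 495) (nat_lit 423) (nat_lit 282)) (XT.nd (nat_lit 78) (nat_lit 304) (nat_lit 0) (XT.lf (nat_lit 0) (nat_lit 4243600704) (nat_lit 304) (nat_lit 3165654677) (nat_lit 76) (nat_lit 20795156912) (nat_lit 105) (nat_lit 5) (nat_lit 109) (nat_lit 5) (nat_lit 106) (nat_lit 5) (nat_lit 496) (nat_lit 423) (nat_lit 281)) (XT.lf (nat_lit 0) (nat_lit 15459998833) (nat_lit 380) (nat_lit 5440048221) (nat_lit 76) (nat_lit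 7840778336) (nat_lit 101) (nat_lit 5) (nat_lit 106) (nat_lit 5) (nat_lit 102) (nat_lit 5) (nat_lit 497) (nat_lit 423) (nat_lit 280))))) (XT.nd (nat_lit 234) (nat_lit 760) (nat_lit 0) (XT.nd (nat_lit 78) (nat_lit 608) (nat_lit 0) (XT.lf (nat_lit 0) (nat_lit 21521810178) (nat_lit 228) (nat_lit 5688803043) (nat_lit 304) (nat_lit 2078763477) (nat_lit 98) (nat_lit 5) (nat_lit 101) (nat_lit 5) (nat_lit 102) (nat_lit 5) (nat_lit 498) (nat_lit 423) (nat_lit 279)) (XT.nd (nat_lit 78) (nat_lit 228) (nat_lit 0) (XT.lf (nat_lit 0) (nat_lit 9553463649) (nat_lit 380) (nat_lit 10228660655) (nat_lit 76) (nat_lit 10066668934) (nat_lit 93) (nat_lit 5) (nat_lit 98) (nat_lit 5) (nat_lit 94) (nat_lit 5) (nat_lit 499) (nat_lit 423) (nat_lit 278)) (XT.lf (nat_lit 0) (nat_lit 17669249074) (nat_lit 228) (nat_lit 4030255317) (nat_lit 304) (nat_lit 8721351569) (nat_lit 90) (nat_lit 5) (nat_lit 93) (nat_lit 5) (nat_lit 94) (nat_lit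 5) (nat_lit 500) (nat_lit 423) (nat_lit 277)))) (XT.nd (nat_lit 56472) (nat_lit 0) (nat_lit 36708) (XT.nd (nat_lit 156) (nat_lit 456) (nat_lit 0) (XT.lf (nat_lit 0) (nat_lit 3397290748) (nat_lit 304) (nat_lit 15388659311) (nat_lit 76) (nat_lit 12218927032) (nat_lit 86) (nat_lit 5) (nat_lit 90) (nat_lit 5) (nat_lit 87) (nat_lit 5) (nat_lit 501) (nat_lit 423) (nat_lit 276)) (XT.lf (nat_lit 0) (nat_lit 11231631866) (nat_lit 228) (nat_lit 17907414005) (nat_lit 304) (nat_lit 3071752900) (nat_lit 80) (nat_lit 5) (nat_lit 83) (nat_lit 5) (nat_lit 84) (nat_lit 5) (nat_lit 503) (nat_lit 423) (nat_lit 274))) (XT.nd (nat_lit 78) (nat_lit 0) (nat_lit 0) (XT.lf (nat_lit 0) (nat_lit 1939148722) (nat_lit 1596) (nat_lit 1254479001) (nat_lit 1596) (nat_lit 1254479001) (nat_lit 563) (nat_lit 3) (nat_lit 584) (nat_lit 3) (nat_lit 584) (nat_lit 5) (nat_lit 424) (nat_lit 424) (nat_lit 352)) (XT.lf (nat_lit 76) (nat_lit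 4163781508) (nat_lit 0) (nat_lit 1182224617) (nat_lit 1596) (nat_lit 3655365394) (nat_lit 564) (nat_lit 5) (nat_lit 563) (nat_lit 3) (nat_lit 584) (nat_lit 5) (nat_lit 425) (nat_lit 424) (nat_lit 351)))))) (XT.nd (nat_lit 546) (nat_lit 1368) (nat_lit 0) (XT.nd (nat_lit 234) (nat_lit 0) (nat_lit 76) (XT.nd (nat_lit 78) (nat_lit 1520) (nat_lit 0) (XT.lf (nat_lit 76) (nat_lit 1930635881) (nat_lit 0) (nat_lit 4929926080) (nat_lit 1596) (nat_lit 2249069739) (nat_lit 565) (nat_lit 5) (nat_lit 564) (nat_lit 5) (nat_lit 585) (nat_lit 5) (nat_lit 426) (nat_lit 424) (nat_lit 350)) (XT.nd (nat_lit 78) (nat_lit 1596) (nat_lit 0) (XT.lf (nat_lit 0) (nat_lit 8412004121) (nat_lit 1520) (nat_lit 293330377) (nat_lit 1596) (nat_lit 515979773) (nat_lit 565) (nat_lit 5) (nat_lit 585) (nat_lit 5) (nat_lit 586) (nat_lit 5) (nat_lit 427) (nat_lit 424) (nat_lit 349)) (XT.lf (nat_lit 0) (nat_lit 691371278) (nat_lit 1596) (nat_lit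 2513913681) (nat_lit 1672) (nat_lit 6130447014) (nat_lit 544) (nat_lit 5) (nat_lit 565) (nat_lit 5) (nat_lit 566) (nat_lit 5) (nat_lit 428) (nat_lit 424) (nat_lit 348)))) (XT.nd (nat_lit 156) (nat_lit 0) (nat_lit 76) (XT.nd (nat_lit 78) (nat_lit 0) (nat_lit 0) (XT.lf (nat_lit 0) (nat_lit 2225265354) (nat_lit 1596) (nat_lit 4741903533) (nat_lit 1672) (nat_lit 2486325882) (nat_lit 545) (nat_lit 5) (nat_lit 566) (nat_lit 5) (nat_lit 567) (nat_lit 5) (nat_lit 429) (nat_lit 424) (nat_lit 347)) (XT.lf (nat_lit 76) (nat_lit 2596490620) (nat_lit 0) (nat_lit 1215591550) (nat_lit 1672) (nat_lit 5762573372) (nat_lit 546) (nat_lit 5) (nat_lit 545) (nat_lit 5) (nat_lit 567) (nat_lit 5) (nat_lit 430) (nat_lit 424) (nat_lit 346))) (XT.nd (nat_lit 78) (nat_lit 0) (nat_lit 76) (XT.lf (nat_lit 76) (nat_lit 466045451) (nat_lit 0) (nat_lit 4999204670) (nat_lit 1672) (nat_lit 4233829202) (nat_lit 547) (nat_lit 5) (nat_lit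 546) (nat_lit 5) (nat_lit 568) (nat_lit 5) (nat_lit 431) (nat_lit 424) (nat_lit 345)) (XT.lf (nat_lit 0) (nat_lit 7183940628) (nat_lit 1596) (nat_lit 1642695223) (nat_lit 1672) (nat_lit 1000284443) (nat_lit 547) (nat_lit 5) (nat_lit 568) (nat_lit 5) (nat_lit 569) (nat_lit 5) (nat_lit 432) (nat_lit 424) (nat_lit 344))))) (XT.nd (nat_lit 234) (nat_lit 0) (nat_lit 76) (XT.nd (nat_lit 78) (nat_lit 1596) (nat_lit 0) (XT.lf (nat_lit 76) (nat_lit 6193093360) (nat_lit 0) (nat_lit 2790166460) (nat_lit 1672) (nat_lit 974758252) (nat_lit 548) (nat_lit 5) (nat_lit 547) (nat_lit 5) (nat_lit 569) (nat_lit 5) (nat_lit 433) (nat_lit 424) (nat_lit 343)) (XT.nd (nat_lit 78) (nat_lit 0) (nat_lit 0) (XT.lf (nat_lit 0) (nat_lit 751193352) (nat_lit 1672) (nat_lit 5901857208) (nat_lit 1748) (nat_lit 3439555778) (nat_lit 526) (nat_lit 5) (nat_lit 548) (nat_lit 5) (nat_lit 549) (nat_lit 5) (nat_lit 434) (nat_lit 424) (nat_lit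 342)) (XT.lf (nat_lit 76) (nat_lit 2178530972) (nat_lit 0) (nat_lit 353118182) (nat_lit 1748) (nat_lit 7699137573) (nat_lit 527) (nat_lit 5) (nat_lit 526) (nat_lit 5) (nat_lit 549) (nat_lit 5) (nat_lit 435) (nat_lit 424) (nat_lit 341)))) (XT.nd (nat_lit 156) (nat_lit 0) (nat_lit 76) (XT.nd (nat_lit 78) (nat_lit 0) (nat_lit 76) (XT.lf (nat_lit 76) (nat_lit 140532521) (nat_lit 0) (nat_lit 4264521855) (nat_lit 1748) (nat_lit 5967270074) (nat_lit 528) (nat_lit 5) (nat_lit 527) (nat_lit 5) (nat_lit 550) (nat_lit 5) (nat_lit 436) (nat_lit 424) (nat_lit 340)) (XT.lf (nat_lit 0) (nat_lit 6366077626) (nat_lit 1672) (nat_lit 1876325893) (nat_lit 1748) (nat_lit 2275079027) (nat_lit 528) (nat_lit 5) (nat_lit 550) (nat_lit 5) (nat_lit 551) (nat_lit 5) (nat_lit 437) (nat_lit 424) (nat_lit 339))) (XT.nd (nat_lit 78) (nat_lit 0) (nat_lit 76) (XT.lf (nat_lit 76) (nat_lit 6759466159) (nat_lit 0) (nat_lit 1659650052)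 (nat_lit 1748) (nat_lit 2247217966) (nat_lit 529) (nat_lit 5) (nat_lit 528) (nat_lit 5) (nat_lit 551) (nat_lit 5) (nat_lit 438) (nat_lit 424) (nat_lit 338)) (XT.lf (nat_lit 76) (nat_lit 4860232506) (nat_lit 0) (nat_lit 5712894878) (nat_lit 1748) (nat_lit 245738758) (nat_lit 530) (nat_lit 5) (nat_lit 529) (nat_lit 5) (nat_lit 552) (nat_lit 5) (nat_lit 439) (nat_lit 424) (nat_lit 337))))))))
noncomputable def xc73 : XT := (XT.nd (nat_lit 2106) (nat_lit 11096) (nat_lit 0) (XT.nd (nat_lit 1014) (nat_lit 8132) (nat_lit 0) (XT.nd (nat_lit 468) (nat_lit 5092) (nat_lit 0) (XT.nd (nat_lit 234) (nat_lit 3876) (nat_lit 0) (XT.nd (nat_lit 78) (nat_lit 1748) (nat_lit 0) (XT.lf (nat_lit 0) (nat_lit 1818754935) (nat_lit 1748) (nat_lit 8029518841) (nat_lit 76) (nat_lit 1126931110) (nat_lit 507) (nat_lit 5) (nat_lit 530) (nat_lit 5) (nat_lit 508) (nat_lit 5) (nat_lit 440) (nat_lit 424) (nat_lit 336)) (XT.nd (nat_lit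 78) (nat_lit 0) (nat_lit 0) (XT.lf (nat_lit 0) (nat_lit 1005263771) (nat_lit 1748) (nat_lit 2985362520) (nat_lit 1824) (nat_lit 7144601615) (nat_lit 484) (nat_lit 5) (nat_lit 507) (nat_lit 5) (nat_lit 508) (nat_lit 5) (nat_lit 441) (nat_lit 424) (nat_lit 335)) (XT.lf (nat_lit 0) (nat_lit 6273224538) (nat_lit 1824) (nat_lit 936160237) (nat_lit 76) (nat_lit 4089757592) (nat_lit 484) (nat_lit 5) (nat_lit 508) (nat_lit 5) (nat_lit 485) (nat_lit 5) (nat_lit 442) (nat_lit 424) (nat_lit 334)))) (XT.nd (nat_lit 78) (nat_lit 2052) (nat_lit 0) (XT.lf (nat_lit 0) (nat_lit 8595818060) (nat_lit 1824) (nat_lit 69584520) (nat_lit 1900) (nat_lit 2801751746) (nat_lit 460) (nat_lit 5) (nat_lit 484) (nat_lit 5) (nat_lit 485) (nat_lit 5) (nat_lit 443) (nat_lit 424) (nat_lit 333)) (XT.nd (nat_lit 78) (nat_lit 988) (nat_lit 0) (XT.lf (nat_lit 0) (nat_lit 6797683513) (nat_lit 1064) (nat_lit 4395647327) (nat_lit 1140) (nat_lit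 445598146) (nat_lit 446) (nat_lit 5) (nat_lit 460) (nat_lit 5) (nat_lit 461) (nat_lit 5) (nat_lit 444) (nat_lit 424) (nat_lit 332)) (XT.lf (nat_lit 0) (nat_lit 1994180005) (nat_lit 988) (nat_lit 6832687038) (nat_lit 76) (nat_lit 2987956029) (nat_lit 433) (nat_lit 5) (nat_lit 446) (nat_lit 5) (nat_lit 434) (nat_lit 5) (nat_lit 445) (nat_lit 424) (nat_lit 331))))) (XT.nd (nat_lit 234) (nat_lit 3344) (nat_lit 0) (XT.nd (nat_lit 78) (nat_lit 836) (nat_lit 0) (XT.lf (nat_lit 0) (nat_lit 3149116378) (nat_lit 912) (nat_lit 1402407647) (nat_lit 988) (nat_lit 7443404404) (nat_lit 421) (nat_lit 5) (nat_lit 433) (nat_lit 5) (nat_lit 434) (nat_lit 5) (nat_lit 446) (nat_lit 424) (nat_lit 330)) (XT.nd (nat_lit 78) (nat_lit 0) (nat_lit 0) (XT.lf (nat_lit 0) (nat_lit 1289562713) (nat_lit 836) (nat_lit 5959836876) (nat_lit 912) (nat_lit 4929762965) (nat_lit 410) (nat_lit 5) (nat_lit 421) (nat_lit 5) (nat_lit 422) (nat_lit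 5) (nat_lit 447) (nat_lit 424) (nat_lit 329)) (XT.lf (nat_lit 0) (nat_lit 10077804147) (nat_lit 912) (nat_lit 569289881) (nat_lit 76) (nat_lit 1720839595) (nat_lit 410) (nat_lit 5) (nat_lit 422) (nat_lit 5) (nat_lit 411) (nat_lit 5) (nat_lit 448) (nat_lit 424) (nat_lit 328)))) (XT.nd (nat_lit 156) (nat_lit 1596) (nat_lit 0) (XT.nd (nat_lit 78) (nat_lit 836) (nat_lit 0) (XT.lf (nat_lit 0) (nat_lit 499071979) (nat_lit 912) (nat_lit 2440707990) (nat_lit 76) (nat_lit 9621013855) (nat_lit 398) (nat_lit 5) (nat_lit 410) (nat_lit 5) (nat_lit 399) (nat_lit 5) (nat_lit 449) (nat_lit 424) (nat_lit 327)) (XT.lf (nat_lit 0) (nat_lit 3403069083) (nat_lit 912) (nat_lit 4347535067) (nat_lit 76) (nat_lit 5007289897) (nat_lit 387) (nat_lit 5) (nat_lit 399) (nat_lit 5) (nat_lit 388) (nat_lit 5) (nat_lit 450) (nat_lit 424) (nat_lit 326))) (XT.nd (nat_lit 78) (nat_lit 760) (nat_lit 0) (XT.lf (nat_lit 0) (nat_lit 6446693979)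 (nat_lit 912) (nat_lit 6263773545) (nat_lit 76) (nat_lit 249391191) (nat_lit 376) (nat_lit 5) (nat_lit 388) (nat_lit 5) (nat_lit 377) (nat_lit 5) (nat_lit 451) (nat_lit 424) (nat_lit 325)) (XT.lf (nat_lit 0) (nat_lit 4945895434) (nat_lit 760) (nat_lit 4721045579) (nat_lit 836) (nat_lit 3499236588) (nat_lit 366) (nat_lit 5) (nat_lit 376) (nat_lit 5) (nat_lit 377) (nat_lit 5) (nat_lit 452) (nat_lit 424) (nat_lit 324)))))) (XT.nd (nat_lit 546) (nat_lit 3800) (nat_lit 0) (XT.nd (nat_lit 234) (nat_lit 2812) (nat_lit 0) (XT.nd (nat_lit 78) (nat_lit 760) (nat_lit 0) (XT.lf (nat_lit 0) (nat_lit 3188287522) (nat_lit 760) (nat_lit 9854043664) (nat_lit 836) (nat_lit 335185658) (nat_lit 356) (nat_lit 5) (nat_lit 366) (nat_lit 5) (nat_lit 367) (nat_lit 5) (nat_lit 453) (nat_lit 424) (nat_lit 323)) (XT.nd (nat_lit 78) (nat_lit 0) (nat_lit 0) (XT.lf (nat_lit 0) (nat_lit 1394822647) (nat_lit 684) (nat_lit 1560082502)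 (nat_lit 760) (nat_lit 10638523595) (nat_lit 346) (nat_lit 5) (nat_lit 355) (nat_lit 5) (nat_lit 356) (nat_lit 5) (nat_lit 454) (nat_lit 424) (nat_lit 322)) (XT.lf (nat_lit 0) (nat_lit 6427355843) (nat_lit 760) (nat_lit 426730199) (nat_lit 76) (nat_lit 6959924816) (nat_lit 346) (nat_lit 5) (nat_lit 356) (nat_lit 5) (nat_lit 347) (nat_lit 5) (nat_lit 455) (nat_lit 424) (nat_lit 321)))) (XT.nd (nat_lit 156) (nat_lit 1368) (nat_lit 0) (XT.nd (nat_lit 78) (nat_lit 684) (nat_lit 0) (XT.lf (nat_lit 0) (nat_lit 10076588124) (nat_lit 836) (nat_lit 2237780475) (nat_lit 76) (nat_lit 1725391024) (nat_lit 336) (nat_lit 5) (nat_lit 347) (nat_lit 5) (nat_lit 337) (nat_lit 5) (nat_lit 456) (nat_lit 424) (nat_lit 320)) (XT.lf (nat_lit 0) (nat_lit 10189693076) (nat_lit 684) (nat_lit 3735176469) (nat_lit 760) (nat_lit 345621171) (nat_lit 327) (nat_lit 5) (nat_lit 336) (nat_lit 5) (nat_lit 337) (nat_lit 5) (nat_lit 457)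 (nat_lit 424) (nat_lit 319))) (XT.nd (nat_lit 78) (nat_lit 608) (nat_lit 0) (XT.lf (nat_lit 0) (nat_lit 3415815294) (nat_lit 760) (nat_lit 5966429796) (nat_lit 76) (nat_lit 5123867037) (nat_lit 317) (nat_lit 5) (nat_lit 327) (nat_lit 5) (nat_lit 318) (nat_lit 5) (nat_lit 458) (nat_lit 424) (nat_lit 318)) (XT.lf (nat_lit 0) (nat_lit 6880039334) (nat_lit 608) (nat_lit 478436651) (nat_lit 684) (nat_lit 7388820177) (nat_lit 309) (nat_lit 5) (nat_lit 317) (nat_lit 5) (nat_lit 318) (nat_lit 5) (nat_lit 459) (nat_lit 424) (nat_lit 317))))) (XT.nd (nat_lit 234) (nat_lit 1824) (nat_lit 0) (XT.nd (nat_lit 78) (nat_lit 1292) (nat_lit 0) (XT.lf (nat_lit 0) (nat_lit 5180824151) (nat_lit 684) (nat_lit 6345425869) (nat_lit 760) (nat_lit 3467330204) (nat_lit 300) (nat_lit 5) (nat_lit 309) (nat_lit 5) (nat_lit 310) (nat_lit 5) (nat_lit 460) (nat_lit 424) (nat_lit 316)) (XT.nd (nat_lit 78) (nat_lit 608) (nat_lit 0)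 (XT.lf (nat_lit 0) (nat_lit 638895100) (nat_lit 684) (nat_lit 11773253027) (nat_lit 76) (nat_lit 2833539749) (nat_lit 291) (nat_lit 5) (nat_lit 300) (nat_lit 5) (nat_lit 292) (nat_lit 5) (nat_lit 461) (nat_lit 424) (nat_lit 315)) (XT.lf (nat_lit 0) (nat_lit 1714003785) (nat_lit 608) (nat_lit 3204845415) (nat_lit 684) (nat_lit 10584099274) (nat_lit 283) (nat_lit 5) (nat_lit 291) (nat_lit 5) (nat_lit 292) (nat_lit 5) (nat_lit 462) (nat_lit 424) (nat_lit 314)))) (XT.nd (nat_lit 156) (nat_lit 1216) (nat_lit 0) (XT.nd (nat_lit 78) (nat_lit 608) (nat_lit 0) (XT.lf (nat_lit 0) (nat_lit 9425609226) (nat_lit 684) (nat_lit 69424211) (nat_lit 76) (nat_lit 6270926358) (nat_lit 283) (nat_lit 5) (nat_lit 292) (nat_lit 5) (nat_lit 284) (nat_lit 5) (nat_lit 463) (nat_lit 424) (nat_lit 313)) (XT.lf (nat_lit 0) (nat_lit 14159439785) (nat_lit 684) (nat_lit 1836812054) (nat_lit 76) (nat_lit 38773287) (nat_lit 275) (nat_lit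 5) (nat_lit 284) (nat_lit 5) (nat_lit 276) (nat_lit 5) (nat_lit 464) (nat_lit 424) (nat_lit 312))) (XT.nd (nat_lit 78) (nat_lit 532) (nat_lit 0) (XT.lf (nat_lit 0) (nat_lit 2812800609) (nat_lit 684) (nat_lit 3670929828) (nat_lit 76) (nat_lit 9825571506) (nat_lit 266) (nat_lit 5) (nat_lit 275) (nat_lit 5) (nat_lit 267) (nat_lit 5) (nat_lit 465) (nat_lit 424) (nat_lit 311)) (XT.lf (nat_lit 0) (nat_lit 7701856536) (nat_lit 608) (nat_lit 5526000820) (nat_lit 76) (nat_lit 3361992698) (nat_lit 259) (nat_lit 5) (nat_lit 267) (nat_lit 5) (nat_lit 260) (nat_lit 5) (nat_lit 466) (nat_lit 424) (nat_lit 310))))))) (XT.nd (nat_lit 1092) (nat_lit 4788) (nat_lit 0) (XT.nd (nat_lit 546) (nat_lit 3116) (nat_lit 0) (XT.nd (nat_lit 234) (nat_lit 1520) (nat_lit 0) (XT.nd (nat_lit 78) (nat_lit 1140) (nat_lit 0) (XT.lf (nat_lit 0) (nat_lit 9465534400) (nat_lit 532) (nat_lit 3381033218) (nat_lit 608) (nat_lit 4030068238)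 (nat_lit 252) (nat_lit 5) (nat_lit 259) (nat_lit 5) (nat_lit 260) (nat_lit 5) (nat_lit 467) (nat_lit 424) (nat_lit 309)) (XT.nd (nat_lit 78) (nat_lit 532) (nat_lit 0) (XT.lf (nat_lit 0) (nat_lit 1073590554) (nat_lit 608) (nat_lit 9334564530) (nat_lit 76) (nat_lit 6761489304) (nat_lit 244) (nat_lit 5) (nat_lit 252) (nat_lit 5) (nat_lit 245) (nat_lit 5) (nat_lit 468) (nat_lit 424) (nat_lit 308)) (XT.lf (nat_lit 0) (nat_lit 6173297979) (nat_lit 532) (nat_lit 195665432) (nat_lit 608) (nat_lit 11100080697) (nat_lit 237) (nat_lit 5) (nat_lit 244) (nat_lit 5) (nat_lit 245) (nat_lit 5) (nat_lit 469) (nat_lit 424) (nat_lit 307)))) (XT.nd (nat_lit 156) (nat_lit 532) (nat_lit 0) (XT.nd (nat_lit 78) (nat_lit 532) (nat_lit 0) (XT.lf (nat_lit 0) (nat_lit 4461752235) (nat_lit 456) (nat_lit 7501279104) (nat_lit 532) (nat_lit 5811598627) (nat_lit 231) (nat_lit 5) (nat_lit 237) (nat_lit 5) (nat_lit 238) (nat_lit 5)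 (nat_lit 470) (nat_lit 424) (nat_lit 306)) (XT.lf (nat_lit 0) (nat_lit 2746481024) (nat_lit 532) (nat_lit 15074391637) (nat_lit 608) (nat_lit 266592510) (nat_lit 224) (nat_lit 5) (nat_lit 231) (nat_lit 5) (nat_lit 232) (nat_lit 5) (nat_lit 471) (nat_lit 424) (nat_lit 305))) (XT.nd (nat_lit 78) (nat_lit 0) (nat_lit 0) (XT.lf (nat_lit 0) (nat_lit 961423479) (nat_lit 456) (nat_lit 4539935784) (nat_lit 532) (nat_lit 12905059820) (nat_lit 217) (nat_lit 5) (nat_lit 223) (nat_lit 5) (nat_lit 224) (nat_lit 5) (nat_lit 472) (nat_lit 424) (nat_lit 304)) (XT.lf (nat_lit 0) (nat_lit 11565488997) (nat_lit 532) (nat_lit 840342019) (nat_lit 76) (nat_lit 6326540865) (nat_lit 217) (nat_lit 5) (nat_lit 224) (nat_lit 5) (nat_lit 218) (nat_lit 5) (nat_lit 473) (nat_lit 424) (nat_lit 303))))) (XT.nd (nat_lit 234) (nat_lit 1672) (nat_lit 0) (XT.nd (nat_lit 78) (nat_lit 988) (nat_lit 0) (XT.lf (nat_lit 0) (nat_lit 16421314351)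 (nat_lit 456) (nat_lit 1508881274) (nat_lit 532) (nat_lit 1135535294) (nat_lit 211) (nat_lit 5) (nat_lit 217) (nat_lit 5) (nat_lit 218) (nat_lit 5) (nat_lit 474) (nat_lit 424) (nat_lit 302)) (XT.nd (nat_lit 78) (nat_lit 456) (nat_lit 0) (XT.lf (nat_lit 0) (nat_lit 5158749928) (nat_lit 532) (nat_lit 4530332049) (nat_lit 76) (nat_lit 9716378608) (nat_lit 204) (nat_lit 5) (nat_lit 211) (nat_lit 5) (nat_lit 205) (nat_lit 5) (nat_lit 475) (nat_lit 424) (nat_lit 301)) (XT.lf (nat_lit 0) (nat_lit 11733896623) (nat_lit 532) (nat_lit 6431094541) (nat_lit 76) (nat_lit 1588092313) (nat_lit 198) (nat_lit 5) (nat_lit 205) (nat_lit 5) (nat_lit 199) (nat_lit 5) (nat_lit 476) (nat_lit 424) (nat_lit 300)))) (XT.nd (nat_lit 156) (nat_lit 760) (nat_lit 0) (XT.nd (nat_lit 78) (nat_lit 532) (nat_lit 0) (XT.lf (nat_lit 0) (nat_lit 11724417508) (nat_lit 380) (nat_lit 6936232268) (nat_lit 456) (nat_lit 1447398884) (nat_lit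 193) (nat_lit 5) (nat_lit 198) (nat_lit 5) (nat_lit 199) (nat_lit 5) (nat_lit 477) (nat_lit 424) (nat_lit 299)) (XT.lf (nat_lit 0) (nat_lit 5374991505) (nat_lit 532) (nat_lit 10390002909) (nat_lit 76) (nat_lit 4705513141) (nat_lit 186) (nat_lit 5) (nat_lit 193) (nat_lit 5) (nat_lit 187) (nat_lit 5) (nat_lit 478) (nat_lit 424) (nat_lit 298))) (XT.nd (nat_lit 78) (nat_lit 380) (nat_lit 0) (XT.lf (nat_lit 0) (nat_lit 8398923562) (nat_lit 380) (nat_lit 4124729025) (nat_lit 456) (nat_lit 8317171609) (nat_lit 181) (nat_lit 5) (nat_lit 186) (nat_lit 5) (nat_lit 187) (nat_lit 5) (nat_lit 479) (nat_lit 424) (nat_lit 297)) (XT.lf (nat_lit 0) (nat_lit 6683752858) (nat_lit 380) (nat_lit 13351676422) (nat_lit 456) (nat_lit 1183848518) (nat_lit 176) (nat_lit 5) (nat_lit 181) (nat_lit 5) (nat_lit 182) (nat_lit 5) (nat_lit 480) (nat_lit 424) (nat_lit 296)))))) (XT.nd (nat_lit 546) (nat_lit 2356) (nat_lit 0) (XT.nd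 (nat_lit 234) (nat_lit 1216) (nat_lit 0) (XT.nd (nat_lit 78) (nat_lit 760) (nat_lit 0) (XT.lf (nat_lit 0) (nat_lit 4917334729) (nat_lit 380) (nat_lit 1293224044) (nat_lit 456) (nat_lit 15395168046) (nat_lit 170) (nat_lit 5) (nat_lit 175) (nat_lit 5) (nat_lit 176) (nat_lit 5) (nat_lit 481) (nat_lit 424) (nat_lit 295)) (XT.nd (nat_lit 78) (nat_lit 380) (nat_lit 0) (XT.lf (nat_lit 0) (nat_lit 3085659122) (nat_lit 380) (nat_lit 10900378777) (nat_lit 456) (nat_lit 8014068972) (nat_lit 165) (nat_lit 5) (nat_lit 170) (nat_lit 5) (nat_lit 171) (nat_lit 5) (nat_lit 482) (nat_lit 424) (nat_lit 294)) (XT.lf (nat_lit 0) (nat_lit 1250210764) (nat_lit 380) (nat_lit 20868529134) (nat_lit 456) (nat_lit 285099775) (nat_lit 160) (nat_lit 5) (nat_lit 165) (nat_lit 5) (nat_lit 166) (nat_lit 5) (nat_lit 483) (nat_lit 424) (nat_lit 293)))) (XT.nd (nat_lit 156) (nat_lit 760) (nat_lit 0) (XT.nd (nat_lit 78) (nat_lit 380)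 (nat_lit 0) (XT.lf (nat_lit 0) (nat_lit 7761246883) (nat_lit 456) (nat_lit 686595429) (nat_lit 76) (nat_lit 14367122377) (nat_lit 159) (nat_lit 5) (nat_lit 165) (nat_lit 5) (nat_lit 160) (nat_lit 5) (nat_lit 484) (nat_lit 424) (nat_lit 292)) (XT.lf (nat_lit 0) (nat_lit 16192915439) (nat_lit 456) (nat_lit 2625728170) (nat_lit 76) (nat_lit 4416786538) (nat_lit 154) (nat_lit 5) (nat_lit 160) (nat_lit 5) (nat_lit 155) (nat_lit 5) (nat_lit 485) (nat_lit 424) (nat_lit 291))) (XT.nd (nat_lit 78) (nat_lit 380) (nat_lit 0) (XT.lf (nat_lit 0) (nat_lit 1364149080) (nat_lit 380) (nat_lit 4618573854) (nat_lit 76) (nat_lit 17682210473) (nat_lit 149) (nat_lit 5) (nat_lit 154) (nat_lit 5) (nat_lit 150) (nat_lit 5) (nat_lit 486) (nat_lit 424) (nat_lit 290)) (XT.lf (nat_lit 0) (nat_lit 10092389253) (nat_lit 456) (nat_lit 6696426382) (nat_lit 76) (nat_lit 7314274418) (nat_lit 144) (nat_lit 5) (nat_lit 150) (nat_lit 5)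 (nat_lit 145) (nat_lit 5) (nat_lit 487) (nat_lit 424) (nat_lit 289))))) (XT.nd (nat_lit 234) (nat_lit 1292) (nat_lit 0) (XT.nd (nat_lit 78) (nat_lit 760) (nat_lit 0) (XT.lf (nat_lit 0) (nat_lit 15744980662) (nat_lit 304) (nat_lit 3496608525) (nat_lit 380) (nat_lit 5309620389) (nat_lit 140) (nat_lit 5) (nat_lit 144) (nat_lit 5) (nat_lit 145) (nat_lit 5) (nat_lit 488) (nat_lit 424) (nat_lit 288)) (XT.nd (nat_lit 78) (nat_lit 304) (nat_lit 0) (XT.lf (nat_lit 0) (nat_lit 3794412741) (nat_lit 456) (nat_lit 11000237601) (nat_lit 76) (nat_lit 10213851996) (nat_lit 134) (nat_lit 5) (nat_lit 140) (nat_lit 5) (nat_lit 135) (nat_lit 5) (nat_lit 489) (nat_lit 424) (nat_lit 287)) (XT.lf (nat_lit 0) (nat_lit 12227415143) (nat_lit 304) (nat_lit 1021036373) (nat_lit 380) (nat_lit 12227380402) (nat_lit 130) (nat_lit 5) (nat_lit 134) (nat_lit 5) (nat_lit 135) (nat_lit 5) (nat_lit 490) (nat_lit 424) (nat_lit 286))))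 (XT.nd (nat_lit 156) (nat_lit 608) (nat_lit 0) (XT.nd (nat_lit 78) (nat_lit 380) (nat_lit 0) (XT.lf (nat_lit 0) (nat_lit 10373935646) (nat_lit 304) (nat_lit 12826025900) (nat_lit 380) (nat_lit 2752943221) (nat_lit 126) (nat_lit 5) (nat_lit 130) (nat_lit 5) (nat_lit 131) (nat_lit 5) (nat_lit 491) (nat_lit 424) (nat_lit 285)) (XT.lf (nat_lit 0) (nat_lit 7061513683) (nat_lit 380) (nat_lit 17970505575) (nat_lit 76) (nat_lit 1408407836) (nat_lit 121) (nat_lit 5) (nat_lit 126) (nat_lit 5) (nat_lit 122) (nat_lit 5) (nat_lit 492) (nat_lit 424) (nat_lit 284))) (XT.nd (nat_lit 78) (nat_lit 304) (nat_lit 0) (XT.lf (nat_lit 0) (nat_lit 6470456752) (nat_lit 304) (nat_lit 10883161466) (nat_lit 380) (nat_lit 9584180977) (nat_lit 117) (nat_lit 5) (nat_lit 121) (nat_lit 5) (nat_lit 122) (nat_lit 5) (nat_lit 493) (nat_lit 424) (nat_lit 283)) (XT.lf (nat_lit 0) (nat_lit 660857085) (nat_lit 304) (nat_lit 22997003126)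 (nat_lit 76) (nat_lit 3788905510) (nat_lit 113) (nat_lit 5) (nat_lit 117) (nat_lit 5) (nat_lit 114) (nat_lit 5) (nat_lit 494) (nat_lit 424) (nat_lit 282))))))))
noncomputable def xc74 : XT := (XT.nd (nat_lit 58422) (nat_lit 0) (nat_lit 12236) (XT.nd (nat_lit 57330) (nat_lit 0) (nat_lit 30476) (XT.nd (nat_lit 468) (nat_lit 760) (nat_lit 0) (XT.nd (nat_lit 234) (nat_lit 912) (nat_lit 0) (XT.nd (nat_lit 78) (nat_lit 304) (nat_lit 0) (XT.lf (nat_lit 0) (nat_lit 2296396541) (nat_lit 304) (nat_lit 9001390722) (nat_lit 380) (nat_lit 16667652236) (nat_lit 109) (nat_lit 5) (nat_lit 113) (nat_lit 5) (nat_lit 114) (nat_lit 5) (nat_lit 495) (nat_lit 424) (nat_lit 281)) (XT.nd (nat_lit 78) (nat_lit 76) (nat_lit 0) (XT.lf (nat_lit 0) (nat_lit 105523564) (nat_lit 228) (nat_lit 22332321156) (nat_lit 304) (nat_lit 6058148700) (nat_lit 106) (nat_lit 5) (nat_lit 109) (nat_lit 5) (nat_lit 110) (nat_lit 5) (nat_lit 496)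 (nat_lit 424) (nat_lit 280)) (XT.lf (nat_lit 0) (nat_lit 5028114571) (nat_lit 304) (nat_lit 2149160457) (nat_lit 76) (nat_lit 21860110080) (nat_lit 105) (nat_lit 5) (nat_lit 109) (nat_lit 5) (nat_lit 106) (nat_lit 5) (nat_lit 497) (nat_lit 424) (nat_lit 279)))) (XT.nd (nat_lit 78) (nat_lit 608) (nat_lit 0) (XT.lf (nat_lit 0) (nat_lit 16571872466) (nat_lit 380) (nat_lit 4499810191) (nat_lit 76) (nat_lit 8518391033) (nat_lit 101) (nat_lit 5) (nat_lit 106) (nat_lit 5) (nat_lit 102) (nat_lit 5) (nat_lit 498) (nat_lit 424) (nat_lit 278)) (XT.nd (nat_lit 78) (nat_lit 380) (nat_lit 0) (XT.lf (nat_lit 0) (nat_lit 23253001965) (nat_lit 228) (nat_lit 5410175418) (nat_lit 304) (nat_lit 1492141149) (nat_lit 98) (nat_lit 5) (nat_lit 101) (nat_lit 5) (nat_lit 102) (nat_lit 5) (nat_lit 499) (nat_lit 424) (nat_lit 277)) (XT.lf (nat_lit 0) (nat_lit 10471780307) (nat_lit 380) (nat_lit 9449522558) (nat_lit 76) (nat_lit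 10810306064) (nat_lit 93) (nat_lit 5) (nat_lit 98) (nat_lit 5) (nat_lit 94) (nat_lit 5) (nat_lit 500) (nat_lit 424) (nat_lit 276))))) (XT.nd (nat_lit 56550) (nat_lit 0) (nat_lit 34960) (XT.nd (nat_lit 78) (nat_lit 532) (nat_lit 0) (XT.lf (nat_lit 0) (nat_lit 19267705437) (nat_lit 228) (nat_lit 3703034058) (nat_lit 304) (nat_lit 8350323697) (nat_lit 90) (nat_lit 5) (nat_lit 93) (nat_lit 5) (nat_lit 94) (nat_lit 5) (nat_lit 501) (nat_lit 424) (nat_lit 275)) (XT.nd (nat_lit 78) (nat_lit 228) (nat_lit 0) (XT.lf (nat_lit 0) (nat_lit 4115168701) (nat_lit 304) (nat_lit 14781720179) (nat_lit 76) (nat_lit 13025802540) (nat_lit 86) (nat_lit 5) (nat_lit 90) (nat_lit 5) (nat_lit 87) (nat_lit 5) (nat_lit 502) (nat_lit 424) (nat_lit 274)) (XT.lf (nat_lit 0) (nat_lit 14929599389) (nat_lit 228) (nat_lit 2104357205) (nat_lit 304) (nat_lit 15503452656) (nat_lit 83) (nat_lit 5) (nat_lit 86) (nat_lit 5) (nat_lit 87) (nat_lit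 5) (nat_lit 503) (nat_lit 424) (nat_lit 273)))) (XT.nd (nat_lit 156) (nat_lit 1520) (nat_lit 0) (XT.nd (nat_lit 78) (nat_lit 0) (nat_lit 0) (XT.lf (nat_lit 0) (nat_lit 3366533934) (nat_lit 1596) (nat_lit 593769119) (nat_lit 1596) (nat_lit 593769119) (nat_lit 563) (nat_lit 3) (nat_lit 584) (nat_lit 3) (nat_lit 584) (nat_lit 5) (nat_lit 425) (nat_lit 425) (nat_lit 350)) (XT.lf (nat_lit 76) (nat_lit 5662723846) (nat_lit 0) (nat_lit 2511245221) (nat_lit 1596) (nat_lit 1043910313) (nat_lit 564) (nat_lit 5) (nat_lit 563) (nat_lit 3) (nat_lit 584) (nat_lit 5) (nat_lit 426) (nat_lit 425) (nat_lit 349))) (XT.nd (nat_lit 78) (nat_lit 0) (nat_lit 0) (XT.lf (nat_lit 0) (nat_lit 322076498) (nat_lit 1596) (nat_lit 5931826167) (nat_lit 1672) (nat_lit 3076981186) (nat_lit 543) (nat_lit 5) (nat_lit 564) (nat_lit 5) (nat_lit 565) (nat_lit 5) (nat_lit 427) (nat_lit 425) (nat_lit 348)) (XT.lf (nat_lit 76) (nat_lit 1126920119)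 (nat_lit 0) (nat_lit 586488630) (nat_lit 1672) (nat_lit 7733764039) (nat_lit 544) (nat_lit 5) (nat_lit 543) (nat_lit 5) (nat_lit 565) (nat_lit 5) (nat_lit 428) (nat_lit 425) (nat_lit 347)))))) (XT.nd (nat_lit 546) (nat_lit 3116) (nat_lit 0) (XT.nd (nat_lit 234) (nat_lit 1444) (nat_lit 0) (XT.nd (nat_lit 78) (nat_lit 0) (nat_lit 76) (XT.lf (nat_lit 0) (nat_lit 3172557581) (nat_lit 1596) (nat_lit 1150235246) (nat_lit 1672) (nat_lit 5243639244) (nat_lit 544) (nat_lit 5) (nat_lit 565) (nat_lit 5) (nat_lit 566) (nat_lit 5) (nat_lit 429) (nat_lit 425) (nat_lit 346)) (XT.nd (nat_lit 78) (nat_lit 0) (nat_lit 0) (XT.lf (nat_lit 0) (nat_lit 4683619746) (nat_lit 1596) (nat_lit 3413917470) (nat_lit 1672) (nat_lit 1591572257) (nat_lit 545) (nat_lit 5) (nat_lit 566) (nat_lit 5) (nat_lit 567) (nat_lit 5) (nat_lit 430) (nat_lit 425) (nat_lit 345)) (XT.lf (nat_lit 76) (nat_lit 4120775559) (nat_lit 0) (nat_lit 2136998283)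 (nat_lit 1672) (nat_lit 3557341180) (nat_lit 546) (nat_lit 5) (nat_lit 545) (nat_lit 5) (nat_lit 567) (nat_lit 5) (nat_lit 431) (nat_lit 425) (nat_lit 344)))) (XT.nd (nat_lit 156) (nat_lit 1596) (nat_lit 0) (XT.nd (nat_lit 78) (nat_lit 0) (nat_lit 76) (XT.lf (nat_lit 76) (nat_lit 1954624701) (nat_lit 0) (nat_lit 5942005143) (nat_lit 1672) (nat_lit 2047924286) (nat_lit 547) (nat_lit 5) (nat_lit 546) (nat_lit 5) (nat_lit 568) (nat_lit 5) (nat_lit 432) (nat_lit 425) (nat_lit 343)) (XT.lf (nat_lit 0) (nat_lit 9595842029) (nat_lit 1596) (nat_lit 211157632) (nat_lit 1672) (nat_lit 270655793) (nat_lit 547) (nat_lit 5) (nat_lit 568) (nat_lit 5) (nat_lit 569) (nat_lit 5) (nat_lit 433) (nat_lit 425) (nat_lit 342))) (XT.nd (nat_lit 78) (nat_lit 0) (nat_lit 76) (XT.lf (nat_lit 0) (nat_lit 1165359272) (nat_lit 1672) (nat_lit 2385767408) (nat_lit 1748) (nat_lit 6662500643) (nat_lit 525) (nat_lit 5) (nat_lit 547)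 (nat_lit 5) (nat_lit 548) (nat_lit 5) (nat_lit 434) (nat_lit 425) (nat_lit 341)) (XT.lf (nat_lit 0) (nat_lit 2872444607) (nat_lit 1672) (nat_lit 4571072635) (nat_lit 1748) (nat_lit 2909759178) (nat_lit 526) (nat_lit 5) (nat_lit 548) (nat_lit 5) (nat_lit 549) (nat_lit 5) (nat_lit 435) (nat_lit 425) (nat_lit 340))))) (XT.nd (nat_lit 234) (nat_lit 3192) (nat_lit 0) (XT.nd (nat_lit 78) (nat_lit 0) (nat_lit 76) (XT.lf (nat_lit 76) (nat_lit 3727264272) (nat_lit 0) (nat_lit 927553247) (nat_lit 1748) (nat_lit 5841818531) (nat_lit 527) (nat_lit 5) (nat_lit 526) (nat_lit 5) (nat_lit 549) (nat_lit 5) (nat_lit 436) (nat_lit 425) (nat_lit 339)) (XT.nd (nat_lit 78) (nat_lit 0) (nat_lit 76) (XT.lf (nat_lit 76) (nat_lit 1648069170) (nat_lit 0) (nat_lit 4882934341) (nat_lit 1748) (nat_lit 4112488604) (nat_lit 528) (nat_lit 5) (nat_lit 527) (nat_lit 5) (nat_lit 550) (nat_lit 5) (nat_lit 437) (nat_lit 425) (nat_lit 338))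 (XT.lf (nat_lit 0) (nat_lit 8489693938) (nat_lit 1672) (nat_lit 431152328) (nat_lit 1748) (nat_lit 1873385633) (nat_lit 528) (nat_lit 5) (nat_lit 550) (nat_lit 5) (nat_lit 551) (nat_lit 5) (nat_lit 438) (nat_lit 425) (nat_lit 337)))) (XT.nd (nat_lit 156) (nat_lit 1672) (nat_lit 0) (XT.nd (nat_lit 78) (nat_lit 1672) (nat_lit 0) (XT.lf (nat_lit 76) (nat_lit 8439354027) (nat_lit 0) (nat_lit 2118269682) (nat_lit 1748) (nat_lit 390862936) (nat_lit 529) (nat_lit 5) (nat_lit 528) (nat_lit 5) (nat_lit 551) (nat_lit 5) (nat_lit 439) (nat_lit 425) (nat_lit 336)) (XT.lf (nat_lit 0) (nat_lit 1600615749) (nat_lit 1748) (nat_lit 4618070544) (nat_lit 1824) (nat_lit 4887657406) (nat_lit 506) (nat_lit 5) (nat_lit 529) (nat_lit 5) (nat_lit 530) (nat_lit 5) (nat_lit 440) (nat_lit 425) (nat_lit 335))) (XT.nd (nat_lit 78) (nat_lit 1748) (nat_lit 0) (XT.lf (nat_lit 0) (nat_lit 3677490045) (nat_lit 1748) (nat_lit 6739081061)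 (nat_lit 76) (nat_lit 851696622) (nat_lit 507) (nat_lit 5) (nat_lit 530) (nat_lit 5) (nat_lit 508) (nat_lit 5) (nat_lit 441) (nat_lit 425) (nat_lit 334)) (XT.lf (nat_lit 0) (nat_lit 2541901128) (nat_lit 1748) (nat_lit 3329848765) (nat_lit 1824) (nat_lit 5562200098) (nat_lit 484) (nat_lit 5) (nat_lit 507) (nat_lit 5) (nat_lit 508) (nat_lit 5) (nat_lit 442) (nat_lit 425) (nat_lit 333))))))) (XT.nd (nat_lit 1014) (nat_lit 7752) (nat_lit 0) (XT.nd (nat_lit 468) (nat_lit 4864) (nat_lit 0) (XT.nd (nat_lit 234) (nat_lit 2660) (nat_lit 0) (XT.nd (nat_lit 78) (nat_lit 1140) (nat_lit 0) (XT.lf (nat_lit 0) (nat_lit 541369031) (nat_lit 1824) (nat_lit 7632061993) (nat_lit 1900) (nat_lit 3430341869) (nat_lit 460) (nat_lit 5) (nat_lit 484) (nat_lit 5) (nat_lit 485) (nat_lit 5) (nat_lit 443) (nat_lit 425) (nat_lit 332)) (XT.nd (nat_lit 78) (nat_lit 1140) (nat_lit 0) (XT.lf (nat_lit 0) (nat_lit 10327894918) (nat_lit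 1824) (nat_lit 265774077) (nat_lit 1900) (nat_lit 1184033340) (nat_lit 460) (nat_lit 5) (nat_lit 484) (nat_lit 5) (nat_lit 485) (nat_lit 5) (nat_lit 444) (nat_lit 425) (nat_lit 331)) (XT.lf (nat_lit 0) (nat_lit 1186059399) (nat_lit 1140) (nat_lit 3477177112) (nat_lit 76) (nat_lit 7292044129) (nat_lit 445) (nat_lit 5) (nat_lit 460) (nat_lit 5) (nat_lit 446) (nat_lit 5) (nat_lit 445) (nat_lit 425) (nat_lit 330)))) (XT.nd (nat_lit 78) (nat_lit 1748) (nat_lit 0) (XT.lf (nat_lit 0) (nat_lit 3654122189) (nat_lit 988) (nat_lit 5522896849) (nat_lit 76) (nat_lit 2960153485) (nat_lit 433) (nat_lit 5) (nat_lit 446) (nat_lit 5) (nat_lit 434) (nat_lit 5) (nat_lit 446) (nat_lit 425) (nat_lit 329)) (XT.nd (nat_lit 78) (nat_lit 836) (nat_lit 0) (XT.lf (nat_lit 0) (nat_lit 4733785313) (nat_lit 912) (nat_lit 1517471211) (nat_lit 988) (nat_lit 6072165824) (nat_lit 421) (nat_lit 5) (nat_lit 433) (nat_lit 5) (nat_lit 434)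 (nat_lit 5) (nat_lit 447) (nat_lit 425) (nat_lit 328)) (XT.lf (nat_lit 0) (nat_lit 2825579861) (nat_lit 836) (nat_lit 6168220338) (nat_lit 912) (nat_lit 3520111287) (nat_lit 410) (nat_lit 5) (nat_lit 421) (nat_lit 5) (nat_lit 422) (nat_lit 5) (nat_lit 448) (nat_lit 425) (nat_lit 327))))) (XT.nd (nat_lit 234) (nat_lit 3116) (nat_lit 0) (XT.nd (nat_lit 78) (nat_lit 912) (nat_lit 0) (XT.lf (nat_lit 0) (nat_lit 909194819) (nat_lit 836) (nat_lit 10959105300) (nat_lit 912) (nat_lit 840823255) (nat_lit 399) (nat_lit 5) (nat_lit 410) (nat_lit 5) (nat_lit 411) (nat_lit 5) (nat_lit 449) (nat_lit 425) (nat_lit 326)) (XT.nd (nat_lit 78) (nat_lit 836) (nat_lit 0) (XT.lf (nat_lit 0) (nat_lit 1972281387) (nat_lit 912) (nat_lit 1034900236) (nat_lit 76) (nat_lit 9901190344) (nat_lit 398) (nat_lit 5) (nat_lit 410) (nat_lit 5) (nat_lit 399) (nat_lit 5) (nat_lit 450) (nat_lit 425) (nat_lit 325)) (XT.lf (nat_lit 0) (nat_lit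 4930566143) (nat_lit 912) (nat_lit 2994538442) (nat_lit 76) (nat_lit 5186939615) (nat_lit 387) (nat_lit 5) (nat_lit 399) (nat_lit 5) (nat_lit 388) (nat_lit 5) (nat_lit 451) (nat_lit 425) (nat_lit 324)))) (XT.nd (nat_lit 156) (nat_lit 1520) (nat_lit 0) (XT.nd (nat_lit 78) (nat_lit 760) (nat_lit 0) (XT.lf (nat_lit 0) (nat_lit 8033886709) (nat_lit 912) (nat_lit 4964815761) (nat_lit 76) (nat_lit 321999887) (nat_lit 376) (nat_lit 5) (nat_lit 388) (nat_lit 5) (nat_lit 377) (nat_lit 5) (nat_lit 452) (nat_lit 425) (nat_lit 323)) (XT.lf (nat_lit 0) (nat_lit 6557020572) (nat_lit 760) (nat_lit 4762621834) (nat_lit 836) (nat_lit 2214192601) (nat_lit 366) (nat_lit 5) (nat_lit 376) (nat_lit 5) (nat_lit 377) (nat_lit 5) (nat_lit 453) (nat_lit 425) (nat_lit 322))) (XT.nd (nat_lit 78) (nat_lit 684) (nat_lit 0) (XT.lf (nat_lit 0) (nat_lit 1001333649) (nat_lit 836) (nat_lit 9009496680) (nat_lit 76) (nat_lit 3741145419)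 (nat_lit 355) (nat_lit 5) (nat_lit 366) (nat_lit 5) (nat_lit 356) (nat_lit 5) (nat_lit 454) (nat_lit 425) (nat_lit 321)) (XT.lf (nat_lit 0) (nat_lit 2895772675) (nat_lit 684) (nat_lit 1460211339) (nat_lit 760) (nat_lit 9618930520) (nat_lit 346) (nat_lit 5) (nat_lit 355) (nat_lit 5) (nat_lit 356) (nat_lit 5) (nat_lit 455) (nat_lit 425) (nat_lit 320)))))) (XT.nd (nat_lit 546) (nat_lit 3572) (nat_lit 0) (XT.nd (nat_lit 234) (nat_lit 2660) (nat_lit 0) (XT.nd (nat_lit 78) (nat_lit 760) (nat_lit 0) (XT.lf (nat_lit 0) (nat_lit 1015013099) (nat_lit 760) (nat_lit 6886883666) (nat_lit 836) (nat_lit 6300833568) (nat_lit 336) (nat_lit 5) (nat_lit 346) (nat_lit 5) (nat_lit 347) (nat_lit 5) (nat_lit 456) (nat_lit 425) (nat_lit 319)) (XT.nd (nat_lit 78) (nat_lit 760) (nat_lit 0) (XT.lf (nat_lit 0) (nat_lit 11627189797) (nat_lit 836) (nat_lit 863162632) (nat_lit 76) (nat_lit 1945569391) (nat_lit 336) (nat_lit 5) (nat_lit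 347) (nat_lit 5) (nat_lit 337) (nat_lit 5) (nat_lit 457) (nat_lit 425) (nat_lit 318)) (XT.lf (nat_lit 0) (nat_lit 877982587) (nat_lit 760) (nat_lit 2766151492) (nat_lit 76) (nat_lit 11029870111) (nat_lit 326) (nat_lit 5) (nat_lit 336) (nat_lit 5) (nat_lit 327) (nat_lit 5) (nat_lit 458) (nat_lit 425) (nat_lit 317)))) (XT.nd (nat_lit 156) (nat_lit 1368) (nat_lit 0) (XT.nd (nat_lit 78) (nat_lit 608) (nat_lit 0) (XT.lf (nat_lit 0) (nat_lit 4722308383) (nat_lit 760) (nat_lit 4711184107) (nat_lit 76) (nat_lit 5483663012) (nat_lit 317) (nat_lit 5) (nat_lit 327) (nat_lit 5) (nat_lit 318) (nat_lit 5) (nat_lit 459) (nat_lit 425) (nat_lit 316)) (XT.lf (nat_lit 0) (nat_lit 8497410280) (nat_lit 608) (nat_lit 259931063) (nat_lit 684) (nat_lit 6408753605) (nat_lit 309) (nat_lit 5) (nat_lit 317) (nat_lit 5) (nat_lit 318) (nat_lit 5) (nat_lit 460) (nat_lit 425) (nat_lit 315))) (XT.nd (nat_lit 78) (nat_lit 684) (nat_lit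 0) (XT.lf (nat_lit 0) (nat_lit 6746076880) (nat_lit 684) (nat_lit 6280379180) (nat_lit 760) (nat_lit 2393787007) (nat_lit 300) (nat_lit 5) (nat_lit 309) (nat_lit 5) (nat_lit 310) (nat_lit 5) (nat_lit 461) (nat_lit 425) (nat_lit 314)) (XT.lf (nat_lit 0) (nat_lit 1797156442) (nat_lit 684) (nat_lit 10703166258) (nat_lit 76) (nat_lit 3179900436) (nat_lit 291) (nat_lit 5) (nat_lit 300) (nat_lit 5) (nat_lit 292) (nat_lit 5) (nat_lit 462) (nat_lit 425) (nat_lit 313))))) (XT.nd (nat_lit 234) (nat_lit 2356) (nat_lit 0) (XT.nd (nat_lit 78) (nat_lit 608) (nat_lit 0) (XT.lf (nat_lit 0) (nat_lit 3165617160) (nat_lit 608) (nat_lit 3015805478) (nat_lit 684) (nat_lit 9764262201) (nat_lit 283) (nat_lit 5) (nat_lit 291) (nat_lit 5) (nat_lit 292) (nat_lit 5) (nat_lit 463) (nat_lit 425) (nat_lit 312)) (XT.nd (nat_lit 78) (nat_lit 0) (nat_lit 0) (XT.lf (nat_lit 0) (nat_lit 1325187442) (nat_lit 608) (nat_lit 9476123741)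 (nat_lit 684) (nat_lit 5415718317) (nat_lit 275) (nat_lit 5) (nat_lit 283) (nat_lit 5) (nat_lit 284) (nat_lit 5) (nat_lit 464) (nat_lit 425) (nat_lit 311)) (XT.lf (nat_lit 0) (nat_lit 15647698175) (nat_lit 684) (nat_lit 515617545) (nat_lit 76) (nat_lit 331441708) (nat_lit 275) (nat_lit 5) (nat_lit 284) (nat_lit 5) (nat_lit 276) (nat_lit 5) (nat_lit 465) (nat_lit 425) (nat_lit 310)))) (XT.nd (nat_lit 156) (nat_lit 1140) (nat_lit 0) (XT.nd (nat_lit 78) (nat_lit 532) (nat_lit 0) (XT.lf (nat_lit 0) (nat_lit 3945418556) (nat_lit 684) (nat_lit 2413110599) (nat_lit 76) (nat_lit 10419040579) (nat_lit 266) (nat_lit 5) (nat_lit 275) (nat_lit 5) (nat_lit 267) (nat_lit 5) (nat_lit 466) (nat_lit 425) (nat_lit 309)) (XT.lf (nat_lit 0) (nat_lit 8961425796) (nat_lit 608) (nat_lit 4327526191) (nat_lit 76) (nat_lit 3777978064) (nat_lit 259) (nat_lit 5) (nat_lit 267) (nat_lit 5) (nat_lit 260) (nat_lit 5) (nat_lit 467)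 (nat_lit 425) (nat_lit 308))) (XT.nd (nat_lit 78) (nat_lit 608) (nat_lit 0) (XT.lf (nat_lit 0) (nat_lit 11091621674) (nat_lit 532) (nat_lit 3147613772) (nat_lit 608) (nat_lit 3123510154) (nat_lit 252) (nat_lit 5) (nat_lit 259) (nat_lit 5) (nat_lit 260) (nat_lit 5) (nat_lit 468) (nat_lit 425) (nat_lit 307)) (XT.lf (nat_lit 0) (nat_lit 2101119438) (nat_lit 608) (nat_lit 8263262467) (nat_lit 76) (nat_lit 7300403591) (nat_lit 244) (nat_lit 5) (nat_lit 252) (nat_lit 5) (nat_lit 245) (nat_lit 5) (nat_lit 469) (nat_lit 425) (nat_lit 306))))))))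
noncomputable def xc75 : XT := (XT.nd (nat_lit 2106) (nat_lit 1748) (nat_lit 0) (XT.nd (nat_lit 1014) (nat_lit 4636) (nat_lit 0) (XT.nd (nat_lit 468) (nat_lit 3116) (nat_lit 0) (XT.nd (nat_lit 234) (nat_lit 912) (nat_lit 0) (XT.nd (nat_lit 78) (nat_lit 1064) (nat_lit 0) (XT.lf (nat_lit 0) (nat_lit 7535987829) (nat_lit 608) (nat_lit 10286656387) (nat_lit 76) (nat_lit 150911523) (nat_lit 237) (nat_lit 5) (nat_lit 245) (nat_lit 5) (nat_lit 238) (nat_lit 5) (nat_lit 470) (nat_lit 425) (nat_lit 305)) (XT.nd (nat_lit 78) (nat_lit 608) (nat_lit 0) (XT.lf (nat_lit 0) (nat_lit 5920410572) (nat_lit 456) (nat_lit 7358913240) (nat_lit 532) (nat_lit 5009357621) (nat_lit 231) (nat_lit 5) (nat_lit 237) (nat_lit 5) (nat_lit 238) (nat_lit 5) (nat_lit 471) (nat_lit 425) (nat_lit 304)) (XT.lf (nat_lit 0) (nat_lit 675677882) (nat_lit 608) (nat_lit 14466970864) (nat_lit 76) (nat_lit 3468505196) (nat_lit 223) (nat_lit 5)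 (nat_lit 231) (nat_lit 5) (nat_lit 224) (nat_lit 5) (nat_lit 472) (nat_lit 425) (nat_lit 303)))) (XT.nd (nat_lit 78) (nat_lit 456) (nat_lit 0) (XT.lf (nat_lit 0) (nat_lit 2301108589) (nat_lit 456) (nat_lit 4292896357) (nat_lit 532) (nat_lit 12346018201) (nat_lit 217) (nat_lit 5) (nat_lit 223) (nat_lit 5) (nat_lit 224) (nat_lit 5) (nat_lit 473) (nat_lit 425) (nat_lit 302)) (XT.nd (nat_lit 78) (nat_lit 0) (nat_lit 0) (XT.lf (nat_lit 0) (nat_lit 428359599) (nat_lit 456) (nat_lit 12389878308) (nat_lit 532) (nat_lit 6457954095) (nat_lit 211) (nat_lit 5) (nat_lit 217) (nat_lit 5) (nat_lit 218) (nat_lit 5) (nat_lit 474) (nat_lit 425) (nat_lit 301)) (XT.lf (nat_lit 0) (nat_lit 18181346611) (nat_lit 456) (nat_lit 1171685625) (nat_lit 532) (nat_lit 266937676) (nat_lit 211) (nat_lit 5) (nat_lit 217) (nat_lit 5) (nat_lit 218) (nat_lit 5) (nat_lit 475) (nat_lit 425) (nat_lit 300))))) (XT.nd (nat_lit 234) (nat_lit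 1748) (nat_lit 0) (XT.nd (nat_lit 78) (nat_lit 836) (nat_lit 0) (XT.lf (nat_lit 0) (nat_lit 6189064896) (nat_lit 532) (nat_lit 3392740495) (nat_lit 76) (nat_lit 10388275293) (nat_lit 204) (nat_lit 5) (nat_lit 211) (nat_lit 5) (nat_lit 205) (nat_lit 5) (nat_lit 476) (nat_lit 425) (nat_lit 299)) (XT.nd (nat_lit 78) (nat_lit 380) (nat_lit 0) (XT.lf (nat_lit 0) (nat_lit 12946661099) (nat_lit 532) (nat_lit 5356553855) (nat_lit 76) (nat_lit 2025214360) (nat_lit 198) (nat_lit 5) (nat_lit 205) (nat_lit 5) (nat_lit 199) (nat_lit 5) (nat_lit 477) (nat_lit 425) (nat_lit 298)) (XT.lf (nat_lit 0) (nat_lit 13323060304) (nat_lit 380) (nat_lit 6741181993) (nat_lit 456) (nat_lit 630141569) (nat_lit 193) (nat_lit 5) (nat_lit 198) (nat_lit 5) (nat_lit 199) (nat_lit 5) (nat_lit 478) (nat_lit 425) (nat_lit 297)))) (XT.nd (nat_lit 156) (nat_lit 836) (nat_lit 0) (XT.nd (nat_lit 78) (nat_lit 380) (nat_lit 0) (XT.lf (nat_lit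 0) (nat_lit 6371560083) (nat_lit 532) (nat_lit 9449835106) (nat_lit 76) (nat_lit 5246491906) (nat_lit 186) (nat_lit 5) (nat_lit 193) (nat_lit 5) (nat_lit 187) (nat_lit 5) (nat_lit 479) (nat_lit 425) (nat_lit 296)) (XT.lf (nat_lit 0) (nat_lit 9882449090) (nat_lit 380) (nat_lit 3835898323) (nat_lit 456) (nat_lit 7731293348) (nat_lit 181) (nat_lit 5) (nat_lit 186) (nat_lit 5) (nat_lit 187) (nat_lit 5) (nat_lit 480) (nat_lit 425) (nat_lit 295))) (XT.nd (nat_lit 78) (nat_lit 456) (nat_lit 0) (XT.lf (nat_lit 0) (nat_lit 8109349424) (nat_lit 380) (nat_lit 13332828776) (nat_lit 456) (nat_lit 397536584) (nat_lit 176) (nat_lit 5) (nat_lit 181) (nat_lit 5) (nat_lit 182) (nat_lit 5) (nat_lit 481) (nat_lit 425) (nat_lit 294)) (XT.lf (nat_lit 0) (nat_lit 6280693412) (nat_lit 380) (nat_lit 911502345) (nat_lit 456) (nat_lit 15045770166) (nat_lit 170) (nat_lit 5) (nat_lit 175) (nat_lit 5) (nat_lit 176) (nat_lit 5)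 (nat_lit 482) (nat_lit 425) (nat_lit 293)))))) (XT.nd (nat_lit 546) (nat_lit 2356) (nat_lit 0) (XT.nd (nat_lit 234) (nat_lit 1064) (nat_lit 0) (XT.nd (nat_lit 78) (nat_lit 836) (nat_lit 0) (XT.lf (nat_lit 0) (nat_lit 4387330222) (nat_lit 380) (nat_lit 10800945417) (nat_lit 456) (nat_lit 7456155775) (nat_lit 165) (nat_lit 5) (nat_lit 170) (nat_lit 5) (nat_lit 171) (nat_lit 5) (nat_lit 483) (nat_lit 425) (nat_lit 292)) (XT.nd (nat_lit 78) (nat_lit 380) (nat_lit 0) (XT.lf (nat_lit 0) (nat_lit 485678970) (nat_lit 456) (nat_lit 20573815613) (nat_lit 76) (nat_lit 2000964501) (nat_lit 159) (nat_lit 5) (nat_lit 165) (nat_lit 5) (nat_lit 160) (nat_lit 5) (nat_lit 484) (nat_lit 425) (nat_lit 291)) (XT.lf (nat_lit 0) (nat_lit 476252430) (nat_lit 380) (nat_lit 8273817627) (nat_lit 456) (nat_lit 14734200264) (nat_lit 154) (nat_lit 5) (nat_lit 159) (nat_lit 5) (nat_lit 160) (nat_lit 5) (nat_lit 485) (nat_lit 425)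 (nat_lit 290)))) (XT.nd (nat_lit 156) (nat_lit 684) (nat_lit 0) (XT.nd (nat_lit 78) (nat_lit 380) (nat_lit 0) (XT.lf (nat_lit 0) (nat_lit 17419911175) (nat_lit 456) (nat_lit 1534330943) (nat_lit 76) (nat_lit 4963403863) (nat_lit 154) (nat_lit 5) (nat_lit 160) (nat_lit 5) (nat_lit 155) (nat_lit 5) (nat_lit 486) (nat_lit 425) (nat_lit 289)) (XT.lf (nat_lit 0) (nat_lit 2137004627) (nat_lit 380) (nat_lit 3596197818) (nat_lit 76) (nat_lit 18627018540) (nat_lit 149) (nat_lit 5) (nat_lit 154) (nat_lit 5) (nat_lit 150) (nat_lit 5) (nat_lit 487) (nat_lit 425) (nat_lit 288))) (XT.nd (nat_lit 78) (nat_lit 304) (nat_lit 0) (XT.lf (nat_lit 0) (nat_lit 11115942232) (nat_lit 456) (nat_lit 5743592305) (nat_lit 76) (nat_lit 7952211423) (nat_lit 144) (nat_lit 5) (nat_lit 150) (nat_lit 5) (nat_lit 145) (nat_lit 5) (nat_lit 488) (nat_lit 425) (nat_lit 287)) (XT.lf (nat_lit 0) (nat_lit 17352339102) (nat_lit 304) (nat_lit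 3173654663) (nat_lit 380) (nat_lit 4747588409) (nat_lit 140) (nat_lit 5) (nat_lit 144) (nat_lit 5) (nat_lit 145) (nat_lit 5) (nat_lit 489) (nat_lit 425) (nat_lit 286))))) (XT.nd (nat_lit 234) (nat_lit 1292) (nat_lit 0) (XT.nd (nat_lit 78) (nat_lit 608) (nat_lit 0) (XT.lf (nat_lit 0) (nat_lit 4609457413) (nat_lit 456) (nat_lit 10193110509) (nat_lit 76) (nat_lit 10942145679) (nat_lit 134) (nat_lit 5) (nat_lit 140) (nat_lit 5) (nat_lit 135) (nat_lit 5) (nat_lit 490) (nat_lit 425) (nat_lit 285)) (XT.nd (nat_lit 78) (nat_lit 304) (nat_lit 0) (XT.lf (nat_lit 0) (nat_lit 13712923165) (nat_lit 304) (nat_lit 621033775) (nat_lit 380) (nat_lit 11892369905) (nat_lit 130) (nat_lit 5) (nat_lit 134) (nat_lit 5) (nat_lit 135) (nat_lit 5) (nat_lit 491) (nat_lit 425) (nat_lit 284)) (XT.lf (nat_lit 0) (nat_lit 11796495806) (nat_lit 304) (nat_lit 12777406214) (nat_lit 380) (nat_lit 2144012620) (nat_lit 126) (nat_lit 5)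 (nat_lit 130) (nat_lit 5) (nat_lit 131) (nat_lit 5) (nat_lit 492) (nat_lit 425) (nat_lit 283)))) (XT.nd (nat_lit 156) (nat_lit 608) (nat_lit 0) (XT.nd (nat_lit 78) (nat_lit 304) (nat_lit 0) (XT.lf (nat_lit 0) (nat_lit 7945896204) (nat_lit 380) (nat_lit 17396764917) (nat_lit 76) (nat_lit 1877510493) (nat_lit 121) (nat_lit 5) (nat_lit 126) (nat_lit 5) (nat_lit 122) (nat_lit 5) (nat_lit 493) (nat_lit 425) (nat_lit 282)) (XT.lf (nat_lit 0) (nat_lit 7759371516) (nat_lit 304) (nat_lit 10774912074) (nat_lit 380) (nat_lit 9198431405) (nat_lit 117) (nat_lit 5) (nat_lit 121) (nat_lit 5) (nat_lit 122) (nat_lit 5) (nat_lit 494) (nat_lit 425) (nat_lit 281))) (XT.nd (nat_lit 78) (nat_lit 304) (nat_lit 0) (XT.lf (nat_lit 0) (nat_lit 1335639499) (nat_lit 304) (nat_lit 22590926884) (nat_lit 76) (nat_lit 4330486958) (nat_lit 113) (nat_lit 5) (nat_lit 117) (nat_lit 5) (nat_lit 114) (nat_lit 5) (nat_lit 495) (nat_lit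 425) (nat_lit 280)) (XT.lf (nat_lit 0) (nat_lit 3443493697) (nat_lit 304) (nat_lit 8836107900) (nat_lit 380) (nat_lit 16511927726) (nat_lit 109) (nat_lit 5) (nat_lit 113) (nat_lit 5) (nat_lit 114) (nat_lit 5) (nat_lit 496) (nat_lit 425) (nat_lit 279))))))) (XT.nd (nat_lit 57486) (nat_lit 0) (nat_lit 27284) (XT.nd (nat_lit 56940) (nat_lit 0) (nat_lit 34656) (XT.nd (nat_lit 234) (nat_lit 1140) (nat_lit 0) (XT.nd (nat_lit 78) (nat_lit 380) (nat_lit 0) (XT.lf (nat_lit 0) (nat_lit 1179285876) (nat_lit 228) (nat_lit 22565545336) (nat_lit 304) (nat_lit 5593349699) (nat_lit 106) (nat_lit 5) (nat_lit 109) (nat_lit 5) (nat_lit 110) (nat_lit 5) (nat_lit 497) (nat_lit 425) (nat_lit 278)) (XT.nd (nat_lit 78) (nat_lit 304) (nat_lit 0) (XT.lf (nat_lit 0) (nat_lit 5798437550) (nat_lit 304) (nat_lit 1165973982) (nat_lit 76) (nat_lit 22931690987) (nat_lit 105) (nat_lit 5) (nat_lit 109) (nat_lit 5) (nat_lit 106) (nat_lit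 5) (nat_lit 498) (nat_lit 425) (nat_lit 277)) (XT.lf (nat_lit 0) (nat_lit 17679900229) (nat_lit 380) (nat_lit 3594706961) (nat_lit 76) (nat_lit 9190937153) (nat_lit 101) (nat_lit 5) (nat_lit 106) (nat_lit 5) (nat_lit 102) (nat_lit 5) (nat_lit 499) (nat_lit 425) (nat_lit 276)))) (XT.nd (nat_lit 156) (nat_lit 532) (nat_lit 0) (XT.nd (nat_lit 78) (nat_lit 380) (nat_lit 0) (XT.lf (nat_lit 0) (nat_lit 24973815213) (nat_lit 228) (nat_lit 5148980147) (nat_lit 304) (nat_lit 925174558) (nat_lit 98) (nat_lit 5) (nat_lit 101) (nat_lit 5) (nat_lit 102) (nat_lit 5) (nat_lit 500) (nat_lit 425) (nat_lit 275)) (XT.lf (nat_lit 0) (nat_lit 11381383569) (nat_lit 380) (nat_lit 8709351041) (nat_lit 76) (nat_lit 11550900534) (nat_lit 93) (nat_lit 5) (nat_lit 98) (nat_lit 5) (nat_lit 94) (nat_lit 5) (nat_lit 501) (nat_lit 425) (nat_lit 274))) (XT.nd (nat_lit 78) (nat_lit 304) (nat_lit 0) (XT.lf (nat_lit 0) (nat_lit 20852786172)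 (nat_lit 228) (nat_lit 3391720595) (nat_lit 304) (nat_lit 8004482744) (nat_lit 90) (nat_lit 5) (nat_lit 93) (nat_lit 5) (nat_lit 94) (nat_lit 5) (nat_lit 502) (nat_lit 425) (nat_lit 273)) (XT.lf (nat_lit 0) (nat_lit 4819224413) (nat_lit 304) (nat_lit 14217914822) (nat_lit 76) (nat_lit 13831608850) (nat_lit 86) (nat_lit 5) (nat_lit 90) (nat_lit 5) (nat_lit 87) (nat_lit 5) (nat_lit 503) (nat_lit 425) (nat_lit 272))))) (XT.nd (nat_lit 234) (nat_lit 0) (nat_lit 76) (XT.nd (nat_lit 78) (nat_lit 0) (nat_lit 0) (XT.lf (nat_lit 0) (nat_lit 46367175) (nat_lit 0) (nat_lit 46367175) (nat_lit 1596) (nat_lit 4572035244) (nat_lit 542) (nat_lit 5) (nat_lit 542) (nat_lit 3) (nat_lit 563) (nat_lit 3) (nat_lit 426) (nat_lit 426) (nat_lit 348)) (XT.nd (nat_lit 78) (nat_lit 0) (nat_lit 76) (XT.lf (nat_lit 0) (nat_lit 1470147736) (nat_lit 1596) (nat_lit 2325867957) (nat_lit 1672) (nat_lit 5647746373) (nat_lit 542) (nat_lit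 5) (nat_lit 563) (nat_lit 3) (nat_lit 564) (nat_lit 5) (nat_lit 427) (nat_lit 426) (nat_lit 347)) (XT.lf (nat_lit 0) (nat_lit 2790251816) (nat_lit 1596) (nat_lit 4745374316) (nat_lit 1672) (nat_lit 2025851017) (nat_lit 543) (nat_lit 5) (nat_lit 564) (nat_lit 5) (nat_lit 565) (nat_lit 5) (nat_lit 428) (nat_lit 426) (nat_lit 346)))) (XT.nd (nat_lit 156) (nat_lit 0) (nat_lit 152) (XT.nd (nat_lit 78) (nat_lit 0) (nat_lit 76) (XT.lf (nat_lit 76) (nat_lit 2502998482) (nat_lit 0) (nat_lit 1657433290) (nat_lit 1672) (nat_lit 5522085574) (nat_lit 544) (nat_lit 5) (nat_lit 543) (nat_lit 5) (nat_lit 565) (nat_lit 5) (nat_lit 429) (nat_lit 426) (nat_lit 345)) (XT.lf (nat_lit 76) (nat_lit 174025934) (nat_lit 0) (nat_lit 5414043813) (nat_lit 1672) (nat_lit 4218794975) (nat_lit 545) (nat_lit 5) (nat_lit 544) (nat_lit 5) (nat_lit 566) (nat_lit 5) (nat_lit 430) (nat_lit 426) (nat_lit 344))) (XT.nd (nat_lit 78) (nat_lit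 0) (nat_lit 0) (XT.lf (nat_lit 0) (nat_lit 7078437350) (nat_lit 1596) (nat_lit 2130489797) (nat_lit 1672) (nat_lit 725620300) (nat_lit 545) (nat_lit 5) (nat_lit 566) (nat_lit 5) (nat_lit 567) (nat_lit 5) (nat_lit 431) (nat_lit 426) (nat_lit 343)) (XT.lf (nat_lit 76) (nat_lit 5607760330) (nat_lit 0) (nat_lit 3035248100) (nat_lit 1672) (nat_lit 1422465229) (nat_lit 546) (nat_lit 5) (nat_lit 545) (nat_lit 5) (nat_lit 567) (nat_lit 5) (nat_lit 432) (nat_lit 426) (nat_lit 342)))))) (XT.nd (nat_lit 546) (nat_lit 6004) (nat_lit 0) (XT.nd (nat_lit 234) (nat_lit 0) (nat_lit 152) (XT.nd (nat_lit 78) (nat_lit 0) (nat_lit 0) (XT.lf (nat_lit 0) (nat_lit 69858338) (nat_lit 1672) (nat_lit 6797251145) (nat_lit 1748) (nat_lit 3332886252) (nat_lit 524) (nat_lit 5) (nat_lit 546) (nat_lit 5) (nat_lit 547) (nat_lit 5) (nat_lit 433) (nat_lit 426) (nat_lit 341)) (XT.nd (nat_lit 78) (nat_lit 0) (nat_lit 76) (XT.lf (nat_lit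 76) (nat_lit 1180417309) (nat_lit 0) (nat_lit 424530381) (nat_lit 1748) (nat_lit 8733073933) (nat_lit 525) (nat_lit 5) (nat_lit 524) (nat_lit 5) (nat_lit 547) (nat_lit 5) (nat_lit 434) (nat_lit 426) (nat_lit 340)) (XT.lf (nat_lit 0) (nat_lit 3232738392) (nat_lit 1672) (nat_lit 1057032763) (nat_lit 1748) (nat_lit 6189486720) (nat_lit 525) (nat_lit 5) (nat_lit 547) (nat_lit 5) (nat_lit 548) (nat_lit 5) (nat_lit 435) (nat_lit 426) (nat_lit 339)))) (XT.nd (nat_lit 156) (nat_lit 0) (nat_lit 76) (XT.nd (nat_lit 78) (nat_lit 0) (nat_lit 0) (XT.lf (nat_lit 0) (nat_lit 4936858548) (nat_lit 1672) (nat_lit 3286920727) (nat_lit 1748) (nat_lit 2400404508) (nat_lit 526) (nat_lit 5) (nat_lit 548) (nat_lit 5) (nat_lit 549) (nat_lit 5) (nat_lit 436) (nat_lit 426) (nat_lit 338)) (XT.lf (nat_lit 76) (nat_lit 5237307643) (nat_lit 0) (nat_lit 1486854553) (nat_lit 1748) (nat_lit 4048656488) (nat_lit 527) (nat_lit 5) (nat_lit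 526) (nat_lit 5) (nat_lit 549) (nat_lit 5) (nat_lit 437) (nat_lit 426) (nat_lit 337))) (XT.nd (nat_lit 78) (nat_lit 0) (nat_lit 76) (XT.lf (nat_lit 76) (nat_lit 3114535163) (nat_lit 0) (nat_lit 5491743824) (nat_lit 1748) (nat_lit 2318812106) (nat_lit 528) (nat_lit 5) (nat_lit 527) (nat_lit 5) (nat_lit 550) (nat_lit 5) (nat_lit 438) (nat_lit 426) (nat_lit 336)) (XT.lf (nat_lit 76) (nat_lit 984092860) (nat_lit 0) (nat_lit 9588374165) (nat_lit 1748) (nat_lit 508914769) (nat_lit 529) (nat_lit 5) (nat_lit 528) (nat_lit 5) (nat_lit 551) (nat_lit 5) (nat_lit 439) (nat_lit 426) (nat_lit 335))))) (XT.nd (nat_lit 234) (nat_lit 4560) (nat_lit 0) (XT.nd (nat_lit 78) (nat_lit 0) (nat_lit 76) (XT.lf (nat_lit 0) (nat_lit 1392248142) (nat_lit 1748) (nat_lit 1165588518) (nat_lit 1824) (nat_lit 8683255865) (nat_lit 505) (nat_lit 5) (nat_lit 528) (nat_lit 5) (nat_lit 529) (nat_lit 5) (nat_lit 440) (nat_lit 426) (nat_lit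 334)) (XT.nd (nat_lit 78) (nat_lit 0) (nat_lit 76) (XT.lf (nat_lit 0) (nat_lit 3392820362) (nat_lit 1748) (nat_lit 3326054892) (nat_lit 1824) (nat_lit 4685668377) (nat_lit 506) (nat_lit 5) (nat_lit 529) (nat_lit 5) (nat_lit 530) (nat_lit 5) (nat_lit 441) (nat_lit 426) (nat_lit 333)) (XT.lf (nat_lit 0) (nat_lit 5488420327) (nat_lit 1748) (nat_lit 5497834371) (nat_lit 76) (nat_lit 585945398) (nat_lit 507) (nat_lit 5) (nat_lit 530) (nat_lit 5) (nat_lit 508) (nat_lit 5) (nat_lit 442) (nat_lit 426) (nat_lit 332)))) (XT.nd (nat_lit 156) (nat_lit 1140) (nat_lit 0) (XT.nd (nat_lit 78) (nat_lit 1824) (nat_lit 0) (XT.lf (nat_lit 0) (nat_lit 4038159523) (nat_lit 1748) (nat_lit 3670035837) (nat_lit 1824) (nat_lit 4035466736) (nat_lit 484) (nat_lit 5) (nat_lit 507) (nat_lit 5) (nat_lit 508) (nat_lit 5) (nat_lit 443) (nat_lit 426) (nat_lit 331)) (XT.lf (nat_lit 0) (nat_lit 1988874486) (nat_lit 1824) (nat_lit 8049472418)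 (nat_lit 1900) (nat_lit 1881047311) (nat_lit 460) (nat_lit 5) (nat_lit 484) (nat_lit 5) (nat_lit 485) (nat_lit 5) (nat_lit 444) (nat_lit 426) (nat_lit 330))) (XT.nd (nat_lit 78) (nat_lit 1064) (nat_lit 0) (XT.lf (nat_lit 0) (nat_lit 379484849) (nat_lit 1900) (nat_lit 74675678) (nat_lit 76) (nat_lit 11645277445) (nat_lit 459) (nat_lit 5) (nat_lit 484) (nat_lit 5) (nat_lit 460) (nat_lit 5) (nat_lit 445) (nat_lit 426) (nat_lit 329)) (XT.lf (nat_lit 0) (nat_lit 2766561596) (nat_lit 1140) (nat_lit 2161635876) (nat_lit 76) (nat_lit 7354752980) (nat_lit 445) (nat_lit 5) (nat_lit 460) (nat_lit 5) (nat_lit 446) (nat_lit 5) (nat_lit 446) (nat_lit 426) (nat_lit 328))))))))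
noncomputable def xc76 : XT := (XT.nd (nat_lit 2106) (nat_lit 9272) (nat_lit 0) (XT.nd (nat_lit 1014) (nat_lit 7828) (nat_lit 0) (XT.nd (nat_lit 468) (nat_lit 4636) (nat_lit 0) (XT.nd (nat_lit 234) (nat_lit 1748) (nat_lit 0) (XT.nd (nat_lit 78) (nat_lit 1748) (nat_lit 0) (XT.lf (nat_lit 0) (nat_lit 5272009389) (nat_lit 988) (nat_lit 4260766995) (nat_lit 76) (nat_lit 2938258472) (nat_lit 433) (nat_lit 5) (nat_lit 446) (nat_lit 5) (nat_lit 434) (nat_lit 5) (nat_lit 447) (nat_lit 426) (nat_lit 327)) (XT.nd (nat_lit 78) (nat_lit 836) (nat_lit 0) (XT.lf (nat_lit 0) (nat_lit 6280451001) (nat_lit 912) (nat_lit 1631796680) (nat_lit 988) (nat_lit 4751323246) (nat_lit 421) (nat_lit 5) (nat_lit 433) (nat_lit 5) (nat_lit 434) (nat_lit 5) (nat_lit 448) (nat_lit 426) (nat_lit 326)) (XT.lf (nat_lit 0) (nat_lit 4321724641) (nat_lit 836) (nat_lit 6381156810) (nat_lit 912) (nat_lit 2157579489) (nat_lit 410) (nat_lit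 5) (nat_lit 421) (nat_lit 5) (nat_lit 422) (nat_lit 5) (nat_lit 449) (nat_lit 426) (nat_lit 325)))) (XT.nd (nat_lit 78) (nat_lit 836) (nat_lit 0) (XT.lf (nat_lit 0) (nat_lit 561074741) (nat_lit 912) (nat_lit 10712352975) (nat_lit 76) (nat_lit 1788687963) (nat_lit 398) (nat_lit 5) (nat_lit 410) (nat_lit 5) (nat_lit 399) (nat_lit 5) (nat_lit 450) (nat_lit 426) (nat_lit 324)) (XT.nd (nat_lit 78) (nat_lit 0) (nat_lit 0) (XT.lf (nat_lit 0) (nat_lit 332540768) (nat_lit 836) (nat_lit 3075596601) (nat_lit 912) (nat_lit 9859875725) (nat_lit 387) (nat_lit 5) (nat_lit 398) (nat_lit 5) (nat_lit 399) (nat_lit 5) (nat_lit 451) (nat_lit 426) (nat_lit 323)) (XT.lf (nat_lit 0) (nat_lit 6422064037) (nat_lit 912) (nat_lit 1686106448) (nat_lit 76) (nat_lit 5370289363) (nat_lit 387) (nat_lit 5) (nat_lit 399) (nat_lit 5) (nat_lit 388) (nat_lit 5) (nat_lit 452) (nat_lit 426) (nat_lit 322))))) (XT.nd (nat_lit 234) (nat_lit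 2204) (nat_lit 0) (XT.nd (nat_lit 78) (nat_lit 1596) (nat_lit 0) (XT.lf (nat_lit 0) (nat_lit 9588685863) (nat_lit 912) (nat_lit 3712241721) (nat_lit 76) (nat_lit 393048289) (nat_lit 376) (nat_lit 5) (nat_lit 388) (nat_lit 5) (nat_lit 377) (nat_lit 5) (nat_lit 453) (nat_lit 426) (nat_lit 321)) (XT.nd (nat_lit 78) (nat_lit 836) (nat_lit 0) (XT.lf (nat_lit 0) (nat_lit 8132511729) (nat_lit 760) (nat_lit 4811188949) (nat_lit 836) (nat_lit 970390192) (nat_lit 366) (nat_lit 5) (nat_lit 376) (nat_lit 5) (nat_lit 377) (nat_lit 5) (nat_lit 454) (nat_lit 426) (nat_lit 320)) (XT.lf (nat_lit 0) (nat_lit 2296381649) (nat_lit 836) (nat_lit 7881753504) (nat_lit 76) (nat_lit 3961033262) (nat_lit 355) (nat_lit 5) (nat_lit 366) (nat_lit 5) (nat_lit 356) (nat_lit 5) (nat_lit 455) (nat_lit 426) (nat_lit 319)))) (XT.nd (nat_lit 156) (nat_lit 760) (nat_lit 0) (XT.nd (nat_lit 78) (nat_lit 760) (nat_lit 0) (XT.lf (nat_lit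 0) (nat_lit 4357992587) (nat_lit 684) (nat_lit 1365763707) (nat_lit 760) (nat_lit 8645599309) (nat_lit 346) (nat_lit 5) (nat_lit 355) (nat_lit 5) (nat_lit 356) (nat_lit 5) (nat_lit 456) (nat_lit 426) (nat_lit 318)) (XT.lf (nat_lit 0) (nat_lit 2422017696) (nat_lit 760) (nat_lit 6927805899) (nat_lit 836) (nat_lit 5254708617) (nat_lit 336) (nat_lit 5) (nat_lit 346) (nat_lit 5) (nat_lit 347) (nat_lit 5) (nat_lit 457) (nat_lit 426) (nat_lit 317))) (XT.nd (nat_lit 78) (nat_lit 76) (nat_lit 0) (XT.lf (nat_lit 0) (nat_lit 476176465) (nat_lit 684) (nat_lit 12679566950) (nat_lit 760) (nat_lit 1689600494) (nat_lit 327) (nat_lit 5) (nat_lit 336) (nat_lit 5) (nat_lit 337) (nat_lit 5) (nat_lit 458) (nat_lit 426) (nat_lit 316)) (XT.lf (nat_lit 0) (nat_lit 2063058537) (nat_lit 760) (nat_lit 1496738302) (nat_lit 76) (nat_lit 11531194867) (nat_lit 326) (nat_lit 5) (nat_lit 336) (nat_lit 5) (nat_lit 327) (nat_lit 5)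 (nat_lit 459) (nat_lit 426) (nat_lit 315)))))) (XT.nd (nat_lit 546) (nat_lit 3268) (nat_lit 0) (XT.nd (nat_lit 234) (nat_lit 2584) (nat_lit 0) (XT.nd (nat_lit 78) (nat_lit 1292) (nat_lit 0) (XT.lf (nat_lit 0) (nat_lit 5998880670) (nat_lit 760) (nat_lit 3500612210) (nat_lit 76) (nat_lit 5842423034) (nat_lit 317) (nat_lit 5) (nat_lit 327) (nat_lit 5) (nat_lit 318) (nat_lit 5) (nat_lit 460) (nat_lit 426) (nat_lit 314)) (XT.nd (nat_lit 78) (nat_lit 684) (nat_lit 0) (XT.lf (nat_lit 0) (nat_lit 10082306917) (nat_lit 608) (nat_lit 48237349) (nat_lit 684) (nat_lit 5468269320) (nat_lit 309) (nat_lit 5) (nat_lit 317) (nat_lit 5) (nat_lit 318) (nat_lit 5) (nat_lit 461) (nat_lit 426) (nat_lit 313)) (XT.lf (nat_lit 0) (nat_lit 8277357296) (nat_lit 684) (nat_lit 6228042639) (nat_lit 760) (nat_lit 1355634454) (nat_lit 300) (nat_lit 5) (nat_lit 309) (nat_lit 5) (nat_lit 310) (nat_lit 5) (nat_lit 462) (nat_lit 426)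 (nat_lit 312)))) (XT.nd (nat_lit 156) (nat_lit 1292) (nat_lit 0) (XT.nd (nat_lit 78) (nat_lit 608) (nat_lit 0) (XT.lf (nat_lit 0) (nat_lit 2924776941) (nat_lit 684) (nat_lit 9682679231) (nat_lit 76) (nat_lit 3521649126) (nat_lit 291) (nat_lit 5) (nat_lit 300) (nat_lit 5) (nat_lit 292) (nat_lit 5) (nat_lit 463) (nat_lit 426) (nat_lit 311)) (XT.lf (nat_lit 0) (nat_lit 4580402115) (nat_lit 608) (nat_lit 2837465146) (nat_lit 684) (nat_lit 8985119136) (nat_lit 283) (nat_lit 5) (nat_lit 291) (nat_lit 5) (nat_lit 292) (nat_lit 5) (nat_lit 464) (nat_lit 426) (nat_lit 310))) (XT.nd (nat_lit 78) (nat_lit 684) (nat_lit 0) (XT.lf (nat_lit 0) (nat_lit 2682357213) (nat_lit 608) (nat_lit 9473631556) (nat_lit 684) (nat_lit 4526891328) (nat_lit 275) (nat_lit 5) (nat_lit 283) (nat_lit 5) (nat_lit 284) (nat_lit 5) (nat_lit 465) (nat_lit 426) (nat_lit 309)) (XT.lf (nat_lit 0) (nat_lit 153157299) (nat_lit 684) (nat_lit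 16194022154) (nat_lit 76) (nat_lit 622205043) (nat_lit 266) (nat_lit 5) (nat_lit 275) (nat_lit 5) (nat_lit 267) (nat_lit 5) (nat_lit 466) (nat_lit 426) (nat_lit 308))))) (XT.nd (nat_lit 234) (nat_lit 2204) (nat_lit 0) (XT.nd (nat_lit 78) (nat_lit 1064) (nat_lit 0) (XT.lf (nat_lit 0) (nat_lit 5051842125) (nat_lit 684) (nat_lit 1196082554) (nat_lit 76) (nat_lit 11013167010) (nat_lit 266) (nat_lit 5) (nat_lit 275) (nat_lit 5) (nat_lit 267) (nat_lit 5) (nat_lit 467) (nat_lit 426) (nat_lit 307)) (XT.nd (nat_lit 78) (nat_lit 532) (nat_lit 0) (XT.lf (nat_lit 0) (nat_lit 10199741248) (nat_lit 608) (nat_lit 3171411122) (nat_lit 76) (nat_lit 4188353493) (nat_lit 259) (nat_lit 5) (nat_lit 267) (nat_lit 5) (nat_lit 260) (nat_lit 5) (nat_lit 468) (nat_lit 426) (nat_lit 306)) (XT.lf (nat_lit 0) (nat_lit 12689448316) (nat_lit 532) (nat_lit 2926413528) (nat_lit 608) (nat_lit 2248735742) (nat_lit 252) (nat_lit 5) (nat_lit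 259) (nat_lit 5) (nat_lit 260) (nat_lit 5) (nat_lit 469) (nat_lit 426) (nat_lit 305)))) (XT.nd (nat_lit 156) (nat_lit 1064) (nat_lit 0) (XT.nd (nat_lit 78) (nat_lit 532) (nat_lit 0) (XT.lf (nat_lit 0) (nat_lit 3102338682) (nat_lit 608) (nat_lit 7237393729) (nat_lit 76) (nat_lit 7836193536) (nat_lit 244) (nat_lit 5) (nat_lit 252) (nat_lit 5) (nat_lit 245) (nat_lit 5) (nat_lit 470) (nat_lit 426) (nat_lit 304)) (XT.lf (nat_lit 0) (nat_lit 8683232527) (nat_lit 608) (nat_lit 9325905880) (nat_lit 76) (nat_lit 485162449) (nat_lit 237) (nat_lit 5) (nat_lit 245) (nat_lit 5) (nat_lit 238) (nat_lit 5) (nat_lit 471) (nat_lit 426) (nat_lit 303))) (XT.nd (nat_lit 78) (nat_lit 608) (nat_lit 0) (XT.lf (nat_lit 0) (nat_lit 7346779389) (nat_lit 456) (nat_lit 7233366906) (nat_lit 532) (nat_lit 4239109586) (nat_lit 231) (nat_lit 5) (nat_lit 237) (nat_lit 5) (nat_lit 238) (nat_lit 5) (nat_lit 472) (nat_lit 426) (nat_lit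 302)) (XT.lf (nat_lit 0) (nat_lit 1588272536) (nat_lit 608) (nat_lit 13645008658) (nat_lit 76) (nat_lit 3918325529) (nat_lit 223) (nat_lit 5) (nat_lit 231) (nat_lit 5) (nat_lit 224) (nat_lit 5) (nat_lit 473) (nat_lit 426) (nat_lit 301))))))) (XT.nd (nat_lit 1014) (nat_lit 4028) (nat_lit 0) (XT.nd (nat_lit 468) (nat_lit 2888) (nat_lit 0) (XT.nd (nat_lit 234) (nat_lit 1368) (nat_lit 0) (XT.nd (nat_lit 78) (nat_lit 532) (nat_lit 0) (XT.lf (nat_lit 0) (nat_lit 3605736535) (nat_lit 456) (nat_lit 4060445148) (nat_lit 532) (nat_lit 11824520705) (nat_lit 217) (nat_lit 5) (nat_lit 223) (nat_lit 5) (nat_lit 224) (nat_lit 5) (nat_lit 474) (nat_lit 426) (nat_lit 300)) (XT.nd (nat_lit 78) (nat_lit 76) (nat_lit 0) (XT.lf (nat_lit 0) (nat_lit 1671688862) (nat_lit 456) (nat_lit 12390252241) (nat_lit 532) (nat_lit 5775320216) (nat_lit 211) (nat_lit 5) (nat_lit 217) (nat_lit 5) (nat_lit 218) (nat_lit 5) (nat_lit 475)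 (nat_lit 426) (nat_lit 299)) (XT.lf (nat_lit 0) (nat_lit 568348233) (nat_lit 532) (nat_lit 274166844) (nat_lit 76) (nat_lit 19349264156) (nat_lit 210) (nat_lit 5) (nat_lit 217) (nat_lit 5) (nat_lit 211) (nat_lit 5) (nat_lit 476) (nat_lit 426) (nat_lit 298)))) (XT.nd (nat_lit 78) (nat_lit 912) (nat_lit 0) (XT.lf (nat_lit 0) (nat_lit 7200029020) (nat_lit 532) (nat_lit 2294125392) (nat_lit 76) (nat_lit 11058492057) (nat_lit 204) (nat_lit 5) (nat_lit 211) (nat_lit 5) (nat_lit 205) (nat_lit 5) (nat_lit 477) (nat_lit 426) (nat_lit 297)) (XT.nd (nat_lit 78) (nat_lit 456) (nat_lit 0) (XT.lf (nat_lit 0) (nat_lit 14146398077) (nat_lit 532) (nat_lit 4322535112) (nat_lit 76) (nat_lit 2453092365) (nat_lit 198) (nat_lit 5) (nat_lit 205) (nat_lit 5) (nat_lit 199) (nat_lit 5) (nat_lit 478) (nat_lit 426) (nat_lit 296)) (XT.lf (nat_lit 0) (nat_lit 160099317) (nat_lit 456) (nat_lit 6402248268) (nat_lit 76) (nat_lit 14736910966)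 (nat_lit 192) (nat_lit 5) (nat_lit 198) (nat_lit 5) (nat_lit 193) (nat_lit 5) (nat_lit 479) (nat_lit 426) (nat_lit 295))))) (XT.nd (nat_lit 234) (nat_lit 1596) (nat_lit 0) (XT.nd (nat_lit 78) (nat_lit 836) (nat_lit 0) (XT.lf (nat_lit 0) (nat_lit 7350075000) (nat_lit 532) (nat_lit 8553324607) (nat_lit 76) (nat_lit 5780749111) (nat_lit 186) (nat_lit 5) (nat_lit 193) (nat_lit 5) (nat_lit 187) (nat_lit 5) (nat_lit 480) (nat_lit 426) (nat_lit 294)) (XT.nd (nat_lit 78) (nat_lit 456) (nat_lit 0) (XT.lf (nat_lit 0) (nat_lit 11339783927) (nat_lit 380) (nat_lit 3562086054) (nat_lit 456) (nat_lit 7175793738) (nat_lit 181) (nat_lit 5) (nat_lit 186) (nat_lit 5) (nat_lit 187) (nat_lit 5) (nat_lit 481) (nat_lit 426) (nat_lit 293)) (XT.lf (nat_lit 0) (nat_lit 360398940) (nat_lit 456) (nat_lit 12974673450) (nat_lit 76) (nat_lit 9144571648) (nat_lit 175) (nat_lit 5) (nat_lit 181) (nat_lit 5) (nat_lit 176) (nat_lit 5)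 (nat_lit 482) (nat_lit 426) (nat_lit 292)))) (XT.nd (nat_lit 156) (nat_lit 836) (nat_lit 0) (XT.nd (nat_lit 78) (nat_lit 380) (nat_lit 0) (XT.lf (nat_lit 0) (nat_lit 7615158744) (nat_lit 380) (nat_lit 542468472) (nat_lit 456) (nat_lit 14732459586) (nat_lit 170) (nat_lit 5) (nat_lit 175) (nat_lit 5) (nat_lit 176) (nat_lit 5) (nat_lit 483) (nat_lit 426) (nat_lit 291)) (XT.lf (nat_lit 0) (nat_lit 5658644093) (nat_lit 380) (nat_lit 10723008728) (nat_lit 456) (nat_lit 6927332892) (nat_lit 165) (nat_lit 5) (nat_lit 170) (nat_lit 5) (nat_lit 171) (nat_lit 5) (nat_lit 484) (nat_lit 426) (nat_lit 290))) (XT.nd (nat_lit 78) (nat_lit 380) (nat_lit 0) (XT.lf (nat_lit 0) (nat_lit 1231214021) (nat_lit 456) (nat_lit 20048117860) (nat_lit 76) (nat_lit 2458298776) (nat_lit 159) (nat_lit 5) (nat_lit 165) (nat_lit 5) (nat_lit 160) (nat_lit 5) (nat_lit 485) (nat_lit 426) (nat_lit 289)) (XT.lf (nat_lit 0) (nat_lit 1614909831)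 (nat_lit 380) (nat_lit 8114636931) (nat_lit 456) (nat_lit 14444889939) (nat_lit 154) (nat_lit 5) (nat_lit 159) (nat_lit 5) (nat_lit 160) (nat_lit 5) (nat_lit 486) (nat_lit 426) (nat_lit 288)))))) (XT.nd (nat_lit 546) (nat_lit 1900) (nat_lit 0) (XT.nd (nat_lit 234) (nat_lit 1368) (nat_lit 0) (XT.nd (nat_lit 78) (nat_lit 760) (nat_lit 0) (XT.lf (nat_lit 0) (nat_lit 18641168397) (nat_lit 456) (nat_lit 477364290) (nat_lit 76) (nat_lit 5502647885) (nat_lit 154) (nat_lit 5) (nat_lit 160) (nat_lit 5) (nat_lit 155) (nat_lit 5) (nat_lit 487) (nat_lit 426) (nat_lit 287)) (XT.nd (nat_lit 78) (nat_lit 380) (nat_lit 0) (XT.lf (nat_lit 0) (nat_lit 2891030002) (nat_lit 380) (nat_lit 2609792819) (nat_lit 76) (nat_lit 19576385937) (nat_lit 149) (nat_lit 5) (nat_lit 154) (nat_lit 5) (nat_lit 150) (nat_lit 5) (nat_lit 488) (nat_lit 426) (nat_lit 286)) (XT.lf (nat_lit 0) (nat_lit 12128826006) (nat_lit 456) (nat_lit 4828401848)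 (nat_lit 76) (nat_lit 8585262422) (nat_lit 144) (nat_lit 5) (nat_lit 150) (nat_lit 5) (nat_lit 145) (nat_lit 5) (nat_lit 489) (nat_lit 426) (nat_lit 285)))) (XT.nd (nat_lit 156) (nat_lit 608) (nat_lit 0) (XT.nd (nat_lit 78) (nat_lit 456) (nat_lit 0) (XT.lf (nat_lit 0) (nat_lit 18942764135) (nat_lit 304) (nat_lit 2865572648) (nat_lit 380) (nat_lit 4210102221) (nat_lit 140) (nat_lit 5) (nat_lit 144) (nat_lit 5) (nat_lit 145) (nat_lit 5) (nat_lit 490) (nat_lit 426) (nat_lit 284)) (XT.lf (nat_lit 0) (nat_lit 5408700971) (nat_lit 456) (nat_lit 9427045761) (nat_lit 76) (nat_lit 11668070643) (nat_lit 134) (nat_lit 5) (nat_lit 140) (nat_lit 5) (nat_lit 135) (nat_lit 5) (nat_lit 491) (nat_lit 426) (nat_lit 283))) (XT.nd (nat_lit 78) (nat_lit 304) (nat_lit 0) (XT.lf (nat_lit 0) (nat_lit 15178779301) (nat_lit 304) (nat_lit 233751235) (nat_lit 380) (nat_lit 11587597117) (nat_lit 130) (nat_lit 5) (nat_lit 134)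 (nat_lit 5) (nat_lit 135) (nat_lit 5) (nat_lit 492) (nat_lit 426) (nat_lit 282)) (XT.lf (nat_lit 0) (nat_lit 13197937188) (nat_lit 304) (nat_lit 12752206897) (nat_lit 380) (nat_lit 1556510114) (nat_lit 126) (nat_lit 5) (nat_lit 130) (nat_lit 5) (nat_lit 131) (nat_lit 5) (nat_lit 493) (nat_lit 426) (nat_lit 281))))) (XT.nd (nat_lit 234) (nat_lit 912) (nat_lit 0) (XT.nd (nat_lit 78) (nat_lit 608) (nat_lit 0) (XT.lf (nat_lit 0) (nat_lit 8818203819) (nat_lit 380) (nat_lit 16869694516) (nat_lit 76) (nat_lit 2336183270) (nat_lit 121) (nat_lit 5) (nat_lit 126) (nat_lit 5) (nat_lit 122) (nat_lit 5) (nat_lit 494) (nat_lit 426) (nat_lit 280)) (XT.nd (nat_lit 78) (nat_lit 304) (nat_lit 0) (XT.lf (nat_lit 0) (nat_lit 9024107663) (nat_lit 304) (nat_lit 10688371298) (nat_lit 380) (nat_lit 8839758085) (nat_lit 117) (nat_lit 5) (nat_lit 121) (nat_lit 5) (nat_lit 122) (nat_lit 5) (nat_lit 495) (nat_lit 426) (nat_lit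 279)) (XT.lf (nat_lit 0) (nat_lit 1993068192) (nat_lit 304) (nat_lit 22235582454) (nat_lit 76) (nat_lit 4863751818) (nat_lit 113) (nat_lit 5) (nat_lit 117) (nat_lit 5) (nat_lit 114) (nat_lit 5) (nat_lit 496) (nat_lit 426) (nat_lit 278)))) (XT.nd (nat_lit 156) (nat_lit 380) (nat_lit 0) (XT.nd (nat_lit 78) (nat_lit 228) (nat_lit 0) (XT.lf (nat_lit 0) (nat_lit 4563110375) (nat_lit 304) (nat_lit 8690856003) (nat_lit 380) (nat_lit 16389174447) (nat_lit 109) (nat_lit 5) (nat_lit 113) (nat_lit 5) (nat_lit 114) (nat_lit 5) (nat_lit 497) (nat_lit 426) (nat_lit 277)) (XT.lf (nat_lit 0) (nat_lit 2223804434) (nat_lit 228) (nat_lit 22830837218) (nat_lit 304) (nat_lit 5151720968) (nat_lit 106) (nat_lit 5) (nat_lit 109) (nat_lit 5) (nat_lit 110) (nat_lit 5) (nat_lit 498) (nat_lit 426) (nat_lit 276))) (XT.nd (nat_lit 78) (nat_lit 304) (nat_lit 0) (XT.lf (nat_lit 0) (nat_lit 6556309559) (nat_lit 304) (nat_lit 213431957)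 (nat_lit 76) (nat_lit 24011551986) (nat_lit 105) (nat_lit 5) (nat_lit 109) (nat_lit 5) (nat_lit 106) (nat_lit 5) (nat_lit 499) (nat_lit 426) (nat_lit 275)) (XT.lf (nat_lit 0) (nat_lit 18786102296) (nat_lit 380) (nat_lit 2722156487) (nat_lit 76) (nat_lit 9859722472) (nat_lit 101) (nat_lit 5) (nat_lit 106) (nat_lit 5) (nat_lit 102) (nat_lit 5) (nat_lit 500) (nat_lit 426) (nat_lit 274))))))))
noncomputable def xc77 : XT := (XT.nd (nat_lit 58578) (nat_lit 0) (nat_lit 8664) (XT.nd (nat_lit 57486) (nat_lit 0) (nat_lit 24320) (XT.nd (nat_lit 56940) (nat_lit 0) (nat_lit 32908) (XT.nd (nat_lit 56706) (nat_lit 0) (nat_lit 34352) (XT.nd (nat_lit 78) (nat_lit 608) (nat_lit 0) (XT.lf (nat_lit 0) (nat_lit 26687515662) (nat_lit 228) (nat_lit 4904259681) (nat_lit 304) (nat_lit 376314822) (nat_lit 98) (nat_lit 5) (nat_lit 101) (nat_lit 5) (nat_lit 102) (nat_lit 5) (nat_lit 501) (nat_lit 426) (nat_lit 273)) (XT.nd (nat_lit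 78) (nat_lit 228) (nat_lit 0) (XT.lf (nat_lit 0) (nat_lit 12284093671) (nat_lit 380) (nat_lit 8005736489) (nat_lit 76) (nat_lit 12289816360) (nat_lit 93) (nat_lit 5) (nat_lit 98) (nat_lit 5) (nat_lit 94) (nat_lit 5) (nat_lit 502) (nat_lit 426) (nat_lit 272)) (XT.lf (nat_lit 0) (nat_lit 22427610563) (nat_lit 228) (nat_lit 3095315474) (nat_lit 304) (nat_lit 7682499531) (nat_lit 90) (nat_lit 5) (nat_lit 93) (nat_lit 5) (nat_lit 94) (nat_lit 5) (nat_lit 503) (nat_lit 426) (nat_lit 271)))) (XT.nd (nat_lit 78) (nat_lit 0) (nat_lit 0) (XT.lf (nat_lit 0) (nat_lit 664145975) (nat_lit 0) (nat_lit 664145975) (nat_lit 1596) (nat_lit 3451683742) (nat_lit 542) (nat_lit 5) (nat_lit 542) (nat_lit 3) (nat_lit 563) (nat_lit 3) (nat_lit 427) (nat_lit 427) (nat_lit 346)) (XT.nd (nat_lit 78) (nat_lit 0) (nat_lit 76) (XT.lf (nat_lit 0) (nat_lit 3900220268) (nat_lit 1596) (nat_lit 1142970650) (nat_lit 1672) (nat_lit 4636006438)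 (nat_lit 542) (nat_lit 5) (nat_lit 563) (nat_lit 3) (nat_lit 564) (nat_lit 5) (nat_lit 428) (nat_lit 427) (nat_lit 345)) (XT.lf (nat_lit 0) (nat_lit 5191343689) (nat_lit 1596) (nat_lit 3601651432) (nat_lit 1672) (nat_lit 1008825053) (nat_lit 543) (nat_lit 5) (nat_lit 564) (nat_lit 5) (nat_lit 565) (nat_lit 5) (nat_lit 429) (nat_lit 427) (nat_lit 344))))) (XT.nd (nat_lit 234) (nat_lit 1520) (nat_lit 0) (XT.nd (nat_lit 78) (nat_lit 0) (nat_lit 76) (XT.lf (nat_lit 76) (nat_lit 3843307363) (nat_lit 0) (nat_lit 2700039690) (nat_lit 1672) (nat_lit 3384334637) (nat_lit 544) (nat_lit 5) (nat_lit 543) (nat_lit 5) (nat_lit 565) (nat_lit 5) (nat_lit 430) (nat_lit 427) (nat_lit 343)) (XT.nd (nat_lit 78) (nat_lit 0) (nat_lit 0) (XT.lf (nat_lit 76) (nat_lit 1474856892) (nat_lit 0) (nat_lit 6475340569) (nat_lit 1672) (nat_lit 2106838704) (nat_lit 545) (nat_lit 5) (nat_lit 544) (nat_lit 5) (nat_lit 566) (nat_lit 5)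 (nat_lit 431) (nat_lit 427) (nat_lit 342)) (XT.lf (nat_lit 76) (nat_lit 9301068714) (nat_lit 0) (nat_lit 115373288) (nat_lit 1672) (nat_lit 773488270) (nat_lit 545) (nat_lit 5) (nat_lit 544) (nat_lit 5) (nat_lit 566) (nat_lit 5) (nat_lit 432) (nat_lit 427) (nat_lit 341)))) (XT.nd (nat_lit 156) (nat_lit 0) (nat_lit 76) (XT.nd (nat_lit 78) (nat_lit 0) (nat_lit 76) (XT.lf (nat_lit 0) (nat_lit 639284454) (nat_lit 1672) (nat_lit 3268987981) (nat_lit 1748) (nat_lit 6417517727) (nat_lit 523) (nat_lit 5) (nat_lit 545) (nat_lit 5) (nat_lit 546) (nat_lit 5) (nat_lit 433) (nat_lit 427) (nat_lit 340)) (XT.lf (nat_lit 0) (nat_lit 2100001682) (nat_lit 1672) (nat_lit 5663925970) (nat_lit 1748) (nat_lit 2701377103) (nat_lit 524) (nat_lit 5) (nat_lit 546) (nat_lit 5) (nat_lit 547) (nat_lit 5) (nat_lit 434) (nat_lit 427) (nat_lit 339))) (XT.nd (nat_lit 78) (nat_lit 0) (nat_lit 76) (XT.lf (nat_lit 76) (nat_lit 2531377364)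 (nat_lit 0) (nat_lit 1099238411) (nat_lit 1748) (nat_lit 6977869987) (nat_lit 525) (nat_lit 5) (nat_lit 524) (nat_lit 5) (nat_lit 547) (nat_lit 5) (nat_lit 435) (nat_lit 427) (nat_lit 338)) (XT.lf (nat_lit 76) (nat_lit 234252801) (nat_lit 0) (nat_lit 5012737882) (nat_lit 1748) (nat_lit 5508177082) (nat_lit 526) (nat_lit 5) (nat_lit 525) (nat_lit 5) (nat_lit 548) (nat_lit 5) (nat_lit 436) (nat_lit 427) (nat_lit 337)))))) (XT.nd (nat_lit 546) (nat_lit 7220) (nat_lit 0) (XT.nd (nat_lit 234) (nat_lit 1596) (nat_lit 0) (XT.nd (nat_lit 78) (nat_lit 0) (nat_lit 0) (XT.lf (nat_lit 0) (nat_lit 6949645804) (nat_lit 1672) (nat_lit 2045831781) (nat_lit 1748) (nat_lit 1910019203) (nat_lit 526) (nat_lit 5) (nat_lit 548) (nat_lit 5) (nat_lit 549) (nat_lit 5) (nat_lit 437) (nat_lit 427) (nat_lit 336)) (XT.nd (nat_lit 78) (nat_lit 0) (nat_lit 76) (XT.lf (nat_lit 76) (nat_lit 6712388454) (nat_lit 0) (nat_lit 2032426077)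 (nat_lit 1748) (nat_lit 2314694750) (nat_lit 527) (nat_lit 5) (nat_lit 526) (nat_lit 5) (nat_lit 549) (nat_lit 5) (nat_lit 438) (nat_lit 427) (nat_lit 335)) (XT.lf (nat_lit 76) (nat_lit 4543652166) (nat_lit 0) (nat_lit 6092278450) (nat_lit 1748) (nat_lit 581371892) (nat_lit 528) (nat_lit 5) (nat_lit 527) (nat_lit 5) (nat_lit 550) (nat_lit 5) (nat_lit 439) (nat_lit 427) (nat_lit 334)))) (XT.nd (nat_lit 156) (nat_lit 0) (nat_lit 76) (XT.nd (nat_lit 78) (nat_lit 0) (nat_lit 0) (XT.lf (nat_lit 0) (nat_lit 1220126455) (nat_lit 1748) (nat_lit 9021848726) (nat_lit 1824) (nat_lit 1137060799) (nat_lit 505) (nat_lit 5) (nat_lit 528) (nat_lit 5) (nat_lit 529) (nat_lit 5) (nat_lit 440) (nat_lit 427) (nat_lit 333)) (XT.lf (nat_lit 76) (nat_lit 136137584) (nat_lit 0) (nat_lit 2985590950) (nat_lit 1824) (nat_lit 8422738959) (nat_lit 506) (nat_lit 5) (nat_lit 505) (nat_lit 5) (nat_lit 529) (nat_lit 5) (nat_lit 441)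 (nat_lit 427) (nat_lit 332))) (XT.nd (nat_lit 78) (nat_lit 0) (nat_lit 76) (XT.lf (nat_lit 0) (nat_lit 5138667692) (nat_lit 1748) (nat_lit 2077398638) (nat_lit 1824) (nat_lit 4497631820) (nat_lit 506) (nat_lit 5) (nat_lit 529) (nat_lit 5) (nat_lit 530) (nat_lit 5) (nat_lit 442) (nat_lit 427) (nat_lit 331)) (XT.lf (nat_lit 0) (nat_lit 7256056801) (nat_lit 1748) (nat_lit 4302208443) (nat_lit 76) (nat_lit 328943571) (nat_lit 507) (nat_lit 5) (nat_lit 530) (nat_lit 5) (nat_lit 508) (nat_lit 5) (nat_lit 443) (nat_lit 427) (nat_lit 330))))) (XT.nd (nat_lit 234) (nat_lit 2660) (nat_lit 0) (XT.nd (nat_lit 78) (nat_lit 2964) (nat_lit 0) (XT.lf (nat_lit 0) (nat_lit 5497791782) (nat_lit 1748) (nat_lit 4006634801) (nat_lit 1824) (nat_lit 2560150906) (nat_lit 484) (nat_lit 5) (nat_lit 507) (nat_lit 5) (nat_lit 508) (nat_lit 5) (nat_lit 444) (nat_lit 427) (nat_lit 329)) (XT.nd (nat_lit 78) (nat_lit 1140) (nat_lit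 0) (XT.lf (nat_lit 0) (nat_lit 3397644674) (nat_lit 1824) (nat_lit 8468587436) (nat_lit 1900) (nat_lit 380117231) (nat_lit 460) (nat_lit 5) (nat_lit 484) (nat_lit 5) (nat_lit 485) (nat_lit 5) (nat_lit 445) (nat_lit 427) (nat_lit 328)) (XT.lf (nat_lit 0) (nat_lit 1269460662) (nat_lit 1064) (nat_lit 621822197) (nat_lit 1140) (nat_lit 10541042411) (nat_lit 445) (nat_lit 5) (nat_lit 459) (nat_lit 5) (nat_lit 460) (nat_lit 5) (nat_lit 446) (nat_lit 427) (nat_lit 327)))) (XT.nd (nat_lit 156) (nat_lit 1748) (nat_lit 0) (XT.nd (nat_lit 78) (nat_lit 912) (nat_lit 0) (XT.lf (nat_lit 0) (nat_lit 4305794107) (nat_lit 1140) (nat_lit 888133977) (nat_lit 76) (nat_lit 7428301147) (nat_lit 445) (nat_lit 5) (nat_lit 460) (nat_lit 5) (nat_lit 446) (nat_lit 5) (nat_lit 447) (nat_lit 427) (nat_lit 326)) (XT.lf (nat_lit 0) (nat_lit 6851852709) (nat_lit 988) (nat_lit 3042735769) (nat_lit 76) (nat_lit 2922061219) (nat_lit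 433) (nat_lit 5) (nat_lit 446) (nat_lit 5) (nat_lit 434) (nat_lit 5) (nat_lit 448) (nat_lit 427) (nat_lit 325))) (XT.nd (nat_lit 78) (nat_lit 836) (nat_lit 0) (XT.lf (nat_lit 0) (nat_lit 7792883882) (nat_lit 912) (nat_lit 1745602436) (nat_lit 988) (nat_lit 3477134173) (nat_lit 421) (nat_lit 5) (nat_lit 433) (nat_lit 5) (nat_lit 434) (nat_lit 5) (nat_lit 449) (nat_lit 427) (nat_lit 324)) (XT.lf (nat_lit 0) (nat_lit 5781734929) (nat_lit 836) (nat_lit 6598880385) (nat_lit 912) (nat_lit 838448699) (nat_lit 410) (nat_lit 5) (nat_lit 421) (nat_lit 5) (nat_lit 422) (nat_lit 5) (nat_lit 450) (nat_lit 427) (nat_lit 323))))))) (XT.nd (nat_lit 1092) (nat_lit 6612) (nat_lit 0) (XT.nd (nat_lit 546) (nat_lit 4180) (nat_lit 0) (XT.nd (nat_lit 234) (nat_lit 3116) (nat_lit 0) (XT.nd (nat_lit 78) (nat_lit 836) (nat_lit 0) (XT.lf (nat_lit 0) (nat_lit 1912400639) (nat_lit 912) (nat_lit 9680202516) (nat_lit 76) (nat_lit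 1834612062) (nat_lit 398) (nat_lit 5) (nat_lit 410) (nat_lit 5) (nat_lit 399) (nat_lit 5) (nat_lit 451) (nat_lit 427) (nat_lit 322)) (XT.nd (nat_lit 78) (nat_lit 0) (nat_lit 0) (XT.lf (nat_lit 0) (nat_lit 1674078767) (nat_lit 836) (nat_lit 3140573014) (nat_lit 912) (nat_lit 8825244398) (nat_lit 387) (nat_lit 5) (nat_lit 398) (nat_lit 5) (nat_lit 399) (nat_lit 5) (nat_lit 452) (nat_lit 427) (nat_lit 321)) (XT.lf (nat_lit 0) (nat_lit 7881179828) (nat_lit 912) (nat_lit 418687806) (nat_lit 76) (nat_lit 5557547125) (nat_lit 387) (nat_lit 5) (nat_lit 399) (nat_lit 5) (nat_lit 388) (nat_lit 5) (nat_lit 453) (nat_lit 427) (nat_lit 320)))) (XT.nd (nat_lit 156) (nat_lit 1444) (nat_lit 0) (XT.nd (nat_lit 78) (nat_lit 836) (nat_lit 0) (XT.lf (nat_lit 0) (nat_lit 11114712499) (nat_lit 912) (nat_lit 2502543356) (nat_lit 76) (nat_lit 462704199) (nat_lit 376) (nat_lit 5) (nat_lit 388) (nat_lit 5) (nat_lit 377) (nat_lit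 5) (nat_lit 454) (nat_lit 427) (nat_lit 319)) (XT.lf (nat_lit 0) (nat_lit 232425025) (nat_lit 836) (nat_lit 4632642226) (nat_lit 76) (nat_lit 9442135257) (nat_lit 365) (nat_lit 5) (nat_lit 376) (nat_lit 5) (nat_lit 366) (nat_lit 5) (nat_lit 455) (nat_lit 427) (nat_lit 318))) (XT.nd (nat_lit 78) (nat_lit 684) (nat_lit 0) (XT.lf (nat_lit 0) (nat_lit 3557664455) (nat_lit 836) (nat_lit 6800430563) (nat_lit 76) (nat_lit 4181337991) (nat_lit 355) (nat_lit 5) (nat_lit 366) (nat_lit 5) (nat_lit 356) (nat_lit 5) (nat_lit 456) (nat_lit 427) (nat_lit 317)) (XT.lf (nat_lit 0) (nat_lit 5785128568) (nat_lit 684) (nat_lit 1276418990) (nat_lit 760) (nat_lit 7715506334) (nat_lit 346) (nat_lit 5) (nat_lit 355) (nat_lit 5) (nat_lit 356) (nat_lit 5) (nat_lit 457) (nat_lit 427) (nat_lit 316))))) (XT.nd (nat_lit 234) (nat_lit 2660) (nat_lit 0) (XT.nd (nat_lit 78) (nat_lit 760) (nat_lit 0) (XT.lf (nat_lit 0) (nat_lit 3792212588)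 (nat_lit 760) (nat_lit 6979466755) (nat_lit 836) (nat_lit 4248102579) (nat_lit 336) (nat_lit 5) (nat_lit 346) (nat_lit 5) (nat_lit 347) (nat_lit 5) (nat_lit 458) (nat_lit 427) (nat_lit 315)) (XT.nd (nat_lit 78) (nat_lit 76) (nat_lit 0) (XT.lf (nat_lit 0) (nat_lit 1788462591) (nat_lit 684) (nat_lit 12879482571) (nat_lit 760) (nat_lit 600351159) (nat_lit 327) (nat_lit 5) (nat_lit 336) (nat_lit 5) (nat_lit 337) (nat_lit 5) (nat_lit 459) (nat_lit 427) (nat_lit 314)) (XT.lf (nat_lit 0) (nat_lit 3217170552) (nat_lit 760) (nat_lit 266875880) (nat_lit 76) (nat_lit 12037776065) (nat_lit 326) (nat_lit 5) (nat_lit 336) (nat_lit 5) (nat_lit 327) (nat_lit 5) (nat_lit 460) (nat_lit 427) (nat_lit 313)))) (XT.nd (nat_lit 156) (nat_lit 1368) (nat_lit 0) (XT.nd (nat_lit 78) (nat_lit 608) (nat_lit 0) (XT.lf (nat_lit 0) (nat_lit 7248602048) (nat_lit 760) (nat_lit 2331328172) (nat_lit 76) (nat_lit 6200795105) (nat_lit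 317) (nat_lit 5) (nat_lit 327) (nat_lit 5) (nat_lit 318) (nat_lit 5) (nat_lit 461) (nat_lit 427) (nat_lit 312)) (XT.lf (nat_lit 0) (nat_lit 11482217723) (nat_lit 684) (nat_lit 4408408050) (nat_lit 76) (nat_lit 155145653) (nat_lit 309) (nat_lit 5) (nat_lit 318) (nat_lit 5) (nat_lit 310) (nat_lit 5) (nat_lit 462) (nat_lit 427) (nat_lit 311))) (XT.nd (nat_lit 78) (nat_lit 684) (nat_lit 0) (XT.lf (nat_lit 0) (nat_lit 9778291937) (nat_lit 684) (nat_lit 6187955916) (nat_lit 760) (nat_lit 350053922) (nat_lit 300) (nat_lit 5) (nat_lit 309) (nat_lit 5) (nat_lit 310) (nat_lit 5) (nat_lit 463) (nat_lit 427) (nat_lit 310)) (XT.lf (nat_lit 0) (nat_lit 4024590949) (nat_lit 684) (nat_lit 8708589889) (nat_lit 76) (nat_lit 3859508684) (nat_lit 291) (nat_lit 5) (nat_lit 300) (nat_lit 5) (nat_lit 292) (nat_lit 5) (nat_lit 464) (nat_lit 427) (nat_lit 309)))))) (XT.nd (nat_lit 546) (nat_lit 3040) (nat_lit 0) (XT.nd (nat_lit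 234) (nat_lit 1672) (nat_lit 0) (XT.nd (nat_lit 78) (nat_lit 1292) (nat_lit 0) (XT.lf (nat_lit 0) (nat_lit 5961867757) (nat_lit 608) (nat_lit 2669205656) (nat_lit 684) (nat_lit 8244143036) (nat_lit 283) (nat_lit 5) (nat_lit 291) (nat_lit 5) (nat_lit 292) (nat_lit 5) (nat_lit 465) (nat_lit 427) (nat_lit 308)) (XT.nd (nat_lit 78) (nat_lit 684) (nat_lit 0) (XT.lf (nat_lit 0) (nat_lit 4004617116) (nat_lit 608) (nat_lit 9487526716) (nat_lit 684) (nat_lit 3671748366) (nat_lit 275) (nat_lit 5) (nat_lit 283) (nat_lit 5) (nat_lit 284) (nat_lit 5) (nat_lit 466) (nat_lit 427) (nat_lit 307)) (XT.lf (nat_lit 0) (nat_lit 1117034554) (nat_lit 684) (nat_lit 15427977418) (nat_lit 76) (nat_lit 914225771) (nat_lit 266) (nat_lit 5) (nat_lit 275) (nat_lit 5) (nat_lit 267) (nat_lit 5) (nat_lit 467) (nat_lit 427) (nat_lit 306)))) (XT.nd (nat_lit 156) (nat_lit 1140) (nat_lit 0) (XT.nd (nat_lit 78) (nat_lit 532) (nat_lit 0)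 (XT.lf (nat_lit 0) (nat_lit 6134739657) (nat_lit 684) (nat_lit 16561729) (nat_lit 76) (nat_lit 11608954814) (nat_lit 266) (nat_lit 5) (nat_lit 275) (nat_lit 5) (nat_lit 267) (nat_lit 5) (nat_lit 468) (nat_lit 427) (nat_lit 305)) (XT.lf (nat_lit 0) (nat_lit 11419554465) (nat_lit 608) (nat_lit 2054430866) (nat_lit 76) (nat_lit 4593989098) (nat_lit 259) (nat_lit 5) (nat_lit 267) (nat_lit 5) (nat_lit 260) (nat_lit 5) (nat_lit 469) (nat_lit 427) (nat_lit 304))) (XT.nd (nat_lit 78) (nat_lit 608) (nat_lit 0) (XT.lf (nat_lit 0) (nat_lit 14262589106) (nat_lit 532) (nat_lit 2716695653) (nat_lit 608) (nat_lit 1403312795) (nat_lit 252) (nat_lit 5) (nat_lit 259) (nat_lit 5) (nat_lit 260) (nat_lit 5) (nat_lit 470) (nat_lit 427) (nat_lit 303)) (XT.lf (nat_lit 0) (nat_lit 4079738808) (nat_lit 608) (nat_lit 6253868343) (nat_lit 76) (nat_lit 8369872836) (nat_lit 244) (nat_lit 5) (nat_lit 252) (nat_lit 5) (nat_lit 245)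 (nat_lit 5) (nat_lit 471) (nat_lit 427) (nat_lit 302))))) (XT.nd (nat_lit 234) (nat_lit 1444) (nat_lit 0) (XT.nd (nat_lit 78) (nat_lit 1064) (nat_lit 0) (XT.lf (nat_lit 0) (nat_lit 9812015923) (nat_lit 608) (nat_lit 8409198753) (nat_lit 76) (nat_lit 810513420) (nat_lit 237) (nat_lit 5) (nat_lit 245) (nat_lit 5) (nat_lit 238) (nat_lit 5) (nat_lit 472) (nat_lit 427) (nat_lit 301)) (XT.nd (nat_lit 78) (nat_lit 608) (nat_lit 0) (XT.lf (nat_lit 0) (nat_lit 8744255538) (nat_lit 456) (nat_lit 7123934007) (nat_lit 532) (nat_lit 3498596228) (nat_lit 231) (nat_lit 5) (nat_lit 237) (nat_lit 5) (nat_lit 238) (nat_lit 5) (nat_lit 473) (nat_lit 427) (nat_lit 300)) (XT.lf (nat_lit 0) (nat_lit 2477021963) (nat_lit 608) (nat_lit 12870485479) (nat_lit 76) (nat_lit 4361792137) (nat_lit 223) (nat_lit 5) (nat_lit 231) (nat_lit 5) (nat_lit 224) (nat_lit 5) (nat_lit 474) (nat_lit 427) (nat_lit 299)))) (XT.nd (nat_lit 156)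 (nat_lit 532) (nat_lit 0) (XT.nd (nat_lit 78) (nat_lit 456) (nat_lit 0) (XT.lf (nat_lit 0) (nat_lit 4878575131) (nat_lit 456) (nat_lit 3841756947) (nat_lit 532) (nat_lit 11338575733) (nat_lit 217) (nat_lit 5) (nat_lit 223) (nat_lit 5) (nat_lit 224) (nat_lit 5) (nat_lit 475) (nat_lit 427) (nat_lit 298)) (XT.lf (nat_lit 0) (nat_lit 2881683505) (nat_lit 456) (nat_lit 12411952819) (nat_lit 532) (nat_lit 5122514687) (nat_lit 211) (nat_lit 5) (nat_lit 217) (nat_lit 5) (nat_lit 218) (nat_lit 5) (nat_lit 476) (nat_lit 427) (nat_lit 297))) (XT.nd (nat_lit 78) (nat_lit 0) (nat_lit 0) (XT.lf (nat_lit 0) (nat_lit 865570714) (nat_lit 456) (nat_lit 516934371) (nat_lit 532) (nat_lit 19399055502) (nat_lit 204) (nat_lit 5) (nat_lit 210) (nat_lit 5) (nat_lit 211) (nat_lit 5) (nat_lit 477) (nat_lit 427) (nat_lit 296)) (XT.lf (nat_lit 0) (nat_lit 8193946921) (nat_lit 532) (nat_lit 1231459552) (nat_lit 76) (nat_lit 11728232025)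 (nat_lit 204) (nat_lit 5) (nat_lit 211) (nat_lit 5) (nat_lit 205) (nat_lit 5) (nat_lit 478) (nat_lit 427) (nat_lit 295))))))))
noncomputable def xc78 : XT := (XT.nd (nat_lit 58656) (nat_lit 0) (nat_lit 19912) (XT.nd (nat_lit 1014) (nat_lit 3572) (nat_lit 0) (XT.nd (nat_lit 468) (nat_lit 2280) (nat_lit 0) (XT.nd (nat_lit 234) (nat_lit 1216) (nat_lit 0) (XT.nd (nat_lit 78) (nat_lit 912) (nat_lit 0) (XT.lf (nat_lit 0) (nat_lit 15335553093) (nat_lit 532) (nat_lit 3326077357) (nat_lit 76) (nat_lit 2872732430) (nat_lit 198) (nat_lit 5) (nat_lit 205) (nat_lit 5) (nat_lit 199) (nat_lit 5) (nat_lit 479) (nat_lit 427) (nat_lit 294)) (XT.nd (nat_lit 78) (nat_lit 456) (nat_lit 0) (XT.lf (nat_lit 0) (nat_lit 919575481) (nat_lit 456) (nat_lit 5476396059) (nat_lit 76) (nat_lit 15527144482) (nat_lit 192) (nat_lit 5) (nat_lit 198) (nat_lit 5) (nat_lit 193) (nat_lit 5) (nat_lit 480) (nat_lit 427) (nat_lit 293)) (XT.lf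 (nat_lit 0) (nat_lit 8312747214) (nat_lit 532) (nat_lit 7697655939) (nat_lit 76) (nat_lit 6309400586) (nat_lit 186) (nat_lit 5) (nat_lit 193) (nat_lit 5) (nat_lit 187) (nat_lit 5) (nat_lit 481) (nat_lit 427) (nat_lit 292)))) (XT.nd (nat_lit 78) (nat_lit 836) (nat_lit 0) (XT.lf (nat_lit 0) (nat_lit 12774200617) (nat_lit 380) (nat_lit 3302383248) (nat_lit 456) (nat_lit 6648831326) (nat_lit 181) (nat_lit 5) (nat_lit 186) (nat_lit 5) (nat_lit 187) (nat_lit 5) (nat_lit 482) (nat_lit 427) (nat_lit 291)) (XT.nd (nat_lit 78) (nat_lit 380) (nat_lit 0) (XT.lf (nat_lit 0) (nat_lit 1091817418) (nat_lit 456) (nat_lit 12265841858) (nat_lit 76) (nat_lit 9781937888) (nat_lit 175) (nat_lit 5) (nat_lit 181) (nat_lit 5) (nat_lit 176) (nat_lit 5) (nat_lit 483) (nat_lit 427) (nat_lit 290)) (XT.lf (nat_lit 0) (nat_lit 8923870391) (nat_lit 380) (nat_lit 185117356) (nat_lit 456) (nat_lit 14453645660) (nat_lit 170) (nat_lit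 5) (nat_lit 175) (nat_lit 5) (nat_lit 176) (nat_lit 5) (nat_lit 484) (nat_lit 427) (nat_lit 289))))) (XT.nd (nat_lit 234) (nat_lit 1064) (nat_lit 0) (XT.nd (nat_lit 78) (nat_lit 836) (nat_lit 0) (XT.lf (nat_lit 0) (nat_lit 6902674284) (nat_lit 380) (nat_lit 10665808377) (nat_lit 456) (nat_lit 6425842335) (nat_lit 165) (nat_lit 5) (nat_lit 170) (nat_lit 5) (nat_lit 171) (nat_lit 5) (nat_lit 485) (nat_lit 427) (nat_lit 288)) (XT.nd (nat_lit 78) (nat_lit 380) (nat_lit 0) (XT.lf (nat_lit 0) (nat_lit 1957154760) (nat_lit 456) (nat_lit 19572257012) (nat_lit 76) (nat_lit 2906546127) (nat_lit 159) (nat_lit 5) (nat_lit 165) (nat_lit 5) (nat_lit 160) (nat_lit 5) (nat_lit 486) (nat_lit 427) (nat_lit 287)) (XT.lf (nat_lit 0) (nat_lit 2723183526) (nat_lit 380) (nat_lit 7974066966) (nat_lit 456) (nat_lit 14188882001) (nat_lit 154) (nat_lit 5) (nat_lit 159) (nat_lit 5) (nat_lit 160) (nat_lit 5) (nat_lit 487) (nat_lit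 427) (nat_lit 286)))) (XT.nd (nat_lit 156) (nat_lit 684) (nat_lit 0) (XT.nd (nat_lit 78) (nat_lit 76) (nat_lit 0) (XT.lf (nat_lit 0) (nat_lit 555277409) (nat_lit 304) (nat_lit 19307285219) (nat_lit 380) (nat_lit 5483989825) (nat_lit 150) (nat_lit 5) (nat_lit 154) (nat_lit 5) (nat_lit 155) (nat_lit 5) (nat_lit 488) (nat_lit 427) (nat_lit 285)) (XT.lf (nat_lit 0) (nat_lit 3628072182) (nat_lit 380) (nat_lit 1656612446) (nat_lit 76) (nat_lit 20531814795) (nat_lit 149) (nat_lit 5) (nat_lit 154) (nat_lit 5) (nat_lit 150) (nat_lit 5) (nat_lit 489) (nat_lit 427) (nat_lit 284))) (XT.nd (nat_lit 78) (nat_lit 304) (nat_lit 0) (XT.lf (nat_lit 0) (nat_lit 13133095637) (nat_lit 456) (nat_lit 3948182524) (nat_lit 76) (nat_lit 9214659919) (nat_lit 144) (nat_lit 5) (nat_lit 150) (nat_lit 5) (nat_lit 145) (nat_lit 5) (nat_lit 490) (nat_lit 427) (nat_lit 283)) (XT.lf (nat_lit 0) (nat_lit 20519487873) (nat_lit 304) (nat_lit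 2571398762) (nat_lit 380) (nat_lit 3695521284) (nat_lit 140) (nat_lit 5) (nat_lit 144) (nat_lit 5) (nat_lit 145) (nat_lit 5) (nat_lit 491) (nat_lit 427) (nat_lit 282)))))) (XT.nd (nat_lit 546) (nat_lit 1216) (nat_lit 0) (XT.nd (nat_lit 234) (nat_lit 1292) (nat_lit 0) (XT.nd (nat_lit 78) (nat_lit 608) (nat_lit 0) (XT.lf (nat_lit 0) (nat_lit 6193980037) (nat_lit 456) (nat_lit 8699528107) (nat_lit 76) (nat_lit 12392946011) (nat_lit 134) (nat_lit 5) (nat_lit 140) (nat_lit 5) (nat_lit 135) (nat_lit 5) (nat_lit 492) (nat_lit 427) (nat_lit 281)) (XT.nd (nat_lit 78) (nat_lit 304) (nat_lit 0) (XT.lf (nat_lit 0) (nat_lit 16487152611) (nat_lit 380) (nat_lit 11170728763) (nat_lit 76) (nat_lit 139988311) (nat_lit 130) (nat_lit 5) (nat_lit 135) (nat_lit 5) (nat_lit 131) (nat_lit 5) (nat_lit 493) (nat_lit 427) (nat_lit 280)) (XT.lf (nat_lit 0) (nat_lit 14581288356) (nat_lit 304) (nat_lit 12749702406) (nat_lit 380)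 (nat_lit 988799833) (nat_lit 126) (nat_lit 5) (nat_lit 130) (nat_lit 5) (nat_lit 131) (nat_lit 5) (nat_lit 494) (nat_lit 427) (nat_lit 279)))) (XT.nd (nat_lit 156) (nat_lit 608) (nat_lit 0) (XT.nd (nat_lit 78) (nat_lit 304) (nat_lit 0) (XT.lf (nat_lit 0) (nat_lit 9680290445) (nat_lit 380) (nat_lit 16387027365) (nat_lit 76) (nat_lit 2785519839) (nat_lit 121) (nat_lit 5) (nat_lit 126) (nat_lit 5) (nat_lit 122) (nat_lit 5) (nat_lit 495) (nat_lit 427) (nat_lit 278)) (XT.lf (nat_lit 0) (nat_lit 10267547456) (nat_lit 304) (nat_lit 10622757815) (nat_lit 380) (nat_lit 8506754709) (nat_lit 117) (nat_lit 5) (nat_lit 121) (nat_lit 5) (nat_lit 122) (nat_lit 5) (nat_lit 496) (nat_lit 427) (nat_lit 277))) (XT.nd (nat_lit 78) (nat_lit 304) (nat_lit 0) (XT.lf (nat_lit 0) (nat_lit 2634780784) (nat_lit 304) (nat_lit 21928880263) (nat_lit 76) (nat_lit 5389860670) (nat_lit 113) (nat_lit 5) (nat_lit 117) (nat_lit 5) (nat_lit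 114) (nat_lit 5) (nat_lit 497) (nat_lit 427) (nat_lit 276)) (XT.lf (nat_lit 0) (nat_lit 5657975094) (nat_lit 304) (nat_lit 8564801465) (nat_lit 380) (nat_lit 16298220677) (nat_lit 109) (nat_lit 5) (nat_lit 113) (nat_lit 5) (nat_lit 114) (nat_lit 5) (nat_lit 498) (nat_lit 427) (nat_lit 275))))) (XT.nd (nat_lit 234) (nat_lit 608) (nat_lit 0) (XT.nd (nat_lit 78) (nat_lit 380) (nat_lit 0) (XT.lf (nat_lit 0) (nat_lit 3241729784) (nat_lit 228) (nat_lit 23127719655) (nat_lit 304) (nat_lit 4731827105) (nat_lit 106) (nat_lit 5) (nat_lit 109) (nat_lit 5) (nat_lit 110) (nat_lit 5) (nat_lit 499) (nat_lit 427) (nat_lit 274)) (XT.nd (nat_lit 78) (nat_lit 0) (nat_lit 0) (XT.lf (nat_lit 0) (nat_lit 720447366) (nat_lit 304) (nat_lit 6587628651) (nat_lit 380) (nat_lit 24385541817) (nat_lit 101) (nat_lit 5) (nat_lit 105) (nat_lit 5) (nat_lit 106) (nat_lit 5) (nat_lit 500) (nat_lit 427) (nat_lit 273)) (XT.lf (nat_lit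 0) (nat_lit 19892436859) (nat_lit 380) (nat_lit 1879707992) (nat_lit 76) (nat_lit 10526008259) (nat_lit 101) (nat_lit 5) (nat_lit 106) (nat_lit 5) (nat_lit 102) (nat_lit 5) (nat_lit 501) (nat_lit 427) (nat_lit 272)))) (XT.nd (nat_lit 56706) (nat_lit 0) (nat_lit 34124) (XT.nd (nat_lit 78) (nat_lit 304) (nat_lit 0) (XT.lf (nat_lit 0) (nat_lit 153865851) (nat_lit 304) (nat_lit 4520214360) (nat_lit 76) (nat_lit 28242363311) (nat_lit 97) (nat_lit 5) (nat_lit 101) (nat_lit 5) (nat_lit 98) (nat_lit 5) (nat_lit 502) (nat_lit 427) (nat_lit 271)) (XT.lf (nat_lit 0) (nat_lit 13181665963) (nat_lit 380) (nat_lit 7336402426) (nat_lit 76) (nat_lit 13028374938) (nat_lit 93) (nat_lit 5) (nat_lit 98) (nat_lit 5) (nat_lit 94) (nat_lit 5) (nat_lit 503) (nat_lit 427) (nat_lit 270))) (XT.nd (nat_lit 78) (nat_lit 0) (nat_lit 0) (XT.lf (nat_lit 0) (nat_lit 1265074958) (nat_lit 0) (nat_lit 1265074958) (nat_lit 1596) (nat_lit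 2369908060) (nat_lit 542) (nat_lit 5) (nat_lit 542) (nat_lit 3) (nat_lit 563) (nat_lit 3) (nat_lit 428) (nat_lit 428) (nat_lit 344)) (XT.lf (nat_lit 76) (nat_lit 3551581) (nat_lit 0) (nat_lit 6262702124) (nat_lit 1672) (nat_lit 3658189906) (nat_lit 543) (nat_lit 5) (nat_lit 542) (nat_lit 5) (nat_lit 564) (nat_lit 5) (nat_lit 429) (nat_lit 428) (nat_lit 343))))))) (XT.nd (nat_lit 1092) (nat_lit 11324) (nat_lit 0) (XT.nd (nat_lit 546) (nat_lit 1368) (nat_lit 0) (XT.nd (nat_lit 234) (nat_lit 1596) (nat_lit 0) (XT.nd (nat_lit 78) (nat_lit 0) (nat_lit 0) (XT.lf (nat_lit 0) (nat_lit 7531440978) (nat_lit 1596) (nat_lit 2497443350) (nat_lit 1672) (nat_lit 23158525) (nat_lit 543) (nat_lit 5) (nat_lit 564) (nat_lit 5) (nat_lit 565) (nat_lit 5) (nat_lit 430) (nat_lit 428) (nat_lit 342)) (XT.nd (nat_lit 78) (nat_lit 0) (nat_lit 76) (XT.lf (nat_lit 76) (nat_lit 5151196768) (nat_lit 0) (nat_lit 3716928713) (nat_lit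 1672) (nat_lit 1314676530) (nat_lit 544) (nat_lit 5) (nat_lit 543) (nat_lit 5) (nat_lit 565) (nat_lit 5) (nat_lit 431) (nat_lit 428) (nat_lit 341)) (XT.lf (nat_lit 76) (nat_lit 2740339454) (nat_lit 0) (nat_lit 7516877100) (nat_lit 1672) (nat_lit 60023959) (nat_lit 545) (nat_lit 5) (nat_lit 544) (nat_lit 5) (nat_lit 566) (nat_lit 5) (nat_lit 432) (nat_lit 428) (nat_lit 340)))) (XT.nd (nat_lit 156) (nat_lit 0) (nat_lit 152) (XT.nd (nat_lit 78) (nat_lit 0) (nat_lit 76) (XT.lf (nat_lit 76) (nat_lit 306326807) (nat_lit 0) (nat_lit 931113665) (nat_lit 1748) (nat_lit 9217687567) (nat_lit 523) (nat_lit 5) (nat_lit 522) (nat_lit 5) (nat_lit 545) (nat_lit 5) (nat_lit 433) (nat_lit 428) (nat_lit 339)) (XT.lf (nat_lit 0) (nat_lit 2623971591) (nat_lit 1672) (nat_lit 2129481890) (nat_lit 1748) (nat_lit 5842674097) (nat_lit 523) (nat_lit 5) (nat_lit 545) (nat_lit 5) (nat_lit 546) (nat_lit 5) (nat_lit 434) (nat_lit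 428) (nat_lit 338))) (XT.nd (nat_lit 78) (nat_lit 0) (nat_lit 0) (XT.lf (nat_lit 0) (nat_lit 4074631097) (nat_lit 1672) (nat_lit 4573364242) (nat_lit 1748) (nat_lit 2092913527) (nat_lit 524) (nat_lit 5) (nat_lit 546) (nat_lit 5) (nat_lit 547) (nat_lit 5) (nat_lit 435) (nat_lit 428) (nat_lit 337)) (XT.lf (nat_lit 76) (nat_lit 3847348409) (nat_lit 0) (nat_lit 1756187773) (nat_lit 1748) (nat_lit 5285805235) (nat_lit 525) (nat_lit 5) (nat_lit 524) (nat_lit 5) (nat_lit 547) (nat_lit 5) (nat_lit 436) (nat_lit 428) (nat_lit 336))))) (XT.nd (nat_lit 234) (nat_lit 1596) (nat_lit 0) (XT.nd (nat_lit 78) (nat_lit 0) (nat_lit 76) (XT.lf (nat_lit 76) (nat_lit 1501969779) (nat_lit 0) (nat_lit 5716393228) (nat_lit 1748) (nat_lit 3823065122) (nat_lit 526) (nat_lit 5) (nat_lit 525) (nat_lit 5) (nat_lit 548) (nat_lit 5) (nat_lit 437) (nat_lit 428) (nat_lit 335)) (XT.nd (nat_lit 78) (nat_lit 0) (nat_lit 0) (XT.lf (nat_lit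 0) (nat_lit 8915776331) (nat_lit 1672) (nat_lit 844414231) (nat_lit 1748) (nat_lit 1437206253) (nat_lit 526) (nat_lit 5) (nat_lit 548) (nat_lit 5) (nat_lit 549) (nat_lit 5) (nat_lit 438) (nat_lit 428) (nat_lit 334)) (XT.lf (nat_lit 76) (nat_lit 8156065303) (nat_lit 0) (nat_lit 2565607254) (nat_lit 1748) (nat_lit 635222939) (nat_lit 527) (nat_lit 5) (nat_lit 526) (nat_lit 5) (nat_lit 549) (nat_lit 5) (nat_lit 439) (nat_lit 428) (nat_lit 333)))) (XT.nd (nat_lit 156) (nat_lit 0) (nat_lit 76) (XT.nd (nat_lit 78) (nat_lit 0) (nat_lit 76) (XT.lf (nat_lit 0) (nat_lit 1089976854) (nat_lit 1748) (nat_lit 5588522254) (nat_lit 1824) (nat_lit 4841677955) (nat_lit 504) (nat_lit 5) (nat_lit 527) (nat_lit 5) (nat_lit 528) (nat_lit 5) (nat_lit 440) (nat_lit 428) (nat_lit 332)) (XT.lf (nat_lit 0) (nat_lit 2894428358) (nat_lit 1748) (nat_lit 7996476722) (nat_lit 1824) (nat_lit 796647483) (nat_lit 505) (nat_lit 5) (nat_lit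 528) (nat_lit 5) (nat_lit 529) (nat_lit 5) (nat_lit 441) (nat_lit 428) (nat_lit 331))) (XT.nd (nat_lit 78) (nat_lit 0) (nat_lit 76) (XT.lf (nat_lit 76) (nat_lit 1415222671) (nat_lit 0) (nat_lit 3398434035) (nat_lit 1824) (nat_lit 7045081679) (nat_lit 506) (nat_lit 5) (nat_lit 505) (nat_lit 5) (nat_lit 529) (nat_lit 5) (nat_lit 442) (nat_lit 428) (nat_lit 330)) (XT.lf (nat_lit 0) (nat_lit 6842514517) (nat_lit 1748) (nat_lit 868688548) (nat_lit 1824) (nat_lit 4322817530) (nat_lit 506) (nat_lit 5) (nat_lit 529) (nat_lit 5) (nat_lit 530) (nat_lit 5) (nat_lit 443) (nat_lit 428) (nat_lit 329)))))) (XT.nd (nat_lit 546) (nat_lit 5016) (nat_lit 0) (XT.nd (nat_lit 234) (nat_lit 2888) (nat_lit 0) (XT.nd (nat_lit 78) (nat_lit 3648) (nat_lit 0) (XT.lf (nat_lit 0) (nat_lit 8984704538) (nat_lit 1748) (nat_lit 3148815503) (nat_lit 76) (nat_lit 79993716) (nat_lit 507) (nat_lit 5) (nat_lit 530) (nat_lit 5) (nat_lit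 508) (nat_lit 5) (nat_lit 444) (nat_lit 428) (nat_lit 328)) (XT.nd (nat_lit 78) (nat_lit 1900) (nat_lit 0) (XT.lf (nat_lit 0) (nat_lit 6924378353) (nat_lit 1748) (nat_lit 4340329828) (nat_lit 1824) (nat_lit 1132214333) (nat_lit 484) (nat_lit 5) (nat_lit 507) (nat_lit 5) (nat_lit 508) (nat_lit 5) (nat_lit 445) (nat_lit 428) (nat_lit 327)) (XT.lf (nat_lit 0) (nat_lit 1062324101) (nat_lit 1900) (nat_lit 7820626313) (nat_lit 76) (nat_lit 3701781027) (nat_lit 459) (nat_lit 5) (nat_lit 484) (nat_lit 5) (nat_lit 460) (nat_lit 5) (nat_lit 446) (nat_lit 428) (nat_lit 326)))) (XT.nd (nat_lit 156) (nat_lit 912) (nat_lit 0) (XT.nd (nat_lit 78) (nat_lit 912) (nat_lit 0) (XT.lf (nat_lit 0) (nat_lit 2577597064) (nat_lit 1064) (nat_lit 785184853) (nat_lit 1140) (nat_lit 9414135355) (nat_lit 445) (nat_lit 5) (nat_lit 459) (nat_lit 5) (nat_lit 460) (nat_lit 5) (nat_lit 447) (nat_lit 428) (nat_lit 325)) (XT.lf (nat_lit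 0) (nat_lit 351354231) (nat_lit 912) (nat_lit 5458536702) (nat_lit 988) (nat_lit 7163426574) (nat_lit 433) (nat_lit 5) (nat_lit 445) (nat_lit 5) (nat_lit 446) (nat_lit 5) (nat_lit 448) (nat_lit 428) (nat_lit 324))) (XT.nd (nat_lit 78) (nat_lit 912) (nat_lit 0) (XT.lf (nat_lit 0) (nat_lit 8397480905) (nat_lit 988) (nat_lit 1865421144) (nat_lit 76) (nat_lit 2911367879) (nat_lit 433) (nat_lit 5) (nat_lit 446) (nat_lit 5) (nat_lit 434) (nat_lit 5) (nat_lit 449) (nat_lit 428) (nat_lit 323)) (XT.lf (nat_lit 0) (nat_lit 9274685622) (nat_lit 912) (nat_lit 1859099602) (nat_lit 988) (nat_lit 2246045455) (nat_lit 421) (nat_lit 5) (nat_lit 433) (nat_lit 5) (nat_lit 434) (nat_lit 5) (nat_lit 450) (nat_lit 428) (nat_lit 322))))) (XT.nd (nat_lit 234) (nat_lit 2432) (nat_lit 0) (XT.nd (nat_lit 78) (nat_lit 1672) (nat_lit 0) (XT.lf (nat_lit 0) (nat_lit 435035499) (nat_lit 912) (nat_lit 6383671761) (nat_lit 76) (nat_lit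 6771222685) (nat_lit 409) (nat_lit 5) (nat_lit 421) (nat_lit 5) (nat_lit 410) (nat_lit 5) (nat_lit 451) (nat_lit 428) (nat_lit 321)) (XT.nd (nat_lit 78) (nat_lit 836) (nat_lit 0) (XT.lf (nat_lit 0) (nat_lit 3227660919) (nat_lit 912) (nat_lit 8694785189) (nat_lit 76) (nat_lit 1882357992) (nat_lit 398) (nat_lit 5) (nat_lit 410) (nat_lit 5) (nat_lit 399) (nat_lit 5) (nat_lit 452) (nat_lit 428) (nat_lit 320)) (XT.lf (nat_lit 0) (nat_lit 2979425814) (nat_lit 836) (nat_lit 3209065361) (nat_lit 912) (nat_lit 7835946118) (nat_lit 387) (nat_lit 5) (nat_lit 398) (nat_lit 5) (nat_lit 399) (nat_lit 5) (nat_lit 453) (nat_lit 428) (nat_lit 319)))) (XT.nd (nat_lit 156) (nat_lit 1596) (nat_lit 0) (XT.nd (nat_lit 78) (nat_lit 0) (nat_lit 0) (XT.lf (nat_lit 0) (nat_lit 821873719) (nat_lit 836) (nat_lit 8494831889) (nat_lit 912) (nat_lit 4932383984) (nat_lit 376) (nat_lit 5) (nat_lit 387) (nat_lit 5) (nat_lit 388) (nat_lit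 5) (nat_lit 454) (nat_lit 428) (nat_lit 318)) (XT.lf (nat_lit 0) (nat_lit 12615432656) (nat_lit 912) (nat_lit 1332388611) (nat_lit 76) (nat_lit 531128128) (nat_lit 376) (nat_lit 5) (nat_lit 388) (nat_lit 5) (nat_lit 377) (nat_lit 5) (nat_lit 455) (nat_lit 428) (nat_lit 317))) (XT.nd (nat_lit 78) (nat_lit 760) (nat_lit 0) (XT.lf (nat_lit 0) (nat_lit 1388250897) (nat_lit 836) (nat_lit 3531264380) (nat_lit 76) (nat_lit 9793865436) (nat_lit 365) (nat_lit 5) (nat_lit 376) (nat_lit 5) (nat_lit 366) (nat_lit 5) (nat_lit 456) (nat_lit 428) (nat_lit 316)) (XT.lf (nat_lit 0) (nat_lit 4788337603) (nat_lit 836) (nat_lit 5762313641) (nat_lit 76) (nat_lit 4402426854) (nat_lit 355) (nat_lit 5) (nat_lit 366) (nat_lit 5) (nat_lit 356) (nat_lit 5) (nat_lit 457) (nat_lit 428) (nat_lit 315))))))))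
noncomputable def xc79 : XT := (XT.nd (nat_lit 2106) (nat_lit 6232) (nat_lit 0) (XT.nd (nat_lit 1014) (nat_lit 6384) (nat_lit 0) (XT.nd (nat_lit 468) (nat_lit 3800) (nat_lit 0) (XT.nd (nat_lit 234) (nat_lit 1292) (nat_lit 0) (XT.nd (nat_lit 78) (nat_lit 1520) (nat_lit 0) (XT.lf (nat_lit 0) (nat_lit 7180660183) (nat_lit 684) (nat_lit 1191874697) (nat_lit 760) (nat_lit 6825790494) (nat_lit 346) (nat_lit 5) (nat_lit 355) (nat_lit 5) (nat_lit 356) (nat_lit 5) (nat_lit 458) (nat_lit 428) (nat_lit 314)) (XT.nd (nat_lit 78) (nat_lit 760) (nat_lit 0) (XT.lf (nat_lit 0) (nat_lit 5129029547) (nat_lit 760) (nat_lit 7041642424) (nat_lit 836) (nat_lit 3278130917) (nat_lit 336) (nat_lit 5) (nat_lit 346) (nat_lit 5) (nat_lit 347) (nat_lit 5) (nat_lit 459) (nat_lit 428) (nat_lit 313)) (XT.lf (nat_lit 0) (nat_lit 450156248) (nat_lit 760) (nat_lit 12642578421) (nat_lit 76) (nat_lit 2612429709) (nat_lit 326) (nat_lit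 5) (nat_lit 336) (nat_lit 5) (nat_lit 327) (nat_lit 5) (nat_lit 460) (nat_lit 428) (nat_lit 312)))) (XT.nd (nat_lit 78) (nat_lit 608) (nat_lit 0) (XT.lf (nat_lit 0) (nat_lit 939021144) (nat_lit 684) (nat_lit 3410283620) (nat_lit 760) (nat_lit 11617408601) (nat_lit 317) (nat_lit 5) (nat_lit 326) (nat_lit 5) (nat_lit 327) (nat_lit 5) (nat_lit 461) (nat_lit 428) (nat_lit 311)) (XT.nd (nat_lit 78) (nat_lit 608) (nat_lit 0) (XT.lf (nat_lit 0) (nat_lit 8474406757) (nat_lit 760) (nat_lit 1200115784) (nat_lit 76) (nat_lit 6559407684) (nat_lit 317) (nat_lit 5) (nat_lit 327) (nat_lit 5) (nat_lit 318) (nat_lit 5) (nat_lit 462) (nat_lit 428) (nat_lit 310)) (XT.lf (nat_lit 0) (nat_lit 12814599905) (nat_lit 684) (nat_lit 3340480035) (nat_lit 76) (nat_lit 352257844) (nat_lit 309) (nat_lit 5) (nat_lit 318) (nat_lit 5) (nat_lit 310) (nat_lit 5) (nat_lit 463) (nat_lit 428) (nat_lit 309))))) (XT.nd (nat_lit 234) (nat_lit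 1824) (nat_lit 0) (XT.nd (nat_lit 78) (nat_lit 1216) (nat_lit 0) (XT.lf (nat_lit 0) (nat_lit 617429703) (nat_lit 760) (nat_lit 5538120205) (nat_lit 76) (nat_lit 10630776471) (nat_lit 299) (nat_lit 5) (nat_lit 309) (nat_lit 5) (nat_lit 300) (nat_lit 5) (nat_lit 464) (nat_lit 428) (nat_lit 308)) (XT.nd (nat_lit 78) (nat_lit 608) (nat_lit 0) (XT.lf (nat_lit 0) (nat_lit 5099302379) (nat_lit 684) (nat_lit 7777869341) (nat_lit 76) (nat_lit 4194174219) (nat_lit 291) (nat_lit 5) (nat_lit 300) (nat_lit 5) (nat_lit 292) (nat_lit 5) (nat_lit 465) (nat_lit 428) (nat_lit 307)) (XT.lf (nat_lit 0) (nat_lit 7313363603) (nat_lit 608) (nat_lit 2510443628) (nat_lit 684) (nat_lit 7538946191) (nat_lit 283) (nat_lit 5) (nat_lit 291) (nat_lit 5) (nat_lit 292) (nat_lit 5) (nat_lit 466) (nat_lit 428) (nat_lit 306)))) (XT.nd (nat_lit 156) (nat_lit 532) (nat_lit 0) (XT.nd (nat_lit 78) (nat_lit 684) (nat_lit 0) (XT.lf (nat_lit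 0) (nat_lit 5295261036) (nat_lit 608) (nat_lit 9517355847) (nat_lit 684) (nat_lit 2847835683) (nat_lit 275) (nat_lit 5) (nat_lit 283) (nat_lit 5) (nat_lit 284) (nat_lit 5) (nat_lit 467) (nat_lit 428) (nat_lit 305)) (XT.lf (nat_lit 0) (nat_lit 2054761386) (nat_lit 684) (nat_lit 14710813535) (nat_lit 76) (nat_lit 1199315451) (nat_lit 266) (nat_lit 5) (nat_lit 275) (nat_lit 5) (nat_lit 267) (nat_lit 5) (nat_lit 468) (nat_lit 428) (nat_lit 304))) (XT.nd (nat_lit 78) (nat_lit 0) (nat_lit 0) (XT.lf (nat_lit 0) (nat_lit 1143573775) (nat_lit 532) (nat_lit 6060512323) (nat_lit 608) (nat_lit 11071232684) (nat_lit 259) (nat_lit 5) (nat_lit 266) (nat_lit 5) (nat_lit 267) (nat_lit 5) (nat_lit 469) (nat_lit 428) (nat_lit 303)) (XT.lf (nat_lit 0) (nat_lit 12623505017) (nat_lit 608) (nat_lit 973521998) (nat_lit 76) (nat_lit 4995721487) (nat_lit 259) (nat_lit 5) (nat_lit 267) (nat_lit 5) (nat_lit 260) (nat_lit 5) (nat_lit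 470) (nat_lit 428) (nat_lit 302)))))) (XT.nd (nat_lit 546) (nat_lit 2736) (nat_lit 0) (XT.nd (nat_lit 234) (nat_lit 1976) (nat_lit 0) (XT.nd (nat_lit 78) (nat_lit 1140) (nat_lit 0) (XT.lf (nat_lit 0) (nat_lit 15814472190) (nat_lit 532) (nat_lit 2517764548) (nat_lit 608) (nat_lit 584930495) (nat_lit 252) (nat_lit 5) (nat_lit 259) (nat_lit 5) (nat_lit 260) (nat_lit 5) (nat_lit 471) (nat_lit 428) (nat_lit 301)) (XT.nd (nat_lit 78) (nat_lit 532) (nat_lit 0) (XT.lf (nat_lit 0) (nat_lit 5035696781) (nat_lit 608) (nat_lit 5309759256) (nat_lit 76) (nat_lit 8902422026) (nat_lit 244) (nat_lit 5) (nat_lit 252) (nat_lit 5) (nat_lit 245) (nat_lit 5) (nat_lit 472) (nat_lit 428) (nat_lit 300)) (XT.lf (nat_lit 0) (nat_lit 10924819628) (nat_lit 608) (nat_lit 7533673505) (nat_lit 76) (nat_lit 1127783953) (nat_lit 237) (nat_lit 5) (nat_lit 245) (nat_lit 5) (nat_lit 238) (nat_lit 5) (nat_lit 473) (nat_lit 428) (nat_lit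 299)))) (XT.nd (nat_lit 156) (nat_lit 912) (nat_lit 0) (XT.nd (nat_lit 78) (nat_lit 608) (nat_lit 0) (XT.lf (nat_lit 0) (nat_lit 10116087180) (nat_lit 456) (nat_lit 7029956763) (nat_lit 532) (nat_lit 2785676231) (nat_lit 231) (nat_lit 5) (nat_lit 237) (nat_lit 5) (nat_lit 238) (nat_lit 5) (nat_lit 474) (nat_lit 428) (nat_lit 298)) (XT.lf (nat_lit 0) (nat_lit 3344151221) (nat_lit 608) (nat_lit 12140685783) (nat_lit 76) (nat_lit 4799853783) (nat_lit 223) (nat_lit 5) (nat_lit 231) (nat_lit 5) (nat_lit 224) (nat_lit 5) (nat_lit 475) (nat_lit 428) (nat_lit 297))) (XT.nd (nat_lit 78) (nat_lit 456) (nat_lit 0) (XT.lf (nat_lit 0) (nat_lit 6122742262) (nat_lit 456) (nat_lit 3636054282) (nat_lit 532) (nat_lit 10886310917) (nat_lit 217) (nat_lit 5) (nat_lit 223) (nat_lit 5) (nat_lit 224) (nat_lit 5) (nat_lit 476) (nat_lit 428) (nat_lit 296)) (XT.lf (nat_lit 0) (nat_lit 4061398198) (nat_lit 456) (nat_lit 12454396246)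 (nat_lit 532) (nat_lit 4497544511) (nat_lit 211) (nat_lit 5) (nat_lit 217) (nat_lit 5) (nat_lit 218) (nat_lit 5) (nat_lit 477) (nat_lit 428) (nat_lit 295))))) (XT.nd (nat_lit 234) (nat_lit 1748) (nat_lit 0) (XT.nd (nat_lit 78) (nat_lit 456) (nat_lit 0) (XT.lf (nat_lit 0) (nat_lit 1977140063) (nat_lit 456) (nat_lit 199940604) (nat_lit 532) (nat_lit 19212836548) (nat_lit 204) (nat_lit 5) (nat_lit 210) (nat_lit 5) (nat_lit 211) (nat_lit 5) (nat_lit 478) (nat_lit 428) (nat_lit 294)) (XT.nd (nat_lit 78) (nat_lit 456) (nat_lit 0) (XT.lf (nat_lit 0) (nat_lit 9173026738) (nat_lit 532) (nat_lit 201865869) (nat_lit 76) (nat_lit 12398662459) (nat_lit 204) (nat_lit 5) (nat_lit 211) (nat_lit 5) (nat_lit 205) (nat_lit 5) (nat_lit 479) (nat_lit 428) (nat_lit 293)) (XT.lf (nat_lit 0) (nat_lit 16516482231) (nat_lit 532) (nat_lit 2364370556) (nat_lit 76) (nat_lit 3285097166) (nat_lit 198) (nat_lit 5) (nat_lit 205) (nat_lit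 5) (nat_lit 199) (nat_lit 5) (nat_lit 480) (nat_lit 428) (nat_lit 292)))) (XT.nd (nat_lit 156) (nat_lit 836) (nat_lit 0) (XT.nd (nat_lit 78) (nat_lit 456) (nat_lit 0) (XT.lf (nat_lit 0) (nat_lit 1658514601) (nat_lit 456) (nat_lit 4586941445) (nat_lit 76) (nat_lit 16321101136) (nat_lit 192) (nat_lit 5) (nat_lit 198) (nat_lit 5) (nat_lit 193) (nat_lit 5) (nat_lit 481) (nat_lit 428) (nat_lit 291)) (XT.lf (nat_lit 0) (nat_lit 9261696002) (nat_lit 532) (nat_lit 6880165967) (nat_lit 76) (nat_lit 6833520008) (nat_lit 186) (nat_lit 5) (nat_lit 193) (nat_lit 5) (nat_lit 187) (nat_lit 5) (nat_lit 482) (nat_lit 428) (nat_lit 290))) (XT.nd (nat_lit 78) (nat_lit 456) (nat_lit 0) (XT.lf (nat_lit 0) (nat_lit 14188836922) (nat_lit 380) (nat_lit 3055931711) (nat_lit 456) (nat_lit 6148667437) (nat_lit 181) (nat_lit 5) (nat_lit 186) (nat_lit 5) (nat_lit 187) (nat_lit 5) (nat_lit 483) (nat_lit 428) (nat_lit 289)) (XT.lf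 (nat_lit 0) (nat_lit 1803812689) (nat_lit 456) (nat_lit 11598779132) (nat_lit 76) (nat_lit 10417585760) (nat_lit 175) (nat_lit 5) (nat_lit 181) (nat_lit 5) (nat_lit 176) (nat_lit 5) (nat_lit 484) (nat_lit 428) (nat_lit 288))))))) (XT.nd (nat_lit 1092) (nat_lit 1520) (nat_lit 0) (XT.nd (nat_lit 546) (nat_lit 2356) (nat_lit 0) (XT.nd (nat_lit 234) (nat_lit 1140) (nat_lit 0) (XT.nd (nat_lit 78) (nat_lit 836) (nat_lit 0) (XT.lf (nat_lit 0) (nat_lit 10049374153) (nat_lit 456) (nat_lit 14047385409) (nat_lit 76) (nat_lit 159388490) (nat_lit 170) (nat_lit 5) (nat_lit 176) (nat_lit 5) (nat_lit 171) (nat_lit 5) (nat_lit 485) (nat_lit 428) (nat_lit 287)) (XT.nd (nat_lit 78) (nat_lit 456) (nat_lit 0) (XT.lf (nat_lit 0) (nat_lit 8122357839) (nat_lit 380) (nat_lit 10628641886) (nat_lit 456) (nat_lit 5950024388) (nat_lit 165) (nat_lit 5) (nat_lit 170) (nat_lit 5) (nat_lit 171) (nat_lit 5) (nat_lit 486) (nat_lit 428)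 (nat_lit 286)) (XT.lf (nat_lit 0) (nat_lit 2665322055) (nat_lit 456) (nat_lit 19143962018) (nat_lit 76) (nat_lit 3346743159) (nat_lit 159) (nat_lit 5) (nat_lit 165) (nat_lit 5) (nat_lit 160) (nat_lit 5) (nat_lit 487) (nat_lit 428) (nat_lit 285)))) (XT.nd (nat_lit 156) (nat_lit 456) (nat_lit 0) (XT.nd (nat_lit 78) (nat_lit 304) (nat_lit 0) (XT.lf (nat_lit 0) (nat_lit 3803867061) (nat_lit 380) (nat_lit 7851323594) (nat_lit 456) (nat_lit 13964765601) (nat_lit 154) (nat_lit 5) (nat_lit 159) (nat_lit 5) (nat_lit 160) (nat_lit 5) (nat_lit 488) (nat_lit 428) (nat_lit 284)) (XT.lf (nat_lit 0) (nat_lit 1564957567) (nat_lit 304) (nat_lit 19520679556) (nat_lit 380) (nat_lit 5008748768) (nat_lit 150) (nat_lit 5) (nat_lit 154) (nat_lit 5) (nat_lit 155) (nat_lit 5) (nat_lit 489) (nat_lit 428) (nat_lit 283))) (XT.nd (nat_lit 78) (nat_lit 380) (nat_lit 0) (XT.lf (nat_lit 0) (nat_lit 4349895100) (nat_lit 380) (nat_lit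 734047498) (nat_lit 76) (nat_lit 21494773934) (nat_lit 149) (nat_lit 5) (nat_lit 154) (nat_lit 5) (nat_lit 150) (nat_lit 5) (nat_lit 490) (nat_lit 428) (nat_lit 282)) (XT.lf (nat_lit 0) (nat_lit 14130731499) (nat_lit 456) (nat_lit 3100399911) (nat_lit 76) (nat_lit 9841594225) (nat_lit 144) (nat_lit 5) (nat_lit 150) (nat_lit 5) (nat_lit 145) (nat_lit 5) (nat_lit 491) (nat_lit 428) (nat_lit 281))))) (XT.nd (nat_lit 234) (nat_lit 1292) (nat_lit 0) (XT.nd (nat_lit 78) (nat_lit 760) (nat_lit 0) (XT.lf (nat_lit 0) (nat_lit 22085624696) (nat_lit 304) (nat_lit 2290221313) (nat_lit 380) (nat_lit 3202292282) (nat_lit 140) (nat_lit 5) (nat_lit 144) (nat_lit 5) (nat_lit 145) (nat_lit 5) (nat_lit 492) (nat_lit 428) (nat_lit 280)) (XT.nd (nat_lit 78) (nat_lit 304) (nat_lit 0) (XT.lf (nat_lit 0) (nat_lit 6967053691) (nat_lit 456) (nat_lit 8008181943) (nat_lit 76) (nat_lit 13118050677) (nat_lit 134) (nat_lit 5) (nat_lit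 140) (nat_lit 5) (nat_lit 135) (nat_lit 5) (nat_lit 493) (nat_lit 428) (nat_lit 279)) (XT.lf (nat_lit 0) (nat_lit 17560341378) (nat_lit 380) (nat_lit 10559770088) (nat_lit 76) (nat_lit 500106920) (nat_lit 130) (nat_lit 5) (nat_lit 135) (nat_lit 5) (nat_lit 131) (nat_lit 5) (nat_lit 494) (nat_lit 428) (nat_lit 278)))) (XT.nd (nat_lit 156) (nat_lit 608) (nat_lit 0) (XT.nd (nat_lit 78) (nat_lit 380) (nat_lit 0) (XT.lf (nat_lit 0) (nat_lit 15949458511) (nat_lit 304) (nat_lit 12769227413) (nat_lit 380) (nat_lit 439327638) (nat_lit 126) (nat_lit 5) (nat_lit 130) (nat_lit 5) (nat_lit 131) (nat_lit 5) (nat_lit 495) (nat_lit 428) (nat_lit 277)) (XT.lf (nat_lit 0) (nat_lit 10533938401) (nat_lit 380) (nat_lit 15946638952) (nat_lit 76) (nat_lit 3226565942) (nat_lit 121) (nat_lit 5) (nat_lit 126) (nat_lit 5) (nat_lit 122) (nat_lit 5) (nat_lit 496) (nat_lit 428) (nat_lit 276))) (XT.nd (nat_lit 78) (nat_lit 304)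 (nat_lit 0) (XT.lf (nat_lit 0) (nat_lit 11492452533) (nat_lit 304) (nat_lit 10577349096) (nat_lit 380) (nat_lit 8198100136) (nat_lit 117) (nat_lit 5) (nat_lit 121) (nat_lit 5) (nat_lit 122) (nat_lit 5) (nat_lit 497) (nat_lit 428) (nat_lit 275)) (XT.lf (nat_lit 0) (nat_lit 3262340133) (nat_lit 304) (nat_lit 21668875369) (nat_lit 76) (nat_lit 5909927965) (nat_lit 113) (nat_lit 5) (nat_lit 117) (nat_lit 5) (nat_lit 114) (nat_lit 5) (nat_lit 498) (nat_lit 428) (nat_lit 274)))))) (XT.nd (nat_lit 57096) (nat_lit 0) (nat_lit 32528) (XT.nd (nat_lit 234) (nat_lit 608) (nat_lit 0) (XT.nd (nat_lit 78) (nat_lit 608) (nat_lit 0) (XT.lf (nat_lit 0) (nat_lit 6730694278) (nat_lit 304) (nat_lit 8457168057) (nat_lit 380) (nat_lit 16237983582) (nat_lit 109) (nat_lit 5) (nat_lit 113) (nat_lit 5) (nat_lit 114) (nat_lit 5) (nat_lit 499) (nat_lit 428) (nat_lit 273)) (XT.nd (nat_lit 78) (nat_lit 380) (nat_lit 0) (XT.lf (nat_lit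 0) (nat_lit 4235589480) (nat_lit 228) (nat_lit 23455783803) (nat_lit 304) (nat_lit 4332311947) (nat_lit 106) (nat_lit 5) (nat_lit 109) (nat_lit 5) (nat_lit 110) (nat_lit 5) (nat_lit 500) (nat_lit 428) (nat_lit 272)) (XT.lf (nat_lit 0) (nat_lit 1631120805) (nat_lit 304) (nat_lit 6420774224) (nat_lit 380) (nat_lit 24582027619) (nat_lit 101) (nat_lit 5) (nat_lit 105) (nat_lit 5) (nat_lit 106) (nat_lit 5) (nat_lit 501) (nat_lit 428) (nat_lit 271)))) (XT.nd (nat_lit 156) (nat_lit 304) (nat_lit 0) (XT.nd (nat_lit 78) (nat_lit 304) (nat_lit 0) (XT.lf (nat_lit 0) (nat_lit 21000805303) (nat_lit 380) (nat_lit 1065033919) (nat_lit 76) (nat_lit 11191014743) (nat_lit 101) (nat_lit 5) (nat_lit 106) (nat_lit 5) (nat_lit 102) (nat_lit 5) (nat_lit 502) (nat_lit 428) (nat_lit 270)) (XT.lf (nat_lit 0) (nat_lit 664077659) (nat_lit 304) (nat_lit 3792157114) (nat_lit 76) (nat_lit 29437578876) (nat_lit 97) (nat_lit 5) (nat_lit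 101) (nat_lit 5) (nat_lit 98) (nat_lit 5) (nat_lit 503) (nat_lit 428) (nat_lit 269))) (XT.nd (nat_lit 56628) (nat_lit 0) (nat_lit 34124) (XT.lf (nat_lit 0) (nat_lit 14075795819) (nat_lit 380) (nat_lit 6699197715) (nat_lit 76) (nat_lit 13767858562) (nat_lit 93) (nat_lit 5) (nat_lit 98) (nat_lit 5) (nat_lit 94) (nat_lit 5) (nat_lit 504) (nat_lit 428) (nat_lit 268)) (XT.lf (nat_lit 0) (nat_lit 1850679770) (nat_lit 0) (nat_lit 1850679770) (nat_lit 1596) (nat_lit 1323721680) (nat_lit 542) (nat_lit 5) (nat_lit 542) (nat_lit 3) (nat_lit 563) (nat_lit 3) (nat_lit 429) (nat_lit 429) (nat_lit 342))))) (XT.nd (nat_lit 234) (nat_lit 0) (nat_lit 76) (XT.nd (nat_lit 78) (nat_lit 1596) (nat_lit 0) (XT.lf (nat_lit 76) (nat_lit 1131433143) (nat_lit 0) (nat_lit 7450032189) (nat_lit 1672) (nat_lit 1598026538) (nat_lit 543) (nat_lit 5) (nat_lit 542) (nat_lit 5) (nat_lit 564) (nat_lit 5) (nat_lit 430) (nat_lit 429) (nat_lit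 341)) (XT.nd (nat_lit 78) (nat_lit 1596) (nat_lit 0) (XT.lf (nat_lit 76) (nat_lit 8876324756) (nat_lit 0) (nat_lit 946168557) (nat_lit 1672) (nat_lit 489672170) (nat_lit 543) (nat_lit 5) (nat_lit 542) (nat_lit 5) (nat_lit 564) (nat_lit 5) (nat_lit 431) (nat_lit 429) (nat_lit 340)) (XT.lf (nat_lit 0) (nat_lit 683354811) (nat_lit 1672) (nat_lit 4022660135) (nat_lit 1748) (nat_lit 5741922818) (nat_lit 521) (nat_lit 5) (nat_lit 543) (nat_lit 5) (nat_lit 544) (nat_lit 5) (nat_lit 432) (nat_lit 429) (nat_lit 339)))) (XT.nd (nat_lit 156) (nat_lit 0) (nat_lit 76) (XT.nd (nat_lit 78) (nat_lit 0) (nat_lit 0) (XT.lf (nat_lit 0) (nat_lit 1901797566) (nat_lit 1672) (nat_lit 6626462972) (nat_lit 1748) (nat_lit 2059122873) (nat_lit 522) (nat_lit 5) (nat_lit 544) (nat_lit 5) (nat_lit 545) (nat_lit 5) (nat_lit 433) (nat_lit 429) (nat_lit 338)) (XT.lf (nat_lit 76) (nat_lit 1473759321) (nat_lit 0) (nat_lit 1713966584)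 (nat_lit 1748) (nat_lit 7542670288) (nat_lit 523) (nat_lit 5) (nat_lit 522) (nat_lit 5) (nat_lit 545) (nat_lit 5) (nat_lit 434) (nat_lit 429) (nat_lit 337))) (XT.nd (nat_lit 78) (nat_lit 0) (nat_lit 76) (XT.lf (nat_lit 0) (nat_lit 4555371107) (nat_lit 1672) (nat_lit 1026832525) (nat_lit 1748) (nat_lit 5294635287) (nat_lit 523) (nat_lit 5) (nat_lit 545) (nat_lit 5) (nat_lit 546) (nat_lit 5) (nat_lit 435) (nat_lit 429) (nat_lit 336)) (XT.lf (nat_lit 0) (nat_lit 5998764049) (nat_lit 1672) (nat_lit 3522442342) (nat_lit 1748) (nat_lit 1505776445) (nat_lit 524) (nat_lit 5) (nat_lit 546) (nat_lit 5) (nat_lit 547) (nat_lit 5) (nat_lit 436) (nat_lit 429) (nat_lit 335))))))))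
noncomputable def xc80 : XT := (XT.nd (nat_lit 2106) (nat_lit 12692) (nat_lit 0) (XT.nd (nat_lit 1014) (nat_lit 8816) (nat_lit 0) (XT.nd (nat_lit 468) (nat_lit 5320) (nat_lit 0) (XT.nd (nat_lit 234) (nat_lit 1596) (nat_lit 0) (XT.nd (nat_lit 78) (nat_lit 0) (nat_lit 76) (XT.lf (nat_lit 76) (nat_lit 5131615808) (nat_lit 0) (nat_lit 2397027059) (nat_lit 1748) (nat_lit 3652126728) (nat_lit 525) (nat_lit 5) (nat_lit 524) (nat_lit 5) (nat_lit 547) (nat_lit 5) (nat_lit 437) (nat_lit 429) (nat_lit 334)) (XT.nd (nat_lit 78) (nat_lit 0) (nat_lit 76) (XT.lf (nat_lit 76) (nat_lit 2735349538) (nat_lit 0) (nat_lit 6409398089) (nat_lit 1748) (nat_lit 2193617881) (nat_lit 526) (nat_lit 5) (nat_lit 525) (nat_lit 5) (nat_lit 548) (nat_lit 5) (nat_lit 438) (nat_lit 429) (nat_lit 333)) (XT.lf (nat_lit 76) (nat_lit 324816414) (nat_lit 0) (nat_lit 10517287491) (nat_lit 1748) (nat_lit 657932108) (nat_lit 527) (nat_lit 5)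 (nat_lit 526) (nat_lit 5) (nat_lit 549) (nat_lit 5) (nat_lit 439) (nat_lit 429) (nat_lit 332)))) (XT.nd (nat_lit 78) (nat_lit 0) (nat_lit 76) (XT.lf (nat_lit 0) (nat_lit 981198669) (nat_lit 1748) (nat_lit 2099894144) (nat_lit 1824) (nat_lit 8583956027) (nat_lit 503) (nat_lit 5) (nat_lit 526) (nat_lit 5) (nat_lit 527) (nat_lit 5) (nat_lit 440) (nat_lit 429) (nat_lit 331)) (XT.nd (nat_lit 78) (nat_lit 0) (nat_lit 76) (XT.lf (nat_lit 0) (nat_lit 2707119898) (nat_lit 1748) (nat_lit 4548288670) (nat_lit 1824) (nat_lit 4578587326) (nat_lit 504) (nat_lit 5) (nat_lit 527) (nat_lit 5) (nat_lit 528) (nat_lit 5) (nat_lit 441) (nat_lit 429) (nat_lit 330)) (XT.lf (nat_lit 0) (nat_lit 4524948747) (nat_lit 1748) (nat_lit 7014740836) (nat_lit 1824) (nat_lit 467521042) (nat_lit 505) (nat_lit 5) (nat_lit 528) (nat_lit 5) (nat_lit 529) (nat_lit 5) (nat_lit 442) (nat_lit 429) (nat_lit 329))))) (XT.nd (nat_lit 234) (nat_lit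 5472) (nat_lit 0) (XT.nd (nat_lit 78) (nat_lit 0) (nat_lit 76) (XT.lf (nat_lit 76) (nat_lit 2659490040) (nat_lit 0) (nat_lit 3805105084) (nat_lit 1824) (nat_lit 5719682834) (nat_lit 506) (nat_lit 5) (nat_lit 505) (nat_lit 5) (nat_lit 529) (nat_lit 5) (nat_lit 443) (nat_lit 429) (nat_lit 328)) (XT.nd (nat_lit 78) (nat_lit 0) (nat_lit 0) (XT.lf (nat_lit 76) (nat_lit 307351373) (nat_lit 0) (nat_lit 8203162541) (nat_lit 1824) (nat_lit 3855183497) (nat_lit 507) (nat_lit 5) (nat_lit 506) (nat_lit 5) (nat_lit 530) (nat_lit 5) (nat_lit 444) (nat_lit 429) (nat_lit 327)) (XT.lf (nat_lit 76) (nat_lit 10515824460) (nat_lit 0) (nat_lit 163714558) (nat_lit 1824) (nat_lit 1871787562) (nat_lit 507) (nat_lit 5) (nat_lit 506) (nat_lit 5) (nat_lit 530) (nat_lit 5) (nat_lit 445) (nat_lit 429) (nat_lit 326)))) (XT.nd (nat_lit 156) (nat_lit 1976) (nat_lit 0) (XT.nd (nat_lit 78) (nat_lit 1824) (nat_lit 0) (XT.lf (nat_lit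 0) (nat_lit 248874628) (nat_lit 1824) (nat_lit 4421235455) (nat_lit 76) (nat_lit 8070793780) (nat_lit 483) (nat_lit 5) (nat_lit 507) (nat_lit 5) (nat_lit 484) (nat_lit 5) (nat_lit 446) (nat_lit 429) (nat_lit 325)) (XT.lf (nat_lit 0) (nat_lit 2459741929) (nat_lit 1900) (nat_lit 6838356157) (nat_lit 76) (nat_lit 3636784195) (nat_lit 459) (nat_lit 5) (nat_lit 484) (nat_lit 5) (nat_lit 460) (nat_lit 5) (nat_lit 447) (nat_lit 429) (nat_lit 324))) (XT.nd (nat_lit 78) (nat_lit 912) (nat_lit 0) (XT.lf (nat_lit 0) (nat_lit 3852071344) (nat_lit 1064) (nat_lit 945141558) (nat_lit 1140) (nat_lit 8336263131) (nat_lit 445) (nat_lit 5) (nat_lit 459) (nat_lit 5) (nat_lit 460) (nat_lit 5) (nat_lit 448) (nat_lit 429) (nat_lit 323)) (XT.lf (nat_lit 0) (nat_lit 1566804978) (nat_lit 912) (nat_lit 5719052284) (nat_lit 988) (nat_lit 6050550838) (nat_lit 433) (nat_lit 5) (nat_lit 445) (nat_lit 5) (nat_lit 446) (nat_lit 5)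 (nat_lit 449) (nat_lit 429) (nat_lit 322)))))) (XT.nd (nat_lit 546) (nat_lit 4484) (nat_lit 0) (XT.nd (nat_lit 234) (nat_lit 2508) (nat_lit 0) (XT.nd (nat_lit 78) (nat_lit 1824) (nat_lit 0) (XT.lf (nat_lit 0) (nat_lit 9912552297) (nat_lit 988) (nat_lit 725609721) (nat_lit 76) (nat_lit 2905999728) (nat_lit 433) (nat_lit 5) (nat_lit 446) (nat_lit 5) (nat_lit 434) (nat_lit 5) (nat_lit 450) (nat_lit 429) (nat_lit 321)) (XT.nd (nat_lit 78) (nat_lit 912) (nat_lit 0) (XT.lf (nat_lit 0) (nat_lit 10729300234) (nat_lit 912) (nat_lit 1972492624) (nat_lit 988) (nat_lit 1054681655) (nat_lit 421) (nat_lit 5) (nat_lit 433) (nat_lit 5) (nat_lit 434) (nat_lit 5) (nat_lit 451) (nat_lit 429) (nat_lit 320)) (XT.lf (nat_lit 0) (nat_lit 1661500989) (nat_lit 912) (nat_lit 5376982161) (nat_lit 76) (nat_lit 6934808631) (nat_lit 409) (nat_lit 5) (nat_lit 421) (nat_lit 5) (nat_lit 410) (nat_lit 5) (nat_lit 452) (nat_lit 429)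 (nat_lit 319)))) (XT.nd (nat_lit 156) (nat_lit 836) (nat_lit 0) (XT.nd (nat_lit 78) (nat_lit 836) (nat_lit 0) (XT.lf (nat_lit 0) (nat_lit 4510171075) (nat_lit 912) (nat_lit 7753042825) (nat_lit 76) (nat_lit 1931954916) (nat_lit 398) (nat_lit 5) (nat_lit 410) (nat_lit 5) (nat_lit 399) (nat_lit 5) (nat_lit 453) (nat_lit 429) (nat_lit 318)) (XT.lf (nat_lit 0) (nat_lit 4251883981) (nat_lit 836) (nat_lit 3281089190) (nat_lit 912) (nat_lit 6888956811) (nat_lit 387) (nat_lit 5) (nat_lit 398) (nat_lit 5) (nat_lit 399) (nat_lit 5) (nat_lit 454) (nat_lit 429) (nat_lit 317))) (XT.nd (nat_lit 78) (nat_lit 0) (nat_lit 0) (XT.lf (nat_lit 0) (nat_lit 2033119831) (nat_lit 836) (nat_lit 8696018934) (nat_lit 912) (nat_lit 3924702852) (nat_lit 376) (nat_lit 5) (nat_lit 387) (nat_lit 5) (nat_lit 388) (nat_lit 5) (nat_lit 455) (nat_lit 429) (nat_lit 316)) (XT.lf (nat_lit 0) (nat_lit 14094167841) (nat_lit 912) (nat_lit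 198610580) (nat_lit 76) (nat_lit 598473796) (nat_lit 376) (nat_lit 5) (nat_lit 388) (nat_lit 5) (nat_lit 377) (nat_lit 5) (nat_lit 456) (nat_lit 429) (nat_lit 315))))) (XT.nd (nat_lit 234) (nat_lit 2204) (nat_lit 0) (XT.nd (nat_lit 78) (nat_lit 1444) (nat_lit 0) (XT.lf (nat_lit 0) (nat_lit 2512802676) (nat_lit 836) (nat_lit 2468046772) (nat_lit 76) (nat_lit 10152217285) (nat_lit 365) (nat_lit 5) (nat_lit 376) (nat_lit 5) (nat_lit 366) (nat_lit 5) (nat_lit 457) (nat_lit 429) (nat_lit 314)) (XT.nd (nat_lit 78) (nat_lit 684) (nat_lit 0) (XT.lf (nat_lit 0) (nat_lit 5991412008) (nat_lit 836) (nat_lit 4764356545) (nat_lit 76) (nat_lit 4624657755) (nat_lit 355) (nat_lit 5) (nat_lit 366) (nat_lit 5) (nat_lit 356) (nat_lit 5) (nat_lit 458) (nat_lit 429) (nat_lit 313)) (XT.lf (nat_lit 0) (nat_lit 8547911224) (nat_lit 684) (nat_lit 1111845413) (nat_lit 760) (nat_lit 5973743557) (nat_lit 346) (nat_lit 5) (nat_lit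 355) (nat_lit 5) (nat_lit 356) (nat_lit 5) (nat_lit 459) (nat_lit 429) (nat_lit 312)))) (XT.nd (nat_lit 156) (nat_lit 684) (nat_lit 0) (XT.nd (nat_lit 78) (nat_lit 760) (nat_lit 0) (XT.lf (nat_lit 0) (nat_lit 6435742908) (nat_lit 760) (nat_lit 7114133723) (nat_lit 836) (nat_lit 2342056200) (nat_lit 336) (nat_lit 5) (nat_lit 346) (nat_lit 5) (nat_lit 347) (nat_lit 5) (nat_lit 460) (nat_lit 429) (nat_lit 311)) (XT.lf (nat_lit 0) (nat_lit 1463197196) (nat_lit 760) (nat_lit 11855265608) (nat_lit 76) (nat_lit 2837815854) (nat_lit 326) (nat_lit 5) (nat_lit 336) (nat_lit 5) (nat_lit 327) (nat_lit 5) (nat_lit 461) (nat_lit 429) (nat_lit 310))) (XT.nd (nat_lit 78) (nat_lit 0) (nat_lit 0) (XT.lf (nat_lit 0) (nat_lit 2114855404) (nat_lit 684) (nat_lit 3342803450) (nat_lit 760) (nat_lit 10968449941) (nat_lit 317) (nat_lit 5) (nat_lit 326) (nat_lit 5) (nat_lit 327) (nat_lit 5) (nat_lit 462) (nat_lit 429) (nat_lit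 309)) (XT.lf (nat_lit 0) (nat_lit 9679102385) (nat_lit 760) (nat_lit 103918077) (nat_lit 76) (nat_lit 6918871342) (nat_lit 317) (nat_lit 5) (nat_lit 327) (nat_lit 5) (nat_lit 318) (nat_lit 5) (nat_lit 463) (nat_lit 429) (nat_lit 308))))))) (XT.nd (nat_lit 1014) (nat_lit 5548) (nat_lit 0) (XT.nd (nat_lit 468) (nat_lit 3268) (nat_lit 0) (XT.nd (nat_lit 234) (nat_lit 1900) (nat_lit 0) (XT.nd (nat_lit 78) (nat_lit 1368) (nat_lit 0) (XT.lf (nat_lit 0) (nat_lit 14130243153) (nat_lit 684) (nat_lit 2309409435) (nat_lit 76) (nat_lit 544235535) (nat_lit 309) (nat_lit 5) (nat_lit 318) (nat_lit 5) (nat_lit 310) (nat_lit 5) (nat_lit 464) (nat_lit 429) (nat_lit 307)) (XT.nd (nat_lit 78) (nat_lit 608) (nat_lit 0) (XT.lf (nat_lit 0) (nat_lit 1553340184) (nat_lit 760) (nat_lit 4579097478) (nat_lit 76) (nat_lit 11139087268) (nat_lit 299) (nat_lit 5) (nat_lit 309) (nat_lit 5) (nat_lit 300) (nat_lit 5) (nat_lit 465) (nat_lit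 429) (nat_lit 306)) (XT.lf (nat_lit 0) (nat_lit 6151493158) (nat_lit 684) (nat_lit 6887651605) (nat_lit 76) (nat_lit 4526315097) (nat_lit 291) (nat_lit 5) (nat_lit 300) (nat_lit 5) (nat_lit 292) (nat_lit 5) (nat_lit 466) (nat_lit 429) (nat_lit 305)))) (XT.nd (nat_lit 78) (nat_lit 1292) (nat_lit 0) (XT.lf (nat_lit 0) (nat_lit 8638090001) (nat_lit 608) (nat_lit 2360629028) (nat_lit 684) (nat_lit 6867272050) (nat_lit 283) (nat_lit 5) (nat_lit 291) (nat_lit 5) (nat_lit 292) (nat_lit 5) (nat_lit 467) (nat_lit 429) (nat_lit 304)) (XT.nd (nat_lit 78) (nat_lit 684) (nat_lit 0) (XT.lf (nat_lit 0) (nat_lit 6557432476) (nat_lit 608) (nat_lit 9562706224) (nat_lit 684) (nat_lit 2052824778) (nat_lit 275) (nat_lit 5) (nat_lit 283) (nat_lit 5) (nat_lit 284) (nat_lit 5) (nat_lit 468) (nat_lit 429) (nat_lit 303)) (XT.lf (nat_lit 0) (nat_lit 2968714336) (nat_lit 684) (nat_lit 14039871747) (nat_lit 76) (nat_lit 1478166915)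 (nat_lit 266) (nat_lit 5) (nat_lit 275) (nat_lit 5) (nat_lit 267) (nat_lit 5) (nat_lit 469) (nat_lit 429) (nat_lit 302))))) (XT.nd (nat_lit 234) (nat_lit 2128) (nat_lit 0) (XT.nd (nat_lit 78) (nat_lit 608) (nat_lit 0) (XT.lf (nat_lit 0) (nat_lit 2272101985) (nat_lit 532) (nat_lit 5982696647) (nat_lit 608) (nat_lit 10552051135) (nat_lit 259) (nat_lit 5) (nat_lit 266) (nat_lit 5) (nat_lit 267) (nat_lit 5) (nat_lit 470) (nat_lit 429) (nat_lit 301)) (XT.nd (nat_lit 78) (nat_lit 76) (nat_lit 0) (XT.lf (nat_lit 0) (nat_lit 75214007) (nat_lit 532) (nat_lit 13739402604) (nat_lit 608) (nat_lit 5319630509) (nat_lit 252) (nat_lit 5) (nat_lit 259) (nat_lit 5) (nat_lit 260) (nat_lit 5) (nat_lit 471) (nat_lit 429) (nat_lit 300)) (XT.lf (nat_lit 0) (nat_lit 205872172) (nat_lit 608) (nat_lit 2121709770) (nat_lit 76) (nat_lit 17141135575) (nat_lit 251) (nat_lit 5) (nat_lit 259) (nat_lit 5) (nat_lit 252) (nat_lit 5)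 (nat_lit 472) (nat_lit 429) (nat_lit 299)))) (XT.nd (nat_lit 156) (nat_lit 1064) (nat_lit 0) (XT.nd (nat_lit 78) (nat_lit 532) (nat_lit 0) (XT.lf (nat_lit 0) (nat_lit 5972483405) (nat_lit 608) (nat_lit 4402292549) (nat_lit 76) (nat_lit 9434791139) (nat_lit 244) (nat_lit 5) (nat_lit 252) (nat_lit 5) (nat_lit 245) (nat_lit 5) (nat_lit 473) (nat_lit 429) (nat_lit 298)) (XT.lf (nat_lit 0) (nat_lit 12024025456) (nat_lit 608) (nat_lit 6696622902) (nat_lit 76) (nat_lit 1437755779) (nat_lit 237) (nat_lit 5) (nat_lit 245) (nat_lit 5) (nat_lit 238) (nat_lit 5) (nat_lit 474) (nat_lit 429) (nat_lit 297))) (XT.nd (nat_lit 78) (nat_lit 608) (nat_lit 0) (XT.lf (nat_lit 0) (nat_lit 11465383704) (nat_lit 456) (nat_lit 6950823168) (nat_lit 532) (nat_lit 2098318171) (nat_lit 231) (nat_lit 5) (nat_lit 237) (nat_lit 5) (nat_lit 238) (nat_lit 5) (nat_lit 475) (nat_lit 429) (nat_lit 296)) (XT.lf (nat_lit 0) (nat_lit 4191783325)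 (nat_lit 608) (nat_lit 11453050139) (nat_lit 76) (nat_lit 5233422289) (nat_lit 223) (nat_lit 5) (nat_lit 231) (nat_lit 5) (nat_lit 224) (nat_lit 5) (nat_lit 476) (nat_lit 429) (nat_lit 295)))))) (XT.nd (nat_lit 546) (nat_lit 2736) (nat_lit 0) (XT.nd (nat_lit 234) (nat_lit 1368) (nat_lit 0) (XT.nd (nat_lit 78) (nat_lit 988) (nat_lit 0) (XT.lf (nat_lit 0) (nat_lit 7341215630) (nat_lit 456) (nat_lit 3442604689) (nat_lit 532) (nat_lit 10465966425) (nat_lit 217) (nat_lit 5) (nat_lit 223) (nat_lit 5) (nat_lit 224) (nat_lit 5) (nat_lit 477) (nat_lit 429) (nat_lit 294)) (XT.nd (nat_lit 78) (nat_lit 532) (nat_lit 0) (XT.lf (nat_lit 0) (nat_lit 5213746495) (nat_lit 456) (nat_lit 12517051456) (nat_lit 532) (nat_lit 3898522673) (nat_lit 211) (nat_lit 5) (nat_lit 217) (nat_lit 5) (nat_lit 218) (nat_lit 5) (nat_lit 478) (nat_lit 429) (nat_lit 293)) (XT.lf (nat_lit 0) (nat_lit 2952960278) (nat_lit 532) (nat_lit 18958350105)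 (nat_lit 76) (nat_lit 106066444) (nat_lit 204) (nat_lit 5) (nat_lit 211) (nat_lit 5) (nat_lit 205) (nat_lit 5) (nat_lit 479) (nat_lit 429) (nat_lit 292)))) (XT.nd (nat_lit 156) (nat_lit 912) (nat_lit 0) (XT.nd (nat_lit 78) (nat_lit 0) (nat_lit 0) (XT.lf (nat_lit 0) (nat_lit 807988930) (nat_lit 456) (nat_lit 9336643815) (nat_lit 532) (nat_lit 12268174880) (nat_lit 198) (nat_lit 5) (nat_lit 204) (nat_lit 5) (nat_lit 205) (nat_lit 5) (nat_lit 480) (nat_lit 429) (nat_lit 291)) (XT.lf (nat_lit 0) (nat_lit 17691458783) (nat_lit 532) (nat_lit 1434746370) (nat_lit 76) (nat_lit 3691108620) (nat_lit 198) (nat_lit 5) (nat_lit 205) (nat_lit 5) (nat_lit 199) (nat_lit 5) (nat_lit 481) (nat_lit 429) (nat_lit 290))) (XT.nd (nat_lit 78) (nat_lit 456) (nat_lit 0) (XT.lf (nat_lit 0) (nat_lit 2378787389) (nat_lit 456) (nat_lit 3731292552) (nat_lit 76) (nat_lit 17120039779) (nat_lit 192) (nat_lit 5) (nat_lit 198) (nat_lit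 5) (nat_lit 193) (nat_lit 5) (nat_lit 482) (nat_lit 429) (nat_lit 289)) (XT.lf (nat_lit 0) (nat_lit 10198955283) (nat_lit 532) (nat_lit 6098334874) (nat_lit 76) (nat_lit 7354141975) (nat_lit 186) (nat_lit 5) (nat_lit 193) (nat_lit 5) (nat_lit 187) (nat_lit 5) (nat_lit 483) (nat_lit 429) (nat_lit 288))))) (XT.nd (nat_lit 234) (nat_lit 1520) (nat_lit 0) (XT.nd (nat_lit 78) (nat_lit 836) (nat_lit 0) (XT.lf (nat_lit 0) (nat_lit 15586705146) (nat_lit 380) (nat_lit 2821921064) (nat_lit 456) (nat_lit 5673660189) (nat_lit 181) (nat_lit 5) (nat_lit 186) (nat_lit 5) (nat_lit 187) (nat_lit 5) (nat_lit 484) (nat_lit 429) (nat_lit 287)) (XT.nd (nat_lit 78) (nat_lit 380) (nat_lit 0) (XT.lf (nat_lit 0) (nat_lit 2498176621) (nat_lit 456) (nat_lit 10971119938) (nat_lit 76) (nat_lit 11052659977) (nat_lit 175) (nat_lit 5) (nat_lit 181) (nat_lit 5) (nat_lit 176) (nat_lit 5) (nat_lit 485) (nat_lit 429) (nat_lit 286)) (XT.lf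 (nat_lit 0) (nat_lit 10980843816) (nat_lit 456) (nat_lit 13498590611) (nat_lit 76) (nat_lit 491777539) (nat_lit 170) (nat_lit 5) (nat_lit 176) (nat_lit 5) (nat_lit 171) (nat_lit 5) (nat_lit 486) (nat_lit 429) (nat_lit 285)))) (XT.nd (nat_lit 156) (nat_lit 684) (nat_lit 0) (XT.nd (nat_lit 78) (nat_lit 456) (nat_lit 0) (XT.lf (nat_lit 0) (nat_lit 9320504327) (nat_lit 380) (nat_lit 10610861740) (nat_lit 456) (nat_lit 5498311889) (nat_lit 165) (nat_lit 5) (nat_lit 170) (nat_lit 5) (nat_lit 171) (nat_lit 5) (nat_lit 487) (nat_lit 429) (nat_lit 284)) (XT.lf (nat_lit 0) (nat_lit 3357453129) (nat_lit 456) (nat_lit 18761109887) (nat_lit 76) (nat_lit 3779882421) (nat_lit 159) (nat_lit 5) (nat_lit 165) (nat_lit 5) (nat_lit 160) (nat_lit 5) (nat_lit 488) (nat_lit 429) (nat_lit 283))) (XT.nd (nat_lit 78) (nat_lit 304) (nat_lit 0) (XT.lf (nat_lit 0) (nat_lit 4859625102) (nat_lit 380) (nat_lit 7745676215) (nat_lit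 456) (nat_lit 13771225903) (nat_lit 154) (nat_lit 5) (nat_lit 159) (nat_lit 5) (nat_lit 160) (nat_lit 5) (nat_lit 489) (nat_lit 429) (nat_lit 282)) (XT.lf (nat_lit 0) (nat_lit 2547924615) (nat_lit 304) (nat_lit 19761475529) (nat_lit 380) (nat_lit 4555975364) (nat_lit 150) (nat_lit 5) (nat_lit 154) (nat_lit 5) (nat_lit 155) (nat_lit 5) (nat_lit 490) (nat_lit 429) (nat_lit 281))))))))
noncomputable def xc81 : XT := (XT.nd (nat_lit 58734) (nat_lit 0) (nat_lit 12844) (XT.nd (nat_lit 1014) (nat_lit 304) (nat_lit 0) (XT.nd (nat_lit 468) (nat_lit 1824) (nat_lit 0) (XT.nd (nat_lit 234) (nat_lit 1140) (nat_lit 0) (XT.nd (nat_lit 78) (nat_lit 304) (nat_lit 0) (XT.lf (nat_lit 0) (nat_lit 162513904) (nat_lit 380) (nat_lit 4896726345) (nat_lit 456) (nat_lit 22305243601) (nat_lit 144) (nat_lit 5) (nat_lit 149) (nat_lit 5) (nat_lit 150) (nat_lit 5) (nat_lit 491) (nat_lit 429) (nat_lit 280)) (XT.nd (nat_lit 78) (nat_lit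 304) (nat_lit 0) (XT.lf (nat_lit 0) (nat_lit 15123644860) (nat_lit 456) (nat_lit 2282649265) (nat_lit 76) (nat_lit 10467216742) (nat_lit 144) (nat_lit 5) (nat_lit 150) (nat_lit 5) (nat_lit 145) (nat_lit 5) (nat_lit 492) (nat_lit 429) (nat_lit 279)) (XT.lf (nat_lit 0) (nat_lit 23644180038) (nat_lit 304) (nat_lit 2021177540) (nat_lit 380) (nat_lit 2728943914) (nat_lit 140) (nat_lit 5) (nat_lit 144) (nat_lit 5) (nat_lit 145) (nat_lit 5) (nat_lit 493) (nat_lit 429) (nat_lit 278)))) (XT.nd (nat_lit 78) (nat_lit 684) (nat_lit 0) (XT.lf (nat_lit 0) (nat_lit 7729608759) (nat_lit 456) (nat_lit 7350763148) (nat_lit 76) (nat_lit 13844626684) (nat_lit 134) (nat_lit 5) (nat_lit 140) (nat_lit 5) (nat_lit 135) (nat_lit 5) (nat_lit 494) (nat_lit 429) (nat_lit 277)) (XT.nd (nat_lit 78) (nat_lit 380) (nat_lit 0) (XT.lf (nat_lit 0) (nat_lit 18632513283) (nat_lit 380) (nat_lit 9984791547) (nat_lit 76) (nat_lit 850597882)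 (nat_lit 130) (nat_lit 5) (nat_lit 135) (nat_lit 5) (nat_lit 131) (nat_lit 5) (nat_lit 495) (nat_lit 429) (nat_lit 276)) (XT.lf (nat_lit 0) (nat_lit 92159189) (nat_lit 380) (nat_lit 12717396282) (nat_lit 76) (nat_lit 17212468349) (nat_lit 125) (nat_lit 5) (nat_lit 130) (nat_lit 5) (nat_lit 126) (nat_lit 5) (nat_lit 496) (nat_lit 429) (nat_lit 275))))) (XT.nd (nat_lit 234) (nat_lit 912) (nat_lit 0) (XT.nd (nat_lit 78) (nat_lit 608) (nat_lit 0) (XT.lf (nat_lit 0) (nat_lit 11380863558) (nat_lit 380) (nat_lit 15546539456) (nat_lit 76) (nat_lit 3660322585) (nat_lit 121) (nat_lit 5) (nat_lit 126) (nat_lit 5) (nat_lit 122) (nat_lit 5) (nat_lit 497) (nat_lit 429) (nat_lit 274)) (XT.nd (nat_lit 78) (nat_lit 304) (nat_lit 0) (XT.lf (nat_lit 0) (nat_lit 12701472176) (nat_lit 304) (nat_lit 10551478454) (nat_lit 380) (nat_lit 7912553637) (nat_lit 117) (nat_lit 5) (nat_lit 121) (nat_lit 5) (nat_lit 122) (nat_lit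 5) (nat_lit 498) (nat_lit 429) (nat_lit 273)) (XT.lf (nat_lit 0) (nat_lit 3877239206) (nat_lit 304) (nat_lit 21453759896) (nat_lit 76) (nat_lit 6425025289) (nat_lit 113) (nat_lit 5) (nat_lit 117) (nat_lit 5) (nat_lit 114) (nat_lit 5) (nat_lit 499) (nat_lit 429) (nat_lit 272)))) (XT.nd (nat_lit 156) (nat_lit 380) (nat_lit 0) (XT.nd (nat_lit 78) (nat_lit 228) (nat_lit 0) (XT.lf (nat_lit 0) (nat_lit 7783760295) (nat_lit 304) (nat_lit 8367233884) (nat_lit 380) (nat_lit 16207464765) (nat_lit 109) (nat_lit 5) (nat_lit 113) (nat_lit 5) (nat_lit 114) (nat_lit 5) (nat_lit 500) (nat_lit 429) (nat_lit 271)) (XT.lf (nat_lit 0) (nat_lit 5207796011) (nat_lit 228) (nat_lit 23814686422) (nat_lit 304) (nat_lit 3951893926) (nat_lit 106) (nat_lit 5) (nat_lit 109) (nat_lit 5) (nat_lit 110) (nat_lit 5) (nat_lit 501) (nat_lit 429) (nat_lit 270))) (XT.nd (nat_lit 78) (nat_lit 0) (nat_lit 0) (XT.lf (nat_lit 0) (nat_lit 2518078764)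 (nat_lit 304) (nat_lit 6269836996) (nat_lit 380) (nat_lit 24815123803) (nat_lit 101) (nat_lit 5) (nat_lit 105) (nat_lit 5) (nat_lit 106) (nat_lit 5) (nat_lit 502) (nat_lit 429) (nat_lit 269)) (XT.lf (nat_lit 0) (nat_lit 22113057135) (nat_lit 380) (nat_lit 275922337) (nat_lit 76) (nat_lit 11855924406) (nat_lit 101) (nat_lit 5) (nat_lit 106) (nat_lit 5) (nat_lit 102) (nat_lit 5) (nat_lit 503) (nat_lit 429) (nat_lit 268)))))) (XT.nd (nat_lit 57174) (nat_lit 0) (nat_lit 30856) (XT.nd (nat_lit 56862) (nat_lit 0) (nat_lit 32148) (XT.nd (nat_lit 56706) (nat_lit 0) (nat_lit 32148) (XT.lf (nat_lit 0) (nat_lit 1160572552) (nat_lit 304) (nat_lit 3091835980) (nat_lit 76) (nat_lit 30648677460) (nat_lit 97) (nat_lit 5) (nat_lit 101) (nat_lit 5) (nat_lit 98) (nat_lit 5) (nat_lit 504) (nat_lit 429) (nat_lit 267)) (XT.nd (nat_lit 78) (nat_lit 1672) (nat_lit 0) (XT.lf (nat_lit 0) (nat_lit 2422415229) (nat_lit 0) (nat_lit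 2422415229) (nat_lit 1596) (nat_lit 310286359) (nat_lit 542) (nat_lit 5) (nat_lit 542) (nat_lit 3) (nat_lit 563) (nat_lit 3) (nat_lit 430) (nat_lit 430) (nat_lit 340)) (XT.lf (nat_lit 0) (nat_lit 394142131) (nat_lit 1672) (nat_lit 8218822662) (nat_lit 1748) (nat_lit 1831625221) (nat_lit 520) (nat_lit 5) (nat_lit 542) (nat_lit 5) (nat_lit 543) (nat_lit 5) (nat_lit 431) (nat_lit 430) (nat_lit 339)))) (XT.nd (nat_lit 156) (nat_lit 0) (nat_lit 152) (XT.nd (nat_lit 78) (nat_lit 0) (nat_lit 76) (XT.lf (nat_lit 0) (nat_lit 1461982863) (nat_lit 1672) (nat_lit 417397492) (nat_lit 1748) (nat_lit 8702894860) (nat_lit 520) (nat_lit 5) (nat_lit 542) (nat_lit 5) (nat_lit 543) (nat_lit 5) (nat_lit 432) (nat_lit 430) (nat_lit 338)) (XT.lf (nat_lit 0) (nat_lit 2607627868) (nat_lit 1672) (nat_lit 3058316429) (nat_lit 1748) (nat_lit 5057233708) (nat_lit 521) (nat_lit 5) (nat_lit 543) (nat_lit 5) (nat_lit 544) (nat_lit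 5) (nat_lit 433) (nat_lit 430) (nat_lit 337))) (XT.nd (nat_lit 78) (nat_lit 0) (nat_lit 0) (XT.lf (nat_lit 0) (nat_lit 3808989491) (nat_lit 1672) (nat_lit 5715497494) (nat_lit 1748) (nat_lit 1343396290) (nat_lit 522) (nat_lit 5) (nat_lit 544) (nat_lit 5) (nat_lit 545) (nat_lit 5) (nat_lit 434) (nat_lit 430) (nat_lit 336)) (XT.lf (nat_lit 76) (nat_lit 2609726940) (nat_lit 0) (nat_lit 2476969622) (nat_lit 1748) (nat_lit 5929429323) (nat_lit 523) (nat_lit 5) (nat_lit 522) (nat_lit 5) (nat_lit 545) (nat_lit 5) (nat_lit 435) (nat_lit 430) (nat_lit 335))))) (XT.nd (nat_lit 234) (nat_lit 1520) (nat_lit 0) (XT.nd (nat_lit 78) (nat_lit 0) (nat_lit 76) (XT.lf (nat_lit 76) (nat_lit 42489767) (nat_lit 0) (nat_lit 6396147282) (nat_lit 1748) (nat_lit 4729462889) (nat_lit 524) (nat_lit 5) (nat_lit 523) (nat_lit 5) (nat_lit 546) (nat_lit 5) (nat_lit 436) (nat_lit 430) (nat_lit 334)) (XT.nd (nat_lit 78) (nat_lit 0)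 (nat_lit 0) (XT.lf (nat_lit 0) (nat_lit 7877184902) (nat_lit 1672) (nat_lit 2508195895) (nat_lit 1748) (nat_lit 938333575) (nat_lit 524) (nat_lit 5) (nat_lit 546) (nat_lit 5) (nat_lit 547) (nat_lit 5) (nat_lit 437) (nat_lit 430) (nat_lit 333)) (XT.lf (nat_lit 76) (nat_lit 6387314631) (nat_lit 0) (nat_lit 3023329098) (nat_lit 1748) (nat_lit 2072320500) (nat_lit 525) (nat_lit 5) (nat_lit 524) (nat_lit 5) (nat_lit 547) (nat_lit 5) (nat_lit 438) (nat_lit 430) (nat_lit 332)))) (XT.nd (nat_lit 156) (nat_lit 0) (nat_lit 0) (XT.nd (nat_lit 78) (nat_lit 1672) (nat_lit 0) (XT.lf (nat_lit 76) (nat_lit 3937516223) (nat_lit 0) (nat_lit 7093256113) (nat_lit 1748) (nat_lit 615407947) (nat_lit 526) (nat_lit 5) (nat_lit 525) (nat_lit 5) (nat_lit 548) (nat_lit 5) (nat_lit 439) (nat_lit 430) (nat_lit 331)) (XT.lf (nat_lit 0) (nat_lit 910729637) (nat_lit 1748) (nat_lit 10348102577) (nat_lit 1824) (nat_lit 554605032) (nat_lit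 503) (nat_lit 5) (nat_lit 526) (nat_lit 5) (nat_lit 527) (nat_lit 5) (nat_lit 440) (nat_lit 430) (nat_lit 330))) (XT.nd (nat_lit 78) (nat_lit 0) (nat_lit 76) (XT.lf (nat_lit 0) (nat_lit 2544141372) (nat_lit 1748) (nat_lit 1038644632) (nat_lit 1824) (nat_lit 8401449404) (nat_lit 503) (nat_lit 5) (nat_lit 526) (nat_lit 5) (nat_lit 527) (nat_lit 5) (nat_lit 441) (nat_lit 430) (nat_lit 329)) (XT.lf (nat_lit 0) (nat_lit 4281823682) (nat_lit 1748) (nat_lit 3546185862) (nat_lit 1824) (nat_lit 4331044419) (nat_lit 504) (nat_lit 5) (nat_lit 527) (nat_lit 5) (nat_lit 528) (nat_lit 5) (nat_lit 442) (nat_lit 430) (nat_lit 328))))))) (XT.nd (nat_lit 1092) (nat_lit 8360) (nat_lit 0) (XT.nd (nat_lit 546) (nat_lit 5244) (nat_lit 0) (XT.nd (nat_lit 234) (nat_lit 4560) (nat_lit 0) (XT.nd (nat_lit 78) (nat_lit 0) (nat_lit 0) (XT.lf (nat_lit 0) (nat_lit 6115770768) (nat_lit 1748) (nat_lit 6073679444) (nat_lit 1824) (nat_lit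 148785937) (nat_lit 505) (nat_lit 5) (nat_lit 528) (nat_lit 5) (nat_lit 529) (nat_lit 5) (nat_lit 443) (nat_lit 430) (nat_lit 327)) (XT.nd (nat_lit 78) (nat_lit 0) (nat_lit 76) (XT.lf (nat_lit 76) (nat_lit 3872096580) (nat_lit 0) (nat_lit 4206484204) (nat_lit 1824) (nat_lit 4442737835) (nat_lit 506) (nat_lit 5) (nat_lit 505) (nat_lit 5) (nat_lit 529) (nat_lit 5) (nat_lit 444) (nat_lit 430) (nat_lit 326)) (XT.lf (nat_lit 76) (nat_lit 1460875170) (nat_lit 0) (nat_lit 8689260382) (nat_lit 1824) (nat_lit 2558762460) (nat_lit 507) (nat_lit 5) (nat_lit 506) (nat_lit 5) (nat_lit 530) (nat_lit 5) (nat_lit 445) (nat_lit 430) (nat_lit 325)))) (XT.nd (nat_lit 156) (nat_lit 2888) (nat_lit 0) (XT.nd (nat_lit 78) (nat_lit 1748) (nat_lit 0) (XT.lf (nat_lit 76) (nat_lit 11942273229) (nat_lit 0) (nat_lit 401638582) (nat_lit 1824) (nat_lit 556993091) (nat_lit 507) (nat_lit 5) (nat_lit 506) (nat_lit 5) (nat_lit 530)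 (nat_lit 5) (nat_lit 446) (nat_lit 430) (nat_lit 324)) (XT.lf (nat_lit 0) (nat_lit 1575749597) (nat_lit 1824) (nat_lit 3415298277) (nat_lit 76) (nat_lit 8105617123) (nat_lit 483) (nat_lit 5) (nat_lit 507) (nat_lit 5) (nat_lit 484) (nat_lit 5) (nat_lit 447) (nat_lit 430) (nat_lit 323))) (XT.nd (nat_lit 78) (nat_lit 1064) (nat_lit 0) (XT.lf (nat_lit 0) (nat_lit 3820694244) (nat_lit 1900) (nat_lit 5896472300) (nat_lit 76) (nat_lit 3579943464) (nat_lit 459) (nat_lit 5) (nat_lit 484) (nat_lit 5) (nat_lit 460) (nat_lit 5) (nat_lit 448) (nat_lit 430) (nat_lit 322)) (XT.lf (nat_lit 0) (nat_lit 5096058753) (nat_lit 1064) (nat_lit 1102066979) (nat_lit 1140) (nat_lit 7304141312) (nat_lit 445) (nat_lit 5) (nat_lit 459) (nat_lit 5) (nat_lit 460) (nat_lit 5) (nat_lit 449) (nat_lit 430) (nat_lit 321))))) (XT.nd (nat_lit 234) (nat_lit 3344) (nat_lit 0) (XT.nd (nat_lit 78) (nat_lit 988) (nat_lit 0) (XT.lf (nat_lit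 0) (nat_lit 2749552477) (nat_lit 912) (nat_lit 5981828943) (nat_lit 988) (nat_lit 4980508750) (nat_lit 433) (nat_lit 5) (nat_lit 445) (nat_lit 5) (nat_lit 446) (nat_lit 5) (nat_lit 450) (nat_lit 430) (nat_lit 320)) (XT.nd (nat_lit 78) (nat_lit 76) (nat_lit 0) (XT.lf (nat_lit 0) (nat_lit 384800448) (nat_lit 912) (nat_lit 11018263959) (nat_lit 988) (nat_lit 2523490351) (nat_lit 421) (nat_lit 5) (nat_lit 433) (nat_lit 5) (nat_lit 434) (nat_lit 5) (nat_lit 451) (nat_lit 430) (nat_lit 319)) (XT.lf (nat_lit 0) (nat_lit 98852241) (nat_lit 988) (nat_lit 1986464218) (nat_lit 76) (nat_lit 12060509011) (nat_lit 420) (nat_lit 5) (nat_lit 433) (nat_lit 5) (nat_lit 421) (nat_lit 5) (nat_lit 452) (nat_lit 430) (nat_lit 318)))) (XT.nd (nat_lit 156) (nat_lit 1672) (nat_lit 0) (XT.nd (nat_lit 78) (nat_lit 836) (nat_lit 0) (XT.lf (nat_lit 0) (nat_lit 2855105492) (nat_lit 912) (nat_lit 4408873440) (nat_lit 76) (nat_lit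 7105572530) (nat_lit 409) (nat_lit 5) (nat_lit 421) (nat_lit 5) (nat_lit 410) (nat_lit 5) (nat_lit 453) (nat_lit 430) (nat_lit 317)) (XT.lf (nat_lit 0) (nat_lit 5763093635) (nat_lit 912) (nat_lit 6852081541) (nat_lit 76) (nat_lit 1983434332) (nat_lit 398) (nat_lit 5) (nat_lit 410) (nat_lit 5) (nat_lit 399) (nat_lit 5) (nat_lit 454) (nat_lit 430) (nat_lit 316))) (XT.nd (nat_lit 78) (nat_lit 836) (nat_lit 0) (XT.lf (nat_lit 0) (nat_lit 5494602525) (nat_lit 836) (nat_lit 3356665676) (nat_lit 912) (nat_lit 5981413347) (nat_lit 387) (nat_lit 5) (nat_lit 398) (nat_lit 5) (nat_lit 399) (nat_lit 5) (nat_lit 455) (nat_lit 430) (nat_lit 315)) (XT.lf (nat_lit 0) (nat_lit 3212588211) (nat_lit 836) (nat_lit 8906321774) (nat_lit 912) (nat_lit 2953130476) (nat_lit 376) (nat_lit 5) (nat_lit 387) (nat_lit 5) (nat_lit 388) (nat_lit 5) (nat_lit 456) (nat_lit 430) (nat_lit 314)))))) (XT.nd (nat_lit 546) (nat_lit 3876)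 (nat_lit 0) (XT.nd (nat_lit 234) (nat_lit 2888) (nat_lit 0) (XT.nd (nat_lit 78) (nat_lit 760) (nat_lit 0) (XT.lf (nat_lit 0) (nat_lit 239779204) (nat_lit 836) (nat_lit 14404862377) (nat_lit 76) (nat_lit 672398992) (nat_lit 365) (nat_lit 5) (nat_lit 376) (nat_lit 5) (nat_lit 366) (nat_lit 5) (nat_lit 457) (nat_lit 430) (nat_lit 313)) (XT.nd (nat_lit 78) (nat_lit 760) (nat_lit 0) (XT.lf (nat_lit 0) (nat_lit 3608927875) (nat_lit 836) (nat_lit 1440046946) (nat_lit 76) (nat_lit 10517615065) (nat_lit 365) (nat_lit 5) (nat_lit 376) (nat_lit 5) (nat_lit 366) (nat_lit 5) (nat_lit 458) (nat_lit 430) (nat_lit 312)) (XT.lf (nat_lit 0) (nat_lit 7169763357) (nat_lit 836) (nat_lit 3803670968) (nat_lit 76) (nat_lit 4848380140) (nat_lit 355) (nat_lit 5) (nat_lit 366) (nat_lit 5) (nat_lit 356) (nat_lit 5) (nat_lit 459) (nat_lit 430) (nat_lit 311)))) (XT.nd (nat_lit 156) (nat_lit 1444) (nat_lit 0) (XT.nd (nat_lit 78)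 (nat_lit 760) (nat_lit 0) (XT.lf (nat_lit 0) (nat_lit 9890059972) (nat_lit 684) (nat_lit 1036061814) (nat_lit 760) (nat_lit 5156801041) (nat_lit 346) (nat_lit 5) (nat_lit 355) (nat_lit 5) (nat_lit 356) (nat_lit 5) (nat_lit 460) (nat_lit 430) (nat_lit 310)) (XT.lf (nat_lit 0) (nat_lit 7715479795) (nat_lit 760) (nat_lit 7196765037) (nat_lit 836) (nat_lit 1437279104) (nat_lit 336) (nat_lit 5) (nat_lit 346) (nat_lit 5) (nat_lit 347) (nat_lit 5) (nat_lit 461) (nat_lit 430) (nat_lit 309))) (XT.nd (nat_lit 78) (nat_lit 684) (nat_lit 0) (XT.lf (nat_lit 0) (nat_lit 2449251902) (nat_lit 760) (nat_lit 11111300459) (nat_lit 76) (nat_lit 3061524421) (nat_lit 326) (nat_lit 5) (nat_lit 336) (nat_lit 5) (nat_lit 327) (nat_lit 5) (nat_lit 462) (nat_lit 430) (nat_lit 308)) (XT.lf (nat_lit 0) (nat_lit 3260084105) (nat_lit 684) (nat_lit 3283045439) (nat_lit 760) (nat_lit 10357282006) (nat_lit 317) (nat_lit 5) (nat_lit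 326) (nat_lit 5) (nat_lit 327) (nat_lit 5) (nat_lit 463) (nat_lit 430) (nat_lit 307))))) (XT.nd (nat_lit 234) (nat_lit 2508) (nat_lit 0) (XT.nd (nat_lit 78) (nat_lit 760) (nat_lit 0) (XT.lf (nat_lit 0) (nat_lit 972932770) (nat_lit 608) (nat_lit 9898762547) (nat_lit 684) (nat_lit 6313164484) (nat_lit 309) (nat_lit 5) (nat_lit 317) (nat_lit 5) (nat_lit 318) (nat_lit 5) (nat_lit 464) (nat_lit 430) (nat_lit 306)) (XT.nd (nat_lit 78) (nat_lit 760) (nat_lit 0) (XT.lf (nat_lit 0) (nat_lit 15431900707) (nat_lit 684) (nat_lit 1312347104) (nat_lit 76) (nat_lit 731558883) (nat_lit 309) (nat_lit 5) (nat_lit 318) (nat_lit 5) (nat_lit 310) (nat_lit 5) (nat_lit 465) (nat_lit 430) (nat_lit 305)) (XT.lf (nat_lit 0) (nat_lit 2464666178) (nat_lit 760) (nat_lit 3655893220) (nat_lit 76) (nat_lit 11651775771) (nat_lit 299) (nat_lit 5) (nat_lit 309) (nat_lit 5) (nat_lit 300) (nat_lit 5) (nat_lit 466) (nat_lit 430) (nat_lit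 304)))) (XT.nd (nat_lit 156) (nat_lit 1292) (nat_lit 0) (XT.nd (nat_lit 78) (nat_lit 608) (nat_lit 0) (XT.lf (nat_lit 0) (nat_lit 7183631231) (nat_lit 684) (nat_lit 6035223922) (nat_lit 76) (nat_lit 4856576839) (nat_lit 291) (nat_lit 5) (nat_lit 300) (nat_lit 5) (nat_lit 292) (nat_lit 5) (nat_lit 467) (nat_lit 430) (nat_lit 303)) (XT.lf (nat_lit 0) (nat_lit 9939107987) (nat_lit 608) (nat_lit 2219243253) (nat_lit 684) (nat_lit 6226987518) (nat_lit 283) (nat_lit 5) (nat_lit 291) (nat_lit 5) (nat_lit 292) (nat_lit 5) (nat_lit 468) (nat_lit 430) (nat_lit 302))) (XT.nd (nat_lit 78) (nat_lit 684) (nat_lit 0) (XT.lf (nat_lit 0) (nat_lit 7794134344) (nat_lit 608) (nat_lit 9623203870) (nat_lit 684) (nat_lit 1284504748) (nat_lit 275) (nat_lit 5) (nat_lit 283) (nat_lit 5) (nat_lit 284) (nat_lit 5) (nat_lit 469) (nat_lit 430) (nat_lit 301)) (XT.lf (nat_lit 0) (nat_lit 3861159788) (nat_lit 684) (nat_lit 13412650334)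 (nat_lit 76) (nat_lit 1751442077) (nat_lit 266) (nat_lit 5) (nat_lit 275) (nat_lit 5) (nat_lit 267) (nat_lit 5) (nat_lit 470) (nat_lit 430) (nat_lit 300))))))))
noncomputable def xc82 : XT := (XT.nd (nat_lit 2106) (nat_lit 2052) (nat_lit 0) (XT.nd (nat_lit 1014) (nat_lit 5092) (nat_lit 0) (XT.nd (nat_lit 468) (nat_lit 2964) (nat_lit 0) (XT.nd (nat_lit 234) (nat_lit 1520) (nat_lit 0) (XT.nd (nat_lit 78) (nat_lit 608) (nat_lit 0) (XT.lf (nat_lit 0) (nat_lit 3371673280) (nat_lit 532) (nat_lit 5917450385) (nat_lit 608) (nat_lit 10066163307) (nat_lit 259) (nat_lit 5) (nat_lit 266) (nat_lit 5) (nat_lit 267) (nat_lit 5) (nat_lit 471) (nat_lit 430) (nat_lit 299)) (XT.nd (nat_lit 78) (nat_lit 76) (nat_lit 0) (XT.lf (nat_lit 0) (nat_lit 1106094604) (nat_lit 532) (nat_lit 13894949700) (nat_lit 608) (nat_lit 4691756788) (nat_lit 252) (nat_lit 5) (nat_lit 259) (nat_lit 5) (nat_lit 260) (nat_lit 5) (nat_lit 472)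 (nat_lit 430) (nat_lit 298)) (XT.lf (nat_lit 0) (nat_lit 966548262) (nat_lit 608) (nat_lit 1176637870) (nat_lit 76) (nat_lit 17894470875) (nat_lit 251) (nat_lit 5) (nat_lit 259) (nat_lit 5) (nat_lit 252) (nat_lit 5) (nat_lit 473) (nat_lit 430) (nat_lit 297)))) (XT.nd (nat_lit 78) (nat_lit 988) (nat_lit 0) (XT.lf (nat_lit 0) (nat_lit 6892270331) (nat_lit 608) (nat_lit 3528838200) (nat_lit 76) (nat_lit 9967902223) (nat_lit 244) (nat_lit 5) (nat_lit 252) (nat_lit 5) (nat_lit 245) (nat_lit 5) (nat_lit 474) (nat_lit 430) (nat_lit 296)) (XT.nd (nat_lit 78) (nat_lit 456) (nat_lit 0) (XT.lf (nat_lit 0) (nat_lit 13111922427) (nat_lit 608) (nat_lit 5895484821) (nat_lit 76) (nat_lit 1741175291) (nat_lit 237) (nat_lit 5) (nat_lit 245) (nat_lit 5) (nat_lit 238) (nat_lit 5) (nat_lit 475) (nat_lit 430) (nat_lit 295)) (XT.lf (nat_lit 0) (nat_lit 12795125128) (nat_lit 456) (nat_lit 6885964606) (nat_lit 532) (nat_lit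 1434593810) (nat_lit 231) (nat_lit 5) (nat_lit 237) (nat_lit 5) (nat_lit 238) (nat_lit 5) (nat_lit 476) (nat_lit 430) (nat_lit 294))))) (XT.nd (nat_lit 234) (nat_lit 1444) (nat_lit 0) (XT.nd (nat_lit 78) (nat_lit 912) (nat_lit 0) (XT.lf (nat_lit 0) (nat_lit 5021945880) (nat_lit 608) (nat_lit 10805166276) (nat_lit 76) (nat_lit 5663375181) (nat_lit 223) (nat_lit 5) (nat_lit 231) (nat_lit 5) (nat_lit 224) (nat_lit 5) (nat_lit 477) (nat_lit 430) (nat_lit 293)) (XT.nd (nat_lit 78) (nat_lit 456) (nat_lit 0) (XT.lf (nat_lit 0) (nat_lit 8536841956) (nat_lit 456) (nat_lit 3260718137) (nat_lit 532) (nat_lit 10075888656) (nat_lit 217) (nat_lit 5) (nat_lit 223) (nat_lit 5) (nat_lit 224) (nat_lit 5) (nat_lit 478) (nat_lit 430) (nat_lit 292)) (XT.lf (nat_lit 0) (nat_lit 6341509960) (nat_lit 456) (nat_lit 12599437656) (nat_lit 532) (nat_lit 3323661808) (nat_lit 211) (nat_lit 5) (nat_lit 217) (nat_lit 5) (nat_lit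 218) (nat_lit 5) (nat_lit 479) (nat_lit 430) (nat_lit 291)))) (XT.nd (nat_lit 156) (nat_lit 456) (nat_lit 0) (XT.nd (nat_lit 78) (nat_lit 456) (nat_lit 0) (XT.lf (nat_lit 0) (nat_lit 3712587150) (nat_lit 532) (nat_lit 18551067738) (nat_lit 76) (nat_lit 400797445) (nat_lit 204) (nat_lit 5) (nat_lit 211) (nat_lit 5) (nat_lit 205) (nat_lit 5) (nat_lit 480) (nat_lit 430) (nat_lit 290)) (XT.lf (nat_lit 0) (nat_lit 1792426494) (nat_lit 456) (nat_lit 9314272740) (nat_lit 532) (nat_lit 11965313761) (nat_lit 198) (nat_lit 5) (nat_lit 204) (nat_lit 5) (nat_lit 205) (nat_lit 5) (nat_lit 481) (nat_lit 430) (nat_lit 289))) (XT.nd (nat_lit 78) (nat_lit 456) (nat_lit 0) (XT.lf (nat_lit 0) (nat_lit 18862679581) (nat_lit 532) (nat_lit 534669425) (nat_lit 76) (nat_lit 4091651039) (nat_lit 198) (nat_lit 5) (nat_lit 205) (nat_lit 5) (nat_lit 199) (nat_lit 5) (nat_lit 482) (nat_lit 430) (nat_lit 288)) (XT.lf (nat_lit 0)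 (nat_lit 3082177922) (nat_lit 456) (nat_lit 2906991215) (nat_lit 76) (nat_lit 17925191173) (nat_lit 192) (nat_lit 5) (nat_lit 198) (nat_lit 5) (nat_lit 193) (nat_lit 5) (nat_lit 483) (nat_lit 430) (nat_lit 287)))))) (XT.nd (nat_lit 546) (nat_lit 2204) (nat_lit 0) (XT.nd (nat_lit 234) (nat_lit 1596) (nat_lit 0) (XT.nd (nat_lit 78) (nat_lit 836) (nat_lit 0) (XT.lf (nat_lit 0) (nat_lit 11126479602) (nat_lit 532) (nat_lit 5349777641) (nat_lit 76) (nat_lit 7872264931) (nat_lit 186) (nat_lit 5) (nat_lit 193) (nat_lit 5) (nat_lit 187) (nat_lit 5) (nat_lit 484) (nat_lit 430) (nat_lit 286)) (XT.nd (nat_lit 78) (nat_lit 456) (nat_lit 0) (XT.lf (nat_lit 0) (nat_lit 16970700981) (nat_lit 380) (nat_lit 2599585955) (nat_lit 456) (nat_lit 5222258842) (nat_lit 181) (nat_lit 5) (nat_lit 186) (nat_lit 5) (nat_lit 187) (nat_lit 5) (nat_lit 485) (nat_lit 430) (nat_lit 285)) (XT.lf (nat_lit 0) (nat_lit 3176618527) (nat_lit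 456) (nat_lit 10380635694) (nat_lit 76) (nat_lit 11688270924) (nat_lit 175) (nat_lit 5) (nat_lit 181) (nat_lit 5) (nat_lit 176) (nat_lit 5) (nat_lit 486) (nat_lit 430) (nat_lit 284)))) (XT.nd (nat_lit 156) (nat_lit 836) (nat_lit 0) (XT.nd (nat_lit 78) (nat_lit 380) (nat_lit 0) (XT.lf (nat_lit 0) (nat_lit 11904093655) (nat_lit 456) (nat_lit 12989026357) (nat_lit 76) (nat_lit 815332255) (nat_lit 170) (nat_lit 5) (nat_lit 176) (nat_lit 5) (nat_lit 171) (nat_lit 5) (nat_lit 487) (nat_lit 430) (nat_lit 283)) (XT.lf (nat_lit 0) (nat_lit 10499804396) (nat_lit 380) (nat_lit 10611872669) (nat_lit 456) (nat_lit 5069224832) (nat_lit 165) (nat_lit 5) (nat_lit 170) (nat_lit 5) (nat_lit 171) (nat_lit 5) (nat_lit 488) (nat_lit 430) (nat_lit 282))) (XT.nd (nat_lit 78) (nat_lit 380) (nat_lit 0) (XT.lf (nat_lit 0) (nat_lit 4035206993) (nat_lit 456) (nat_lit 18421717722) (nat_lit 76) (nat_lit 4206915398) (nat_lit 159)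 (nat_lit 5) (nat_lit 165) (nat_lit 5) (nat_lit 160) (nat_lit 5) (nat_lit 489) (nat_lit 430) (nat_lit 281)) (XT.lf (nat_lit 0) (nat_lit 5893001780) (nat_lit 380) (nat_lit 7656444948) (nat_lit 456) (nat_lit 13607039025) (nat_lit 154) (nat_lit 5) (nat_lit 159) (nat_lit 5) (nat_lit 160) (nat_lit 5) (nat_lit 490) (nat_lit 430) (nat_lit 280))))) (XT.nd (nat_lit 234) (nat_lit 1444) (nat_lit 0) (XT.nd (nat_lit 78) (nat_lit 456) (nat_lit 0) (XT.lf (nat_lit 0) (nat_lit 3506649393) (nat_lit 304) (nat_lit 20029289713) (nat_lit 380) (nat_lit 4124235483) (nat_lit 150) (nat_lit 5) (nat_lit 154) (nat_lit 5) (nat_lit 155) (nat_lit 5) (nat_lit 491) (nat_lit 430) (nat_lit 279)) (XT.nd (nat_lit 78) (nat_lit 0) (nat_lit 0) (XT.lf (nat_lit 0) (nat_lit 1042712713) (nat_lit 380) (nat_lit 4718613383) (nat_lit 456) (nat_lit 22413069874) (nat_lit 144) (nat_lit 5) (nat_lit 149) (nat_lit 5) (nat_lit 150) (nat_lit 5) (nat_lit 492)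 (nat_lit 430) (nat_lit 278)) (XT.lf (nat_lit 0) (nat_lit 16113683186) (nat_lit 456) (nat_lit 1492647601) (nat_lit 76) (nat_lit 11092643075) (nat_lit 144) (nat_lit 5) (nat_lit 150) (nat_lit 5) (nat_lit 145) (nat_lit 5) (nat_lit 493) (nat_lit 430) (nat_lit 277)))) (XT.nd (nat_lit 156) (nat_lit 684) (nat_lit 0) (XT.nd (nat_lit 78) (nat_lit 456) (nat_lit 0) (XT.lf (nat_lit 0) (nat_lit 25198058745) (nat_lit 304) (nat_lit 1763450709) (nat_lit 380) (nat_lit 2274081968) (nat_lit 140) (nat_lit 5) (nat_lit 144) (nat_lit 5) (nat_lit 145) (nat_lit 5) (nat_lit 494) (nat_lit 430) (nat_lit 276)) (XT.lf (nat_lit 0) (nat_lit 8483264819) (nat_lit 456) (nat_lit 6725151389) (nat_lit 76) (nat_lit 14573882429) (nat_lit 134) (nat_lit 5) (nat_lit 140) (nat_lit 5) (nat_lit 135) (nat_lit 5) (nat_lit 495) (nat_lit 430) (nat_lit 275))) (XT.nd (nat_lit 78) (nat_lit 380) (nat_lit 0) (XT.lf (nat_lit 0) (nat_lit 19705544354) (nat_lit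 380) (nat_lit 9443754990) (nat_lit 76) (nat_lit 1192345204) (nat_lit 130) (nat_lit 5) (nat_lit 135) (nat_lit 5) (nat_lit 131) (nat_lit 5) (nat_lit 496) (nat_lit 430) (nat_lit 274)) (XT.lf (nat_lit 0) (nat_lit 602730488) (nat_lit 380) (nat_lit 12265213351) (nat_lit 76) (nat_lit 18044571114) (nat_lit 125) (nat_lit 5) (nat_lit 130) (nat_lit 5) (nat_lit 126) (nat_lit 5) (nat_lit 497) (nat_lit 430) (nat_lit 273))))))) (XT.nd (nat_lit 57720) (nat_lit 0) (nat_lit 26372) (XT.nd (nat_lit 468) (nat_lit 228) (nat_lit 0) (XT.nd (nat_lit 234) (nat_lit 912) (nat_lit 0) (XT.nd (nat_lit 78) (nat_lit 608) (nat_lit 0) (XT.lf (nat_lit 0) (nat_lit 12222720237) (nat_lit 380) (nat_lit 15184866392) (nat_lit 76) (nat_lit 4087749064) (nat_lit 121) (nat_lit 5) (nat_lit 126) (nat_lit 5) (nat_lit 122) (nat_lit 5) (nat_lit 498) (nat_lit 430) (nat_lit 272)) (XT.nd (nat_lit 78) (nat_lit 304) (nat_lit 0) (XT.lf (nat_lit 0) (nat_lit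 13897151149) (nat_lit 304) (nat_lit 10544532268) (nat_lit 380) (nat_lit 7648950414) (nat_lit 117) (nat_lit 5) (nat_lit 121) (nat_lit 5) (nat_lit 122) (nat_lit 5) (nat_lit 499) (nat_lit 430) (nat_lit 271)) (XT.lf (nat_lit 0) (nat_lit 4480905678) (nat_lit 304) (nat_lit 21281855929) (nat_lit 76) (nat_lit 6936184461) (nat_lit 113) (nat_lit 5) (nat_lit 117) (nat_lit 5) (nat_lit 114) (nat_lit 5) (nat_lit 500) (nat_lit 430) (nat_lit 270)))) (XT.nd (nat_lit 78) (nat_lit 608) (nat_lit 0) (XT.lf (nat_lit 0) (nat_lit 8819559077) (nat_lit 304) (nat_lit 8294328557) (nat_lit 380) (nat_lit 16205746090) (nat_lit 109) (nat_lit 5) (nat_lit 113) (nat_lit 5) (nat_lit 114) (nat_lit 5) (nat_lit 501) (nat_lit 430) (nat_lit 269)) (XT.nd (nat_lit 78) (nat_lit 380) (nat_lit 0) (XT.lf (nat_lit 0) (nat_lit 6160654311) (nat_lit 228) (nat_lit 24204147380) (nat_lit 304) (nat_lit 3589361688) (nat_lit 106) (nat_lit 5) (nat_lit 109)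 (nat_lit 5) (nat_lit 110) (nat_lit 5) (nat_lit 502) (nat_lit 430) (nat_lit 268)) (XT.lf (nat_lit 0) (nat_lit 3383539438) (nat_lit 304) (nat_lit 6134093427) (nat_lit 380) (nat_lit 25084165465) (nat_lit 101) (nat_lit 5) (nat_lit 105) (nat_lit 5) (nat_lit 106) (nat_lit 5) (nat_lit 503) (nat_lit 430) (nat_lit 267))))) (XT.nd (nat_lit 56940) (nat_lit 0) (nat_lit 32072) (XT.nd (nat_lit 56784) (nat_lit 0) (nat_lit 31996) (XT.lf (nat_lit 0) (nat_lit 496238496) (nat_lit 228) (nat_lit 22737978094) (nat_lit 304) (nat_lit 12028868538) (nat_lit 98) (nat_lit 5) (nat_lit 101) (nat_lit 5) (nat_lit 102) (nat_lit 5) (nat_lit 504) (nat_lit 430) (nat_lit 266)) (XT.nd (nat_lit 78) (nat_lit 0) (nat_lit 76) (XT.lf (nat_lit 0) (nat_lit 664269287) (nat_lit 1748) (nat_lit 2312943011) (nat_lit 1748) (nat_lit 2312943011) (nat_lit 519) (nat_lit 3) (nat_lit 542) (nat_lit 3) (nat_lit 542) (nat_lit 5) (nat_lit 431) (nat_lit 431)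 (nat_lit 338)) (XT.lf (nat_lit 0) (nat_lit 2308617266) (nat_lit 1672) (nat_lit 7437966175) (nat_lit 1748) (nat_lit 973168812) (nat_lit 520) (nat_lit 5) (nat_lit 542) (nat_lit 5) (nat_lit 543) (nat_lit 5) (nat_lit 432) (nat_lit 431) (nat_lit 337)))) (XT.nd (nat_lit 156) (nat_lit 0) (nat_lit 152) (XT.nd (nat_lit 78) (nat_lit 0) (nat_lit 76) (XT.lf (nat_lit 76) (nat_lit 575119658) (nat_lit 0) (nat_lit 2781690604) (nat_lit 1748) (nat_lit 7505794973) (nat_lit 521) (nat_lit 5) (nat_lit 520) (nat_lit 5) (nat_lit 543) (nat_lit 5) (nat_lit 433) (nat_lit 431) (nat_lit 336)) (XT.lf (nat_lit 0) (nat_lit 4480344793) (nat_lit 1672) (nat_lit 2127327200) (nat_lit 1748) (nat_lit 4401196175) (nat_lit 521) (nat_lit 5) (nat_lit 543) (nat_lit 5) (nat_lit 544) (nat_lit 5) (nat_lit 434) (nat_lit 431) (nat_lit 335))) (XT.nd (nat_lit 78) (nat_lit 0) (nat_lit 0) (XT.lf (nat_lit 0) (nat_lit 5667191684) (nat_lit 1672) (nat_lit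 4840907780) (nat_lit 1748) (nat_lit 650829605) (nat_lit 522) (nat_lit 5) (nat_lit 544) (nat_lit 5) (nat_lit 545) (nat_lit 5) (nat_lit 435) (nat_lit 431) (nat_lit 334)) (XT.lf (nat_lit 76) (nat_lit 3717102393) (nat_lit 0) (nat_lit 3222014917) (nat_lit 1748) (nat_lit 4373387165) (nat_lit 523) (nat_lit 5) (nat_lit 522) (nat_lit 5) (nat_lit 545) (nat_lit 5) (nat_lit 436) (nat_lit 431) (nat_lit 333)))))) (XT.nd (nat_lit 546) (nat_lit 4332) (nat_lit 0) (XT.nd (nat_lit 234) (nat_lit 1596) (nat_lit 0) (XT.nd (nat_lit 78) (nat_lit 0) (nat_lit 76) (XT.lf (nat_lit 76) (nat_lit 1093988529) (nat_lit 0) (nat_lit 7190708894) (nat_lit 1748) (nat_lit 3185281866) (nat_lit 524) (nat_lit 5) (nat_lit 523) (nat_lit 5) (nat_lit 546) (nat_lit 5) (nat_lit 437) (nat_lit 431) (nat_lit 332)) (XT.nd (nat_lit 78) (nat_lit 0) (nat_lit 0) (XT.lf (nat_lit 0) (nat_lit 9714459946) (nat_lit 1672) (nat_lit 1527810029) (nat_lit 1748) (nat_lit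 389034092) (nat_lit 524) (nat_lit 5) (nat_lit 546) (nat_lit 5) (nat_lit 547) (nat_lit 5) (nat_lit 438) (nat_lit 431) (nat_lit 331)) (XT.lf (nat_lit 76) (nat_lit 7617439443) (nat_lit 0) (nat_lit 3636595874) (nat_lit 1748) (nat_lit 542096836) (nat_lit 525) (nat_lit 5) (nat_lit 524) (nat_lit 5) (nat_lit 547) (nat_lit 5) (nat_lit 439) (nat_lit 431) (nat_lit 330)))) (XT.nd (nat_lit 156) (nat_lit 0) (nat_lit 76) (XT.nd (nat_lit 78) (nat_lit 0) (nat_lit 76) (XT.lf (nat_lit 0) (nat_lit 903764345) (nat_lit 1748) (nat_lit 6859582319) (nat_lit 1824) (nat_lit 4201620149) (nat_lit 502) (nat_lit 5) (nat_lit 525) (nat_lit 5) (nat_lit 526) (nat_lit 5) (nat_lit 440) (nat_lit 431) (nat_lit 329)) (XT.lf (nat_lit 0) (nat_lit 2426893024) (nat_lit 1748) (nat_lit 9567044357) (nat_lit 1824) (nat_lit 144034149) (nat_lit 503) (nat_lit 5) (nat_lit 526) (nat_lit 5) (nat_lit 527) (nat_lit 5) (nat_lit 441) (nat_lit 431) (nat_lit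 328))) (XT.nd (nat_lit 78) (nat_lit 0) (nat_lit 76) (XT.lf (nat_lit 0) (nat_lit 4065942795) (nat_lit 1748) (nat_lit 10093974) (nat_lit 1824) (nat_lit 8238726834) (nat_lit 503) (nat_lit 5) (nat_lit 526) (nat_lit 5) (nat_lit 527) (nat_lit 5) (nat_lit 442) (nat_lit 431) (nat_lit 327)) (XT.lf (nat_lit 0) (nat_lit 5818036133) (nat_lit 1748) (nat_lit 2579377483) (nat_lit 1824) (nat_lit 4098170090) (nat_lit 504) (nat_lit 5) (nat_lit 527) (nat_lit 5) (nat_lit 528) (nat_lit 5) (nat_lit 443) (nat_lit 431) (nat_lit 326))))) (XT.nd (nat_lit 234) (nat_lit 4484) (nat_lit 0) (XT.nd (nat_lit 78) (nat_lit 0) (nat_lit 76) (XT.lf (nat_lit 76) (nat_lit 7509304450) (nat_lit 0) (nat_lit 162541148) (nat_lit 1824) (nat_lit 5009001405) (nat_lit 505) (nat_lit 5) (nat_lit 504) (nat_lit 5) (nat_lit 528) (nat_lit 5) (nat_lit 444) (nat_lit 431) (nat_lit 325)) (XT.nd (nat_lit 78) (nat_lit 0) (nat_lit 76) (XT.lf (nat_lit 76) (nat_lit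 5056052708) (nat_lit 0) (nat_lit 4603416752) (nat_lit 1824) (nat_lit 3210636349) (nat_lit 506) (nat_lit 5) (nat_lit 505) (nat_lit 5) (nat_lit 529) (nat_lit 5) (nat_lit 445) (nat_lit 431) (nat_lit 324)) (XT.lf (nat_lit 76) (nat_lit 2583316993) (nat_lit 0) (nat_lit 9176164006) (nat_lit 1824) (nat_lit 1304507763) (nat_lit 507) (nat_lit 5) (nat_lit 506) (nat_lit 5) (nat_lit 530) (nat_lit 5) (nat_lit 446) (nat_lit 431) (nat_lit 323)))) (XT.nd (nat_lit 156) (nat_lit 2812) (nat_lit 0) (XT.nd (nat_lit 78) (nat_lit 0) (nat_lit 76) (XT.lf (nat_lit 76) (nat_lit 81628014) (nat_lit 0) (nat_lit 628025278) (nat_lit 1900) (nat_lit 12552761075) (nat_lit 483) (nat_lit 5) (nat_lit 482) (nat_lit 5) (nat_lit 507) (nat_lit 5) (nat_lit 447) (nat_lit 431) (nat_lit 322)) (XT.lf (nat_lit 0) (nat_lit 2866691356) (nat_lit 1824) (nat_lit 2444541803) (nat_lit 76) (nat_lit 8153385062) (nat_lit 483) (nat_lit 5) (nat_lit 507) (nat_lit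 5) (nat_lit 484) (nat_lit 5) (nat_lit 448) (nat_lit 431) (nat_lit 321))) (XT.nd (nat_lit 78) (nat_lit 1064) (nat_lit 0) (XT.lf (nat_lit 0) (nat_lit 5148586876) (nat_lit 1900) (nat_lit 4992176402) (nat_lit 76) (nat_lit 3530923390) (nat_lit 459) (nat_lit 5) (nat_lit 484) (nat_lit 5) (nat_lit 460) (nat_lit 5) (nat_lit 449) (nat_lit 431) (nat_lit 320)) (XT.lf (nat_lit 0) (nat_lit 6312589559) (nat_lit 1064) (nat_lit 1256319652) (nat_lit 1140) (nat_lit 6314659921) (nat_lit 445) (nat_lit 5) (nat_lit 459) (nat_lit 5) (nat_lit 460) (nat_lit 5) (nat_lit 450) (nat_lit 431) (nat_lit 319))))))))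
noncomputable def xc83 : XT := (XT.nd (nat_lit 2106) (nat_lit 9880) (nat_lit 0) (XT.nd (nat_lit 1014) (nat_lit 7220) (nat_lit 0) (XT.nd (nat_lit 468) (nat_lit 4636) (nat_lit 0) (XT.nd (nat_lit 234) (nat_lit 2508) (nat_lit 0) (XT.nd (nat_lit 78) (nat_lit 988) (nat_lit 0) (XT.lf (nat_lit 0) (nat_lit 3902586087) (nat_lit 912) (nat_lit 6247253357) (nat_lit 988) (nat_lit 3950209983) (nat_lit 433) (nat_lit 5) (nat_lit 445) (nat_lit 5) (nat_lit 446) (nat_lit 5) (nat_lit 451) (nat_lit 431) (nat_lit 318)) (XT.nd (nat_lit 78) (nat_lit 76) (nat_lit 0) (XT.lf (nat_lit 0) (nat_lit 1472893356) (nat_lit 912) (nat_lit 11401542371) (nat_lit 988) (nat_lit 1447264924) (nat_lit 421) (nat_lit 5) (nat_lit 433) (nat_lit 5) (nat_lit 434) (nat_lit 5) (nat_lit 452) (nat_lit 431) (nat_lit 317)) (XT.lf (nat_lit 0) (nat_lit 1205528844) (nat_lit 988) (nat_lit 986135280) (nat_lit 76) (nat_lit 12356399865) (nat_lit 420) (nat_lit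 5) (nat_lit 433) (nat_lit 5) (nat_lit 421) (nat_lit 5) (nat_lit 453) (nat_lit 431) (nat_lit 316)))) (XT.nd (nat_lit 78) (nat_lit 1672) (nat_lit 0) (XT.lf (nat_lit 0) (nat_lit 4018861656) (nat_lit 912) (nat_lit 3476554681) (nat_lit 76) (nat_lit 7283599390) (nat_lit 409) (nat_lit 5) (nat_lit 421) (nat_lit 5) (nat_lit 410) (nat_lit 5) (nat_lit 454) (nat_lit 431) (nat_lit 315)) (XT.nd (nat_lit 78) (nat_lit 836) (nat_lit 0) (XT.lf (nat_lit 0) (nat_lit 6989448059) (nat_lit 912) (nat_lit 5989161973) (nat_lit 76) (nat_lit 2036830066) (nat_lit 398) (nat_lit 5) (nat_lit 410) (nat_lit 5) (nat_lit 399) (nat_lit 5) (nat_lit 455) (nat_lit 431) (nat_lit 314)) (XT.lf (nat_lit 0) (nat_lit 6710587764) (nat_lit 836) (nat_lit 3435821495) (nat_lit 912) (nat_lit 5110603915) (nat_lit 387) (nat_lit 5) (nat_lit 398) (nat_lit 5) (nat_lit 399) (nat_lit 5) (nat_lit 456) (nat_lit 431) (nat_lit 313))))) (XT.nd (nat_lit 234) (nat_lit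 2964) (nat_lit 0) (XT.nd (nat_lit 78) (nat_lit 836) (nat_lit 0) (XT.lf (nat_lit 0) (nat_lit 4363235615) (nat_lit 836) (nat_lit 9125837068) (nat_lit 912) (nat_lit 2014941978) (nat_lit 376) (nat_lit 5) (nat_lit 387) (nat_lit 5) (nat_lit 388) (nat_lit 5) (nat_lit 457) (nat_lit 431) (nat_lit 312)) (XT.nd (nat_lit 78) (nat_lit 0) (nat_lit 0) (XT.lf (nat_lit 0) (nat_lit 1237983375) (nat_lit 836) (nat_lit 13767065308) (nat_lit 76) (nat_lit 751630439) (nat_lit 365) (nat_lit 5) (nat_lit 376) (nat_lit 5) (nat_lit 366) (nat_lit 5) (nat_lit 458) (nat_lit 431) (nat_lit 311)) (XT.lf (nat_lit 0) (nat_lit 4679342113) (nat_lit 836) (nat_lit 444468801) (nat_lit 76) (nat_lit 10890482816) (nat_lit 365) (nat_lit 5) (nat_lit 376) (nat_lit 5) (nat_lit 366) (nat_lit 5) (nat_lit 459) (nat_lit 431) (nat_lit 310)))) (XT.nd (nat_lit 156) (nat_lit 1520) (nat_lit 0) (XT.nd (nat_lit 78) (nat_lit 684) (nat_lit 0) (XT.lf (nat_lit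 0) (nat_lit 8326141006) (nat_lit 836) (nat_lit 2877516912) (nat_lit 76) (nat_lit 5073935844) (nat_lit 355) (nat_lit 5) (nat_lit 366) (nat_lit 5) (nat_lit 356) (nat_lit 5) (nat_lit 460) (nat_lit 431) (nat_lit 309)) (XT.lf (nat_lit 0) (nat_lit 11210148905) (nat_lit 684) (nat_lit 964269729) (nat_lit 760) (nat_lit 4372533611) (nat_lit 346) (nat_lit 5) (nat_lit 355) (nat_lit 5) (nat_lit 356) (nat_lit 5) (nat_lit 461) (nat_lit 431) (nat_lit 308))) (XT.nd (nat_lit 78) (nat_lit 760) (nat_lit 0) (XT.lf (nat_lit 0) (nat_lit 8971229796) (nat_lit 760) (nat_lit 7289383326) (nat_lit 836) (nat_lit 561329910) (nat_lit 336) (nat_lit 5) (nat_lit 346) (nat_lit 5) (nat_lit 347) (nat_lit 5) (nat_lit 462) (nat_lit 431) (nat_lit 307)) (XT.lf (nat_lit 0) (nat_lit 3410804480) (nat_lit 760) (nat_lit 10408139221) (nat_lit 76) (nat_lit 3283989525) (nat_lit 326) (nat_lit 5) (nat_lit 336) (nat_lit 5) (nat_lit 327) (nat_lit 5) (nat_lit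 463) (nat_lit 431) (nat_lit 306)))))) (XT.nd (nat_lit 546) (nat_lit 3344) (nat_lit 0) (XT.nd (nat_lit 234) (nat_lit 2584) (nat_lit 0) (XT.nd (nat_lit 78) (nat_lit 608) (nat_lit 0) (XT.lf (nat_lit 0) (nat_lit 4377570896) (nat_lit 684) (nat_lit 3230681760) (nat_lit 760) (nat_lit 9781751590) (nat_lit 317) (nat_lit 5) (nat_lit 326) (nat_lit 5) (nat_lit 327) (nat_lit 5) (nat_lit 464) (nat_lit 431) (nat_lit 305)) (XT.nd (nat_lit 78) (nat_lit 0) (nat_lit 0) (XT.lf (nat_lit 0) (nat_lit 2021435332) (nat_lit 608) (nat_lit 10027503353) (nat_lit 684) (nat_lit 5634403247) (nat_lit 309) (nat_lit 5) (nat_lit 317) (nat_lit 5) (nat_lit 318) (nat_lit 5) (nat_lit 465) (nat_lit 431) (nat_lit 304)) (XT.lf (nat_lit 0) (nat_lit 16722221532) (nat_lit 684) (nat_lit 346585446) (nat_lit 76) (nat_lit 914686045) (nat_lit 309) (nat_lit 5) (nat_lit 318) (nat_lit 5) (nat_lit 310) (nat_lit 5) (nat_lit 466) (nat_lit 431) (nat_lit 303))))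 (XT.nd (nat_lit 156) (nat_lit 1216) (nat_lit 0) (XT.nd (nat_lit 78) (nat_lit 608) (nat_lit 0) (XT.lf (nat_lit 0) (nat_lit 3353693155) (nat_lit 760) (nat_lit 2765874302) (nat_lit 76) (nat_lit 12169597388) (nat_lit 299) (nat_lit 5) (nat_lit 309) (nat_lit 5) (nat_lit 300) (nat_lit 5) (nat_lit 467) (nat_lit 431) (nat_lit 302)) (XT.lf (nat_lit 0) (nat_lit 8198078124) (nat_lit 684) (nat_lit 5218017626) (nat_lit 76) (nat_lit 5185582928) (nat_lit 291) (nat_lit 5) (nat_lit 300) (nat_lit 5) (nat_lit 292) (nat_lit 5) (nat_lit 468) (nat_lit 431) (nat_lit 301))) (XT.nd (nat_lit 78) (nat_lit 608) (nat_lit 0) (XT.lf (nat_lit 0) (nat_lit 11219348609) (nat_lit 608) (nat_lit 2085797320) (nat_lit 684) (nat_lit 5616075688) (nat_lit 283) (nat_lit 5) (nat_lit 291) (nat_lit 5) (nat_lit 292) (nat_lit 5) (nat_lit 469) (nat_lit 431) (nat_lit 300)) (XT.lf (nat_lit 0) (nat_lit 9008238225) (nat_lit 608) (nat_lit 9698511786) (nat_lit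 684) (nat_lit 540775045) (nat_lit 275) (nat_lit 5) (nat_lit 283) (nat_lit 5) (nat_lit 284) (nat_lit 5) (nat_lit 470) (nat_lit 431) (nat_lit 299))))) (XT.nd (nat_lit 234) (nat_lit 1596) (nat_lit 0) (XT.nd (nat_lit 78) (nat_lit 1064) (nat_lit 0) (XT.lf (nat_lit 0) (nat_lit 4734261075) (nat_lit 684) (nat_lit 12826795737) (nat_lit 76) (nat_lit 2019773967) (nat_lit 266) (nat_lit 5) (nat_lit 275) (nat_lit 5) (nat_lit 267) (nat_lit 5) (nat_lit 471) (nat_lit 431) (nat_lit 298)) (XT.nd (nat_lit 78) (nat_lit 532) (nat_lit 0) (XT.lf (nat_lit 0) (nat_lit 4445024661) (nat_lit 532) (nat_lit 5864295076) (nat_lit 608) (nat_lit 9611762719) (nat_lit 259) (nat_lit 5) (nat_lit 266) (nat_lit 5) (nat_lit 267) (nat_lit 5) (nat_lit 472) (nat_lit 431) (nat_lit 297)) (XT.lf (nat_lit 0) (nat_lit 2108854383) (nat_lit 532) (nat_lit 14069895107) (nat_lit 608) (nat_lit 4090250432) (nat_lit 252) (nat_lit 5) (nat_lit 259) (nat_lit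 5) (nat_lit 260) (nat_lit 5) (nat_lit 473) (nat_lit 431) (nat_lit 296)))) (XT.nd (nat_lit 156) (nat_lit 988) (nat_lit 0) (XT.nd (nat_lit 78) (nat_lit 532) (nat_lit 0) (XT.lf (nat_lit 0) (nat_lit 1706733252) (nat_lit 608) (nat_lit 261118651) (nat_lit 76) (nat_lit 18656680846) (nat_lit 251) (nat_lit 5) (nat_lit 259) (nat_lit 5) (nat_lit 252) (nat_lit 5) (nat_lit 474) (nat_lit 431) (nat_lit 295)) (XT.lf (nat_lit 0) (nat_lit 7797136682) (nat_lit 608) (nat_lit 2686901360) (nat_lit 76) (nat_lit 10502651751) (nat_lit 244) (nat_lit 5) (nat_lit 252) (nat_lit 5) (nat_lit 245) (nat_lit 5) (nat_lit 475) (nat_lit 431) (nat_lit 294))) (XT.nd (nat_lit 78) (nat_lit 456) (nat_lit 0) (XT.lf (nat_lit 0) (nat_lit 14190713418) (nat_lit 608) (nat_lit 5127833608) (nat_lit 76) (nat_lit 2038755860) (nat_lit 237) (nat_lit 5) (nat_lit 245) (nat_lit 5) (nat_lit 238) (nat_lit 5) (nat_lit 476) (nat_lit 431) (nat_lit 293)) (XT.lf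 (nat_lit 0) (nat_lit 14108170994) (nat_lit 456) (nat_lit 6834853605) (nat_lit 532) (nat_lit 792671773) (nat_lit 231) (nat_lit 5) (nat_lit 237) (nat_lit 5) (nat_lit 238) (nat_lit 5) (nat_lit 477) (nat_lit 431) (nat_lit 292))))))) (XT.nd (nat_lit 1092) (nat_lit 4028) (nat_lit 0) (XT.nd (nat_lit 546) (nat_lit 2888) (nat_lit 0) (XT.nd (nat_lit 234) (nat_lit 1444) (nat_lit 0) (XT.nd (nat_lit 78) (nat_lit 912) (nat_lit 0) (XT.lf (nat_lit 0) (nat_lit 5836577351) (nat_lit 608) (nat_lit 10194760639) (nat_lit 76) (nat_lit 6090558201) (nat_lit 223) (nat_lit 5) (nat_lit 231) (nat_lit 5) (nat_lit 224) (nat_lit 5) (nat_lit 478) (nat_lit 431) (nat_lit 291)) (XT.nd (nat_lit 78) (nat_lit 456) (nat_lit 0) (XT.lf (nat_lit 0) (nat_lit 9712345704) (nat_lit 456) (nat_lit 3089744609) (nat_lit 532) (nat_lit 9714524292) (nat_lit 217) (nat_lit 5) (nat_lit 223) (nat_lit 5) (nat_lit 224) (nat_lit 5) (nat_lit 479) (nat_lit 431)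 (nat_lit 290)) (XT.lf (nat_lit 0) (nat_lit 7447346805) (nat_lit 456) (nat_lit 12701122036) (nat_lit 532) (nat_lit 2771268216) (nat_lit 211) (nat_lit 5) (nat_lit 217) (nat_lit 5) (nat_lit 218) (nat_lit 5) (nat_lit 480) (nat_lit 431) (nat_lit 289)))) (XT.nd (nat_lit 156) (nat_lit 456) (nat_lit 0) (XT.nd (nat_lit 78) (nat_lit 456) (nat_lit 0) (XT.lf (nat_lit 0) (nat_lit 4456482498) (nat_lit 532) (nat_lit 18187595180) (nat_lit 76) (nat_lit 687634270) (nat_lit 204) (nat_lit 5) (nat_lit 211) (nat_lit 5) (nat_lit 205) (nat_lit 5) (nat_lit 481) (nat_lit 431) (nat_lit 288)) (XT.lf (nat_lit 0) (nat_lit 2751277898) (nat_lit 456) (nat_lit 9308593571) (nat_lit 532) (nat_lit 11691879578) (nat_lit 198) (nat_lit 5) (nat_lit 204) (nat_lit 5) (nat_lit 205) (nat_lit 5) (nat_lit 482) (nat_lit 431) (nat_lit 287))) (XT.nd (nat_lit 78) (nat_lit 76) (nat_lit 0) (XT.lf (nat_lit 0) (nat_lit 342766362) (nat_lit 380) (nat_lit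 19691730106) (nat_lit 456) (nat_lit 4147032604) (nat_lit 193) (nat_lit 5) (nat_lit 198) (nat_lit 5) (nat_lit 199) (nat_lit 5) (nat_lit 483) (nat_lit 431) (nat_lit 286)) (XT.lf (nat_lit 0) (nat_lit 3770389240) (nat_lit 456) (nat_lit 2111704850) (nat_lit 76) (nat_lit 18737760935) (nat_lit 192) (nat_lit 5) (nat_lit 198) (nat_lit 5) (nat_lit 193) (nat_lit 5) (nat_lit 484) (nat_lit 431) (nat_lit 285))))) (XT.nd (nat_lit 234) (nat_lit 1596) (nat_lit 0) (XT.nd (nat_lit 78) (nat_lit 836) (nat_lit 0) (XT.lf (nat_lit 0) (nat_lit 12046149813) (nat_lit 532) (nat_lit 4632236019) (nat_lit 76) (nat_lit 8388853933) (nat_lit 186) (nat_lit 5) (nat_lit 193) (nat_lit 5) (nat_lit 187) (nat_lit 5) (nat_lit 485) (nat_lit 431) (nat_lit 284)) (XT.nd (nat_lit 78) (nat_lit 456) (nat_lit 0) (XT.lf (nat_lit 0) (nat_lit 18343611888) (nat_lit 380) (nat_lit 2388203432) (nat_lit 456) (nat_lit 4792998478) (nat_lit 181) (nat_lit 5)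 (nat_lit 186) (nat_lit 5) (nat_lit 187) (nat_lit 5) (nat_lit 486) (nat_lit 431) (nat_lit 283)) (XT.lf (nat_lit 0) (nat_lit 3840770516) (nat_lit 456) (nat_lit 9825226750) (nat_lit 76) (nat_lit 12325497568) (nat_lit 175) (nat_lit 5) (nat_lit 181) (nat_lit 5) (nat_lit 176) (nat_lit 5) (nat_lit 487) (nat_lit 431) (nat_lit 282)))) (XT.nd (nat_lit 156) (nat_lit 836) (nat_lit 0) (XT.nd (nat_lit 78) (nat_lit 380) (nat_lit 0) (XT.lf (nat_lit 0) (nat_lit 12820953032) (nat_lit 456) (nat_lit 12516672478) (nat_lit 76) (nat_lit 1130867150) (nat_lit 170) (nat_lit 5) (nat_lit 176) (nat_lit 5) (nat_lit 171) (nat_lit 5) (nat_lit 488) (nat_lit 431) (nat_lit 281)) (XT.lf (nat_lit 0) (nat_lit 11662837872) (nat_lit 380) (nat_lit 10631129100) (nat_lit 456) (nat_lit 4661365283) (nat_lit 165) (nat_lit 5) (nat_lit 170) (nat_lit 5) (nat_lit 171) (nat_lit 5) (nat_lit 489) (nat_lit 431) (nat_lit 280))) (XT.nd (nat_lit 78) (nat_lit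 380) (nat_lit 0) (XT.lf (nat_lit 0) (nat_lit 4700169574) (nat_lit 456) (nat_lit 18123935226) (nat_lit 76) (nat_lit 4628755345) (nat_lit 159) (nat_lit 5) (nat_lit 165) (nat_lit 5) (nat_lit 160) (nat_lit 5) (nat_lit 490) (nat_lit 431) (nat_lit 279)) (XT.lf (nat_lit 0) (nat_lit 6906428580) (nat_lit 380) (nat_lit 7582997989) (nat_lit 456) (nat_lit 13471067280) (nat_lit 154) (nat_lit 5) (nat_lit 159) (nat_lit 5) (nat_lit 160) (nat_lit 5) (nat_lit 491) (nat_lit 431) (nat_lit 278)))))) (XT.nd (nat_lit 546) (nat_lit 1824) (nat_lit 0) (XT.nd (nat_lit 234) (nat_lit 1444) (nat_lit 0) (XT.nd (nat_lit 78) (nat_lit 456) (nat_lit 0) (XT.lf (nat_lit 0) (nat_lit 4443489029) (nat_lit 304) (nat_lit 20323796380) (nat_lit 380) (nat_lit 3712172990) (nat_lit 150) (nat_lit 5) (nat_lit 154) (nat_lit 5) (nat_lit 155) (nat_lit 5) (nat_lit 492) (nat_lit 431) (nat_lit 277)) (XT.nd (nat_lit 78) (nat_lit 0) (nat_lit 0) (XT.lf (nat_lit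 0) (nat_lit 1899070343) (nat_lit 380) (nat_lit 4553814208) (nat_lit 456) (nat_lit 22556353633) (nat_lit 144) (nat_lit 5) (nat_lit 149) (nat_lit 5) (nat_lit 150) (nat_lit 5) (nat_lit 493) (nat_lit 431) (nat_lit 276)) (XT.lf (nat_lit 0) (nat_lit 17102635185) (nat_lit 456) (nat_lit 728226216) (nat_lit 76) (nat_lit 11718956000) (nat_lit 144) (nat_lit 5) (nat_lit 150) (nat_lit 5) (nat_lit 145) (nat_lit 5) (nat_lit 494) (nat_lit 431) (nat_lit 275)))) (XT.nd (nat_lit 156) (nat_lit 684) (nat_lit 0) (XT.nd (nat_lit 78) (nat_lit 456) (nat_lit 0) (XT.lf (nat_lit 0) (nat_lit 26750072998) (nat_lit 304) (nat_lit 1516267363) (nat_lit 380) (nat_lit 1836384676) (nat_lit 140) (nat_lit 5) (nat_lit 144) (nat_lit 5) (nat_lit 145) (nat_lit 5) (nat_lit 495) (nat_lit 431) (nat_lit 274)) (XT.lf (nat_lit 0) (nat_lit 9229578956) (nat_lit 456) (nat_lit 6129342867) (nat_lit 76) (nat_lit 15306995729) (nat_lit 134) (nat_lit 5) (nat_lit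 140) (nat_lit 5) (nat_lit 135) (nat_lit 5) (nat_lit 496) (nat_lit 431) (nat_lit 273))) (XT.nd (nat_lit 78) (nat_lit 380) (nat_lit 0) (XT.lf (nat_lit 0) (nat_lit 20781257459) (nat_lit 380) (nat_lit 8934740084) (nat_lit 76) (nat_lit 1526192086) (nat_lit 130) (nat_lit 5) (nat_lit 135) (nat_lit 5) (nat_lit 131) (nat_lit 5) (nat_lit 497) (nat_lit 431) (nat_lit 272)) (XT.lf (nat_lit 0) (nat_lit 1099468753) (nat_lit 380) (nat_lit 11847323000) (nat_lit 76) (nat_lit 18883512843) (nat_lit 125) (nat_lit 5) (nat_lit 130) (nat_lit 5) (nat_lit 126) (nat_lit 5) (nat_lit 498) (nat_lit 431) (nat_lit 271))))) (XT.nd (nat_lit 234) (nat_lit 912) (nat_lit 0) (XT.nd (nat_lit 78) (nat_lit 608) (nat_lit 0) (XT.lf (nat_lit 0) (nat_lit 13061105842) (nat_lit 380) (nat_lit 14859877699) (nat_lit 76) (nat_lit 4509765834) (nat_lit 121) (nat_lit 5) (nat_lit 126) (nat_lit 5) (nat_lit 122) (nat_lit 5) (nat_lit 499) (nat_lit 431) (nat_lit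 270)) (XT.nd (nat_lit 78) (nat_lit 304) (nat_lit 0) (XT.lf (nat_lit 0) (nat_lit 15081937121) (nat_lit 304) (nat_lit 10555947376) (nat_lit 380) (nat_lit 7406197387) (nat_lit 117) (nat_lit 5) (nat_lit 121) (nat_lit 5) (nat_lit 122) (nat_lit 5) (nat_lit 500) (nat_lit 431) (nat_lit 269)) (XT.lf (nat_lit 0) (nat_lit 5074706301) (nat_lit 304) (nat_lit 21151608842) (nat_lit 76) (nat_lit 7444400463) (nat_lit 113) (nat_lit 5) (nat_lit 117) (nat_lit 5) (nat_lit 114) (nat_lit 5) (nat_lit 501) (nat_lit 431) (nat_lit 268)))) (XT.nd (nat_lit 156) (nat_lit 380) (nat_lit 0) (XT.nd (nat_lit 78) (nat_lit 228) (nat_lit 0) (XT.lf (nat_lit 0) (nat_lit 9840377325) (nat_lit 304) (nat_lit 8237830537) (nat_lit 380) (nat_lit 16231985757) (nat_lit 109) (nat_lit 5) (nat_lit 113) (nat_lit 5) (nat_lit 114) (nat_lit 5) (nat_lit 502) (nat_lit 431) (nat_lit 267)) (XT.lf (nat_lit 0) (nat_lit 7096368860) (nat_lit 228) (nat_lit 24623947327)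 (nat_lit 304) (nat_lit 3243569963) (nat_lit 106) (nat_lit 5) (nat_lit 109) (nat_lit 5) (nat_lit 110) (nat_lit 5) (nat_lit 503) (nat_lit 431) (nat_lit 266))) (XT.nd (nat_lit 56862) (nat_lit 0) (nat_lit 31768) (XT.lf (nat_lit 0) (nat_lit 4229619389) (nat_lit 304) (nat_lit 6012867215) (nat_lit 380) (nat_lit 25388568975) (nat_lit 101) (nat_lit 5) (nat_lit 105) (nat_lit 5) (nat_lit 106) (nat_lit 5) (nat_lit 504) (nat_lit 431) (nat_lit 265)) (XT.lf (nat_lit 0) (nat_lit 1607632838) (nat_lit 1748) (nat_lit 1911349492) (nat_lit 1748) (nat_lit 1911349492) (nat_lit 519) (nat_lit 3) (nat_lit 542) (nat_lit 3) (nat_lit 542) (nat_lit 5) (nat_lit 432) (nat_lit 432) (nat_lit 336))))))))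
noncomputable def xc84 : XT := (XT.nd (nat_lit 2106) (nat_lit 13604) (nat_lit 0) (XT.nd (nat_lit 1014) (nat_lit 10336) (nat_lit 0) (XT.nd (nat_lit 468) (nat_lit 1444) (nat_lit 0) (XT.nd (nat_lit 234) (nat_lit 0) (nat_lit 76) (XT.nd (nat_lit 78) (nat_lit 0) (nat_lit 0) (XT.lf (nat_lit 0) (nat_lit 4171306711) (nat_lit 1672) (nat_lit 6692662171) (nat_lit 1748) (nat_lit 141391904) (nat_lit 520) (nat_lit 5) (nat_lit 542) (nat_lit 5) (nat_lit 543) (nat_lit 5) (nat_lit 433) (nat_lit 432) (nat_lit 335)) (XT.nd (nat_lit 78) (nat_lit 0) (nat_lit 76) (XT.lf (nat_lit 76) (nat_lit 1545104400) (nat_lit 0) (nat_lit 3659791008) (nat_lit 1748) (nat_lit 5948528314) (nat_lit 521) (nat_lit 5) (nat_lit 520) (nat_lit 5) (nat_lit 543) (nat_lit 5) (nat_lit 434) (nat_lit 432) (nat_lit 334)) (XT.lf (nat_lit 0) (nat_lit 6306232268) (nat_lit 1672) (nat_lit 1227117680) (nat_lit 1748) (nat_lit 3771845932) (nat_lit 521) (nat_lit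 5) (nat_lit 543) (nat_lit 5) (nat_lit 544) (nat_lit 5) (nat_lit 435) (nat_lit 432) (nat_lit 333)))) (XT.nd (nat_lit 78) (nat_lit 0) (nat_lit 76) (XT.lf (nat_lit 76) (nat_lit 7460449465) (nat_lit 0) (nat_lit 20716120) (nat_lit 1748) (nat_lit 3979546572) (nat_lit 522) (nat_lit 5) (nat_lit 521) (nat_lit 5) (nat_lit 544) (nat_lit 5) (nat_lit 436) (nat_lit 432) (nat_lit 332)) (XT.nd (nat_lit 78) (nat_lit 0) (nat_lit 76) (XT.lf (nat_lit 76) (nat_lit 4798625499) (nat_lit 0) (nat_lit 3950908568) (nat_lit 1748) (nat_lit 2870198132) (nat_lit 523) (nat_lit 5) (nat_lit 522) (nat_lit 5) (nat_lit 545) (nat_lit 5) (nat_lit 437) (nat_lit 432) (nat_lit 331)) (XT.lf (nat_lit 76) (nat_lit 2116745095) (nat_lit 0) (nat_lit 7974511219) (nat_lit 1748) (nat_lit 1691562436) (nat_lit 524) (nat_lit 5) (nat_lit 523) (nat_lit 5) (nat_lit 546) (nat_lit 5) (nat_lit 438) (nat_lit 432) (nat_lit 330))))) (XT.nd (nat_lit 234) (nat_lit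 0) (nat_lit 76) (XT.nd (nat_lit 78) (nat_lit 1672) (nat_lit 0) (XT.lf (nat_lit 76) (nat_lit 11370391600) (nat_lit 0) (nat_lit 145504731) (nat_lit 1748) (nat_lit 434050149) (nat_lit 524) (nat_lit 5) (nat_lit 523) (nat_lit 5) (nat_lit 546) (nat_lit 5) (nat_lit 439) (nat_lit 432) (nat_lit 329)) (XT.nd (nat_lit 78) (nat_lit 0) (nat_lit 76) (XT.lf (nat_lit 0) (nat_lit 930260970) (nat_lit 1748) (nat_lit 3301759664) (nat_lit 1824) (nat_lit 7888350030) (nat_lit 501) (nat_lit 5) (nat_lit 524) (nat_lit 5) (nat_lit 525) (nat_lit 5) (nat_lit 440) (nat_lit 432) (nat_lit 328)) (XT.lf (nat_lit 0) (nat_lit 2372409192) (nat_lit 1748) (nat_lit 6050923415) (nat_lit 1824) (nat_lit 3871663249) (nat_lit 502) (nat_lit 5) (nat_lit 525) (nat_lit 5) (nat_lit 526) (nat_lit 5) (nat_lit 441) (nat_lit 432) (nat_lit 327)))) (XT.nd (nat_lit 156) (nat_lit 0) (nat_lit 152) (XT.nd (nat_lit 78) (nat_lit 0) (nat_lit 76) (XT.lf (nat_lit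 76) (nat_lit 3647038717) (nat_lit 0) (nat_lit 257710228) (nat_lit 1824) (nat_lit 8569174027) (nat_lit 503) (nat_lit 5) (nat_lit 502) (nat_lit 5) (nat_lit 526) (nat_lit 5) (nat_lit 442) (nat_lit 432) (nat_lit 326)) (XT.lf (nat_lit 76) (nat_lit 1001617914) (nat_lit 0) (nat_lit 4555307211) (nat_lit 1824) (nat_lit 7099817110) (nat_lit 504) (nat_lit 5) (nat_lit 503) (nat_lit 5) (nat_lit 527) (nat_lit 5) (nat_lit 443) (nat_lit 432) (nat_lit 325))) (XT.nd (nat_lit 78) (nat_lit 0) (nat_lit 0) (XT.lf (nat_lit 0) (nat_lit 7319523904) (nat_lit 1748) (nat_lit 1645170575) (nat_lit 1824) (nat_lit 3879136061) (nat_lit 504) (nat_lit 5) (nat_lit 527) (nat_lit 5) (nat_lit 528) (nat_lit 5) (nat_lit 444) (nat_lit 432) (nat_lit 324)) (XT.lf (nat_lit 76) (nat_lit 8729759999) (nat_lit 0) (nat_lit 467000068) (nat_lit 1824) (nat_lit 3838537802) (nat_lit 505) (nat_lit 5) (nat_lit 504) (nat_lit 5) (nat_lit 528) (nat_lit 5) (nat_lit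 445) (nat_lit 432) (nat_lit 323)))))) (XT.nd (nat_lit 546) (nat_lit 5168) (nat_lit 0) (XT.nd (nat_lit 234) (nat_lit 3724) (nat_lit 0) (XT.nd (nat_lit 78) (nat_lit 1748) (nat_lit 0) (XT.lf (nat_lit 76) (nat_lit 6214231821) (nat_lit 0) (nat_lit 4996715806) (nat_lit 1824) (nat_lit 2019950424) (nat_lit 506) (nat_lit 5) (nat_lit 505) (nat_lit 5) (nat_lit 529) (nat_lit 5) (nat_lit 446) (nat_lit 432) (nat_lit 322)) (XT.nd (nat_lit 78) (nat_lit 1824) (nat_lit 0) (XT.lf (nat_lit 76) (nat_lit 3677515125) (nat_lit 0) (nat_lit 9664688452) (nat_lit 1824) (nat_lit 89031278) (nat_lit 507) (nat_lit 5) (nat_lit 506) (nat_lit 5) (nat_lit 530) (nat_lit 5) (nat_lit 447) (nat_lit 432) (nat_lit 321)) (XT.lf (nat_lit 76) (nat_lit 1100540403) (nat_lit 0) (nat_lit 839096469) (nat_lit 1900) (nat_lit 11696404841) (nat_lit 483) (nat_lit 5) (nat_lit 482) (nat_lit 5) (nat_lit 507) (nat_lit 5) (nat_lit 448) (nat_lit 432) (nat_lit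 320)))) (XT.nd (nat_lit 156) (nat_lit 1976) (nat_lit 0) (XT.nd (nat_lit 78) (nat_lit 1824) (nat_lit 0) (XT.lf (nat_lit 0) (nat_lit 4124969664) (nat_lit 1824) (nat_lit 1506269591) (nat_lit 76) (nat_lit 8213802831) (nat_lit 483) (nat_lit 5) (nat_lit 507) (nat_lit 5) (nat_lit 484) (nat_lit 5) (nat_lit 449) (nat_lit 432) (nat_lit 319)) (XT.lf (nat_lit 0) (nat_lit 6446669522) (nat_lit 1900) (nat_lit 4122816360) (nat_lit 76) (nat_lit 3489411768) (nat_lit 459) (nat_lit 5) (nat_lit 484) (nat_lit 5) (nat_lit 460) (nat_lit 5) (nat_lit 450) (nat_lit 432) (nat_lit 318))) (XT.nd (nat_lit 78) (nat_lit 912) (nat_lit 0) (XT.lf (nat_lit 0) (nat_lit 7504558482) (nat_lit 1064) (nat_lit 1408243065) (nat_lit 1140) (nat_lit 5364872995) (nat_lit 445) (nat_lit 5) (nat_lit 459) (nat_lit 5) (nat_lit 460) (nat_lit 5) (nat_lit 451) (nat_lit 432) (nat_lit 317)) (XT.lf (nat_lit 0) (nat_lit 5028756925) (nat_lit 912) (nat_lit 6515705499)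 (nat_lit 988) (nat_lit 2956722665) (nat_lit 433) (nat_lit 5) (nat_lit 445) (nat_lit 5) (nat_lit 446) (nat_lit 5) (nat_lit 452) (nat_lit 432) (nat_lit 316))))) (XT.nd (nat_lit 234) (nat_lit 3344) (nat_lit 0) (XT.nd (nat_lit 78) (nat_lit 912) (nat_lit 0) (XT.lf (nat_lit 0) (nat_lit 2531830741) (nat_lit 912) (nat_lit 11793292189) (nat_lit 988) (nat_lit 404878237) (nat_lit 421) (nat_lit 5) (nat_lit 433) (nat_lit 5) (nat_lit 434) (nat_lit 5) (nat_lit 453) (nat_lit 432) (nat_lit 315)) (XT.nd (nat_lit 78) (nat_lit 836) (nat_lit 0) (XT.lf (nat_lit 0) (nat_lit 2282048216) (nat_lit 988) (nat_lit 16640383) (nat_lit 76) (nat_lit 12664951777) (nat_lit 420) (nat_lit 5) (nat_lit 433) (nat_lit 5) (nat_lit 421) (nat_lit 5) (nat_lit 454) (nat_lit 432) (nat_lit 314)) (XT.lf (nat_lit 0) (nat_lit 5155642984) (nat_lit 912) (nat_lit 2577377892) (nat_lit 76) (nat_lit 7468984254) (nat_lit 409) (nat_lit 5) (nat_lit 421) (nat_lit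 5) (nat_lit 410) (nat_lit 5) (nat_lit 455) (nat_lit 432) (nat_lit 313)))) (XT.nd (nat_lit 156) (nat_lit 1672) (nat_lit 0) (XT.nd (nat_lit 78) (nat_lit 836) (nat_lit 0) (XT.lf (nat_lit 0) (nat_lit 8192120110) (nat_lit 912) (nat_lit 5161690057) (nat_lit 76) (nat_lit 2092178255) (nat_lit 398) (nat_lit 5) (nat_lit 410) (nat_lit 5) (nat_lit 399) (nat_lit 5) (nat_lit 456) (nat_lit 432) (nat_lit 312)) (XT.lf (nat_lit 0) (nat_lit 7902712412) (nat_lit 836) (nat_lit 3518588711) (nat_lit 912) (nat_lit 4273958952) (nat_lit 387) (nat_lit 5) (nat_lit 398) (nat_lit 5) (nat_lit 399) (nat_lit 5) (nat_lit 457) (nat_lit 432) (nat_lit 311))) (XT.nd (nat_lit 78) (nat_lit 836) (nat_lit 0) (XT.lf (nat_lit 0) (nat_lit 5487883043) (nat_lit 836) (nat_lit 9354674523) (nat_lit 912) (nat_lit 1107549335) (nat_lit 376) (nat_lit 5) (nat_lit 387) (nat_lit 5) (nat_lit 388) (nat_lit 5) (nat_lit 458) (nat_lit 432) (nat_lit 310)) (XT.lf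 (nat_lit 0) (nat_lit 2209245596) (nat_lit 836) (nat_lit 13171553428) (nat_lit 76) (nat_lit 829848575) (nat_lit 365) (nat_lit 5) (nat_lit 376) (nat_lit 5) (nat_lit 366) (nat_lit 5) (nat_lit 459) (nat_lit 432) (nat_lit 309))))))) (XT.nd (nat_lit 1014) (nat_lit 6080) (nat_lit 0) (XT.nd (nat_lit 468) (nat_lit 3876) (nat_lit 0) (XT.nd (nat_lit 234) (nat_lit 2204) (nat_lit 0) (XT.nd (nat_lit 78) (nat_lit 684) (nat_lit 0) (XT.lf (nat_lit 0) (nat_lit 528274913) (nat_lit 760) (nat_lit 5201792637) (nat_lit 836) (nat_lit 10746400086) (nat_lit 355) (nat_lit 5) (nat_lit 365) (nat_lit 5) (nat_lit 366) (nat_lit 5) (nat_lit 460) (nat_lit 432) (nat_lit 308)) (XT.nd (nat_lit 78) (nat_lit 684) (nat_lit 0) (XT.lf (nat_lit 0) (nat_lit 9463176389) (nat_lit 836) (nat_lit 1983293655) (nat_lit 76) (nat_lit 5301659905) (nat_lit 355) (nat_lit 5) (nat_lit 366) (nat_lit 5) (nat_lit 356) (nat_lit 5) (nat_lit 461) (nat_lit 432)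 (nat_lit 307)) (XT.lf (nat_lit 0) (nat_lit 12511093899) (nat_lit 684) (nat_lit 896229267) (nat_lit 760) (nat_lit 3618638961) (nat_lit 346) (nat_lit 5) (nat_lit 355) (nat_lit 5) (nat_lit 356) (nat_lit 5) (nat_lit 462) (nat_lit 432) (nat_lit 306)))) (XT.nd (nat_lit 78) (nat_lit 1368) (nat_lit 0) (XT.lf (nat_lit 0) (nat_lit 284360519) (nat_lit 836) (nat_lit 7105588479) (nat_lit 76) (nat_lit 9919585384) (nat_lit 335) (nat_lit 5) (nat_lit 346) (nat_lit 5) (nat_lit 336) (nat_lit 5) (nat_lit 463) (nat_lit 432) (nat_lit 305)) (XT.nd (nat_lit 78) (nat_lit 684) (nat_lit 0) (XT.lf (nat_lit 0) (nat_lit 4350224496) (nat_lit 760) (nat_lit 9743382500) (nat_lit 76) (nat_lit 3505630496) (nat_lit 326) (nat_lit 5) (nat_lit 336) (nat_lit 5) (nat_lit 327) (nat_lit 5) (nat_lit 464) (nat_lit 432) (nat_lit 304)) (XT.lf (nat_lit 0) (nat_lit 5470048241) (nat_lit 684) (nat_lit 3185406867) (nat_lit 760) (nat_lit 9239829572) (nat_lit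 317) (nat_lit 5) (nat_lit 326) (nat_lit 5) (nat_lit 327) (nat_lit 5) (nat_lit 465) (nat_lit 432) (nat_lit 303))))) (XT.nd (nat_lit 234) (nat_lit 2508) (nat_lit 0) (XT.nd (nat_lit 78) (nat_lit 760) (nat_lit 0) (XT.lf (nat_lit 0) (nat_lit 3042880145) (nat_lit 608) (nat_lit 10169763018) (nat_lit 684) (nat_lit 4985114888) (nat_lit 309) (nat_lit 5) (nat_lit 317) (nat_lit 5) (nat_lit 318) (nat_lit 5) (nat_lit 466) (nat_lit 432) (nat_lit 302)) (XT.nd (nat_lit 78) (nat_lit 76) (nat_lit 0) (XT.lf (nat_lit 0) (nat_lit 598297142) (nat_lit 684) (nat_lit 17409345315) (nat_lit 760) (nat_lit 499642008) (nat_lit 300) (nat_lit 5) (nat_lit 309) (nat_lit 5) (nat_lit 310) (nat_lit 5) (nat_lit 467) (nat_lit 432) (nat_lit 301)) (XT.lf (nat_lit 0) (nat_lit 4222601613) (nat_lit 760) (nat_lit 1906541441) (nat_lit 76) (nat_lit 12693294361) (nat_lit 299) (nat_lit 5) (nat_lit 309) (nat_lit 5) (nat_lit 300) (nat_lit 5) (nat_lit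 468) (nat_lit 432) (nat_lit 300)))) (XT.nd (nat_lit 156) (nat_lit 1292) (nat_lit 0) (XT.nd (nat_lit 78) (nat_lit 608) (nat_lit 0) (XT.lf (nat_lit 0) (nat_lit 9197096116) (nat_lit 684) (nat_lit 4433599522) (nat_lit 76) (nat_lit 5513936526) (nat_lit 291) (nat_lit 5) (nat_lit 300) (nat_lit 5) (nat_lit 292) (nat_lit 5) (nat_lit 469) (nat_lit 432) (nat_lit 299)) (XT.lf (nat_lit 0) (nat_lit 12481621764) (nat_lit 608) (nat_lit 1959830160) (nat_lit 684) (nat_lit 5032628977) (nat_lit 283) (nat_lit 5) (nat_lit 291) (nat_lit 5) (nat_lit 292) (nat_lit 5) (nat_lit 470) (nat_lit 432) (nat_lit 298))) (XT.nd (nat_lit 78) (nat_lit 608) (nat_lit 0) (XT.lf (nat_lit 0) (nat_lit 177995874) (nat_lit 684) (nat_lit 9609137975) (nat_lit 76) (nat_lit 10023302829) (nat_lit 274) (nat_lit 5) (nat_lit 283) (nat_lit 5) (nat_lit 275) (nat_lit 5) (nat_lit 471) (nat_lit 432) (nat_lit 297)) (XT.lf (nat_lit 0) (nat_lit 5590085205) (nat_lit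 684) (nat_lit 12280094182) (nat_lit 76) (nat_lit 2283768664) (nat_lit 266) (nat_lit 5) (nat_lit 275) (nat_lit 5) (nat_lit 267) (nat_lit 5) (nat_lit 472) (nat_lit 432) (nat_lit 296)))))) (XT.nd (nat_lit 546) (nat_lit 2812) (nat_lit 0) (XT.nd (nat_lit 234) (nat_lit 1596) (nat_lit 0) (XT.nd (nat_lit 78) (nat_lit 1140) (nat_lit 0) (XT.lf (nat_lit 0) (nat_lit 5494768259) (nat_lit 532) (nat_lit 5822787015) (nat_lit 608) (nat_lit 9187149735) (nat_lit 259) (nat_lit 5) (nat_lit 266) (nat_lit 5) (nat_lit 267) (nat_lit 5) (nat_lit 473) (nat_lit 432) (nat_lit 295)) (XT.nd (nat_lit 78) (nat_lit 608) (nat_lit 0) (XT.lf (nat_lit 0) (nat_lit 3086039273) (nat_lit 532) (nat_lit 14263975103) (nat_lit 608) (nat_lit 3513307592) (nat_lit 252) (nat_lit 5) (nat_lit 259) (nat_lit 5) (nat_lit 260) (nat_lit 5) (nat_lit 474) (nat_lit 432) (nat_lit 294)) (XT.lf (nat_lit 0) (nat_lit 635621571) (nat_lit 532) (nat_lit 1796803965)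 (nat_lit 608) (nat_lit 18797324925) (nat_lit 244) (nat_lit 5) (nat_lit 251) (nat_lit 5) (nat_lit 252) (nat_lit 5) (nat_lit 475) (nat_lit 432) (nat_lit 293)))) (XT.nd (nat_lit 156) (nat_lit 1064) (nat_lit 0) (XT.nd (nat_lit 78) (nat_lit 532) (nat_lit 0) (XT.lf (nat_lit 0) (nat_lit 8689075329) (nat_lit 608) (nat_lit 1874114127) (nat_lit 76) (nat_lit 11039912905) (nat_lit 244) (nat_lit 5) (nat_lit 252) (nat_lit 5) (nat_lit 245) (nat_lit 5) (nat_lit 476) (nat_lit 432) (nat_lit 292)) (XT.lf (nat_lit 0) (nat_lit 15262521462) (nat_lit 608) (nat_lit 4391371926) (nat_lit 76) (nat_lit 2331180021) (nat_lit 237) (nat_lit 5) (nat_lit 245) (nat_lit 5) (nat_lit 238) (nat_lit 5) (nat_lit 477) (nat_lit 432) (nat_lit 291))) (XT.nd (nat_lit 78) (nat_lit 608) (nat_lit 0) (XT.lf (nat_lit 0) (nat_lit 15407268808) (nat_lit 456) (nat_lit 6797001730) (nat_lit 532) (nat_lit 170811573) (nat_lit 231) (nat_lit 5) (nat_lit 237)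 (nat_lit 5) (nat_lit 238) (nat_lit 5) (nat_lit 478) (nat_lit 432) (nat_lit 290)) (XT.lf (nat_lit 0) (nat_lit 6637532995) (nat_lit 608) (nat_lit 9619690436) (nat_lit 76) (nat_lit 6515787686) (nat_lit 223) (nat_lit 5) (nat_lit 231) (nat_lit 5) (nat_lit 224) (nat_lit 5) (nat_lit 479) (nat_lit 432) (nat_lit 289))))) (XT.nd (nat_lit 234) (nat_lit 1368) (nat_lit 0) (XT.nd (nat_lit 78) (nat_lit 988) (nat_lit 0) (XT.lf (nat_lit 0) (nat_lit 10870337330) (nat_lit 456) (nat_lit 2929071812) (nat_lit 532) (nat_lit 9380414707) (nat_lit 217) (nat_lit 5) (nat_lit 223) (nat_lit 5) (nat_lit 224) (nat_lit 5) (nat_lit 480) (nat_lit 432) (nat_lit 288)) (XT.nd (nat_lit 78) (nat_lit 532) (nat_lit 0) (XT.lf (nat_lit 0) (nat_lit 8533800054) (nat_lit 456) (nat_lit 12821717626) (nat_lit 532) (nat_lit 2239736222) (nat_lit 211) (nat_lit 5) (nat_lit 217) (nat_lit 5) (nat_lit 218) (nat_lit 5) (nat_lit 481) (nat_lit 432) (nat_lit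 287)) (XT.lf (nat_lit 0) (nat_lit 5186385601) (nat_lit 532) (nat_lit 17866030472) (nat_lit 76) (nat_lit 967300816) (nat_lit 204) (nat_lit 5) (nat_lit 211) (nat_lit 5) (nat_lit 205) (nat_lit 5) (nat_lit 482) (nat_lit 432) (nat_lit 286)))) (XT.nd (nat_lit 156) (nat_lit 532) (nat_lit 0) (XT.nd (nat_lit 78) (nat_lit 380) (nat_lit 0) (XT.lf (nat_lit 0) (nat_lit 3686939629) (nat_lit 456) (nat_lit 9319110355) (nat_lit 532) (nat_lit 11446544350) (nat_lit 198) (nat_lit 5) (nat_lit 204) (nat_lit 5) (nat_lit 205) (nat_lit 5) (nat_lit 483) (nat_lit 432) (nat_lit 285)) (XT.lf (nat_lit 0) (nat_lit 1202134573) (nat_lit 380) (nat_lit 20007965163) (nat_lit 456) (nat_lit 3685362872) (nat_lit 193) (nat_lit 5) (nat_lit 198) (nat_lit 5) (nat_lit 199) (nat_lit 5) (nat_lit 484) (nat_lit 432) (nat_lit 284))) (XT.nd (nat_lit 78) (nat_lit 456) (nat_lit 0) (XT.lf (nat_lit 0) (nat_lit 4445048641) (nat_lit 456) (nat_lit 1343218781)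 (nat_lit 76) (nat_lit 19558932340) (nat_lit 192) (nat_lit 5) (nat_lit 198) (nat_lit 5) (nat_lit 193) (nat_lit 5) (nat_lit 485) (nat_lit 432) (nat_lit 283)) (XT.lf (nat_lit 0) (nat_lit 12959778461) (nat_lit 532) (nat_lit 3943570947) (nat_lit 76) (nat_lit 8904843290) (nat_lit 186) (nat_lit 5) (nat_lit 193) (nat_lit 5) (nat_lit 187) (nat_lit 5) (nat_lit 486) (nat_lit 432) (nat_lit 282))))))))
noncomputable def xc85 : XT := (XT.nd (nat_lit 58968) (nat_lit 0) (nat_lit 14668) (XT.nd (nat_lit 1014) (nat_lit 1444) (nat_lit 0) (XT.nd (nat_lit 468) (nat_lit 2204) (nat_lit 0) (XT.nd (nat_lit 234) (nat_lit 1216) (nat_lit 0) (XT.nd (nat_lit 78) (nat_lit 836) (nat_lit 0) (XT.lf (nat_lit 0) (nat_lit 19708125049) (nat_lit 380) (nat_lit 2187090461) (nat_lit 456) (nat_lit 4384494974) (nat_lit 181) (nat_lit 5) (nat_lit 186) (nat_lit 5) (nat_lit 187) (nat_lit 5) (nat_lit 487) (nat_lit 432) (nat_lit 281)) (XT.nd (nat_lit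 78) (nat_lit 380) (nat_lit 0) (XT.lf (nat_lit 0) (nat_lit 4492192550) (nat_lit 456) (nat_lit 9302915011) (nat_lit 76) (nat_lit 12965390233) (nat_lit 175) (nat_lit 5) (nat_lit 181) (nat_lit 5) (nat_lit 176) (nat_lit 5) (nat_lit 488) (nat_lit 432) (nat_lit 280)) (XT.lf (nat_lit 0) (nat_lit 13733187022) (nat_lit 456) (nat_lit 12079631725) (nat_lit 76) (nat_lit 1439159200) (nat_lit 170) (nat_lit 5) (nat_lit 176) (nat_lit 5) (nat_lit 171) (nat_lit 5) (nat_lit 489) (nat_lit 432) (nat_lit 279)))) (XT.nd (nat_lit 78) (nat_lit 836) (nat_lit 0) (XT.lf (nat_lit 0) (nat_lit 12812081424) (nat_lit 380) (nat_lit 10668132773) (nat_lit 456) (nat_lit 4273412582) (nat_lit 165) (nat_lit 5) (nat_lit 170) (nat_lit 5) (nat_lit 171) (nat_lit 5) (nat_lit 490) (nat_lit 432) (nat_lit 278)) (XT.nd (nat_lit 78) (nat_lit 380) (nat_lit 0) (XT.lf (nat_lit 0) (nat_lit 5353858582) (nat_lit 456) (nat_lit 17866037646) (nat_lit 76) (nat_lit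 5046279977) (nat_lit 159) (nat_lit 5) (nat_lit 165) (nat_lit 5) (nat_lit 160) (nat_lit 5) (nat_lit 491) (nat_lit 432) (nat_lit 277)) (XT.lf (nat_lit 0) (nat_lit 7902231812) (nat_lit 380) (nat_lit 7524749115) (nat_lit 456) (nat_lit 13362254709) (nat_lit 154) (nat_lit 5) (nat_lit 159) (nat_lit 5) (nat_lit 160) (nat_lit 5) (nat_lit 492) (nat_lit 432) (nat_lit 276))))) (XT.nd (nat_lit 234) (nat_lit 1140) (nat_lit 0) (XT.nd (nat_lit 78) (nat_lit 760) (nat_lit 0) (XT.lf (nat_lit 0) (nat_lit 5360694307) (nat_lit 304) (nat_lit 20644725254) (nat_lit 380) (nat_lit 3318505134) (nat_lit 150) (nat_lit 5) (nat_lit 154) (nat_lit 5) (nat_lit 155) (nat_lit 5) (nat_lit 493) (nat_lit 432) (nat_lit 275)) (XT.nd (nat_lit 78) (nat_lit 304) (nat_lit 0) (XT.lf (nat_lit 0) (nat_lit 2733755949) (nat_lit 380) (nat_lit 4401657236) (nat_lit 456) (nat_lit 22734308888) (nat_lit 144) (nat_lit 5) (nat_lit 149) (nat_lit 5) (nat_lit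 150) (nat_lit 5) (nat_lit 494) (nat_lit 432) (nat_lit 274)) (XT.lf (nat_lit 0) (nat_lit 12844835) (nat_lit 304) (nat_lit 18079474155) (nat_lit 380) (nat_lit 12334446843) (nat_lit 140) (nat_lit 5) (nat_lit 144) (nat_lit 5) (nat_lit 145) (nat_lit 5) (nat_lit 495) (nat_lit 432) (nat_lit 273)))) (XT.nd (nat_lit 156) (nat_lit 684) (nat_lit 0) (XT.nd (nat_lit 78) (nat_lit 456) (nat_lit 0) (XT.lf (nat_lit 0) (nat_lit 28302949862) (nat_lit 304) (nat_lit 1278894731) (nat_lit 380) (nat_lit 1414598329) (nat_lit 140) (nat_lit 5) (nat_lit 144) (nat_lit 5) (nat_lit 145) (nat_lit 5) (nat_lit 496) (nat_lit 432) (nat_lit 272)) (XT.lf (nat_lit 0) (nat_lit 9970050254) (nat_lit 456) (nat_lit 5561443473) (nat_lit 76) (nat_lit 16045116740) (nat_lit 134) (nat_lit 5) (nat_lit 140) (nat_lit 5) (nat_lit 135) (nat_lit 5) (nat_lit 497) (nat_lit 432) (nat_lit 271))) (XT.nd (nat_lit 78) (nat_lit 380) (nat_lit 0) (XT.lf (nat_lit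 0) (nat_lit 21861426991) (nat_lit 380) (nat_lit 8455937575) (nat_lit 76) (nat_lit 1852943561) (nat_lit 130) (nat_lit 5) (nat_lit 135) (nat_lit 5) (nat_lit 131) (nat_lit 5) (nat_lit 498) (nat_lit 432) (nat_lit 270)) (XT.lf (nat_lit 0) (nat_lit 1583632334) (nat_lit 380) (nat_lit 11462006756) (nat_lit 76) (nat_lit 19730539102) (nat_lit 125) (nat_lit 5) (nat_lit 130) (nat_lit 5) (nat_lit 126) (nat_lit 5) (nat_lit 499) (nat_lit 432) (nat_lit 269)))))) (XT.nd (nat_lit 57408) (nat_lit 0) (nat_lit 29944) (XT.nd (nat_lit 234) (nat_lit 532) (nat_lit 0) (XT.nd (nat_lit 78) (nat_lit 608) (nat_lit 0) (XT.lf (nat_lit 0) (nat_lit 13897565276) (nat_lit 380) (nat_lit 14569945229) (nat_lit 76) (nat_lit 4927257223) (nat_lit 121) (nat_lit 5) (nat_lit 126) (nat_lit 5) (nat_lit 122) (nat_lit 5) (nat_lit 500) (nat_lit 432) (nat_lit 268)) (XT.nd (nat_lit 78) (nat_lit 304) (nat_lit 0) (XT.lf (nat_lit 0) (nat_lit 16258187710)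 (nat_lit 304) (nat_lit 10585208642) (nat_lit 380) (nat_lit 7183269217) (nat_lit 117) (nat_lit 5) (nat_lit 121) (nat_lit 5) (nat_lit 122) (nat_lit 5) (nat_lit 501) (nat_lit 432) (nat_lit 267)) (XT.lf (nat_lit 0) (nat_lit 5659951027) (nat_lit 304) (nat_lit 21061581025) (nat_lit 76) (nat_lit 7950634228) (nat_lit 113) (nat_lit 5) (nat_lit 117) (nat_lit 5) (nat_lit 114) (nat_lit 5) (nat_lit 502) (nat_lit 432) (nat_lit 266)))) (XT.nd (nat_lit 57018) (nat_lit 0) (nat_lit 31388) (XT.nd (nat_lit 78) (nat_lit 228) (nat_lit 0) (XT.lf (nat_lit 0) (nat_lit 10848409340) (nat_lit 304) (nat_lit 8197164647) (nat_lit 380) (nat_lit 16285414633) (nat_lit 109) (nat_lit 5) (nat_lit 113) (nat_lit 5) (nat_lit 114) (nat_lit 5) (nat_lit 503) (nat_lit 432) (nat_lit 265)) (XT.lf (nat_lit 0) (nat_lit 8017050404) (nat_lit 228) (nat_lit 25073925551) (nat_lit 304) (nat_lit 2913435667) (nat_lit 106) (nat_lit 5) (nat_lit 109) (nat_lit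 5) (nat_lit 110) (nat_lit 5) (nat_lit 504) (nat_lit 432) (nat_lit 264))) (XT.nd (nat_lit 78) (nat_lit 0) (nat_lit 0) (XT.lf (nat_lit 0) (nat_lit 2526288321) (nat_lit 1748) (nat_lit 1524744449) (nat_lit 1748) (nat_lit 1524744449) (nat_lit 519) (nat_lit 3) (nat_lit 542) (nat_lit 3) (nat_lit 542) (nat_lit 5) (nat_lit 433) (nat_lit 433) (nat_lit 334)) (XT.lf (nat_lit 76) (nat_lit 5316542930) (nat_lit 0) (nat_lit 674764657) (nat_lit 1748) (nat_lit 5310207998) (nat_lit 520) (nat_lit 5) (nat_lit 519) (nat_lit 3) (nat_lit 542) (nat_lit 5) (nat_lit 434) (nat_lit 433) (nat_lit 333))))) (XT.nd (nat_lit 234) (nat_lit 1520) (nat_lit 0) (XT.nd (nat_lit 78) (nat_lit 0) (nat_lit 76) (XT.lf (nat_lit 76) (nat_lit 2489498018) (nat_lit 0) (nat_lit 4518618281) (nat_lit 1748) (nat_lit 4446863032) (nat_lit 521) (nat_lit 5) (nat_lit 520) (nat_lit 5) (nat_lit 543) (nat_lit 5) (nat_lit 435) (nat_lit 433) (nat_lit 332)) (XT.nd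 (nat_lit 78) (nat_lit 0) (nat_lit 0) (XT.lf (nat_lit 0) (nat_lit 8089798660) (nat_lit 1672) (nat_lit 355241103) (nat_lit 1748) (nat_lit 3167321861) (nat_lit 521) (nat_lit 5) (nat_lit 543) (nat_lit 5) (nat_lit 544) (nat_lit 5) (nat_lit 436) (nat_lit 433) (nat_lit 331)) (XT.lf (nat_lit 76) (nat_lit 8578210639) (nat_lit 0) (nat_lit 681135203) (nat_lit 1748) (nat_lit 2514013215) (nat_lit 522) (nat_lit 5) (nat_lit 521) (nat_lit 5) (nat_lit 544) (nat_lit 5) (nat_lit 437) (nat_lit 433) (nat_lit 330)))) (XT.nd (nat_lit 156) (nat_lit 1672) (nat_lit 0) (XT.nd (nat_lit 78) (nat_lit 0) (nat_lit 76) (XT.lf (nat_lit 76) (nat_lit 5856911755) (nat_lit 0) (nat_lit 4665376256) (nat_lit 1748) (nat_lit 1415734137) (nat_lit 523) (nat_lit 5) (nat_lit 522) (nat_lit 5) (nat_lit 545) (nat_lit 5) (nat_lit 438) (nat_lit 433) (nat_lit 329)) (XT.lf (nat_lit 76) (nat_lit 3113357931) (nat_lit 0) (nat_lit 8749217436) (nat_lit 1748)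 (nat_lit 244262475) (nat_lit 524) (nat_lit 5) (nat_lit 523) (nat_lit 5) (nat_lit 546) (nat_lit 5) (nat_lit 439) (nat_lit 433) (nat_lit 328))) (XT.nd (nat_lit 78) (nat_lit 0) (nat_lit 76) (XT.lf (nat_lit 76) (nat_lit 335457480) (nat_lit 0) (nat_lit 660851798) (nat_lit 1824) (nat_lit 11283353975) (nat_lit 501) (nat_lit 5) (nat_lit 500) (nat_lit 5) (nat_lit 524) (nat_lit 5) (nat_lit 440) (nat_lit 433) (nat_lit 327)) (XT.lf (nat_lit 0) (nat_lit 2354433974) (nat_lit 1748) (nat_lit 2459471530) (nat_lit 1824) (nat_lit 7642064255) (nat_lit 501) (nat_lit 5) (nat_lit 524) (nat_lit 5) (nat_lit 525) (nat_lit 5) (nat_lit 441) (nat_lit 433) (nat_lit 326))))))) (XT.nd (nat_lit 1092) (nat_lit 8360) (nat_lit 0) (XT.nd (nat_lit 546) (nat_lit 5548) (nat_lit 0) (XT.nd (nat_lit 234) (nat_lit 1520) (nat_lit 0) (XT.nd (nat_lit 78) (nat_lit 0) (nat_lit 0) (XT.lf (nat_lit 0) (nat_lit 3802363556) (nat_lit 1748) (nat_lit 5276238116)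 (nat_lit 1824) (nat_lit 3557984223) (nat_lit 502) (nat_lit 5) (nat_lit 525) (nat_lit 5) (nat_lit 526) (nat_lit 5) (nat_lit 442) (nat_lit 433) (nat_lit 325)) (XT.nd (nat_lit 78) (nat_lit 0) (nat_lit 76) (XT.lf (nat_lit 76) (nat_lit 4697149460) (nat_lit 0) (nat_lit 650055509) (nat_lit 1824) (nat_lit 7474347677) (nat_lit 503) (nat_lit 5) (nat_lit 502) (nat_lit 5) (nat_lit 526) (nat_lit 5) (nat_lit 443) (nat_lit 433) (nat_lit 324)) (XT.lf (nat_lit 76) (nat_lit 1985717611) (nat_lit 0) (nat_lit 5028397355) (nat_lit 1824) (nat_lit 5996440531) (nat_lit 504) (nat_lit 5) (nat_lit 503) (nat_lit 5) (nat_lit 527) (nat_lit 5) (nat_lit 444) (nat_lit 433) (nat_lit 323)))) (XT.nd (nat_lit 156) (nat_lit 1672) (nat_lit 0) (XT.nd (nat_lit 78) (nat_lit 0) (nat_lit 0) (XT.lf (nat_lit 0) (nat_lit 8789884140) (nat_lit 1748) (nat_lit 741006763) (nat_lit 1824) (nat_lit 3673162011) (nat_lit 504) (nat_lit 5) (nat_lit 527) (nat_lit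 5) (nat_lit 528) (nat_lit 5) (nat_lit 445) (nat_lit 433) (nat_lit 322)) (XT.lf (nat_lit 76) (nat_lit 9929702016) (nat_lit 0) (nat_lit 763395483) (nat_lit 1824) (nat_lit 2708775806) (nat_lit 505) (nat_lit 5) (nat_lit 504) (nat_lit 5) (nat_lit 528) (nat_lit 5) (nat_lit 446) (nat_lit 433) (nat_lit 321))) (XT.nd (nat_lit 78) (nat_lit 1748) (nat_lit 0) (XT.lf (nat_lit 76) (nat_lit 7349379231) (nat_lit 0) (nat_lit 5387164505) (nat_lit 1824) (nat_lit 867423273) (nat_lit 506) (nat_lit 5) (nat_lit 505) (nat_lit 5) (nat_lit 529) (nat_lit 5) (nat_lit 447) (nat_lit 433) (nat_lit 320)) (XT.lf (nat_lit 0) (nat_lit 1076582441) (nat_lit 1824) (nat_lit 9071820934) (nat_lit 1900) (nat_lit 3662369664) (nat_lit 482) (nat_lit 5) (nat_lit 506) (nat_lit 5) (nat_lit 507) (nat_lit 5) (nat_lit 448) (nat_lit 433) (nat_lit 319))))) (XT.nd (nat_lit 234) (nat_lit 3800) (nat_lit 0) (XT.nd (nat_lit 78) (nat_lit 1748) (nat_lit 0)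 (XT.lf (nat_lit 76) (nat_lit 2091670999) (nat_lit 0) (nat_lit 1045464982) (nat_lit 1900) (nat_lit 10885133667) (nat_lit 483) (nat_lit 5) (nat_lit 482) (nat_lit 5) (nat_lit 507) (nat_lit 5) (nat_lit 449) (nat_lit 433) (nat_lit 318)) (XT.nd (nat_lit 78) (nat_lit 1824) (nat_lit 0) (XT.lf (nat_lit 0) (nat_lit 5353702794) (nat_lit 1824) (nat_lit 597919676) (nat_lit 76) (nat_lit 8286606036) (nat_lit 483) (nat_lit 5) (nat_lit 507) (nat_lit 5) (nat_lit 484) (nat_lit 5) (nat_lit 450) (nat_lit 433) (nat_lit 317)) (XT.lf (nat_lit 0) (nat_lit 7718045892) (nat_lit 1900) (nat_lit 3285877480) (nat_lit 76) (nat_lit 3455118418) (nat_lit 459) (nat_lit 5) (nat_lit 484) (nat_lit 5) (nat_lit 460) (nat_lit 5) (nat_lit 451) (nat_lit 433) (nat_lit 316)))) (XT.nd (nat_lit 156) (nat_lit 1824) (nat_lit 0) (XT.nd (nat_lit 78) (nat_lit 912) (nat_lit 0) (XT.lf (nat_lit 0) (nat_lit 8674733634) (nat_lit 1064) (nat_lit 1558166692)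 (nat_lit 1140) (nat_lit 4451988736) (nat_lit 445) (nat_lit 5) (nat_lit 459) (nat_lit 5) (nat_lit 460) (nat_lit 5) (nat_lit 452) (nat_lit 433) (nat_lit 315)) (XT.lf (nat_lit 0) (nat_lit 6130786808) (nat_lit 912) (nat_lit 6787559492) (nat_lit 988) (nat_lit 1997263709) (nat_lit 433) (nat_lit 5) (nat_lit 445) (nat_lit 5) (nat_lit 446) (nat_lit 5) (nat_lit 453) (nat_lit 433) (nat_lit 314))) (XT.nd (nat_lit 78) (nat_lit 836) (nat_lit 0) (XT.lf (nat_lit 0) (nat_lit 598496716) (nat_lit 988) (nat_lit 11591428371) (nat_lit 76) (nat_lit 2961772468) (nat_lit 420) (nat_lit 5) (nat_lit 433) (nat_lit 5) (nat_lit 421) (nat_lit 5) (nat_lit 454) (nat_lit 433) (nat_lit 313)) (XT.lf (nat_lit 0) (nat_lit 936875430) (nat_lit 836) (nat_lit 2400350008) (nat_lit 912) (nat_lit 12055534727) (nat_lit 409) (nat_lit 5) (nat_lit 420) (nat_lit 5) (nat_lit 421) (nat_lit 5) (nat_lit 455) (nat_lit 433) (nat_lit 312)))))) (XT.nd (nat_lit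 546) (nat_lit 4256) (nat_lit 0) (XT.nd (nat_lit 234) (nat_lit 2432) (nat_lit 0) (XT.nd (nat_lit 78) (nat_lit 1672) (nat_lit 0) (XT.lf (nat_lit 0) (nat_lit 6268192825) (nat_lit 912) (nat_lit 1708829279) (nat_lit 76) (nat_lit 7661832067) (nat_lit 409) (nat_lit 5) (nat_lit 421) (nat_lit 5) (nat_lit 410) (nat_lit 5) (nat_lit 456) (nat_lit 433) (nat_lit 311)) (XT.nd (nat_lit 78) (nat_lit 836) (nat_lit 0) (XT.lf (nat_lit 0) (nat_lit 9373870713) (nat_lit 912) (nat_lit 4367208328) (nat_lit 76) (nat_lit 2149517349) (nat_lit 398) (nat_lit 5) (nat_lit 410) (nat_lit 5) (nat_lit 399) (nat_lit 5) (nat_lit 457) (nat_lit 433) (nat_lit 310)) (XT.lf (nat_lit 0) (nat_lit 9073724424) (nat_lit 836) (nat_lit 3605004674) (nat_lit 912) (nat_lit 3469042571) (nat_lit 387) (nat_lit 5) (nat_lit 398) (nat_lit 5) (nat_lit 399) (nat_lit 5) (nat_lit 458) (nat_lit 433) (nat_lit 309)))) (XT.nd (nat_lit 156) (nat_lit 760) (nat_lit 0)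 (XT.nd (nat_lit 78) (nat_lit 836) (nat_lit 0) (XT.lf (nat_lit 0) (nat_lit 6589224559) (nat_lit 836) (nat_lit 9592956708) (nat_lit 912) (nat_lit 228492940) (nat_lit 376) (nat_lit 5) (nat_lit 387) (nat_lit 5) (nat_lit 388) (nat_lit 5) (nat_lit 459) (nat_lit 433) (nat_lit 308)) (XT.lf (nat_lit 0) (nat_lit 3156023219) (nat_lit 836) (nat_lit 12616069586) (nat_lit 76) (nat_lit 907217613) (nat_lit 365) (nat_lit 5) (nat_lit 376) (nat_lit 5) (nat_lit 366) (nat_lit 5) (nat_lit 460) (nat_lit 433) (nat_lit 307))) (XT.nd (nat_lit 78) (nat_lit 0) (nat_lit 0) (XT.lf (nat_lit 0) (nat_lit 1479330756) (nat_lit 760) (nat_lit 5283565425) (nat_lit 836) (nat_lit 10190601706) (nat_lit 355) (nat_lit 5) (nat_lit 365) (nat_lit 5) (nat_lit 366) (nat_lit 5) (nat_lit 461) (nat_lit 433) (nat_lit 306)) (XT.lf (nat_lit 0) (nat_lit 10583390987) (nat_lit 836) (nat_lit 1118531210) (nat_lit 76) (nat_lit 5531881335) (nat_lit 355) (nat_lit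 5) (nat_lit 366) (nat_lit 5) (nat_lit 356) (nat_lit 5) (nat_lit 462) (nat_lit 433) (nat_lit 305))))) (XT.nd (nat_lit 234) (nat_lit 2052) (nat_lit 0) (XT.nd (nat_lit 78) (nat_lit 1520) (nat_lit 0) (XT.lf (nat_lit 0) (nat_lit 13795692929) (nat_lit 684) (nat_lit 831713983) (nat_lit 760) (nat_lit 2892934149) (nat_lit 346) (nat_lit 5) (nat_lit 355) (nat_lit 5) (nat_lit 356) (nat_lit 5) (nat_lit 463) (nat_lit 433) (nat_lit 304)) (XT.nd (nat_lit 78) (nat_lit 684) (nat_lit 0) (XT.lf (nat_lit 0) (nat_lit 1098761376) (nat_lit 836) (nat_lit 6397941455) (nat_lit 76) (nat_lit 10315959587) (nat_lit 335) (nat_lit 5) (nat_lit 346) (nat_lit 5) (nat_lit 336) (nat_lit 5) (nat_lit 464) (nat_lit 433) (nat_lit 303)) (XT.lf (nat_lit 0) (nat_lit 5269774384) (nat_lit 760) (nat_lit 9114766926) (nat_lit 76) (nat_lit 3726853031) (nat_lit 326) (nat_lit 5) (nat_lit 336) (nat_lit 5) (nat_lit 327) (nat_lit 5) (nat_lit 465) (nat_lit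 433) (nat_lit 302)))) (XT.nd (nat_lit 156) (nat_lit 760) (nat_lit 0) (XT.nd (nat_lit 78) (nat_lit 608) (nat_lit 0) (XT.lf (nat_lit 0) (nat_lit 6540125952) (nat_lit 684) (nat_lit 3146936322) (nat_lit 760) (nat_lit 8729603811) (nat_lit 317) (nat_lit 5) (nat_lit 326) (nat_lit 5) (nat_lit 327) (nat_lit 5) (nat_lit 466) (nat_lit 433) (nat_lit 301)) (XT.lf (nat_lit 0) (nat_lit 4039814350) (nat_lit 608) (nat_lit 10325392778) (nat_lit 684) (nat_lit 4363322820) (nat_lit 309) (nat_lit 5) (nat_lit 317) (nat_lit 5) (nat_lit 318) (nat_lit 5) (nat_lit 467) (nat_lit 433) (nat_lit 300))) (XT.nd (nat_lit 78) (nat_lit 0) (nat_lit 0) (XT.lf (nat_lit 0) (nat_lit 238038274) (nat_lit 760) (nat_lit 17528052421) (nat_lit 76) (nat_lit 1281525368) (nat_lit 299) (nat_lit 5) (nat_lit 309) (nat_lit 5) (nat_lit 300) (nat_lit 5) (nat_lit 468) (nat_lit 433) (nat_lit 299)) (XT.lf (nat_lit 0) (nat_lit 5073473896) (nat_lit 760) (nat_lit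 1075520991) (nat_lit 76) (nat_lit 13223597436) (nat_lit 299) (nat_lit 5) (nat_lit 309) (nat_lit 5) (nat_lit 300) (nat_lit 5) (nat_lit 469) (nat_lit 433) (nat_lit 298))))))))
noncomputable def xc86 : XT := (XT.nd (nat_lit 2106) (nat_lit 2356) (nat_lit 0) (XT.nd (nat_lit 1014) (nat_lit 5396) (nat_lit 0) (XT.nd (nat_lit 468) (nat_lit 3116) (nat_lit 0) (XT.nd (nat_lit 234) (nat_lit 1672) (nat_lit 0) (XT.nd (nat_lit 78) (nat_lit 1292) (nat_lit 0) (XT.lf (nat_lit 0) (nat_lit 10182855026) (nat_lit 684) (nat_lit 3679663749) (nat_lit 76) (nat_lit 5842222102) (nat_lit 291) (nat_lit 5) (nat_lit 300) (nat_lit 5) (nat_lit 292) (nat_lit 5) (nat_lit 470) (nat_lit 433) (nat_lit 297)) (XT.nd (nat_lit 78) (nat_lit 684) (nat_lit 0) (XT.lf (nat_lit 0) (nat_lit 13728624567) (nat_lit 608) (nat_lit 1840907015) (nat_lit 684) (nat_lit 4474842665) (nat_lit 283) (nat_lit 5) (nat_lit 291) (nat_lit 5) (nat_lit 292) (nat_lit 5)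 (nat_lit 471) (nat_lit 433) (nat_lit 296)) (XT.lf (nat_lit 0) (nat_lit 869252461) (nat_lit 684) (nat_lit 9017299890) (nat_lit 76) (nat_lit 10504448292) (nat_lit 274) (nat_lit 5) (nat_lit 283) (nat_lit 5) (nat_lit 275) (nat_lit 5) (nat_lit 472) (nat_lit 433) (nat_lit 295)))) (XT.nd (nat_lit 78) (nat_lit 1064) (nat_lit 0) (XT.lf (nat_lit 0) (nat_lit 6430609232) (nat_lit 684) (nat_lit 11770463802) (nat_lit 76) (nat_lit 2544007124) (nat_lit 266) (nat_lit 5) (nat_lit 275) (nat_lit 5) (nat_lit 267) (nat_lit 5) (nat_lit 473) (nat_lit 433) (nat_lit 294)) (XT.nd (nat_lit 78) (nat_lit 532) (nat_lit 0) (XT.lf (nat_lit 0) (nat_lit 6523399466) (nat_lit 532) (nat_lit 5792515480) (nat_lit 608) (nat_lit 8790725519) (nat_lit 259) (nat_lit 5) (nat_lit 266) (nat_lit 5) (nat_lit 267) (nat_lit 5) (nat_lit 474) (nat_lit 433) (nat_lit 293)) (XT.lf (nat_lit 0) (nat_lit 4040077005) (nat_lit 532) (nat_lit 14476966598) (nat_lit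 608) (nat_lit 2959219259) (nat_lit 252) (nat_lit 5) (nat_lit 259) (nat_lit 5) (nat_lit 260) (nat_lit 5) (nat_lit 475) (nat_lit 433) (nat_lit 292))))) (XT.nd (nat_lit 234) (nat_lit 1976) (nat_lit 0) (XT.nd (nat_lit 78) (nat_lit 532) (nat_lit 0) (XT.lf (nat_lit 0) (nat_lit 1510706824) (nat_lit 532) (nat_lit 1632131115) (nat_lit 608) (nat_lit 18711029414) (nat_lit 244) (nat_lit 5) (nat_lit 251) (nat_lit 5) (nat_lit 252) (nat_lit 5) (nat_lit 476) (nat_lit 433) (nat_lit 291)) (XT.nd (nat_lit 78) (nat_lit 532) (nat_lit 0) (XT.lf (nat_lit 0) (nat_lit 9569998834) (nat_lit 608) (nat_lit 1088227763) (nat_lit 76) (nat_lit 11580537761) (nat_lit 244) (nat_lit 5) (nat_lit 252) (nat_lit 5) (nat_lit 245) (nat_lit 5) (nat_lit 477) (nat_lit 433) (nat_lit 290)) (XT.lf (nat_lit 0) (nat_lit 16329395732) (nat_lit 608) (nat_lit 3683923066) (nat_lit 76) (nat_lit 2619101551) (nat_lit 237) (nat_lit 5) (nat_lit 245) (nat_lit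 5) (nat_lit 238) (nat_lit 5) (nat_lit 478) (nat_lit 433) (nat_lit 289)))) (XT.nd (nat_lit 156) (nat_lit 912) (nat_lit 0) (XT.nd (nat_lit 78) (nat_lit 532) (nat_lit 0) (XT.lf (nat_lit 0) (nat_lit 426967857) (nat_lit 532) (nat_lit 6342124571) (nat_lit 76) (nat_lit 16265228992) (nat_lit 230) (nat_lit 5) (nat_lit 237) (nat_lit 5) (nat_lit 231) (nat_lit 5) (nat_lit 479) (nat_lit 433) (nat_lit 288)) (XT.lf (nat_lit 0) (nat_lit 7426590479) (nat_lit 608) (nat_lit 9077936138) (nat_lit 76) (nat_lit 6939852832) (nat_lit 223) (nat_lit 5) (nat_lit 231) (nat_lit 5) (nat_lit 224) (nat_lit 5) (nat_lit 480) (nat_lit 433) (nat_lit 287))) (XT.nd (nat_lit 78) (nat_lit 456) (nat_lit 0) (XT.lf (nat_lit 0) (nat_lit 12013321099) (nat_lit 456) (nat_lit 2778123027) (nat_lit 532) (nat_lit 9072190694) (nat_lit 217) (nat_lit 5) (nat_lit 223) (nat_lit 5) (nat_lit 224) (nat_lit 5) (nat_lit 481) (nat_lit 433) (nat_lit 286)) (XT.lf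 (nat_lit 0) (nat_lit 9603305285) (nat_lit 456) (nat_lit 12960881294) (nat_lit 532) (nat_lit 1727542843) (nat_lit 211) (nat_lit 5) (nat_lit 217) (nat_lit 5) (nat_lit 218) (nat_lit 5) (nat_lit 482) (nat_lit 433) (nat_lit 285)))))) (XT.nd (nat_lit 546) (nat_lit 2660) (nat_lit 0) (XT.nd (nat_lit 234) (nat_lit 1368) (nat_lit 0) (XT.nd (nat_lit 78) (nat_lit 836) (nat_lit 0) (XT.lf (nat_lit 0) (nat_lit 5903960983) (nat_lit 532) (nat_lit 17584599224) (nat_lit 76) (nat_lit 1240487544) (nat_lit 204) (nat_lit 5) (nat_lit 211) (nat_lit 5) (nat_lit 205) (nat_lit 5) (nat_lit 483) (nat_lit 433) (nat_lit 284)) (XT.nd (nat_lit 78) (nat_lit 380) (nat_lit 0) (XT.lf (nat_lit 0) (nat_lit 4601698439) (nat_lit 456) (nat_lit 9345369477) (nat_lit 532) (nat_lit 11228067162) (nat_lit 198) (nat_lit 5) (nat_lit 204) (nat_lit 5) (nat_lit 205) (nat_lit 5) (nat_lit 484) (nat_lit 433) (nat_lit 283)) (XT.lf (nat_lit 0) (nat_lit 2038542865)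 (nat_lit 380) (nat_lit 20349445662) (nat_lit 456) (nat_lit 3243486479) (nat_lit 193) (nat_lit 5) (nat_lit 198) (nat_lit 5) (nat_lit 199) (nat_lit 5) (nat_lit 485) (nat_lit 433) (nat_lit 282)))) (XT.nd (nat_lit 156) (nat_lit 836) (nat_lit 0) (XT.nd (nat_lit 78) (nat_lit 456) (nat_lit 0) (XT.lf (nat_lit 0) (nat_lit 5107712688) (nat_lit 456) (nat_lit 599428989) (nat_lit 76) (nat_lit 20389869014) (nat_lit 192) (nat_lit 5) (nat_lit 198) (nat_lit 5) (nat_lit 193) (nat_lit 5) (nat_lit 486) (nat_lit 433) (nat_lit 281)) (XT.lf (nat_lit 0) (nat_lit 13869114895) (nat_lit 532) (nat_lit 3281755393) (nat_lit 76) (nat_lit 9421139063) (nat_lit 186) (nat_lit 5) (nat_lit 193) (nat_lit 5) (nat_lit 187) (nat_lit 5) (nat_lit 487) (nat_lit 433) (nat_lit 280))) (XT.nd (nat_lit 78) (nat_lit 456) (nat_lit 0) (XT.lf (nat_lit 0) (nat_lit 21066834918) (nat_lit 380) (nat_lit 1995601588) (nat_lit 456) (nat_lit 3995440270) (nat_lit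 181) (nat_lit 5) (nat_lit 186) (nat_lit 5) (nat_lit 187) (nat_lit 5) (nat_lit 488) (nat_lit 433) (nat_lit 279)) (XT.lf (nat_lit 0) (nat_lit 5132377234) (nat_lit 456) (nat_lit 8811836997) (nat_lit 76) (nat_lit 13608973239) (nat_lit 175) (nat_lit 5) (nat_lit 181) (nat_lit 5) (nat_lit 176) (nat_lit 5) (nat_lit 489) (nat_lit 433) (nat_lit 278))))) (XT.nd (nat_lit 234) (nat_lit 1444) (nat_lit 0) (XT.nd (nat_lit 78) (nat_lit 836) (nat_lit 0) (XT.lf (nat_lit 0) (nat_lit 14642501324) (nat_lit 456) (nat_lit 11676122922) (nat_lit 76) (nat_lit 1740950278) (nat_lit 170) (nat_lit 5) (nat_lit 176) (nat_lit 5) (nat_lit 171) (nat_lit 5) (nat_lit 490) (nat_lit 433) (nat_lit 277)) (XT.nd (nat_lit 78) (nat_lit 456) (nat_lit 0) (XT.lf (nat_lit 0) (nat_lit 13949915840) (nat_lit 380) (nat_lit 10722430503) (nat_lit 456) (nat_lit 3904118816) (nat_lit 165) (nat_lit 5) (nat_lit 170) (nat_lit 5) (nat_lit 171) (nat_lit 5) (nat_lit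 491) (nat_lit 433) (nat_lit 276)) (XT.lf (nat_lit 0) (nat_lit 5997728105) (nat_lit 456) (nat_lit 17646419156) (nat_lit 76) (nat_lit 5460334011) (nat_lit 159) (nat_lit 5) (nat_lit 165) (nat_lit 5) (nat_lit 160) (nat_lit 5) (nat_lit 492) (nat_lit 433) (nat_lit 275)))) (XT.nd (nat_lit 156) (nat_lit 760) (nat_lit 0) (XT.nd (nat_lit 78) (nat_lit 304) (nat_lit 0) (XT.lf (nat_lit 0) (nat_lit 8882639680) (nat_lit 380) (nat_lit 7481155351) (nat_lit 456) (nat_lit 13279622878) (nat_lit 154) (nat_lit 5) (nat_lit 159) (nat_lit 5) (nat_lit 160) (nat_lit 5) (nat_lit 493) (nat_lit 433) (nat_lit 274)) (XT.lf (nat_lit 0) (nat_lit 6260416642) (nat_lit 304) (nat_lit 20991859435) (nat_lit 380) (nat_lit 2942018206) (nat_lit 150) (nat_lit 5) (nat_lit 154) (nat_lit 5) (nat_lit 155) (nat_lit 5) (nat_lit 494) (nat_lit 433) (nat_lit 273))) (XT.nd (nat_lit 78) (nat_lit 304) (nat_lit 0) (XT.lf (nat_lit 0) (nat_lit 3548838188)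 (nat_lit 380) (nat_lit 4261512214) (nat_lit 456) (nat_lit 22946232250) (nat_lit 144) (nat_lit 5) (nat_lit 149) (nat_lit 5) (nat_lit 150) (nat_lit 5) (nat_lit 495) (nat_lit 433) (nat_lit 272)) (XT.lf (nat_lit 0) (nat_lit 741749280) (nat_lit 304) (nat_lit 18347236387) (nat_lit 380) (nat_lit 12241492009) (nat_lit 140) (nat_lit 5) (nat_lit 144) (nat_lit 5) (nat_lit 145) (nat_lit 5) (nat_lit 496) (nat_lit 433) (nat_lit 271))))))) (XT.nd (nat_lit 58032) (nat_lit 0) (nat_lit 25536) (XT.nd (nat_lit 546) (nat_lit 304) (nat_lit 0) (XT.nd (nat_lit 234) (nat_lit 1292) (nat_lit 0) (XT.nd (nat_lit 78) (nat_lit 760) (nat_lit 0) (XT.lf (nat_lit 0) (nat_lit 29859338455) (nat_lit 304) (nat_lit 1050638279) (nat_lit 380) (nat_lit 1007533133) (nat_lit 140) (nat_lit 5) (nat_lit 144) (nat_lit 5) (nat_lit 145) (nat_lit 5) (nat_lit 497) (nat_lit 433) (nat_lit 270)) (XT.nd (nat_lit 78) (nat_lit 304) (nat_lit 0) (XT.lf (nat_lit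 0) (nat_lit 10706124078) (nat_lit 456) (nat_lit 5019662326) (nat_lit 76) (nat_lit 16789370741) (nat_lit 134) (nat_lit 5) (nat_lit 140) (nat_lit 5) (nat_lit 135) (nat_lit 5) (nat_lit 498) (nat_lit 433) (nat_lit 269)) (XT.lf (nat_lit 0) (nat_lit 22947783334) (nat_lit 380) (nat_lit 8005642931) (nat_lit 76) (nat_lit 2173369000) (nat_lit 130) (nat_lit 5) (nat_lit 135) (nat_lit 5) (nat_lit 131) (nat_lit 5) (nat_lit 499) (nat_lit 433) (nat_lit 268)))) (XT.nd (nat_lit 156) (nat_lit 608) (nat_lit 0) (XT.nd (nat_lit 78) (nat_lit 304) (nat_lit 0) (XT.lf (nat_lit 0) (nat_lit 2056421272) (nat_lit 380) (nat_lit 11107652298) (nat_lit 76) (nat_lit 20586873103) (nat_lit 125) (nat_lit 5) (nat_lit 130) (nat_lit 5) (nat_lit 126) (nat_lit 5) (nat_lit 500) (nat_lit 433) (nat_lit 267)) (XT.lf (nat_lit 0) (nat_lit 14733595127) (nat_lit 380) (nat_lit 14313548627) (nat_lit 76) (nat_lit 5341074011) (nat_lit 121) (nat_lit 5)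 (nat_lit 126) (nat_lit 5) (nat_lit 122) (nat_lit 5) (nat_lit 501) (nat_lit 433) (nat_lit 266))) (XT.nd (nat_lit 78) (nat_lit 304) (nat_lit 0) (XT.lf (nat_lit 0) (nat_lit 17428177168) (nat_lit 304) (nat_lit 10631846666) (nat_lit 380) (nat_lit 6979204571) (nat_lit 117) (nat_lit 5) (nat_lit 121) (nat_lit 5) (nat_lit 122) (nat_lit 5) (nat_lit 502) (nat_lit 433) (nat_lit 265)) (XT.lf (nat_lit 0) (nat_lit 6237896921) (nat_lit 304) (nat_lit 21010446006) (nat_lit 76) (nat_lit 8455815289) (nat_lit 113) (nat_lit 5) (nat_lit 117) (nat_lit 5) (nat_lit 114) (nat_lit 5) (nat_lit 503) (nat_lit 433) (nat_lit 264))))) (XT.nd (nat_lit 57174) (nat_lit 0) (nat_lit 31236) (XT.nd (nat_lit 57018) (nat_lit 0) (nat_lit 31160) (XT.lf (nat_lit 0) (nat_lit 11845763492) (nat_lit 304) (nat_lit 8171799723) (nat_lit 380) (nat_lit 16365332811) (nat_lit 109) (nat_lit 5) (nat_lit 113) (nat_lit 5) (nat_lit 114) (nat_lit 5) (nat_lit 504)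 (nat_lit 433) (nat_lit 263)) (XT.nd (nat_lit 78) (nat_lit 0) (nat_lit 0) (XT.lf (nat_lit 0) (nat_lit 3422537427) (nat_lit 1748) (nat_lit 1152025544) (nat_lit 1748) (nat_lit 1152025544) (nat_lit 519) (nat_lit 3) (nat_lit 542) (nat_lit 3) (nat_lit 542) (nat_lit 5) (nat_lit 434) (nat_lit 434) (nat_lit 332)) (XT.lf (nat_lit 76) (nat_lit 6299383621) (nat_lit 0) (nat_lit 1470135992) (nat_lit 1748) (nat_lit 3838969439) (nat_lit 520) (nat_lit 5) (nat_lit 519) (nat_lit 3) (nat_lit 542) (nat_lit 5) (nat_lit 435) (nat_lit 434) (nat_lit 331)))) (XT.nd (nat_lit 156) (nat_lit 0) (nat_lit 76) (XT.nd (nat_lit 78) (nat_lit 0) (nat_lit 76) (XT.lf (nat_lit 76) (nat_lit 3410672248) (nat_lit 0) (nat_lit 5360212783) (nat_lit 1748) (nat_lit 2996593618) (nat_lit 521) (nat_lit 5) (nat_lit 520) (nat_lit 5) (nat_lit 543) (nat_lit 5) (nat_lit 436) (nat_lit 434) (nat_lit 330)) (XT.lf (nat_lit 76) (nat_lit 497149446) (nat_lit 0)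 (nat_lit 9341426520) (nat_lit 1748) (nat_lit 2091938180) (nat_lit 522) (nat_lit 5) (nat_lit 521) (nat_lit 5) (nat_lit 544) (nat_lit 5) (nat_lit 437) (nat_lit 434) (nat_lit 329))) (XT.nd (nat_lit 78) (nat_lit 0) (nat_lit 76) (XT.lf (nat_lit 76) (nat_lit 9678188394) (nat_lit 0) (nat_lit 1323491777) (nat_lit 1748) (nat_lit 1095494735) (nat_lit 522) (nat_lit 5) (nat_lit 521) (nat_lit 5) (nat_lit 544) (nat_lit 5) (nat_lit 438) (nat_lit 434) (nat_lit 328)) (XT.lf (nat_lit 76) (nat_lit 6894460459) (nat_lit 0) (nat_lit 5367068557) (nat_lit 1748) (nat_lit 6071239) (nat_lit 523) (nat_lit 5) (nat_lit 522) (nat_lit 5) (nat_lit 545) (nat_lit 5) (nat_lit 439) (nat_lit 434) (nat_lit 327)))))) (XT.nd (nat_lit 546) (nat_lit 4180) (nat_lit 0) (XT.nd (nat_lit 234) (nat_lit 0) (nat_lit 152) (XT.nd (nat_lit 78) (nat_lit 0) (nat_lit 0) (XT.lf (nat_lit 0) (nat_lit 1145242793) (nat_lit 1748) (nat_lit 8363498645) (nat_lit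 1824) (nat_lit 2933376816) (nat_lit 500) (nat_lit 5) (nat_lit 523) (nat_lit 5) (nat_lit 524) (nat_lit 5) (nat_lit 440) (nat_lit 434) (nat_lit 326)) (XT.nd (nat_lit 78) (nat_lit 0) (nat_lit 76) (XT.lf (nat_lit 76) (nat_lit 1229101925) (nat_lit 0) (nat_lit 1155778561) (nat_lit 1824) (nat_lit 10235914831) (nat_lit 501) (nat_lit 5) (nat_lit 500) (nat_lit 5) (nat_lit 524) (nat_lit 5) (nat_lit 441) (nat_lit 434) (nat_lit 325)) (XT.lf (nat_lit 0) (nat_lit 3741180834) (nat_lit 1748) (nat_lit 1645951572) (nat_lit 1824) (nat_lit 7416112425) (nat_lit 501) (nat_lit 5) (nat_lit 524) (nat_lit 5) (nat_lit 525) (nat_lit 5) (nat_lit 442) (nat_lit 434) (nat_lit 324)))) (XT.nd (nat_lit 156) (nat_lit 0) (nat_lit 76) (XT.nd (nat_lit 78) (nat_lit 0) (nat_lit 0) (XT.lf (nat_lit 0) (nat_lit 5197216900) (nat_lit 1748) (nat_lit 4533202796) (nat_lit 1824) (nat_lit 3259568764) (nat_lit 502) (nat_lit 5) (nat_lit 525) (nat_lit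 5) (nat_lit 526) (nat_lit 5) (nat_lit 443) (nat_lit 434) (nat_lit 323)) (XT.lf (nat_lit 76) (nat_lit 5724763521) (nat_lit 0) (nat_lit 1032092733) (nat_lit 1824) (nat_lit 6424281217) (nat_lit 503) (nat_lit 5) (nat_lit 502) (nat_lit 5) (nat_lit 526) (nat_lit 5) (nat_lit 444) (nat_lit 434) (nat_lit 322))) (XT.nd (nat_lit 78) (nat_lit 0) (nat_lit 76) (XT.lf (nat_lit 76) (nat_lit 2944573860) (nat_lit 0) (nat_lit 5496367691) (nat_lit 1824) (nat_lit 4935527741) (nat_lit 504) (nat_lit 5) (nat_lit 503) (nat_lit 5) (nat_lit 527) (nat_lit 5) (nat_lit 445) (nat_lit 434) (nat_lit 321)) (XT.lf (nat_lit 76) (nat_lit 137347412) (nat_lit 0) (nat_lit 10096099947) (nat_lit 1824) (nat_lit 3343057180) (nat_lit 505) (nat_lit 5) (nat_lit 504) (nat_lit 5) (nat_lit 528) (nat_lit 5) (nat_lit 446) (nat_lit 434) (nat_lit 320))))) (XT.nd (nat_lit 234) (nat_lit 2736) (nat_lit 0) (XT.nd (nat_lit 78) (nat_lit 1748) (nat_lit 0) (XT.lf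 (nat_lit 76) (nat_lit 11111794432) (nat_lit 0) (nat_lit 1052472683) (nat_lit 1824) (nat_lit 1616584343) (nat_lit 505) (nat_lit 5) (nat_lit 504) (nat_lit 5) (nat_lit 528) (nat_lit 5) (nat_lit 447) (nat_lit 434) (nat_lit 319)) (XT.nd (nat_lit 78) (nat_lit 0) (nat_lit 76) (XT.lf (nat_lit 0) (nat_lit 246761978) (nat_lit 1824) (nat_lit 5527100390) (nat_lit 1900) (nat_lit 8215702748) (nat_lit 481) (nat_lit 5) (nat_lit 505) (nat_lit 5) (nat_lit 506) (nat_lit 5) (nat_lit 448) (nat_lit 434) (nat_lit 318)) (XT.lf (nat_lit 0) (nat_lit 2208966602) (nat_lit 1824) (nat_lit 8425967270) (nat_lit 1900) (nat_lit 3568095463) (nat_lit 482) (nat_lit 5) (nat_lit 506) (nat_lit 5) (nat_lit 507) (nat_lit 5) (nat_lit 449) (nat_lit 434) (nat_lit 317)))) (XT.nd (nat_lit 156) (nat_lit 1064) (nat_lit 0) (XT.nd (nat_lit 78) (nat_lit 1748) (nat_lit 0) (XT.lf (nat_lit 76) (nat_lit 3057535827) (nat_lit 0) (nat_lit 1247623182) (nat_lit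 1900) (nat_lit 10116237286) (nat_lit 483) (nat_lit 5) (nat_lit 482) (nat_lit 5) (nat_lit 507) (nat_lit 5) (nat_lit 450) (nat_lit 434) (nat_lit 316)) (XT.lf (nat_lit 0) (nat_lit 286703926) (nat_lit 1824) (nat_lit 6271024858) (nat_lit 1900) (nat_lit 8086716857) (nat_lit 459) (nat_lit 5) (nat_lit 483) (nat_lit 5) (nat_lit 484) (nat_lit 5) (nat_lit 451) (nat_lit 434) (nat_lit 315))) (XT.nd (nat_lit 78) (nat_lit 1064) (nat_lit 0) (XT.lf (nat_lit 0) (nat_lit 8965683304) (nat_lit 1900) (nat_lit 2478974145) (nat_lit 76) (nat_lit 3427774042) (nat_lit 459) (nat_lit 5) (nat_lit 484) (nat_lit 5) (nat_lit 460) (nat_lit 5) (nat_lit 452) (nat_lit 434) (nat_lit 314)) (XT.lf (nat_lit 0) (nat_lit 9825764971) (nat_lit 1064) (nat_lit 1706406966) (nat_lit 1140) (nat_lit 3573360210) (nat_lit 445) (nat_lit 5) (nat_lit 459) (nat_lit 5) (nat_lit 460) (nat_lit 5) (nat_lit 453) (nat_lit 434) (nat_lit 313))))))))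
noncomputable def xc87 : XT := (XT.nd (nat_lit 2106) (nat_lit 8892) (nat_lit 0) (XT.nd (nat_lit 1014) (nat_lit 7296) (nat_lit 0) (XT.nd (nat_lit 468) (nat_lit 4636) (nat_lit 0) (XT.nd (nat_lit 234) (nat_lit 1672) (nat_lit 0) (XT.nd (nat_lit 78) (nat_lit 1824) (nat_lit 0) (XT.lf (nat_lit 0) (nat_lit 7211276701) (nat_lit 912) (nat_lit 7063184418) (nat_lit 988) (nat_lit 1069189694) (nat_lit 433) (nat_lit 5) (nat_lit 445) (nat_lit 5) (nat_lit 446) (nat_lit 5) (nat_lit 454) (nat_lit 434) (nat_lit 312)) (XT.nd (nat_lit 78) (nat_lit 836) (nat_lit 0) (XT.lf (nat_lit 0) (nat_lit 1568522451) (nat_lit 988) (nat_lit 11024872449) (nat_lit 76) (nat_lit 2993758663) (nat_lit 420) (nat_lit 5) (nat_lit 433) (nat_lit 5) (nat_lit 421) (nat_lit 5) (nat_lit 455) (nat_lit 434) (nat_lit 311)) (XT.lf (nat_lit 0) (nat_lit 1864447055) (nat_lit 836) (nat_lit 2503075688) (nat_lit 912) (nat_lit 11468364672) (nat_lit 409) (nat_lit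 5) (nat_lit 420) (nat_lit 5) (nat_lit 421) (nat_lit 5) (nat_lit 456) (nat_lit 434) (nat_lit 310)))) (XT.nd (nat_lit 78) (nat_lit 1672) (nat_lit 0) (XT.lf (nat_lit 0) (nat_lit 7359132900) (nat_lit 912) (nat_lit 868521012) (nat_lit 76) (nat_lit 7862257568) (nat_lit 409) (nat_lit 5) (nat_lit 421) (nat_lit 5) (nat_lit 410) (nat_lit 5) (nat_lit 457) (nat_lit 434) (nat_lit 309)) (XT.nd (nat_lit 78) (nat_lit 836) (nat_lit 0) (XT.lf (nat_lit 0) (nat_lit 10537344353) (nat_lit 912) (nat_lit 3603387713) (nat_lit 76) (nat_lit 2208888105) (nat_lit 398) (nat_lit 5) (nat_lit 410) (nat_lit 5) (nat_lit 399) (nat_lit 5) (nat_lit 458) (nat_lit 434) (nat_lit 308)) (XT.lf (nat_lit 0) (nat_lit 10226255357) (nat_lit 836) (nat_lit 3695111927) (nat_lit 912) (nat_lit 2693544473) (nat_lit 387) (nat_lit 5) (nat_lit 398) (nat_lit 5) (nat_lit 399) (nat_lit 5) (nat_lit 459) (nat_lit 434) (nat_lit 307))))) (XT.nd (nat_lit 234) (nat_lit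 2204) (nat_lit 0) (XT.nd (nat_lit 78) (nat_lit 1520) (nat_lit 0) (XT.lf (nat_lit 0) (nat_lit 616375076) (nat_lit 912) (nat_lit 9220307607) (nat_lit 76) (nat_lit 7049324342) (nat_lit 375) (nat_lit 5) (nat_lit 387) (nat_lit 5) (nat_lit 376) (nat_lit 5) (nat_lit 460) (nat_lit 434) (nat_lit 306)) (XT.nd (nat_lit 78) (nat_lit 760) (nat_lit 0) (XT.lf (nat_lit 0) (nat_lit 4080659855) (nat_lit 836) (nat_lit 12098491305) (nat_lit 76) (nat_lit 983895524) (nat_lit 365) (nat_lit 5) (nat_lit 376) (nat_lit 5) (nat_lit 366) (nat_lit 5) (nat_lit 461) (nat_lit 434) (nat_lit 305)) (XT.lf (nat_lit 0) (nat_lit 2405233532) (nat_lit 760) (nat_lit 5372055430) (nat_lit 836) (nat_lit 9668541094) (nat_lit 355) (nat_lit 5) (nat_lit 365) (nat_lit 5) (nat_lit 366) (nat_lit 5) (nat_lit 462) (nat_lit 434) (nat_lit 304)))) (XT.nd (nat_lit 156) (nat_lit 1520) (nat_lit 0) (XT.nd (nat_lit 78) (nat_lit 684) (nat_lit 0) (XT.lf (nat_lit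 0) (nat_lit 11689203874) (nat_lit 836) (nat_lit 280882268) (nat_lit 76) (nat_lit 5764923865) (nat_lit 355) (nat_lit 5) (nat_lit 366) (nat_lit 5) (nat_lit 356) (nat_lit 5) (nat_lit 463) (nat_lit 434) (nat_lit 303)) (XT.lf (nat_lit 0) (nat_lit 15066634331) (nat_lit 684) (nat_lit 770510098) (nat_lit 760) (nat_lit 2193348357) (nat_lit 346) (nat_lit 5) (nat_lit 355) (nat_lit 5) (nat_lit 356) (nat_lit 5) (nat_lit 464) (nat_lit 434) (nat_lit 302))) (XT.nd (nat_lit 78) (nat_lit 684) (nat_lit 0) (XT.lf (nat_lit 0) (nat_lit 1891334021) (nat_lit 836) (nat_lit 5721923549) (nat_lit 76) (nat_lit 10718554259) (nat_lit 335) (nat_lit 5) (nat_lit 346) (nat_lit 5) (nat_lit 336) (nat_lit 5) (nat_lit 465) (nat_lit 434) (nat_lit 301)) (XT.lf (nat_lit 0) (nat_lit 6171616465) (nat_lit 760) (nat_lit 8520157290) (nat_lit 76) (nat_lit 3948050289) (nat_lit 326) (nat_lit 5) (nat_lit 336) (nat_lit 5) (nat_lit 327) (nat_lit 5) (nat_lit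 466) (nat_lit 434) (nat_lit 300)))))) (XT.nd (nat_lit 546) (nat_lit 3344) (nat_lit 0) (XT.nd (nat_lit 234) (nat_lit 1900) (nat_lit 0) (XT.nd (nat_lit 78) (nat_lit 1368) (nat_lit 0) (XT.lf (nat_lit 0) (nat_lit 7590299251) (nat_lit 684) (nat_lit 3115005689) (nat_lit 760) (nat_lit 8249272444) (nat_lit 317) (nat_lit 5) (nat_lit 326) (nat_lit 5) (nat_lit 327) (nat_lit 5) (nat_lit 467) (nat_lit 434) (nat_lit 299)) (XT.nd (nat_lit 78) (nat_lit 760) (nat_lit 0) (XT.lf (nat_lit 0) (nat_lit 5014668693) (nat_lit 608) (nat_lit 10494271226) (nat_lit 684) (nat_lit 3767155379) (nat_lit 309) (nat_lit 5) (nat_lit 317) (nat_lit 5) (nat_lit 318) (nat_lit 5) (nat_lit 468) (nat_lit 434) (nat_lit 298)) (XT.lf (nat_lit 0) (nat_lit 948280621) (nat_lit 760) (nat_lit 17191547689) (nat_lit 76) (nat_lit 1465120880) (nat_lit 299) (nat_lit 5) (nat_lit 309) (nat_lit 5) (nat_lit 300) (nat_lit 5) (nat_lit 469) (nat_lit 434) (nat_lit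 297)))) (XT.nd (nat_lit 156) (nat_lit 1292) (nat_lit 0) (XT.nd (nat_lit 78) (nat_lit 608) (nat_lit 0) (XT.lf (nat_lit 0) (nat_lit 5908300635) (nat_lit 760) (nat_lit 270557199) (nat_lit 76) (nat_lit 13761227447) (nat_lit 299) (nat_lit 5) (nat_lit 309) (nat_lit 5) (nat_lit 300) (nat_lit 5) (nat_lit 470) (nat_lit 434) (nat_lit 296)) (XT.lf (nat_lit 0) (nat_lit 11157438637) (nat_lit 684) (nat_lit 2954024104) (nat_lit 76) (nat_lit 6171006986) (nat_lit 291) (nat_lit 5) (nat_lit 300) (nat_lit 5) (nat_lit 292) (nat_lit 5) (nat_lit 471) (nat_lit 434) (nat_lit 295))) (XT.nd (nat_lit 78) (nat_lit 684) (nat_lit 0) (XT.lf (nat_lit 0) (nat_lit 14962949275) (nat_lit 608) (nat_lit 1728617919) (nat_lit 684) (nat_lit 3941008784) (nat_lit 283) (nat_lit 5) (nat_lit 291) (nat_lit 5) (nat_lit 292) (nat_lit 5) (nat_lit 472) (nat_lit 434) (nat_lit 294)) (XT.lf (nat_lit 0) (nat_lit 1541872320) (nat_lit 684) (nat_lit 8458228704)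 (nat_lit 76) (nat_lit 10989669758) (nat_lit 274) (nat_lit 5) (nat_lit 283) (nat_lit 5) (nat_lit 275) (nat_lit 5) (nat_lit 473) (nat_lit 434) (nat_lit 293))))) (XT.nd (nat_lit 234) (nat_lit 1672) (nat_lit 0) (XT.nd (nat_lit 78) (nat_lit 1064) (nat_lit 0) (XT.lf (nat_lit 0) (nat_lit 7257726274) (nat_lit 684) (nat_lit 11295947209) (nat_lit 76) (nat_lit 2801046916) (nat_lit 266) (nat_lit 5) (nat_lit 275) (nat_lit 5) (nat_lit 267) (nat_lit 5) (nat_lit 474) (nat_lit 434) (nat_lit 292)) (XT.nd (nat_lit 78) (nat_lit 532) (nat_lit 0) (XT.lf (nat_lit 0) (nat_lit 7533304636) (nat_lit 532) (nat_lit 5773101063) (nat_lit 608) (nat_lit 8420986348) (nat_lit 259) (nat_lit 5) (nat_lit 266) (nat_lit 5) (nat_lit 267) (nat_lit 5) (nat_lit 475) (nat_lit 434) (nat_lit 291)) (XT.lf (nat_lit 0) (nat_lit 4973284739) (nat_lit 532) (nat_lit 14708685572) (nat_lit 608) (nat_lit 2426365560) (nat_lit 252) (nat_lit 5) (nat_lit 259)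 (nat_lit 5) (nat_lit 260) (nat_lit 5) (nat_lit 476) (nat_lit 434) (nat_lit 290)))) (XT.nd (nat_lit 156) (nat_lit 1064) (nat_lit 0) (XT.nd (nat_lit 78) (nat_lit 0) (nat_lit 0) (XT.lf (nat_lit 0) (nat_lit 2362905778) (nat_lit 532) (nat_lit 1475065292) (nat_lit 608) (nat_lit 18659470053) (nat_lit 244) (nat_lit 5) (nat_lit 251) (nat_lit 5) (nat_lit 252) (nat_lit 5) (nat_lit 477) (nat_lit 434) (nat_lit 289)) (XT.lf (nat_lit 0) (nat_lit 10441745085) (nat_lit 608) (nat_lit 327105355) (nat_lit 76) (nat_lit 12125359369) (nat_lit 244) (nat_lit 5) (nat_lit 252) (nat_lit 5) (nat_lit 245) (nat_lit 5) (nat_lit 478) (nat_lit 434) (nat_lit 288))) (XT.nd (nat_lit 78) (nat_lit 532) (nat_lit 0) (XT.lf (nat_lit 0) (nat_lit 17393317217) (nat_lit 608) (nat_lit 3003423680) (nat_lit 76) (nat_lit 2903147432) (nat_lit 237) (nat_lit 5) (nat_lit 245) (nat_lit 5) (nat_lit 238) (nat_lit 5) (nat_lit 479) (nat_lit 434) (nat_lit 287))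 (XT.lf (nat_lit 0) (nat_lit 1005896552) (nat_lit 532) (nat_lit 5746658420) (nat_lit 76) (nat_lit 16961451007) (nat_lit 230) (nat_lit 5) (nat_lit 237) (nat_lit 5) (nat_lit 231) (nat_lit 5) (nat_lit 480) (nat_lit 434) (nat_lit 286))))))) (XT.nd (nat_lit 1092) (nat_lit 3116) (nat_lit 0) (XT.nd (nat_lit 546) (nat_lit 2432) (nat_lit 0) (XT.nd (nat_lit 234) (nat_lit 1900) (nat_lit 0) (XT.nd (nat_lit 78) (nat_lit 912) (nat_lit 0) (XT.lf (nat_lit 0) (nat_lit 8205455207) (nat_lit 608) (nat_lit 8567594412) (nat_lit 76) (nat_lit 7363517845) (nat_lit 223) (nat_lit 5) (nat_lit 231) (nat_lit 5) (nat_lit 224) (nat_lit 5) (nat_lit 481) (nat_lit 434) (nat_lit 285)) (XT.nd (nat_lit 78) (nat_lit 456) (nat_lit 0) (XT.lf (nat_lit 0) (nat_lit 13143702493) (nat_lit 456) (nat_lit 2636355076) (nat_lit 532) (nat_lit 8788567506) (nat_lit 217) (nat_lit 5) (nat_lit 223) (nat_lit 5) (nat_lit 224) (nat_lit 5) (nat_lit 482) (nat_lit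 434) (nat_lit 284)) (XT.lf (nat_lit 0) (nat_lit 10658197949) (nat_lit 456) (nat_lit 13118311879) (nat_lit 532) (nat_lit 1233242759) (nat_lit 211) (nat_lit 5) (nat_lit 217) (nat_lit 5) (nat_lit 218) (nat_lit 5) (nat_lit 483) (nat_lit 434) (nat_lit 283)))) (XT.nd (nat_lit 156) (nat_lit 912) (nat_lit 0) (XT.nd (nat_lit 78) (nat_lit 456) (nat_lit 0) (XT.lf (nat_lit 0) (nat_lit 6610803456) (nat_lit 532) (nat_lit 17341647840) (nat_lit 76) (nat_lit 1507853650) (nat_lit 204) (nat_lit 5) (nat_lit 211) (nat_lit 5) (nat_lit 205) (nat_lit 5) (nat_lit 484) (nat_lit 434) (nat_lit 282)) (XT.lf (nat_lit 0) (nat_lit 5497738479) (nat_lit 456) (nat_lit 9386957643) (nat_lit 532) (nat_lit 11035289496) (nat_lit 198) (nat_lit 5) (nat_lit 204) (nat_lit 5) (nat_lit 205) (nat_lit 5) (nat_lit 485) (nat_lit 434) (nat_lit 281))) (XT.nd (nat_lit 78) (nat_lit 532) (nat_lit 0) (XT.lf (nat_lit 0) (nat_lit 2854100371) (nat_lit 380)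 (nat_lit 20716024370) (nat_lit 456) (nat_lit 2820065954) (nat_lit 193) (nat_lit 5) (nat_lit 198) (nat_lit 5) (nat_lit 199) (nat_lit 5) (nat_lit 486) (nat_lit 434) (nat_lit 280)) (XT.lf (nat_lit 0) (nat_lit 123281592) (nat_lit 456) (nat_lit 5637390782) (nat_lit 532) (nat_lit 21109236339) (nat_lit 186) (nat_lit 5) (nat_lit 192) (nat_lit 5) (nat_lit 193) (nat_lit 5) (nat_lit 487) (nat_lit 434) (nat_lit 279))))) (XT.nd (nat_lit 234) (nat_lit 1596) (nat_lit 0) (XT.nd (nat_lit 78) (nat_lit 836) (nat_lit 0) (XT.lf (nat_lit 0) (nat_lit 14775850120) (nat_lit 532) (nat_lit 2644867607) (nat_lit 76) (nat_lit 9938621454) (nat_lit 186) (nat_lit 5) (nat_lit 193) (nat_lit 5) (nat_lit 187) (nat_lit 5) (nat_lit 488) (nat_lit 434) (nat_lit 278)) (XT.nd (nat_lit 78) (nat_lit 456) (nat_lit 0) (XT.lf (nat_lit 0) (nat_lit 22422250389) (nat_lit 380) (nat_lit 1813126731) (nat_lit 456) (nat_lit 3624597894) (nat_lit 181) (nat_lit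 5) (nat_lit 186) (nat_lit 5) (nat_lit 187) (nat_lit 5) (nat_lit 489) (nat_lit 434) (nat_lit 277)) (XT.lf (nat_lit 0) (nat_lit 5762754346) (nat_lit 456) (nat_lit 8350237291) (nat_lit 76) (nat_lit 14257247432) (nat_lit 175) (nat_lit 5) (nat_lit 181) (nat_lit 5) (nat_lit 176) (nat_lit 5) (nat_lit 490) (nat_lit 434) (nat_lit 276)))) (XT.nd (nat_lit 156) (nat_lit 836) (nat_lit 0) (XT.nd (nat_lit 78) (nat_lit 380) (nat_lit 0) (XT.lf (nat_lit 0) (nat_lit 15550546927) (nat_lit 456) (nat_lit 11304474520) (nat_lit 76) (nat_lit 2036949455) (nat_lit 170) (nat_lit 5) (nat_lit 176) (nat_lit 5) (nat_lit 171) (nat_lit 5) (nat_lit 491) (nat_lit 434) (nat_lit 275)) (XT.lf (nat_lit 0) (nat_lit 15078632915) (nat_lit 380) (nat_lit 10793612088) (nat_lit 456) (nat_lit 3552304550) (nat_lit 165) (nat_lit 5) (nat_lit 170) (nat_lit 5) (nat_lit 171) (nat_lit 5) (nat_lit 492) (nat_lit 434) (nat_lit 274))) (XT.nd (nat_lit 78) (nat_lit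 380) (nat_lit 0) (XT.lf (nat_lit 0) (nat_lit 6633172972) (nat_lit 456) (nat_lit 17463586620) (nat_lit 76) (nat_lit 5871731584) (nat_lit 159) (nat_lit 5) (nat_lit 165) (nat_lit 5) (nat_lit 160) (nat_lit 5) (nat_lit 493) (nat_lit 434) (nat_lit 273)) (XT.lf (nat_lit 0) (nat_lit 9849788975) (nat_lit 380) (nat_lit 7451714776) (nat_lit 456) (nat_lit 13222266939) (nat_lit 154) (nat_lit 5) (nat_lit 159) (nat_lit 5) (nat_lit 160) (nat_lit 5) (nat_lit 494) (nat_lit 434) (nat_lit 272)))))) (XT.nd (nat_lit 546) (nat_lit 912) (nat_lit 0) (XT.nd (nat_lit 234) (nat_lit 1140) (nat_lit 0) (XT.nd (nat_lit 78) (nat_lit 760) (nat_lit 0) (XT.lf (nat_lit 0) (nat_lit 7144714678) (nat_lit 304) (nat_lit 21365033471) (nat_lit 380) (nat_lit 2581563432) (nat_lit 150) (nat_lit 5) (nat_lit 154) (nat_lit 5) (nat_lit 155) (nat_lit 5) (nat_lit 495) (nat_lit 434) (nat_lit 271)) (XT.nd (nat_lit 78) (nat_lit 304) (nat_lit 0) (XT.lf (nat_lit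 0) (nat_lit 4346291702) (nat_lit 380) (nat_lit 4132787933) (nat_lit 456) (nat_lit 23191499315) (nat_lit 144) (nat_lit 5) (nat_lit 149) (nat_lit 5) (nat_lit 150) (nat_lit 5) (nat_lit 496) (nat_lit 434) (nat_lit 270)) (XT.lf (nat_lit 0) (nat_lit 1450700882) (nat_lit 304) (nat_lit 18638795911) (nat_lit 380) (nat_lit 12172325948) (nat_lit 140) (nat_lit 5) (nat_lit 144) (nat_lit 5) (nat_lit 145) (nat_lit 5) (nat_lit 497) (nat_lit 434) (nat_lit 269)))) (XT.nd (nat_lit 156) (nat_lit 684) (nat_lit 0) (XT.nd (nat_lit 78) (nat_lit 456) (nat_lit 0) (XT.lf (nat_lit 0) (nat_lit 31421816787) (nat_lit 304) (nat_lit 830839400) (nat_lit 380) (nat_lit 614059301) (nat_lit 140) (nat_lit 5) (nat_lit 144) (nat_lit 5) (nat_lit 145) (nat_lit 5) (nat_lit 498) (nat_lit 434) (nat_lit 268)) (XT.lf (nat_lit 0) (nat_lit 11439196118) (nat_lit 456) (nat_lit 4502305686) (nat_lit 76) (nat_lit 17540860798) (nat_lit 134) (nat_lit 5)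 (nat_lit 140) (nat_lit 5) (nat_lit 135) (nat_lit 5) (nat_lit 499) (nat_lit 434) (nat_lit 267))) (XT.nd (nat_lit 78) (nat_lit 380) (nat_lit 0) (XT.lf (nat_lit 0) (nat_lit 24042017129) (nat_lit 380) (nat_lit 7582250366) (nat_lit 76) (nat_lit 2488204467) (nat_lit 130) (nat_lit 5) (nat_lit 135) (nat_lit 5) (nat_lit 131) (nat_lit 5) (nat_lit 500) (nat_lit 434) (nat_lit 266)) (XT.lf (nat_lit 0) (nat_lit 2518981069) (nat_lit 380) (nat_lit 10782747584) (nat_lit 76) (nat_lit 21453718459) (nat_lit 125) (nat_lit 5) (nat_lit 130) (nat_lit 5) (nat_lit 126) (nat_lit 5) (nat_lit 501) (nat_lit 434) (nat_lit 265))))) (XT.nd (nat_lit 57252) (nat_lit 0) (nat_lit 30856) (XT.nd (nat_lit 78) (nat_lit 608) (nat_lit 0) (XT.lf (nat_lit 0) (nat_lit 15570647653) (nat_lit 380) (nat_lit 14089269575) (nat_lit 76) (nat_lit 5752035867) (nat_lit 121) (nat_lit 5) (nat_lit 126) (nat_lit 5) (nat_lit 122) (nat_lit 5) (nat_lit 502) (nat_lit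 434) (nat_lit 264)) (XT.nd (nat_lit 78) (nat_lit 304) (nat_lit 0) (XT.lf (nat_lit 0) (nat_lit 18594102723) (nat_lit 304) (nat_lit 10695435647) (nat_lit 380) (nat_lit 6793102603) (nat_lit 117) (nat_lit 5) (nat_lit 121) (nat_lit 5) (nat_lit 122) (nat_lit 5) (nat_lit 503) (nat_lit 434) (nat_lit 263)) (XT.lf (nat_lit 0) (nat_lit 6809751863) (nat_lit 304) (nat_lit 20996982922) (nat_lit 76) (nat_lit 8960844289) (nat_lit 113) (nat_lit 5) (nat_lit 117) (nat_lit 5) (nat_lit 114) (nat_lit 5) (nat_lit 504) (nat_lit 434) (nat_lit 262)))) (XT.nd (nat_lit 156) (nat_lit 0) (nat_lit 76) (XT.nd (nat_lit 78) (nat_lit 0) (nat_lit 0) (XT.lf (nat_lit 0) (nat_lit 4298576220) (nat_lit 1748) (nat_lit 792146459) (nat_lit 1748) (nat_lit 792146459) (nat_lit 519) (nat_lit 3) (nat_lit 542) (nat_lit 3) (nat_lit 542) (nat_lit 5) (nat_lit 435) (nat_lit 435) (nat_lit 330)) (XT.lf (nat_lit 76) (nat_lit 7264446197) (nat_lit 0) (nat_lit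 2244872925) (nat_lit 1748) (nat_lit 2417193665) (nat_lit 520) (nat_lit 5) (nat_lit 519) (nat_lit 3) (nat_lit 542) (nat_lit 5) (nat_lit 436) (nat_lit 435) (nat_lit 329))) (XT.nd (nat_lit 78) (nat_lit 0) (nat_lit 76) (XT.lf (nat_lit 76) (nat_lit 4310889756) (nat_lit 0) (nat_lit 6186525768) (nat_lit 1748) (nat_lit 1593725562) (nat_lit 521) (nat_lit 5) (nat_lit 520) (nat_lit 5) (nat_lit 543) (nat_lit 5) (nat_lit 437) (nat_lit 435) (nat_lit 328)) (XT.lf (nat_lit 76) (nat_lit 1330152702) (nat_lit 0) (nat_lit 10225477585) (nat_lit 1748) (nat_lit 704270232) (nat_lit 522) (nat_lit 5) (nat_lit 521) (nat_lit 5) (nat_lit 544) (nat_lit 5) (nat_lit 438) (nat_lit 435) (nat_lit 327))))))))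
noncomputable def xc88 : XT := (XT.nd (nat_lit 2106) (nat_lit 13376) (nat_lit 0) (XT.nd (nat_lit 1014) (nat_lit 10260) (nat_lit 0) (XT.nd (nat_lit 468) (nat_lit 1292) (nat_lit 0) (XT.nd (nat_lit 234) (nat_lit 0) (nat_lit 152) (XT.nd (nat_lit 78) (nat_lit 0) (nat_lit 76) (XT.lf (nat_lit 0) (nat_lit 276151191) (nat_lit 1748) (nat_lit 1671413840) (nat_lit 1824) (nat_lit 10484790679) (nat_lit 498) (nat_lit 5) (nat_lit 521) (nat_lit 5) (nat_lit 522) (nat_lit 5) (nat_lit 439) (nat_lit 435) (nat_lit 326)) (XT.nd (nat_lit 78) (nat_lit 0) (nat_lit 76) (XT.lf (nat_lit 0) (nat_lit 1344653325) (nat_lit 1748) (nat_lit 4703889312) (nat_lit 1824) (nat_lit 6559985749) (nat_lit 499) (nat_lit 5) (nat_lit 522) (nat_lit 5) (nat_lit 523) (nat_lit 5) (nat_lit 440) (nat_lit 435) (nat_lit 325)) (XT.lf (nat_lit 0) (nat_lit 2493139045) (nat_lit 1748) (nat_lit 7767809041) (nat_lit 1824) (nat_lit 2528081193) (nat_lit 500) (nat_lit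 5) (nat_lit 523) (nat_lit 5) (nat_lit 524) (nat_lit 5) (nat_lit 441) (nat_lit 435) (nat_lit 324)))) (XT.nd (nat_lit 78) (nat_lit 0) (nat_lit 76) (XT.lf (nat_lit 76) (nat_lit 2098834555) (nat_lit 0) (nat_lit 1638280373) (nat_lit 1824) (nat_lit 9236611125) (nat_lit 501) (nat_lit 5) (nat_lit 500) (nat_lit 5) (nat_lit 524) (nat_lit 5) (nat_lit 442) (nat_lit 435) (nat_lit 323)) (XT.nd (nat_lit 78) (nat_lit 0) (nat_lit 76) (XT.lf (nat_lit 0) (nat_lit 5093979782) (nat_lit 1748) (nat_lit 858960901) (nat_lit 1824) (nat_lit 7209513171) (nat_lit 501) (nat_lit 5) (nat_lit 524) (nat_lit 5) (nat_lit 525) (nat_lit 5) (nat_lit 443) (nat_lit 435) (nat_lit 322)) (XT.lf (nat_lit 0) (nat_lit 6560393692) (nat_lit 1748) (nat_lit 3819616013) (nat_lit 1824) (nat_lit 2975458396) (nat_lit 502) (nat_lit 5) (nat_lit 525) (nat_lit 5) (nat_lit 526) (nat_lit 5) (nat_lit 444) (nat_lit 435) (nat_lit 321))))) (XT.nd (nat_lit 234) (nat_lit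 1596) (nat_lit 0) (XT.nd (nat_lit 78) (nat_lit 0) (nat_lit 76) (XT.lf (nat_lit 76) (nat_lit 6732305821) (nat_lit 0) (nat_lit 1404780049) (nat_lit 1824) (nat_lit 5415862618) (nat_lit 503) (nat_lit 5) (nat_lit 502) (nat_lit 5) (nat_lit 526) (nat_lit 5) (nat_lit 445) (nat_lit 435) (nat_lit 320)) (XT.nd (nat_lit 78) (nat_lit 0) (nat_lit 76) (XT.lf (nat_lit 76) (nat_lit 3880573175) (nat_lit 0) (nat_lit 5960173243) (nat_lit 1824) (nat_lit 3914014908) (nat_lit 504) (nat_lit 5) (nat_lit 503) (nat_lit 5) (nat_lit 527) (nat_lit 5) (nat_lit 446) (nat_lit 435) (nat_lit 319)) (XT.lf (nat_lit 76) (nat_lit 999915752) (nat_lit 0) (nat_lit 10657405602) (nat_lit 1824) (nat_lit 2304072452) (nat_lit 505) (nat_lit 5) (nat_lit 504) (nat_lit 5) (nat_lit 528) (nat_lit 5) (nat_lit 447) (nat_lit 435) (nat_lit 318)))) (XT.nd (nat_lit 156) (nat_lit 0) (nat_lit 76) (XT.nd (nat_lit 78) (nat_lit 1748) (nat_lit 0) (XT.lf (nat_lit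 76) (nat_lit 12278592845) (nat_lit 0) (nat_lit 1334942645) (nat_lit 1824) (nat_lit 558988239) (nat_lit 505) (nat_lit 5) (nat_lit 504) (nat_lit 5) (nat_lit 528) (nat_lit 5) (nat_lit 448) (nat_lit 435) (nat_lit 317)) (XT.lf (nat_lit 0) (nat_lit 1317875127) (nat_lit 1824) (nat_lit 4835788151) (nat_lit 1900) (nat_lit 8234251322) (nat_lit 481) (nat_lit 5) (nat_lit 505) (nat_lit 5) (nat_lit 506) (nat_lit 5) (nat_lit 449) (nat_lit 435) (nat_lit 316))) (XT.nd (nat_lit 78) (nat_lit 0) (nat_lit 0) (XT.lf (nat_lit 0) (nat_lit 3312172812) (nat_lit 1824) (nat_lit 7813435428) (nat_lit 1900) (nat_lit 3482711810) (nat_lit 482) (nat_lit 5) (nat_lit 506) (nat_lit 5) (nat_lit 507) (nat_lit 5) (nat_lit 450) (nat_lit 435) (nat_lit 315)) (XT.lf (nat_lit 76) (nat_lit 4000534122) (nat_lit 0) (nat_lit 1446041838) (nat_lit 1900) (nat_lit 9387157348) (nat_lit 483) (nat_lit 5) (nat_lit 482) (nat_lit 5) (nat_lit 507) (nat_lit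 5) (nat_lit 451) (nat_lit 435) (nat_lit 314)))))) (XT.nd (nat_lit 546) (nat_lit 4788) (nat_lit 0) (XT.nd (nat_lit 234) (nat_lit 2736) (nat_lit 0) (XT.nd (nat_lit 78) (nat_lit 1064) (nat_lit 0) (XT.lf (nat_lit 0) (nat_lit 1153770133) (nat_lit 1824) (nat_lit 6588028247) (nat_lit 1900) (nat_lit 7322175981) (nat_lit 459) (nat_lit 5) (nat_lit 483) (nat_lit 5) (nat_lit 484) (nat_lit 5) (nat_lit 452) (nat_lit 435) (nat_lit 313)) (XT.nd (nat_lit 78) (nat_lit 1064) (nat_lit 0) (XT.lf (nat_lit 0) (nat_lit 10192421770) (nat_lit 1900) (nat_lit 1699841946) (nat_lit 76) (nat_lit 3407129151) (nat_lit 459) (nat_lit 5) (nat_lit 484) (nat_lit 5) (nat_lit 460) (nat_lit 5) (nat_lit 453) (nat_lit 435) (nat_lit 312)) (XT.lf (nat_lit 0) (nat_lit 10960192296) (nat_lit 1064) (nat_lit 1853268204) (nat_lit 1140) (nat_lit 2726476571) (nat_lit 445) (nat_lit 5) (nat_lit 459) (nat_lit 5) (nat_lit 460) (nat_lit 5) (nat_lit 454) (nat_lit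 435) (nat_lit 311)))) (XT.nd (nat_lit 156) (nat_lit 836) (nat_lit 0) (XT.nd (nat_lit 78) (nat_lit 988) (nat_lit 0) (XT.lf (nat_lit 0) (nat_lit 8272714718) (nat_lit 912) (nat_lit 7342945103) (nat_lit 988) (nat_lit 169988236) (nat_lit 433) (nat_lit 5) (nat_lit 445) (nat_lit 5) (nat_lit 446) (nat_lit 5) (nat_lit 455) (nat_lit 435) (nat_lit 310)) (XT.lf (nat_lit 0) (nat_lit 2512996199) (nat_lit 988) (nat_lit 10493804339) (nat_lit 76) (nat_lit 3029968840) (nat_lit 420) (nat_lit 5) (nat_lit 433) (nat_lit 5) (nat_lit 421) (nat_lit 5) (nat_lit 456) (nat_lit 435) (nat_lit 309))) (XT.nd (nat_lit 78) (nat_lit 0) (nat_lit 0) (XT.lf (nat_lit 0) (nat_lit 2768212837) (nat_lit 836) (nat_lit 2607119961) (nat_lit 912) (nat_lit 10918046590) (nat_lit 409) (nat_lit 5) (nat_lit 420) (nat_lit 5) (nat_lit 421) (nat_lit 5) (nat_lit 457) (nat_lit 435) (nat_lit 308)) (XT.lf (nat_lit 0) (nat_lit 8430971350) (nat_lit 912) (nat_lit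 54183443) (nat_lit 76) (nat_lit 8070385205) (nat_lit 409) (nat_lit 5) (nat_lit 421) (nat_lit 5) (nat_lit 410) (nat_lit 5) (nat_lit 458) (nat_lit 435) (nat_lit 307))))) (XT.nd (nat_lit 234) (nat_lit 2204) (nat_lit 0) (XT.nd (nat_lit 78) (nat_lit 1748) (nat_lit 0) (XT.lf (nat_lit 0) (nat_lit 11685077010) (nat_lit 912) (nat_lit 2868019776) (nat_lit 76) (nat_lit 2270333592) (nat_lit 398) (nat_lit 5) (nat_lit 410) (nat_lit 5) (nat_lit 399) (nat_lit 5) (nat_lit 459) (nat_lit 435) (nat_lit 306)) (XT.nd (nat_lit 78) (nat_lit 912) (nat_lit 0) (XT.lf (nat_lit 0) (nat_lit 11362828294) (nat_lit 836) (nat_lit 3788958133) (nat_lit 912) (nat_lit 1945272312) (nat_lit 387) (nat_lit 5) (nat_lit 398) (nat_lit 5) (nat_lit 399) (nat_lit 5) (nat_lit 460) (nat_lit 435) (nat_lit 305)) (XT.lf (nat_lit 0) (nat_lit 1434787317) (nat_lit 912) (nat_lit 8653993375) (nat_lit 76) (nat_lit 7287765474) (nat_lit 375) (nat_lit 5) (nat_lit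 387) (nat_lit 5) (nat_lit 376) (nat_lit 5) (nat_lit 461) (nat_lit 435) (nat_lit 304)))) (XT.nd (nat_lit 156) (nat_lit 684) (nat_lit 0) (XT.nd (nat_lit 78) (nat_lit 760) (nat_lit 0) (XT.lf (nat_lit 0) (nat_lit 4985392723) (nat_lit 836) (nat_lit 11616823207) (nat_lit 76) (nat_lit 1060034486) (nat_lit 365) (nat_lit 5) (nat_lit 376) (nat_lit 5) (nat_lit 366) (nat_lit 5) (nat_lit 462) (nat_lit 435) (nat_lit 303)) (XT.lf (nat_lit 0) (nat_lit 3308310373) (nat_lit 760) (nat_lit 5467219395) (nat_lit 836) (nat_lit 9178336546) (nat_lit 355) (nat_lit 5) (nat_lit 365) (nat_lit 5) (nat_lit 366) (nat_lit 5) (nat_lit 463) (nat_lit 435) (nat_lit 302))) (XT.nd (nat_lit 78) (nat_lit 0) (nat_lit 0) (XT.lf (nat_lit 0) (nat_lit 538953893) (nat_lit 684) (nat_lit 12247484215) (nat_lit 760) (nat_lit 5465652008) (nat_lit 346) (nat_lit 5) (nat_lit 355) (nat_lit 5) (nat_lit 356) (nat_lit 5) (nat_lit 464) (nat_lit 435) (nat_lit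 301)) (XT.lf (nat_lit 0) (nat_lit 16326504615) (nat_lit 684) (nat_lit 712415763) (nat_lit 760) (nat_lit 1517916066) (nat_lit 346) (nat_lit 5) (nat_lit 355) (nat_lit 5) (nat_lit 356) (nat_lit 5) (nat_lit 465) (nat_lit 435) (nat_lit 300))))))) (XT.nd (nat_lit 1014) (nat_lit 5624) (nat_lit 0) (XT.nd (nat_lit 468) (nat_lit 3572) (nat_lit 0) (XT.nd (nat_lit 234) (nat_lit 1976) (nat_lit 0) (XT.nd (nat_lit 78) (nat_lit 1368) (nat_lit 0) (XT.lf (nat_lit 0) (nat_lit 2664079135) (nat_lit 836) (nat_lit 5075449340) (nat_lit 76) (nat_lit 11127881539) (nat_lit 335) (nat_lit 5) (nat_lit 346) (nat_lit 5) (nat_lit 336) (nat_lit 5) (nat_lit 466) (nat_lit 435) (nat_lit 299)) (XT.nd (nat_lit 78) (nat_lit 684) (nat_lit 0) (XT.lf (nat_lit 0) (nat_lit 7057819581) (nat_lit 760) (nat_lit 7957539139) (nat_lit 76) (nat_lit 4169603936) (nat_lit 326) (nat_lit 5) (nat_lit 336) (nat_lit 5) (nat_lit 327) (nat_lit 5) (nat_lit 467)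 (nat_lit 435) (nat_lit 298)) (XT.lf (nat_lit 0) (nat_lit 8622956405) (nat_lit 684) (nat_lit 3089369496) (nat_lit 760) (nat_lit 7797137570) (nat_lit 317) (nat_lit 5) (nat_lit 326) (nat_lit 5) (nat_lit 327) (nat_lit 5) (nat_lit 468) (nat_lit 435) (nat_lit 297)))) (XT.nd (nat_lit 78) (nat_lit 1368) (nat_lit 0) (XT.lf (nat_lit 0) (nat_lit 5969765096) (nat_lit 608) (nat_lit 10676303307) (nat_lit 684) (nat_lit 3194839541) (nat_lit 309) (nat_lit 5) (nat_lit 317) (nat_lit 5) (nat_lit 318) (nat_lit 5) (nat_lit 469) (nat_lit 435) (nat_lit 296)) (XT.nd (nat_lit 78) (nat_lit 608) (nat_lit 0) (XT.lf (nat_lit 0) (nat_lit 1639469353) (nat_lit 760) (nat_lit 16894450021) (nat_lit 76) (nat_lit 1645892068) (nat_lit 299) (nat_lit 5) (nat_lit 309) (nat_lit 5) (nat_lit 300) (nat_lit 5) (nat_lit 470) (nat_lit 435) (nat_lit 295)) (XT.lf (nat_lit 0) (nat_lit 517279324) (nat_lit 608) (nat_lit 6215066048) (nat_lit 684) (nat_lit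 13792976051) (nat_lit 291) (nat_lit 5) (nat_lit 299) (nat_lit 5) (nat_lit 300) (nat_lit 5) (nat_lit 471) (nat_lit 435) (nat_lit 294))))) (XT.nd (nat_lit 234) (nat_lit 2280) (nat_lit 0) (XT.nd (nat_lit 78) (nat_lit 1292) (nat_lit 0) (XT.lf (nat_lit 0) (nat_lit 12122850796) (nat_lit 684) (nat_lit 2254606786) (nat_lit 76) (nat_lit 6500842842) (nat_lit 291) (nat_lit 5) (nat_lit 300) (nat_lit 5) (nat_lit 292) (nat_lit 5) (nat_lit 472) (nat_lit 435) (nat_lit 293)) (XT.nd (nat_lit 78) (nat_lit 684) (nat_lit 0) (XT.lf (nat_lit 0) (nat_lit 16187090814) (nat_lit 608) (nat_lit 1622576271) (nat_lit 684) (nat_lit 3429510364) (nat_lit 283) (nat_lit 5) (nat_lit 291) (nat_lit 5) (nat_lit 292) (nat_lit 5) (nat_lit 473) (nat_lit 435) (nat_lit 292)) (XT.lf (nat_lit 0) (nat_lit 2197556603) (nat_lit 684) (nat_lit 7930007253) (nat_lit 76) (nat_lit 11479684121) (nat_lit 274) (nat_lit 5) (nat_lit 283) (nat_lit 5) (nat_lit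 275) (nat_lit 5) (nat_lit 474) (nat_lit 435) (nat_lit 291)))) (XT.nd (nat_lit 156) (nat_lit 1140) (nat_lit 0) (XT.nd (nat_lit 78) (nat_lit 532) (nat_lit 0) (XT.lf (nat_lit 0) (nat_lit 8073251225) (nat_lit 684) (nat_lit 10854704495) (nat_lit 76) (nat_lit 3055423858) (nat_lit 266) (nat_lit 5) (nat_lit 275) (nat_lit 5) (nat_lit 267) (nat_lit 5) (nat_lit 475) (nat_lit 435) (nat_lit 290)) (XT.lf (nat_lit 0) (nat_lit 8526768367) (nat_lit 532) (nat_lit 5764194104) (nat_lit 608) (nat_lit 8076518250) (nat_lit 259) (nat_lit 5) (nat_lit 266) (nat_lit 5) (nat_lit 267) (nat_lit 5) (nat_lit 476) (nat_lit 435) (nat_lit 289))) (XT.nd (nat_lit 78) (nat_lit 608) (nat_lit 0) (XT.lf (nat_lit 0) (nat_lit 5887876272) (nat_lit 532) (nat_lit 14958985610) (nat_lit 608) (nat_lit 1913210371) (nat_lit 252) (nat_lit 5) (nat_lit 259) (nat_lit 5) (nat_lit 260) (nat_lit 5) (nat_lit 477) (nat_lit 435) (nat_lit 288)) (XT.lf (nat_lit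 0) (nat_lit 3194352618) (nat_lit 532) (nat_lit 1325114445) (nat_lit 608) (nat_lit 18641546318) (nat_lit 244) (nat_lit 5) (nat_lit 251) (nat_lit 5) (nat_lit 252) (nat_lit 5) (nat_lit 478) (nat_lit 435) (nat_lit 287)))))) (XT.nd (nat_lit 546) (nat_lit 2584) (nat_lit 0) (XT.nd (nat_lit 234) (nat_lit 1976) (nat_lit 0) (XT.nd (nat_lit 78) (nat_lit 532) (nat_lit 0) (XT.lf (nat_lit 0) (nat_lit 416750885) (nat_lit 532) (nat_lit 10892037573) (nat_lit 608) (nat_lit 12261148681) (nat_lit 237) (nat_lit 5) (nat_lit 244) (nat_lit 5) (nat_lit 245) (nat_lit 5) (nat_lit 479) (nat_lit 435) (nat_lit 286)) (XT.nd (nat_lit 78) (nat_lit 532) (nat_lit 0) (XT.lf (nat_lit 0) (nat_lit 18456204124) (nat_lit 608) (nat_lit 2347916928) (nat_lit 76) (nat_lit 3183919708) (nat_lit 237) (nat_lit 5) (nat_lit 245) (nat_lit 5) (nat_lit 238) (nat_lit 5) (nat_lit 480) (nat_lit 435) (nat_lit 285)) (XT.lf (nat_lit 0) (nat_lit 1569695524)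 (nat_lit 532) (nat_lit 5178432395) (nat_lit 76) (nat_lit 17666604411) (nat_lit 230) (nat_lit 5) (nat_lit 237) (nat_lit 5) (nat_lit 231) (nat_lit 5) (nat_lit 481) (nat_lit 435) (nat_lit 284)))) (XT.nd (nat_lit 156) (nat_lit 988) (nat_lit 0) (XT.nd (nat_lit 78) (nat_lit 456) (nat_lit 0) (XT.lf (nat_lit 0) (nat_lit 8975765356) (nat_lit 608) (nat_lit 8086871457) (nat_lit 76) (nat_lit 7787523981) (nat_lit 223) (nat_lit 5) (nat_lit 231) (nat_lit 5) (nat_lit 224) (nat_lit 5) (nat_lit 482) (nat_lit 435) (nat_lit 283)) (XT.lf (nat_lit 0) (nat_lit 14263795225) (nat_lit 456) (nat_lit 2503256417) (nat_lit 532) (nat_lit 8528340179) (nat_lit 217) (nat_lit 5) (nat_lit 223) (nat_lit 5) (nat_lit 224) (nat_lit 5) (nat_lit 483) (nat_lit 435) (nat_lit 282))) (XT.nd (nat_lit 78) (nat_lit 532) (nat_lit 0) (XT.lf (nat_lit 0) (nat_lit 11700720308) (nat_lit 456) (nat_lit 13293748451) (nat_lit 532) (nat_lit 755463560) (nat_lit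 211) (nat_lit 5) (nat_lit 217) (nat_lit 5) (nat_lit 218) (nat_lit 5) (nat_lit 484) (nat_lit 435) (nat_lit 281)) (XT.lf (nat_lit 0) (nat_lit 7308442899) (nat_lit 532) (nat_lit 17135637156) (nat_lit 76) (nat_lit 1770029102) (nat_lit 204) (nat_lit 5) (nat_lit 211) (nat_lit 5) (nat_lit 205) (nat_lit 5) (nat_lit 485) (nat_lit 435) (nat_lit 280))))) (XT.nd (nat_lit 234) (nat_lit 1216) (nat_lit 0) (XT.nd (nat_lit 78) (nat_lit 912) (nat_lit 0) (XT.lf (nat_lit 0) (nat_lit 6377148045) (nat_lit 456) (nat_lit 9443499997) (nat_lit 532) (nat_lit 10867130837) (nat_lit 198) (nat_lit 5) (nat_lit 204) (nat_lit 5) (nat_lit 205) (nat_lit 5) (nat_lit 486) (nat_lit 435) (nat_lit 279)) (XT.nd (nat_lit 78) (nat_lit 532) (nat_lit 0) (XT.lf (nat_lit 0) (nat_lit 3650818886) (nat_lit 380) (nat_lit 21107601565) (nat_lit 456) (nat_lit 2413834564) (nat_lit 193) (nat_lit 5) (nat_lit 198) (nat_lit 5) (nat_lit 199) (nat_lit 5) (nat_lit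 487) (nat_lit 435) (nat_lit 278)) (XT.lf (nat_lit 0) (nat_lit 832888730) (nat_lit 456) (nat_lit 5575474421) (nat_lit 532) (nat_lit 21258128696) (nat_lit 186) (nat_lit 5) (nat_lit 192) (nat_lit 5) (nat_lit 193) (nat_lit 5) (nat_lit 488) (nat_lit 435) (nat_lit 277)))) (XT.nd (nat_lit 156) (nat_lit 836) (nat_lit 0) (XT.nd (nat_lit 78) (nat_lit 380) (nat_lit 0) (XT.lf (nat_lit 0) (nat_lit 15681621409) (nat_lit 532) (nat_lit 2031084737) (nat_lit 76) (nat_lit 10458147067) (nat_lit 186) (nat_lit 5) (nat_lit 193) (nat_lit 5) (nat_lit 187) (nat_lit 5) (nat_lit 489) (nat_lit 435) (nat_lit 276)) (XT.lf (nat_lit 0) (nat_lit 23776801606) (nat_lit 380) (nat_lit 1639089103) (nat_lit 456) (nat_lit 3270798755) (nat_lit 181) (nat_lit 5) (nat_lit 186) (nat_lit 5) (nat_lit 187) (nat_lit 5) (nat_lit 490) (nat_lit 435) (nat_lit 275))) (XT.nd (nat_lit 78) (nat_lit 380) (nat_lit 0) (XT.lf (nat_lit 0) (nat_lit 6384695130)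 (nat_lit 456) (nat_lit 7916462370) (nat_lit 76) (nat_lit 14911192582) (nat_lit 175) (nat_lit 5) (nat_lit 181) (nat_lit 5) (nat_lit 176) (nat_lit 5) (nat_lit 491) (nat_lit 435) (nat_lit 274)) (XT.lf (nat_lit 0) (nat_lit 16458924550) (nat_lit 456) (nat_lit 10963118521) (nat_lit 76) (nat_lit 2327835174) (nat_lit 170) (nat_lit 5) (nat_lit 176) (nat_lit 5) (nat_lit 171) (nat_lit 5) (nat_lit 492) (nat_lit 435) (nat_lit 273))))))))
noncomputable def xc89 : XT := (XT.nd (nat_lit 59202) (nat_lit 0) (nat_lit 10260) (XT.nd (nat_lit 58110) (nat_lit 0) (nat_lit 27588) (XT.nd (nat_lit 468) (nat_lit 1748) (nat_lit 0) (XT.nd (nat_lit 234) (nat_lit 1064) (nat_lit 0) (XT.nd (nat_lit 78) (nat_lit 836) (nat_lit 0) (XT.lf (nat_lit 0) (nat_lit 16200441991) (nat_lit 380) (nat_lit 10881308346) (nat_lit 456) (nat_lit 3216854805) (nat_lit 165) (nat_lit 5) (nat_lit 170) (nat_lit 5) (nat_lit 171) (nat_lit 5) (nat_lit 493) (nat_lit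 435) (nat_lit 272)) (XT.nd (nat_lit 78) (nat_lit 380) (nat_lit 0) (XT.lf (nat_lit 0) (nat_lit 7261532873) (nat_lit 456) (nat_lit 17316153743) (nat_lit 76) (nat_lit 6281258545) (nat_lit 159) (nat_lit 5) (nat_lit 165) (nat_lit 5) (nat_lit 160) (nat_lit 5) (nat_lit 494) (nat_lit 435) (nat_lit 271)) (XT.lf (nat_lit 0) (nat_lit 10805731418) (nat_lit 380) (nat_lit 7435964461) (nat_lit 456) (nat_lit 13189351929) (nat_lit 154) (nat_lit 5) (nat_lit 159) (nat_lit 5) (nat_lit 160) (nat_lit 5) (nat_lit 495) (nat_lit 435) (nat_lit 270)))) (XT.nd (nat_lit 78) (nat_lit 760) (nat_lit 0) (XT.lf (nat_lit 0) (nat_lit 8015560536) (nat_lit 304) (nat_lit 21764131569) (nat_lit 380) (nat_lit 2236053111) (nat_lit 150) (nat_lit 5) (nat_lit 154) (nat_lit 5) (nat_lit 155) (nat_lit 5) (nat_lit 496) (nat_lit 435) (nat_lit 269)) (XT.nd (nat_lit 78) (nat_lit 304) (nat_lit 0) (XT.lf (nat_lit 0) (nat_lit 5128003262) (nat_lit 380) (nat_lit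 4014930071) (nat_lit 456) (nat_lit 23469561288) (nat_lit 144) (nat_lit 5) (nat_lit 149) (nat_lit 5) (nat_lit 150) (nat_lit 5) (nat_lit 497) (nat_lit 435) (nat_lit 268)) (XT.lf (nat_lit 0) (nat_lit 2141501693) (nat_lit 304) (nat_lit 18953961704) (nat_lit 380) (nat_lit 12126136671) (nat_lit 140) (nat_lit 5) (nat_lit 144) (nat_lit 5) (nat_lit 145) (nat_lit 5) (nat_lit 498) (nat_lit 435) (nat_lit 267))))) (XT.nd (nat_lit 234) (nat_lit 988) (nat_lit 0) (XT.nd (nat_lit 78) (nat_lit 760) (nat_lit 0) (XT.lf (nat_lit 0) (nat_lit 32992898266) (nat_lit 304) (nat_lit 618873239) (nat_lit 380) (nat_lit 233103357) (nat_lit 140) (nat_lit 5) (nat_lit 144) (nat_lit 5) (nat_lit 145) (nat_lit 5) (nat_lit 499) (nat_lit 435) (nat_lit 266)) (XT.nd (nat_lit 78) (nat_lit 304) (nat_lit 0) (XT.lf (nat_lit 0) (nat_lit 12170616245) (nat_lit 456) (nat_lit 4007771210) (nat_lit 76) (nat_lit 18300670311) (nat_lit 134) (nat_lit 5)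 (nat_lit 140) (nat_lit 5) (nat_lit 135) (nat_lit 5) (nat_lit 500) (nat_lit 435) (nat_lit 265)) (XT.lf (nat_lit 0) (nat_lit 25145783341) (nat_lit 380) (nat_lit 7184247188) (nat_lit 76) (nat_lit 2798154962) (nat_lit 130) (nat_lit 5) (nat_lit 135) (nat_lit 5) (nat_lit 131) (nat_lit 5) (nat_lit 501) (nat_lit 435) (nat_lit 264)))) (XT.nd (nat_lit 156) (nat_lit 304) (nat_lit 0) (XT.nd (nat_lit 78) (nat_lit 304) (nat_lit 0) (XT.lf (nat_lit 0) (nat_lit 2972406245) (nat_lit 380) (nat_lit 10485875329) (nat_lit 76) (nat_lit 22332261829) (nat_lit 125) (nat_lit 5) (nat_lit 130) (nat_lit 5) (nat_lit 126) (nat_lit 5) (nat_lit 502) (nat_lit 435) (nat_lit 263)) (XT.lf (nat_lit 0) (nat_lit 16410134574) (nat_lit 380) (nat_lit 13895786374) (nat_lit 76) (nat_lit 6160933673) (nat_lit 121) (nat_lit 5) (nat_lit 126) (nat_lit 5) (nat_lit 122) (nat_lit 5) (nat_lit 503) (nat_lit 435) (nat_lit 262))) (XT.nd (nat_lit 57174) (nat_lit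 0) (nat_lit 30552) (XT.lf (nat_lit 0) (nat_lit 19758090608) (nat_lit 304) (nat_lit 10775591374) (nat_lit 380) (nat_lit 6624119637) (nat_lit 117) (nat_lit 5) (nat_lit 121) (nat_lit 5) (nat_lit 122) (nat_lit 5) (nat_lit 504) (nat_lit 435) (nat_lit 261)) (XT.lf (nat_lit 0) (nat_lit 5156501995) (nat_lit 1748) (nat_lit 444113463) (nat_lit 1748) (nat_lit 444113463) (nat_lit 519) (nat_lit 3) (nat_lit 542) (nat_lit 3) (nat_lit 542) (nat_lit 5) (nat_lit 436) (nat_lit 436) (nat_lit 328)))))) (XT.nd (nat_lit 546) (nat_lit 1368) (nat_lit 0) (XT.nd (nat_lit 234) (nat_lit 0) (nat_lit 0) (XT.nd (nat_lit 78) (nat_lit 1596) (nat_lit 0) (XT.lf (nat_lit 76) (nat_lit 8213910421) (nat_lit 0) (nat_lit 3000910652) (nat_lit 1748) (nat_lit 1040991540) (nat_lit 520) (nat_lit 5) (nat_lit 519) (nat_lit 3) (nat_lit 542) (nat_lit 5) (nat_lit 437) (nat_lit 436) (nat_lit 327)) (XT.nd (nat_lit 78) (nat_lit 1672) (nat_lit 0) (XT.lf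 (nat_lit 76) (nat_lit 5192311218) (nat_lit 0) (nat_lit 6999425341) (nat_lit 1748) (nat_lit 234462332) (nat_lit 521) (nat_lit 5) (nat_lit 520) (nat_lit 5) (nat_lit 543) (nat_lit 5) (nat_lit 438) (nat_lit 436) (nat_lit 326)) (XT.lf (nat_lit 0) (nat_lit 633350468) (nat_lit 1748) (nat_lit 10463788535) (nat_lit 1824) (nat_lit 1503583831) (nat_lit 498) (nat_lit 5) (nat_lit 521) (nat_lit 5) (nat_lit 522) (nat_lit 5) (nat_lit 439) (nat_lit 436) (nat_lit 325)))) (XT.nd (nat_lit 156) (nat_lit 0) (nat_lit 152) (XT.nd (nat_lit 78) (nat_lit 0) (nat_lit 76) (XT.lf (nat_lit 0) (nat_lit 1594372696) (nat_lit 1748) (nat_lit 955399022) (nat_lit 1824) (nat_lit 10229274181) (nat_lit 498) (nat_lit 5) (nat_lit 521) (nat_lit 5) (nat_lit 522) (nat_lit 5) (nat_lit 440) (nat_lit 436) (nat_lit 324)) (XT.lf (nat_lit 0) (nat_lit 2658274749) (nat_lit 1748) (nat_lit 4062270504) (nat_lit 1824) (nat_lit 6240693984) (nat_lit 499) (nat_lit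 5) (nat_lit 522) (nat_lit 5) (nat_lit 523) (nat_lit 5) (nat_lit 441) (nat_lit 436) (nat_lit 323))) (XT.nd (nat_lit 78) (nat_lit 0) (nat_lit 0) (XT.lf (nat_lit 0) (nat_lit 3806069674) (nat_lit 1748) (nat_lit 7202846741) (nat_lit 1824) (nat_lit 2138943963) (nat_lit 500) (nat_lit 5) (nat_lit 523) (nat_lit 5) (nat_lit 524) (nat_lit 5) (nat_lit 442) (nat_lit 436) (nat_lit 322)) (XT.lf (nat_lit 76) (nat_lit 2946849617) (nat_lit 0) (nat_lit 2109550055) (nat_lit 1824) (nat_lit 8282319929) (nat_lit 501) (nat_lit 5) (nat_lit 500) (nat_lit 5) (nat_lit 524) (nat_lit 5) (nat_lit 443) (nat_lit 436) (nat_lit 321))))) (XT.nd (nat_lit 234) (nat_lit 1596) (nat_lit 0) (XT.nd (nat_lit 78) (nat_lit 0) (nat_lit 76) (XT.lf (nat_lit 0) (nat_lit 6416149277) (nat_lit 1748) (nat_lit 96371524) (nat_lit 1824) (nat_lit 7021347038) (nat_lit 501) (nat_lit 5) (nat_lit 524) (nat_lit 5) (nat_lit 525) (nat_lit 5) (nat_lit 444) (nat_lit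 436) (nat_lit 320)) (XT.nd (nat_lit 78) (nat_lit 0) (nat_lit 0) (XT.lf (nat_lit 0) (nat_lit 7895164110) (nat_lit 1748) (nat_lit 3133391158) (nat_lit 1824) (nat_lit 2704747191) (nat_lit 502) (nat_lit 5) (nat_lit 525) (nat_lit 5) (nat_lit 526) (nat_lit 5) (nat_lit 445) (nat_lit 436) (nat_lit 319)) (XT.lf (nat_lit 76) (nat_lit 7722096086) (nat_lit 0) (nat_lit 1769031599) (nat_lit 1824) (nat_lit 4446142214) (nat_lit 503) (nat_lit 5) (nat_lit 502) (nat_lit 5) (nat_lit 526) (nat_lit 5) (nat_lit 446) (nat_lit 436) (nat_lit 318)))) (XT.nd (nat_lit 156) (nat_lit 1748) (nat_lit 0) (XT.nd (nat_lit 78) (nat_lit 0) (nat_lit 76) (XT.lf (nat_lit 76) (nat_lit 4795993197) (nat_lit 0) (nat_lit 6420734045) (nat_lit 1824) (nat_lit 2928995290) (nat_lit 504) (nat_lit 5) (nat_lit 503) (nat_lit 5) (nat_lit 527) (nat_lit 5) (nat_lit 447) (nat_lit 436) (nat_lit 317)) (XT.lf (nat_lit 76) (nat_lit 1839082719) (nat_lit 0) (nat_lit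 11220715908) (nat_lit 1824) (nat_lit 1299317310) (nat_lit 505) (nat_lit 5) (nat_lit 504) (nat_lit 5) (nat_lit 528) (nat_lit 5) (nat_lit 448) (nat_lit 436) (nat_lit 316))) (XT.nd (nat_lit 78) (nat_lit 0) (nat_lit 76) (XT.lf (nat_lit 0) (nat_lit 460718739) (nat_lit 1824) (nat_lit 1147673858) (nat_lit 1900) (nat_lit 12968741678) (nat_lit 480) (nat_lit 5) (nat_lit 504) (nat_lit 5) (nat_lit 505) (nat_lit 5) (nat_lit 449) (nat_lit 436) (nat_lit 315)) (XT.lf (nat_lit 0) (nat_lit 2360060347) (nat_lit 1824) (nat_lit 4172939040) (nat_lit 1900) (nat_lit 8266440038) (nat_lit 481) (nat_lit 5) (nat_lit 505) (nat_lit 5) (nat_lit 506) (nat_lit 5) (nat_lit 450) (nat_lit 436) (nat_lit 314))))))) (XT.nd (nat_lit 1092) (nat_lit 7828) (nat_lit 0) (XT.nd (nat_lit 546) (nat_lit 4940) (nat_lit 0) (XT.nd (nat_lit 234) (nat_lit 2964) (nat_lit 0) (XT.nd (nat_lit 78) (nat_lit 1748) (nat_lit 0) (XT.lf (nat_lit 0) (nat_lit 4388950770)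 (nat_lit 1824) (nat_lit 7232200013) (nat_lit 1900) (nat_lit 3405812717) (nat_lit 482) (nat_lit 5) (nat_lit 506) (nat_lit 5) (nat_lit 507) (nat_lit 5) (nat_lit 451) (nat_lit 436) (nat_lit 313)) (XT.nd (nat_lit 78) (nat_lit 1748) (nat_lit 0) (XT.lf (nat_lit 76) (nat_lit 4922955858) (nat_lit 0) (nat_lit 1641171572) (nat_lit 1900) (nat_lit 8695478584) (nat_lit 483) (nat_lit 5) (nat_lit 482) (nat_lit 5) (nat_lit 507) (nat_lit 5) (nat_lit 452) (nat_lit 436) (nat_lit 312)) (XT.lf (nat_lit 0) (nat_lit 1997568918) (nat_lit 1824) (nat_lit 6907143921) (nat_lit 1900) (nat_lit 6592512971) (nat_lit 459) (nat_lit 5) (nat_lit 483) (nat_lit 5) (nat_lit 484) (nat_lit 5) (nat_lit 453) (nat_lit 436) (nat_lit 311)))) (XT.nd (nat_lit 156) (nat_lit 1900) (nat_lit 0) (XT.nd (nat_lit 78) (nat_lit 1064) (nat_lit 0) (XT.lf (nat_lit 0) (nat_lit 11400982590) (nat_lit 1900) (nat_lit 946330255) (nat_lit 76) (nat_lit 3392953062)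 (nat_lit 459) (nat_lit 5) (nat_lit 484) (nat_lit 5) (nat_lit 460) (nat_lit 5) (nat_lit 454) (nat_lit 436) (nat_lit 310)) (XT.lf (nat_lit 0) (nat_lit 12080452845) (nat_lit 1064) (nat_lit 1999043485) (nat_lit 1140) (nat_lit 1908954773) (nat_lit 445) (nat_lit 5) (nat_lit 459) (nat_lit 5) (nat_lit 460) (nat_lit 5) (nat_lit 455) (nat_lit 436) (nat_lit 309))) (XT.nd (nat_lit 78) (nat_lit 912) (nat_lit 0) (XT.lf (nat_lit 0) (nat_lit 693513714) (nat_lit 988) (nat_lit 6929035315) (nat_lit 76) (nat_lit 8619316137) (nat_lit 432) (nat_lit 5) (nat_lit 445) (nat_lit 5) (nat_lit 433) (nat_lit 5) (nat_lit 456) (nat_lit 436) (nat_lit 308)) (XT.lf (nat_lit 0) (nat_lit 3434288690) (nat_lit 988) (nat_lit 9996275851) (nat_lit 76) (nat_lit 3070342330) (nat_lit 420) (nat_lit 5) (nat_lit 433) (nat_lit 5) (nat_lit 421) (nat_lit 5) (nat_lit 457) (nat_lit 436) (nat_lit 307))))) (XT.nd (nat_lit 234) (nat_lit 3268) (nat_lit 0)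 (XT.nd (nat_lit 78) (nat_lit 836) (nat_lit 0) (XT.lf (nat_lit 0) (nat_lit 3650422546) (nat_lit 836) (nat_lit 2712623600) (nat_lit 912) (nat_lit 10402559405) (nat_lit 409) (nat_lit 5) (nat_lit 420) (nat_lit 5) (nat_lit 421) (nat_lit 5) (nat_lit 458) (nat_lit 436) (nat_lit 306)) (XT.nd (nat_lit 78) (nat_lit 0) (nat_lit 0) (XT.lf (nat_lit 0) (nat_lit 746127845) (nat_lit 836) (nat_lit 8744826884) (nat_lit 912) (nat_lit 7545065577) (nat_lit 398) (nat_lit 5) (nat_lit 409) (nat_lit 5) (nat_lit 410) (nat_lit 5) (nat_lit 459) (nat_lit 436) (nat_lit 305)) (XT.lf (nat_lit 0) (nat_lit 12819503698) (nat_lit 912) (nat_lit 2159009404) (nat_lit 76) (nat_lit 2333899197) (nat_lit 398) (nat_lit 5) (nat_lit 410) (nat_lit 5) (nat_lit 399) (nat_lit 5) (nat_lit 460) (nat_lit 436) (nat_lit 304)))) (XT.nd (nat_lit 156) (nat_lit 1520) (nat_lit 0) (XT.nd (nat_lit 78) (nat_lit 912) (nat_lit 0) (XT.lf (nat_lit 0) (nat_lit 12485865351)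 (nat_lit 836) (nat_lit 3886596005) (nat_lit 912) (nat_lit 1222144484) (nat_lit 387) (nat_lit 5) (nat_lit 398) (nat_lit 5) (nat_lit 399) (nat_lit 5) (nat_lit 461) (nat_lit 436) (nat_lit 303)) (XT.lf (nat_lit 0) (nat_lit 2231833189) (nat_lit 912) (nat_lit 8119076971) (nat_lit 76) (nat_lit 7531812145) (nat_lit 375) (nat_lit 5) (nat_lit 387) (nat_lit 5) (nat_lit 376) (nat_lit 5) (nat_lit 462) (nat_lit 436) (nat_lit 302))) (XT.nd (nat_lit 78) (nat_lit 760) (nat_lit 0) (XT.lf (nat_lit 0) (nat_lit 5872359606) (nat_lit 836) (nat_lit 11169189871) (nat_lit 76) (nat_lit 1135781319) (nat_lit 365) (nat_lit 5) (nat_lit 376) (nat_lit 5) (nat_lit 366) (nat_lit 5) (nat_lit 463) (nat_lit 436) (nat_lit 301)) (XT.lf (nat_lit 0) (nat_lit 4190781322) (nat_lit 760) (nat_lit 5569026817) (nat_lit 836) (nat_lit 8718216022) (nat_lit 355) (nat_lit 5) (nat_lit 365) (nat_lit 5) (nat_lit 366) (nat_lit 5) (nat_lit 464) (nat_lit 436)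 (nat_lit 300)))))) (XT.nd (nat_lit 546) (nat_lit 3572) (nat_lit 0) (XT.nd (nat_lit 234) (nat_lit 2736) (nat_lit 0) (XT.nd (nat_lit 78) (nat_lit 836) (nat_lit 0) (XT.lf (nat_lit 0) (nat_lit 1339463534) (nat_lit 684) (nat_lit 12536064433) (nat_lit 760) (nat_lit 4909978129) (nat_lit 346) (nat_lit 5) (nat_lit 355) (nat_lit 5) (nat_lit 356) (nat_lit 5) (nat_lit 465) (nat_lit 436) (nat_lit 299)) (XT.nd (nat_lit 78) (nat_lit 836) (nat_lit 0) (XT.lf (nat_lit 0) (nat_lit 17577795893) (nat_lit 684) (nat_lit 657240364) (nat_lit 760) (nat_lit 864770597) (nat_lit 346) (nat_lit 5) (nat_lit 355) (nat_lit 5) (nat_lit 356) (nat_lit 5) (nat_lit 466) (nat_lit 436) (nat_lit 298)) (XT.lf (nat_lit 0) (nat_lit 3418904982) (nat_lit 836) (nat_lit 4456545024) (nat_lit 76) (nat_lit 11544450242) (nat_lit 335) (nat_lit 5) (nat_lit 346) (nat_lit 5) (nat_lit 336) (nat_lit 5) (nat_lit 467) (nat_lit 436) (nat_lit 297)))) (XT.nd (nat_lit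 156) (nat_lit 1368) (nat_lit 0) (XT.nd (nat_lit 78) (nat_lit 684) (nat_lit 0) (XT.lf (nat_lit 0) (nat_lit 7930365387) (nat_lit 760) (nat_lit 7425011783) (nat_lit 76) (nat_lit 4391885133) (nat_lit 326) (nat_lit 5) (nat_lit 336) (nat_lit 5) (nat_lit 327) (nat_lit 5) (nat_lit 468) (nat_lit 436) (nat_lit 296)) (XT.lf (nat_lit 0) (nat_lit 9640385956) (nat_lit 684) (nat_lit 3069800262) (nat_lit 760) (nat_lit 7371599301) (nat_lit 317) (nat_lit 5) (nat_lit 326) (nat_lit 5) (nat_lit 327) (nat_lit 5) (nat_lit 469) (nat_lit 436) (nat_lit 295))) (XT.nd (nat_lit 78) (nat_lit 760) (nat_lit 0) (XT.lf (nat_lit 0) (nat_lit 6907323824) (nat_lit 608) (nat_lit 10871419388) (nat_lit 684) (nat_lit 2644695003) (nat_lit 309) (nat_lit 5) (nat_lit 317) (nat_lit 5) (nat_lit 318) (nat_lit 5) (nat_lit 470) (nat_lit 436) (nat_lit 294)) (XT.lf (nat_lit 0) (nat_lit 2313349742) (nat_lit 760) (nat_lit 16635099999) (nat_lit 76) (nat_lit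 1824232503) (nat_lit 299) (nat_lit 5) (nat_lit 309) (nat_lit 5) (nat_lit 300) (nat_lit 5) (nat_lit 471) (nat_lit 436) (nat_lit 293))))) (XT.nd (nat_lit 234) (nat_lit 2356) (nat_lit 0) (XT.nd (nat_lit 78) (nat_lit 608) (nat_lit 0) (XT.lf (nat_lit 0) (nat_lit 1286550809) (nat_lit 608) (nat_lit 6259160060) (nat_lit 684) (nat_lit 13583113543) (nat_lit 291) (nat_lit 5) (nat_lit 299) (nat_lit 5) (nat_lit 300) (nat_lit 5) (nat_lit 472) (nat_lit 436) (nat_lit 292)) (XT.nd (nat_lit 78) (nat_lit 608) (nat_lit 0) (XT.lf (nat_lit 0) (nat_lit 13081021192) (nat_lit 684) (nat_lit 1579443555) (nat_lit 76) (nat_lit 6832267079) (nat_lit 291) (nat_lit 5) (nat_lit 300) (nat_lit 5) (nat_lit 292) (nat_lit 5) (nat_lit 473) (nat_lit 436) (nat_lit 291)) (XT.lf (nat_lit 0) (nat_lit 17403453901) (nat_lit 608) (nat_lit 1522417490) (nat_lit 684) (nat_lit 2938815994) (nat_lit 283) (nat_lit 5) (nat_lit 291) (nat_lit 5) (nat_lit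 292) (nat_lit 5) (nat_lit 474) (nat_lit 436) (nat_lit 290)))) (XT.nd (nat_lit 156) (nat_lit 1064) (nat_lit 0) (XT.nd (nat_lit 78) (nat_lit 608) (nat_lit 0) (XT.lf (nat_lit 0) (nat_lit 2837927748) (nat_lit 684) (nat_lit 7430827338) (nat_lit 76) (nat_lit 11975195645) (nat_lit 274) (nat_lit 5) (nat_lit 283) (nat_lit 5) (nat_lit 275) (nat_lit 5) (nat_lit 475) (nat_lit 436) (nat_lit 289)) (XT.lf (nat_lit 0) (nat_lit 8878926151) (nat_lit 684) (nat_lit 10445006644) (nat_lit 76) (nat_lit 3307653579) (nat_lit 266) (nat_lit 5) (nat_lit 275) (nat_lit 5) (nat_lit 267) (nat_lit 5) (nat_lit 476) (nat_lit 436) (nat_lit 288))) (XT.nd (nat_lit 78) (nat_lit 532) (nat_lit 0) (XT.lf (nat_lit 0) (nat_lit 9505980402) (nat_lit 532) (nat_lit 5765473219) (nat_lit 608) (nat_lit 7755991960) (nat_lit 259) (nat_lit 5) (nat_lit 266) (nat_lit 5) (nat_lit 267) (nat_lit 5) (nat_lit 477) (nat_lit 436) (nat_lit 287)) (XT.lf (nat_lit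 0) (nat_lit 6785968862) (nat_lit 532) (nat_lit 15227756566) (nat_lit 608) (nat_lit 1418296232) (nat_lit 252) (nat_lit 5) (nat_lit 259) (nat_lit 5) (nat_lit 260) (nat_lit 5) (nat_lit 478) (nat_lit 436) (nat_lit 286))))))))
noncomputable def xc90 : XT := (XT.nd (nat_lit 59280) (nat_lit 0) (nat_lit 17784) (XT.nd (nat_lit 1014) (nat_lit 4560) (nat_lit 0) (XT.nd (nat_lit 468) (nat_lit 2736) (nat_lit 0) (XT.nd (nat_lit 234) (nat_lit 1520) (nat_lit 0) (XT.nd (nat_lit 78) (nat_lit 532) (nat_lit 0) (XT.lf (nat_lit 0) (nat_lit 4007083627) (nat_lit 532) (nat_lit 1181813108) (nat_lit 608) (nat_lit 18656247665) (nat_lit 244) (nat_lit 5) (nat_lit 251) (nat_lit 5) (nat_lit 252) (nat_lit 5) (nat_lit 479) (nat_lit 436) (nat_lit 285)) (XT.nd (nat_lit 78) (nat_lit 0) (nat_lit 0) (XT.lf (nat_lit 0) (nat_lit 1143879552) (nat_lit 532) (nat_lit 11028263041) (nat_lit 608) (nat_lit 12094389036) (nat_lit 237) (nat_lit 5) (nat_lit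 244) (nat_lit 5) (nat_lit 245) (nat_lit 5) (nat_lit 480) (nat_lit 436) (nat_lit 284)) (XT.lf (nat_lit 0) (nat_lit 19519917009) (nat_lit 608) (nat_lit 1715546008) (nat_lit 76) (nat_lit 3461997251) (nat_lit 237) (nat_lit 5) (nat_lit 245) (nat_lit 5) (nat_lit 238) (nat_lit 5) (nat_lit 481) (nat_lit 436) (nat_lit 283)))) (XT.nd (nat_lit 78) (nat_lit 988) (nat_lit 0) (XT.lf (nat_lit 0) (nat_lit 2119776375) (nat_lit 532) (nat_lit 4635674538) (nat_lit 76) (nat_lit 18381643428) (nat_lit 230) (nat_lit 5) (nat_lit 237) (nat_lit 5) (nat_lit 231) (nat_lit 5) (nat_lit 482) (nat_lit 436) (nat_lit 282)) (XT.nd (nat_lit 78) (nat_lit 456) (nat_lit 0) (XT.lf (nat_lit 0) (nat_lit 9739096656) (nat_lit 608) (nat_lit 7634076726) (nat_lit 76) (nat_lit 8212591496) (nat_lit 223) (nat_lit 5) (nat_lit 231) (nat_lit 5) (nat_lit 224) (nat_lit 5) (nat_lit 483) (nat_lit 436) (nat_lit 281)) (XT.lf (nat_lit 0) (nat_lit 15375827903)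 (nat_lit 456) (nat_lit 2378345332) (nat_lit 532) (nat_lit 8290379137) (nat_lit 217) (nat_lit 5) (nat_lit 223) (nat_lit 5) (nat_lit 224) (nat_lit 5) (nat_lit 484) (nat_lit 436) (nat_lit 280))))) (XT.nd (nat_lit 234) (nat_lit 1292) (nat_lit 0) (XT.nd (nat_lit 78) (nat_lit 988) (nat_lit 0) (XT.lf (nat_lit 0) (nat_lit 12733028015) (nat_lit 456) (nat_lit 13486968686) (nat_lit 532) (nat_lit 292901261) (nat_lit 211) (nat_lit 5) (nat_lit 217) (nat_lit 5) (nat_lit 218) (nat_lit 5) (nat_lit 485) (nat_lit 436) (nat_lit 279)) (XT.nd (nat_lit 78) (nat_lit 456) (nat_lit 0) (XT.lf (nat_lit 0) (nat_lit 7998348783) (nat_lit 532) (nat_lit 16965136453) (nat_lit 76) (nat_lit 2027616583) (nat_lit 204) (nat_lit 5) (nat_lit 211) (nat_lit 5) (nat_lit 205) (nat_lit 5) (nat_lit 486) (nat_lit 436) (nat_lit 278)) (XT.lf (nat_lit 0) (nat_lit 7241925971) (nat_lit 456) (nat_lit 9514658351) (nat_lit 532) (nat_lit 10722584536) (nat_lit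 198) (nat_lit 5) (nat_lit 204) (nat_lit 5) (nat_lit 205) (nat_lit 5) (nat_lit 487) (nat_lit 436) (nat_lit 277)))) (XT.nd (nat_lit 156) (nat_lit 380) (nat_lit 0) (XT.nd (nat_lit 78) (nat_lit 532) (nat_lit 0) (XT.lf (nat_lit 0) (nat_lit 4430619166) (nat_lit 380) (nat_lit 21524123478) (nat_lit 456) (nat_lit 2023592077) (nat_lit 193) (nat_lit 5) (nat_lit 198) (nat_lit 5) (nat_lit 199) (nat_lit 5) (nat_lit 488) (nat_lit 436) (nat_lit 276)) (XT.lf (nat_lit 0) (nat_lit 1523262036) (nat_lit 456) (nat_lit 5524963100) (nat_lit 532) (nat_lit 21439293490) (nat_lit 186) (nat_lit 5) (nat_lit 192) (nat_lit 5) (nat_lit 193) (nat_lit 5) (nat_lit 489) (nat_lit 436) (nat_lit 275))) (XT.nd (nat_lit 78) (nat_lit 380) (nat_lit 0) (XT.lf (nat_lit 0) (nat_lit 16588016686) (nat_lit 532) (nat_lit 1438676815) (nat_lit 76) (nat_lit 10980551079) (nat_lit 186) (nat_lit 5) (nat_lit 193) (nat_lit 5) (nat_lit 187) (nat_lit 5) (nat_lit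 490) (nat_lit 436) (nat_lit 274)) (XT.lf (nat_lit 0) (nat_lit 25132846445) (nat_lit 380) (nat_lit 1472943244) (nat_lit 456) (nat_lit 2932937162) (nat_lit 181) (nat_lit 5) (nat_lit 186) (nat_lit 5) (nat_lit 187) (nat_lit 5) (nat_lit 491) (nat_lit 436) (nat_lit 273)))))) (XT.nd (nat_lit 546) (nat_lit 1748) (nat_lit 0) (XT.nd (nat_lit 234) (nat_lit 1596) (nat_lit 0) (XT.nd (nat_lit 78) (nat_lit 760) (nat_lit 0) (XT.lf (nat_lit 0) (nat_lit 6999516362) (nat_lit 456) (nat_lit 7508954789) (nat_lit 76) (nat_lit 15571769690) (nat_lit 175) (nat_lit 5) (nat_lit 181) (nat_lit 5) (nat_lit 176) (nat_lit 5) (nat_lit 492) (nat_lit 436) (nat_lit 272)) (XT.nd (nat_lit 78) (nat_lit 380) (nat_lit 0) (XT.lf (nat_lit 0) (nat_lit 17369188861) (nat_lit 456) (nat_lit 10650584766) (nat_lit 76) (nat_lit 2614257311) (nat_lit 170) (nat_lit 5) (nat_lit 176) (nat_lit 5) (nat_lit 171) (nat_lit 5) (nat_lit 493) (nat_lit 436) (nat_lit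 271)) (XT.lf (nat_lit 0) (nat_lit 17317476166) (nat_lit 380) (nat_lit 10985189294) (nat_lit 456) (nat_lit 2896715261) (nat_lit 165) (nat_lit 5) (nat_lit 170) (nat_lit 5) (nat_lit 171) (nat_lit 5) (nat_lit 494) (nat_lit 436) (nat_lit 270)))) (XT.nd (nat_lit 156) (nat_lit 760) (nat_lit 0) (XT.nd (nat_lit 78) (nat_lit 380) (nat_lit 0) (XT.lf (nat_lit 0) (nat_lit 7884096281) (nat_lit 456) (nat_lit 17202835570) (nat_lit 76) (nat_lit 6689674635) (nat_lit 159) (nat_lit 5) (nat_lit 165) (nat_lit 5) (nat_lit 160) (nat_lit 5) (nat_lit 495) (nat_lit 436) (nat_lit 269)) (XT.lf (nat_lit 0) (nat_lit 11752439673) (nat_lit 380) (nat_lit 7433478536) (nat_lit 456) (nat_lit 13180109291) (nat_lit 154) (nat_lit 5) (nat_lit 159) (nat_lit 5) (nat_lit 160) (nat_lit 5) (nat_lit 496) (nat_lit 436) (nat_lit 268))) (XT.nd (nat_lit 78) (nat_lit 456) (nat_lit 0) (XT.lf (nat_lit 0) (nat_lit 8874845730) (nat_lit 304) (nat_lit 22189085957)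 (nat_lit 380) (nat_lit 1904456955) (nat_lit 150) (nat_lit 5) (nat_lit 154) (nat_lit 5) (nat_lit 155) (nat_lit 5) (nat_lit 497) (nat_lit 436) (nat_lit 267)) (XT.lf (nat_lit 0) (nat_lit 5895777576) (nat_lit 380) (nat_lit 3907419165) (nat_lit 456) (nat_lit 23779941832) (nat_lit 144) (nat_lit 5) (nat_lit 149) (nat_lit 5) (nat_lit 150) (nat_lit 5) (nat_lit 498) (nat_lit 436) (nat_lit 266))))) (XT.nd (nat_lit 234) (nat_lit 988) (nat_lit 0) (XT.nd (nat_lit 78) (nat_lit 456) (nat_lit 0) (XT.lf (nat_lit 0) (nat_lit 2815870021) (nat_lit 304) (nat_lit 19292588959) (nat_lit 380) (nat_lit 12102175409) (nat_lit 140) (nat_lit 5) (nat_lit 144) (nat_lit 5) (nat_lit 145) (nat_lit 5) (nat_lit 499) (nat_lit 436) (nat_lit 265)) (XT.nd (nat_lit 78) (nat_lit 380) (nat_lit 0) (XT.lf (nat_lit 0) (nat_lit 134567024) (nat_lit 380) (nat_lit 278676584) (nat_lit 76) (nat_lit 34439567870) (nat_lit 139) (nat_lit 5) (nat_lit 144)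 (nat_lit 5) (nat_lit 140) (nat_lit 5) (nat_lit 500) (nat_lit 436) (nat_lit 264)) (XT.lf (nat_lit 0) (nat_lit 12901692168) (nat_lit 456) (nat_lit 3534542525) (nat_lit 76) (nat_lit 19069865449) (nat_lit 134) (nat_lit 5) (nat_lit 140) (nat_lit 5) (nat_lit 135) (nat_lit 5) (nat_lit 501) (nat_lit 436) (nat_lit 263)))) (XT.nd (nat_lit 156) (nat_lit 304) (nat_lit 0) (XT.nd (nat_lit 78) (nat_lit 380) (nat_lit 0) (XT.lf (nat_lit 0) (nat_lit 26260705148) (nat_lit 380) (nat_lit 6810208491) (nat_lit 76) (nat_lit 3103896540) (nat_lit 130) (nat_lit 5) (nat_lit 135) (nat_lit 5) (nat_lit 131) (nat_lit 5) (nat_lit 502) (nat_lit 436) (nat_lit 262)) (XT.lf (nat_lit 0) (nat_lit 3417743710) (nat_lit 380) (nat_lit 10215707803) (nat_lit 76) (nat_lit 23223675452) (nat_lit 125) (nat_lit 5) (nat_lit 130) (nat_lit 5) (nat_lit 126) (nat_lit 5) (nat_lit 503) (nat_lit 436) (nat_lit 261))) (XT.nd (nat_lit 57252) (nat_lit 0) (nat_lit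 30248) (XT.lf (nat_lit 0) (nat_lit 17253430686) (nat_lit 380) (nat_lit 13731868856) (nat_lit 76) (nat_lit 6568531717) (nat_lit 121) (nat_lit 5) (nat_lit 126) (nat_lit 5) (nat_lit 122) (nat_lit 5) (nat_lit 504) (nat_lit 436) (nat_lit 260)) (XT.lf (nat_lit 0) (nat_lit 5998319771) (nat_lit 1748) (nat_lit 106982168) (nat_lit 1748) (nat_lit 106982168) (nat_lit 519) (nat_lit 3) (nat_lit 542) (nat_lit 3) (nat_lit 542) (nat_lit 5) (nat_lit 437) (nat_lit 437) (nat_lit 326))))))) (XT.nd (nat_lit 1092) (nat_lit 9500) (nat_lit 0) (XT.nd (nat_lit 546) (nat_lit 1216) (nat_lit 0) (XT.nd (nat_lit 234) (nat_lit 0) (nat_lit 152) (XT.nd (nat_lit 78) (nat_lit 0) (nat_lit 76) (XT.lf (nat_lit 0) (nat_lit 289487180) (nat_lit 1748) (nat_lit 3448666007) (nat_lit 1824) (nat_lit 8858435918) (nat_lit 496) (nat_lit 5) (nat_lit 519) (nat_lit 3) (nat_lit 520) (nat_lit 5) (nat_lit 438) (nat_lit 437) (nat_lit 325)) (XT.nd (nat_lit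 78) (nat_lit 0) (nat_lit 76) (XT.lf (nat_lit 0) (nat_lit 1070579495) (nat_lit 1748) (nat_lit 6722938450) (nat_lit 1824) (nat_lit 4979238360) (nat_lit 497) (nat_lit 5) (nat_lit 520) (nat_lit 5) (nat_lit 521) (nat_lit 5) (nat_lit 439) (nat_lit 437) (nat_lit 324)) (XT.lf (nat_lit 0) (nat_lit 1924134447) (nat_lit 1748) (nat_lit 10033860216) (nat_lit 1824) (nat_lit 995234823) (nat_lit 498) (nat_lit 5) (nat_lit 521) (nat_lit 5) (nat_lit 522) (nat_lit 5) (nat_lit 440) (nat_lit 437) (nat_lit 323)))) (XT.nd (nat_lit 156) (nat_lit 0) (nat_lit 152) (XT.nd (nat_lit 78) (nat_lit 0) (nat_lit 76) (XT.lf (nat_lit 0) (nat_lit 2876945105) (nat_lit 1748) (nat_lit 261884319) (nat_lit 1824) (nat_lit 9998815976) (nat_lit 498) (nat_lit 5) (nat_lit 521) (nat_lit 5) (nat_lit 522) (nat_lit 5) (nat_lit 441) (nat_lit 437) (nat_lit 322)) (XT.lf (nat_lit 0) (nat_lit 3938213231) (nat_lit 1748) (nat_lit 3446335352) (nat_lit 1824)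 (nat_lit 5941449220) (nat_lit 499) (nat_lit 5) (nat_lit 522) (nat_lit 5) (nat_lit 523) (nat_lit 5) (nat_lit 442) (nat_lit 437) (nat_lit 321))) (XT.nd (nat_lit 78) (nat_lit 0) (nat_lit 0) (XT.lf (nat_lit 0) (nat_lit 5087314124) (nat_lit 1748) (nat_lit 6666743839) (nat_lit 1824) (nat_lit 1764824351) (nat_lit 500) (nat_lit 5) (nat_lit 523) (nat_lit 5) (nat_lit 524) (nat_lit 5) (nat_lit 443) (nat_lit 437) (nat_lit 320)) (XT.lf (nat_lit 76) (nat_lit 3775240048) (nat_lit 0) (nat_lit 2570726339) (nat_lit 1824) (nat_lit 7370086795) (nat_lit 501) (nat_lit 5) (nat_lit 500) (nat_lit 5) (nat_lit 524) (nat_lit 5) (nat_lit 444) (nat_lit 437) (nat_lit 319))))) (XT.nd (nat_lit 234) (nat_lit 1596) (nat_lit 0) (XT.nd (nat_lit 78) (nat_lit 0) (nat_lit 76) (XT.lf (nat_lit 76) (nat_lit 652396849) (nat_lit 0) (nat_lit 7062697321) (nat_lit 1824) (nat_lit 6202592037) (nat_lit 502) (nat_lit 5) (nat_lit 501) (nat_lit 5) (nat_lit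 525) (nat_lit 5) (nat_lit 445) (nat_lit 437) (nat_lit 318)) (XT.nd (nat_lit 78) (nat_lit 0) (nat_lit 0) (XT.lf (nat_lit 0) (nat_lit 9204654160) (nat_lit 1748) (nat_lit 2472549519) (nat_lit 1824) (nat_lit 2446578685) (nat_lit 502) (nat_lit 5) (nat_lit 525) (nat_lit 5) (nat_lit 526) (nat_lit 5) (nat_lit 446) (nat_lit 437) (nat_lit 317)) (XT.lf (nat_lit 76) (nat_lit 8696355905) (nat_lit 0) (nat_lit 2125720370) (nat_lit 1824) (nat_lit 3512322897) (nat_lit 503) (nat_lit 5) (nat_lit 502) (nat_lit 5) (nat_lit 526) (nat_lit 5) (nat_lit 447) (nat_lit 437) (nat_lit 316)))) (XT.nd (nat_lit 156) (nat_lit 1748) (nat_lit 0) (XT.nd (nat_lit 78) (nat_lit 0) (nat_lit 76) (XT.lf (nat_lit 76) (nat_lit 5693009788) (nat_lit 0) (nat_lit 6878937747) (nat_lit 1824) (nat_lit 1977709653) (nat_lit 504) (nat_lit 5) (nat_lit 503) (nat_lit 5) (nat_lit 527) (nat_lit 5) (nat_lit 448) (nat_lit 437) (nat_lit 315)) (XT.lf (nat_lit 76)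 (nat_lit 2656975057) (nat_lit 0) (nat_lit 11786942567) (nat_lit 1824) (nat_lit 326064465) (nat_lit 505) (nat_lit 5) (nat_lit 504) (nat_lit 5) (nat_lit 528) (nat_lit 5) (nat_lit 449) (nat_lit 437) (nat_lit 314))) (XT.nd (nat_lit 78) (nat_lit 0) (nat_lit 76) (XT.lf (nat_lit 0) (nat_lit 1444401228) (nat_lit 1824) (nat_lit 428652523) (nat_lit 1900) (nat_lit 13121939439) (nat_lit 480) (nat_lit 5) (nat_lit 504) (nat_lit 5) (nat_lit 505) (nat_lit 5) (nat_lit 450) (nat_lit 437) (nat_lit 313)) (XT.lf (nat_lit 0) (nat_lit 3375954973) (nat_lit 1824) (nat_lit 3536582528) (nat_lit 1900) (nat_lit 8311927043) (nat_lit 481) (nat_lit 5) (nat_lit 505) (nat_lit 5) (nat_lit 506) (nat_lit 5) (nat_lit 451) (nat_lit 437) (nat_lit 312)))))) (XT.nd (nat_lit 546) (nat_lit 4940) (nat_lit 0) (XT.nd (nat_lit 234) (nat_lit 2964) (nat_lit 0) (XT.nd (nat_lit 78) (nat_lit 1748) (nat_lit 0) (XT.lf (nat_lit 0) (nat_lit 5441924576) (nat_lit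 1824) (nat_lit 6680348521) (nat_lit 1900) (nat_lit 3337018630) (nat_lit 482) (nat_lit 5) (nat_lit 506) (nat_lit 5) (nat_lit 507) (nat_lit 5) (nat_lit 452) (nat_lit 437) (nat_lit 311)) (XT.nd (nat_lit 78) (nat_lit 1748) (nat_lit 0) (XT.lf (nat_lit 76) (nat_lit 5826988875) (nat_lit 0) (nat_lit 1833444214) (nat_lit 1900) (nat_lit 8038920486) (nat_lit 483) (nat_lit 5) (nat_lit 482) (nat_lit 5) (nat_lit 507) (nat_lit 5) (nat_lit 453) (nat_lit 437) (nat_lit 310)) (XT.lf (nat_lit 0) (nat_lit 2820231098) (nat_lit 1824) (nat_lit 7228859913) (nat_lit 1900) (nat_lit 5895455398) (nat_lit 459) (nat_lit 5) (nat_lit 483) (nat_lit 5) (nat_lit 484) (nat_lit 5) (nat_lit 454) (nat_lit 437) (nat_lit 309)))) (XT.nd (nat_lit 156) (nat_lit 1900) (nat_lit 0) (XT.nd (nat_lit 78) (nat_lit 1064) (nat_lit 0) (XT.lf (nat_lit 0) (nat_lit 12593976501) (nat_lit 1900) (nat_lit 216395203) (nat_lit 76) (nat_lit 3385032951) (nat_lit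 459) (nat_lit 5) (nat_lit 484) (nat_lit 5) (nat_lit 460) (nat_lit 5) (nat_lit 455) (nat_lit 437) (nat_lit 308)) (XT.lf (nat_lit 0) (nat_lit 13188888469) (nat_lit 1064) (nat_lit 2144015483) (nat_lit 1140) (nat_lit 1118531744) (nat_lit 445) (nat_lit 5) (nat_lit 459) (nat_lit 5) (nat_lit 460) (nat_lit 5) (nat_lit 456) (nat_lit 437) (nat_lit 307))) (XT.nd (nat_lit 78) (nat_lit 912) (nat_lit 0) (XT.lf (nat_lit 0) (nat_lit 1530894947) (nat_lit 988) (nat_lit 6375148209) (nat_lit 76) (nat_lit 8806700297) (nat_lit 432) (nat_lit 5) (nat_lit 445) (nat_lit 5) (nat_lit 433) (nat_lit 5) (nat_lit 457) (nat_lit 437) (nat_lit 306)) (XT.lf (nat_lit 0) (nat_lit 4334661686) (nat_lit 988) (nat_lit 9530453298) (nat_lit 76) (nat_lit 3114827399) (nat_lit 420) (nat_lit 5) (nat_lit 433) (nat_lit 5) (nat_lit 421) (nat_lit 5) (nat_lit 458) (nat_lit 437) (nat_lit 305))))) (XT.nd (nat_lit 234) (nat_lit 3268) (nat_lit 0) (XT.nd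 (nat_lit 78) (nat_lit 836) (nat_lit 0) (XT.lf (nat_lit 0) (nat_lit 4513223302) (nat_lit 836) (nat_lit 2819725787) (nat_lit 912) (nat_lit 9920000895) (nat_lit 409) (nat_lit 5) (nat_lit 420) (nat_lit 5) (nat_lit 421) (nat_lit 5) (nat_lit 459) (nat_lit 437) (nat_lit 304)) (XT.nd (nat_lit 78) (nat_lit 0) (nat_lit 0) (XT.lf (nat_lit 0) (nat_lit 1525113117) (nat_lit 836) (nat_lit 9011642365) (nat_lit 912) (nat_lit 6995081756) (nat_lit 398) (nat_lit 5) (nat_lit 409) (nat_lit 5) (nat_lit 410) (nat_lit 5) (nat_lit 460) (nat_lit 437) (nat_lit 303)) (XT.lf (nat_lit 0) (nat_lit 13942965590) (nat_lit 912) (nat_lit 1474367900) (nat_lit 76) (nat_lit 2399632638) (nat_lit 398) (nat_lit 5) (nat_lit 410) (nat_lit 5) (nat_lit 399) (nat_lit 5) (nat_lit 461) (nat_lit 437) (nat_lit 302)))) (XT.nd (nat_lit 156) (nat_lit 1520) (nat_lit 0) (XT.nd (nat_lit 78) (nat_lit 912) (nat_lit 0) (XT.lf (nat_lit 0) (nat_lit 13597694782)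 (nat_lit 836) (nat_lit 3988083251) (nat_lit 912) (nat_lit 522183314) (nat_lit 387) (nat_lit 5) (nat_lit 398) (nat_lit 5) (nat_lit 399) (nat_lit 5) (nat_lit 462) (nat_lit 437) (nat_lit 301)) (XT.lf (nat_lit 0) (nat_lit 3009507623) (nat_lit 912) (nat_lit 7613722704) (nat_lit 76) (nat_lit 7781721366) (nat_lit 375) (nat_lit 5) (nat_lit 387) (nat_lit 5) (nat_lit 376) (nat_lit 5) (nat_lit 463) (nat_lit 437) (nat_lit 300))) (XT.nd (nat_lit 78) (nat_lit 760) (nat_lit 0) (XT.lf (nat_lit 0) (nat_lit 6743605426) (nat_lit 836) (nat_lit 10753829116) (nat_lit 76) (nat_lit 1211277888) (nat_lit 365) (nat_lit 5) (nat_lit 376) (nat_lit 5) (nat_lit 366) (nat_lit 5) (nat_lit 464) (nat_lit 437) (nat_lit 299)) (XT.lf (nat_lit 0) (nat_lit 5054766274) (nat_lit 760) (nat_lit 5677459521) (nat_lit 836) (nat_lit 8286510905) (nat_lit 355) (nat_lit 5) (nat_lit 365) (nat_lit 5) (nat_lit 366) (nat_lit 5) (nat_lit 465) (nat_lit 437)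 (nat_lit 298))))))))
noncomputable def xc91 : XT := (XT.nd (nat_lit 2106) (nat_lit 4256) (nat_lit 0) (XT.nd (nat_lit 1014) (nat_lit 5928) (nat_lit 0) (XT.nd (nat_lit 468) (nat_lit 3800) (nat_lit 0) (XT.nd (nat_lit 234) (nat_lit 1976) (nat_lit 0) (XT.nd (nat_lit 78) (nat_lit 836) (nat_lit 0) (XT.lf (nat_lit 0) (nat_lit 2118964080) (nat_lit 684) (nat_lit 12837828044) (nat_lit 760) (nat_lit 4378944511) (nat_lit 346) (nat_lit 5) (nat_lit 355) (nat_lit 5) (nat_lit 356) (nat_lit 5) (nat_lit 466) (nat_lit 437) (nat_lit 297)) (XT.nd (nat_lit 78) (nat_lit 836) (nat_lit 0) (XT.lf (nat_lit 0) (nat_lit 18822912915) (nat_lit 684) (nat_lit 604803864) (nat_lit 760) (nat_lit 232138024) (nat_lit 346) (nat_lit 5) (nat_lit 355) (nat_lit 5) (nat_lit 356) (nat_lit 5) (nat_lit 467) (nat_lit 437) (nat_lit 296)) (XT.lf (nat_lit 0) (nat_lit 4157633383) (nat_lit 836) (nat_lit 3863341764) (nat_lit 76) (nat_lit 11968766837) (nat_lit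 335) (nat_lit 5) (nat_lit 346) (nat_lit 5) (nat_lit 336) (nat_lit 5) (nat_lit 468) (nat_lit 437) (nat_lit 295)))) (XT.nd (nat_lit 78) (nat_lit 1292) (nat_lit 0) (XT.lf (nat_lit 0) (nat_lit 8791154301) (nat_lit 760) (nat_lit 6920781713) (nat_lit 76) (nat_lit 4615255487) (nat_lit 326) (nat_lit 5) (nat_lit 336) (nat_lit 5) (nat_lit 327) (nat_lit 5) (nat_lit 469) (nat_lit 437) (nat_lit 294)) (XT.nd (nat_lit 78) (nat_lit 608) (nat_lit 0) (XT.lf (nat_lit 0) (nat_lit 10644783563) (nat_lit 684) (nat_lit 3056087579) (nat_lit 760) (nat_lit 6971150150) (nat_lit 317) (nat_lit 5) (nat_lit 326) (nat_lit 5) (nat_lit 327) (nat_lit 5) (nat_lit 470) (nat_lit 437) (nat_lit 293)) (XT.lf (nat_lit 0) (nat_lit 7829470276) (nat_lit 608) (nat_lit 11079574394) (nat_lit 684) (nat_lit 2115128581) (nat_lit 309) (nat_lit 5) (nat_lit 317) (nat_lit 5) (nat_lit 318) (nat_lit 5) (nat_lit 471) (nat_lit 437) (nat_lit 292))))) (XT.nd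 (nat_lit 234) (nat_lit 2432) (nat_lit 0) (XT.nd (nat_lit 78) (nat_lit 608) (nat_lit 0) (XT.lf (nat_lit 0) (nat_lit 2971586419) (nat_lit 760) (nat_lit 16411951545) (nat_lit 76) (nat_lit 2000520110) (nat_lit 299) (nat_lit 5) (nat_lit 309) (nat_lit 5) (nat_lit 300) (nat_lit 5) (nat_lit 472) (nat_lit 437) (nat_lit 291)) (XT.nd (nat_lit 78) (nat_lit 0) (nat_lit 0) (XT.lf (nat_lit 0) (nat_lit 2035631926) (nat_lit 608) (nat_lit 6312748822) (nat_lit 684) (nat_lit 13402755323) (nat_lit 291) (nat_lit 5) (nat_lit 299) (nat_lit 5) (nat_lit 300) (nat_lit 5) (nat_lit 473) (nat_lit 437) (nat_lit 290)) (XT.lf (nat_lit 0) (nat_lit 14033810835) (nat_lit 684) (nat_lit 926665269) (nat_lit 76) (nat_lit 7165804184) (nat_lit 291) (nat_lit 5) (nat_lit 300) (nat_lit 5) (nat_lit 292) (nat_lit 5) (nat_lit 474) (nat_lit 437) (nat_lit 289)))) (XT.nd (nat_lit 156) (nat_lit 1140) (nat_lit 0) (XT.nd (nat_lit 78) (nat_lit 684) (nat_lit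 0) (XT.lf (nat_lit 0) (nat_lit 18614359821) (nat_lit 608) (nat_lit 1427797745) (nat_lit 684) (nat_lit 2467474694) (nat_lit 283) (nat_lit 5) (nat_lit 291) (nat_lit 5) (nat_lit 292) (nat_lit 5) (nat_lit 475) (nat_lit 437) (nat_lit 288)) (XT.lf (nat_lit 0) (nat_lit 3464534566) (nat_lit 684) (nat_lit 6958983441) (nat_lit 76) (nat_lit 12476897551) (nat_lit 274) (nat_lit 5) (nat_lit 283) (nat_lit 5) (nat_lit 275) (nat_lit 5) (nat_lit 476) (nat_lit 437) (nat_lit 287))) (XT.nd (nat_lit 78) (nat_lit 532) (nat_lit 0) (XT.lf (nat_lit 0) (nat_lit 9676425417) (nat_lit 684) (nat_lit 10065229324) (nat_lit 76) (nat_lit 3558232988) (nat_lit 266) (nat_lit 5) (nat_lit 275) (nat_lit 5) (nat_lit 267) (nat_lit 5) (nat_lit 477) (nat_lit 437) (nat_lit 286)) (XT.lf (nat_lit 0) (nat_lit 10473042164) (nat_lit 532) (nat_lit 5776643932) (nat_lit 608) (nat_lit 7458158157) (nat_lit 259) (nat_lit 5) (nat_lit 266) (nat_lit 5) (nat_lit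 267) (nat_lit 5) (nat_lit 478) (nat_lit 437) (nat_lit 285)))))) (XT.nd (nat_lit 546) (nat_lit 2736) (nat_lit 0) (XT.nd (nat_lit 234) (nat_lit 1520) (nat_lit 0) (XT.nd (nat_lit 78) (nat_lit 1140) (nat_lit 0) (XT.lf (nat_lit 0) (nat_lit 7669589687) (nat_lit 532) (nat_lit 15514923307) (nat_lit 608) (nat_lit 940239549) (nat_lit 252) (nat_lit 5) (nat_lit 259) (nat_lit 5) (nat_lit 260) (nat_lit 5) (nat_lit 479) (nat_lit 437) (nat_lit 284)) (XT.nd (nat_lit 78) (nat_lit 532) (nat_lit 0) (XT.lf (nat_lit 0) (nat_lit 4803043549) (nat_lit 532) (nat_lit 1044720823) (nat_lit 608) (nat_lit 18702649165) (nat_lit 244) (nat_lit 5) (nat_lit 251) (nat_lit 5) (nat_lit 252) (nat_lit 5) (nat_lit 480) (nat_lit 437) (nat_lit 283)) (XT.lf (nat_lit 0) (nat_lit 1851799615) (nat_lit 532) (nat_lit 11179512798) (nat_lit 608) (nat_lit 11953314490) (nat_lit 237) (nat_lit 5) (nat_lit 244) (nat_lit 5) (nat_lit 245) (nat_lit 5) (nat_lit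 481) (nat_lit 437) (nat_lit 282)))) (XT.nd (nat_lit 156) (nat_lit 988) (nat_lit 0) (XT.nd (nat_lit 78) (nat_lit 532) (nat_lit 0) (XT.lf (nat_lit 0) (nat_lit 20586263658) (nat_lit 608) (nat_lit 1104548039) (nat_lit 76) (nat_lit 3737937433) (nat_lit 237) (nat_lit 5) (nat_lit 245) (nat_lit 5) (nat_lit 238) (nat_lit 5) (nat_lit 482) (nat_lit 437) (nat_lit 281)) (XT.lf (nat_lit 0) (nat_lit 2657485968) (nat_lit 532) (nat_lit 4116708363) (nat_lit 76) (nat_lit 19107511511) (nat_lit 230) (nat_lit 5) (nat_lit 237) (nat_lit 5) (nat_lit 231) (nat_lit 5) (nat_lit 483) (nat_lit 437) (nat_lit 280))) (XT.nd (nat_lit 78) (nat_lit 456) (nat_lit 0) (XT.lf (nat_lit 0) (nat_lit 10496966925) (nat_lit 608) (nat_lit 7207617009) (nat_lit 76) (nat_lit 8639421494) (nat_lit 223) (nat_lit 5) (nat_lit 231) (nat_lit 5) (nat_lit 224) (nat_lit 5) (nat_lit 484) (nat_lit 437) (nat_lit 279)) (XT.lf (nat_lit 0) (nat_lit 16481950342) (nat_lit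 456) (nat_lit 2261168236) (nat_lit 532) (nat_lit 8073626049) (nat_lit 217) (nat_lit 5) (nat_lit 223) (nat_lit 5) (nat_lit 224) (nat_lit 5) (nat_lit 485) (nat_lit 437) (nat_lit 278))))) (XT.nd (nat_lit 234) (nat_lit 1292) (nat_lit 0) (XT.nd (nat_lit 78) (nat_lit 912) (nat_lit 0) (XT.lf (nat_lit 0) (nat_lit 153642114) (nat_lit 532) (nat_lit 13543114228) (nat_lit 76) (nat_lit 13602523210) (nat_lit 210) (nat_lit 5) (nat_lit 217) (nat_lit 5) (nat_lit 211) (nat_lit 5) (nat_lit 486) (nat_lit 437) (nat_lit 277)) (XT.nd (nat_lit 78) (nat_lit 456) (nat_lit 0) (XT.lf (nat_lit 0) (nat_lit 8681934458) (nat_lit 532) (nat_lit 16828817837) (nat_lit 76) (nat_lit 2281193321) (nat_lit 204) (nat_lit 5) (nat_lit 211) (nat_lit 5) (nat_lit 205) (nat_lit 5) (nat_lit 487) (nat_lit 437) (nat_lit 276)) (XT.lf (nat_lit 0) (nat_lit 8093987677) (nat_lit 456) (nat_lit 9600129542) (nat_lit 532) (nat_lit 10600713928) (nat_lit 198)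 (nat_lit 5) (nat_lit 204) (nat_lit 5) (nat_lit 205) (nat_lit 5) (nat_lit 488) (nat_lit 437) (nat_lit 275)))) (XT.nd (nat_lit 156) (nat_lit 380) (nat_lit 0) (XT.nd (nat_lit 78) (nat_lit 532) (nat_lit 0) (XT.lf (nat_lit 0) (nat_lit 5195336887) (nat_lit 380) (nat_lit 21965580868) (nat_lit 456) (nat_lit 1648200749) (nat_lit 193) (nat_lit 5) (nat_lit 198) (nat_lit 5) (nat_lit 199) (nat_lit 5) (nat_lit 489) (nat_lit 437) (nat_lit 274)) (XT.lf (nat_lit 0) (nat_lit 2196150626) (nat_lit 456) (nat_lit 5485437647) (nat_lit 532) (nat_lit 21652102733) (nat_lit 186) (nat_lit 5) (nat_lit 192) (nat_lit 5) (nat_lit 193) (nat_lit 5) (nat_lit 490) (nat_lit 437) (nat_lit 273))) (XT.nd (nat_lit 78) (nat_lit 380) (nat_lit 0) (XT.lf (nat_lit 0) (nat_lit 17496578701) (nat_lit 532) (nat_lit 866001071) (nat_lit 76) (nat_lit 11506649297) (nat_lit 186) (nat_lit 5) (nat_lit 193) (nat_lit 5) (nat_lit 187) (nat_lit 5) (nat_lit 491)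 (nat_lit 437) (nat_lit 272)) (XT.lf (nat_lit 0) (nat_lit 26492676679) (nat_lit 380) (nat_lit 1314173174) (nat_lit 456) (nat_lit 2609967075) (nat_lit 181) (nat_lit 5) (nat_lit 186) (nat_lit 5) (nat_lit 187) (nat_lit 5) (nat_lit 492) (nat_lit 437) (nat_lit 271))))))) (XT.nd (nat_lit 58344) (nat_lit 0) (nat_lit 26980) (XT.nd (nat_lit 546) (nat_lit 1444) (nat_lit 0) (XT.nd (nat_lit 234) (nat_lit 1596) (nat_lit 0) (XT.nd (nat_lit 78) (nat_lit 760) (nat_lit 0) (XT.lf (nat_lit 0) (nat_lit 7608484205) (nat_lit 456) (nat_lit 7126247704) (nat_lit 76) (nat_lit 16239923186) (nat_lit 175) (nat_lit 5) (nat_lit 181) (nat_lit 5) (nat_lit 176) (nat_lit 5) (nat_lit 493) (nat_lit 437) (nat_lit 270)) (XT.nd (nat_lit 78) (nat_lit 380) (nat_lit 0) (XT.lf (nat_lit 0) (nat_lit 18282852493) (nat_lit 456) (nat_lit 10365495549) (nat_lit 76) (nat_lit 2896839128) (nat_lit 170) (nat_lit 5) (nat_lit 176) (nat_lit 5) (nat_lit 171)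 (nat_lit 5) (nat_lit 494) (nat_lit 437) (nat_lit 269)) (XT.lf (nat_lit 0) (nat_lit 18431798184) (nat_lit 380) (nat_lit 11104962426) (nat_lit 456) (nat_lit 2590888668) (nat_lit 165) (nat_lit 5) (nat_lit 170) (nat_lit 5) (nat_lit 171) (nat_lit 5) (nat_lit 495) (nat_lit 437) (nat_lit 268)))) (XT.nd (nat_lit 156) (nat_lit 760) (nat_lit 0) (XT.nd (nat_lit 78) (nat_lit 380) (nat_lit 0) (XT.lf (nat_lit 0) (nat_lit 8502104155) (nat_lit 456) (nat_lit 17122443320) (nat_lit 76) (nat_lit 7097715552) (nat_lit 159) (nat_lit 5) (nat_lit 165) (nat_lit 5) (nat_lit 160) (nat_lit 5) (nat_lit 496) (nat_lit 437) (nat_lit 267)) (XT.lf (nat_lit 0) (nat_lit 12691813044) (nat_lit 380) (nat_lit 7443866379) (nat_lit 456) (nat_lit 13193833621) (nat_lit 154) (nat_lit 5) (nat_lit 159) (nat_lit 5) (nat_lit 160) (nat_lit 5) (nat_lit 497) (nat_lit 437) (nat_lit 266))) (XT.nd (nat_lit 78) (nat_lit 456) (nat_lit 0) (XT.lf (nat_lit 0)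 (nat_lit 9724386774) (nat_lit 304) (nat_lit 22639875361) (nat_lit 380) (nat_lit 1585798648) (nat_lit 150) (nat_lit 5) (nat_lit 154) (nat_lit 5) (nat_lit 155) (nat_lit 5) (nat_lit 498) (nat_lit 437) (nat_lit 265)) (XT.lf (nat_lit 0) (nat_lit 6651342783) (nat_lit 380) (nat_lit 3809768700) (nat_lit 456) (nat_lit 24122234145) (nat_lit 144) (nat_lit 5) (nat_lit 149) (nat_lit 5) (nat_lit 150) (nat_lit 5) (nat_lit 499) (nat_lit 437) (nat_lit 264))))) (XT.nd (nat_lit 234) (nat_lit 684) (nat_lit 0) (XT.nd (nat_lit 78) (nat_lit 456) (nat_lit 0) (XT.lf (nat_lit 0) (nat_lit 3475445827) (nat_lit 304) (nat_lit 19654577491) (nat_lit 380) (nat_lit 12099753479) (nat_lit 140) (nat_lit 5) (nat_lit 144) (nat_lit 5) (nat_lit 145) (nat_lit 5) (nat_lit 500) (nat_lit 437) (nat_lit 263)) (XT.nd (nat_lit 78) (nat_lit 0) (nat_lit 0) (XT.lf (nat_lit 0) (nat_lit 279643650) (nat_lit 380) (nat_lit 210964135) (nat_lit 456) (nat_lit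 35400738051) (nat_lit 134) (nat_lit 5) (nat_lit 139) (nat_lit 5) (nat_lit 140) (nat_lit 5) (nat_lit 501) (nat_lit 437) (nat_lit 262)) (XT.lf (nat_lit 0) (nat_lit 13633692915) (nat_lit 456) (nat_lit 3081184115) (nat_lit 76) (nat_lit 19849497494) (nat_lit 134) (nat_lit 5) (nat_lit 140) (nat_lit 5) (nat_lit 135) (nat_lit 5) (nat_lit 502) (nat_lit 437) (nat_lit 261)))) (XT.nd (nat_lit 57408) (nat_lit 0) (nat_lit 28196) (XT.nd (nat_lit 78) (nat_lit 380) (nat_lit 0) (XT.lf (nat_lit 0) (nat_lit 27388377661) (nat_lit 380) (nat_lit 6458792140) (nat_lit 76) (nat_lit 3406078313) (nat_lit 130) (nat_lit 5) (nat_lit 135) (nat_lit 5) (nat_lit 131) (nat_lit 5) (nat_lit 503) (nat_lit 437) (nat_lit 260)) (XT.lf (nat_lit 0) (nat_lit 3855995955) (nat_lit 380) (nat_lit 9971001937) (nat_lit 76) (nat_lit 24129119590) (nat_lit 125) (nat_lit 5) (nat_lit 130) (nat_lit 5) (nat_lit 126) (nat_lit 5) (nat_lit 504) (nat_lit 437)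 (nat_lit 259))) (XT.nd (nat_lit 78) (nat_lit 0) (nat_lit 0) (XT.lf (nat_lit 0) (nat_lit 218697206) (nat_lit 0) (nat_lit 218697206) (nat_lit 1748) (nat_lit 5948148216) (nat_lit 496) (nat_lit 5) (nat_lit 496) (nat_lit 3) (nat_lit 519) (nat_lit 3) (nat_lit 438) (nat_lit 438) (nat_lit 324)) (XT.lf (nat_lit 0) (nat_lit 1568457488) (nat_lit 1748) (nat_lit 2885209521) (nat_lit 1824) (nat_lit 8495334692) (nat_lit 496) (nat_lit 5) (nat_lit 519) (nat_lit 3) (nat_lit 520) (nat_lit 5) (nat_lit 439) (nat_lit 438) (nat_lit 323)))))) (XT.nd (nat_lit 546) (nat_lit 1292) (nat_lit 0) (XT.nd (nat_lit 234) (nat_lit 0) (nat_lit 152) (XT.nd (nat_lit 78) (nat_lit 0) (nat_lit 76) (XT.lf (nat_lit 0) (nat_lit 2336468613) (nat_lit 1748) (nat_lit 6239926914) (nat_lit 1824) (nat_lit 4554790981) (nat_lit 497) (nat_lit 5) (nat_lit 520) (nat_lit 5) (nat_lit 521) (nat_lit 5) (nat_lit 440) (nat_lit 438) (nat_lit 322)) (XT.nd (nat_lit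 78) (nat_lit 0) (nat_lit 0) (XT.lf (nat_lit 0) (nat_lit 3180636372) (nat_lit 1748) (nat_lit 9633733621) (nat_lit 1824) (nat_lit 503406013) (nat_lit 498) (nat_lit 5) (nat_lit 521) (nat_lit 5) (nat_lit 522) (nat_lit 5) (nat_lit 441) (nat_lit 438) (nat_lit 321)) (XT.lf (nat_lit 76) (nat_lit 416441637) (nat_lit 0) (nat_lit 3713377667) (nat_lit 1824) (nat_lit 9378551513) (nat_lit 499) (nat_lit 5) (nat_lit 498) (nat_lit 5) (nat_lit 522) (nat_lit 5) (nat_lit 442) (nat_lit 438) (nat_lit 320)))) (XT.nd (nat_lit 156) (nat_lit 0) (nat_lit 76) (XT.nd (nat_lit 78) (nat_lit 0) (nat_lit 76) (XT.lf (nat_lit 0) (nat_lit 5187654037) (nat_lit 1748) (nat_lit 2854275071) (nat_lit 1824) (nat_lit 5661152228) (nat_lit 499) (nat_lit 5) (nat_lit 522) (nat_lit 5) (nat_lit 523) (nat_lit 5) (nat_lit 443) (nat_lit 438) (nat_lit 319)) (XT.lf (nat_lit 0) (nat_lit 6340001753) (nat_lit 1748) (nat_lit 6157736535) (nat_lit 1824) (nat_lit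 1404640671) (nat_lit 500) (nat_lit 5) (nat_lit 523) (nat_lit 5) (nat_lit 524) (nat_lit 5) (nat_lit 444) (nat_lit 438) (nat_lit 318))) (XT.nd (nat_lit 78) (nat_lit 0) (nat_lit 76) (XT.lf (nat_lit 76) (nat_lit 4586004030) (nat_lit 0) (nat_lit 3022897411) (nat_lit 1824) (nat_lit 6497115751) (nat_lit 501) (nat_lit 5) (nat_lit 500) (nat_lit 5) (nat_lit 524) (nat_lit 5) (nat_lit 445) (nat_lit 438) (nat_lit 317)) (XT.lf (nat_lit 76) (nat_lit 1381723368) (nat_lit 0) (nat_lit 7608384246) (nat_lit 1824) (nat_lit 5324173439) (nat_lit 502) (nat_lit 5) (nat_lit 501) (nat_lit 5) (nat_lit 525) (nat_lit 5) (nat_lit 446) (nat_lit 438) (nat_lit 316))))) (XT.nd (nat_lit 234) (nat_lit 1672) (nat_lit 0) (XT.nd (nat_lit 78) (nat_lit 0) (nat_lit 0) (XT.lf (nat_lit 0) (nat_lit 10491855268) (nat_lit 1748) (nat_lit 1835213729) (nat_lit 1824) (nat_lit 2200142959) (nat_lit 502) (nat_lit 5) (nat_lit 525) (nat_lit 5) (nat_lit 526)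 (nat_lit 5) (nat_lit 447) (nat_lit 438) (nat_lit 315)) (XT.nd (nat_lit 78) (nat_lit 0) (nat_lit 76) (XT.lf (nat_lit 76) (nat_lit 9657215417) (nat_lit 0) (nat_lit 2475680899) (nat_lit 1824) (nat_lit 2611750852) (nat_lit 503) (nat_lit 5) (nat_lit 502) (nat_lit 5) (nat_lit 526) (nat_lit 5) (nat_lit 448) (nat_lit 438) (nat_lit 314)) (XT.lf (nat_lit 76) (nat_lit 6573703745) (nat_lit 0) (nat_lit 7335642085) (nat_lit 1824) (nat_lit 1057537223) (nat_lit 504) (nat_lit 5) (nat_lit 503) (nat_lit 5) (nat_lit 527) (nat_lit 5) (nat_lit 449) (nat_lit 438) (nat_lit 313)))) (XT.nd (nat_lit 156) (nat_lit 0) (nat_lit 76) (XT.nd (nat_lit 78) (nat_lit 0) (nat_lit 0) (XT.lf (nat_lit 0) (nat_lit 610170836) (nat_lit 1824) (nat_lit 11742710346) (nat_lit 1900) (nat_lit 2841355521) (nat_lit 480) (nat_lit 5) (nat_lit 504) (nat_lit 5) (nat_lit 505) (nat_lit 5) (nat_lit 450) (nat_lit 438) (nat_lit 312)) (XT.lf (nat_lit 76) (nat_lit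 272258976) (nat_lit 0) (nat_lit 2131428916) (nat_lit 1900) (nat_lit 13022781428) (nat_lit 481) (nat_lit 5) (nat_lit 480) (nat_lit 5) (nat_lit 505) (nat_lit 5) (nat_lit 451) (nat_lit 438) (nat_lit 311))) (XT.nd (nat_lit 78) (nat_lit 0) (nat_lit 76) (XT.lf (nat_lit 0) (nat_lit 4368074243) (nat_lit 1824) (nat_lit 2924851100) (nat_lit 1900) (nat_lit 8370403342) (nat_lit 481) (nat_lit 5) (nat_lit 505) (nat_lit 5) (nat_lit 506) (nat_lit 5) (nat_lit 452) (nat_lit 438) (nat_lit 310)) (XT.lf (nat_lit 0) (nat_lit 6473600903) (nat_lit 1824) (nat_lit 6156074754) (nat_lit 1900) (nat_lit 3275975011) (nat_lit 482) (nat_lit 5) (nat_lit 506) (nat_lit 5) (nat_lit 507) (nat_lit 5) (nat_lit 453) (nat_lit 438) (nat_lit 309))))))))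
noncomputable def xc92 : XT := (XT.nd (nat_lit 2106) (nat_lit 9272) (nat_lit 0) (XT.nd (nat_lit 1014) (nat_lit 7828) (nat_lit 0) (XT.nd (nat_lit 468) (nat_lit 4940) (nat_lit 0) (XT.nd (nat_lit 234) (nat_lit 1900) (nat_lit 0) (XT.nd (nat_lit 78) (nat_lit 2812) (nat_lit 0) (XT.lf (nat_lit 76) (nat_lit 6714725624) (nat_lit 0) (nat_lit 2023274099) (nat_lit 1900) (nat_lit 7415329446) (nat_lit 483) (nat_lit 5) (nat_lit 482) (nat_lit 5) (nat_lit 507) (nat_lit 5) (nat_lit 454) (nat_lit 438) (nat_lit 308)) (XT.nd (nat_lit 78) (nat_lit 1064) (nat_lit 0) (XT.lf (nat_lit 0) (nat_lit 3623789027) (nat_lit 1824) (nat_lit 7553654520) (nat_lit 1900) (nat_lit 5228853171) (nat_lit 459) (nat_lit 5) (nat_lit 483) (nat_lit 5) (nat_lit 484) (nat_lit 5) (nat_lit 455) (nat_lit 438) (nat_lit 307)) (XT.lf (nat_lit 0) (nat_lit 498444129) (nat_lit 1064) (nat_lit 13278703490) (nat_lit 1140) (nat_lit 2887965065) (nat_lit 445) (nat_lit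 5) (nat_lit 459) (nat_lit 5) (nat_lit 460) (nat_lit 5) (nat_lit 456) (nat_lit 438) (nat_lit 306)))) (XT.nd (nat_lit 78) (nat_lit 1900) (nat_lit 0) (XT.lf (nat_lit 0) (nat_lit 14287752444) (nat_lit 1064) (nat_lit 2288457253) (nat_lit 1140) (nat_lit 353056994) (nat_lit 445) (nat_lit 5) (nat_lit 459) (nat_lit 5) (nat_lit 460) (nat_lit 5) (nat_lit 457) (nat_lit 438) (nat_lit 305)) (XT.nd (nat_lit 78) (nat_lit 912) (nat_lit 0) (XT.lf (nat_lit 0) (nat_lit 2346522825) (nat_lit 988) (nat_lit 5848372524) (nat_lit 76) (nat_lit 9003792885) (nat_lit 432) (nat_lit 5) (nat_lit 445) (nat_lit 5) (nat_lit 433) (nat_lit 5) (nat_lit 458) (nat_lit 438) (nat_lit 304)) (XT.lf (nat_lit 0) (nat_lit 5216275045) (nat_lit 988) (nat_lit 9094611003) (nat_lit 76) (nat_lit 3163380902) (nat_lit 420) (nat_lit 5) (nat_lit 433) (nat_lit 5) (nat_lit 421) (nat_lit 5) (nat_lit 459) (nat_lit 438) (nat_lit 303))))) (XT.nd (nat_lit 234) (nat_lit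 3268) (nat_lit 0) (XT.nd (nat_lit 78) (nat_lit 836) (nat_lit 0) (XT.lf (nat_lit 0) (nat_lit 5358666264) (nat_lit 836) (nat_lit 2928564408) (nat_lit 912) (nat_lit 9468580945) (nat_lit 409) (nat_lit 5) (nat_lit 420) (nat_lit 5) (nat_lit 421) (nat_lit 5) (nat_lit 460) (nat_lit 438) (nat_lit 302)) (XT.nd (nat_lit 78) (nat_lit 0) (nat_lit 0) (XT.lf (nat_lit 0) (nat_lit 2284035930) (nat_lit 836) (nat_lit 9286205676) (nat_lit 912) (nat_lit 6473163270) (nat_lit 398) (nat_lit 5) (nat_lit 409) (nat_lit 5) (nat_lit 410) (nat_lit 5) (nat_lit 461) (nat_lit 438) (nat_lit 301)) (XT.lf (nat_lit 0) (nat_lit 15057716789) (nat_lit 912) (nat_lit 812206452) (nat_lit 76) (nat_lit 2467583975) (nat_lit 398) (nat_lit 5) (nat_lit 410) (nat_lit 5) (nat_lit 399) (nat_lit 5) (nat_lit 462) (nat_lit 438) (nat_lit 300)))) (XT.nd (nat_lit 156) (nat_lit 1520) (nat_lit 0) (XT.nd (nat_lit 78) (nat_lit 836) (nat_lit 0) (XT.lf (nat_lit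 0) (nat_lit 154438960) (nat_lit 912) (nat_lit 3938007200) (nat_lit 76) (nat_lit 14545082405) (nat_lit 386) (nat_lit 5) (nat_lit 398) (nat_lit 5) (nat_lit 387) (nat_lit 5) (nat_lit 463) (nat_lit 438) (nat_lit 299)) (XT.lf (nat_lit 0) (nat_lit 3769714087) (nat_lit 912) (nat_lit 7136199258) (nat_lit 76) (nat_lit 8037752756) (nat_lit 375) (nat_lit 5) (nat_lit 387) (nat_lit 5) (nat_lit 376) (nat_lit 5) (nat_lit 464) (nat_lit 438) (nat_lit 298))) (XT.nd (nat_lit 78) (nat_lit 760) (nat_lit 0) (XT.lf (nat_lit 0) (nat_lit 7601088471) (nat_lit 836) (nat_lit 10369085660) (nat_lit 76) (nat_lit 1286661497) (nat_lit 365) (nat_lit 5) (nat_lit 376) (nat_lit 5) (nat_lit 366) (nat_lit 5) (nat_lit 465) (nat_lit 438) (nat_lit 297)) (XT.lf (nat_lit 0) (nat_lit 5902291543) (nat_lit 760) (nat_lit 5792511274) (nat_lit 836) (nat_lit 7881650112) (nat_lit 355) (nat_lit 5) (nat_lit 365) (nat_lit 5) (nat_lit 366) (nat_lit 5) (nat_lit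 466) (nat_lit 438) (nat_lit 296)))))) (XT.nd (nat_lit 546) (nat_lit 3572) (nat_lit 0) (XT.nd (nat_lit 234) (nat_lit 2736) (nat_lit 0) (XT.nd (nat_lit 78) (nat_lit 836) (nat_lit 0) (XT.lf (nat_lit 0) (nat_lit 2879409842) (nat_lit 684) (nat_lit 13152910738) (nat_lit 760) (nat_lit 3870918972) (nat_lit 346) (nat_lit 5) (nat_lit 355) (nat_lit 5) (nat_lit 356) (nat_lit 5) (nat_lit 467) (nat_lit 438) (nat_lit 295)) (XT.nd (nat_lit 78) (nat_lit 760) (nat_lit 0) (XT.lf (nat_lit 0) (nat_lit 376662934) (nat_lit 760) (nat_lit 175745646) (nat_lit 76) (nat_lit 19684989218) (nat_lit 345) (nat_lit 5) (nat_lit 355) (nat_lit 5) (nat_lit 346) (nat_lit 5) (nat_lit 468) (nat_lit 438) (nat_lit 294)) (XT.lf (nat_lit 0) (nat_lit 4882005378) (nat_lit 836) (nat_lit 3294069418) (nat_lit 76) (nat_lit 12401336381) (nat_lit 335) (nat_lit 5) (nat_lit 346) (nat_lit 5) (nat_lit 336) (nat_lit 5) (nat_lit 469) (nat_lit 438) (nat_lit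 293)))) (XT.nd (nat_lit 156) (nat_lit 1368) (nat_lit 0) (XT.nd (nat_lit 78) (nat_lit 684) (nat_lit 0) (XT.lf (nat_lit 0) (nat_lit 9642011139) (nat_lit 760) (nat_lit 6443156392) (nat_lit 76) (nat_lit 4840067944) (nat_lit 326) (nat_lit 5) (nat_lit 336) (nat_lit 5) (nat_lit 327) (nat_lit 5) (nat_lit 470) (nat_lit 438) (nat_lit 292)) (XT.lf (nat_lit 0) (nat_lit 11638258495) (nat_lit 684) (nat_lit 3048037252) (nat_lit 760) (nat_lit 6594369742) (nat_lit 317) (nat_lit 5) (nat_lit 326) (nat_lit 5) (nat_lit 327) (nat_lit 5) (nat_lit 471) (nat_lit 438) (nat_lit 291))) (XT.nd (nat_lit 78) (nat_lit 760) (nat_lit 0) (XT.lf (nat_lit 0) (nat_lit 8738241402) (nat_lit 608) (nat_lit 11300747020) (nat_lit 684) (nat_lit 1604628935) (nat_lit 309) (nat_lit 5) (nat_lit 317) (nat_lit 5) (nat_lit 318) (nat_lit 5) (nat_lit 472) (nat_lit 438) (nat_lit 290)) (XT.lf (nat_lit 0) (nat_lit 3615768590) (nat_lit 760) (nat_lit 16223565955)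 (nat_lit 76) (nat_lit 2175118267) (nat_lit 299) (nat_lit 5) (nat_lit 309) (nat_lit 5) (nat_lit 300) (nat_lit 5) (nat_lit 473) (nat_lit 438) (nat_lit 289))))) (XT.nd (nat_lit 234) (nat_lit 2356) (nat_lit 0) (XT.nd (nat_lit 78) (nat_lit 608) (nat_lit 0) (XT.lf (nat_lit 0) (nat_lit 2766400755) (nat_lit 608) (nat_lit 6375648074) (nat_lit 684) (nat_lit 13250731446) (nat_lit 291) (nat_lit 5) (nat_lit 299) (nat_lit 5) (nat_lit 300) (nat_lit 5) (nat_lit 474) (nat_lit 438) (nat_lit 288)) (XT.nd (nat_lit 78) (nat_lit 608) (nat_lit 0) (XT.lf (nat_lit 0) (nat_lit 14983017269) (nat_lit 684) (nat_lit 294495774) (nat_lit 76) (nat_lit 7501967011) (nat_lit 291) (nat_lit 5) (nat_lit 300) (nat_lit 5) (nat_lit 292) (nat_lit 5) (nat_lit 475) (nat_lit 438) (nat_lit 287)) (XT.lf (nat_lit 0) (nat_lit 19822052849) (nat_lit 608) (nat_lit 1338392758) (nat_lit 684) (nat_lit 2014111076) (nat_lit 283) (nat_lit 5) (nat_lit 291)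 (nat_lit 5) (nat_lit 292) (nat_lit 5) (nat_lit 476) (nat_lit 438) (nat_lit 286)))) (XT.nd (nat_lit 156) (nat_lit 1064) (nat_lit 0) (XT.nd (nat_lit 78) (nat_lit 608) (nat_lit 0) (XT.lf (nat_lit 0) (nat_lit 4078857054) (nat_lit 684) (nat_lit 6512866794) (nat_lit 76) (nat_lit 12985473530) (nat_lit 274) (nat_lit 5) (nat_lit 283) (nat_lit 5) (nat_lit 275) (nat_lit 5) (nat_lit 477) (nat_lit 438) (nat_lit 285)) (XT.lf (nat_lit 0) (nat_lit 10467360542) (nat_lit 684) (nat_lit 9713847038) (nat_lit 76) (nat_lit 3807641681) (nat_lit 266) (nat_lit 5) (nat_lit 275) (nat_lit 5) (nat_lit 267) (nat_lit 5) (nat_lit 478) (nat_lit 438) (nat_lit 284))) (XT.nd (nat_lit 78) (nat_lit 532) (nat_lit 0) (XT.lf (nat_lit 0) (nat_lit 11429972942) (nat_lit 532) (nat_lit 5797437374) (nat_lit 608) (nat_lit 7181842988) (nat_lit 259) (nat_lit 5) (nat_lit 266) (nat_lit 5) (nat_lit 267) (nat_lit 5) (nat_lit 479) (nat_lit 438) (nat_lit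 283)) (XT.lf (nat_lit 0) (nat_lit 8540681957) (nat_lit 532) (nat_lit 15820444570) (nat_lit 608) (nat_lit 477726055) (nat_lit 252) (nat_lit 5) (nat_lit 259) (nat_lit 5) (nat_lit 260) (nat_lit 5) (nat_lit 480) (nat_lit 438) (nat_lit 282))))))) (XT.nd (nat_lit 1014) (nat_lit 3876) (nat_lit 0) (XT.nd (nat_lit 468) (nat_lit 2736) (nat_lit 0) (XT.nd (nat_lit 234) (nat_lit 1520) (nat_lit 0) (XT.nd (nat_lit 78) (nat_lit 532) (nat_lit 0) (XT.lf (nat_lit 0) (nat_lit 5584091602) (nat_lit 532) (nat_lit 913420655) (nat_lit 608) (nat_lit 18779907422) (nat_lit 244) (nat_lit 5) (nat_lit 251) (nat_lit 5) (nat_lit 252) (nat_lit 5) (nat_lit 481) (nat_lit 438) (nat_lit 281)) (XT.nd (nat_lit 78) (nat_lit 0) (nat_lit 0) (XT.lf (nat_lit 0) (nat_lit 2542289673) (nat_lit 532) (nat_lit 11345609716) (nat_lit 608) (nat_lit 11836933987) (nat_lit 237) (nat_lit 5) (nat_lit 244) (nat_lit 5) (nat_lit 245) (nat_lit 5) (nat_lit 482)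 (nat_lit 438) (nat_lit 280)) (XT.lf (nat_lit 0) (nat_lit 21657003739) (nat_lit 608) (nat_lit 513248294) (nat_lit 76) (nat_lit 4012277708) (nat_lit 237) (nat_lit 5) (nat_lit 245) (nat_lit 5) (nat_lit 238) (nat_lit 5) (nat_lit 483) (nat_lit 438) (nat_lit 279)))) (XT.nd (nat_lit 78) (nat_lit 988) (nat_lit 0) (XT.lf (nat_lit 0) (nat_lit 3184110634) (nat_lit 532) (nat_lit 3619947184) (nat_lit 76) (nat_lit 19845143285) (nat_lit 230) (nat_lit 5) (nat_lit 237) (nat_lit 5) (nat_lit 231) (nat_lit 5) (nat_lit 484) (nat_lit 438) (nat_lit 278)) (XT.nd (nat_lit 78) (nat_lit 456) (nat_lit 0) (XT.lf (nat_lit 0) (nat_lit 11250840368) (nat_lit 608) (nat_lit 6805990849) (nat_lit 76) (nat_lit 9068697694) (nat_lit 223) (nat_lit 5) (nat_lit 231) (nat_lit 5) (nat_lit 224) (nat_lit 5) (nat_lit 485) (nat_lit 438) (nat_lit 277)) (XT.lf (nat_lit 0) (nat_lit 17584239565) (nat_lit 456) (nat_lit 2151298075) (nat_lit 532) (nat_lit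 7877089934) (nat_lit 217) (nat_lit 5) (nat_lit 223) (nat_lit 5) (nat_lit 224) (nat_lit 5) (nat_lit 486) (nat_lit 438) (nat_lit 276))))) (XT.nd (nat_lit 234) (nat_lit 1292) (nat_lit 0) (XT.nd (nat_lit 78) (nat_lit 912) (nat_lit 0) (XT.lf (nat_lit 0) (nat_lit 583714397) (nat_lit 532) (nat_lit 13338423531) (nat_lit 76) (nat_lit 14187594680) (nat_lit 210) (nat_lit 5) (nat_lit 217) (nat_lit 5) (nat_lit 211) (nat_lit 5) (nat_lit 487) (nat_lit 438) (nat_lit 275)) (XT.nd (nat_lit 78) (nat_lit 456) (nat_lit 0) (XT.lf (nat_lit 0) (nat_lit 9360561228) (nat_lit 532) (nat_lit 16725450956) (nat_lit 76) (nat_lit 2531312824) (nat_lit 204) (nat_lit 5) (nat_lit 211) (nat_lit 5) (nat_lit 205) (nat_lit 5) (nat_lit 488) (nat_lit 438) (nat_lit 274)) (XT.lf (nat_lit 0) (nat_lit 8935170891) (nat_lit 456) (nat_lit 9699643882) (nat_lit 532) (nat_lit 10500648680) (nat_lit 198) (nat_lit 5) (nat_lit 204) (nat_lit 5) (nat_lit 205)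 (nat_lit 5) (nat_lit 489) (nat_lit 438) (nat_lit 273)))) (XT.nd (nat_lit 156) (nat_lit 380) (nat_lit 0) (XT.nd (nat_lit 78) (nat_lit 532) (nat_lit 0) (XT.lf (nat_lit 0) (nat_lit 5946728283) (nat_lit 380) (nat_lit 22432007702) (nat_lit 456) (nat_lit 1286581554) (nat_lit 193) (nat_lit 5) (nat_lit 198) (nat_lit 5) (nat_lit 199) (nat_lit 5) (nat_lit 490) (nat_lit 438) (nat_lit 272)) (XT.lf (nat_lit 0) (nat_lit 2853222560) (nat_lit 456) (nat_lit 5456510018) (nat_lit 532) (nat_lit 21896001227) (nat_lit 186) (nat_lit 5) (nat_lit 192) (nat_lit 5) (nat_lit 193) (nat_lit 5) (nat_lit 491) (nat_lit 438) (nat_lit 271))) (XT.nd (nat_lit 78) (nat_lit 380) (nat_lit 0) (XT.lf (nat_lit 0) (nat_lit 18408809000) (nat_lit 532) (nat_lit 311496563) (nat_lit 76) (nat_lit 12037240128) (nat_lit 186) (nat_lit 5) (nat_lit 193) (nat_lit 5) (nat_lit 187) (nat_lit 5) (nat_lit 492) (nat_lit 438) (nat_lit 270)) (XT.lf (nat_lit 0)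 (nat_lit 27858523847) (nat_lit 380) (nat_lit 1162290643) (nat_lit 456) (nat_lit 2300898568) (nat_lit 181) (nat_lit 5) (nat_lit 186) (nat_lit 5) (nat_lit 187) (nat_lit 5) (nat_lit 493) (nat_lit 438) (nat_lit 269)))))) (XT.nd (nat_lit 546) (nat_lit 1064) (nat_lit 0) (XT.nd (nat_lit 234) (nat_lit 1596) (nat_lit 0) (XT.nd (nat_lit 78) (nat_lit 760) (nat_lit 0) (XT.lf (nat_lit 0) (nat_lit 8212817865) (nat_lit 456) (nat_lit 6766959699) (nat_lit 76) (nat_lit 16916583041) (nat_lit 175) (nat_lit 5) (nat_lit 181) (nat_lit 5) (nat_lit 176) (nat_lit 5) (nat_lit 494) (nat_lit 438) (nat_lit 268)) (XT.nd (nat_lit 78) (nat_lit 380) (nat_lit 0) (XT.lf (nat_lit 0) (nat_lit 19201389879) (nat_lit 456) (nat_lit 10106560557) (nat_lit 76) (nat_lit 3176179119) (nat_lit 170) (nat_lit 5) (nat_lit 176) (nat_lit 5) (nat_lit 171) (nat_lit 5) (nat_lit 495) (nat_lit 438) (nat_lit 267)) (XT.lf (nat_lit 0) (nat_lit 19545406040) (nat_lit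 380) (nat_lit 11240371130) (nat_lit 456) (nat_lit 2298431475) (nat_lit 165) (nat_lit 5) (nat_lit 170) (nat_lit 5) (nat_lit 171) (nat_lit 5) (nat_lit 496) (nat_lit 438) (nat_lit 266)))) (XT.nd (nat_lit 156) (nat_lit 760) (nat_lit 0) (XT.nd (nat_lit 78) (nat_lit 380) (nat_lit 0) (XT.lf (nat_lit 0) (nat_lit 9116753466) (nat_lit 456) (nat_lit 17073879540) (nat_lit 76) (nat_lit 7506094918) (nat_lit 159) (nat_lit 5) (nat_lit 165) (nat_lit 5) (nat_lit 160) (nat_lit 5) (nat_lit 497) (nat_lit 438) (nat_lit 265)) (XT.lf (nat_lit 0) (nat_lit 13625682886) (nat_lit 380) (nat_lit 7466770916) (nat_lit 456) (nat_lit 13229879615) (nat_lit 154) (nat_lit 5) (nat_lit 159) (nat_lit 5) (nat_lit 160) (nat_lit 5) (nat_lit 498) (nat_lit 438) (nat_lit 264))) (XT.nd (nat_lit 78) (nat_lit 456) (nat_lit 0) (XT.lf (nat_lit 0) (nat_lit 10565930491) (nat_lit 304) (nat_lit 23116523621) (nat_lit 380) (nat_lit 1279152590) (nat_lit 150)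 (nat_lit 5) (nat_lit 154) (nat_lit 5) (nat_lit 155) (nat_lit 5) (nat_lit 499) (nat_lit 438) (nat_lit 263)) (XT.lf (nat_lit 0) (nat_lit 7396355666) (nat_lit 380) (nat_lit 3721523312) (nat_lit 456) (nat_lit 24496098226) (nat_lit 144) (nat_lit 5) (nat_lit 149) (nat_lit 5) (nat_lit 150) (nat_lit 5) (nat_lit 500) (nat_lit 438) (nat_lit 262))))) (XT.nd (nat_lit 234) (nat_lit 304) (nat_lit 0) (XT.nd (nat_lit 78) (nat_lit 456) (nat_lit 0) (XT.lf (nat_lit 0) (nat_lit 4121795831) (nat_lit 304) (nat_lit 20039870261) (nat_lit 380) (nat_lit 12118239352) (nat_lit 140) (nat_lit 5) (nat_lit 144) (nat_lit 5) (nat_lit 145) (nat_lit 5) (nat_lit 501) (nat_lit 438) (nat_lit 261)) (XT.nd (nat_lit 78) (nat_lit 0) (nat_lit 0) (XT.lf (nat_lit 0) (nat_lit 825779309) (nat_lit 380) (nat_lit 13124004) (nat_lit 456) (nat_lit 36122502010) (nat_lit 134) (nat_lit 5) (nat_lit 139) (nat_lit 5) (nat_lit 140) (nat_lit 5) (nat_lit 502)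 (nat_lit 438) (nat_lit 260)) (XT.lf (nat_lit 0) (nat_lit 14367852143) (nat_lit 456) (nat_lit 2646336496) (nat_lit 76) (nat_lit 20640605080) (nat_lit 134) (nat_lit 5) (nat_lit 140) (nat_lit 5) (nat_lit 135) (nat_lit 5) (nat_lit 503) (nat_lit 438) (nat_lit 259)))) (XT.nd (nat_lit 57486) (nat_lit 0) (nat_lit 27816) (XT.nd (nat_lit 57408) (nat_lit 0) (nat_lit 27816) (XT.lf (nat_lit 0) (nat_lit 28530371491) (nat_lit 380) (nat_lit 6128734049) (nat_lit 76) (nat_lit 3705324361) (nat_lit 130) (nat_lit 5) (nat_lit 135) (nat_lit 5) (nat_lit 131) (nat_lit 5) (nat_lit 504) (nat_lit 438) (nat_lit 258)) (XT.lf (nat_lit 0) (nat_lit 534584067) (nat_lit 0) (nat_lit 534584067) (nat_lit 1748) (nat_lit 5495529210) (nat_lit 496) (nat_lit 5) (nat_lit 496) (nat_lit 3) (nat_lit 519) (nat_lit 3) (nat_lit 439) (nat_lit 439) (nat_lit 322))) (XT.nd (nat_lit 78) (nat_lit 0) (nat_lit 76) (XT.lf (nat_lit 0) (nat_lit 2812877311) (nat_lit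 1748) (nat_lit 2343133074) (nat_lit 1824) (nat_lit 8157439239) (nat_lit 496) (nat_lit 5) (nat_lit 519) (nat_lit 3) (nat_lit 520) (nat_lit 5) (nat_lit 440) (nat_lit 439) (nat_lit 321)) (XT.lf (nat_lit 0) (nat_lit 3569510860) (nat_lit 1748) (nat_lit 5781729595) (nat_lit 1824) (nat_lit 4150550056) (nat_lit 497) (nat_lit 5) (nat_lit 520) (nat_lit 5) (nat_lit 521) (nat_lit 5) (nat_lit 441) (nat_lit 439) (nat_lit 320))))))))
noncomputable def xc93 : XT := (XT.nd (nat_lit 2106) (nat_lit 13376) (nat_lit 0) (XT.nd (nat_lit 1014) (nat_lit 10184) (nat_lit 0) (XT.nd (nat_lit 468) (nat_lit 1368) (nat_lit 0) (XT.nd (nat_lit 234) (nat_lit 0) (nat_lit 152) (XT.nd (nat_lit 78) (nat_lit 0) (nat_lit 0) (XT.lf (nat_lit 0) (nat_lit 4406018600) (nat_lit 1748) (nat_lit 9261851669) (nat_lit 1824) (nat_lit 26769241) (nat_lit 498) (nat_lit 5) (nat_lit 521) (nat_lit 5) (nat_lit 522) (nat_lit 5) (nat_lit 442) (nat_lit 439) (nat_lit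 319)) (XT.nd (nat_lit 78) (nat_lit 0) (nat_lit 76) (XT.lf (nat_lit 76) (nat_lit 1079106626) (nat_lit 0) (nat_lit 4275880192) (nat_lit 1824) (nat_lit 8536541206) (nat_lit 499) (nat_lit 5) (nat_lit 498) (nat_lit 5) (nat_lit 522) (nat_lit 5) (nat_lit 443) (nat_lit 439) (nat_lit 318)) (XT.lf (nat_lit 0) (nat_lit 6409637141) (nat_lit 1748) (nat_lit 2284374676) (nat_lit 1824) (nat_lit 5398768424) (nat_lit 499) (nat_lit 5) (nat_lit 522) (nat_lit 5) (nat_lit 523) (nat_lit 5) (nat_lit 444) (nat_lit 439) (nat_lit 317)))) (XT.nd (nat_lit 78) (nat_lit 0) (nat_lit 0) (XT.lf (nat_lit 0) (nat_lit 7567121597) (nat_lit 1748) (nat_lit 5674159066) (nat_lit 1824) (nat_lit 1057366741) (nat_lit 500) (nat_lit 5) (nat_lit 523) (nat_lit 5) (nat_lit 524) (nat_lit 5) (nat_lit 445) (nat_lit 439) (nat_lit 316)) (XT.nd (nat_lit 78) (nat_lit 0) (nat_lit 76) (XT.lf (nat_lit 76) (nat_lit 5381051188) (nat_lit 0) (nat_lit 3467104251)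 (nat_lit 1824) (nat_lit 5660759879) (nat_lit 501) (nat_lit 5) (nat_lit 500) (nat_lit 5) (nat_lit 524) (nat_lit 5) (nat_lit 446) (nat_lit 439) (nat_lit 315)) (XT.lf (nat_lit 76) (nat_lit 2092186863) (nat_lit 0) (nat_lit 8151279948) (nat_lit 1824) (nat_lit 4480508728) (nat_lit 502) (nat_lit 5) (nat_lit 501) (nat_lit 5) (nat_lit 525) (nat_lit 5) (nat_lit 447) (nat_lit 439) (nat_lit 314))))) (XT.nd (nat_lit 234) (nat_lit 1672) (nat_lit 0) (XT.nd (nat_lit 78) (nat_lit 0) (nat_lit 0) (XT.lf (nat_lit 0) (nat_lit 11759633344) (nat_lit 1748) (nat_lit 1219601580) (nat_lit 1824) (nat_lit 1964673889) (nat_lit 502) (nat_lit 5) (nat_lit 525) (nat_lit 5) (nat_lit 526) (nat_lit 5) (nat_lit 448) (nat_lit 439) (nat_lit 313)) (XT.nd (nat_lit 78) (nat_lit 0) (nat_lit 76) (XT.lf (nat_lit 76) (nat_lit 10606719639) (nat_lit 0) (nat_lit 2819711829) (nat_lit 1824) (nat_lit 1741906815) (nat_lit 503) (nat_lit 5) (nat_lit 502)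 (nat_lit 5) (nat_lit 526) (nat_lit 5) (nat_lit 449) (nat_lit 439) (nat_lit 312)) (XT.lf (nat_lit 76) (nat_lit 7440067145) (nat_lit 0) (nat_lit 7791677231) (nat_lit 1824) (nat_lit 165987141) (nat_lit 504) (nat_lit 5) (nat_lit 503) (nat_lit 5) (nat_lit 527) (nat_lit 5) (nat_lit 450) (nat_lit 439) (nat_lit 311)))) (XT.nd (nat_lit 156) (nat_lit 0) (nat_lit 76) (XT.nd (nat_lit 78) (nat_lit 0) (nat_lit 0) (XT.lf (nat_lit 0) (nat_lit 1516036099) (nat_lit 1824) (nat_lit 11405476753) (nat_lit 1900) (nat_lit 2710746766) (nat_lit 480) (nat_lit 5) (nat_lit 504) (nat_lit 5) (nat_lit 505) (nat_lit 5) (nat_lit 451) (nat_lit 439) (nat_lit 310)) (XT.lf (nat_lit 76) (nat_lit 958755088) (nat_lit 0) (nat_lit 2383156470) (nat_lit 1900) (nat_lit 12529978141) (nat_lit 481) (nat_lit 5) (nat_lit 480) (nat_lit 5) (nat_lit 505) (nat_lit 5) (nat_lit 452) (nat_lit 439) (nat_lit 309))) (XT.nd (nat_lit 78) (nat_lit 0) (nat_lit 76)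 (XT.lf (nat_lit 0) (nat_lit 5338819195) (nat_lit 1824) (nat_lit 2335974045) (nat_lit 1900) (nat_lit 8441591309) (nat_lit 481) (nat_lit 5) (nat_lit 505) (nat_lit 5) (nat_lit 506) (nat_lit 5) (nat_lit 453) (nat_lit 439) (nat_lit 308)) (XT.lf (nat_lit 0) (nat_lit 7486376741) (nat_lit 1824) (nat_lit 5657672613) (nat_lit 1900) (nat_lit 3222350992) (nat_lit 482) (nat_lit 5) (nat_lit 506) (nat_lit 5) (nat_lit 507) (nat_lit 5) (nat_lit 454) (nat_lit 439) (nat_lit 307)))))) (XT.nd (nat_lit 546) (nat_lit 4788) (nat_lit 0) (XT.nd (nat_lit 234) (nat_lit 2736) (nat_lit 0) (XT.nd (nat_lit 78) (nat_lit 2812) (nat_lit 0) (XT.lf (nat_lit 76) (nat_lit 7588169544) (nat_lit 0) (nat_lit 2211059284) (nat_lit 1900) (nat_lit 6822671359) (nat_lit 483) (nat_lit 5) (nat_lit 482) (nat_lit 5) (nat_lit 507) (nat_lit 5) (nat_lit 455) (nat_lit 439) (nat_lit 306)) (XT.nd (nat_lit 78) (nat_lit 1064) (nat_lit 0) (XT.lf (nat_lit 0) (nat_lit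 4410182966) (nat_lit 1824) (nat_lit 7881997411) (nat_lit 1900) (nat_lit 4590671269) (nat_lit 459) (nat_lit 5) (nat_lit 483) (nat_lit 5) (nat_lit 484) (nat_lit 5) (nat_lit 456) (nat_lit 439) (nat_lit 305)) (XT.lf (nat_lit 0) (nat_lit 1196113298) (nat_lit 1064) (nat_lit 13754852270) (nat_lit 1140) (nat_lit 2198846054) (nat_lit 445) (nat_lit 5) (nat_lit 459) (nat_lit 5) (nat_lit 460) (nat_lit 5) (nat_lit 457) (nat_lit 439) (nat_lit 304)))) (XT.nd (nat_lit 156) (nat_lit 1748) (nat_lit 0) (XT.nd (nat_lit 78) (nat_lit 912) (nat_lit 0) (XT.lf (nat_lit 0) (nat_lit 384405815) (nat_lit 1140) (nat_lit 2045647604) (nat_lit 76) (nat_lit 14992230554) (nat_lit 444) (nat_lit 5) (nat_lit 459) (nat_lit 5) (nat_lit 445) (nat_lit 5) (nat_lit 458) (nat_lit 439) (nat_lit 303)) (XT.lf (nat_lit 0) (nat_lit 3142435551) (nat_lit 988) (nat_lit 5347011436) (nat_lit 76) (nat_lit 9210650549) (nat_lit 432) (nat_lit 5) (nat_lit 445)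 (nat_lit 5) (nat_lit 433) (nat_lit 5) (nat_lit 459) (nat_lit 439) (nat_lit 302))) (XT.nd (nat_lit 78) (nat_lit 836) (nat_lit 0) (XT.lf (nat_lit 0) (nat_lit 6081193410) (nat_lit 988) (nat_lit 8687125180) (nat_lit 76) (nat_lit 3215967955) (nat_lit 420) (nat_lit 5) (nat_lit 433) (nat_lit 5) (nat_lit 421) (nat_lit 5) (nat_lit 460) (nat_lit 439) (nat_lit 301)) (XT.lf (nat_lit 0) (nat_lit 6188712954) (nat_lit 836) (nat_lit 3039276318) (nat_lit 912) (nat_lit 9046615208) (nat_lit 409) (nat_lit 5) (nat_lit 420) (nat_lit 5) (nat_lit 421) (nat_lit 5) (nat_lit 461) (nat_lit 439) (nat_lit 300))))) (XT.nd (nat_lit 234) (nat_lit 3040) (nat_lit 0) (XT.nd (nat_lit 78) (nat_lit 912) (nat_lit 0) (XT.lf (nat_lit 0) (nat_lit 3024787585) (nat_lit 836) (nat_lit 9568763983) (nat_lit 912) (nat_lit 5977593875) (nat_lit 398) (nat_lit 5) (nat_lit 409) (nat_lit 5) (nat_lit 410) (nat_lit 5) (nat_lit 462) (nat_lit 439) (nat_lit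 299)) (XT.nd (nat_lit 78) (nat_lit 912) (nat_lit 0) (XT.lf (nat_lit 0) (nat_lit 16165930743) (nat_lit 912) (nat_lit 170729979) (nat_lit 76) (nat_lit 2537805629) (nat_lit 398) (nat_lit 5) (nat_lit 410) (nat_lit 5) (nat_lit 399) (nat_lit 5) (nat_lit 463) (nat_lit 439) (nat_lit 298)) (XT.lf (nat_lit 0) (nat_lit 804970696) (nat_lit 912) (nat_lit 3392488926) (nat_lit 76) (nat_lit 14986242150) (nat_lit 386) (nat_lit 5) (nat_lit 398) (nat_lit 5) (nat_lit 387) (nat_lit 5) (nat_lit 464) (nat_lit 439) (nat_lit 297)))) (XT.nd (nat_lit 156) (nat_lit 1444) (nat_lit 0) (XT.nd (nat_lit 78) (nat_lit 760) (nat_lit 0) (XT.lf (nat_lit 0) (nat_lit 4514270526) (nat_lit 912) (nat_lit 6684873673) (nat_lit 76) (nat_lit 8300168918) (nat_lit 375) (nat_lit 5) (nat_lit 387) (nat_lit 5) (nat_lit 376) (nat_lit 5) (nat_lit 465) (nat_lit 439) (nat_lit 296)) (XT.lf (nat_lit 0) (nat_lit 8446686288) (nat_lit 836) (nat_lit 10013405163)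 (nat_lit 76) (nat_lit 1362065255) (nat_lit 365) (nat_lit 5) (nat_lit 376) (nat_lit 5) (nat_lit 366) (nat_lit 5) (nat_lit 466) (nat_lit 439) (nat_lit 295))) (XT.nd (nat_lit 78) (nat_lit 684) (nat_lit 0) (XT.lf (nat_lit 0) (nat_lit 6735296080) (nat_lit 760) (nat_lit 5914187420) (nat_lit 836) (nat_lit 7502154550) (nat_lit 355) (nat_lit 5) (nat_lit 365) (nat_lit 5) (nat_lit 366) (nat_lit 5) (nat_lit 467) (nat_lit 439) (nat_lit 294)) (XT.lf (nat_lit 0) (nat_lit 3622665397) (nat_lit 684) (nat_lit 13481467194) (nat_lit 760) (nat_lit 3384356490) (nat_lit 346) (nat_lit 5) (nat_lit 355) (nat_lit 5) (nat_lit 356) (nat_lit 5) (nat_lit 468) (nat_lit 439) (nat_lit 293))))))) (XT.nd (nat_lit 1092) (nat_lit 5624) (nat_lit 0) (XT.nd (nat_lit 546) (nat_lit 3572) (nat_lit 0) (XT.nd (nat_lit 234) (nat_lit 2660) (nat_lit 0) (XT.nd (nat_lit 78) (nat_lit 684) (nat_lit 0) (XT.lf (nat_lit 0) (nat_lit 470598485) (nat_lit 760)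 (nat_lit 497881582) (nat_lit 836) (nat_lit 19864399994) (nat_lit 335) (nat_lit 5) (nat_lit 345) (nat_lit 5) (nat_lit 346) (nat_lit 5) (nat_lit 469) (nat_lit 439) (nat_lit 292)) (XT.nd (nat_lit 78) (nat_lit 684) (nat_lit 0) (XT.lf (nat_lit 0) (nat_lit 5593686572) (nat_lit 836) (nat_lit 2747050612) (nat_lit 76) (nat_lit 12842663435) (nat_lit 335) (nat_lit 5) (nat_lit 346) (nat_lit 5) (nat_lit 336) (nat_lit 5) (nat_lit 470) (nat_lit 439) (nat_lit 291)) (XT.lf (nat_lit 0) (nat_lit 10484690466) (nat_lit 760) (nat_lit 5990538395) (nat_lit 76) (nat_lit 5066667656) (nat_lit 326) (nat_lit 5) (nat_lit 336) (nat_lit 5) (nat_lit 327) (nat_lit 5) (nat_lit 471) (nat_lit 439) (nat_lit 290)))) (XT.nd (nat_lit 156) (nat_lit 1368) (nat_lit 0) (XT.nd (nat_lit 78) (nat_lit 608) (nat_lit 0) (XT.lf (nat_lit 0) (nat_lit 12622839774) (nat_lit 684) (nat_lit 3045470495) (nat_lit 760) (nat_lit 6239919834) (nat_lit 317) (nat_lit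 5) (nat_lit 326) (nat_lit 5) (nat_lit 327) (nat_lit 5) (nat_lit 472) (nat_lit 439) (nat_lit 289)) (XT.lf (nat_lit 0) (nat_lit 9635591791) (nat_lit 608) (nat_lit 11534938998) (nat_lit 684) (nat_lit 1111761579) (nat_lit 309) (nat_lit 5) (nat_lit 317) (nat_lit 5) (nat_lit 318) (nat_lit 5) (nat_lit 473) (nat_lit 439) (nat_lit 288))) (XT.nd (nat_lit 78) (nat_lit 608) (nat_lit 0) (XT.lf (nat_lit 0) (nat_lit 4247414971) (nat_lit 760) (nat_lit 16068606296) (nat_lit 76) (nat_lit 2348376861) (nat_lit 299) (nat_lit 5) (nat_lit 309) (nat_lit 5) (nat_lit 300) (nat_lit 5) (nat_lit 474) (nat_lit 439) (nat_lit 287)) (XT.lf (nat_lit 0) (nat_lit 3480649136) (nat_lit 608) (nat_lit 6447694958) (nat_lit 684) (nat_lit 13125954833) (nat_lit 291) (nat_lit 5) (nat_lit 299) (nat_lit 5) (nat_lit 300) (nat_lit 5) (nat_lit 475) (nat_lit 439) (nat_lit 286))))) (XT.nd (nat_lit 234) (nat_lit 2280) (nat_lit 0) (XT.nd (nat_lit 78)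 (nat_lit 684) (nat_lit 0) (XT.lf (nat_lit 0) (nat_lit 322989930) (nat_lit 608) (nat_lit 15609486643) (nat_lit 684) (nat_lit 7520365130) (nat_lit 283) (nat_lit 5) (nat_lit 291) (nat_lit 5) (nat_lit 292) (nat_lit 5) (nat_lit 476) (nat_lit 439) (nat_lit 285)) (XT.nd (nat_lit 78) (nat_lit 684) (nat_lit 0) (XT.lf (nat_lit 0) (nat_lit 21028706359) (nat_lit 608) (nat_lit 1253896676) (nat_lit 684) (nat_lit 1577420770) (nat_lit 283) (nat_lit 5) (nat_lit 291) (nat_lit 5) (nat_lit 292) (nat_lit 5) (nat_lit 477) (nat_lit 439) (nat_lit 284)) (XT.lf (nat_lit 0) (nat_lit 4682310946) (nat_lit 684) (nat_lit 6090959791) (nat_lit 76) (nat_lit 13501599195) (nat_lit 274) (nat_lit 5) (nat_lit 283) (nat_lit 5) (nat_lit 275) (nat_lit 5) (nat_lit 478) (nat_lit 439) (nat_lit 283)))) (XT.nd (nat_lit 156) (nat_lit 1140) (nat_lit 0) (XT.nd (nat_lit 78) (nat_lit 532) (nat_lit 0) (XT.lf (nat_lit 0) (nat_lit 11253284800) (nat_lit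 684) (nat_lit 9389427626) (nat_lit 76) (nat_lit 4056343270) (nat_lit 266) (nat_lit 5) (nat_lit 275) (nat_lit 5) (nat_lit 267) (nat_lit 5) (nat_lit 479) (nat_lit 439) (nat_lit 282)) (XT.lf (nat_lit 0) (nat_lit 12378715766) (nat_lit 532) (nat_lit 5827609080) (nat_lit 608) (nat_lit 6925943849) (nat_lit 259) (nat_lit 5) (nat_lit 266) (nat_lit 5) (nat_lit 267) (nat_lit 5) (nat_lit 480) (nat_lit 439) (nat_lit 281))) (XT.nd (nat_lit 78) (nat_lit 608) (nat_lit 0) (XT.lf (nat_lit 0) (nat_lit 9401110711) (nat_lit 532) (nat_lit 16144311902) (nat_lit 608) (nat_lit 29506530) (nat_lit 252) (nat_lit 5) (nat_lit 259) (nat_lit 5) (nat_lit 260) (nat_lit 5) (nat_lit 481) (nat_lit 439) (nat_lit 280)) (XT.lf (nat_lit 0) (nat_lit 6352007174) (nat_lit 532) (nat_lit 787517787) (nat_lit 608) (nat_lit 18887256744) (nat_lit 244) (nat_lit 5) (nat_lit 251) (nat_lit 5) (nat_lit 252) (nat_lit 5) (nat_lit 482) (nat_lit 439) (nat_lit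 279)))))) (XT.nd (nat_lit 546) (nat_lit 2584) (nat_lit 0) (XT.nd (nat_lit 234) (nat_lit 1976) (nat_lit 0) (XT.nd (nat_lit 78) (nat_lit 532) (nat_lit 0) (XT.lf (nat_lit 0) (nat_lit 3217046505) (nat_lit 532) (nat_lit 11526407392) (nat_lit 608) (nat_lit 11744327860) (nat_lit 237) (nat_lit 5) (nat_lit 244) (nat_lit 5) (nat_lit 245) (nat_lit 5) (nat_lit 483) (nat_lit 439) (nat_lit 278)) (XT.nd (nat_lit 78) (nat_lit 76) (nat_lit 0) (XT.lf (nat_lit 0) (nat_lit 60741891) (nat_lit 456) (nat_lit 22673505719) (nat_lit 532) (nat_lit 4225189610) (nat_lit 231) (nat_lit 5) (nat_lit 237) (nat_lit 5) (nat_lit 238) (nat_lit 5) (nat_lit 484) (nat_lit 439) (nat_lit 277)) (XT.lf (nat_lit 0) (nat_lit 3700880147) (nat_lit 532) (nat_lit 3143888771) (nat_lit 76) (nat_lit 20595466411) (nat_lit 230) (nat_lit 5) (nat_lit 237) (nat_lit 5) (nat_lit 231) (nat_lit 5) (nat_lit 485) (nat_lit 439) (nat_lit 276)))) (XT.nd (nat_lit 156)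 (nat_lit 988) (nat_lit 0) (XT.nd (nat_lit 78) (nat_lit 456) (nat_lit 0) (XT.lf (nat_lit 0) (nat_lit 12002131660) (nat_lit 608) (nat_lit 6427783290) (nat_lit 76) (nat_lit 9501088115) (nat_lit 223) (nat_lit 5) (nat_lit 231) (nat_lit 5) (nat_lit 224) (nat_lit 5) (nat_lit 486) (nat_lit 439) (nat_lit 275)) (XT.lf (nat_lit 0) (nat_lit 18684705494) (nat_lit 456) (nat_lit 2048332815) (nat_lit 532) (nat_lit 7699843486) (nat_lit 217) (nat_lit 5) (nat_lit 223) (nat_lit 5) (nat_lit 224) (nat_lit 5) (nat_lit 487) (nat_lit 439) (nat_lit 274))) (XT.nd (nat_lit 78) (nat_lit 456) (nat_lit 0) (XT.lf (nat_lit 0) (nat_lit 1002265531) (nat_lit 532) (nat_lit 13162665102) (nat_lit 76) (nat_lit 14780058012) (nat_lit 210) (nat_lit 5) (nat_lit 217) (nat_lit 5) (nat_lit 211) (nat_lit 5) (nat_lit 488) (nat_lit 439) (nat_lit 273)) (XT.lf (nat_lit 0) (nat_lit 10035542205) (nat_lit 532) (nat_lit 16653898041) (nat_lit 76) (nat_lit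 2778506524) (nat_lit 204) (nat_lit 5) (nat_lit 211) (nat_lit 5) (nat_lit 205) (nat_lit 5) (nat_lit 489) (nat_lit 439) (nat_lit 272))))) (XT.nd (nat_lit 234) (nat_lit 1216) (nat_lit 0) (XT.nd (nat_lit 78) (nat_lit 912) (nat_lit 0) (XT.lf (nat_lit 0) (nat_lit 9767241084) (nat_lit 456) (nat_lit 9812963723) (nat_lit 532) (nat_lit 10421581359) (nat_lit 198) (nat_lit 5) (nat_lit 204) (nat_lit 5) (nat_lit 205) (nat_lit 5) (nat_lit 490) (nat_lit 439) (nat_lit 271)) (XT.nd (nat_lit 78) (nat_lit 532) (nat_lit 0) (XT.lf (nat_lit 0) (nat_lit 6686475489) (nat_lit 380) (nat_lit 22923479958) (nat_lit 456) (nat_lit 937710608) (nat_lit 193) (nat_lit 5) (nat_lit 198) (nat_lit 5) (nat_lit 199) (nat_lit 5) (nat_lit 491) (nat_lit 439) (nat_lit 270)) (XT.lf (nat_lit 0) (nat_lit 3496070076) (nat_lit 456) (nat_lit 5437821720) (nat_lit 532) (nat_lit 22170503483) (nat_lit 186) (nat_lit 5) (nat_lit 192) (nat_lit 5) (nat_lit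 193) (nat_lit 5) (nat_lit 492) (nat_lit 439) (nat_lit 269)))) (XT.nd (nat_lit 156) (nat_lit 836) (nat_lit 0) (XT.nd (nat_lit 78) (nat_lit 0) (nat_lit 0) (XT.lf (nat_lit 0) (nat_lit 229328578) (nat_lit 380) (nat_lit 19098332089) (nat_lit 456) (nat_lit 12345266837) (nat_lit 181) (nat_lit 5) (nat_lit 186) (nat_lit 5) (nat_lit 187) (nat_lit 5) (nat_lit 493) (nat_lit 439) (nat_lit 268)) (XT.lf (nat_lit 0) (nat_lit 29232564857) (nat_lit 380) (nat_lit 1016833482) (nat_lit 456) (nat_lit 2004794486) (nat_lit 181) (nat_lit 5) (nat_lit 186) (nat_lit 5) (nat_lit 187) (nat_lit 5) (nat_lit 494) (nat_lit 439) (nat_lit 267))) (XT.nd (nat_lit 78) (nat_lit 380) (nat_lit 0) (XT.lf (nat_lit 0) (nat_lit 8813693054) (nat_lit 456) (nat_lit 6429789929) (nat_lit 76) (nat_lit 17602666789) (nat_lit 175) (nat_lit 5) (nat_lit 181) (nat_lit 5) (nat_lit 176) (nat_lit 5) (nat_lit 495) (nat_lit 439) (nat_lit 266)) (XT.lf (nat_lit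 0) (nat_lit 20126240900) (nat_lit 456) (nat_lit 9872572099) (nat_lit 76) (nat_lit 3452852764) (nat_lit 170) (nat_lit 5) (nat_lit 176) (nat_lit 5) (nat_lit 171) (nat_lit 5) (nat_lit 496) (nat_lit 439) (nat_lit 265))))))))
noncomputable def xc94 : XT := (XT.nd (nat_lit 59514) (nat_lit 0) (nat_lit 7296) (XT.nd (nat_lit 58422) (nat_lit 0) (nat_lit 23636) (XT.nd (nat_lit 468) (nat_lit 456) (nat_lit 0) (XT.nd (nat_lit 234) (nat_lit 1064) (nat_lit 0) (XT.nd (nat_lit 78) (nat_lit 836) (nat_lit 0) (XT.lf (nat_lit 0) (nat_lit 20660238303) (nat_lit 380) (nat_lit 11391193188) (nat_lit 456) (nat_lit 2018450633) (nat_lit 165) (nat_lit 5) (nat_lit 170) (nat_lit 5) (nat_lit 171) (nat_lit 5) (nat_lit 497) (nat_lit 439) (nat_lit 264)) (XT.nd (nat_lit 78) (nat_lit 380) (nat_lit 0) (XT.lf (nat_lit 0) (nat_lit 9729200539) (nat_lit 456) (nat_lit 17056133556) (nat_lit 76) (nat_lit 7915506157) (nat_lit 159) (nat_lit 5) (nat_lit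 165) (nat_lit 5) (nat_lit 160) (nat_lit 5) (nat_lit 498) (nat_lit 439) (nat_lit 263)) (XT.lf (nat_lit 0) (nat_lit 14555817733) (nat_lit 380) (nat_lit 7501867025) (nat_lit 456) (nat_lit 13287659202) (nat_lit 154) (nat_lit 5) (nat_lit 159) (nat_lit 5) (nat_lit 160) (nat_lit 5) (nat_lit 499) (nat_lit 439) (nat_lit 262)))) (XT.nd (nat_lit 78) (nat_lit 760) (nat_lit 0) (XT.lf (nat_lit 0) (nat_lit 11401159056) (nat_lit 304) (nat_lit 23619098412) (nat_lit 380) (nat_lit 983640829) (nat_lit 150) (nat_lit 5) (nat_lit 154) (nat_lit 5) (nat_lit 155) (nat_lit 5) (nat_lit 500) (nat_lit 439) (nat_lit 261)) (XT.nd (nat_lit 78) (nat_lit 304) (nat_lit 0) (XT.lf (nat_lit 0) (nat_lit 8132406576) (nat_lit 380) (nat_lit 3642257098) (nat_lit 456) (nat_lit 24901258350) (nat_lit 144) (nat_lit 5) (nat_lit 149) (nat_lit 5) (nat_lit 150) (nat_lit 5) (nat_lit 501) (nat_lit 439) (nat_lit 260)) (XT.lf (nat_lit 0) (nat_lit 4756418346)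 (nat_lit 304) (nat_lit 20448452028) (nat_lit 380) (nat_lit 12157055896) (nat_lit 140) (nat_lit 5) (nat_lit 144) (nat_lit 5) (nat_lit 145) (nat_lit 5) (nat_lit 502) (nat_lit 439) (nat_lit 259))))) (XT.nd (nat_lit 57642) (nat_lit 0) (nat_lit 27512) (XT.nd (nat_lit 78) (nat_lit 0) (nat_lit 0) (XT.lf (nat_lit 0) (nat_lit 1179660745) (nat_lit 456) (nat_lit 36707681648) (nat_lit 76) (nat_lit 176584477) (nat_lit 134) (nat_lit 5) (nat_lit 140) (nat_lit 5) (nat_lit 135) (nat_lit 5) (nat_lit 503) (nat_lit 439) (nat_lit 258)) (XT.nd (nat_lit 57486) (nat_lit 0) (nat_lit 27512) (XT.lf (nat_lit 0) (nat_lit 15105371299) (nat_lit 456) (nat_lit 2228711658) (nat_lit 76) (nat_lit 21444216353) (nat_lit 134) (nat_lit 5) (nat_lit 140) (nat_lit 5) (nat_lit 135) (nat_lit 5) (nat_lit 504) (nat_lit 439) (nat_lit 257)) (XT.lf (nat_lit 0) (nat_lit 842190959) (nat_lit 0) (nat_lit 842190959) (nat_lit 1748) (nat_lit 5065557257)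 (nat_lit 496) (nat_lit 5) (nat_lit 496) (nat_lit 3) (nat_lit 519) (nat_lit 3) (nat_lit 440) (nat_lit 440) (nat_lit 320)))) (XT.nd (nat_lit 156) (nat_lit 0) (nat_lit 76) (XT.nd (nat_lit 78) (nat_lit 0) (nat_lit 76) (XT.lf (nat_lit 0) (nat_lit 4025896015) (nat_lit 1748) (nat_lit 1820880424) (nat_lit 1824) (nat_lit 7843433512) (nat_lit 496) (nat_lit 5) (nat_lit 519) (nat_lit 3) (nat_lit 520) (nat_lit 5) (nat_lit 441) (nat_lit 440) (nat_lit 319)) (XT.lf (nat_lit 0) (nat_lit 4772786391) (nat_lit 1748) (nat_lit 5346834677) (nat_lit 1824) (nat_lit 3765230895) (nat_lit 497) (nat_lit 5) (nat_lit 520) (nat_lit 5) (nat_lit 521) (nat_lit 5) (nat_lit 442) (nat_lit 440) (nat_lit 318))) (XT.nd (nat_lit 78) (nat_lit 0) (nat_lit 76) (XT.lf (nat_lit 76) (nat_lit 5164433603) (nat_lit 0) (nat_lit 441732203) (nat_lit 1824) (nat_lit 8477887092) (nat_lit 498) (nat_lit 5) (nat_lit 497) (nat_lit 5) (nat_lit 521) (nat_lit 5)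 (nat_lit 443) (nat_lit 440) (nat_lit 317)) (XT.lf (nat_lit 76) (nat_lit 1724329048) (nat_lit 0) (nat_lit 4829362738) (nat_lit 1824) (nat_lit 7733756442) (nat_lit 499) (nat_lit 5) (nat_lit 498) (nat_lit 5) (nat_lit 522) (nat_lit 5) (nat_lit 444) (nat_lit 440) (nat_lit 316)))))) (XT.nd (nat_lit 546) (nat_lit 2584) (nat_lit 0) (XT.nd (nat_lit 234) (nat_lit 1520) (nat_lit 0) (XT.nd (nat_lit 78) (nat_lit 0) (nat_lit 76) (XT.lf (nat_lit 0) (nat_lit 7607066685) (nat_lit 1748) (nat_lit 1735007295) (nat_lit 1824) (nat_lit 5153324210) (nat_lit 499) (nat_lit 5) (nat_lit 522) (nat_lit 5) (nat_lit 523) (nat_lit 5) (nat_lit 445) (nat_lit 440) (nat_lit 315)) (XT.nd (nat_lit 78) (nat_lit 0) (nat_lit 0) (XT.lf (nat_lit 0) (nat_lit 8771531597) (nat_lit 1748) (nat_lit 5214437975) (nat_lit 1824) (nat_lit 722028501) (nat_lit 500) (nat_lit 5) (nat_lit 523) (nat_lit 5) (nat_lit 524) (nat_lit 5) (nat_lit 446) (nat_lit 440)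 (nat_lit 314)) (XT.lf (nat_lit 76) (nat_lit 6162208463) (nat_lit 0) (nat_lit 3904343808) (nat_lit 1824) (nat_lit 4858512410) (nat_lit 501) (nat_lit 5) (nat_lit 500) (nat_lit 5) (nat_lit 524) (nat_lit 5) (nat_lit 447) (nat_lit 440) (nat_lit 313)))) (XT.nd (nat_lit 156) (nat_lit 1672) (nat_lit 0) (XT.nd (nat_lit 78) (nat_lit 0) (nat_lit 76) (XT.lf (nat_lit 76) (nat_lit 2785560249) (nat_lit 0) (nat_lit 8692400658) (nat_lit 1824) (nat_lit 3669132763) (nat_lit 502) (nat_lit 5) (nat_lit 501) (nat_lit 5) (nat_lit 525) (nat_lit 5) (nat_lit 448) (nat_lit 440) (nat_lit 312)) (XT.lf (nat_lit 0) (nat_lit 13010737377) (nat_lit 1748) (nat_lit 624020186) (nat_lit 1824) (nat_lit 1739446551) (nat_lit 502) (nat_lit 5) (nat_lit 525) (nat_lit 5) (nat_lit 526) (nat_lit 5) (nat_lit 449) (nat_lit 440) (nat_lit 311))) (XT.nd (nat_lit 78) (nat_lit 1748) (nat_lit 0) (XT.lf (nat_lit 76) (nat_lit 11546834472) (nat_lit 0) (nat_lit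 3158578330) (nat_lit 1824) (nat_lit 900397820) (nat_lit 503) (nat_lit 5) (nat_lit 502) (nat_lit 5) (nat_lit 526) (nat_lit 5) (nat_lit 450) (nat_lit 440) (nat_lit 310)) (XT.lf (nat_lit 0) (nat_lit 690138040) (nat_lit 1824) (nat_lit 7553078795) (nat_lit 1900) (nat_lit 7599240139) (nat_lit 479) (nat_lit 5) (nat_lit 503) (nat_lit 5) (nat_lit 504) (nat_lit 5) (nat_lit 451) (nat_lit 440) (nat_lit 309))))) (XT.nd (nat_lit 234) (nat_lit 2660) (nat_lit 0) (XT.nd (nat_lit 78) (nat_lit 0) (nat_lit 0) (XT.lf (nat_lit 0) (nat_lit 2398127738) (nat_lit 1824) (nat_lit 11097707129) (nat_lit 1900) (nat_lit 2588610389) (nat_lit 480) (nat_lit 5) (nat_lit 504) (nat_lit 5) (nat_lit 505) (nat_lit 5) (nat_lit 452) (nat_lit 440) (nat_lit 308)) (XT.nd (nat_lit 78) (nat_lit 0) (nat_lit 76) (XT.lf (nat_lit 76) (nat_lit 1626907262) (nat_lit 0) (nat_lit 2631656241) (nat_lit 1900) (nat_lit 12073106509) (nat_lit 481) (nat_lit 5)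 (nat_lit 480) (nat_lit 5) (nat_lit 505) (nat_lit 5) (nat_lit 453) (nat_lit 440) (nat_lit 307)) (XT.lf (nat_lit 0) (nat_lit 6290484124) (nat_lit 1824) (nat_lit 1768271583) (nat_lit 1900) (nat_lit 8525243297) (nat_lit 481) (nat_lit 5) (nat_lit 505) (nat_lit 5) (nat_lit 506) (nat_lit 5) (nat_lit 454) (nat_lit 440) (nat_lit 306)))) (XT.nd (nat_lit 156) (nat_lit 2812) (nat_lit 0) (XT.nd (nat_lit 78) (nat_lit 0) (nat_lit 0) (XT.lf (nat_lit 0) (nat_lit 8482546713) (nat_lit 1824) (nat_lit 5183530245) (nat_lit 1900) (nat_lit 3175838122) (nat_lit 482) (nat_lit 5) (nat_lit 506) (nat_lit 5) (nat_lit 507) (nat_lit 5) (nat_lit 455) (nat_lit 440) (nat_lit 305)) (XT.lf (nat_lit 76) (nat_lit 8449241109) (nat_lit 0) (nat_lit 2397182712) (nat_lit 1900) (nat_lit 6259024636) (nat_lit 483) (nat_lit 5) (nat_lit 482) (nat_lit 5) (nat_lit 507) (nat_lit 5) (nat_lit 456) (nat_lit 440) (nat_lit 304))) (XT.nd (nat_lit 78) (nat_lit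 1064) (nat_lit 0) (XT.lf (nat_lit 0) (nat_lit 5181267104) (nat_lit 1824) (nat_lit 8214350683) (nat_lit 1900) (nat_lit 3978982889) (nat_lit 459) (nat_lit 5) (nat_lit 483) (nat_lit 5) (nat_lit 484) (nat_lit 5) (nat_lit 457) (nat_lit 440) (nat_lit 303)) (XT.lf (nat_lit 0) (nat_lit 1875521861) (nat_lit 1064) (nat_lit 14240820182) (nat_lit 1140) (nat_lit 1533585152) (nat_lit 445) (nat_lit 5) (nat_lit 459) (nat_lit 5) (nat_lit 460) (nat_lit 5) (nat_lit 458) (nat_lit 440) (nat_lit 302))))))) (XT.nd (nat_lit 1092) (nat_lit 7296) (nat_lit 0) (XT.nd (nat_lit 546) (nat_lit 4560) (nat_lit 0) (XT.nd (nat_lit 234) (nat_lit 2584) (nat_lit 0) (XT.nd (nat_lit 78) (nat_lit 1824) (nat_lit 0) (XT.lf (nat_lit 0) (nat_lit 1096555581) (nat_lit 1140) (nat_lit 1472884670) (nat_lit 76) (nat_lit 15361460079) (nat_lit 444) (nat_lit 5) (nat_lit 459) (nat_lit 5) (nat_lit 445) (nat_lit 5) (nat_lit 459) (nat_lit 440) (nat_lit 301))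 (XT.nd (nat_lit 78) (nat_lit 912) (nat_lit 0) (XT.lf (nat_lit 0) (nat_lit 3920578012) (nat_lit 988) (nat_lit 4869461308) (nat_lit 76) (nat_lit 9427345103) (nat_lit 432) (nat_lit 5) (nat_lit 445) (nat_lit 5) (nat_lit 433) (nat_lit 5) (nat_lit 460) (nat_lit 440) (nat_lit 300)) (XT.lf (nat_lit 0) (nat_lit 6931392541) (nat_lit 988) (nat_lit 8306468171) (nat_lit 76) (nat_lit 3272561638) (nat_lit 420) (nat_lit 5) (nat_lit 433) (nat_lit 5) (nat_lit 421) (nat_lit 5) (nat_lit 461) (nat_lit 440) (nat_lit 299)))) (XT.nd (nat_lit 156) (nat_lit 912) (nat_lit 0) (XT.nd (nat_lit 78) (nat_lit 836) (nat_lit 0) (XT.lf (nat_lit 0) (nat_lit 7005241251) (nat_lit 836) (nat_lit 3151997617) (nat_lit 912) (nat_lit 8652519117) (nat_lit 409) (nat_lit 5) (nat_lit 420) (nat_lit 5) (nat_lit 421) (nat_lit 5) (nat_lit 462) (nat_lit 440) (nat_lit 298)) (XT.lf (nat_lit 0) (nat_lit 3749173005) (nat_lit 836) (nat_lit 9859571022) (nat_lit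 912) (nat_lit 5506752691) (nat_lit 398) (nat_lit 5) (nat_lit 409) (nat_lit 5) (nat_lit 410) (nat_lit 5) (nat_lit 463) (nat_lit 440) (nat_lit 297))) (XT.nd (nat_lit 78) (nat_lit 76) (nat_lit 0) (XT.lf (nat_lit 0) (nat_lit 457772462) (nat_lit 836) (nat_lit 16814906038) (nat_lit 912) (nat_lit 2155552105) (nat_lit 387) (nat_lit 5) (nat_lit 398) (nat_lit 5) (nat_lit 399) (nat_lit 5) (nat_lit 464) (nat_lit 440) (nat_lit 296)) (XT.lf (nat_lit 0) (nat_lit 1437941165) (nat_lit 912) (nat_lit 2868701817) (nat_lit 76) (nat_lit 15440360730) (nat_lit 386) (nat_lit 5) (nat_lit 398) (nat_lit 5) (nat_lit 387) (nat_lit 5) (nat_lit 465) (nat_lit 440) (nat_lit 295))))) (XT.nd (nat_lit 234) (nat_lit 2204) (nat_lit 0) (XT.nd (nat_lit 78) (nat_lit 1520) (nat_lit 0) (XT.lf (nat_lit 0) (nat_lit 5244914982) (nat_lit 912) (nat_lit 6258205666) (nat_lit 76) (nat_lit 8569235800) (nat_lit 375) (nat_lit 5) (nat_lit 387) (nat_lit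 5) (nat_lit 376) (nat_lit 5) (nat_lit 466) (nat_lit 440) (nat_lit 294)) (XT.nd (nat_lit 78) (nat_lit 760) (nat_lit 0) (XT.lf (nat_lit 0) (nat_lit 9282201274) (nat_lit 836) (nat_lit 9685328604) (nat_lit 76) (nat_lit 1437618432) (nat_lit 365) (nat_lit 5) (nat_lit 376) (nat_lit 5) (nat_lit 366) (nat_lit 5) (nat_lit 467) (nat_lit 440) (nat_lit 293)) (XT.lf (nat_lit 0) (nat_lit 7555637356) (nat_lit 760) (nat_lit 6042504557) (nat_lit 836) (nat_lit 7146631887) (nat_lit 355) (nat_lit 5) (nat_lit 365) (nat_lit 5) (nat_lit 366) (nat_lit 5) (nat_lit 468) (nat_lit 440) (nat_lit 292)))) (XT.nd (nat_lit 156) (nat_lit 684) (nat_lit 0) (XT.nd (nat_lit 78) (nat_lit 836) (nat_lit 0) (XT.lf (nat_lit 0) (nat_lit 4350511405) (nat_lit 684) (nat_lit 13823670785) (nat_lit 760) (nat_lit 2917794009) (nat_lit 346) (nat_lit 5) (nat_lit 355) (nat_lit 5) (nat_lit 356) (nat_lit 5) (nat_lit 469) (nat_lit 440) (nat_lit 291)) (XT.lf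 (nat_lit 0) (nat_lit 1101195030) (nat_lit 760) (nat_lit 444655165) (nat_lit 836) (nat_lit 19901022310) (nat_lit 335) (nat_lit 5) (nat_lit 345) (nat_lit 5) (nat_lit 346) (nat_lit 5) (nat_lit 470) (nat_lit 440) (nat_lit 290))) (XT.nd (nat_lit 78) (nat_lit 684) (nat_lit 0) (XT.lf (nat_lit 0) (nat_lit 6294272203) (nat_lit 836) (nat_lit 2220695150) (nat_lit 76) (nat_lit 13293252946) (nat_lit 335) (nat_lit 5) (nat_lit 346) (nat_lit 5) (nat_lit 336) (nat_lit 5) (nat_lit 471) (nat_lit 440) (nat_lit 289)) (XT.lf (nat_lit 0) (nat_lit 11320881658) (nat_lit 760) (nat_lit 5561419888) (nat_lit 76) (nat_lit 5295392800) (nat_lit 326) (nat_lit 5) (nat_lit 336) (nat_lit 5) (nat_lit 327) (nat_lit 5) (nat_lit 472) (nat_lit 440) (nat_lit 288)))))) (XT.nd (nat_lit 546) (nat_lit 3344) (nat_lit 0) (XT.nd (nat_lit 234) (nat_lit 1900) (nat_lit 0) (XT.nd (nat_lit 78) (nat_lit 1368) (nat_lit 0) (XT.lf (nat_lit 0) (nat_lit 13600482007)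 (nat_lit 684) (nat_lit 3048223171) (nat_lit 760) (nat_lit 5906539618) (nat_lit 317) (nat_lit 5) (nat_lit 326) (nat_lit 5) (nat_lit 327) (nat_lit 5) (nat_lit 473) (nat_lit 440) (nat_lit 287)) (XT.nd (nat_lit 78) (nat_lit 760) (nat_lit 0) (XT.lf (nat_lit 0) (nat_lit 10523399432) (nat_lit 608) (nat_lit 11782174431) (nat_lit 684) (nat_lit 635164172) (nat_lit 309) (nat_lit 5) (nat_lit 317) (nat_lit 5) (nat_lit 318) (nat_lit 5) (nat_lit 474) (nat_lit 440) (nat_lit 286)) (XT.lf (nat_lit 0) (nat_lit 4867978455) (nat_lit 760) (nat_lit 15945832137) (nat_lit 76) (nat_lit 2520633282) (nat_lit 299) (nat_lit 5) (nat_lit 309) (nat_lit 5) (nat_lit 300) (nat_lit 5) (nat_lit 475) (nat_lit 440) (nat_lit 285)))) (XT.nd (nat_lit 156) (nat_lit 684) (nat_lit 0) (XT.nd (nat_lit 78) (nat_lit 608) (nat_lit 0) (XT.lf (nat_lit 0) (nat_lit 4180088272) (nat_lit 608) (nat_lit 6528747111) (nat_lit 684) (nat_lit 13027416997) (nat_lit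 291) (nat_lit 5) (nat_lit 299) (nat_lit 5) (nat_lit 300) (nat_lit 5) (nat_lit 476) (nat_lit 440) (nat_lit 284)) (XT.lf (nat_lit 0) (nat_lit 926846545) (nat_lit 608) (nat_lit 15956753898) (nat_lit 684) (nat_lit 7263341483) (nat_lit 283) (nat_lit 5) (nat_lit 291) (nat_lit 5) (nat_lit 292) (nat_lit 5) (nat_lit 477) (nat_lit 440) (nat_lit 283))) (XT.nd (nat_lit 78) (nat_lit 684) (nat_lit 0) (XT.lf (nat_lit 0) (nat_lit 22236428635) (nat_lit 608) (nat_lit 1174021010) (nat_lit 684) (nat_lit 1156166112) (nat_lit 283) (nat_lit 5) (nat_lit 291) (nat_lit 5) (nat_lit 292) (nat_lit 5) (nat_lit 478) (nat_lit 440) (nat_lit 282)) (XT.lf (nat_lit 0) (nat_lit 5276252025) (nat_lit 684) (nat_lit 5691830722) (nat_lit 76) (nat_lit 14025943484) (nat_lit 274) (nat_lit 5) (nat_lit 283) (nat_lit 5) (nat_lit 275) (nat_lit 5) (nat_lit 479) (nat_lit 440) (nat_lit 281))))) (XT.nd (nat_lit 234) (nat_lit 1596) (nat_lit 0) (XT.nd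 (nat_lit 78) (nat_lit 1140) (nat_lit 0) (XT.lf (nat_lit 0) (nat_lit 12035697599) (nat_lit 684) (nat_lit 9090627068) (nat_lit 76) (nat_lit 4304786644) (nat_lit 266) (nat_lit 5) (nat_lit 275) (nat_lit 5) (nat_lit 267) (nat_lit 5) (nat_lit 480) (nat_lit 440) (nat_lit 280)) (XT.nd (nat_lit 78) (nat_lit 608) (nat_lit 0) (XT.lf (nat_lit 0) (nat_lit 13321142971) (nat_lit 532) (nat_lit 5866937857) (nat_lit 608) (nat_lit 6689425408) (nat_lit 259) (nat_lit 5) (nat_lit 266) (nat_lit 5) (nat_lit 267) (nat_lit 5) (nat_lit 481) (nat_lit 440) (nat_lit 279)) (XT.lf (nat_lit 0) (nat_lit 400287630) (nat_lit 608) (nat_lit 16083574920) (nat_lit 76) (nat_lit 9849694527) (nat_lit 251) (nat_lit 5) (nat_lit 259) (nat_lit 5) (nat_lit 252) (nat_lit 5) (nat_lit 482) (nat_lit 440) (nat_lit 278)))) (XT.nd (nat_lit 156) (nat_lit 532) (nat_lit 0) (XT.nd (nat_lit 78) (nat_lit 532) (nat_lit 0) (XT.lf (nat_lit 0) (nat_lit 7108495209)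 (nat_lit 532) (nat_lit 666638194) (nat_lit 608) (nat_lit 19024005561) (nat_lit 244) (nat_lit 5) (nat_lit 251) (nat_lit 5) (nat_lit 252) (nat_lit 5) (nat_lit 483) (nat_lit 440) (nat_lit 277)) (XT.lf (nat_lit 0) (nat_lit 3877690374) (nat_lit 532) (nat_lit 11721789005) (nat_lit 608) (nat_lit 11674644172) (nat_lit 237) (nat_lit 5) (nat_lit 244) (nat_lit 5) (nat_lit 245) (nat_lit 5) (nat_lit 484) (nat_lit 440) (nat_lit 276))) (XT.nd (nat_lit 78) (nat_lit 76) (nat_lit 0) (XT.lf (nat_lit 0) (nat_lit 624740657) (nat_lit 456) (nat_lit 23197804239) (nat_lit 532) (nat_lit 3937533324) (nat_lit 231) (nat_lit 5) (nat_lit 237) (nat_lit 5) (nat_lit 238) (nat_lit 5) (nat_lit 485) (nat_lit 440) (nat_lit 275)) (XT.lf (nat_lit 0) (nat_lit 4208971490) (nat_lit 532) (nat_lit 2687110300) (nat_lit 76) (nat_lit 21359403386) (nat_lit 230) (nat_lit 5) (nat_lit 237) (nat_lit 5) (nat_lit 231) (nat_lit 5) (nat_lit 486) (nat_lit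 440) (nat_lit 274))))))))
noncomputable def xc95 : XT := (XT.nd (nat_lit 59592) (nat_lit 0) (nat_lit 11932) (XT.nd (nat_lit 1014) (nat_lit 1900) (nat_lit 0) (XT.nd (nat_lit 468) (nat_lit 2584) (nat_lit 0) (XT.nd (nat_lit 234) (nat_lit 1292) (nat_lit 0) (XT.nd (nat_lit 78) (nat_lit 988) (nat_lit 0) (XT.lf (nat_lit 0) (nat_lit 12752209825) (nat_lit 608) (nat_lit 6071660917) (nat_lit 76) (nat_lit 9937246679) (nat_lit 223) (nat_lit 5) (nat_lit 231) (nat_lit 5) (nat_lit 224) (nat_lit 5) (nat_lit 487) (nat_lit 440) (nat_lit 273)) (XT.nd (nat_lit 78) (nat_lit 532) (nat_lit 0) (XT.lf (nat_lit 0) (nat_lit 19785296374) (nat_lit 456) (nat_lit 1951894023) (nat_lit 532) (nat_lit 7541019632) (nat_lit 217) (nat_lit 5) (nat_lit 223) (nat_lit 5) (nat_lit 224) (nat_lit 5) (nat_lit 488) (nat_lit 440) (nat_lit 272)) (XT.lf (nat_lit 0) (nat_lit 1410351879) (nat_lit 532) (nat_lit 13014693574) (nat_lit 76) (nat_lit 15380718205)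 (nat_lit 210) (nat_lit 5) (nat_lit 217) (nat_lit 5) (nat_lit 211) (nat_lit 5) (nat_lit 489) (nat_lit 440) (nat_lit 271)))) (XT.nd (nat_lit 78) (nat_lit 836) (nat_lit 0) (XT.lf (nat_lit 0) (nat_lit 10708145977) (nat_lit 532) (nat_lit 16613109246) (nat_lit 76) (nat_lit 3023285336) (nat_lit 204) (nat_lit 5) (nat_lit 211) (nat_lit 5) (nat_lit 205) (nat_lit 5) (nat_lit 490) (nat_lit 440) (nat_lit 270)) (XT.nd (nat_lit 78) (nat_lit 380) (nat_lit 0) (XT.lf (nat_lit 0) (nat_lit 10591896611) (nat_lit 456) (nat_lit 9939882114) (nat_lit 532) (nat_lit 10362764212) (nat_lit 198) (nat_lit 5) (nat_lit 204) (nat_lit 5) (nat_lit 205) (nat_lit 5) (nat_lit 491) (nat_lit 440) (nat_lit 269)) (XT.lf (nat_lit 0) (nat_lit 7416191591) (nat_lit 380) (nat_lit 23440114534) (nat_lit 456) (nat_lit 600615804) (nat_lit 193) (nat_lit 5) (nat_lit 198) (nat_lit 5) (nat_lit 199) (nat_lit 5) (nat_lit 492) (nat_lit 440) (nat_lit 268)))))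 (XT.nd (nat_lit 234) (nat_lit 1672) (nat_lit 0) (XT.nd (nat_lit 78) (nat_lit 380) (nat_lit 0) (XT.lf (nat_lit 0) (nat_lit 4126214540) (nat_lit 456) (nat_lit 5429042339) (nat_lit 532) (nat_lit 22475190855) (nat_lit 186) (nat_lit 5) (nat_lit 192) (nat_lit 5) (nat_lit 193) (nat_lit 5) (nat_lit 493) (nat_lit 440) (nat_lit 267)) (XT.nd (nat_lit 78) (nat_lit 0) (nat_lit 0) (XT.lf (nat_lit 0) (nat_lit 758815517) (nat_lit 380) (nat_lit 19496208381) (nat_lit 456) (nat_lit 12361128688) (nat_lit 181) (nat_lit 5) (nat_lit 186) (nat_lit 5) (nat_lit 187) (nat_lit 5) (nat_lit 494) (nat_lit 440) (nat_lit 266)) (XT.lf (nat_lit 0) (nat_lit 30616927318) (nat_lit 380) (nat_lit 877364049) (nat_lit 456) (nat_lit 1720767297) (nat_lit 181) (nat_lit 5) (nat_lit 186) (nat_lit 5) (nat_lit 187) (nat_lit 5) (nat_lit 495) (nat_lit 440) (nat_lit 265)))) (XT.nd (nat_lit 156) (nat_lit 836) (nat_lit 0) (XT.nd (nat_lit 78) (nat_lit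 380) (nat_lit 0) (XT.lf (nat_lit 0) (nat_lit 9412245285) (nat_lit 456) (nat_lit 6113513525) (nat_lit 76) (nat_lit 18299081468) (nat_lit 175) (nat_lit 5) (nat_lit 181) (nat_lit 5) (nat_lit 176) (nat_lit 5) (nat_lit 496) (nat_lit 440) (nat_lit 264)) (XT.lf (nat_lit 0) (nat_lit 21058814368) (nat_lit 456) (nat_lit 9662400619) (nat_lit 76) (nat_lit 3727414189) (nat_lit 170) (nat_lit 5) (nat_lit 176) (nat_lit 5) (nat_lit 171) (nat_lit 5) (nat_lit 497) (nat_lit 440) (nat_lit 263))) (XT.nd (nat_lit 78) (nat_lit 456) (nat_lit 0) (XT.lf (nat_lit 0) (nat_lit 21778179190) (nat_lit 380) (nat_lit 11557239404) (nat_lit 456) (nat_lit 1750100593) (nat_lit 165) (nat_lit 5) (nat_lit 170) (nat_lit 5) (nat_lit 171) (nat_lit 5) (nat_lit 498) (nat_lit 440) (nat_lit 262)) (XT.lf (nat_lit 0) (nat_lit 10340564225) (nat_lit 456) (nat_lit 17068277200) (nat_lit 76) (nat_lit 8326624270) (nat_lit 159) (nat_lit 5) (nat_lit 165) (nat_lit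 5) (nat_lit 160) (nat_lit 5) (nat_lit 499) (nat_lit 440) (nat_lit 261)))))) (XT.nd (nat_lit 58032) (nat_lit 0) (nat_lit 27588) (XT.nd (nat_lit 234) (nat_lit 760) (nat_lit 0) (XT.nd (nat_lit 78) (nat_lit 760) (nat_lit 0) (XT.lf (nat_lit 0) (nat_lit 15483928179) (nat_lit 380) (nat_lit 7548860054) (nat_lit 456) (nat_lit 13366638868) (nat_lit 154) (nat_lit 5) (nat_lit 159) (nat_lit 5) (nat_lit 160) (nat_lit 5) (nat_lit 500) (nat_lit 440) (nat_lit 260)) (XT.nd (nat_lit 78) (nat_lit 456) (nat_lit 0) (XT.lf (nat_lit 0) (nat_lit 12231694770) (nat_lit 304) (nat_lit 24147710089) (nat_lit 380) (nat_lit 698430157) (nat_lit 150) (nat_lit 5) (nat_lit 154) (nat_lit 5) (nat_lit 155) (nat_lit 5) (nat_lit 501) (nat_lit 440) (nat_lit 259)) (XT.lf (nat_lit 0) (nat_lit 8861024112) (nat_lit 380) (nat_lit 3571572022) (nat_lit 456) (nat_lit 25337500717) (nat_lit 144) (nat_lit 5) (nat_lit 149) (nat_lit 5) (nat_lit 150) (nat_lit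 5) (nat_lit 502) (nat_lit 440) (nat_lit 258)))) (XT.nd (nat_lit 57642) (nat_lit 0) (nat_lit 27512) (XT.nd (nat_lit 78) (nat_lit 456) (nat_lit 0) (XT.lf (nat_lit 0) (nat_lit 5380747845) (nat_lit 304) (nat_lit 20880348100) (nat_lit 380) (nat_lit 12215677803) (nat_lit 140) (nat_lit 5) (nat_lit 144) (nat_lit 5) (nat_lit 145) (nat_lit 5) (nat_lit 503) (nat_lit 440) (nat_lit 257)) (XT.lf (nat_lit 0) (nat_lit 1512607451) (nat_lit 456) (nat_lit 37326373328) (nat_lit 76) (nat_lit 360904458) (nat_lit 134) (nat_lit 5) (nat_lit 140) (nat_lit 5) (nat_lit 135) (nat_lit 5) (nat_lit 504) (nat_lit 440) (nat_lit 256))) (XT.nd (nat_lit 78) (nat_lit 0) (nat_lit 0) (XT.lf (nat_lit 0) (nat_lit 1142288784) (nat_lit 0) (nat_lit 1142288784) (nat_lit 1748) (nat_lit 4656832270) (nat_lit 496) (nat_lit 5) (nat_lit 496) (nat_lit 3) (nat_lit 519) (nat_lit 3) (nat_lit 441) (nat_lit 441) (nat_lit 318)) (XT.lf (nat_lit 0) (nat_lit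 5210517165) (nat_lit 1748) (nat_lit 1316974795) (nat_lit 1824) (nat_lit 7552080939) (nat_lit 496) (nat_lit 5) (nat_lit 519) (nat_lit 3) (nat_lit 520) (nat_lit 5) (nat_lit 442) (nat_lit 441) (nat_lit 317))))) (XT.nd (nat_lit 234) (nat_lit 0) (nat_lit 152) (XT.nd (nat_lit 78) (nat_lit 0) (nat_lit 0) (XT.lf (nat_lit 0) (nat_lit 5949234385) (nat_lit 1748) (nat_lit 4933814506) (nat_lit 1824) (nat_lit 3397618813) (nat_lit 497) (nat_lit 5) (nat_lit 520) (nat_lit 5) (nat_lit 521) (nat_lit 5) (nat_lit 443) (nat_lit 441) (nat_lit 316)) (XT.nd (nat_lit 78) (nat_lit 0) (nat_lit 76) (XT.lf (nat_lit 76) (nat_lit 5883488679) (nat_lit 0) (nat_lit 897694079) (nat_lit 1824) (nat_lit 7705192437) (nat_lit 498) (nat_lit 5) (nat_lit 497) (nat_lit 5) (nat_lit 521) (nat_lit 5) (nat_lit 444) (nat_lit 441) (nat_lit 315)) (XT.lf (nat_lit 76) (nat_lit 2353728090) (nat_lit 0) (nat_lit 5375041189) (nat_lit 1824) (nat_lit 6967672236)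 (nat_lit 499) (nat_lit 5) (nat_lit 498) (nat_lit 5) (nat_lit 522) (nat_lit 5) (nat_lit 445) (nat_lit 441) (nat_lit 314)))) (XT.nd (nat_lit 156) (nat_lit 0) (nat_lit 76) (XT.nd (nat_lit 78) (nat_lit 0) (nat_lit 76) (XT.lf (nat_lit 0) (nat_lit 8782719943) (nat_lit 1748) (nat_lit 1204628801) (nat_lit 1824) (nat_lit 4923903512) (nat_lit 499) (nat_lit 5) (nat_lit 522) (nat_lit 5) (nat_lit 523) (nat_lit 5) (nat_lit 446) (nat_lit 441) (nat_lit 313)) (XT.lf (nat_lit 0) (nat_lit 9955967349) (nat_lit 1748) (nat_lit 4777086721) (nat_lit 1824) (nat_lit 397700817) (nat_lit 500) (nat_lit 5) (nat_lit 523) (nat_lit 5) (nat_lit 524) (nat_lit 5) (nat_lit 447) (nat_lit 441) (nat_lit 312))) (XT.nd (nat_lit 78) (nat_lit 0) (nat_lit 76) (XT.lf (nat_lit 76) (nat_lit 6931225664) (nat_lit 0) (nat_lit 4335571991) (nat_lit 1824) (nat_lit 4087998327) (nat_lit 501) (nat_lit 5) (nat_lit 500) (nat_lit 5) (nat_lit 524) (nat_lit 5)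 (nat_lit 448) (nat_lit 441) (nat_lit 311)) (XT.lf (nat_lit 76) (nat_lit 3463535371) (nat_lit 0) (nat_lit 9232729952) (nat_lit 1824) (nat_lit 2887707803) (nat_lit 502) (nat_lit 5) (nat_lit 501) (nat_lit 5) (nat_lit 525) (nat_lit 5) (nat_lit 449) (nat_lit 441) (nat_lit 310))))))) (XT.nd (nat_lit 1092) (nat_lit 8968) (nat_lit 0) (XT.nd (nat_lit 546) (nat_lit 5320) (nat_lit 0) (XT.nd (nat_lit 234) (nat_lit 0) (nat_lit 76) (XT.nd (nat_lit 78) (nat_lit 1748) (nat_lit 0) (XT.lf (nat_lit 0) (nat_lit 14247807573) (nat_lit 1748) (nat_lit 46860462) (nat_lit 1824) (nat_lit 1523774773) (nat_lit 502) (nat_lit 5) (nat_lit 525) (nat_lit 5) (nat_lit 526) (nat_lit 5) (nat_lit 450) (nat_lit 441) (nat_lit 309)) (XT.nd (nat_lit 78) (nat_lit 1748) (nat_lit 0) (XT.lf (nat_lit 76) (nat_lit 12479452385) (nat_lit 0) (nat_lit 3493014393) (nat_lit 1824) (nat_lit 84949390) (nat_lit 503) (nat_lit 5) (nat_lit 502) (nat_lit 5) (nat_lit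 526) (nat_lit 5) (nat_lit 451) (nat_lit 441) (nat_lit 308)) (XT.lf (nat_lit 0) (nat_lit 1520402495) (nat_lit 1824) (nat_lit 7174330900) (nat_lit 1900) (nat_lit 7606757595) (nat_lit 479) (nat_lit 5) (nat_lit 503) (nat_lit 5) (nat_lit 504) (nat_lit 5) (nat_lit 452) (nat_lit 441) (nat_lit 307)))) (XT.nd (nat_lit 156) (nat_lit 0) (nat_lit 76) (XT.nd (nat_lit 78) (nat_lit 0) (nat_lit 0) (XT.lf (nat_lit 0) (nat_lit 3258657257) (nat_lit 1824) (nat_lit 10818013282) (nat_lit 1900) (nat_lit 2474489286) (nat_lit 480) (nat_lit 5) (nat_lit 504) (nat_lit 5) (nat_lit 505) (nat_lit 5) (nat_lit 453) (nat_lit 441) (nat_lit 306)) (XT.lf (nat_lit 76) (nat_lit 2278400427) (nat_lit 0) (nat_lit 2877450191) (nat_lit 1900) (nat_lit 11650333188) (nat_lit 481) (nat_lit 5) (nat_lit 480) (nat_lit 5) (nat_lit 505) (nat_lit 5) (nat_lit 454) (nat_lit 441) (nat_lit 305))) (XT.nd (nat_lit 78) (nat_lit 0) (nat_lit 76) (XT.lf (nat_lit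 0) (nat_lit 7225263643) (nat_lit 1824) (nat_lit 1220149325) (nat_lit 1900) (nat_lit 8621140335) (nat_lit 481) (nat_lit 5) (nat_lit 505) (nat_lit 5) (nat_lit 506) (nat_lit 5) (nat_lit 455) (nat_lit 441) (nat_lit 304)) (XT.lf (nat_lit 0) (nat_lit 9464310011) (nat_lit 1824) (nat_lit 4732124525) (nat_lit 1900) (nat_lit 3136149178) (nat_lit 482) (nat_lit 5) (nat_lit 506) (nat_lit 5) (nat_lit 507) (nat_lit 5) (nat_lit 456) (nat_lit 441) (nat_lit 303))))) (XT.nd (nat_lit 234) (nat_lit 2736) (nat_lit 0) (XT.nd (nat_lit 78) (nat_lit 2812) (nat_lit 0) (XT.lf (nat_lit 76) (nat_lit 9299783550) (nat_lit 0) (nat_lit 2582013313) (nat_lit 1900) (nat_lit 5722573617) (nat_lit 483) (nat_lit 5) (nat_lit 482) (nat_lit 5) (nat_lit 507) (nat_lit 5) (nat_lit 457) (nat_lit 441) (nat_lit 302)) (XT.nd (nat_lit 78) (nat_lit 1064) (nat_lit 0) (XT.lf (nat_lit 0) (nat_lit 5938815258) (nat_lit 1824) (nat_lit 8551169882) (nat_lit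 1900) (nat_lit 3391962973) (nat_lit 459) (nat_lit 5) (nat_lit 483) (nat_lit 5) (nat_lit 484) (nat_lit 5) (nat_lit 458) (nat_lit 441) (nat_lit 301)) (XT.lf (nat_lit 0) (nat_lit 2538371703) (nat_lit 1064) (nat_lit 14737158130) (nat_lit 1140) (nat_lit 890341804) (nat_lit 445) (nat_lit 5) (nat_lit 459) (nat_lit 5) (nat_lit 460) (nat_lit 5) (nat_lit 459) (nat_lit 441) (nat_lit 300)))) (XT.nd (nat_lit 156) (nat_lit 1748) (nat_lit 0) (XT.nd (nat_lit 78) (nat_lit 912) (nat_lit 0) (XT.lf (nat_lit 0) (nat_lit 1789851523) (nat_lit 1140) (nat_lit 919340641) (nat_lit 76) (nat_lit 15746389666) (nat_lit 444) (nat_lit 5) (nat_lit 459) (nat_lit 5) (nat_lit 445) (nat_lit 5) (nat_lit 460) (nat_lit 441) (nat_lit 299)) (XT.lf (nat_lit 0) (nat_lit 4682807847) (nat_lit 988) (nat_lit 4414206217) (nat_lit 76) (nat_lit 9653963210) (nat_lit 432) (nat_lit 5) (nat_lit 445) (nat_lit 5) (nat_lit 433) (nat_lit 5) (nat_lit 461) (nat_lit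 441) (nat_lit 298))) (XT.nd (nat_lit 78) (nat_lit 836) (nat_lit 0) (XT.lf (nat_lit 0) (nat_lit 7768765298) (nat_lit 988) (nat_lit 7951203017) (nat_lit 76) (nat_lit 3333142715) (nat_lit 420) (nat_lit 5) (nat_lit 433) (nat_lit 5) (nat_lit 421) (nat_lit 5) (nat_lit 462) (nat_lit 441) (nat_lit 297)) (XT.lf (nat_lit 0) (nat_lit 7810051055) (nat_lit 836) (nat_lit 3266863898) (nat_lit 912) (nat_lit 8284802253) (nat_lit 409) (nat_lit 5) (nat_lit 420) (nat_lit 5) (nat_lit 421) (nat_lit 5) (nat_lit 463) (nat_lit 441) (nat_lit 296)))))) (XT.nd (nat_lit 546) (nat_lit 4180) (nat_lit 0) (XT.nd (nat_lit 234) (nat_lit 3040) (nat_lit 0) (XT.nd (nat_lit 78) (nat_lit 912) (nat_lit 0) (XT.lf (nat_lit 0) (nat_lit 4458916356) (nat_lit 836) (nat_lit 10158887344) (nat_lit 912) (nat_lit 5059108631) (nat_lit 398) (nat_lit 5) (nat_lit 409) (nat_lit 5) (nat_lit 410) (nat_lit 5) (nat_lit 464) (nat_lit 441) (nat_lit 295)) (XT.nd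 (nat_lit 78) (nat_lit 76) (nat_lit 0) (XT.lf (nat_lit 0) (nat_lit 1070960175) (nat_lit 836) (nat_lit 17307066891) (nat_lit 912) (nat_lit 1621274723) (nat_lit 387) (nat_lit 5) (nat_lit 398) (nat_lit 5) (nat_lit 399) (nat_lit 5) (nat_lit 465) (nat_lit 441) (nat_lit 294)) (XT.lf (nat_lit 0) (nat_lit 2054951911) (nat_lit 912) (nat_lit 2365110899) (nat_lit 76) (nat_lit 15907842752) (nat_lit 386) (nat_lit 5) (nat_lit 398) (nat_lit 5) (nat_lit 387) (nat_lit 5) (nat_lit 466) (nat_lit 441) (nat_lit 293)))) (XT.nd (nat_lit 156) (nat_lit 1444) (nat_lit 0) (XT.nd (nat_lit 78) (nat_lit 760) (nat_lit 0) (XT.lf (nat_lit 0) (nat_lit 5963310919) (nat_lit 912) (nat_lit 5854742281) (nat_lit 76) (nat_lit 8845223059) (nat_lit 375) (nat_lit 5) (nat_lit 387) (nat_lit 5) (nat_lit 376) (nat_lit 5) (nat_lit 467) (nat_lit 441) (nat_lit 292)) (XT.lf (nat_lit 0) (nat_lit 10109365961) (nat_lit 836) (nat_lit 9383486997) (nat_lit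 76) (nat_lit 1513446785) (nat_lit 365) (nat_lit 5) (nat_lit 376) (nat_lit 5) (nat_lit 366) (nat_lit 5) (nat_lit 468) (nat_lit 441) (nat_lit 291))) (XT.nd (nat_lit 78) (nat_lit 684) (nat_lit 0) (XT.lf (nat_lit 0) (nat_lit 8365096931) (nat_lit 760) (nat_lit 6177490236) (nat_lit 836) (nat_lit 6813771631) (nat_lit 355) (nat_lit 5) (nat_lit 365) (nat_lit 5) (nat_lit 366) (nat_lit 5) (nat_lit 469) (nat_lit 441) (nat_lit 290)) (XT.lf (nat_lit 0) (nat_lit 5064650130) (nat_lit 684) (nat_lit 14179713338) (nat_lit 760) (nat_lit 2469845525) (nat_lit 346) (nat_lit 5) (nat_lit 355) (nat_lit 5) (nat_lit 356) (nat_lit 5) (nat_lit 470) (nat_lit 441) (nat_lit 289))))) (XT.nd (nat_lit 234) (nat_lit 2660) (nat_lit 0) (XT.nd (nat_lit 78) (nat_lit 684) (nat_lit 0) (XT.lf (nat_lit 0) (nat_lit 1715321078) (nat_lit 760) (nat_lit 393744783) (nat_lit 836) (nat_lit 19970849960) (nat_lit 335) (nat_lit 5) (nat_lit 345) (nat_lit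 5) (nat_lit 346) (nat_lit 5) (nat_lit 471) (nat_lit 441) (nat_lit 288)) (XT.nd (nat_lit 78) (nat_lit 684) (nat_lit 0) (XT.lf (nat_lit 0) (nat_lit 6985291936) (nat_lit 836) (nat_lit 1713494740) (nat_lit 76) (nat_lit 13753611104) (nat_lit 335) (nat_lit 5) (nat_lit 346) (nat_lit 5) (nat_lit 336) (nat_lit 5) (nat_lit 472) (nat_lit 441) (nat_lit 287)) (XT.lf (nat_lit 0) (nat_lit 12152213715) (nat_lit 760) (nat_lit 5154377425) (nat_lit 76) (nat_lit 5526575363) (nat_lit 326) (nat_lit 5) (nat_lit 336) (nat_lit 5) (nat_lit 327) (nat_lit 5) (nat_lit 473) (nat_lit 441) (nat_lit 286)))) (XT.nd (nat_lit 156) (nat_lit 1368) (nat_lit 0) (XT.nd (nat_lit 78) (nat_lit 608) (nat_lit 0) (XT.lf (nat_lit 0) (nat_lit 14573070923) (nat_lit 684) (nat_lit 3056145087) (nat_lit 760) (nat_lit 5593041292) (nat_lit 317) (nat_lit 5) (nat_lit 326) (nat_lit 5) (nat_lit 327) (nat_lit 5) (nat_lit 474) (nat_lit 441) (nat_lit 285)) (XT.lf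 (nat_lit 0) (nat_lit 11403471183) (nat_lit 608) (nat_lit 12042499182) (nat_lit 684) (nat_lit 173542074) (nat_lit 309) (nat_lit 5) (nat_lit 317) (nat_lit 5) (nat_lit 318) (nat_lit 5) (nat_lit 475) (nat_lit 441) (nat_lit 284))) (XT.nd (nat_lit 78) (nat_lit 608) (nat_lit 0) (XT.lf (nat_lit 0) (nat_lit 5478850530) (nat_lit 760) (nat_lit 15854094605) (nat_lit 76) (nat_lit 2692213366) (nat_lit 299) (nat_lit 5) (nat_lit 309) (nat_lit 5) (nat_lit 300) (nat_lit 5) (nat_lit 476) (nat_lit 441) (nat_lit 283)) (XT.lf (nat_lit 0) (nat_lit 4866354019) (nat_lit 608) (nat_lit 6618681825) (nat_lit 684) (nat_lit 12954184005) (nat_lit 291) (nat_lit 5) (nat_lit 299) (nat_lit 5) (nat_lit 300) (nat_lit 5) (nat_lit 477) (nat_lit 441) (nat_lit 282))))))))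
noncomputable def xc96 : XT := (XT.nd (nat_lit 59670) (nat_lit 0) (nat_lit 17860) (XT.nd (nat_lit 1014) (nat_lit 5320) (nat_lit 0) (XT.nd (nat_lit 468) (nat_lit 3116) (nat_lit 0) (XT.nd (nat_lit 234) (nat_lit 1748) (nat_lit 0) (XT.nd (nat_lit 78) (nat_lit 684) (nat_lit 0) (XT.lf (nat_lit 0) (nat_lit 1514711246) (nat_lit 608) (nat_lit 16321386061) (nat_lit 684) (nat_lit 7026312328) (nat_lit 283) (nat_lit 5) (nat_lit 291) (nat_lit 5) (nat_lit 292) (nat_lit 5) (nat_lit 478) (nat_lit 441) (nat_lit 281)) (XT.nd (nat_lit 78) (nat_lit 684) (nat_lit 0) (XT.lf (nat_lit 0) (nat_lit 23447268392) (nat_lit 608) (nat_lit 1098493627) (nat_lit 684) (nat_lit 749172066) (nat_lit 283) (nat_lit 5) (nat_lit 291) (nat_lit 5) (nat_lit 292) (nat_lit 5) (nat_lit 479) (nat_lit 441) (nat_lit 280)) (XT.lf (nat_lit 0) (nat_lit 5861980203) (nat_lit 684) (nat_lit 5314128802) (nat_lit 76) (nat_lit 14559170006) (nat_lit 274) (nat_lit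 5) (nat_lit 283) (nat_lit 5) (nat_lit 275) (nat_lit 5) (nat_lit 480) (nat_lit 441) (nat_lit 279)))) (XT.nd (nat_lit 78) (nat_lit 1140) (nat_lit 0) (XT.lf (nat_lit 0) (nat_lit 12816048623) (nat_lit 684) (nat_lit 8816184616) (nat_lit 76) (nat_lit 4553407174) (nat_lit 266) (nat_lit 5) (nat_lit 275) (nat_lit 5) (nat_lit 267) (nat_lit 5) (nat_lit 481) (nat_lit 441) (nat_lit 278)) (XT.nd (nat_lit 78) (nat_lit 608) (nat_lit 0) (XT.lf (nat_lit 0) (nat_lit 14259061484) (nat_lit 532) (nat_lit 5915224722) (nat_lit 608) (nat_lit 6471315866) (nat_lit 259) (nat_lit 5) (nat_lit 266) (nat_lit 5) (nat_lit 267) (nat_lit 5) (nat_lit 482) (nat_lit 441) (nat_lit 277)) (XT.lf (nat_lit 0) (nat_lit 817877148) (nat_lit 608) (nat_lit 16023843746) (nat_lit 76) (nat_lit 10273714058) (nat_lit 251) (nat_lit 5) (nat_lit 259) (nat_lit 5) (nat_lit 252) (nat_lit 5) (nat_lit 483) (nat_lit 441) (nat_lit 276))))) (XT.nd (nat_lit 234)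 (nat_lit 1596) (nat_lit 0) (XT.nd (nat_lit 78) (nat_lit 988) (nat_lit 0) (XT.lf (nat_lit 0) (nat_lit 7855191313) (nat_lit 532) (nat_lit 550427399) (nat_lit 608) (nat_lit 19189533075) (nat_lit 244) (nat_lit 5) (nat_lit 251) (nat_lit 5) (nat_lit 252) (nat_lit 5) (nat_lit 484) (nat_lit 441) (nat_lit 275)) (XT.nd (nat_lit 78) (nat_lit 456) (nat_lit 0) (XT.lf (nat_lit 0) (nat_lit 4525770047) (nat_lit 532) (nat_lit 11931666250) (nat_lit 608) (nat_lit 11627095277) (nat_lit 237) (nat_lit 5) (nat_lit 244) (nat_lit 5) (nat_lit 245) (nat_lit 5) (nat_lit 485) (nat_lit 441) (nat_lit 274)) (XT.lf (nat_lit 0) (nat_lit 1173388155) (nat_lit 456) (nat_lit 23746781394) (nat_lit 532) (nat_lit 3665036292) (nat_lit 231) (nat_lit 5) (nat_lit 237) (nat_lit 5) (nat_lit 238) (nat_lit 5) (nat_lit 486) (nat_lit 441) (nat_lit 273)))) (XT.nd (nat_lit 156) (nat_lit 988) (nat_lit 0) (XT.nd (nat_lit 78) (nat_lit 532) (nat_lit 0) (XT.lf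 (nat_lit 0) (nat_lit 4709512422) (nat_lit 532) (nat_lit 2248263589) (nat_lit 76) (nat_lit 22137873283) (nat_lit 230) (nat_lit 5) (nat_lit 237) (nat_lit 5) (nat_lit 231) (nat_lit 5) (nat_lit 487) (nat_lit 441) (nat_lit 272)) (XT.lf (nat_lit 0) (nat_lit 13502401924) (nat_lit 608) (nat_lit 5736367186) (nat_lit 76) (nat_lit 10377814755) (nat_lit 223) (nat_lit 5) (nat_lit 231) (nat_lit 5) (nat_lit 224) (nat_lit 5) (nat_lit 488) (nat_lit 441) (nat_lit 271))) (XT.nd (nat_lit 78) (nat_lit 532) (nat_lit 0) (XT.lf (nat_lit 0) (nat_lit 20887903917) (nat_lit 456) (nat_lit 1861625530) (nat_lit 532) (nat_lit 7399808277) (nat_lit 217) (nat_lit 5) (nat_lit 223) (nat_lit 5) (nat_lit 224) (nat_lit 5) (nat_lit 489) (nat_lit 441) (nat_lit 270)) (XT.lf (nat_lit 0) (nat_lit 1808981016) (nat_lit 532) (nat_lit 12893444797) (nat_lit 76) (nat_lit 15990370924) (nat_lit 210) (nat_lit 5) (nat_lit 217) (nat_lit 5) (nat_lit 211)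 (nat_lit 5) (nat_lit 490) (nat_lit 441) (nat_lit 269)))))) (XT.nd (nat_lit 546) (nat_lit 2660) (nat_lit 0) (XT.nd (nat_lit 234) (nat_lit 1368) (nat_lit 0) (XT.nd (nat_lit 78) (nat_lit 836) (nat_lit 0) (XT.lf (nat_lit 0) (nat_lit 11379600090) (nat_lit 532) (nat_lit 16602118288) (nat_lit 76) (nat_lit 3266141137) (nat_lit 204) (nat_lit 5) (nat_lit 211) (nat_lit 5) (nat_lit 205) (nat_lit 5) (nat_lit 491) (nat_lit 441) (nat_lit 268)) (XT.nd (nat_lit 78) (nat_lit 380) (nat_lit 0) (XT.lf (nat_lit 0) (nat_lit 11410773591) (nat_lit 456) (nat_lit 10080221549) (nat_lit 532) (nat_lit 10323506138) (nat_lit 198) (nat_lit 5) (nat_lit 204) (nat_lit 5) (nat_lit 205) (nat_lit 5) (nat_lit 492) (nat_lit 441) (nat_lit 267)) (XT.lf (nat_lit 0) (nat_lit 8137425419) (nat_lit 380) (nat_lit 23982068255) (nat_lit 456) (nat_lit 274373629) (nat_lit 193) (nat_lit 5) (nat_lit 198) (nat_lit 5) (nat_lit 199) (nat_lit 5) (nat_lit 493)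 (nat_lit 441) (nat_lit 266)))) (XT.nd (nat_lit 156) (nat_lit 456) (nat_lit 0) (XT.nd (nat_lit 78) (nat_lit 380) (nat_lit 0) (XT.lf (nat_lit 0) (nat_lit 4745111129) (nat_lit 456) (nat_lit 5429868145) (nat_lit 532) (nat_lit 22809708875) (nat_lit 186) (nat_lit 5) (nat_lit 192) (nat_lit 5) (nat_lit 193) (nat_lit 5) (nat_lit 494) (nat_lit 441) (nat_lit 265)) (XT.lf (nat_lit 0) (nat_lit 1274187279) (nat_lit 380) (nat_lit 19916070907) (nat_lit 456) (nat_lit 12397815923) (nat_lit 181) (nat_lit 5) (nat_lit 186) (nat_lit 5) (nat_lit 187) (nat_lit 5) (nat_lit 495) (nat_lit 441) (nat_lit 264))) (XT.nd (nat_lit 78) (nat_lit 456) (nat_lit 0) (XT.lf (nat_lit 0) (nat_lit 32013694649) (nat_lit 380) (nat_lit 743467761) (nat_lit 456) (nat_lit 1447976117) (nat_lit 181) (nat_lit 5) (nat_lit 186) (nat_lit 5) (nat_lit 187) (nat_lit 5) (nat_lit 496) (nat_lit 441) (nat_lit 263)) (XT.lf (nat_lit 0) (nat_lit 10009572997) (nat_lit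 456) (nat_lit 5816977276) (nat_lit 76) (nat_lit 19006725488) (nat_lit 175) (nat_lit 5) (nat_lit 181) (nat_lit 5) (nat_lit 176) (nat_lit 5) (nat_lit 497) (nat_lit 441) (nat_lit 262))))) (XT.nd (nat_lit 234) (nat_lit 1444) (nat_lit 0) (XT.nd (nat_lit 78) (nat_lit 836) (nat_lit 0) (XT.lf (nat_lit 0) (nat_lit 22000491365) (nat_lit 456) (nat_lit 9474990478) (nat_lit 76) (nat_lit 4000397745) (nat_lit 170) (nat_lit 5) (nat_lit 176) (nat_lit 5) (nat_lit 171) (nat_lit 5) (nat_lit 498) (nat_lit 441) (nat_lit 261)) (XT.nd (nat_lit 78) (nat_lit 456) (nat_lit 0) (XT.lf (nat_lit 0) (nat_lit 22901063389) (nat_lit 380) (nat_lit 11738352308) (nat_lit 456) (nat_lit 1492580461) (nat_lit 165) (nat_lit 5) (nat_lit 170) (nat_lit 5) (nat_lit 171) (nat_lit 5) (nat_lit 499) (nat_lit 441) (nat_lit 260)) (XT.lf (nat_lit 0) (nat_lit 10951928922) (nat_lit 456) (nat_lit 17109460814) (nat_lit 76) (nat_lit 8740107537) (nat_lit 159)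 (nat_lit 5) (nat_lit 165) (nat_lit 5) (nat_lit 160) (nat_lit 5) (nat_lit 500) (nat_lit 441) (nat_lit 259)))) (XT.nd (nat_lit 156) (nat_lit 760) (nat_lit 0) (XT.nd (nat_lit 78) (nat_lit 304) (nat_lit 0) (XT.lf (nat_lit 0) (nat_lit 16411671506) (nat_lit 380) (nat_lit 7607484417) (nat_lit 456) (nat_lit 13466337147) (nat_lit 154) (nat_lit 5) (nat_lit 159) (nat_lit 5) (nat_lit 160) (nat_lit 5) (nat_lit 501) (nat_lit 441) (nat_lit 258)) (XT.lf (nat_lit 0) (nat_lit 13059104602) (nat_lit 304) (nat_lit 24702510630) (nat_lit 380) (nat_lit 422729374) (nat_lit 150) (nat_lit 5) (nat_lit 154) (nat_lit 5) (nat_lit 155) (nat_lit 5) (nat_lit 502) (nat_lit 441) (nat_lit 257))) (XT.nd (nat_lit 78) (nat_lit 304) (nat_lit 0) (XT.lf (nat_lit 0) (nat_lit 9583679550) (nat_lit 380) (nat_lit 3509096421) (nat_lit 456) (nat_lit 25804671281) (nat_lit 144) (nat_lit 5) (nat_lit 149) (nat_lit 5) (nat_lit 150) (nat_lit 5) (nat_lit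 503) (nat_lit 441) (nat_lit 256)) (XT.lf (nat_lit 0) (nat_lit 5996159298) (nat_lit 304) (nat_lit 21335623196) (nat_lit 380) (nat_lit 12293629173) (nat_lit 140) (nat_lit 5) (nat_lit 144) (nat_lit 5) (nat_lit 145) (nat_lit 5) (nat_lit 504) (nat_lit 441) (nat_lit 255))))))) (XT.nd (nat_lit 1014) (nat_lit 7828) (nat_lit 0) (XT.nd (nat_lit 468) (nat_lit 1368) (nat_lit 0) (XT.nd (nat_lit 234) (nat_lit 0) (nat_lit 76) (XT.nd (nat_lit 78) (nat_lit 0) (nat_lit 0) (XT.lf (nat_lit 0) (nat_lit 1435613056) (nat_lit 0) (nat_lit 1435613056) (nat_lit 1748) (nat_lit 4268031531) (nat_lit 496) (nat_lit 5) (nat_lit 496) (nat_lit 3) (nat_lit 519) (nat_lit 3) (nat_lit 442) (nat_lit 442) (nat_lit 316)) (XT.nd (nat_lit 78) (nat_lit 0) (nat_lit 76) (XT.lf (nat_lit 0) (nat_lit 6369607937) (nat_lit 1748) (nat_lit 830014022) (nat_lit 1824) (nat_lit 7282219973) (nat_lit 496) (nat_lit 5) (nat_lit 519) (nat_lit 3) (nat_lit 520)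 (nat_lit 5) (nat_lit 443) (nat_lit 442) (nat_lit 315)) (XT.lf (nat_lit 0) (nat_lit 7101662216) (nat_lit 1748) (nat_lit 4541320684) (nat_lit 1824) (nat_lit 3046564994) (nat_lit 497) (nat_lit 5) (nat_lit 520) (nat_lit 5) (nat_lit 521) (nat_lit 5) (nat_lit 444) (nat_lit 442) (nat_lit 314)))) (XT.nd (nat_lit 78) (nat_lit 0) (nat_lit 76) (XT.lf (nat_lit 76) (nat_lit 6591732492) (nat_lit 0) (nat_lit 1341921452) (nat_lit 1824) (nat_lit 6968272739) (nat_lit 498) (nat_lit 5) (nat_lit 497) (nat_lit 5) (nat_lit 521) (nat_lit 5) (nat_lit 445) (nat_lit 442) (nat_lit 313)) (XT.nd (nat_lit 78) (nat_lit 0) (nat_lit 76) (XT.lf (nat_lit 76) (nat_lit 2968848530) (nat_lit 0) (nat_lit 5914082573) (nat_lit 1824) (nat_lit 6235900350) (nat_lit 499) (nat_lit 5) (nat_lit 498) (nat_lit 5) (nat_lit 522) (nat_lit 5) (nat_lit 446) (nat_lit 442) (nat_lit 312)) (XT.lf (nat_lit 0) (nat_lit 9939255795) (nat_lit 1748) (nat_lit 691772743)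 (nat_lit 1824) (nat_lit 4709644537) (nat_lit 499) (nat_lit 5) (nat_lit 522) (nat_lit 5) (nat_lit 523) (nat_lit 5) (nat_lit 447) (nat_lit 442) (nat_lit 311))))) (XT.nd (nat_lit 234) (nat_lit 1672) (nat_lit 0) (XT.nd (nat_lit 78) (nat_lit 0) (nat_lit 0) (XT.lf (nat_lit 0) (nat_lit 11123050370) (nat_lit 1748) (nat_lit 4360700582) (nat_lit 1824) (nat_lit 83504459) (nat_lit 500) (nat_lit 5) (nat_lit 523) (nat_lit 5) (nat_lit 524) (nat_lit 5) (nat_lit 448) (nat_lit 442) (nat_lit 310)) (XT.nd (nat_lit 78) (nat_lit 0) (nat_lit 76) (XT.lf (nat_lit 76) (nat_lit 7689780727) (nat_lit 0) (nat_lit 4761706516) (nat_lit 1824) (nat_lit 3346966437) (nat_lit 501) (nat_lit 5) (nat_lit 500) (nat_lit 5) (nat_lit 524) (nat_lit 5) (nat_lit 449) (nat_lit 442) (nat_lit 309)) (XT.lf (nat_lit 76) (nat_lit 4127728277) (nat_lit 0) (nat_lit 9773221393) (nat_lit 1824) (nat_lit 2134015782) (nat_lit 502) (nat_lit 5) (nat_lit 501) (nat_lit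 5) (nat_lit 525) (nat_lit 5) (nat_lit 450) (nat_lit 442) (nat_lit 308)))) (XT.nd (nat_lit 156) (nat_lit 0) (nat_lit 76) (XT.nd (nat_lit 78) (nat_lit 1824) (nat_lit 0) (XT.lf (nat_lit 76) (nat_lit 520231007) (nat_lit 0) (nat_lit 14956529748) (nat_lit 1824) (nat_lit 800155501) (nat_lit 503) (nat_lit 5) (nat_lit 502) (nat_lit 5) (nat_lit 526) (nat_lit 5) (nat_lit 451) (nat_lit 442) (nat_lit 307)) (XT.lf (nat_lit 0) (nat_lit 697334610) (nat_lit 1824) (nat_lit 3121710907) (nat_lit 1900) (nat_lit 12704383726) (nat_lit 478) (nat_lit 5) (nat_lit 502) (nat_lit 5) (nat_lit 503) (nat_lit 5) (nat_lit 452) (nat_lit 442) (nat_lit 306))) (XT.nd (nat_lit 78) (nat_lit 0) (nat_lit 76) (XT.lf (nat_lit 0) (nat_lit 2329102810) (nat_lit 1824) (nat_lit 6818969576) (nat_lit 1900) (nat_lit 7627155866) (nat_lit 479) (nat_lit 5) (nat_lit 503) (nat_lit 5) (nat_lit 504) (nat_lit 5) (nat_lit 453) (nat_lit 442) (nat_lit 305)) (XT.lf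 (nat_lit 0) (nat_lit 4099734617) (nat_lit 1824) (nat_lit 10565095805) (nat_lit 1900) (nat_lit 2367953473) (nat_lit 480) (nat_lit 5) (nat_lit 504) (nat_lit 5) (nat_lit 505) (nat_lit 5) (nat_lit 454) (nat_lit 442) (nat_lit 304)))))) (XT.nd (nat_lit 546) (nat_lit 5244) (nat_lit 0) (XT.nd (nat_lit 234) (nat_lit 2736) (nat_lit 0) (XT.nd (nat_lit 78) (nat_lit 0) (nat_lit 76) (XT.lf (nat_lit 76) (nat_lit 2914841748) (nat_lit 0) (nat_lit 3121040415) (nat_lit 1900) (nat_lit 11259936957) (nat_lit 481) (nat_lit 5) (nat_lit 480) (nat_lit 5) (nat_lit 505) (nat_lit 5) (nat_lit 455) (nat_lit 442) (nat_lit 303)) (XT.nd (nat_lit 78) (nat_lit 0) (nat_lit 76) (XT.lf (nat_lit 0) (nat_lit 8145259365) (nat_lit 1824) (nat_lit 690093039) (nat_lit 1900) (nat_lit 8729090916) (nat_lit 481) (nat_lit 5) (nat_lit 505) (nat_lit 5) (nat_lit 506) (nat_lit 5) (nat_lit 456) (nat_lit 442) (nat_lit 302)) (XT.lf (nat_lit 0) (nat_lit 10433776966)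 (nat_lit 1824) (nat_lit 4302015843) (nat_lit 1900) (nat_lit 3103017057) (nat_lit 482) (nat_lit 5) (nat_lit 506) (nat_lit 5) (nat_lit 507) (nat_lit 5) (nat_lit 457) (nat_lit 442) (nat_lit 301)))) (XT.nd (nat_lit 156) (nat_lit 1140) (nat_lit 0) (XT.nd (nat_lit 78) (nat_lit 1748) (nat_lit 0) (XT.lf (nat_lit 76) (nat_lit 10141568279) (nat_lit 0) (nat_lit 2765907043) (nat_lit 1900) (nat_lit 5211602358) (nat_lit 483) (nat_lit 5) (nat_lit 482) (nat_lit 5) (nat_lit 507) (nat_lit 5) (nat_lit 458) (nat_lit 442) (nat_lit 300)) (XT.lf (nat_lit 0) (nat_lit 6684526272) (nat_lit 1824) (nat_lit 8892904978) (nat_lit 1900) (nat_lit 2827882100) (nat_lit 459) (nat_lit 5) (nat_lit 483) (nat_lit 5) (nat_lit 484) (nat_lit 5) (nat_lit 459) (nat_lit 442) (nat_lit 299))) (XT.nd (nat_lit 78) (nat_lit 76) (nat_lit 0) (XT.lf (nat_lit 0) (nat_lit 3186286627) (nat_lit 1064) (nat_lit 15244418827) (nat_lit 1140) (nat_lit 267366977)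 (nat_lit 445) (nat_lit 5) (nat_lit 459) (nat_lit 5) (nat_lit 460) (nat_lit 5) (nat_lit 460) (nat_lit 442) (nat_lit 298)) (XT.lf (nat_lit 0) (nat_lit 2466036724) (nat_lit 1140) (nat_lit 383502470) (nat_lit 76) (nat_lit 16147224926) (nat_lit 444) (nat_lit 5) (nat_lit 459) (nat_lit 5) (nat_lit 445) (nat_lit 5) (nat_lit 461) (nat_lit 442) (nat_lit 297))))) (XT.nd (nat_lit 234) (nat_lit 2584) (nat_lit 0) (XT.nd (nat_lit 78) (nat_lit 1748) (nat_lit 0) (XT.lf (nat_lit 0) (nat_lit 5430901182) (nat_lit 988) (nat_lit 3979812788) (nat_lit 76) (nat_lit 9890606099) (nat_lit 432) (nat_lit 5) (nat_lit 445) (nat_lit 5) (nat_lit 433) (nat_lit 5) (nat_lit 462) (nat_lit 442) (nat_lit 296)) (XT.nd (nat_lit 78) (nat_lit 836) (nat_lit 0) (XT.lf (nat_lit 0) (nat_lit 8595127325) (nat_lit 988) (nat_lit 7619978340) (nat_lit 76) (nat_lit 3397699374) (nat_lit 420) (nat_lit 5) (nat_lit 433) (nat_lit 5) (nat_lit 421) (nat_lit 5)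 (nat_lit 463) (nat_lit 442) (nat_lit 295)) (XT.lf (nat_lit 0) (nat_lit 8604869663) (nat_lit 836) (nat_lit 3384010500) (nat_lit 912) (nat_lit 7942063034) (nat_lit 409) (nat_lit 5) (nat_lit 420) (nat_lit 5) (nat_lit 421) (nat_lit 5) (nat_lit 464) (nat_lit 442) (nat_lit 294)))) (XT.nd (nat_lit 156) (nat_lit 912) (nat_lit 0) (XT.nd (nat_lit 78) (nat_lit 836) (nat_lit 0) (XT.lf (nat_lit 0) (nat_lit 5155666371) (nat_lit 836) (nat_lit 10466980566) (nat_lit 912) (nat_lit 4633215154) (nat_lit 398) (nat_lit 5) (nat_lit 409) (nat_lit 5) (nat_lit 410) (nat_lit 5) (nat_lit 465) (nat_lit 442) (nat_lit 293)) (XT.lf (nat_lit 0) (nat_lit 1668132376) (nat_lit 836) (nat_lit 17814697855) (nat_lit 912) (nat_lit 1105350853) (nat_lit 387) (nat_lit 5) (nat_lit 398) (nat_lit 5) (nat_lit 399) (nat_lit 5) (nat_lit 466) (nat_lit 442) (nat_lit 292))) (XT.nd (nat_lit 78) (nat_lit 836) (nat_lit 0) (XT.lf (nat_lit 0) (nat_lit 2657530350)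 (nat_lit 912) (nat_lit 1880260689) (nat_lit 76) (nat_lit 16389104050) (nat_lit 386) (nat_lit 5) (nat_lit 398) (nat_lit 5) (nat_lit 387) (nat_lit 5) (nat_lit 467) (nat_lit 442) (nat_lit 291)) (XT.lf (nat_lit 0) (nat_lit 6671052256) (nat_lit 912) (nat_lit 5473112841) (nat_lit 76) (nat_lit 9128404413) (nat_lit 375) (nat_lit 5) (nat_lit 387) (nat_lit 5) (nat_lit 376) (nat_lit 5) (nat_lit 468) (nat_lit 442) (nat_lit 290))))))))
noncomputable def xc97 : XT := (XT.nd (nat_lit 2106) (nat_lit 3192) (nat_lit 0) (XT.nd (nat_lit 1014) (nat_lit 6688) (nat_lit 0) (XT.nd (nat_lit 468) (nat_lit 3952) (nat_lit 0) (XT.nd (nat_lit 234) (nat_lit 1520) (nat_lit 0) (XT.nd (nat_lit 78) (nat_lit 1444) (nat_lit 0) (XT.lf (nat_lit 0) (nat_lit 10929848042) (nat_lit 836) (nat_lit 9106596410) (nat_lit 76) (nat_lit 1589672887) (nat_lit 365) (nat_lit 5) (nat_lit 376) (nat_lit 5) (nat_lit 366) (nat_lit 5) (nat_lit 469) (nat_lit 442)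 (nat_lit 289)) (XT.nd (nat_lit 78) (nat_lit 684) (nat_lit 0) (XT.lf (nat_lit 0) (nat_lit 9165385738) (nat_lit 760) (nat_lit 6319182690) (nat_lit 836) (nat_lit 6502340484) (nat_lit 355) (nat_lit 5) (nat_lit 365) (nat_lit 5) (nat_lit 366) (nat_lit 5) (nat_lit 470) (nat_lit 442) (nat_lit 288)) (XT.lf (nat_lit 0) (nat_lit 5766710647) (nat_lit 684) (nat_lit 14549804927) (nat_lit 760) (nat_lit 2039197462) (nat_lit 346) (nat_lit 5) (nat_lit 355) (nat_lit 5) (nat_lit 356) (nat_lit 5) (nat_lit 471) (nat_lit 442) (nat_lit 287)))) (XT.nd (nat_lit 78) (nat_lit 684) (nat_lit 0) (XT.lf (nat_lit 0) (nat_lit 2314513953) (nat_lit 760) (nat_lit 344995304) (nat_lit 836) (nat_lit 20073036049) (nat_lit 335) (nat_lit 5) (nat_lit 345) (nat_lit 5) (nat_lit 346) (nat_lit 5) (nat_lit 472) (nat_lit 442) (nat_lit 286)) (XT.nd (nat_lit 78) (nat_lit 684) (nat_lit 0) (XT.lf (nat_lit 0) (nat_lit 7668214411) (nat_lit 836) (nat_lit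 1224018006) (nat_lit 76) (nat_lit 14224246178) (nat_lit 335) (nat_lit 5) (nat_lit 346) (nat_lit 5) (nat_lit 336) (nat_lit 5) (nat_lit 473) (nat_lit 442) (nat_lit 285)) (XT.lf (nat_lit 0) (nat_lit 12980259820) (nat_lit 760) (nat_lit 4768067039) (nat_lit 76) (nat_lit 5760541895) (nat_lit 326) (nat_lit 5) (nat_lit 336) (nat_lit 5) (nat_lit 327) (nat_lit 5) (nat_lit 474) (nat_lit 442) (nat_lit 284))))) (XT.nd (nat_lit 234) (nat_lit 1900) (nat_lit 0) (XT.nd (nat_lit 78) (nat_lit 1368) (nat_lit 0) (XT.lf (nat_lit 0) (nat_lit 15542428623) (nat_lit 684) (nat_lit 3069099325) (nat_lit 760) (nat_lit 5298305888) (nat_lit 317) (nat_lit 5) (nat_lit 326) (nat_lit 5) (nat_lit 327) (nat_lit 5) (nat_lit 475) (nat_lit 442) (nat_lit 283)) (XT.nd (nat_lit 78) (nat_lit 684) (nat_lit 0) (XT.lf (nat_lit 0) (nat_lit 270737894) (nat_lit 684) (nat_lit 12043425632) (nat_lit 76) (nat_lit 12004993265) (nat_lit 308) (nat_lit 5)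 (nat_lit 317) (nat_lit 5) (nat_lit 309) (nat_lit 5) (nat_lit 476) (nat_lit 442) (nat_lit 282)) (XT.lf (nat_lit 0) (nat_lit 6081365468) (nat_lit 760) (nat_lit 15792331736) (nat_lit 76) (nat_lit 2863432293) (nat_lit 299) (nat_lit 5) (nat_lit 309) (nat_lit 5) (nat_lit 300) (nat_lit 5) (nat_lit 477) (nat_lit 442) (nat_lit 281)))) (XT.nd (nat_lit 156) (nat_lit 684) (nat_lit 0) (XT.nd (nat_lit 78) (nat_lit 608) (nat_lit 0) (XT.lf (nat_lit 0) (nat_lit 5541011902) (nat_lit 608) (nat_lit 6717395264) (nat_lit 684) (nat_lit 12905392708) (nat_lit 291) (nat_lit 5) (nat_lit 299) (nat_lit 5) (nat_lit 300) (nat_lit 5) (nat_lit 478) (nat_lit 442) (nat_lit 280)) (XT.lf (nat_lit 0) (nat_lit 2088062194) (nat_lit 608) (nat_lit 16703505300) (nat_lit 684) (nat_lit 6808287107) (nat_lit 283) (nat_lit 5) (nat_lit 291) (nat_lit 5) (nat_lit 292) (nat_lit 5) (nat_lit 479) (nat_lit 442) (nat_lit 279))) (XT.nd (nat_lit 78) (nat_lit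 684) (nat_lit 0) (XT.lf (nat_lit 0) (nat_lit 24663220046) (nat_lit 608) (nat_lit 1027057811) (nat_lit 684) (nat_lit 355322383) (nat_lit 283) (nat_lit 5) (nat_lit 291) (nat_lit 5) (nat_lit 292) (nat_lit 5) (nat_lit 480) (nat_lit 442) (nat_lit 278)) (XT.lf (nat_lit 0) (nat_lit 6440743386) (nat_lit 684) (nat_lit 4956579492) (nat_lit 76) (nat_lit 15101938335) (nat_lit 274) (nat_lit 5) (nat_lit 283) (nat_lit 5) (nat_lit 275) (nat_lit 5) (nat_lit 481) (nat_lit 442) (nat_lit 277)))))) (XT.nd (nat_lit 546) (nat_lit 3344) (nat_lit 0) (XT.nd (nat_lit 234) (nat_lit 1596) (nat_lit 0) (XT.nd (nat_lit 78) (nat_lit 1140) (nat_lit 0) (XT.lf (nat_lit 0) (nat_lit 13595741785) (nat_lit 684) (nat_lit 8564918184) (nat_lit 76) (nat_lit 4802627856) (nat_lit 266) (nat_lit 5) (nat_lit 275) (nat_lit 5) (nat_lit 267) (nat_lit 5) (nat_lit 482) (nat_lit 442) (nat_lit 276)) (XT.nd (nat_lit 78) (nat_lit 608) (nat_lit 0) (XT.lf (nat_lit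 0) (nat_lit 15194217835) (nat_lit 532) (nat_lit 5972291917) (nat_lit 608) (nat_lit 6270703429) (nat_lit 259) (nat_lit 5) (nat_lit 266) (nat_lit 5) (nat_lit 267) (nat_lit 5) (nat_lit 483) (nat_lit 442) (nat_lit 275)) (XT.lf (nat_lit 0) (nat_lit 1224712348) (nat_lit 608) (nat_lit 15993447340) (nat_lit 76) (nat_lit 10703076102) (nat_lit 251) (nat_lit 5) (nat_lit 259) (nat_lit 5) (nat_lit 252) (nat_lit 5) (nat_lit 484) (nat_lit 442) (nat_lit 274)))) (XT.nd (nat_lit 156) (nat_lit 532) (nat_lit 0) (XT.nd (nat_lit 78) (nat_lit 532) (nat_lit 0) (XT.lf (nat_lit 0) (nat_lit 8593666591) (nat_lit 532) (nat_lit 438549288) (nat_lit 608) (nat_lit 19383286131) (nat_lit 244) (nat_lit 5) (nat_lit 251) (nat_lit 5) (nat_lit 252) (nat_lit 5) (nat_lit 485) (nat_lit 442) (nat_lit 273)) (XT.lf (nat_lit 0) (nat_lit 5162767545) (nat_lit 532) (nat_lit 12155978359) (nat_lit 608) (nat_lit 11600954586) (nat_lit 237) (nat_lit 5)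 (nat_lit 244) (nat_lit 5) (nat_lit 245) (nat_lit 5) (nat_lit 486) (nat_lit 442) (nat_lit 272))) (XT.nd (nat_lit 78) (nat_lit 76) (nat_lit 0) (XT.lf (nat_lit 0) (nat_lit 1708076347) (nat_lit 456) (nat_lit 24320663796) (nat_lit 532) (nat_lit 3406787708) (nat_lit 231) (nat_lit 5) (nat_lit 237) (nat_lit 5) (nat_lit 238) (nat_lit 5) (nat_lit 487) (nat_lit 442) (nat_lit 271)) (XT.lf (nat_lit 0) (nat_lit 5203584850) (nat_lit 532) (nat_lit 1826070607) (nat_lit 76) (nat_lit 22931793435) (nat_lit 230) (nat_lit 5) (nat_lit 237) (nat_lit 5) (nat_lit 231) (nat_lit 5) (nat_lit 488) (nat_lit 442) (nat_lit 270))))) (XT.nd (nat_lit 234) (nat_lit 1824) (nat_lit 0) (XT.nd (nat_lit 78) (nat_lit 988) (nat_lit 0) (XT.lf (nat_lit 0) (nat_lit 14253996560) (nat_lit 608) (nat_lit 5420718020) (nat_lit 76) (nat_lit 10823422621) (nat_lit 223) (nat_lit 5) (nat_lit 231) (nat_lit 5) (nat_lit 224) (nat_lit 5) (nat_lit 489) (nat_lit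 442) (nat_lit 269)) (XT.nd (nat_lit 78) (nat_lit 532) (nat_lit 0) (XT.lf (nat_lit 0) (nat_lit 21994368211) (nat_lit 456) (nat_lit 1777192163) (nat_lit 532) (nat_lit 7275453252) (nat_lit 217) (nat_lit 5) (nat_lit 223) (nat_lit 5) (nat_lit 224) (nat_lit 5) (nat_lit 490) (nat_lit 442) (nat_lit 268)) (XT.lf (nat_lit 0) (nat_lit 2199114883) (nat_lit 532) (nat_lit 12797931632) (nat_lit 76) (nat_lit 16609804150) (nat_lit 210) (nat_lit 5) (nat_lit 217) (nat_lit 5) (nat_lit 211) (nat_lit 5) (nat_lit 491) (nat_lit 442) (nat_lit 267)))) (XT.nd (nat_lit 156) (nat_lit 912) (nat_lit 0) (XT.nd (nat_lit 78) (nat_lit 456) (nat_lit 0) (XT.lf (nat_lit 0) (nat_lit 12051094354) (nat_lit 532) (nat_lit 16620038341) (nat_lit 76) (nat_lit 3507548164) (nat_lit 204) (nat_lit 5) (nat_lit 211) (nat_lit 5) (nat_lit 205) (nat_lit 5) (nat_lit 492) (nat_lit 442) (nat_lit 266)) (XT.lf (nat_lit 0) (nat_lit 12225450537) (nat_lit 456)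 (nat_lit 10233832807) (nat_lit 532) (nat_lit 10303169847) (nat_lit 198) (nat_lit 5) (nat_lit 204) (nat_lit 5) (nat_lit 205) (nat_lit 5) (nat_lit 493) (nat_lit 442) (nat_lit 265))) (XT.nd (nat_lit 78) (nat_lit 456) (nat_lit 0) (XT.lf (nat_lit 0) (nat_lit 41344395) (nat_lit 456) (nat_lit 24507915144) (nat_lit 76) (nat_lit 8810044243) (nat_lit 192) (nat_lit 5) (nat_lit 198) (nat_lit 5) (nat_lit 193) (nat_lit 5) (nat_lit 494) (nat_lit 442) (nat_lit 264)) (XT.lf (nat_lit 0) (nat_lit 5354153267) (nat_lit 456) (nat_lit 5440020797) (nat_lit 532) (nat_lit 23173764769) (nat_lit 186) (nat_lit 5) (nat_lit 192) (nat_lit 5) (nat_lit 193) (nat_lit 5) (nat_lit 495) (nat_lit 442) (nat_lit 263))))))) (XT.nd (nat_lit 58734) (nat_lit 0) (nat_lit 22800) (XT.nd (nat_lit 546) (nat_lit 760) (nat_lit 0) (XT.nd (nat_lit 234) (nat_lit 1596) (nat_lit 0) (XT.nd (nat_lit 78) (nat_lit 456) (nat_lit 0) (XT.lf (nat_lit 0) (nat_lit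 1776742520) (nat_lit 380) (nat_lit 20358002346) (nat_lit 456) (nat_lit 12454785159) (nat_lit 181) (nat_lit 5) (nat_lit 186) (nat_lit 5) (nat_lit 187) (nat_lit 5) (nat_lit 496) (nat_lit 442) (nat_lit 262)) (XT.nd (nat_lit 78) (nat_lit 456) (nat_lit 0) (XT.lf (nat_lit 0) (nat_lit 33424910948) (nat_lit 380) (nat_lit 614751708) (nat_lit 456) (nat_lit 1185623904) (nat_lit 181) (nat_lit 5) (nat_lit 186) (nat_lit 5) (nat_lit 187) (nat_lit 5) (nat_lit 497) (nat_lit 442) (nat_lit 261)) (XT.lf (nat_lit 0) (nat_lit 10606740528) (nat_lit 456) (nat_lit 5539095553) (nat_lit 76) (nat_lit 19726490432) (nat_lit 175) (nat_lit 5) (nat_lit 181) (nat_lit 5) (nat_lit 176) (nat_lit 5) (nat_lit 498) (nat_lit 442) (nat_lit 260)))) (XT.nd (nat_lit 156) (nat_lit 836) (nat_lit 0) (XT.nd (nat_lit 78) (nat_lit 380) (nat_lit 0) (XT.lf (nat_lit 0) (nat_lit 22952628424) (nat_lit 456) (nat_lit 9309355982) (nat_lit 76) (nat_lit 4272319498)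 (nat_lit 170) (nat_lit 5) (nat_lit 176) (nat_lit 5) (nat_lit 171) (nat_lit 5) (nat_lit 499) (nat_lit 442) (nat_lit 259)) (XT.lf (nat_lit 0) (nat_lit 24030680665) (nat_lit 380) (nat_lit 11934404961) (nat_lit 456) (nat_lit 1245131322) (nat_lit 165) (nat_lit 5) (nat_lit 170) (nat_lit 5) (nat_lit 171) (nat_lit 5) (nat_lit 500) (nat_lit 442) (nat_lit 258))) (XT.nd (nat_lit 78) (nat_lit 380) (nat_lit 0) (XT.lf (nat_lit 0) (nat_lit 11564347446) (nat_lit 456) (nat_lit 17178909496) (nat_lit 76) (nat_lit 9156599140) (nat_lit 159) (nat_lit 5) (nat_lit 165) (nat_lit 5) (nat_lit 160) (nat_lit 5) (nat_lit 501) (nat_lit 442) (nat_lit 257)) (XT.lf (nat_lit 0) (nat_lit 17340656095) (nat_lit 380) (nat_lit 7677502296) (nat_lit 456) (nat_lit 13586322279) (nat_lit 154) (nat_lit 5) (nat_lit 159) (nat_lit 5) (nat_lit 160) (nat_lit 5) (nat_lit 502) (nat_lit 442) (nat_lit 256))))) (XT.nd (nat_lit 57876) (nat_lit 0) (nat_lit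 26752) (XT.nd (nat_lit 78) (nat_lit 456) (nat_lit 0) (XT.lf (nat_lit 0) (nat_lit 13884904500) (nat_lit 304) (nat_lit 25283692687) (nat_lit 380) (nat_lit 155786703) (nat_lit 150) (nat_lit 5) (nat_lit 154) (nat_lit 5) (nat_lit 155) (nat_lit 5) (nat_lit 503) (nat_lit 442) (nat_lit 255)) (XT.nd (nat_lit 57720) (nat_lit 0) (nat_lit 26752) (XT.lf (nat_lit 0) (nat_lit 10301791043) (nat_lit 380) (nat_lit 3454483592) (nat_lit 456) (nat_lit 26302673746) (nat_lit 144) (nat_lit 5) (nat_lit 149) (nat_lit 5) (nat_lit 150) (nat_lit 5) (nat_lit 504) (nat_lit 442) (nat_lit 254)) (XT.lf (nat_lit 0) (nat_lit 1722866205) (nat_lit 0) (nat_lit 1722866205) (nat_lit 1748) (nat_lit 3897905160) (nat_lit 496) (nat_lit 5) (nat_lit 496) (nat_lit 3) (nat_lit 519) (nat_lit 3) (nat_lit 443) (nat_lit 443) (nat_lit 314)))) (XT.nd (nat_lit 156) (nat_lit 0) (nat_lit 76) (XT.nd (nat_lit 78) (nat_lit 0) (nat_lit 76) (XT.lf (nat_lit 0)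 (nat_lit 7505908029) (nat_lit 1748) (nat_lit 358665959) (nat_lit 1824) (nat_lit 7032759911) (nat_lit 496) (nat_lit 5) (nat_lit 519) (nat_lit 3) (nat_lit 520) (nat_lit 5) (nat_lit 444) (nat_lit 443) (nat_lit 313)) (XT.lf (nat_lit 0) (nat_lit 8232754122) (nat_lit 1748) (nat_lit 4168079432) (nat_lit 1824) (nat_lit 2710982604) (nat_lit 497) (nat_lit 5) (nat_lit 520) (nat_lit 5) (nat_lit 521) (nat_lit 5) (nat_lit 445) (nat_lit 443) (nat_lit 312))) (XT.nd (nat_lit 78) (nat_lit 0) (nat_lit 76) (XT.lf (nat_lit 76) (nat_lit 7290699618) (nat_lit 0) (nat_lit 1775521116) (nat_lit 1824) (nat_lit 6264816943) (nat_lit 498) (nat_lit 5) (nat_lit 497) (nat_lit 5) (nat_lit 521) (nat_lit 5) (nat_lit 446) (nat_lit 443) (nat_lit 311)) (XT.lf (nat_lit 76) (nat_lit 3571165561) (nat_lit 0) (nat_lit 6447608499) (nat_lit 1824) (nat_lit 5536181193) (nat_lit 499) (nat_lit 5) (nat_lit 498) (nat_lit 5) (nat_lit 522) (nat_lit 5)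 (nat_lit 447) (nat_lit 443) (nat_lit 310)))))) (XT.nd (nat_lit 546) (nat_lit 2584) (nat_lit 0) (XT.nd (nat_lit 234) (nat_lit 1596) (nat_lit 0) (XT.nd (nat_lit 78) (nat_lit 0) (nat_lit 0) (XT.lf (nat_lit 0) (nat_lit 11079222755) (nat_lit 1748) (nat_lit 195045558) (nat_lit 1824) (nat_lit 4509736701) (nat_lit 499) (nat_lit 5) (nat_lit 522) (nat_lit 5) (nat_lit 523) (nat_lit 5) (nat_lit 448) (nat_lit 443) (nat_lit 309)) (XT.nd (nat_lit 78) (nat_lit 0) (nat_lit 76) (XT.lf (nat_lit 76) (nat_lit 12052413507) (nat_lit 0) (nat_lit 224338989) (nat_lit 1824) (nat_lit 3741069425) (nat_lit 500) (nat_lit 5) (nat_lit 499) (nat_lit 5) (nat_lit 523) (nat_lit 5) (nat_lit 449) (nat_lit 443) (nat_lit 308)) (XT.lf (nat_lit 76) (nat_lit 8439484699) (nat_lit 0) (nat_lit 5183629600) (nat_lit 1824) (nat_lit 2633281886) (nat_lit 501) (nat_lit 5) (nat_lit 500) (nat_lit 5) (nat_lit 524) (nat_lit 5) (nat_lit 450) (nat_lit 443)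 (nat_lit 307)))) (XT.nd (nat_lit 156) (nat_lit 1748) (nat_lit 0) (XT.nd (nat_lit 78) (nat_lit 0) (nat_lit 76) (XT.lf (nat_lit 76) (nat_lit 4779684214) (nat_lit 0) (nat_lit 10314801052) (nat_lit 1824) (nat_lit 1405950992) (nat_lit 502) (nat_lit 5) (nat_lit 501) (nat_lit 5) (nat_lit 525) (nat_lit 5) (nat_lit 451) (nat_lit 443) (nat_lit 306)) (XT.lf (nat_lit 76) (nat_lit 1072305764) (nat_lit 0) (nat_lit 15624565616) (nat_lit 1824) (nat_lit 53189590) (nat_lit 503) (nat_lit 5) (nat_lit 502) (nat_lit 5) (nat_lit 526) (nat_lit 5) (nat_lit 452) (nat_lit 443) (nat_lit 305))) (XT.nd (nat_lit 78) (nat_lit 0) (nat_lit 76) (XT.lf (nat_lit 0) (nat_lit 1456952859) (nat_lit 1824) (nat_lit 2684658401) (nat_lit 1900) (nat_lit 12862702523) (nat_lit 478) (nat_lit 5) (nat_lit 502) (nat_lit 5) (nat_lit 503) (nat_lit 5) (nat_lit 453) (nat_lit 443) (nat_lit 304)) (XT.lf (nat_lit 0) (nat_lit 3118259747) (nat_lit 1824) (nat_lit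 6485701685) (nat_lit 1900) (nat_lit 7660094911) (nat_lit 479) (nat_lit 5) (nat_lit 503) (nat_lit 5) (nat_lit 504) (nat_lit 5) (nat_lit 454) (nat_lit 443) (nat_lit 303))))) (XT.nd (nat_lit 234) (nat_lit 2736) (nat_lit 0) (XT.nd (nat_lit 78) (nat_lit 0) (nat_lit 0) (XT.lf (nat_lit 0) (nat_lit 4923374824) (nat_lit 1824) (nat_lit 10337739247) (nat_lit 1900) (nat_lit 2268598552) (nat_lit 480) (nat_lit 5) (nat_lit 504) (nat_lit 5) (nat_lit 505) (nat_lit 5) (nat_lit 455) (nat_lit 443) (nat_lit 302)) (XT.nd (nat_lit 78) (nat_lit 0) (nat_lit 76) (XT.lf (nat_lit 76) (nat_lit 3537765658) (nat_lit 0) (nat_lit 3362910593) (nat_lit 1900) (nat_lit 10900302483) (nat_lit 481) (nat_lit 5) (nat_lit 480) (nat_lit 5) (nat_lit 505) (nat_lit 5) (nat_lit 456) (nat_lit 443) (nat_lit 301)) (XT.lf (nat_lit 0) (nat_lit 9052486231) (nat_lit 1824) (nat_lit 176663711) (nat_lit 1900) (nat_lit 8848929872) (nat_lit 481) (nat_lit 5)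 (nat_lit 505) (nat_lit 5) (nat_lit 506) (nat_lit 5) (nat_lit 457) (nat_lit 443) (nat_lit 300)))) (XT.nd (nat_lit 156) (nat_lit 2888) (nat_lit 0) (XT.nd (nat_lit 78) (nat_lit 0) (nat_lit 0) (XT.lf (nat_lit 0) (nat_lit 11392975264) (nat_lit 1824) (nat_lit 3891843198) (nat_lit 1900) (nat_lit 3076193725) (nat_lit 482) (nat_lit 5) (nat_lit 506) (nat_lit 5) (nat_lit 507) (nat_lit 5) (nat_lit 458) (nat_lit 443) (nat_lit 299)) (XT.lf (nat_lit 76) (nat_lit 10976300031) (nat_lit 0) (nat_lit 2949207875) (nat_lit 1900) (nat_lit 4724488776) (nat_lit 483) (nat_lit 5) (nat_lit 482) (nat_lit 5) (nat_lit 507) (nat_lit 5) (nat_lit 459) (nat_lit 443) (nat_lit 298))) (XT.nd (nat_lit 78) (nat_lit 1140) (nat_lit 0) (XT.lf (nat_lit 0) (nat_lit 7420029122) (nat_lit 1824) (nat_lit 9240001298) (nat_lit 1900) (nat_lit 2285100727) (nat_lit 459) (nat_lit 5) (nat_lit 483) (nat_lit 5) (nat_lit 484) (nat_lit 5) (nat_lit 460) (nat_lit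 443) (nat_lit 297)) (XT.lf (nat_lit 0) (nat_lit 332582665) (nat_lit 1140) (nat_lit 15428343231) (nat_lit 76) (nat_lit 3486002949) (nat_lit 444) (nat_lit 5) (nat_lit 459) (nat_lit 5) (nat_lit 445) (nat_lit 5) (nat_lit 461) (nat_lit 443) (nat_lit 296))))))))
noncomputable def xc98 : XT := (XT.nd (nat_lit 2106) (nat_lit 6232) (nat_lit 0) (XT.nd (nat_lit 1014) (nat_lit 7904) (nat_lit 0) (XT.nd (nat_lit 468) (nat_lit 3952) (nat_lit 0) (XT.nd (nat_lit 234) (nat_lit 2508) (nat_lit 0) (XT.nd (nat_lit 78) (nat_lit 912) (nat_lit 0) (XT.lf (nat_lit 0) (nat_lit 137876601) (nat_lit 912) (nat_lit 2989792614) (nat_lit 988) (nat_lit 16427211461) (nat_lit 432) (nat_lit 5) (nat_lit 444) (nat_lit 5) (nat_lit 445) (nat_lit 5) (nat_lit 462) (nat_lit 443) (nat_lit 295)) (XT.nd (nat_lit 78) (nat_lit 912) (nat_lit 0) (XT.lf (nat_lit 0) (nat_lit 6166558070) (nat_lit 988) (nat_lit 3564925321) (nat_lit 76) (nat_lit 10137389314)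 (nat_lit 432) (nat_lit 5) (nat_lit 445) (nat_lit 5) (nat_lit 433) (nat_lit 5) (nat_lit 463) (nat_lit 443) (nat_lit 294)) (XT.lf (nat_lit 0) (nat_lit 9412222418) (nat_lit 988) (nat_lit 7311523521) (nat_lit 76) (nat_lit 3466226998) (nat_lit 420) (nat_lit 5) (nat_lit 433) (nat_lit 5) (nat_lit 421) (nat_lit 5) (nat_lit 464) (nat_lit 443) (nat_lit 293)))) (XT.nd (nat_lit 78) (nat_lit 1672) (nat_lit 0) (XT.lf (nat_lit 0) (nat_lit 9391356856) (nat_lit 836) (nat_lit 3503572746) (nat_lit 912) (nat_lit 7622983719) (nat_lit 409) (nat_lit 5) (nat_lit 420) (nat_lit 5) (nat_lit 421) (nat_lit 5) (nat_lit 465) (nat_lit 443) (nat_lit 292)) (XT.nd (nat_lit 78) (nat_lit 836) (nat_lit 0) (XT.lf (nat_lit 0) (nat_lit 5841001388) (nat_lit 836) (nat_lit 10784125625) (nat_lit 912) (nat_lit 4227705306) (nat_lit 398) (nat_lit 5) (nat_lit 409) (nat_lit 5) (nat_lit 410) (nat_lit 5) (nat_lit 466) (nat_lit 443) (nat_lit 291)) (XT.lf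 (nat_lit 0) (nat_lit 2250783941) (nat_lit 836) (nat_lit 18338222547) (nat_lit 912) (nat_lit 606357442) (nat_lit 387) (nat_lit 5) (nat_lit 398) (nat_lit 5) (nat_lit 399) (nat_lit 5) (nat_lit 467) (nat_lit 443) (nat_lit 290))))) (XT.nd (nat_lit 234) (nat_lit 2280) (nat_lit 0) (XT.nd (nat_lit 78) (nat_lit 1596) (nat_lit 0) (XT.lf (nat_lit 0) (nat_lit 3247134555) (nat_lit 912) (nat_lit 1412770369) (nat_lit 76) (nat_lit 16884572078) (nat_lit 386) (nat_lit 5) (nat_lit 398) (nat_lit 5) (nat_lit 387) (nat_lit 5) (nat_lit 468) (nat_lit 443) (nat_lit 289)) (XT.nd (nat_lit 78) (nat_lit 760) (nat_lit 0) (XT.lf (nat_lit 0) (nat_lit 7369668138) (nat_lit 912) (nat_lit 5112024194) (nat_lit 76) (nat_lit 9419058000) (nat_lit 375) (nat_lit 5) (nat_lit 387) (nat_lit 5) (nat_lit 376) (nat_lit 5) (nat_lit 469) (nat_lit 443) (nat_lit 288)) (XT.lf (nat_lit 0) (nat_lit 11745255126) (nat_lit 836) (nat_lit 8853453274) (nat_lit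 76) (nat_lit 1666416423) (nat_lit 365) (nat_lit 5) (nat_lit 376) (nat_lit 5) (nat_lit 366) (nat_lit 5) (nat_lit 470) (nat_lit 443) (nat_lit 287)))) (XT.nd (nat_lit 156) (nat_lit 836) (nat_lit 0) (XT.nd (nat_lit 78) (nat_lit 684) (nat_lit 0) (XT.lf (nat_lit 0) (nat_lit 9958149080) (nat_lit 760) (nat_lit 6467630587) (nat_lit 836) (nat_lit 6211177976) (nat_lit 355) (nat_lit 5) (nat_lit 365) (nat_lit 5) (nat_lit 366) (nat_lit 5) (nat_lit 471) (nat_lit 443) (nat_lit 286)) (XT.lf (nat_lit 0) (nat_lit 6458253783) (nat_lit 684) (nat_lit 14934173699) (nat_lit 760) (nat_lit 1624604295) (nat_lit 346) (nat_lit 5) (nat_lit 355) (nat_lit 5) (nat_lit 356) (nat_lit 5) (nat_lit 472) (nat_lit 443) (nat_lit 285))) (XT.nd (nat_lit 78) (nat_lit 0) (nat_lit 0) (XT.lf (nat_lit 0) (nat_lit 2900240485) (nat_lit 760) (nat_lit 298259837) (nat_lit 836) (nat_lit 20206814076) (nat_lit 335) (nat_lit 5) (nat_lit 345) (nat_lit 5)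 (nat_lit 346) (nat_lit 5) (nat_lit 473) (nat_lit 443) (nat_lit 284)) (XT.lf (nat_lit 0) (nat_lit 8344451546) (nat_lit 836) (nat_lit 750905784) (nat_lit 76) (nat_lit 14705669332) (nat_lit 335) (nat_lit 5) (nat_lit 346) (nat_lit 5) (nat_lit 336) (nat_lit 5) (nat_lit 474) (nat_lit 443) (nat_lit 283)))))) (XT.nd (nat_lit 546) (nat_lit 3876) (nat_lit 0) (XT.nd (nat_lit 234) (nat_lit 1976) (nat_lit 0) (XT.nd (nat_lit 78) (nat_lit 1368) (nat_lit 0) (XT.lf (nat_lit 0) (nat_lit 13806541678) (nat_lit 760) (nat_lit 4401219609) (nat_lit 76) (nat_lit 5997614227) (nat_lit 326) (nat_lit 5) (nat_lit 336) (nat_lit 5) (nat_lit 327) (nat_lit 5) (nat_lit 475) (nat_lit 443) (nat_lit 282)) (XT.nd (nat_lit 78) (nat_lit 684) (nat_lit 0) (XT.lf (nat_lit 0) (nat_lit 16510318573) (nat_lit 684) (nat_lit 3086961620) (nat_lit 760) (nat_lit 5021279343) (nat_lit 317) (nat_lit 5) (nat_lit 326) (nat_lit 5) (nat_lit 327) (nat_lit 5)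 (nat_lit 476) (nat_lit 443) (nat_lit 281)) (XT.lf (nat_lit 0) (nat_lit 700334171) (nat_lit 684) (nat_lit 11897671837) (nat_lit 76) (nat_lit 12442275839) (nat_lit 308) (nat_lit 5) (nat_lit 317) (nat_lit 5) (nat_lit 309) (nat_lit 5) (nat_lit 477) (nat_lit 443) (nat_lit 280)))) (XT.nd (nat_lit 156) (nat_lit 684) (nat_lit 0) (XT.nd (nat_lit 78) (nat_lit 608) (nat_lit 0) (XT.lf (nat_lit 0) (nat_lit 6676804285) (nat_lit 760) (nat_lit 15759564119) (nat_lit 76) (nat_lit 3034595442) (nat_lit 299) (nat_lit 5) (nat_lit 309) (nat_lit 5) (nat_lit 300) (nat_lit 5) (nat_lit 478) (nat_lit 443) (nat_lit 279)) (XT.lf (nat_lit 0) (nat_lit 6205561858) (nat_lit 608) (nat_lit 6824801734) (nat_lit 684) (nat_lit 12880247186) (nat_lit 291) (nat_lit 5) (nat_lit 299) (nat_lit 5) (nat_lit 300) (nat_lit 5) (nat_lit 479) (nat_lit 443) (nat_lit 278))) (XT.nd (nat_lit 78) (nat_lit 76) (nat_lit 0) (XT.lf (nat_lit 0) (nat_lit 2648309499)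 (nat_lit 608) (nat_lit 17103260339) (nat_lit 684) (nat_lit 6608336841) (nat_lit 283) (nat_lit 5) (nat_lit 291) (nat_lit 5) (nat_lit 292) (nat_lit 5) (nat_lit 480) (nat_lit 443) (nat_lit 277)) (XT.lf (nat_lit 0) (nat_lit 26097223) (nat_lit 684) (nat_lit 933199021) (nat_lit 76) (nat_lit 25859956375) (nat_lit 282) (nat_lit 5) (nat_lit 291) (nat_lit 5) (nat_lit 283) (nat_lit 5) (nat_lit 481) (nat_lit 443) (nat_lit 276))))) (XT.nd (nat_lit 234) (nat_lit 2128) (nat_lit 0) (XT.nd (nat_lit 78) (nat_lit 1140) (nat_lit 0) (XT.lf (nat_lit 0) (nat_lit 7013741140) (nat_lit 684) (nat_lit 4617980077) (nat_lit 76) (nat_lit 15654905270) (nat_lit 274) (nat_lit 5) (nat_lit 283) (nat_lit 5) (nat_lit 275) (nat_lit 5) (nat_lit 482) (nat_lit 443) (nat_lit 275)) (XT.nd (nat_lit 78) (nat_lit 532) (nat_lit 0) (XT.lf (nat_lit 0) (nat_lit 14376138974) (nat_lit 684) (nat_lit 8335720033) (nat_lit 76) (nat_lit 5052860397) (nat_lit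 266) (nat_lit 5) (nat_lit 275) (nat_lit 5) (nat_lit 267) (nat_lit 5) (nat_lit 483) (nat_lit 443) (nat_lit 274)) (XT.lf (nat_lit 0) (nat_lit 16128302931) (nat_lit 532) (nat_lit 6037981980) (nat_lit 608) (nat_lit 6086732993) (nat_lit 259) (nat_lit 5) (nat_lit 266) (nat_lit 5) (nat_lit 267) (nat_lit 5) (nat_lit 484) (nat_lit 443) (nat_lit 273)))) (XT.nd (nat_lit 156) (nat_lit 988) (nat_lit 0) (XT.nd (nat_lit 78) (nat_lit 532) (nat_lit 0) (XT.lf (nat_lit 0) (nat_lit 1621807084) (nat_lit 608) (nat_lit 15991478946) (nat_lit 76) (nat_lit 11138364465) (nat_lit 251) (nat_lit 5) (nat_lit 259) (nat_lit 5) (nat_lit 252) (nat_lit 5) (nat_lit 485) (nat_lit 443) (nat_lit 272)) (XT.lf (nat_lit 0) (nat_lit 9325432228) (nat_lit 532) (nat_lit 330684999) (nat_lit 608) (nat_lit 19604776291) (nat_lit 244) (nat_lit 5) (nat_lit 251) (nat_lit 5) (nat_lit 252) (nat_lit 5) (nat_lit 486) (nat_lit 443) (nat_lit 271))) (XT.nd (nat_lit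 78) (nat_lit 456) (nat_lit 0) (XT.lf (nat_lit 0) (nat_lit 5790102637) (nat_lit 532) (nat_lit 12394691192) (nat_lit 608) (nat_lit 11595553541) (nat_lit 237) (nat_lit 5) (nat_lit 244) (nat_lit 5) (nat_lit 245) (nat_lit 5) (nat_lit 487) (nat_lit 443) (nat_lit 270)) (XT.lf (nat_lit 0) (nat_lit 2230132613) (nat_lit 456) (nat_lit 24919714343) (nat_lit 532) (nat_lit 3161927835) (nat_lit 231) (nat_lit 5) (nat_lit 237) (nat_lit 5) (nat_lit 238) (nat_lit 5) (nat_lit 488) (nat_lit 443) (nat_lit 269))))))) (XT.nd (nat_lit 1014) (nat_lit 1216) (nat_lit 0) (XT.nd (nat_lit 468) (nat_lit 2508) (nat_lit 0) (XT.nd (nat_lit 234) (nat_lit 1444) (nat_lit 0) (XT.nd (nat_lit 78) (nat_lit 988) (nat_lit 0) (XT.lf (nat_lit 0) (nat_lit 5692228031) (nat_lit 532) (nat_lit 1419319226) (nat_lit 76) (nat_lit 23742081061) (nat_lit 230) (nat_lit 5) (nat_lit 237) (nat_lit 5) (nat_lit 231) (nat_lit 5) (nat_lit 489) (nat_lit 443) (nat_lit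 268)) (XT.nd (nat_lit 78) (nat_lit 456) (nat_lit 0) (XT.lf (nat_lit 0) (nat_lit 15008247222) (nat_lit 608) (nat_lit 5123597660) (nat_lit 76) (nat_lit 11274690879) (nat_lit 223) (nat_lit 5) (nat_lit 231) (nat_lit 5) (nat_lit 224) (nat_lit 5) (nat_lit 490) (nat_lit 443) (nat_lit 267)) (XT.lf (nat_lit 0) (nat_lit 23106482392) (nat_lit 456) (nat_lit 1698278564) (nat_lit 532) (nat_lit 7167249441) (nat_lit 217) (nat_lit 5) (nat_lit 223) (nat_lit 5) (nat_lit 224) (nat_lit 5) (nat_lit 491) (nat_lit 443) (nat_lit 266)))) (XT.nd (nat_lit 78) (nat_lit 912) (nat_lit 0) (XT.lf (nat_lit 0) (nat_lit 2581672774) (nat_lit 532) (nat_lit 12727240012) (nat_lit 76) (nat_lit 17239799752) (nat_lit 210) (nat_lit 5) (nat_lit 217) (nat_lit 5) (nat_lit 211) (nat_lit 5) (nat_lit 492) (nat_lit 443) (nat_lit 265)) (XT.nd (nat_lit 78) (nat_lit 456) (nat_lit 0) (XT.lf (nat_lit 0) (nat_lit 12723783997) (nat_lit 532) (nat_lit 16666058195)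 (nat_lit 76) (nat_lit 3747964347) (nat_lit 204) (nat_lit 5) (nat_lit 211) (nat_lit 5) (nat_lit 205) (nat_lit 5) (nat_lit 493) (nat_lit 443) (nat_lit 264)) (XT.lf (nat_lit 0) (nat_lit 13037452755) (nat_lit 456) (nat_lit 10400593867) (nat_lit 532) (nat_lit 10301169198) (nat_lit 198) (nat_lit 5) (nat_lit 204) (nat_lit 5) (nat_lit 205) (nat_lit 5) (nat_lit 494) (nat_lit 443) (nat_lit 263))))) (XT.nd (nat_lit 234) (nat_lit 1216) (nat_lit 0) (XT.nd (nat_lit 78) (nat_lit 836) (nat_lit 0) (XT.lf (nat_lit 0) (nat_lit 344444299) (nat_lit 456) (nat_lit 24795999106) (nat_lit 76) (nat_lit 9213591570) (nat_lit 192) (nat_lit 5) (nat_lit 198) (nat_lit 5) (nat_lit 193) (nat_lit 5) (nat_lit 495) (nat_lit 443) (nat_lit 262)) (XT.nd (nat_lit 78) (nat_lit 380) (nat_lit 0) (XT.lf (nat_lit 0) (nat_lit 5954676824) (nat_lit 456) (nat_lit 5459246125) (nat_lit 532) (nat_lit 23567125161) (nat_lit 186) (nat_lit 5) (nat_lit 192)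 (nat_lit 5) (nat_lit 193) (nat_lit 5) (nat_lit 496) (nat_lit 443) (nat_lit 261)) (XT.lf (nat_lit 0) (nat_lit 2267719999) (nat_lit 380) (nat_lit 20822120973) (nat_lit 456) (nat_lit 12531543766) (nat_lit 181) (nat_lit 5) (nat_lit 186) (nat_lit 5) (nat_lit 187) (nat_lit 5) (nat_lit 497) (nat_lit 443) (nat_lit 260)))) (XT.nd (nat_lit 156) (nat_lit 760) (nat_lit 0) (XT.nd (nat_lit 78) (nat_lit 456) (nat_lit 0) (XT.lf (nat_lit 0) (nat_lit 34852585658) (nat_lit 380) (nat_lit 490843344) (nat_lit 456) (nat_lit 932954807) (nat_lit 181) (nat_lit 5) (nat_lit 186) (nat_lit 5) (nat_lit 187) (nat_lit 5) (nat_lit 498) (nat_lit 443) (nat_lit 259)) (XT.lf (nat_lit 0) (nat_lit 11204780939) (nat_lit 456) (nat_lit 5278846475) (nat_lit 76) (nat_lit 20459262785) (nat_lit 175) (nat_lit 5) (nat_lit 181) (nat_lit 5) (nat_lit 176) (nat_lit 5) (nat_lit 499) (nat_lit 443) (nat_lit 258))) (XT.nd (nat_lit 78) (nat_lit 380) (nat_lit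 0) (XT.lf (nat_lit 0) (nat_lit 23916560577) (nat_lit 456) (nat_lit 9164577645) (nat_lit 76) (nat_lit 4543678660) (nat_lit 170) (nat_lit 5) (nat_lit 176) (nat_lit 5) (nat_lit 171) (nat_lit 5) (nat_lit 500) (nat_lit 443) (nat_lit 257)) (XT.lf (nat_lit 0) (nat_lit 25168780248) (nat_lit 380) (nat_lit 12145299853) (nat_lit 456) (nat_lit 1007033709) (nat_lit 165) (nat_lit 5) (nat_lit 170) (nat_lit 5) (nat_lit 171) (nat_lit 5) (nat_lit 501) (nat_lit 443) (nat_lit 256)))))) (XT.nd (nat_lit 58266) (nat_lit 0) (nat_lit 25004) (XT.nd (nat_lit 57954) (nat_lit 0) (nat_lit 26372) (XT.nd (nat_lit 78) (nat_lit 760) (nat_lit 0) (XT.lf (nat_lit 0) (nat_lit 12178843763) (nat_lit 456) (nat_lit 17275919592) (nat_lit 76) (nat_lit 9576728708) (nat_lit 159) (nat_lit 5) (nat_lit 165) (nat_lit 5) (nat_lit 160) (nat_lit 5) (nat_lit 502) (nat_lit 443) (nat_lit 255)) (XT.nd (nat_lit 78) (nat_lit 380) (nat_lit 0) (XT.lf (nat_lit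 0) (nat_lit 18272445619) (nat_lit 380) (nat_lit 7758702420) (nat_lit 456) (nat_lit 13726210013) (nat_lit 154) (nat_lit 5) (nat_lit 159) (nat_lit 5) (nat_lit 160) (nat_lit 5) (nat_lit 503) (nat_lit 443) (nat_lit 254)) (XT.lf (nat_lit 0) (nat_lit 101760313) (nat_lit 380) (nat_lit 25789045554) (nat_lit 76) (nat_lit 14608120306) (nat_lit 149) (nat_lit 5) (nat_lit 154) (nat_lit 5) (nat_lit 150) (nat_lit 5) (nat_lit 504) (nat_lit 443) (nat_lit 253)))) (XT.nd (nat_lit 156) (nat_lit 0) (nat_lit 76) (XT.nd (nat_lit 78) (nat_lit 0) (nat_lit 0) (XT.lf (nat_lit 0) (nat_lit 2004719744) (nat_lit 0) (nat_lit 2004719744) (nat_lit 1748) (nat_lit 3545271840) (nat_lit 496) (nat_lit 5) (nat_lit 496) (nat_lit 3) (nat_lit 519) (nat_lit 3) (nat_lit 444) (nat_lit 444) (nat_lit 312)) (XT.lf (nat_lit 76) (nat_lit 99642685) (nat_lit 0) (nat_lit 8523042359) (nat_lit 1824) (nat_lit 6703681214) (nat_lit 497) (nat_lit 5) (nat_lit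 496) (nat_lit 5) (nat_lit 520) (nat_lit 5) (nat_lit 445) (nat_lit 444) (nat_lit 311))) (XT.nd (nat_lit 78) (nat_lit 0) (nat_lit 0) (XT.lf (nat_lit 0) (nat_lit 9345079416) (nat_lit 1748) (nat_lit 3812887229) (nat_lit 1824) (nat_lit 2389843102) (nat_lit 497) (nat_lit 5) (nat_lit 520) (nat_lit 5) (nat_lit 521) (nat_lit 5) (nat_lit 446) (nat_lit 444) (nat_lit 310)) (XT.lf (nat_lit 76) (nat_lit 7981863957) (nat_lit 0) (nat_lit 2199549330) (nat_lit 1824) (nat_lit 5592638934) (nat_lit 498) (nat_lit 5) (nat_lit 497) (nat_lit 5) (nat_lit 521) (nat_lit 5) (nat_lit 447) (nat_lit 444) (nat_lit 309))))) (XT.nd (nat_lit 234) (nat_lit 1520) (nat_lit 0) (XT.nd (nat_lit 78) (nat_lit 0) (nat_lit 76) (XT.lf (nat_lit 76) (nat_lit 4162089364) (nat_lit 0) (nat_lit 6976698407) (nat_lit 1824) (nat_lit 4866376189) (nat_lit 499) (nat_lit 5) (nat_lit 498) (nat_lit 5) (nat_lit 522) (nat_lit 5) (nat_lit 448) (nat_lit 444) (nat_lit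 308)) (XT.nd (nat_lit 78) (nat_lit 0) (nat_lit 0) (XT.lf (nat_lit 76) (nat_lit 290690408) (nat_lit 0) (nat_lit 11916263522) (nat_lit 1824) (nat_lit 4034614689) (nat_lit 500) (nat_lit 5) (nat_lit 499) (nat_lit 5) (nat_lit 523) (nat_lit 5) (nat_lit 449) (nat_lit 444) (nat_lit 307)) (XT.lf (nat_lit 76) (nat_lit 12893847222) (nat_lit 0) (nat_lit 524679871) (nat_lit 1824) (nat_lit 3064312029) (nat_lit 500) (nat_lit 5) (nat_lit 499) (nat_lit 5) (nat_lit 523) (nat_lit 5) (nat_lit 450) (nat_lit 444) (nat_lit 306)))) (XT.nd (nat_lit 156) (nat_lit 1672) (nat_lit 0) (XT.nd (nat_lit 78) (nat_lit 0) (nat_lit 76) (XT.lf (nat_lit 76) (nat_lit 9181886462) (nat_lit 0) (nat_lit 5602190508) (nat_lit 1824) (nat_lit 1944919099) (nat_lit 501) (nat_lit 5) (nat_lit 500) (nat_lit 5) (nat_lit 524) (nat_lit 5) (nat_lit 451) (nat_lit 444) (nat_lit 305)) (XT.lf (nat_lit 76) (nat_lit 5420882346) (nat_lit 0) (nat_lit 10858369899)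 (nat_lit 1824) (nat_lit 701513193) (nat_lit 502) (nat_lit 5) (nat_lit 501) (nat_lit 5) (nat_lit 525) (nat_lit 5) (nat_lit 452) (nat_lit 444) (nat_lit 304))) (XT.nd (nat_lit 78) (nat_lit 0) (nat_lit 0) (XT.lf (nat_lit 0) (nat_lit 663115969) (nat_lit 1824) (nat_lit 15632485721) (nat_lit 1900) (nat_lit 942581490) (nat_lit 478) (nat_lit 5) (nat_lit 502) (nat_lit 5) (nat_lit 503) (nat_lit 5) (nat_lit 453) (nat_lit 444) (nat_lit 303)) (XT.lf (nat_lit 0) (nat_lit 2196955357) (nat_lit 1824) (nat_lit 2264958892) (nat_lit 1900) (nat_lit 13038561246) (nat_lit 478) (nat_lit 5) (nat_lit 502) (nat_lit 5) (nat_lit 503) (nat_lit 5) (nat_lit 454) (nat_lit 444) (nat_lit 302))))))))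
noncomputable def xc99 : XT := (XT.nd (nat_lit 2106) (nat_lit 9804) (nat_lit 0) (XT.nd (nat_lit 1014) (nat_lit 8740) (nat_lit 0) (XT.nd (nat_lit 468) (nat_lit 6156) (nat_lit 0) (XT.nd (nat_lit 234) (nat_lit 0) (nat_lit 152) (XT.nd (nat_lit 78) (nat_lit 0) (nat_lit 76) (XT.lf (nat_lit 0) (nat_lit 3889801557) (nat_lit 1824) (nat_lit 6173309799) (nat_lit 1900) (nat_lit 7705266190) (nat_lit 479) (nat_lit 5) (nat_lit 503) (nat_lit 5) (nat_lit 504) (nat_lit 5) (nat_lit 455) (nat_lit 444) (nat_lit 301)) (XT.nd (nat_lit 78) (nat_lit 0) (nat_lit 0) (XT.lf (nat_lit 0) (nat_lit 5731504167) (nat_lit 1824) (nat_lit 10134807581) (nat_lit 1900) (nat_lit 2176044268) (nat_lit 480) (nat_lit 5) (nat_lit 504) (nat_lit 5) (nat_lit 505) (nat_lit 5) (nat_lit 456) (nat_lit 444) (nat_lit 300)) (XT.lf (nat_lit 76) (nat_lit 4148638620) (nat_lit 0) (nat_lit 3603527353) (nat_lit 1900) (nat_lit 10569914458) (nat_lit 481) (nat_lit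 5) (nat_lit 480) (nat_lit 5) (nat_lit 505) (nat_lit 5) (nat_lit 457) (nat_lit 444) (nat_lit 299)))) (XT.nd (nat_lit 78) (nat_lit 0) (nat_lit 76) (XT.lf (nat_lit 76) (nat_lit 325779787) (nat_lit 0) (nat_lit 9625213897) (nat_lit 1900) (nat_lit 8656852707) (nat_lit 482) (nat_lit 5) (nat_lit 481) (nat_lit 5) (nat_lit 506) (nat_lit 5) (nat_lit 458) (nat_lit 444) (nat_lit 298)) (XT.nd (nat_lit 78) (nat_lit 0) (nat_lit 0) (XT.lf (nat_lit 0) (nat_lit 12343855848) (nat_lit 1824) (nat_lit 3500319560) (nat_lit 1900) (nat_lit 3055449238) (nat_lit 482) (nat_lit 5) (nat_lit 506) (nat_lit 5) (nat_lit 507) (nat_lit 5) (nat_lit 459) (nat_lit 444) (nat_lit 297)) (XT.lf (nat_lit 76) (nat_lit 11805621744) (nat_lit 0) (nat_lit 3132248747) (nat_lit 1900) (nat_lit 4259699118) (nat_lit 483) (nat_lit 5) (nat_lit 482) (nat_lit 5) (nat_lit 507) (nat_lit 5) (nat_lit 460) (nat_lit 444) (nat_lit 296))))) (XT.nd (nat_lit 234) (nat_lit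 2584) (nat_lit 0) (XT.nd (nat_lit 78) (nat_lit 2052) (nat_lit 0) (XT.lf (nat_lit 0) (nat_lit 8146887760) (nat_lit 1824) (nat_lit 9592900433) (nat_lit 1900) (nat_lit 1762063745) (nat_lit 459) (nat_lit 5) (nat_lit 483) (nat_lit 5) (nat_lit 484) (nat_lit 5) (nat_lit 461) (nat_lit 444) (nat_lit 295)) (XT.nd (nat_lit 78) (nat_lit 912) (nat_lit 0) (XT.lf (nat_lit 0) (nat_lit 912226361) (nat_lit 1140) (nat_lit 15375585888) (nat_lit 76) (nat_lit 3525098768) (nat_lit 444) (nat_lit 5) (nat_lit 459) (nat_lit 5) (nat_lit 445) (nat_lit 5) (nat_lit 462) (nat_lit 444) (nat_lit 294)) (XT.lf (nat_lit 0) (nat_lit 649255418) (nat_lit 912) (nat_lit 3128611224) (nat_lit 988) (nat_lit 16352501680) (nat_lit 432) (nat_lit 5) (nat_lit 444) (nat_lit 5) (nat_lit 445) (nat_lit 5) (nat_lit 463) (nat_lit 444) (nat_lit 293)))) (XT.nd (nat_lit 156) (nat_lit 1672) (nat_lit 0) (XT.nd (nat_lit 78) (nat_lit 912) (nat_lit 0) (XT.lf (nat_lit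 0) (nat_lit 6891407627) (nat_lit 988) (nat_lit 3168261193) (nat_lit 76) (nat_lit 10394442498) (nat_lit 432) (nat_lit 5) (nat_lit 445) (nat_lit 5) (nat_lit 433) (nat_lit 5) (nat_lit 464) (nat_lit 444) (nat_lit 292)) (XT.lf (nat_lit 0) (nat_lit 10221727628) (nat_lit 988) (nat_lit 7024644164) (nat_lit 76) (nat_lit 3538727940) (nat_lit 420) (nat_lit 5) (nat_lit 433) (nat_lit 5) (nat_lit 421) (nat_lit 5) (nat_lit 465) (nat_lit 444) (nat_lit 291))) (XT.nd (nat_lit 78) (nat_lit 836) (nat_lit 0) (XT.lf (nat_lit 0) (nat_lit 10171109724) (nat_lit 836) (nat_lit 3625686178) (nat_lit 912) (nat_lit 7326325689) (nat_lit 409) (nat_lit 5) (nat_lit 420) (nat_lit 5) (nat_lit 421) (nat_lit 5) (nat_lit 466) (nat_lit 444) (nat_lit 290)) (XT.lf (nat_lit 0) (nat_lit 6516434111) (nat_lit 836) (nat_lit 11110605036) (nat_lit 912) (nat_lit 3841287052) (nat_lit 398) (nat_lit 5) (nat_lit 409) (nat_lit 5) (nat_lit 410) (nat_lit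 5) (nat_lit 467) (nat_lit 444) (nat_lit 289)))))) (XT.nd (nat_lit 546) (nat_lit 3952) (nat_lit 0) (XT.nd (nat_lit 234) (nat_lit 3040) (nat_lit 0) (XT.nd (nat_lit 78) (nat_lit 912) (nat_lit 0) (XT.lf (nat_lit 0) (nat_lit 2820341199) (nat_lit 836) (nat_lit 18878079617) (nat_lit 912) (nat_lit 122942041) (nat_lit 387) (nat_lit 5) (nat_lit 398) (nat_lit 5) (nat_lit 399) (nat_lit 5) (nat_lit 468) (nat_lit 444) (nat_lit 288)) (XT.nd (nat_lit 78) (nat_lit 836) (nat_lit 0) (XT.lf (nat_lit 0) (nat_lit 3825157785) (nat_lit 912) (nat_lit 961329237) (nat_lit 76) (nat_lit 17394686302) (nat_lit 386) (nat_lit 5) (nat_lit 398) (nat_lit 5) (nat_lit 387) (nat_lit 5) (nat_lit 469) (nat_lit 444) (nat_lit 287)) (XT.lf (nat_lit 0) (nat_lit 8060627458) (nat_lit 912) (nat_lit 4770256225) (nat_lit 76) (nat_lit 9717466722) (nat_lit 375) (nat_lit 5) (nat_lit 387) (nat_lit 5) (nat_lit 376) (nat_lit 5) (nat_lit 470) (nat_lit 444)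 (nat_lit 286)))) (XT.nd (nat_lit 156) (nat_lit 1520) (nat_lit 0) (XT.nd (nat_lit 78) (nat_lit 760) (nat_lit 0) (XT.lf (nat_lit 0) (nat_lit 12557139260) (nat_lit 836) (nat_lit 8622929972) (nat_lit 76) (nat_lit 1743794484) (nat_lit 365) (nat_lit 5) (nat_lit 376) (nat_lit 5) (nat_lit 366) (nat_lit 5) (nat_lit 471) (nat_lit 444) (nat_lit 285)) (XT.lf (nat_lit 0) (nat_lit 10744971384) (nat_lit 760) (nat_lit 6622892812) (nat_lit 836) (nat_lit 5939192340) (nat_lit 355) (nat_lit 5) (nat_lit 365) (nat_lit 5) (nat_lit 366) (nat_lit 5) (nat_lit 472) (nat_lit 444) (nat_lit 284))) (XT.nd (nat_lit 78) (nat_lit 836) (nat_lit 0) (XT.lf (nat_lit 0) (nat_lit 7140776791) (nat_lit 684) (nat_lit 15333065744) (nat_lit 760) (nat_lit 1224884424) (nat_lit 346) (nat_lit 5) (nat_lit 355) (nat_lit 5) (nat_lit 356) (nat_lit 5) (nat_lit 473) (nat_lit 444) (nat_lit 283)) (XT.lf (nat_lit 0) (nat_lit 3473901592) (nat_lit 760) (nat_lit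 253399238) (nat_lit 836) (nat_lit 20371494270) (nat_lit 335) (nat_lit 5) (nat_lit 345) (nat_lit 5) (nat_lit 346) (nat_lit 5) (nat_lit 474) (nat_lit 444) (nat_lit 282))))) (XT.nd (nat_lit 234) (nat_lit 2584) (nat_lit 0) (XT.nd (nat_lit 78) (nat_lit 1368) (nat_lit 0) (XT.lf (nat_lit 0) (nat_lit 9015362623) (nat_lit 836) (nat_lit 292866682) (nat_lit 76) (nat_lit 15198395419) (nat_lit 335) (nat_lit 5) (nat_lit 346) (nat_lit 5) (nat_lit 336) (nat_lit 5) (nat_lit 475) (nat_lit 444) (nat_lit 281)) (XT.nd (nat_lit 78) (nat_lit 684) (nat_lit 0) (XT.lf (nat_lit 0) (nat_lit 14632533633) (nat_lit 760) (nat_lit 4052636495) (nat_lit 76) (nat_lit 6238110168) (nat_lit 326) (nat_lit 5) (nat_lit 336) (nat_lit 5) (nat_lit 327) (nat_lit 5) (nat_lit 476) (nat_lit 444) (nat_lit 280)) (XT.lf (nat_lit 0) (nat_lit 17478450348) (nat_lit 684) (nat_lit 3109619781) (nat_lit 760) (nat_lit 4760968792) (nat_lit 317) (nat_lit 5) (nat_lit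 326) (nat_lit 5) (nat_lit 327) (nat_lit 5) (nat_lit 477) (nat_lit 444) (nat_lit 279)))) (XT.nd (nat_lit 156) (nat_lit 1216) (nat_lit 0) (XT.nd (nat_lit 78) (nat_lit 684) (nat_lit 0) (XT.lf (nat_lit 0) (nat_lit 1118623996) (nat_lit 684) (nat_lit 11776652548) (nat_lit 76) (nat_lit 12888249154) (nat_lit 308) (nat_lit 5) (nat_lit 317) (nat_lit 5) (nat_lit 309) (nat_lit 5) (nat_lit 478) (nat_lit 444) (nat_lit 278)) (XT.lf (nat_lit 0) (nat_lit 7266398500) (nat_lit 760) (nat_lit 15754890802) (nat_lit 76) (nat_lit 3205999204) (nat_lit 299) (nat_lit 5) (nat_lit 309) (nat_lit 5) (nat_lit 300) (nat_lit 5) (nat_lit 479) (nat_lit 444) (nat_lit 277))) (XT.nd (nat_lit 78) (nat_lit 608) (nat_lit 0) (XT.lf (nat_lit 0) (nat_lit 6861442729) (nat_lit 608) (nat_lit 6940833006) (nat_lit 684) (nat_lit 12878015425) (nat_lit 291) (nat_lit 5) (nat_lit 299) (nat_lit 5) (nat_lit 300) (nat_lit 5) (nat_lit 480) (nat_lit 444) (nat_lit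 276)) (XT.lf (nat_lit 0) (nat_lit 3196799635) (nat_lit 608) (nat_lit 17520825940) (nat_lit 684) (nat_lit 6425590736) (nat_lit 283) (nat_lit 5) (nat_lit 291) (nat_lit 5) (nat_lit 292) (nat_lit 5) (nat_lit 481) (nat_lit 444) (nat_lit 275))))))) (XT.nd (nat_lit 1092) (nat_lit 3344) (nat_lit 0) (XT.nd (nat_lit 546) (nat_lit 2964) (nat_lit 0) (XT.nd (nat_lit 234) (nat_lit 2204) (nat_lit 0) (XT.nd (nat_lit 78) (nat_lit 1216) (nat_lit 0) (XT.lf (nat_lit 0) (nat_lit 391928078) (nat_lit 684) (nat_lit 500947672) (nat_lit 76) (nat_lit 26723636931) (nat_lit 282) (nat_lit 5) (nat_lit 291) (nat_lit 5) (nat_lit 283) (nat_lit 5) (nat_lit 482) (nat_lit 444) (nat_lit 274)) (XT.nd (nat_lit 78) (nat_lit 608) (nat_lit 0) (XT.lf (nat_lit 0) (nat_lit 7582128162) (nat_lit 684) (nat_lit 4297195509) (nat_lit 76) (nat_lit 16218726039) (nat_lit 274) (nat_lit 5) (nat_lit 283) (nat_lit 5) (nat_lit 275) (nat_lit 5) (nat_lit 483)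 (nat_lit 444) (nat_lit 273)) (XT.lf (nat_lit 0) (nat_lit 15158563623) (nat_lit 684) (nat_lit 8127552689) (nat_lit 76) (nat_lit 5304506258) (nat_lit 266) (nat_lit 5) (nat_lit 275) (nat_lit 5) (nat_lit 267) (nat_lit 5) (nat_lit 484) (nat_lit 444) (nat_lit 272)))) (XT.nd (nat_lit 156) (nat_lit 1064) (nat_lit 0) (XT.nd (nat_lit 78) (nat_lit 608) (nat_lit 0) (XT.lf (nat_lit 0) (nat_lit 17062956581) (nat_lit 532) (nat_lit 6112156886) (nat_lit 608) (nat_lit 5918603021) (nat_lit 259) (nat_lit 5) (nat_lit 266) (nat_lit 5) (nat_lit 267) (nat_lit 5) (nat_lit 485) (nat_lit 444) (nat_lit 271)) (XT.lf (nat_lit 0) (nat_lit 2010128906) (nat_lit 608) (nat_lit 16017107172) (nat_lit 76) (nat_lit 11580156157) (nat_lit 251) (nat_lit 5) (nat_lit 259) (nat_lit 5) (nat_lit 252) (nat_lit 5) (nat_lit 486) (nat_lit 444) (nat_lit 270))) (XT.nd (nat_lit 78) (nat_lit 532) (nat_lit 0) (XT.lf (nat_lit 0) (nat_lit 10051943842) (nat_lit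 532) (nat_lit 226531868) (nat_lit 608) (nat_lit 19853577112) (nat_lit 244) (nat_lit 5) (nat_lit 251) (nat_lit 5) (nat_lit 252) (nat_lit 5) (nat_lit 487) (nat_lit 444) (nat_lit 269)) (XT.lf (nat_lit 0) (nat_lit 6409137101) (nat_lit 532) (nat_lit 12647796404) (nat_lit 608) (nat_lit 11610278775) (nat_lit 237) (nat_lit 5) (nat_lit 244) (nat_lit 5) (nat_lit 245) (nat_lit 5) (nat_lit 488) (nat_lit 444) (nat_lit 268))))) (XT.nd (nat_lit 234) (nat_lit 1900) (nat_lit 0) (XT.nd (nat_lit 78) (nat_lit 608) (nat_lit 0) (XT.lf (nat_lit 0) (nat_lit 2740823919) (nat_lit 456) (nat_lit 25544231623) (nat_lit 532) (nat_lit 2929645031) (nat_lit 231) (nat_lit 5) (nat_lit 237) (nat_lit 5) (nat_lit 238) (nat_lit 5) (nat_lit 489) (nat_lit 444) (nat_lit 267)) (XT.nd (nat_lit 78) (nat_lit 532) (nat_lit 0) (XT.lf (nat_lit 0) (nat_lit 6176441601) (nat_lit 532) (nat_lit 1026859215) (nat_lit 76) (nat_lit 24569654854) (nat_lit 230)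 (nat_lit 5) (nat_lit 237) (nat_lit 5) (nat_lit 231) (nat_lit 5) (nat_lit 490) (nat_lit 444) (nat_lit 266)) (XT.lf (nat_lit 0) (nat_lit 15766375462) (nat_lit 608) (nat_lit 4843954756) (nat_lit 76) (nat_lit 11732231803) (nat_lit 223) (nat_lit 5) (nat_lit 231) (nat_lit 5) (nat_lit 224) (nat_lit 5) (nat_lit 491) (nat_lit 444) (nat_lit 265)))) (XT.nd (nat_lit 156) (nat_lit 912) (nat_lit 0) (XT.nd (nat_lit 78) (nat_lit 532) (nat_lit 0) (XT.lf (nat_lit 0) (nat_lit 24225997096) (nat_lit 456) (nat_lit 1624588063) (nat_lit 532) (nat_lit 7074540081) (nat_lit 217) (nat_lit 5) (nat_lit 223) (nat_lit 5) (nat_lit 224) (nat_lit 5) (nat_lit 492) (nat_lit 444) (nat_lit 264)) (XT.lf (nat_lit 0) (nat_lit 2957534159) (nat_lit 532) (nat_lit 12680525241) (nat_lit 76) (nat_lit 17881135019) (nat_lit 210) (nat_lit 5) (nat_lit 217) (nat_lit 5) (nat_lit 211) (nat_lit 5) (nat_lit 493) (nat_lit 444) (nat_lit 263))) (XT.nd (nat_lit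 78) (nat_lit 456) (nat_lit 0) (XT.lf (nat_lit 0) (nat_lit 13398792655) (nat_lit 532) (nat_lit 16739438663) (nat_lit 76) (nat_lit 3987832571) (nat_lit 204) (nat_lit 5) (nat_lit 211) (nat_lit 5) (nat_lit 205) (nat_lit 5) (nat_lit 494) (nat_lit 444) (nat_lit 262)) (XT.lf (nat_lit 0) (nat_lit 13848256516) (nat_lit 456) (nat_lit 10580408907) (nat_lit 532) (nat_lit 10316966698) (nat_lit 198) (nat_lit 5) (nat_lit 204) (nat_lit 5) (nat_lit 205) (nat_lit 5) (nat_lit 495) (nat_lit 444) (nat_lit 261)))))) (XT.nd (nat_lit 546) (nat_lit 836) (nat_lit 0) (XT.nd (nat_lit 234) (nat_lit 1216) (nat_lit 0) (XT.nd (nat_lit 78) (nat_lit 836) (nat_lit 0) (XT.lf (nat_lit 0) (nat_lit 639309226) (nat_lit 456) (nat_lit 25118394026) (nat_lit 76) (nat_lit 9621252027) (nat_lit 192) (nat_lit 5) (nat_lit 198) (nat_lit 5) (nat_lit 193) (nat_lit 5) (nat_lit 496) (nat_lit 444) (nat_lit 260)) (XT.nd (nat_lit 78) (nat_lit 380) (nat_lit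 0) (XT.lf (nat_lit 0) (nat_lit 6547964087) (nat_lit 456) (nat_lit 5487312984) (nat_lit 532) (nat_lit 23989613936) (nat_lit 186) (nat_lit 5) (nat_lit 192) (nat_lit 5) (nat_lit 193) (nat_lit 5) (nat_lit 497) (nat_lit 444) (nat_lit 259)) (XT.lf (nat_lit 0) (nat_lit 2748302455) (nat_lit 380) (nat_lit 21308579830) (nat_lit 456) (nat_lit 12627647541) (nat_lit 181) (nat_lit 5) (nat_lit 186) (nat_lit 5) (nat_lit 187) (nat_lit 5) (nat_lit 498) (nat_lit 444) (nat_lit 258)))) (XT.nd (nat_lit 156) (nat_lit 760) (nat_lit 0) (XT.nd (nat_lit 78) (nat_lit 456) (nat_lit 0) (XT.lf (nat_lit 0) (nat_lit 36298698039) (nat_lit 380) (nat_lit 371389254) (nat_lit 456) (nat_lit 689251667) (nat_lit 181) (nat_lit 5) (nat_lit 186) (nat_lit 5) (nat_lit 187) (nat_lit 5) (nat_lit 499) (nat_lit 444) (nat_lit 257)) (XT.lf (nat_lit 0) (nat_lit 11804698705) (nat_lit 456) (nat_lit 5035268289) (nat_lit 76) (nat_lit 21205925615) (nat_lit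 175) (nat_lit 5) (nat_lit 181) (nat_lit 5) (nat_lit 176) (nat_lit 5) (nat_lit 500) (nat_lit 444) (nat_lit 256))) (XT.nd (nat_lit 78) (nat_lit 380) (nat_lit 0) (XT.lf (nat_lit 0) (nat_lit 24893604290) (nat_lit 456) (nat_lit 9039798680) (nat_lit 76) (nat_lit 4814958928) (nat_lit 170) (nat_lit 5) (nat_lit 176) (nat_lit 5) (nat_lit 171) (nat_lit 5) (nat_lit 501) (nat_lit 444) (nat_lit 255)) (XT.lf (nat_lit 0) (nat_lit 26317075027) (nat_lit 380) (nat_lit 12370967872) (nat_lit 456) (nat_lit 777605213) (nat_lit 165) (nat_lit 5) (nat_lit 170) (nat_lit 5) (nat_lit 171) (nat_lit 5) (nat_lit 502) (nat_lit 444) (nat_lit 254))))) (XT.nd (nat_lit 58032) (nat_lit 0) (nat_lit 25992) (XT.nd (nat_lit 78) (nat_lit 380) (nat_lit 0) (XT.lf (nat_lit 0) (nat_lit 12796415592) (nat_lit 456) (nat_lit 17399855405) (nat_lit 76) (nat_lit 10001113794) (nat_lit 159) (nat_lit 5) (nat_lit 165) (nat_lit 5) (nat_lit 160) (nat_lit 5)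 (nat_lit 503) (nat_lit 444) (nat_lit 253)) (XT.nd (nat_lit 57876) (nat_lit 0) (nat_lit 25992) (XT.lf (nat_lit 0) (nat_lit 19208563036) (nat_lit 380) (nat_lit 7850898931) (nat_lit 456) (nat_lit 13885661564) (nat_lit 154) (nat_lit 5) (nat_lit 159) (nat_lit 5) (nat_lit 160) (nat_lit 5) (nat_lit 504) (nat_lit 444) (nat_lit 252)) (XT.lf (nat_lit 0) (nat_lit 2281816331) (nat_lit 0) (nat_lit 2281816331) (nat_lit 1748) (nat_lit 3209014786) (nat_lit 496) (nat_lit 5) (nat_lit 496) (nat_lit 3) (nat_lit 519) (nat_lit 3) (nat_lit 445) (nat_lit 445) (nat_lit 310)))) (XT.nd (nat_lit 156) (nat_lit 0) (nat_lit 76) (XT.nd (nat_lit 78) (nat_lit 0) (nat_lit 76) (XT.lf (nat_lit 76) (nat_lit 549401783) (nat_lit 0) (nat_lit 9174673028) (nat_lit 1824) (nat_lit 6045175782) (nat_lit 497) (nat_lit 5) (nat_lit 496) (nat_lit 5) (nat_lit 520) (nat_lit 5) (nat_lit 446) (nat_lit 445) (nat_lit 309)) (XT.lf (nat_lit 0) (nat_lit 10441100259)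 (nat_lit 1748) (nat_lit 3474606689) (nat_lit 1824) (nat_lit 2082172781) (nat_lit 497) (nat_lit 5) (nat_lit 520) (nat_lit 5) (nat_lit 521) (nat_lit 5) (nat_lit 447) (nat_lit 445) (nat_lit 308))) (XT.nd (nat_lit 78) (nat_lit 0) (nat_lit 76) (XT.lf (nat_lit 76) (nat_lit 8666643045) (nat_lit 0) (nat_lit 2615015101) (nat_lit 1824) (nat_lit 4949670136) (nat_lit 498) (nat_lit 5) (nat_lit 497) (nat_lit 5) (nat_lit 521) (nat_lit 5) (nat_lit 448) (nat_lit 445) (nat_lit 307)) (XT.lf (nat_lit 76) (nat_lit 4742969423) (nat_lit 0) (nat_lit 7502392661) (nat_lit 1824) (nat_lit 4224460566) (nat_lit 499) (nat_lit 5) (nat_lit 498) (nat_lit 5) (nat_lit 522) (nat_lit 5) (nat_lit 449) (nat_lit 445) (nat_lit 306))))))))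
noncomputable def xc100 : XT := (XT.nd (nat_lit 2106) (nat_lit 12236) (nat_lit 0) (XT.nd (nat_lit 1014) (nat_lit 10108) (nat_lit 0) (XT.nd (nat_lit 468) (nat_lit 1444) (nat_lit 0) (XT.nd (nat_lit 234) (nat_lit 1596) (nat_lit 0) (XT.nd (nat_lit 78) (nat_lit 0) (nat_lit 0) (XT.lf (nat_lit 76) (nat_lit 765295887) (nat_lit 0) (nat_lit 12558810371) (nat_lit 1824) (nat_lit 3389643927) (nat_lit 500) (nat_lit 5) (nat_lit 499) (nat_lit 5) (nat_lit 523) (nat_lit 5) (nat_lit 450) (nat_lit 445) (nat_lit 305)) (XT.nd (nat_lit 78) (nat_lit 0) (nat_lit 76) (XT.lf (nat_lit 76) (nat_lit 13732977945) (nat_lit 0) (nat_lit 817176524) (nat_lit 1824) (nat_lit 2412543136) (nat_lit 500) (nat_lit 5) (nat_lit 499) (nat_lit 5) (nat_lit 523) (nat_lit 5) (nat_lit 451) (nat_lit 445) (nat_lit 304)) (XT.lf (nat_lit 76) (nat_lit 9918477207) (nat_lit 0) (nat_lit 6018207981) (nat_lit 1824) (nat_lit 1279955103) (nat_lit 501) (nat_lit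 5) (nat_lit 500) (nat_lit 5) (nat_lit 524) (nat_lit 5) (nat_lit 452) (nat_lit 445) (nat_lit 303)))) (XT.nd (nat_lit 78) (nat_lit 1748) (nat_lit 0) (XT.lf (nat_lit 76) (nat_lit 6052740228) (nat_lit 0) (nat_lit 11404806090) (nat_lit 1824) (nat_lit 18801091) (nat_lit 502) (nat_lit 5) (nat_lit 501) (nat_lit 5) (nat_lit 525) (nat_lit 5) (nat_lit 453) (nat_lit 445) (nat_lit 302)) (XT.nd (nat_lit 78) (nat_lit 0) (nat_lit 0) (XT.lf (nat_lit 0) (nat_lit 1359022955) (nat_lit 1824) (nat_lit 15615791106) (nat_lit 1900) (nat_lit 766953737) (nat_lit 478) (nat_lit 5) (nat_lit 502) (nat_lit 5) (nat_lit 503) (nat_lit 5) (nat_lit 454) (nat_lit 445) (nat_lit 301)) (XT.lf (nat_lit 0) (nat_lit 2919187811) (nat_lit 1824) (nat_lit 1861384177) (nat_lit 1900) (nat_lit 13231751872) (nat_lit 478) (nat_lit 5) (nat_lit 502) (nat_lit 5) (nat_lit 503) (nat_lit 5) (nat_lit 455) (nat_lit 445) (nat_lit 300))))) (XT.nd (nat_lit 234)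 (nat_lit 1520) (nat_lit 0) (XT.nd (nat_lit 78) (nat_lit 0) (nat_lit 76) (XT.lf (nat_lit 0) (nat_lit 4645569991) (nat_lit 1824) (nat_lit 5880647903) (nat_lit 1900) (nat_lit 7762391215) (nat_lit 479) (nat_lit 5) (nat_lit 503) (nat_lit 5) (nat_lit 504) (nat_lit 5) (nat_lit 456) (nat_lit 445) (nat_lit 299)) (XT.nd (nat_lit 78) (nat_lit 0) (nat_lit 0) (XT.lf (nat_lit 0) (nat_lit 6525966115) (nat_lit 1824) (nat_lit 9955239928) (nat_lit 1900) (nat_lit 2089933155) (nat_lit 480) (nat_lit 5) (nat_lit 504) (nat_lit 5) (nat_lit 505) (nat_lit 5) (nat_lit 457) (nat_lit 445) (nat_lit 298)) (XT.lf (nat_lit 76) (nat_lit 4748863630) (nat_lit 0) (nat_lit 3843341575) (nat_lit 1900) (nat_lit 10267352075) (nat_lit 481) (nat_lit 5) (nat_lit 480) (nat_lit 5) (nat_lit 505) (nat_lit 5) (nat_lit 458) (nat_lit 445) (nat_lit 297)))) (XT.nd (nat_lit 156) (nat_lit 1672) (nat_lit 0) (XT.nd (nat_lit 78) (nat_lit 0) (nat_lit 76) (XT.lf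 (nat_lit 76) (nat_lit 816429429) (nat_lit 0) (nat_lit 10025166830) (nat_lit 1900) (nat_lit 8312609041) (nat_lit 482) (nat_lit 5) (nat_lit 481) (nat_lit 5) (nat_lit 506) (nat_lit 5) (nat_lit 459) (nat_lit 445) (nat_lit 296)) (XT.lf (nat_lit 0) (nat_lit 13288298517) (nat_lit 1824) (nat_lit 3126227503) (nat_lit 1900) (nat_lit 3040570819) (nat_lit 482) (nat_lit 5) (nat_lit 506) (nat_lit 5) (nat_lit 507) (nat_lit 5) (nat_lit 460) (nat_lit 445) (nat_lit 295))) (XT.nd (nat_lit 78) (nat_lit 1748) (nat_lit 0) (XT.lf (nat_lit 76) (nat_lit 12631119185) (nat_lit 0) (nat_lit 3315352447) (nat_lit 1900) (nat_lit 3815782748) (nat_lit 483) (nat_lit 5) (nat_lit 482) (nat_lit 5) (nat_lit 507) (nat_lit 5) (nat_lit 461) (nat_lit 445) (nat_lit 294)) (XT.lf (nat_lit 0) (nat_lit 8866605698) (nat_lit 1824) (nat_lit 9952041104) (nat_lit 1900) (nat_lit 1257295339) (nat_lit 459) (nat_lit 5) (nat_lit 483) (nat_lit 5) (nat_lit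 484) (nat_lit 5) (nat_lit 462) (nat_lit 445) (nat_lit 293)))))) (XT.nd (nat_lit 546) (nat_lit 4560) (nat_lit 0) (XT.nd (nat_lit 234) (nat_lit 3496) (nat_lit 0) (XT.nd (nat_lit 78) (nat_lit 912) (nat_lit 0) (XT.lf (nat_lit 0) (nat_lit 1476558196) (nat_lit 1140) (nat_lit 15350843812) (nat_lit 76) (nat_lit 3569126526) (nat_lit 444) (nat_lit 5) (nat_lit 459) (nat_lit 5) (nat_lit 445) (nat_lit 5) (nat_lit 463) (nat_lit 445) (nat_lit 292)) (XT.nd (nat_lit 78) (nat_lit 0) (nat_lit 0) (XT.lf (nat_lit 0) (nat_lit 1146857803) (nat_lit 912) (nat_lit 3268774427) (nat_lit 988) (nat_lit 16308128927) (nat_lit 432) (nat_lit 5) (nat_lit 444) (nat_lit 5) (nat_lit 445) (nat_lit 5) (nat_lit 464) (nat_lit 445) (nat_lit 291)) (XT.lf (nat_lit 0) (nat_lit 7607012911) (nat_lit 988) (nat_lit 2788606525) (nat_lit 76) (nat_lit 10661909201) (nat_lit 432) (nat_lit 5) (nat_lit 445) (nat_lit 5) (nat_lit 433) (nat_lit 5) (nat_lit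 465) (nat_lit 445) (nat_lit 290)))) (XT.nd (nat_lit 156) (nat_lit 1748) (nat_lit 0) (XT.nd (nat_lit 78) (nat_lit 836) (nat_lit 0) (XT.lf (nat_lit 0) (nat_lit 11025258086) (nat_lit 988) (nat_lit 6758217816) (nat_lit 76) (nat_lit 3615211328) (nat_lit 420) (nat_lit 5) (nat_lit 433) (nat_lit 5) (nat_lit 421) (nat_lit 5) (nat_lit 466) (nat_lit 445) (nat_lit 289)) (XT.lf (nat_lit 0) (nat_lit 10945667243) (nat_lit 836) (nat_lit 3750486786) (nat_lit 912) (nat_lit 7050925017) (nat_lit 409) (nat_lit 5) (nat_lit 420) (nat_lit 5) (nat_lit 421) (nat_lit 5) (nat_lit 467) (nat_lit 445) (nat_lit 288))) (XT.nd (nat_lit 78) (nat_lit 912) (nat_lit 0) (XT.lf (nat_lit 0) (nat_lit 7183416136) (nat_lit 836) (nat_lit 11446709164) (nat_lit 912) (nat_lit 3472738866) (nat_lit 398) (nat_lit 5) (nat_lit 409) (nat_lit 5) (nat_lit 410) (nat_lit 5) (nat_lit 468) (nat_lit 445) (nat_lit 287)) (XT.lf (nat_lit 0) (nat_lit 341641344)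 (nat_lit 912) (nat_lit 19090789126) (nat_lit 76) (nat_lit 3034232445) (nat_lit 386) (nat_lit 5) (nat_lit 398) (nat_lit 5) (nat_lit 387) (nat_lit 5) (nat_lit 469) (nat_lit 445) (nat_lit 286))))) (XT.nd (nat_lit 234) (nat_lit 2964) (nat_lit 0) (XT.nd (nat_lit 78) (nat_lit 1596) (nat_lit 0) (XT.lf (nat_lit 0) (nat_lit 4392932779) (nat_lit 912) (nat_lit 524692402) (nat_lit 76) (nat_lit 17919898616) (nat_lit 386) (nat_lit 5) (nat_lit 398) (nat_lit 5) (nat_lit 387) (nat_lit 5) (nat_lit 470) (nat_lit 445) (nat_lit 285)) (XT.nd (nat_lit 78) (nat_lit 760) (nat_lit 0) (XT.lf (nat_lit 0) (nat_lit 8745343139) (nat_lit 912) (nat_lit 4446657629) (nat_lit 76) (nat_lit 10023918598) (nat_lit 375) (nat_lit 5) (nat_lit 387) (nat_lit 5) (nat_lit 376) (nat_lit 5) (nat_lit 471) (nat_lit 445) (nat_lit 284)) (XT.lf (nat_lit 0) (nat_lit 13367001218) (nat_lit 836) (nat_lit 8413970684) (nat_lit 76) (nat_lit 1821921844) (nat_lit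 365) (nat_lit 5) (nat_lit 376) (nat_lit 5) (nat_lit 366) (nat_lit 5) (nat_lit 472) (nat_lit 445) (nat_lit 283)))) (XT.nd (nat_lit 156) (nat_lit 1520) (nat_lit 0) (XT.nd (nat_lit 78) (nat_lit 684) (nat_lit 0) (XT.lf (nat_lit 0) (nat_lit 11527380692) (nat_lit 760) (nat_lit 6785038272) (nat_lit 836) (nat_lit 5685356634) (nat_lit 355) (nat_lit 5) (nat_lit 365) (nat_lit 5) (nat_lit 366) (nat_lit 5) (nat_lit 473) (nat_lit 445) (nat_lit 282)) (XT.lf (nat_lit 0) (nat_lit 7815717783) (nat_lit 684) (nat_lit 15746744994) (nat_lit 760) (nat_lit 838916282) (nat_lit 346) (nat_lit 5) (nat_lit 355) (nat_lit 5) (nat_lit 356) (nat_lit 5) (nat_lit 474) (nat_lit 445) (nat_lit 281))) (XT.nd (nat_lit 78) (nat_lit 684) (nat_lit 0) (XT.lf (nat_lit 0) (nat_lit 4036836607) (nat_lit 760) (nat_lit 210281643) (nat_lit 836) (nat_lit 20566460166) (nat_lit 335) (nat_lit 5) (nat_lit 345) (nat_lit 5) (nat_lit 346) (nat_lit 5) (nat_lit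 475) (nat_lit 445) (nat_lit 280)) (XT.lf (nat_lit 0) (nat_lit 153338179) (nat_lit 684) (nat_lit 9529915555) (nat_lit 760) (nat_lit 15550601157) (nat_lit 326) (nat_lit 5) (nat_lit 335) (nat_lit 5) (nat_lit 336) (nat_lit 5) (nat_lit 476) (nat_lit 445) (nat_lit 279))))))) (XT.nd (nat_lit 1014) (nat_lit 5472) (nat_lit 0) (XT.nd (nat_lit 468) (nat_lit 3496) (nat_lit 0) (XT.nd (nat_lit 234) (nat_lit 1900) (nat_lit 0) (XT.nd (nat_lit 78) (nat_lit 1368) (nat_lit 0) (XT.lf (nat_lit 0) (nat_lit 15459666589) (nat_lit 760) (nat_lit 3721185425) (nat_lit 76) (nat_lit 6482344163) (nat_lit 326) (nat_lit 5) (nat_lit 336) (nat_lit 5) (nat_lit 327) (nat_lit 5) (nat_lit 477) (nat_lit 445) (nat_lit 278)) (XT.nd (nat_lit 78) (nat_lit 684) (nat_lit 0) (XT.lf (nat_lit 0) (nat_lit 18448484147) (nat_lit 684) (nat_lit 3136973142) (nat_lit 760) (nat_lit 4516439075) (nat_lit 317) (nat_lit 5) (nat_lit 326) (nat_lit 5) (nat_lit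 327) (nat_lit 5) (nat_lit 478) (nat_lit 445) (nat_lit 277)) (XT.lf (nat_lit 0) (nat_lit 1526657030) (nat_lit 684) (nat_lit 11679438934) (nat_lit 76) (nat_lit 13343428101) (nat_lit 308) (nat_lit 5) (nat_lit 317) (nat_lit 5) (nat_lit 309) (nat_lit 5) (nat_lit 479) (nat_lit 445) (nat_lit 276)))) (XT.nd (nat_lit 78) (nat_lit 1216) (nat_lit 0) (XT.lf (nat_lit 0) (nat_lit 7851333698) (nat_lit 760) (nat_lit 15777485456) (nat_lit 76) (nat_lit 3377931746) (nat_lit 299) (nat_lit 5) (nat_lit 309) (nat_lit 5) (nat_lit 300) (nat_lit 5) (nat_lit 480) (nat_lit 445) (nat_lit 275)) (XT.nd (nat_lit 78) (nat_lit 608) (nat_lit 0) (XT.lf (nat_lit 0) (nat_lit 7510036520) (nat_lit 608) (nat_lit 7065437692) (nat_lit 684) (nat_lit 12898026189) (nat_lit 291) (nat_lit 5) (nat_lit 299) (nat_lit 5) (nat_lit 300) (nat_lit 5) (nat_lit 481) (nat_lit 445) (nat_lit 274)) (XT.lf (nat_lit 0) (nat_lit 3734819612) (nat_lit 608) (nat_lit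 17956402448) (nat_lit 684) (nat_lit 6259232989) (nat_lit 283) (nat_lit 5) (nat_lit 291) (nat_lit 5) (nat_lit 292) (nat_lit 5) (nat_lit 482) (nat_lit 445) (nat_lit 273))))) (XT.nd (nat_lit 234) (nat_lit 2204) (nat_lit 0) (XT.nd (nat_lit 78) (nat_lit 1216) (nat_lit 0) (XT.lf (nat_lit 0) (nat_lit 747778613) (nat_lit 684) (nat_lit 82148861) (nat_lit 76) (nat_lit 27608183126) (nat_lit 282) (nat_lit 5) (nat_lit 291) (nat_lit 5) (nat_lit 283) (nat_lit 5) (nat_lit 483) (nat_lit 445) (nat_lit 272)) (XT.nd (nat_lit 78) (nat_lit 608) (nat_lit 0) (XT.lf (nat_lit 0) (nat_lit 8147017577) (nat_lit 684) (nat_lit 3993154479) (nat_lit 76) (nat_lit 16794055481) (nat_lit 274) (nat_lit 5) (nat_lit 283) (nat_lit 5) (nat_lit 275) (nat_lit 5) (nat_lit 484) (nat_lit 445) (nat_lit 271)) (XT.lf (nat_lit 0) (nat_lit 15944304112) (nat_lit 684) (nat_lit 7939445114) (nat_lit 76) (nat_lit 5557957639) (nat_lit 266) (nat_lit 5) (nat_lit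 275) (nat_lit 5) (nat_lit 267) (nat_lit 5) (nat_lit 485) (nat_lit 445) (nat_lit 270)))) (XT.nd (nat_lit 156) (nat_lit 1064) (nat_lit 0) (XT.nd (nat_lit 78) (nat_lit 608) (nat_lit 0) (XT.lf (nat_lit 0) (nat_lit 17999771816) (nat_lit 532) (nat_lit 6194697242) (nat_lit 608) (nat_lit 5765562599) (nat_lit 259) (nat_lit 5) (nat_lit 266) (nat_lit 5) (nat_lit 267) (nat_lit 5) (nat_lit 486) (nat_lit 445) (nat_lit 269)) (XT.lf (nat_lit 0) (nat_lit 2390602071) (nat_lit 608) (nat_lit 16069572370) (nat_lit 76) (nat_lit 12029022581) (nat_lit 251) (nat_lit 5) (nat_lit 259) (nat_lit 5) (nat_lit 252) (nat_lit 5) (nat_lit 487) (nat_lit 445) (nat_lit 268))) (XT.nd (nat_lit 78) (nat_lit 532) (nat_lit 0) (XT.lf (nat_lit 0) (nat_lit 10774605604) (nat_lit 532) (nat_lit 125802439) (nat_lit 608) (nat_lit 20129321603) (nat_lit 244) (nat_lit 5) (nat_lit 251) (nat_lit 5) (nat_lit 252) (nat_lit 5) (nat_lit 488) (nat_lit 445) (nat_lit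 267)) (XT.lf (nat_lit 0) (nat_lit 7021178755) (nat_lit 532) (nat_lit 12915310677) (nat_lit 608) (nat_lit 11644569444) (nat_lit 237) (nat_lit 5) (nat_lit 244) (nat_lit 5) (nat_lit 245) (nat_lit 5) (nat_lit 489) (nat_lit 445) (nat_lit 266)))))) (XT.nd (nat_lit 546) (nat_lit 2508) (nat_lit 0) (XT.nd (nat_lit 234) (nat_lit 1900) (nat_lit 0) (XT.nd (nat_lit 78) (nat_lit 608) (nat_lit 0) (XT.lf (nat_lit 0) (nat_lit 3241360757) (nat_lit 456) (nat_lit 26194549381) (nat_lit 532) (nat_lit 2709172953) (nat_lit 231) (nat_lit 5) (nat_lit 237) (nat_lit 5) (nat_lit 238) (nat_lit 5) (nat_lit 490) (nat_lit 445) (nat_lit 265)) (XT.nd (nat_lit 78) (nat_lit 532) (nat_lit 0) (XT.lf (nat_lit 0) (nat_lit 6657188454) (nat_lit 532) (nat_lit 647598455) (nat_lit 76) (nat_lit 25415436518) (nat_lit 230) (nat_lit 5) (nat_lit 237) (nat_lit 5) (nat_lit 231) (nat_lit 5) (nat_lit 491) (nat_lit 445) (nat_lit 264)) (XT.lf (nat_lit 0)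 (nat_lit 16529573931) (nat_lit 608) (nat_lit 4580798675) (nat_lit 76) (nat_lit 12196650636) (nat_lit 223) (nat_lit 5) (nat_lit 231) (nat_lit 5) (nat_lit 224) (nat_lit 5) (nat_lit 492) (nat_lit 445) (nat_lit 263)))) (XT.nd (nat_lit 156) (nat_lit 912) (nat_lit 0) (XT.nd (nat_lit 78) (nat_lit 532) (nat_lit 0) (XT.lf (nat_lit 0) (nat_lit 25354624715) (nat_lit 456) (nat_lit 1555841628) (nat_lit 532) (nat_lit 6996714219) (nat_lit 217) (nat_lit 5) (nat_lit 223) (nat_lit 5) (nat_lit 224) (nat_lit 5) (nat_lit 493) (nat_lit 445) (nat_lit 262)) (XT.lf (nat_lit 0) (nat_lit 3327541362) (nat_lit 532) (nat_lit 12657008515) (nat_lit 76) (nat_lit 18534584127) (nat_lit 210) (nat_lit 5) (nat_lit 217) (nat_lit 5) (nat_lit 211) (nat_lit 5) (nat_lit 494) (nat_lit 445) (nat_lit 261))) (XT.nd (nat_lit 78) (nat_lit 456) (nat_lit 0) (XT.lf (nat_lit 0) (nat_lit 14077215232) (nat_lit 532) (nat_lit 16839509204) (nat_lit 76) (nat_lit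 4227581879) (nat_lit 204) (nat_lit 5) (nat_lit 211) (nat_lit 5) (nat_lit 205) (nat_lit 5) (nat_lit 495) (nat_lit 445) (nat_lit 260)) (XT.lf (nat_lit 0) (nat_lit 14659293032) (nat_lit 456) (nat_lit 10773207379) (nat_lit 532) (nat_lit 10350071160) (nat_lit 198) (nat_lit 5) (nat_lit 204) (nat_lit 5) (nat_lit 205) (nat_lit 5) (nat_lit 496) (nat_lit 445) (nat_lit 259))))) (XT.nd (nat_lit 234) (nat_lit 1216) (nat_lit 0) (XT.nd (nat_lit 78) (nat_lit 836) (nat_lit 0) (XT.lf (nat_lit 0) (nat_lit 926686824) (nat_lit 456) (nat_lit 25474655760) (nat_lit 76) (nat_lit 10033607855) (nat_lit 192) (nat_lit 5) (nat_lit 198) (nat_lit 5) (nat_lit 193) (nat_lit 5) (nat_lit 497) (nat_lit 445) (nat_lit 258)) (XT.nd (nat_lit 78) (nat_lit 380) (nat_lit 0) (XT.lf (nat_lit 0) (nat_lit 7135247536) (nat_lit 456) (nat_lit 5524012187) (nat_lit 532) (nat_lit 24441110272) (nat_lit 186) (nat_lit 5) (nat_lit 192) (nat_lit 5) (nat_lit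 193) (nat_lit 5) (nat_lit 498) (nat_lit 445) (nat_lit 257)) (XT.lf (nat_lit 0) (nat_lit 3219620278) (nat_lit 380) (nat_lit 21817565973) (nat_lit 456) (nat_lit 12742698536) (nat_lit 181) (nat_lit 5) (nat_lit 186) (nat_lit 5) (nat_lit 187) (nat_lit 5) (nat_lit 499) (nat_lit 445) (nat_lit 256)))) (XT.nd (nat_lit 156) (nat_lit 760) (nat_lit 0) (XT.nd (nat_lit 78) (nat_lit 456) (nat_lit 0) (XT.lf (nat_lit 0) (nat_lit 37765201456) (nat_lit 380) (nat_lit 256053987) (nat_lit 456) (nat_lit 453833653) (nat_lit 181) (nat_lit 5) (nat_lit 186) (nat_lit 5) (nat_lit 187) (nat_lit 5) (nat_lit 500) (nat_lit 445) (nat_lit 255)) (XT.lf (nat_lit 0) (nat_lit 12407472277) (nat_lit 456) (nat_lit 4807455964) (nat_lit 76) (nat_lit 21967360191) (nat_lit 175) (nat_lit 5) (nat_lit 181) (nat_lit 5) (nat_lit 176) (nat_lit 5) (nat_lit 501) (nat_lit 445) (nat_lit 254))) (XT.nd (nat_lit 78) (nat_lit 380) (nat_lit 0) (XT.lf (nat_lit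 0) (nat_lit 25885060260) (nat_lit 456) (nat_lit 8934221696) (nat_lit 76) (nat_lit 5086629780) (nat_lit 170) (nat_lit 5) (nat_lit 176) (nat_lit 5) (nat_lit 171) (nat_lit 5) (nat_lit 502) (nat_lit 445) (nat_lit 253)) (XT.lf (nat_lit 0) (nat_lit 27477245561) (nat_lit 380) (nat_lit 12611367361) (nat_lit 456) (nat_lit 556198233) (nat_lit 165) (nat_lit 5) (nat_lit 170) (nat_lit 5) (nat_lit 171) (nat_lit 5) (nat_lit 503) (nat_lit 445) (nat_lit 252))))))))
noncomputable def xc101 : XT := (XT.nd (nat_lit 59982) (nat_lit 0) (nat_lit 2052) (XT.nd (nat_lit 58890) (nat_lit 0) (nat_lit 17252) (XT.nd (nat_lit 58344) (nat_lit 0) (nat_lit 24168) (XT.nd (nat_lit 58110) (nat_lit 0) (nat_lit 25688) (XT.nd (nat_lit 57954) (nat_lit 0) (nat_lit 25612) (XT.lf (nat_lit 0) (nat_lit 13418036891) (nat_lit 456) (nat_lit 17550146123) (nat_lit 76) (nat_lit 10430361295) (nat_lit 159) (nat_lit 5) (nat_lit 165) (nat_lit 5) (nat_lit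 160) (nat_lit 5) (nat_lit 504) (nat_lit 445) (nat_lit 251)) (XT.nd (nat_lit 78) (nat_lit 0) (nat_lit 0) (XT.lf (nat_lit 0) (nat_lit 2554771711) (nat_lit 0) (nat_lit 2554771711) (nat_lit 1748) (nat_lit 2888077944) (nat_lit 496) (nat_lit 5) (nat_lit 496) (nat_lit 3) (nat_lit 519) (nat_lit 3) (nat_lit 446) (nat_lit 446) (nat_lit 308)) (XT.lf (nat_lit 76) (nat_lit 987007238) (nat_lit 0) (nat_lit 9823124077) (nat_lit 1824) (nat_lit 5416260654) (nat_lit 497) (nat_lit 5) (nat_lit 496) (nat_lit 5) (nat_lit 520) (nat_lit 5) (nat_lit 447) (nat_lit 446) (nat_lit 307)))) (XT.nd (nat_lit 78) (nat_lit 0) (nat_lit 0) (XT.lf (nat_lit 0) (nat_lit 11523179022) (nat_lit 1748) (nat_lit 3152162680) (nat_lit 1824) (nat_lit 1787049489) (nat_lit 497) (nat_lit 5) (nat_lit 520) (nat_lit 5) (nat_lit 521) (nat_lit 5) (nat_lit 448) (nat_lit 446) (nat_lit 306)) (XT.nd (nat_lit 78) (nat_lit 0) (nat_lit 76) (XT.lf (nat_lit 76) (nat_lit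 9346402134) (nat_lit 0) (nat_lit 3022883304) (nat_lit 1824) (nat_lit 4333952524) (nat_lit 498) (nat_lit 5) (nat_lit 497) (nat_lit 5) (nat_lit 521) (nat_lit 5) (nat_lit 449) (nat_lit 446) (nat_lit 305)) (XT.lf (nat_lit 76) (nat_lit 5315098620) (nat_lit 0) (nat_lit 8025695473) (nat_lit 1824) (nat_lit 3608516554) (nat_lit 499) (nat_lit 5) (nat_lit 498) (nat_lit 5) (nat_lit 522) (nat_lit 5) (nat_lit 450) (nat_lit 446) (nat_lit 304))))) (XT.nd (nat_lit 234) (nat_lit 1672) (nat_lit 0) (XT.nd (nat_lit 78) (nat_lit 0) (nat_lit 0) (XT.lf (nat_lit 76) (nat_lit 1227395839) (nat_lit 0) (nat_lit 13204270077) (nat_lit 1824) (nat_lit 2769296105) (nat_lit 500) (nat_lit 5) (nat_lit 499) (nat_lit 5) (nat_lit 523) (nat_lit 5) (nat_lit 451) (nat_lit 446) (nat_lit 303)) (XT.nd (nat_lit 78) (nat_lit 0) (nat_lit 76) (XT.lf (nat_lit 76) (nat_lit 14571317842) (nat_lit 0) (nat_lit 1102561135) (nat_lit 1824) (nat_lit 1783912497)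 (nat_lit 500) (nat_lit 5) (nat_lit 499) (nat_lit 5) (nat_lit 523) (nat_lit 5) (nat_lit 452) (nat_lit 446) (nat_lit 302)) (XT.lf (nat_lit 76) (nat_lit 10650694689) (nat_lit 0) (nat_lit 6432472533) (nat_lit 1824) (nat_lit 636563230) (nat_lit 501) (nat_lit 5) (nat_lit 500) (nat_lit 5) (nat_lit 524) (nat_lit 5) (nat_lit 453) (nat_lit 446) (nat_lit 301)))) (XT.nd (nat_lit 156) (nat_lit 0) (nat_lit 76) (XT.nd (nat_lit 78) (nat_lit 0) (nat_lit 76) (XT.lf (nat_lit 0) (nat_lit 635547718) (nat_lit 1824) (nat_lit 11315154561) (nat_lit 1900) (nat_lit 6036805466) (nat_lit 477) (nat_lit 5) (nat_lit 501) (nat_lit 5) (nat_lit 502) (nat_lit 5) (nat_lit 454) (nat_lit 446) (nat_lit 300)) (XT.lf (nat_lit 0) (nat_lit 2037001210) (nat_lit 1824) (nat_lit 15626475051) (nat_lit 1900) (nat_lit 597762144) (nat_lit 478) (nat_lit 5) (nat_lit 502) (nat_lit 5) (nat_lit 503) (nat_lit 5) (nat_lit 455) (nat_lit 446) (nat_lit 299)))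 (XT.nd (nat_lit 78) (nat_lit 0) (nat_lit 76) (XT.lf (nat_lit 0) (nat_lit 3625411568) (nat_lit 1824) (nat_lit 1472769597) (nat_lit 1900) (nat_lit 13442102287) (nat_lit 478) (nat_lit 5) (nat_lit 502) (nat_lit 5) (nat_lit 503) (nat_lit 5) (nat_lit 456) (nat_lit 446) (nat_lit 298)) (XT.lf (nat_lit 0) (nat_lit 5387325994) (nat_lit 1824) (nat_lit 5606637337) (nat_lit 1900) (nat_lit 7831220194) (nat_lit 479) (nat_lit 5) (nat_lit 503) (nat_lit 5) (nat_lit 504) (nat_lit 5) (nat_lit 457) (nat_lit 446) (nat_lit 297)))))) (XT.nd (nat_lit 546) (nat_lit 4408) (nat_lit 0) (XT.nd (nat_lit 234) (nat_lit 2736) (nat_lit 0) (XT.nd (nat_lit 78) (nat_lit 0) (nat_lit 0) (XT.lf (nat_lit 0) (nat_lit 7308526910) (nat_lit 1824) (nat_lit 9798046547) (nat_lit 1900) (nat_lit 2009929255) (nat_lit 480) (nat_lit 5) (nat_lit 504) (nat_lit 5) (nat_lit 505) (nat_lit 5) (nat_lit 458) (nat_lit 446) (nat_lit 296)) (XT.nd (nat_lit 78) (nat_lit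 0) (nat_lit 76) (XT.lf (nat_lit 76) (nat_lit 5339784485) (nat_lit 0) (nat_lit 4082789622) (nat_lit 1900) (nat_lit 9991283830) (nat_lit 481) (nat_lit 5) (nat_lit 480) (nat_lit 5) (nat_lit 505) (nat_lit 5) (nat_lit 459) (nat_lit 446) (nat_lit 295)) (XT.lf (nat_lit 76) (nat_lit 1294194296) (nat_lit 0) (nat_lit 10430735216) (nat_lit 1900) (nat_lit 7992707222) (nat_lit 482) (nat_lit 5) (nat_lit 481) (nat_lit 5) (nat_lit 506) (nat_lit 5) (nat_lit 460) (nat_lit 446) (nat_lit 294)))) (XT.nd (nat_lit 156) (nat_lit 2888) (nat_lit 0) (XT.nd (nat_lit 78) (nat_lit 0) (nat_lit 0) (XT.lf (nat_lit 0) (nat_lit 14228117227) (nat_lit 1824) (nat_lit 2768415079) (nat_lit 1900) (nat_lit 3031361987) (nat_lit 482) (nat_lit 5) (nat_lit 506) (nat_lit 5) (nat_lit 507) (nat_lit 5) (nat_lit 461) (nat_lit 446) (nat_lit 293)) (XT.lf (nat_lit 76) (nat_lit 13454325348) (nat_lit 0) (nat_lit 3498832474) (nat_lit 1900) (nat_lit 3391367226)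 (nat_lit 483) (nat_lit 5) (nat_lit 482) (nat_lit 5) (nat_lit 507) (nat_lit 5) (nat_lit 462) (nat_lit 446) (nat_lit 292))) (XT.nd (nat_lit 78) (nat_lit 1140) (nat_lit 0) (XT.lf (nat_lit 0) (nat_lit 9580630361) (nat_lit 1824) (nat_lit 10317860003) (nat_lit 1900) (nat_lit 769394143) (nat_lit 459) (nat_lit 5) (nat_lit 483) (nat_lit 5) (nat_lit 484) (nat_lit 5) (nat_lit 463) (nat_lit 446) (nat_lit 291)) (XT.lf (nat_lit 0) (nat_lit 2026995997) (nat_lit 1140) (nat_lit 15353258416) (nat_lit 76) (nat_lit 3618018397) (nat_lit 444) (nat_lit 5) (nat_lit 459) (nat_lit 5) (nat_lit 445) (nat_lit 5) (nat_lit 464) (nat_lit 446) (nat_lit 290))))) (XT.nd (nat_lit 234) (nat_lit 2584) (nat_lit 0) (XT.nd (nat_lit 78) (nat_lit 912) (nat_lit 0) (XT.lf (nat_lit 0) (nat_lit 1631941946) (nat_lit 912) (nat_lit 3410484436) (nat_lit 988) (nat_lit 16293133184) (nat_lit 432) (nat_lit 5) (nat_lit 444) (nat_lit 5) (nat_lit 445) (nat_lit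 5) (nat_lit 465) (nat_lit 446) (nat_lit 289)) (XT.nd (nat_lit 78) (nat_lit 912) (nat_lit 0) (XT.lf (nat_lit 0) (nat_lit 8314875533) (nat_lit 988) (nat_lit 2424812082) (nat_lit 76) (nat_lit 10939946727) (nat_lit 432) (nat_lit 5) (nat_lit 445) (nat_lit 5) (nat_lit 433) (nat_lit 5) (nat_lit 466) (nat_lit 446) (nat_lit 288)) (XT.lf (nat_lit 0) (nat_lit 11824371591) (nat_lit 988) (nat_lit 6511189938) (nat_lit 76) (nat_lit 3695692882) (nat_lit 420) (nat_lit 5) (nat_lit 433) (nat_lit 5) (nat_lit 421) (nat_lit 5) (nat_lit 467) (nat_lit 446) (nat_lit 287)))) (XT.nd (nat_lit 156) (nat_lit 912) (nat_lit 0) (XT.nd (nat_lit 78) (nat_lit 836) (nat_lit 0) (XT.lf (nat_lit 0) (nat_lit 11716514616) (nat_lit 836) (nat_lit 3878111223) (nat_lit 912) (nat_lit 6795688281) (nat_lit 409) (nat_lit 5) (nat_lit 420) (nat_lit 5) (nat_lit 421) (nat_lit 5) (nat_lit 468) (nat_lit 446) (nat_lit 286)) (XT.lf (nat_lit 0) (nat_lit 7843342224)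 (nat_lit 836) (nat_lit 11792736489) (nat_lit 912) (nat_lit 3120905576) (nat_lit 398) (nat_lit 5) (nat_lit 409) (nat_lit 5) (nat_lit 410) (nat_lit 5) (nat_lit 469) (nat_lit 446) (nat_lit 285))) (XT.nd (nat_lit 78) (nat_lit 0) (nat_lit 0) (XT.lf (nat_lit 0) (nat_lit 791716079) (nat_lit 912) (nat_lit 19211593662) (nat_lit 76) (nat_lit 3128532938) (nat_lit 386) (nat_lit 5) (nat_lit 398) (nat_lit 5) (nat_lit 387) (nat_lit 5) (nat_lit 470) (nat_lit 446) (nat_lit 284)) (XT.lf (nat_lit 0) (nat_lit 4951735806) (nat_lit 912) (nat_lit 101676729) (nat_lit 76) (nat_lit 18460673748) (nat_lit 386) (nat_lit 5) (nat_lit 398) (nat_lit 5) (nat_lit 387) (nat_lit 5) (nat_lit 471) (nat_lit 446) (nat_lit 283))))))) (XT.nd (nat_lit 1092) (nat_lit 6688) (nat_lit 0) (XT.nd (nat_lit 546) (nat_lit 3952) (nat_lit 0) (XT.nd (nat_lit 234) (nat_lit 2204) (nat_lit 0) (XT.nd (nat_lit 78) (nat_lit 1520) (nat_lit 0) (XT.lf (nat_lit 0)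 (nat_lit 9425176199) (nat_lit 912) (nat_lit 4140141926) (nat_lit 76) (nat_lit 10338707109) (nat_lit 375) (nat_lit 5) (nat_lit 387) (nat_lit 5) (nat_lit 376) (nat_lit 5) (nat_lit 472) (nat_lit 446) (nat_lit 282)) (XT.nd (nat_lit 78) (nat_lit 760) (nat_lit 0) (XT.lf (nat_lit 0) (nat_lit 14176294580) (nat_lit 836) (nat_lit 8225587480) (nat_lit 76) (nat_lit 1900911222) (nat_lit 365) (nat_lit 5) (nat_lit 376) (nat_lit 5) (nat_lit 366) (nat_lit 5) (nat_lit 473) (nat_lit 446) (nat_lit 281)) (XT.lf (nat_lit 0) (nat_lit 12306852943) (nat_lit 760) (nat_lit 6954145716) (nat_lit 836) (nat_lit 5448705083) (nat_lit 355) (nat_lit 5) (nat_lit 365) (nat_lit 5) (nat_lit 366) (nat_lit 5) (nat_lit 474) (nat_lit 446) (nat_lit 280)))) (XT.nd (nat_lit 156) (nat_lit 684) (nat_lit 0) (XT.nd (nat_lit 78) (nat_lit 836) (nat_lit 0) (XT.lf (nat_lit 0) (nat_lit 8484459924) (nat_lit 684) (nat_lit 16175493163) (nat_lit 760) (nat_lit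 465634646) (nat_lit 346) (nat_lit 5) (nat_lit 355) (nat_lit 5) (nat_lit 356) (nat_lit 5) (nat_lit 475) (nat_lit 446) (nat_lit 279)) (XT.lf (nat_lit 0) (nat_lit 4590327385) (nat_lit 760) (nat_lit 168782030) (nat_lit 836) (nat_lit 20791165412) (nat_lit 335) (nat_lit 5) (nat_lit 345) (nat_lit 5) (nat_lit 346) (nat_lit 5) (nat_lit 476) (nat_lit 446) (nat_lit 278))) (XT.nd (nat_lit 78) (nat_lit 0) (nat_lit 0) (XT.lf (nat_lit 0) (nat_lit 590589535) (nat_lit 684) (nat_lit 9759648560) (nat_lit 760) (nat_lit 15633083885) (nat_lit 326) (nat_lit 5) (nat_lit 335) (nat_lit 5) (nat_lit 336) (nat_lit 5) (nat_lit 477) (nat_lit 446) (nat_lit 277)) (XT.lf (nat_lit 0) (nat_lit 16289331737) (nat_lit 760) (nat_lit 3405796608) (nat_lit 76) (nat_lit 6730627940) (nat_lit 326) (nat_lit 5) (nat_lit 336) (nat_lit 5) (nat_lit 327) (nat_lit 5) (nat_lit 478) (nat_lit 446) (nat_lit 276))))) (XT.nd (nat_lit 234) (nat_lit 1900) (nat_lit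 0) (XT.nd (nat_lit 78) (nat_lit 1368) (nat_lit 0) (XT.lf (nat_lit 0) (nat_lit 19422035088) (nat_lit 684) (nat_lit 3168932056) (nat_lit 760) (nat_lit 4286809444) (nat_lit 317) (nat_lit 5) (nat_lit 326) (nat_lit 5) (nat_lit 327) (nat_lit 5) (nat_lit 479) (nat_lit 446) (nat_lit 275)) (XT.nd (nat_lit 78) (nat_lit 684) (nat_lit 0) (XT.lf (nat_lit 0) (nat_lit 1925434698) (nat_lit 684) (nat_lit 11605170212) (nat_lit 76) (nat_lit 13808328430) (nat_lit 308) (nat_lit 5) (nat_lit 317) (nat_lit 5) (nat_lit 309) (nat_lit 5) (nat_lit 480) (nat_lit 446) (nat_lit 274)) (XT.lf (nat_lit 0) (nat_lit 8432752908) (nat_lit 760) (nat_lit 15826592781) (nat_lit 76) (nat_lit 3550673758) (nat_lit 299) (nat_lit 5) (nat_lit 309) (nat_lit 5) (nat_lit 300) (nat_lit 5) (nat_lit 481) (nat_lit 446) (nat_lit 273)))) (XT.nd (nat_lit 156) (nat_lit 684) (nat_lit 0) (XT.nd (nat_lit 78) (nat_lit 608) (nat_lit 0) (XT.lf (nat_lit 0) (nat_lit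 8152672435) (nat_lit 608) (nat_lit 7198580667) (nat_lit 684) (nat_lit 12939666100) (nat_lit 291) (nat_lit 5) (nat_lit 299) (nat_lit 5) (nat_lit 300) (nat_lit 5) (nat_lit 482) (nat_lit 446) (nat_lit 272)) (XT.lf (nat_lit 0) (nat_lit 4263600921) (nat_lit 608) (nat_lit 18410215391) (nat_lit 684) (nat_lit 6108499781) (nat_lit 283) (nat_lit 5) (nat_lit 291) (nat_lit 5) (nat_lit 292) (nat_lit 5) (nat_lit 483) (nat_lit 446) (nat_lit 271))) (XT.nd (nat_lit 78) (nat_lit 0) (nat_lit 0) (XT.lf (nat_lit 0) (nat_lit 328620369) (nat_lit 608) (nat_lit 768065589) (nat_lit 684) (nat_lit 28188023770) (nat_lit 274) (nat_lit 5) (nat_lit 282) (nat_lit 5) (nat_lit 283) (nat_lit 5) (nat_lit 484) (nat_lit 446) (nat_lit 270)) (XT.lf (nat_lit 0) (nat_lit 8709484067) (nat_lit 684) (nat_lit 3704845716) (nat_lit 76) (nat_lit 17381549180) (nat_lit 274) (nat_lit 5) (nat_lit 283) (nat_lit 5) (nat_lit 275) (nat_lit 5) (nat_lit 485)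 (nat_lit 446) (nat_lit 269)))))) (XT.nd (nat_lit 546) (nat_lit 3344) (nat_lit 0) (XT.nd (nat_lit 234) (nat_lit 1596) (nat_lit 0) (XT.nd (nat_lit 78) (nat_lit 1140) (nat_lit 0) (XT.lf (nat_lit 0) (nat_lit 16734617004) (nat_lit 684) (nat_lit 7770489100) (nat_lit 76) (nat_lit 5813598425) (nat_lit 266) (nat_lit 5) (nat_lit 275) (nat_lit 5) (nat_lit 267) (nat_lit 5) (nat_lit 486) (nat_lit 446) (nat_lit 268)) (XT.nd (nat_lit 78) (nat_lit 608) (nat_lit 0) (XT.lf (nat_lit 0) (nat_lit 18940298985) (nat_lit 532) (nat_lit 6285501539) (nat_lit 608) (nat_lit 5626908671) (nat_lit 259) (nat_lit 5) (nat_lit 266) (nat_lit 5) (nat_lit 267) (nat_lit 5) (nat_lit 487) (nat_lit 446) (nat_lit 267)) (XT.lf (nat_lit 0) (nat_lit 2764110404) (nat_lit 608) (nat_lit 16148183231) (nat_lit 76) (nat_lit 12485530678) (nat_lit 251) (nat_lit 5) (nat_lit 259) (nat_lit 5) (nat_lit 252) (nat_lit 5) (nat_lit 488) (nat_lit 446) (nat_lit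 266)))) (XT.nd (nat_lit 156) (nat_lit 532) (nat_lit 0) (XT.nd (nat_lit 78) (nat_lit 532) (nat_lit 0) (XT.lf (nat_lit 0) (nat_lit 11494774158) (nat_lit 532) (nat_lit 28223524) (nat_lit 608) (nat_lit 20431699864) (nat_lit 244) (nat_lit 5) (nat_lit 251) (nat_lit 5) (nat_lit 252) (nat_lit 5) (nat_lit 489) (nat_lit 446) (nat_lit 265)) (XT.lf (nat_lit 0) (nat_lit 7627485285) (nat_lit 532) (nat_lit 13197275022) (nat_lit 608) (nat_lit 11697914733) (nat_lit 237) (nat_lit 5) (nat_lit 244) (nat_lit 5) (nat_lit 245) (nat_lit 5) (nat_lit 490) (nat_lit 446) (nat_lit 264))) (XT.nd (nat_lit 78) (nat_lit 76) (nat_lit 0) (XT.lf (nat_lit 0) (nat_lit 3732900872) (nat_lit 456) (nat_lit 26871036074) (nat_lit 532) (nat_lit 2499787920) (nat_lit 231) (nat_lit 5) (nat_lit 237) (nat_lit 5) (nat_lit 238) (nat_lit 5) (nat_lit 491) (nat_lit 446) (nat_lit 263)) (XT.lf (nat_lit 0) (nat_lit 7135397467) (nat_lit 532) (nat_lit 280499369)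 (nat_lit 76) (nat_lit 26280352264) (nat_lit 230) (nat_lit 5) (nat_lit 237) (nat_lit 5) (nat_lit 231) (nat_lit 5) (nat_lit 492) (nat_lit 446) (nat_lit 262))))) (XT.nd (nat_lit 234) (nat_lit 1824) (nat_lit 0) (XT.nd (nat_lit 78) (nat_lit 988) (nat_lit 0) (XT.lf (nat_lit 0) (nat_lit 17299009272) (nat_lit 608) (nat_lit 4333196031) (nat_lit 76) (nat_lit 12668546835) (nat_lit 223) (nat_lit 5) (nat_lit 231) (nat_lit 5) (nat_lit 224) (nat_lit 5) (nat_lit 493) (nat_lit 446) (nat_lit 261)) (XT.nd (nat_lit 78) (nat_lit 532) (nat_lit 0) (XT.lf (nat_lit 0) (nat_lit 26494043461) (nat_lit 456) (nat_lit 1491776866) (nat_lit 532) (nat_lit 6933204331) (nat_lit 217) (nat_lit 5) (nat_lit 223) (nat_lit 5) (nat_lit 224) (nat_lit 5) (nat_lit 494) (nat_lit 446) (nat_lit 260)) (XT.lf (nat_lit 0) (nat_lit 3692502090) (nat_lit 532) (nat_lit 12655973664) (nat_lit 76) (nat_lit 19200919565) (nat_lit 210) (nat_lit 5) (nat_lit 217)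 (nat_lit 5) (nat_lit 211) (nat_lit 5) (nat_lit 495) (nat_lit 446) (nat_lit 259)))) (XT.nd (nat_lit 156) (nat_lit 912) (nat_lit 0) (XT.nd (nat_lit 78) (nat_lit 456) (nat_lit 0) (XT.lf (nat_lit 0) (nat_lit 14760120620) (nat_lit 532) (nat_lit 16965664770) (nat_lit 76) (nat_lit 4467628612) (nat_lit 204) (nat_lit 5) (nat_lit 211) (nat_lit 5) (nat_lit 205) (nat_lit 5) (nat_lit 496) (nat_lit 446) (nat_lit 258)) (XT.lf (nat_lit 0) (nat_lit 15471952226) (nat_lit 456) (nat_lit 10978943147) (nat_lit 532) (nat_lit 10400035506) (nat_lit 198) (nat_lit 5) (nat_lit 204) (nat_lit 5) (nat_lit 205) (nat_lit 5) (nat_lit 497) (nat_lit 446) (nat_lit 257))) (XT.nd (nat_lit 78) (nat_lit 456) (nat_lit 0) (XT.lf (nat_lit 0) (nat_lit 1207290068) (nat_lit 456) (nat_lit 25864411423) (nat_lit 76) (nat_lit 10451232423) (nat_lit 192) (nat_lit 5) (nat_lit 198) (nat_lit 5) (nat_lit 193) (nat_lit 5) (nat_lit 498) (nat_lit 446) (nat_lit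 256)) (XT.lf (nat_lit 0) (nat_lit 7717713414) (nat_lit 456) (nat_lit 5569155509) (nat_lit 532) (nat_lit 24921546820) (nat_lit 186) (nat_lit 5) (nat_lit 192) (nat_lit 5) (nat_lit 193) (nat_lit 5) (nat_lit 499) (nat_lit 446) (nat_lit 255))))))))
noncomputable def xc102 : XT := (XT.nd (nat_lit 60060) (nat_lit 0) (nat_lit 3420) (XT.nd (nat_lit 58968) (nat_lit 0) (nat_lit 19380) (XT.nd (nat_lit 58422) (nat_lit 0) (nat_lit 25156) (XT.nd (nat_lit 234) (nat_lit 760) (nat_lit 0) (XT.nd (nat_lit 78) (nat_lit 456) (nat_lit 0) (XT.lf (nat_lit 0) (nat_lit 3682754978) (nat_lit 380) (nat_lit 22349299802) (nat_lit 456) (nat_lit 12876343022) (nat_lit 181) (nat_lit 5) (nat_lit 186) (nat_lit 5) (nat_lit 187) (nat_lit 5) (nat_lit 500) (nat_lit 446) (nat_lit 254)) (XT.nd (nat_lit 78) (nat_lit 456) (nat_lit 0) (XT.lf (nat_lit 0) (nat_lit 39254027492) (nat_lit 380) (nat_lit 144518956) (nat_lit 456) (nat_lit 226054031) (nat_lit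 181) (nat_lit 5) (nat_lit 186) (nat_lit 5) (nat_lit 187) (nat_lit 5) (nat_lit 501) (nat_lit 446) (nat_lit 253)) (XT.lf (nat_lit 0) (nat_lit 13014056528) (nat_lit 456) (nat_lit 4594557977) (nat_lit 76) (nat_lit 22744447551) (nat_lit 175) (nat_lit 5) (nat_lit 181) (nat_lit 5) (nat_lit 176) (nat_lit 5) (nat_lit 502) (nat_lit 446) (nat_lit 252)))) (XT.nd (nat_lit 78) (nat_lit 380) (nat_lit 0) (XT.lf (nat_lit 0) (nat_lit 26892216123) (nat_lit 456) (nat_lit 8847105597) (nat_lit 76) (nat_lit 5359147690) (nat_lit 170) (nat_lit 5) (nat_lit 176) (nat_lit 5) (nat_lit 171) (nat_lit 5) (nat_lit 503) (nat_lit 446) (nat_lit 251)) (XT.nd (nat_lit 58032) (nat_lit 0) (nat_lit 25156) (XT.lf (nat_lit 0) (nat_lit 28650943909) (nat_lit 380) (nat_lit 12866483245) (nat_lit 456) (nat_lit 342197841) (nat_lit 165) (nat_lit 5) (nat_lit 170) (nat_lit 5) (nat_lit 171) (nat_lit 5) (nat_lit 504) (nat_lit 446) (nat_lit 250)) (XT.lf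 (nat_lit 0) (nat_lit 2824176564) (nat_lit 0) (nat_lit 2824176564) (nat_lit 1748) (nat_lit 2581462402) (nat_lit 496) (nat_lit 5) (nat_lit 496) (nat_lit 3) (nat_lit 519) (nat_lit 3) (nat_lit 447) (nat_lit 447) (nat_lit 306))))) (XT.nd (nat_lit 234) (nat_lit 0) (nat_lit 152) (XT.nd (nat_lit 78) (nat_lit 0) (nat_lit 76) (XT.lf (nat_lit 76) (nat_lit 1413566652) (nat_lit 0) (nat_lit 10469604826) (nat_lit 1824) (nat_lit 4814990908) (nat_lit 497) (nat_lit 5) (nat_lit 496) (nat_lit 5) (nat_lit 520) (nat_lit 5) (nat_lit 448) (nat_lit 447) (nat_lit 305)) (XT.nd (nat_lit 78) (nat_lit 0) (nat_lit 0) (XT.lf (nat_lit 0) (nat_lit 12593585256) (nat_lit 1748) (nat_lit 2844538655) (nat_lit 1824) (nat_lit 1503599539) (nat_lit 497) (nat_lit 5) (nat_lit 520) (nat_lit 5) (nat_lit 521) (nat_lit 5) (nat_lit 449) (nat_lit 447) (nat_lit 304)) (XT.lf (nat_lit 76) (nat_lit 10022458067) (nat_lit 0) (nat_lit 3424077627) (nat_lit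 1824) (nat_lit 3743632032) (nat_lit 498) (nat_lit 5) (nat_lit 497) (nat_lit 5) (nat_lit 521) (nat_lit 5) (nat_lit 450) (nat_lit 447) (nat_lit 303)))) (XT.nd (nat_lit 156) (nat_lit 0) (nat_lit 76) (XT.nd (nat_lit 78) (nat_lit 0) (nat_lit 76) (XT.lf (nat_lit 76) (nat_lit 5879717112) (nat_lit 0) (nat_lit 8547577688) (nat_lit 1824) (nat_lit 3016726968) (nat_lit 499) (nat_lit 5) (nat_lit 498) (nat_lit 5) (nat_lit 522) (nat_lit 5) (nat_lit 451) (nat_lit 447) (nat_lit 302)) (XT.lf (nat_lit 76) (nat_lit 1678150295) (nat_lit 0) (nat_lit 13853669359) (nat_lit 1824) (nat_lit 2171785733) (nat_lit 500) (nat_lit 5) (nat_lit 499) (nat_lit 5) (nat_lit 523) (nat_lit 5) (nat_lit 452) (nat_lit 447) (nat_lit 301))) (XT.nd (nat_lit 78) (nat_lit 0) (nat_lit 76) (XT.lf (nat_lit 76) (nat_lit 15410333670) (nat_lit 0) (nat_lit 1381532318) (nat_lit 1824) (nat_lit 1176663606) (nat_lit 500) (nat_lit 5) (nat_lit 499) (nat_lit 5)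 (nat_lit 523) (nat_lit 5) (nat_lit 453) (nat_lit 447) (nat_lit 300)) (XT.lf (nat_lit 76) (nat_lit 11379927250) (nat_lit 0) (nat_lit 6845748635) (nat_lit 1824) (nat_lit 13007166) (nat_lit 501) (nat_lit 5) (nat_lit 500) (nat_lit 5) (nat_lit 524) (nat_lit 5) (nat_lit 454) (nat_lit 447) (nat_lit 299)))))) (XT.nd (nat_lit 546) (nat_lit 4332) (nat_lit 0) (XT.nd (nat_lit 234) (nat_lit 0) (nat_lit 152) (XT.nd (nat_lit 78) (nat_lit 0) (nat_lit 76) (XT.lf (nat_lit 0) (nat_lit 1271692919) (nat_lit 1824) (nat_lit 11229465352) (nat_lit 1900) (nat_lit 6013595970) (nat_lit 477) (nat_lit 5) (nat_lit 501) (nat_lit 5) (nat_lit 502) (nat_lit 5) (nat_lit 455) (nat_lit 447) (nat_lit 298)) (XT.nd (nat_lit 78) (nat_lit 0) (nat_lit 0) (XT.lf (nat_lit 0) (nat_lit 2698740491) (nat_lit 1824) (nat_lit 15663758521) (nat_lit 1900) (nat_lit 434527881) (nat_lit 478) (nat_lit 5) (nat_lit 502) (nat_lit 5) (nat_lit 503) (nat_lit 5)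 (nat_lit 456) (nat_lit 447) (nat_lit 297)) (XT.lf (nat_lit 0) (nat_lit 4317309104) (nat_lit 1824) (nat_lit 1098010178) (nat_lit 1900) (nat_lit 13669474941) (nat_lit 478) (nat_lit 5) (nat_lit 502) (nat_lit 5) (nat_lit 503) (nat_lit 5) (nat_lit 457) (nat_lit 447) (nat_lit 296)))) (XT.nd (nat_lit 156) (nat_lit 0) (nat_lit 76) (XT.nd (nat_lit 78) (nat_lit 0) (nat_lit 76) (XT.lf (nat_lit 0) (nat_lit 6116755090) (nat_lit 1824) (nat_lit 5350262980) (nat_lit 1900) (nat_lit 7911530768) (nat_lit 479) (nat_lit 5) (nat_lit 503) (nat_lit 5) (nat_lit 504) (nat_lit 5) (nat_lit 458) (nat_lit 447) (nat_lit 295)) (XT.lf (nat_lit 0) (nat_lit 8080880851) (nat_lit 1824) (nat_lit 9662305051) (nat_lit 1900) (nat_lit 1935716910) (nat_lit 480) (nat_lit 5) (nat_lit 504) (nat_lit 5) (nat_lit 505) (nat_lit 5) (nat_lit 459) (nat_lit 447) (nat_lit 294))) (XT.nd (nat_lit 78) (nat_lit 0) (nat_lit 76) (XT.lf (nat_lit 76) (nat_lit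 5922689817) (nat_lit 0) (nat_lit 4322294519) (nat_lit 1900) (nat_lit 9740462624) (nat_lit 481) (nat_lit 5) (nat_lit 480) (nat_lit 5) (nat_lit 505) (nat_lit 5) (nat_lit 460) (nat_lit 447) (nat_lit 293)) (XT.lf (nat_lit 76) (nat_lit 1760272443) (nat_lit 0) (nat_lit 10842453936) (nat_lit 1900) (nat_lit 7695887355) (nat_lit 482) (nat_lit 5) (nat_lit 481) (nat_lit 5) (nat_lit 506) (nat_lit 5) (nat_lit 461) (nat_lit 447) (nat_lit 292))))) (XT.nd (nat_lit 234) (nat_lit 2964) (nat_lit 0) (XT.nd (nat_lit 78) (nat_lit 1748) (nat_lit 0) (XT.lf (nat_lit 0) (nat_lit 15165065141) (nat_lit 1824) (nat_lit 2425791927) (nat_lit 1900) (nat_lit 3027641752) (nat_lit 482) (nat_lit 5) (nat_lit 506) (nat_lit 5) (nat_lit 507) (nat_lit 5) (nat_lit 462) (nat_lit 447) (nat_lit 291)) (XT.nd (nat_lit 78) (nat_lit 1748) (nat_lit 0) (XT.lf (nat_lit 76) (nat_lit 14276724632) (nat_lit 0) (nat_lit 3682993841) (nat_lit 1900) (nat_lit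 2985153673) (nat_lit 483) (nat_lit 5) (nat_lit 482) (nat_lit 5) (nat_lit 507) (nat_lit 5) (nat_lit 463) (nat_lit 447) (nat_lit 290)) (XT.lf (nat_lit 0) (nat_lit 10290357210) (nat_lit 1824) (nat_lit 10690792604) (nat_lit 1900) (nat_lit 297028652) (nat_lit 459) (nat_lit 5) (nat_lit 483) (nat_lit 5) (nat_lit 484) (nat_lit 5) (nat_lit 464) (nat_lit 447) (nat_lit 289)))) (XT.nd (nat_lit 156) (nat_lit 912) (nat_lit 0) (XT.nd (nat_lit 78) (nat_lit 912) (nat_lit 0) (XT.lf (nat_lit 0) (nat_lit 2564892364) (nat_lit 1140) (nat_lit 15382042888) (nat_lit 76) (nat_lit 3671716904) (nat_lit 444) (nat_lit 5) (nat_lit 459) (nat_lit 5) (nat_lit 445) (nat_lit 5) (nat_lit 465) (nat_lit 447) (nat_lit 288)) (XT.lf (nat_lit 0) (nat_lit 2105707828) (nat_lit 912) (nat_lit 3553940243) (nat_lit 988) (nat_lit 16306632984) (nat_lit 432) (nat_lit 5) (nat_lit 444) (nat_lit 5) (nat_lit 445) (nat_lit 5) (nat_lit 466) (nat_lit 447)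 (nat_lit 287))) (XT.nd (nat_lit 78) (nat_lit 912) (nat_lit 0) (XT.lf (nat_lit 0) (nat_lit 9016440033) (nat_lit 988) (nat_lit 2075789417) (nat_lit 76) (nat_lit 11228726005) (nat_lit 432) (nat_lit 5) (nat_lit 445) (nat_lit 5) (nat_lit 433) (nat_lit 5) (nat_lit 467) (nat_lit 447) (nat_lit 286)) (XT.lf (nat_lit 0) (nat_lit 12620572965) (nat_lit 988) (nat_lit 6282570116) (nat_lit 76) (nat_lit 3780194749) (nat_lit 420) (nat_lit 5) (nat_lit 433) (nat_lit 5) (nat_lit 421) (nat_lit 5) (nat_lit 468) (nat_lit 447) (nat_lit 285))))))) (XT.nd (nat_lit 1092) (nat_lit 6764) (nat_lit 0) (XT.nd (nat_lit 546) (nat_lit 4256) (nat_lit 0) (XT.nd (nat_lit 234) (nat_lit 2356) (nat_lit 0) (XT.nd (nat_lit 78) (nat_lit 1748) (nat_lit 0) (XT.lf (nat_lit 0) (nat_lit 12485087401) (nat_lit 836) (nat_lit 4008697026) (nat_lit 912) (nat_lit 6559588635) (nat_lit 409) (nat_lit 5) (nat_lit 420) (nat_lit 5) (nat_lit 421) (nat_lit 5) (nat_lit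 469) (nat_lit 447) (nat_lit 284)) (XT.nd (nat_lit 78) (nat_lit 912) (nat_lit 0) (XT.lf (nat_lit 0) (nat_lit 8497554362) (nat_lit 836) (nat_lit 12148993888) (nat_lit 912) (nat_lit 2784694441) (nat_lit 398) (nat_lit 5) (nat_lit 409) (nat_lit 5) (nat_lit 410) (nat_lit 5) (nat_lit 470) (nat_lit 447) (nat_lit 283)) (XT.lf (nat_lit 0) (nat_lit 1230045274) (nat_lit 912) (nat_lit 19361964342) (nat_lit 76) (nat_lit 3225474532) (nat_lit 386) (nat_lit 5) (nat_lit 398) (nat_lit 5) (nat_lit 387) (nat_lit 5) (nat_lit 471) (nat_lit 447) (nat_lit 282)))) (XT.nd (nat_lit 156) (nat_lit 1520) (nat_lit 0) (XT.nd (nat_lit 78) (nat_lit 0) (nat_lit 0) (XT.lf (nat_lit 0) (nat_lit 312947358) (nat_lit 836) (nat_lit 5191875017) (nat_lit 912) (nat_lit 18706574198) (nat_lit 375) (nat_lit 5) (nat_lit 386) (nat_lit 5) (nat_lit 387) (nat_lit 5) (nat_lit 472) (nat_lit 447) (nat_lit 281)) (XT.lf (nat_lit 0) (nat_lit 10101439606) (nat_lit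 912) (nat_lit 3849683696) (nat_lit 76) (nat_lit 10662131545) (nat_lit 375) (nat_lit 5) (nat_lit 387) (nat_lit 5) (nat_lit 376) (nat_lit 5) (nat_lit 473) (nat_lit 447) (nat_lit 280))) (XT.nd (nat_lit 78) (nat_lit 760) (nat_lit 0) (XT.lf (nat_lit 0) (nat_lit 14986429610) (nat_lit 836) (nat_lit 8056856636) (nat_lit 76) (nat_lit 1980873541) (nat_lit 365) (nat_lit 5) (nat_lit 376) (nat_lit 5) (nat_lit 366) (nat_lit 5) (nat_lit 474) (nat_lit 447) (nat_lit 279)) (XT.lf (nat_lit 0) (nat_lit 13084816031) (nat_lit 760) (nat_lit 7130303593) (nat_lit 836) (nat_lit 5228329634) (nat_lit 355) (nat_lit 5) (nat_lit 365) (nat_lit 5) (nat_lit 366) (nat_lit 5) (nat_lit 475) (nat_lit 447) (nat_lit 278))))) (XT.nd (nat_lit 234) (nat_lit 2052) (nat_lit 0) (XT.nd (nat_lit 78) (nat_lit 1520) (nat_lit 0) (XT.lf (nat_lit 0) (nat_lit 9148335420) (nat_lit 684) (nat_lit 16619609704) (nat_lit 760) (nat_lit 104027171) (nat_lit 346)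 (nat_lit 5) (nat_lit 355) (nat_lit 5) (nat_lit 356) (nat_lit 5) (nat_lit 476) (nat_lit 447) (nat_lit 277)) (XT.nd (nat_lit 78) (nat_lit 684) (nat_lit 0) (XT.lf (nat_lit 0) (nat_lit 5135602179) (nat_lit 760) (nat_lit 128781808) (nat_lit 836) (nat_lit 21045130784) (nat_lit 335) (nat_lit 5) (nat_lit 345) (nat_lit 5) (nat_lit 346) (nat_lit 5) (nat_lit 477) (nat_lit 447) (nat_lit 276)) (XT.lf (nat_lit 0) (nat_lit 1016122481) (nat_lit 684) (nat_lit 9999497624) (nat_lit 760) (nat_lit 15740086293) (nat_lit 326) (nat_lit 5) (nat_lit 335) (nat_lit 5) (nat_lit 336) (nat_lit 5) (nat_lit 478) (nat_lit 447) (nat_lit 275)))) (XT.nd (nat_lit 156) (nat_lit 1368) (nat_lit 0) (XT.nd (nat_lit 78) (nat_lit 684) (nat_lit 0) (XT.lf (nat_lit 0) (nat_lit 17122884108) (nat_lit 760) (nat_lit 3105459072) (nat_lit 76) (nat_lit 6983271118) (nat_lit 326) (nat_lit 5) (nat_lit 336) (nat_lit 5) (nat_lit 327) (nat_lit 5) (nat_lit 479)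 (nat_lit 447) (nat_lit 274)) (XT.lf (nat_lit 0) (nat_lit 20400677305) (nat_lit 684) (nat_lit 3205417419) (nat_lit 760) (nat_lit 4071250467) (nat_lit 317) (nat_lit 5) (nat_lit 326) (nat_lit 5) (nat_lit 327) (nat_lit 5) (nat_lit 480) (nat_lit 447) (nat_lit 273))) (XT.nd (nat_lit 78) (nat_lit 684) (nat_lit 0) (XT.lf (nat_lit 0) (nat_lit 2315913317) (nat_lit 684) (nat_lit 11553050184) (nat_lit 76) (nat_lit 14283467609) (nat_lit 308) (nat_lit 5) (nat_lit 317) (nat_lit 5) (nat_lit 309) (nat_lit 5) (nat_lit 481) (nat_lit 447) (nat_lit 272)) (XT.lf (nat_lit 0) (nat_lit 9011759814) (nat_lit 760) (nat_lit 15901525129) (nat_lit 76) (nat_lit 3724499145) (nat_lit 299) (nat_lit 5) (nat_lit 309) (nat_lit 5) (nat_lit 300) (nat_lit 5) (nat_lit 482) (nat_lit 447) (nat_lit 271)))))) (XT.nd (nat_lit 546) (nat_lit 3116) (nat_lit 0) (XT.nd (nat_lit 234) (nat_lit 1748) (nat_lit 0) (XT.nd (nat_lit 78) (nat_lit 1292) (nat_lit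 0) (XT.lf (nat_lit 0) (nat_lit 8790630701) (nat_lit 608) (nat_lit 7340242530) (nat_lit 684) (nat_lit 13002376891) (nat_lit 291) (nat_lit 5) (nat_lit 299) (nat_lit 5) (nat_lit 300) (nat_lit 5) (nat_lit 483) (nat_lit 447) (nat_lit 270)) (XT.nd (nat_lit 78) (nat_lit 684) (nat_lit 0) (XT.lf (nat_lit 0) (nat_lit 4784323277) (nat_lit 608) (nat_lit 18882515132) (nat_lit 684) (nat_lit 5972676446) (nat_lit 283) (nat_lit 5) (nat_lit 291) (nat_lit 5) (nat_lit 292) (nat_lit 5) (nat_lit 484) (nat_lit 447) (nat_lit 269)) (XT.lf (nat_lit 0) (nat_lit 729051291) (nat_lit 608) (nat_lit 708793001) (nat_lit 684) (nat_lit 28719227706) (nat_lit 274) (nat_lit 5) (nat_lit 282) (nat_lit 5) (nat_lit 283) (nat_lit 5) (nat_lit 485) (nat_lit 447) (nat_lit 268)))) (XT.nd (nat_lit 156) (nat_lit 1140) (nat_lit 0) (XT.nd (nat_lit 78) (nat_lit 608) (nat_lit 0) (XT.lf (nat_lit 0) (nat_lit 9270566838) (nat_lit 684) (nat_lit 3431314493)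 (nat_lit 76) (nat_lit 17981864572) (nat_lit 274) (nat_lit 5) (nat_lit 283) (nat_lit 5) (nat_lit 275) (nat_lit 5) (nat_lit 486) (nat_lit 447) (nat_lit 267)) (XT.lf (nat_lit 0) (nat_lit 17530730137) (nat_lit 684) (nat_lit 7619835871) (nat_lit 76) (nat_lit 6071805093) (nat_lit 266) (nat_lit 5) (nat_lit 275) (nat_lit 5) (nat_lit 267) (nat_lit 5) (nat_lit 487) (nat_lit 447) (nat_lit 266))) (XT.nd (nat_lit 78) (nat_lit 608) (nat_lit 0) (XT.lf (nat_lit 0) (nat_lit 19886049679) (nat_lit 532) (nat_lit 6384485456) (nat_lit 608) (nat_lit 5501983435) (nat_lit 259) (nat_lit 5) (nat_lit 266) (nat_lit 5) (nat_lit 267) (nat_lit 5) (nat_lit 488) (nat_lit 447) (nat_lit 265)) (XT.lf (nat_lit 0) (nat_lit 3131499991) (nat_lit 608) (nat_lit 16252313608) (nat_lit 76) (nat_lit 12950244039) (nat_lit 251) (nat_lit 5) (nat_lit 259) (nat_lit 5) (nat_lit 252) (nat_lit 5) (nat_lit 489) (nat_lit 447) (nat_lit 264))))) (XT.nd (nat_lit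 234) (nat_lit 1596) (nat_lit 0) (XT.nd (nat_lit 78) (nat_lit 988) (nat_lit 0) (XT.lf (nat_lit 0) (nat_lit 12147729192) (nat_lit 608) (nat_lit 20694423736) (nat_lit 76) (nat_lit 65592985) (nat_lit 244) (nat_lit 5) (nat_lit 252) (nat_lit 5) (nat_lit 245) (nat_lit 5) (nat_lit 490) (nat_lit 447) (nat_lit 263)) (XT.nd (nat_lit 78) (nat_lit 456) (nat_lit 0) (XT.lf (nat_lit 0) (nat_lit 8229267867) (nat_lit 532) (nat_lit 13493754140) (nat_lit 608) (nat_lit 11769851520) (nat_lit 237) (nat_lit 5) (nat_lit 244) (nat_lit 5) (nat_lit 245) (nat_lit 5) (nat_lit 491) (nat_lit 447) (nat_lit 262)) (XT.lf (nat_lit 0) (nat_lit 4216552799) (nat_lit 456) (nat_lit 27574094493) (nat_lit 532) (nat_lit 2300806422) (nat_lit 231) (nat_lit 5) (nat_lit 237) (nat_lit 5) (nat_lit 238) (nat_lit 5) (nat_lit 492) (nat_lit 447) (nat_lit 261)))) (XT.nd (nat_lit 156) (nat_lit 988) (nat_lit 0) (XT.nd (nat_lit 78) (nat_lit 0) (nat_lit 0)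 (XT.lf (nat_lit 0) (nat_lit 76426807) (nat_lit 532) (nat_lit 7536035499) (nat_lit 608) (nat_lit 27089403688) (nat_lit 223) (nat_lit 5) (nat_lit 230) (nat_lit 5) (nat_lit 231) (nat_lit 5) (nat_lit 493) (nat_lit 447) (nat_lit 260)) (XT.lf (nat_lit 0) (nat_lit 18075824893) (nat_lit 608) (nat_lit 4100267411) (nat_lit 76) (nat_lit 13148515278) (nat_lit 223) (nat_lit 5) (nat_lit 231) (nat_lit 5) (nat_lit 224) (nat_lit 5) (nat_lit 494) (nat_lit 447) (nat_lit 259))) (XT.nd (nat_lit 78) (nat_lit 532) (nat_lit 0) (XT.lf (nat_lit 0) (nat_lit 27645901247) (nat_lit 456) (nat_lit 1432147091) (nat_lit 532) (nat_lit 6883484074) (nat_lit 217) (nat_lit 5) (nat_lit 223) (nat_lit 5) (nat_lit 224) (nat_lit 5) (nat_lit 495) (nat_lit 447) (nat_lit 258)) (XT.lf (nat_lit 0) (nat_lit 4053191836) (nat_lit 532) (nat_lit 12676764094) (nat_lit 76) (nat_lit 19880913515) (nat_lit 210) (nat_lit 5) (nat_lit 217) (nat_lit 5) (nat_lit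 211) (nat_lit 5) (nat_lit 496) (nat_lit 447) (nat_lit 257))))))))
noncomputable def xc103 : XT := (XT.nd (nat_lit 60138) (nat_lit 0) (nat_lit 4028) (XT.nd (nat_lit 59046) (nat_lit 0) (nat_lit 20824) (XT.nd (nat_lit 468) (nat_lit 836) (nat_lit 0) (XT.nd (nat_lit 234) (nat_lit 836) (nat_lit 0) (XT.nd (nat_lit 78) (nat_lit 912) (nat_lit 0) (XT.lf (nat_lit 0) (nat_lit 15448554299) (nat_lit 532) (nat_lit 17117362859) (nat_lit 76) (nat_lit 4708377498) (nat_lit 204) (nat_lit 5) (nat_lit 211) (nat_lit 5) (nat_lit 205) (nat_lit 5) (nat_lit 497) (nat_lit 447) (nat_lit 256)) (XT.nd (nat_lit 78) (nat_lit 456) (nat_lit 0) (XT.lf (nat_lit 0) (nat_lit 16287586335) (nat_lit 456) (nat_lit 11197593698) (nat_lit 532) (nat_lit 10466454718) (nat_lit 198) (nat_lit 5) (nat_lit 204) (nat_lit 5) (nat_lit 205) (nat_lit 5) (nat_lit 498) (nat_lit 447) (nat_lit 255)) (XT.lf (nat_lit 0) (nat_lit 1481799504) (nat_lit 456) (nat_lit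 26287356670) (nat_lit 76) (nat_lit 10874691474) (nat_lit 192) (nat_lit 5) (nat_lit 198) (nat_lit 5) (nat_lit 193) (nat_lit 5) (nat_lit 499) (nat_lit 447) (nat_lit 254)))) (XT.nd (nat_lit 78) (nat_lit 380) (nat_lit 0) (XT.lf (nat_lit 0) (nat_lit 8296505116) (nat_lit 456) (nat_lit 5622574746) (nat_lit 532) (nat_lit 25430908033) (nat_lit 186) (nat_lit 5) (nat_lit 192) (nat_lit 5) (nat_lit 193) (nat_lit 5) (nat_lit 500) (nat_lit 447) (nat_lit 253)) (XT.nd (nat_lit 78) (nat_lit 0) (nat_lit 0) (XT.lf (nat_lit 0) (nat_lit 4138742474) (nat_lit 380) (nat_lit 22904034475) (nat_lit 456) (nat_lit 13028269593) (nat_lit 181) (nat_lit 5) (nat_lit 186) (nat_lit 5) (nat_lit 187) (nat_lit 5) (nat_lit 501) (nat_lit 447) (nat_lit 252)) (XT.lf (nat_lit 0) (nat_lit 40767089915) (nat_lit 380) (nat_lit 36481398) (nat_lit 456) (nat_lit 5298060) (nat_lit 181) (nat_lit 5) (nat_lit 186) (nat_lit 5) (nat_lit 187) (nat_lit 5) (nat_lit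 502) (nat_lit 447) (nat_lit 251))))) (XT.nd (nat_lit 58266) (nat_lit 0) (nat_lit 24776) (XT.nd (nat_lit 78) (nat_lit 380) (nat_lit 0) (XT.lf (nat_lit 0) (nat_lit 13625385079) (nat_lit 456) (nat_lit 4395773296) (nat_lit 76) (nat_lit 23538070029) (nat_lit 175) (nat_lit 5) (nat_lit 181) (nat_lit 5) (nat_lit 176) (nat_lit 5) (nat_lit 503) (nat_lit 447) (nat_lit 250)) (XT.nd (nat_lit 58110) (nat_lit 0) (nat_lit 24776) (XT.lf (nat_lit 0) (nat_lit 27916349045) (nat_lit 456) (nat_lit 8777762661) (nat_lit 76) (nat_lit 5632957294) (nat_lit 170) (nat_lit 5) (nat_lit 176) (nat_lit 5) (nat_lit 171) (nat_lit 5) (nat_lit 504) (nat_lit 447) (nat_lit 249)) (XT.lf (nat_lit 0) (nat_lit 3090598253) (nat_lit 0) (nat_lit 3090598253) (nat_lit 1748) (nat_lit 2288223004) (nat_lit 496) (nat_lit 5) (nat_lit 496) (nat_lit 3) (nat_lit 519) (nat_lit 3) (nat_lit 448) (nat_lit 448) (nat_lit 304)))) (XT.nd (nat_lit 156) (nat_lit 0)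 (nat_lit 76) (XT.nd (nat_lit 78) (nat_lit 0) (nat_lit 76) (XT.lf (nat_lit 76) (nat_lit 1830136340) (nat_lit 0) (nat_lit 11115285984) (nat_lit 1824) (nat_lit 4239525878) (nat_lit 497) (nat_lit 5) (nat_lit 496) (nat_lit 5) (nat_lit 520) (nat_lit 5) (nat_lit 449) (nat_lit 448) (nat_lit 303)) (XT.lf (nat_lit 0) (nat_lit 13654502308) (nat_lit 1748) (nat_lit 2550773198) (nat_lit 1824) (nat_lit 1230994796) (nat_lit 497) (nat_lit 5) (nat_lit 520) (nat_lit 5) (nat_lit 521) (nat_lit 5) (nat_lit 450) (nat_lit 448) (nat_lit 302))) (XT.nd (nat_lit 78) (nat_lit 0) (nat_lit 76) (XT.lf (nat_lit 76) (nat_lit 10696082952) (nat_lit 0) (nat_lit 3819483360) (nat_lit 1824) (nat_lit 3176952335) (nat_lit 498) (nat_lit 5) (nat_lit 497) (nat_lit 5) (nat_lit 521) (nat_lit 5) (nat_lit 451) (nat_lit 448) (nat_lit 301)) (XT.lf (nat_lit 76) (nat_lit 6438016000) (nat_lit 0) (nat_lit 9068979428) (nat_lit 1824) (nat_lit 2447369145)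 (nat_lit 499) (nat_lit 5) (nat_lit 498) (nat_lit 5) (nat_lit 522) (nat_lit 5) (nat_lit 452) (nat_lit 448) (nat_lit 300)))))) (XT.nd (nat_lit 546) (nat_lit 2432) (nat_lit 0) (XT.nd (nat_lit 234) (nat_lit 0) (nat_lit 76) (XT.nd (nat_lit 78) (nat_lit 1748) (nat_lit 0) (XT.lf (nat_lit 76) (nat_lit 2118665961) (nat_lit 0) (nat_lit 14508011818) (nat_lit 1824) (nat_lit 1595418658) (nat_lit 500) (nat_lit 5) (nat_lit 499) (nat_lit 5) (nat_lit 523) (nat_lit 5) (nat_lit 453) (nat_lit 448) (nat_lit 299)) (XT.nd (nat_lit 78) (nat_lit 1748) (nat_lit 0) (XT.lf (nat_lit 76) (nat_lit 16251450629) (nat_lit 0) (nat_lit 1654757296) (nat_lit 1824) (nat_lit 589127934) (nat_lit 500) (nat_lit 5) (nat_lit 499) (nat_lit 5) (nat_lit 523) (nat_lit 5) (nat_lit 454) (nat_lit 448) (nat_lit 298)) (XT.lf (nat_lit 0) (nat_lit 584595701) (nat_lit 1824) (nat_lit 6670258142) (nat_lit 1900) (nat_lit 11518999014) (nat_lit 476) (nat_lit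 5) (nat_lit 500) (nat_lit 5) (nat_lit 501) (nat_lit 5) (nat_lit 455) (nat_lit 448) (nat_lit 297)))) (XT.nd (nat_lit 156) (nat_lit 0) (nat_lit 76) (XT.nd (nat_lit 78) (nat_lit 0) (nat_lit 76) (XT.lf (nat_lit 0) (nat_lit 1891499630) (nat_lit 1824) (nat_lit 11165610464) (nat_lit 1900) (nat_lit 6001418629) (nat_lit 477) (nat_lit 5) (nat_lit 501) (nat_lit 5) (nat_lit 502) (nat_lit 5) (nat_lit 456) (nat_lit 448) (nat_lit 296)) (XT.lf (nat_lit 0) (nat_lit 3345853375) (nat_lit 1824) (nat_lit 15726930979) (nat_lit 1900) (nat_lit 276796325) (nat_lit 478) (nat_lit 5) (nat_lit 502) (nat_lit 5) (nat_lit 503) (nat_lit 5) (nat_lit 457) (nat_lit 448) (nat_lit 295))) (XT.nd (nat_lit 78) (nat_lit 0) (nat_lit 76) (XT.lf (nat_lit 0) (nat_lit 4996489221) (nat_lit 1824) (nat_lit 736056991) (nat_lit 1900) (nat_lit 13913765604) (nat_lit 478) (nat_lit 5) (nat_lit 502) (nat_lit 5) (nat_lit 503) (nat_lit 5) (nat_lit 458) (nat_lit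 448) (nat_lit 294)) (XT.lf (nat_lit 0) (nat_lit 6835472481) (nat_lit 1824) (nat_lit 5110569646) (nat_lit 1900) (nat_lit 8003126826) (nat_lit 479) (nat_lit 5) (nat_lit 503) (nat_lit 5) (nat_lit 504) (nat_lit 5) (nat_lit 459) (nat_lit 448) (nat_lit 293))))) (XT.nd (nat_lit 234) (nat_lit 2736) (nat_lit 0) (XT.nd (nat_lit 78) (nat_lit 0) (nat_lit 0) (XT.lf (nat_lit 0) (nat_lit 8844655316) (nat_lit 1824) (nat_lit 9547156867) (nat_lit 1900) (nat_lit 1866999632) (nat_lit 480) (nat_lit 5) (nat_lit 504) (nat_lit 5) (nat_lit 505) (nat_lit 5) (nat_lit 460) (nat_lit 448) (nat_lit 292)) (XT.nd (nat_lit 78) (nat_lit 0) (nat_lit 76) (XT.lf (nat_lit 76) (nat_lit 6498816922) (nat_lit 0) (nat_lit 4562267067) (nat_lit 1900) (nat_lit 9513721161) (nat_lit 481) (nat_lit 5) (nat_lit 480) (nat_lit 5) (nat_lit 505) (nat_lit 5) (nat_lit 461) (nat_lit 448) (nat_lit 291)) (XT.lf (nat_lit 76) (nat_lit 2215806904) (nat_lit 0) (nat_lit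 11260852886) (nat_lit 1900) (nat_lit 7420965990) (nat_lit 482) (nat_lit 5) (nat_lit 481) (nat_lit 5) (nat_lit 506) (nat_lit 5) (nat_lit 462) (nat_lit 448) (nat_lit 290)))) (XT.nd (nat_lit 156) (nat_lit 2888) (nat_lit 0) (XT.nd (nat_lit 78) (nat_lit 0) (nat_lit 0) (XT.lf (nat_lit 0) (nat_lit 16100839413) (nat_lit 1824) (nat_lit 2097325601) (nat_lit 1900) (nat_lit 3029243843) (nat_lit 482) (nat_lit 5) (nat_lit 506) (nat_lit 5) (nat_lit 507) (nat_lit 5) (nat_lit 463) (nat_lit 448) (nat_lit 289)) (XT.lf (nat_lit 76) (nat_lit 15099756811) (nat_lit 0) (nat_lit 3868133853) (nat_lit 1900) (nat_lit 2595912383) (nat_lit 483) (nat_lit 5) (nat_lit 482) (nat_lit 5) (nat_lit 507) (nat_lit 5) (nat_lit 464) (nat_lit 448) (nat_lit 288))) (XT.nd (nat_lit 78) (nat_lit 1064) (nat_lit 0) (XT.lf (nat_lit 0) (nat_lit 158954676) (nat_lit 1900) (nat_lit 10911252601) (nat_lit 76) (nat_lit 10837112316) (nat_lit 458) (nat_lit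 5) (nat_lit 483) (nat_lit 5) (nat_lit 459) (nat_lit 5) (nat_lit 465) (nat_lit 448) (nat_lit 287)) (XT.lf (nat_lit 0) (nat_lit 3091538906) (nat_lit 1140) (nat_lit 15436478742) (nat_lit 76) (nat_lit 3730174524) (nat_lit 444) (nat_lit 5) (nat_lit 459) (nat_lit 5) (nat_lit 445) (nat_lit 5) (nat_lit 466) (nat_lit 448) (nat_lit 286))))))) (XT.nd (nat_lit 1092) (nat_lit 7828) (nat_lit 0) (XT.nd (nat_lit 546) (nat_lit 3724) (nat_lit 0) (XT.nd (nat_lit 234) (nat_lit 3420) (nat_lit 0) (XT.nd (nat_lit 78) (nat_lit 912) (nat_lit 0) (XT.lf (nat_lit 0) (nat_lit 2569300991) (nat_lit 912) (nat_lit 3699338046) (nat_lit 988) (nat_lit 16347821610) (nat_lit 432) (nat_lit 5) (nat_lit 444) (nat_lit 5) (nat_lit 445) (nat_lit 5) (nat_lit 467) (nat_lit 448) (nat_lit 285)) (XT.nd (nat_lit 78) (nat_lit 912) (nat_lit 0) (XT.lf (nat_lit 0) (nat_lit 9713098032) (nat_lit 988) (nat_lit 1740507226) (nat_lit 76) (nat_lit 11528431479)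 (nat_lit 432) (nat_lit 5) (nat_lit 445) (nat_lit 5) (nat_lit 433) (nat_lit 5) (nat_lit 468) (nat_lit 448) (nat_lit 284)) (XT.lf (nat_lit 0) (nat_lit 13415318183) (nat_lit 988) (nat_lit 6071428481) (nat_lit 76) (nat_lit 3868745357) (nat_lit 420) (nat_lit 5) (nat_lit 433) (nat_lit 5) (nat_lit 421) (nat_lit 5) (nat_lit 469) (nat_lit 448) (nat_lit 283)))) (XT.nd (nat_lit 156) (nat_lit 1748) (nat_lit 0) (XT.nd (nat_lit 78) (nat_lit 836) (nat_lit 0) (XT.lf (nat_lit 0) (nat_lit 13252775422) (nat_lit 836) (nat_lit 4142382828) (nat_lit 912) (nat_lit 6341662094) (nat_lit 409) (nat_lit 5) (nat_lit 420) (nat_lit 5) (nat_lit 421) (nat_lit 5) (nat_lit 470) (nat_lit 448) (nat_lit 282)) (XT.lf (nat_lit 0) (nat_lit 9147345609) (nat_lit 836) (nat_lit 12515796916) (nat_lit 912) (nat_lit 2463071447) (nat_lit 398) (nat_lit 5) (nat_lit 409) (nat_lit 5) (nat_lit 410) (nat_lit 5) (nat_lit 471) (nat_lit 448) (nat_lit 281)))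 (XT.nd (nat_lit 78) (nat_lit 836) (nat_lit 0) (XT.lf (nat_lit 0) (nat_lit 1657725888) (nat_lit 912) (nat_lit 19541298971) (nat_lit 76) (nat_lit 3325147247) (nat_lit 386) (nat_lit 5) (nat_lit 398) (nat_lit 5) (nat_lit 387) (nat_lit 5) (nat_lit 472) (nat_lit 448) (nat_lit 280)) (XT.lf (nat_lit 0) (nat_lit 717345825) (nat_lit 836) (nat_lit 5334583224) (nat_lit 912) (nat_lit 18878149811) (nat_lit 375) (nat_lit 5) (nat_lit 386) (nat_lit 5) (nat_lit 387) (nat_lit 5) (nat_lit 473) (nat_lit 448) (nat_lit 279))))) (XT.nd (nat_lit 234) (nat_lit 2204) (nat_lit 0) (XT.nd (nat_lit 78) (nat_lit 1520) (nat_lit 0) (XT.lf (nat_lit 0) (nat_lit 10775401939) (nat_lit 912) (nat_lit 3574315043) (nat_lit 76) (nat_lit 10994497352) (nat_lit 375) (nat_lit 5) (nat_lit 387) (nat_lit 5) (nat_lit 376) (nat_lit 5) (nat_lit 474) (nat_lit 448) (nat_lit 278)) (XT.nd (nat_lit 78) (nat_lit 760) (nat_lit 0) (XT.lf (nat_lit 0) (nat_lit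 15798776945) (nat_lit 836) (nat_lit 7906915179) (nat_lit 76) (nat_lit 2061918168) (nat_lit 365) (nat_lit 5) (nat_lit 376) (nat_lit 5) (nat_lit 366) (nat_lit 5) (nat_lit 475) (nat_lit 448) (nat_lit 277)) (XT.lf (nat_lit 0) (nat_lit 13862653659) (nat_lit 760) (nat_lit 7313609917) (nat_lit 836) (nat_lit 5023376713) (nat_lit 355) (nat_lit 5) (nat_lit 365) (nat_lit 5) (nat_lit 366) (nat_lit 5) (nat_lit 476) (nat_lit 448) (nat_lit 276)))) (XT.nd (nat_lit 156) (nat_lit 684) (nat_lit 0) (XT.nd (nat_lit 78) (nat_lit 760) (nat_lit 0) (XT.lf (nat_lit 0) (nat_lit 243631168) (nat_lit 760) (nat_lit 16834145758) (nat_lit 76) (nat_lit 9563363231) (nat_lit 345) (nat_lit 5) (nat_lit 355) (nat_lit 5) (nat_lit 346) (nat_lit 5) (nat_lit 477) (nat_lit 448) (nat_lit 275)) (XT.lf (nat_lit 0) (nat_lit 5673839321) (nat_lit 760) (nat_lit 90168419) (nat_lit 836) (nat_lit 21327941404) (nat_lit 335) (nat_lit 5) (nat_lit 345) (nat_lit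 5) (nat_lit 346) (nat_lit 5) (nat_lit 478) (nat_lit 448) (nat_lit 274))) (XT.nd (nat_lit 78) (nat_lit 0) (nat_lit 0) (XT.lf (nat_lit 0) (nat_lit 1431011152) (nat_lit 684) (nat_lit 10249581156) (nat_lit 760) (nat_lit 15871078486) (nat_lit 326) (nat_lit 5) (nat_lit 335) (nat_lit 5) (nat_lit 336) (nat_lit 5) (nat_lit 479) (nat_lit 448) (nat_lit 273)) (XT.lf (nat_lit 0) (nat_lit 17961645964) (nat_lit 760) (nat_lit 2819217214) (nat_lit 76) (nat_lit 7240581806) (nat_lit 326) (nat_lit 5) (nat_lit 336) (nat_lit 5) (nat_lit 327) (nat_lit 5) (nat_lit 480) (nat_lit 448) (nat_lit 272)))))) (XT.nd (nat_lit 546) (nat_lit 3876) (nat_lit 0) (XT.nd (nat_lit 234) (nat_lit 1900) (nat_lit 0) (XT.nd (nat_lit 78) (nat_lit 1368) (nat_lit 0) (XT.lf (nat_lit 0) (nat_lit 21385947849) (nat_lit 684) (nat_lit 3246360222) (nat_lit 760) (nat_lit 3868981100) (nat_lit 317) (nat_lit 5) (nat_lit 326) (nat_lit 5) (nat_lit 327) (nat_lit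 5) (nat_lit 481) (nat_lit 448) (nat_lit 271)) (XT.nd (nat_lit 78) (nat_lit 684) (nat_lit 0) (XT.lf (nat_lit 0) (nat_lit 2699007059) (nat_lit 684) (nat_lit 11522343985) (nat_lit 76) (nat_lit 14769365667) (nat_lit 308) (nat_lit 5) (nat_lit 317) (nat_lit 5) (nat_lit 309) (nat_lit 5) (nat_lit 482) (nat_lit 448) (nat_lit 270)) (XT.lf (nat_lit 0) (nat_lit 9589421797) (nat_lit 760) (nat_lit 16001659360) (nat_lit 76) (nat_lit 3899675701) (nat_lit 299) (nat_lit 5) (nat_lit 309) (nat_lit 5) (nat_lit 300) (nat_lit 5) (nat_lit 483) (nat_lit 448) (nat_lit 269)))) (XT.nd (nat_lit 156) (nat_lit 684) (nat_lit 0) (XT.nd (nat_lit 78) (nat_lit 608) (nat_lit 0) (XT.lf (nat_lit 0) (nat_lit 9425146203) (nat_lit 608) (nat_lit 7490419118) (nat_lit 684) (nat_lit 13085652843) (nat_lit 291) (nat_lit 5) (nat_lit 299) (nat_lit 5) (nat_lit 300) (nat_lit 5) (nat_lit 484) (nat_lit 448) (nat_lit 268)) (XT.lf (nat_lit 0) (nat_lit 5298118155)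 (nat_lit 608) (nat_lit 19373576578) (nat_lit 684) (nat_lit 5851094813) (nat_lit 283) (nat_lit 5) (nat_lit 291) (nat_lit 5) (nat_lit 292) (nat_lit 5) (nat_lit 485) (nat_lit 448) (nat_lit 267))) (XT.nd (nat_lit 78) (nat_lit 0) (nat_lit 0) (XT.lf (nat_lit 0) (nat_lit 1119074691) (nat_lit 608) (nat_lit 652467429) (nat_lit 684) (nat_lit 29284417717) (nat_lit 274) (nat_lit 5) (nat_lit 282) (nat_lit 5) (nat_lit 283) (nat_lit 5) (nat_lit 486) (nat_lit 448) (nat_lit 266)) (XT.lf (nat_lit 0) (nat_lit 9831272446) (nat_lit 684) (nat_lit 3171659345) (nat_lit 76) (nat_lit 18595662028) (nat_lit 274) (nat_lit 5) (nat_lit 283) (nat_lit 5) (nat_lit 275) (nat_lit 5) (nat_lit 487) (nat_lit 448) (nat_lit 265))))) (XT.nd (nat_lit 234) (nat_lit 2128) (nat_lit 0) (XT.nd (nat_lit 78) (nat_lit 1140) (nat_lit 0) (XT.lf (nat_lit 0) (nat_lit 18333845579) (nat_lit 684) (nat_lit 7486692892) (nat_lit 76) (nat_lit 6332947573) (nat_lit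 266) (nat_lit 5) (nat_lit 275) (nat_lit 5) (nat_lit 267) (nat_lit 5) (nat_lit 488) (nat_lit 448) (nat_lit 264)) (XT.nd (nat_lit 78) (nat_lit 608) (nat_lit 0) (XT.lf (nat_lit 0) (nat_lit 20838500454) (nat_lit 532) (nat_lit 6491581214) (nat_lit 608) (nat_lit 5390171888) (nat_lit 259) (nat_lit 5) (nat_lit 266) (nat_lit 5) (nat_lit 267) (nat_lit 5) (nat_lit 489) (nat_lit 448) (nat_lit 263)) (XT.lf (nat_lit 0) (nat_lit 3493581738) (nat_lit 608) (nat_lit 16381399541) (nat_lit 76) (nat_lit 13423723968) (nat_lit 251) (nat_lit 5) (nat_lit 259) (nat_lit 5) (nat_lit 252) (nat_lit 5) (nat_lit 490) (nat_lit 448) (nat_lit 262)))) (XT.nd (nat_lit 156) (nat_lit 1064) (nat_lit 0) (XT.nd (nat_lit 78) (nat_lit 532) (nat_lit 0) (XT.lf (nat_lit 0) (nat_lit 12775362428) (nat_lit 608) (nat_lit 20957910223) (nat_lit 76) (nat_lit 156430559) (nat_lit 244) (nat_lit 5) (nat_lit 252) (nat_lit 5) (nat_lit 245) (nat_lit 5) (nat_lit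 491) (nat_lit 448) (nat_lit 261)) (XT.lf (nat_lit 0) (nat_lit 8827694610) (nat_lit 532) (nat_lit 13804835846) (nat_lit 608) (nat_lit 11859962191) (nat_lit 237) (nat_lit 5) (nat_lit 244) (nat_lit 5) (nat_lit 245) (nat_lit 5) (nat_lit 492) (nat_lit 448) (nat_lit 260))) (XT.nd (nat_lit 78) (nat_lit 608) (nat_lit 0) (XT.lf (nat_lit 0) (nat_lit 4693379197) (nat_lit 456) (nat_lit 28304161457) (nat_lit 532) (nat_lit 2111582773) (nat_lit 231) (nat_lit 5) (nat_lit 237) (nat_lit 5) (nat_lit 238) (nat_lit 5) (nat_lit 493) (nat_lit 448) (nat_lit 259)) (XT.lf (nat_lit 0) (nat_lit 426707807) (nat_lit 532) (nat_lit 7663825480) (nat_lit 608) (nat_lit 27647384826) (nat_lit 223) (nat_lit 5) (nat_lit 230) (nat_lit 5) (nat_lit 231) (nat_lit 5) (nat_lit 494) (nat_lit 448) (nat_lit 258))))))))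
noncomputable def xc104 : XT := (XT.nd (nat_lit 60216) (nat_lit 0) (nat_lit 5244) (XT.nd (nat_lit 59124) (nat_lit 0) (nat_lit 22876) (XT.nd (nat_lit 468) (nat_lit 1292) (nat_lit 0) (XT.nd (nat_lit 234) (nat_lit 1368) (nat_lit 0) (XT.nd (nat_lit 78) (nat_lit 988) (nat_lit 0) (XT.lf (nat_lit 0) (nat_lit 18861143604) (nat_lit 608) (nat_lit 3881184283) (nat_lit 76) (nat_lit 13637147414) (nat_lit 223) (nat_lit 5) (nat_lit 231) (nat_lit 5) (nat_lit 224) (nat_lit 5) (nat_lit 495) (nat_lit 448) (nat_lit 257)) (XT.nd (nat_lit 78) (nat_lit 532) (nat_lit 0) (XT.lf (nat_lit 0) (nat_lit 28811819412) (nat_lit 456) (nat_lit 1376720438) (nat_lit 532) (nat_lit 6847066185) (nat_lit 217) (nat_lit 5) (nat_lit 223) (nat_lit 5) (nat_lit 224) (nat_lit 5) (nat_lit 496) (nat_lit 448) (nat_lit 256)) (XT.lf (nat_lit 0) (nat_lit 4410356150) (nat_lit 532) (nat_lit 12718779921) (nat_lit 76) (nat_lit 20575339188) (nat_lit 210) (nat_lit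 5) (nat_lit 217) (nat_lit 5) (nat_lit 211) (nat_lit 5) (nat_lit 497) (nat_lit 448) (nat_lit 255)))) (XT.nd (nat_lit 78) (nat_lit 912) (nat_lit 0) (XT.lf (nat_lit 0) (nat_lit 16143540818) (nat_lit 532) (nat_lit 17294120757) (nat_lit 76) (nat_lit 4950222684) (nat_lit 204) (nat_lit 5) (nat_lit 211) (nat_lit 5) (nat_lit 205) (nat_lit 5) (nat_lit 498) (nat_lit 448) (nat_lit 254)) (XT.nd (nat_lit 78) (nat_lit 456) (nat_lit 0) (XT.lf (nat_lit 0) (nat_lit 17107513334) (nat_lit 456) (nat_lit 11429159417) (nat_lit 532) (nat_lit 10548963910) (nat_lit 198) (nat_lit 5) (nat_lit 204) (nat_lit 5) (nat_lit 205) (nat_lit 5) (nat_lit 499) (nat_lit 448) (nat_lit 253)) (XT.lf (nat_lit 0) (nat_lit 1750865360) (nat_lit 456) (nat_lit 26743253177) (nat_lit 76) (nat_lit 11304544319) (nat_lit 192) (nat_lit 5) (nat_lit 198) (nat_lit 5) (nat_lit 193) (nat_lit 5) (nat_lit 500) (nat_lit 448) (nat_lit 252))))) (XT.nd (nat_lit 234)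 (nat_lit 0) (nat_lit 0) (XT.nd (nat_lit 78) (nat_lit 836) (nat_lit 0) (XT.lf (nat_lit 0) (nat_lit 8872726408) (nat_lit 456) (nat_lit 5684120847) (nat_lit 532) (nat_lit 25969228628) (nat_lit 186) (nat_lit 5) (nat_lit 192) (nat_lit 5) (nat_lit 193) (nat_lit 5) (nat_lit 501) (nat_lit 448) (nat_lit 251)) (XT.nd (nat_lit 78) (nat_lit 456) (nat_lit 0) (XT.lf (nat_lit 0) (nat_lit 4588576204) (nat_lit 380) (nat_lit 23482055386) (nat_lit 456) (nat_lit 13198207397) (nat_lit 181) (nat_lit 5) (nat_lit 186) (nat_lit 5) (nat_lit 187) (nat_lit 5) (nat_lit 502) (nat_lit 448) (nat_lit 250)) (XT.lf (nat_lit 0) (nat_lit 208558288) (nat_lit 456) (nat_lit 41749647659) (nat_lit 76) (nat_lit 70644179) (nat_lit 175) (nat_lit 5) (nat_lit 181) (nat_lit 5) (nat_lit 176) (nat_lit 5) (nat_lit 503) (nat_lit 448) (nat_lit 249)))) (XT.nd (nat_lit 58266) (nat_lit 0) (nat_lit 24396) (XT.nd (nat_lit 58188) (nat_lit 0) (nat_lit 24396)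 (XT.lf (nat_lit 0) (nat_lit 14242372530) (nat_lit 456) (nat_lit 4210348521) (nat_lit 76) (nat_lit 24349112734) (nat_lit 175) (nat_lit 5) (nat_lit 181) (nat_lit 5) (nat_lit 176) (nat_lit 5) (nat_lit 504) (nat_lit 448) (nat_lit 248)) (XT.lf (nat_lit 0) (nat_lit 3354582476) (nat_lit 0) (nat_lit 3354582476) (nat_lit 1748) (nat_lit 2007465161) (nat_lit 496) (nat_lit 5) (nat_lit 496) (nat_lit 3) (nat_lit 519) (nat_lit 3) (nat_lit 449) (nat_lit 449) (nat_lit 302))) (XT.nd (nat_lit 78) (nat_lit 0) (nat_lit 76) (XT.lf (nat_lit 76) (nat_lit 2237724649) (nat_lit 0) (nat_lit 11761302782) (nat_lit 1824) (nat_lit 3688122950) (nat_lit 497) (nat_lit 5) (nat_lit 496) (nat_lit 5) (nat_lit 520) (nat_lit 5) (nat_lit 450) (nat_lit 449) (nat_lit 301)) (XT.lf (nat_lit 0) (nat_lit 14708033593) (nat_lit 1748) (nat_lit 2269956760) (nat_lit 1824) (nat_lit 968449921) (nat_lit 497) (nat_lit 5) (nat_lit 520) (nat_lit 5) (nat_lit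 521) (nat_lit 5) (nat_lit 451) (nat_lit 449) (nat_lit 300)))))) (XT.nd (nat_lit 546) (nat_lit 0) (nat_lit 152) (XT.nd (nat_lit 234) (nat_lit 1596) (nat_lit 0) (XT.nd (nat_lit 78) (nat_lit 0) (nat_lit 76) (XT.lf (nat_lit 76) (nat_lit 11368507663) (nat_lit 0) (nat_lit 4209950040) (nat_lit 1824) (nat_lit 2632248974) (nat_lit 498) (nat_lit 5) (nat_lit 497) (nat_lit 5) (nat_lit 521) (nat_lit 5) (nat_lit 452) (nat_lit 449) (nat_lit 299)) (XT.nd (nat_lit 78) (nat_lit 0) (nat_lit 76) (XT.lf (nat_lit 76) (nat_lit 6991140809) (nat_lit 0) (nat_lit 9590812605) (nat_lit 1824) (nat_lit 1898809230) (nat_lit 499) (nat_lit 5) (nat_lit 498) (nat_lit 5) (nat_lit 522) (nat_lit 5) (nat_lit 453) (nat_lit 449) (nat_lit 298)) (XT.lf (nat_lit 76) (nat_lit 2549999677) (nat_lit 0) (nat_lit 15168280336) (nat_lit 1824) (nat_lit 1038586480) (nat_lit 500) (nat_lit 5) (nat_lit 499) (nat_lit 5) (nat_lit 523) (nat_lit 5) (nat_lit 454)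 (nat_lit 449) (nat_lit 297)))) (XT.nd (nat_lit 156) (nat_lit 0) (nat_lit 76) (XT.nd (nat_lit 78) (nat_lit 1748) (nat_lit 0) (XT.lf (nat_lit 76) (nat_lit 17096056028) (nat_lit 0) (nat_lit 1922873959) (nat_lit 1824) (nat_lit 19719502) (nat_lit 500) (nat_lit 5) (nat_lit 499) (nat_lit 5) (nat_lit 523) (nat_lit 5) (nat_lit 455) (nat_lit 449) (nat_lit 296)) (XT.lf (nat_lit 0) (nat_lit 1165633783) (nat_lit 1824) (nat_lit 6498819700) (nat_lit 1900) (nat_lit 11661310949) (nat_lit 476) (nat_lit 5) (nat_lit 500) (nat_lit 5) (nat_lit 501) (nat_lit 5) (nat_lit 456) (nat_lit 449) (nat_lit 295))) (XT.nd (nat_lit 78) (nat_lit 0) (nat_lit 76) (XT.lf (nat_lit 0) (nat_lit 2496511113) (nat_lit 1824) (nat_lit 11122843978) (nat_lit 1900) (nat_lit 5999931147) (nat_lit 477) (nat_lit 5) (nat_lit 501) (nat_lit 5) (nat_lit 502) (nat_lit 5) (nat_lit 457) (nat_lit 449) (nat_lit 294)) (XT.lf (nat_lit 0) (nat_lit 3979880281) (nat_lit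 1824) (nat_lit 15815347168) (nat_lit 1900) (nat_lit 124135569) (nat_lit 478) (nat_lit 5) (nat_lit 502) (nat_lit 5) (nat_lit 503) (nat_lit 5) (nat_lit 458) (nat_lit 449) (nat_lit 293))))) (XT.nd (nat_lit 234) (nat_lit 0) (nat_lit 152) (XT.nd (nat_lit 78) (nat_lit 0) (nat_lit 76) (XT.lf (nat_lit 0) (nat_lit 5664491961) (nat_lit 1824) (nat_lit 385913710) (nat_lit 1900) (nat_lit 14174902217) (nat_lit 478) (nat_lit 5) (nat_lit 502) (nat_lit 5) (nat_lit 503) (nat_lit 5) (nat_lit 459) (nat_lit 449) (nat_lit 292)) (XT.nd (nat_lit 78) (nat_lit 0) (nat_lit 76) (XT.lf (nat_lit 0) (nat_lit 7545027878) (nat_lit 1824) (nat_lit 4886658699) (nat_lit 1900) (nat_lit 8105837405) (nat_lit 479) (nat_lit 5) (nat_lit 503) (nat_lit 5) (nat_lit 504) (nat_lit 5) (nat_lit 460) (nat_lit 449) (nat_lit 291)) (XT.lf (nat_lit 0) (nat_lit 9601415504) (nat_lit 1824) (nat_lit 9451803889) (nat_lit 1900) (nat_lit 1803499030) (nat_lit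 480) (nat_lit 5) (nat_lit 504) (nat_lit 5) (nat_lit 505) (nat_lit 5) (nat_lit 461) (nat_lit 449) (nat_lit 290)))) (XT.nd (nat_lit 156) (nat_lit 0) (nat_lit 152) (XT.nd (nat_lit 78) (nat_lit 0) (nat_lit 76) (XT.lf (nat_lit 76) (nat_lit 7069355387) (nat_lit 0) (nat_lit 4803106907) (nat_lit 1900) (nat_lit 9309967615) (nat_lit 481) (nat_lit 5) (nat_lit 480) (nat_lit 5) (nat_lit 505) (nat_lit 5) (nat_lit 462) (nat_lit 449) (nat_lit 289)) (XT.lf (nat_lit 76) (nat_lit 2661889262) (nat_lit 0) (nat_lit 11686458029) (nat_lit 1900) (nat_lit 7166831856) (nat_lit 482) (nat_lit 5) (nat_lit 481) (nat_lit 5) (nat_lit 506) (nat_lit 5) (nat_lit 463) (nat_lit 449) (nat_lit 288))) (XT.nd (nat_lit 78) (nat_lit 0) (nat_lit 0) (XT.lf (nat_lit 0) (nat_lit 17037085745) (nat_lit 1824) (nat_lit 1782038108) (nat_lit 1900) (nat_lit 3036016001) (nat_lit 482) (nat_lit 5) (nat_lit 506) (nat_lit 5) (nat_lit 507) (nat_lit 5) (nat_lit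 464) (nat_lit 449) (nat_lit 287)) (XT.lf (nat_lit 76) (nat_lit 15924820814) (nat_lit 0) (nat_lit 4054542838) (nat_lit 1900) (nat_lit 2222478698) (nat_lit 483) (nat_lit 5) (nat_lit 482) (nat_lit 5) (nat_lit 507) (nat_lit 5) (nat_lit 465) (nat_lit 449) (nat_lit 286))))))) (XT.nd (nat_lit 1014) (nat_lit 7676) (nat_lit 0) (XT.nd (nat_lit 468) (nat_lit 4864) (nat_lit 0) (XT.nd (nat_lit 234) (nat_lit 1748) (nat_lit 0) (XT.nd (nat_lit 78) (nat_lit 1976) (nat_lit 0) (XT.lf (nat_lit 0) (nat_lit 598148556) (nat_lit 1900) (nat_lit 10857576954) (nat_lit 76) (nat_lit 11100100358) (nat_lit 458) (nat_lit 5) (nat_lit 483) (nat_lit 5) (nat_lit 459) (nat_lit 5) (nat_lit 466) (nat_lit 449) (nat_lit 285)) (XT.nd (nat_lit 78) (nat_lit 912) (nat_lit 0) (XT.lf (nat_lit 0) (nat_lit 3608170238) (nat_lit 1140) (nat_lit 15515912596) (nat_lit 76) (nat_lit 3793353313) (nat_lit 444) (nat_lit 5) (nat_lit 459) (nat_lit 5) (nat_lit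 445) (nat_lit 5) (nat_lit 467) (nat_lit 449) (nat_lit 284)) (XT.lf (nat_lit 0) (nat_lit 3023816093) (nat_lit 912) (nat_lit 3846871676) (nat_lit 988) (nat_lit 16415963523) (nat_lit 432) (nat_lit 5) (nat_lit 444) (nat_lit 5) (nat_lit 445) (nat_lit 5) (nat_lit 468) (nat_lit 449) (nat_lit 283)))) (XT.nd (nat_lit 78) (nat_lit 1748) (nat_lit 0) (XT.lf (nat_lit 0) (nat_lit 10406192168) (nat_lit 988) (nat_lit 1417987902) (nat_lit 76) (nat_lit 11839261042) (nat_lit 432) (nat_lit 5) (nat_lit 445) (nat_lit 5) (nat_lit 433) (nat_lit 5) (nat_lit 469) (nat_lit 449) (nat_lit 282)) (XT.nd (nat_lit 78) (nat_lit 836) (nat_lit 0) (XT.lf (nat_lit 0) (nat_lit 14210018307) (nat_lit 988) (nat_lit 5876892346) (nat_lit 76) (nat_lit 3961379275) (nat_lit 420) (nat_lit 5) (nat_lit 433) (nat_lit 5) (nat_lit 421) (nat_lit 5) (nat_lit 470) (nat_lit 449) (nat_lit 281)) (XT.lf (nat_lit 0) (nat_lit 14020926505) (nat_lit 836) (nat_lit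 4279308561) (nat_lit 912) (nat_lit 6141004048) (nat_lit 409) (nat_lit 5) (nat_lit 420) (nat_lit 5) (nat_lit 421) (nat_lit 5) (nat_lit 471) (nat_lit 449) (nat_lit 280))))) (XT.nd (nat_lit 234) (nat_lit 2280) (nat_lit 0) (XT.nd (nat_lit 78) (nat_lit 1748) (nat_lit 0) (XT.lf (nat_lit 0) (nat_lit 9793963749) (nat_lit 836) (nat_lit 12893470099) (nat_lit 912) (nat_lit 2155057826) (nat_lit 398) (nat_lit 5) (nat_lit 409) (nat_lit 5) (nat_lit 410) (nat_lit 5) (nat_lit 472) (nat_lit 449) (nat_lit 279)) (XT.nd (nat_lit 78) (nat_lit 836) (nat_lit 0) (XT.lf (nat_lit 0) (nat_lit 2075804593) (nat_lit 912) (nat_lit 19749062777) (nat_lit 76) (nat_lit 3427643185) (nat_lit 386) (nat_lit 5) (nat_lit 398) (nat_lit 5) (nat_lit 387) (nat_lit 5) (nat_lit 473) (nat_lit 449) (nat_lit 278)) (XT.lf (nat_lit 0) (nat_lit 1111201053) (nat_lit 836) (nat_lit 5482321689) (nat_lit 912) (nat_lit 19077238568) (nat_lit 375) (nat_lit 5)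 (nat_lit 386) (nat_lit 5) (nat_lit 387) (nat_lit 5) (nat_lit 474) (nat_lit 449) (nat_lit 277)))) (XT.nd (nat_lit 156) (nat_lit 1520) (nat_lit 0) (XT.nd (nat_lit 78) (nat_lit 760) (nat_lit 0) (XT.lf (nat_lit 0) (nat_lit 11448290866) (nat_lit 912) (nat_lit 3313122246) (nat_lit 76) (nat_lit 11336116474) (nat_lit 375) (nat_lit 5) (nat_lit 387) (nat_lit 5) (nat_lit 376) (nat_lit 5) (nat_lit 475) (nat_lit 449) (nat_lit 276)) (XT.lf (nat_lit 0) (nat_lit 16614671111) (nat_lit 836) (nat_lit 7774957626) (nat_lit 76) (nat_lit 2144153147) (nat_lit 365) (nat_lit 5) (nat_lit 376) (nat_lit 5) (nat_lit 366) (nat_lit 5) (nat_lit 476) (nat_lit 449) (nat_lit 275))) (XT.nd (nat_lit 78) (nat_lit 760) (nat_lit 0) (XT.lf (nat_lit 0) (nat_lit 14641709012) (nat_lit 760) (nat_lit 7504172154) (nat_lit 836) (nat_lit 4833044165) (nat_lit 355) (nat_lit 5) (nat_lit 365) (nat_lit 5) (nat_lit 366) (nat_lit 5) (nat_lit 477) (nat_lit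 449) (nat_lit 274)) (XT.lf (nat_lit 0) (nat_lit 580258503) (nat_lit 760) (nat_lit 16971082141) (nat_lit 76) (nat_lit 9882430625) (nat_lit 345) (nat_lit 5) (nat_lit 355) (nat_lit 5) (nat_lit 346) (nat_lit 5) (nat_lit 478) (nat_lit 449) (nat_lit 273)))))) (XT.nd (nat_lit 546) (nat_lit 3572) (nat_lit 0) (XT.nd (nat_lit 234) (nat_lit 2660) (nat_lit 0) (XT.nd (nat_lit 78) (nat_lit 684) (nat_lit 0) (XT.lf (nat_lit 0) (nat_lit 6206170700) (nat_lit 760) (nat_lit 52834972) (nat_lit 836) (nat_lit 21639244154) (nat_lit 335) (nat_lit 5) (nat_lit 345) (nat_lit 5) (nat_lit 346) (nat_lit 5) (nat_lit 479) (nat_lit 449) (nat_lit 272)) (XT.nd (nat_lit 78) (nat_lit 0) (nat_lit 0) (XT.lf (nat_lit 0) (nat_lit 1836280063) (nat_lit 684) (nat_lit 10510031738) (nat_lit 760) (nat_lit 16025587318) (nat_lit 326) (nat_lit 5) (nat_lit 335) (nat_lit 5) (nat_lit 336) (nat_lit 5) (nat_lit 480) (nat_lit 449) (nat_lit 271)) (XT.lf (nat_lit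 0) (nat_lit 18806910021) (nat_lit 760) (nat_lit 2546167535) (nat_lit 76) (nat_lit 7502867179) (nat_lit 326) (nat_lit 5) (nat_lit 336) (nat_lit 5) (nat_lit 327) (nat_lit 5) (nat_lit 481) (nat_lit 449) (nat_lit 270)))) (XT.nd (nat_lit 156) (nat_lit 1292) (nat_lit 0) (XT.nd (nat_lit 78) (nat_lit 684) (nat_lit 0) (XT.lf (nat_lit 0) (nat_lit 22379350420) (nat_lit 684) (nat_lit 3291701148) (nat_lit 760) (nat_lit 3679265934) (nat_lit 317) (nat_lit 5) (nat_lit 326) (nat_lit 5) (nat_lit 327) (nat_lit 5) (nat_lit 482) (nat_lit 449) (nat_lit 269)) (XT.lf (nat_lit 0) (nat_lit 3075590752) (nat_lit 684) (nat_lit 11512375032) (nat_lit 76) (nat_lit 15266546014) (nat_lit 308) (nat_lit 5) (nat_lit 317) (nat_lit 5) (nat_lit 309) (nat_lit 5) (nat_lit 483) (nat_lit 449) (nat_lit 268))) (XT.nd (nat_lit 78) (nat_lit 608) (nat_lit 0) (XT.lf (nat_lit 0) (nat_lit 10166772836) (nat_lit 760) (nat_lit 16126433882) (nat_lit 76)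 (nat_lit 4076465748) (nat_lit 299) (nat_lit 5) (nat_lit 309) (nat_lit 5) (nat_lit 300) (nat_lit 5) (nat_lit 484) (nat_lit 449) (nat_lit 267)) (XT.lf (nat_lit 0) (nat_lit 10057411930) (nat_lit 608) (nat_lit 7649121051) (nat_lit 684) (nat_lit 13189038381) (nat_lit 291) (nat_lit 5) (nat_lit 299) (nat_lit 5) (nat_lit 300) (nat_lit 5) (nat_lit 485) (nat_lit 449) (nat_lit 266))))) (XT.nd (nat_lit 234) (nat_lit 2280) (nat_lit 0) (XT.nd (nat_lit 78) (nat_lit 684) (nat_lit 0) (XT.lf (nat_lit 0) (nat_lit 5806072143) (nat_lit 608) (nat_lit 19883698940) (nat_lit 684) (nat_lit 5743130696) (nat_lit 283) (nat_lit 5) (nat_lit 291) (nat_lit 5) (nat_lit 292) (nat_lit 5) (nat_lit 486) (nat_lit 449) (nat_lit 265)) (XT.nd (nat_lit 78) (nat_lit 0) (nat_lit 0) (XT.lf (nat_lit 0) (nat_lit 1499665371) (nat_lit 608) (nat_lit 598906036) (nat_lit 684) (nat_lit 29883577244) (nat_lit 274) (nat_lit 5) (nat_lit 282) (nat_lit 5) (nat_lit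 283) (nat_lit 5) (nat_lit 487) (nat_lit 449) (nat_lit 264)) (XT.lf (nat_lit 0) (nat_lit 10392577480) (nat_lit 684) (nat_lit 2925028954) (nat_lit 76) (nat_lit 19223605900) (nat_lit 274) (nat_lit 5) (nat_lit 283) (nat_lit 5) (nat_lit 275) (nat_lit 5) (nat_lit 488) (nat_lit 449) (nat_lit 263)))) (XT.nd (nat_lit 156) (nat_lit 1140) (nat_lit 0) (XT.nd (nat_lit 78) (nat_lit 532) (nat_lit 0) (XT.lf (nat_lit 0) (nat_lit 19145142441) (nat_lit 684) (nat_lit 7370320868) (nat_lit 76) (nat_lit 6597390073) (nat_lit 266) (nat_lit 5) (nat_lit 275) (nat_lit 5) (nat_lit 267) (nat_lit 5) (nat_lit 489) (nat_lit 449) (nat_lit 262)) (XT.lf (nat_lit 0) (nat_lit 21799096399) (nat_lit 532) (nat_lit 6606736977) (nat_lit 608) (nat_lit 5290899526) (nat_lit 259) (nat_lit 5) (nat_lit 266) (nat_lit 5) (nat_lit 267) (nat_lit 5) (nat_lit 490) (nat_lit 449) (nat_lit 261))) (XT.nd (nat_lit 78) (nat_lit 532) (nat_lit 0) (XT.lf (nat_lit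 0) (nat_lit 3851133791) (nat_lit 608) (nat_lit 16534936469) (nat_lit 76) (nat_lit 13906530521) (nat_lit 251) (nat_lit 5) (nat_lit 259) (nat_lit 5) (nat_lit 252) (nat_lit 5) (nat_lit 491) (nat_lit 449) (nat_lit 260)) (XT.lf (nat_lit 0) (nat_lit 13406715826) (nat_lit 608) (nat_lit 21249814440) (nat_lit 76) (nat_lit 244891771) (nat_lit 244) (nat_lit 5) (nat_lit 252) (nat_lit 5) (nat_lit 245) (nat_lit 5) (nat_lit 492) (nat_lit 449) (nat_lit 259))))))))
noncomputable def xc105 : XT := (XT.nd (nat_lit 60294) (nat_lit 0) (nat_lit 5776) (XT.nd (nat_lit 59202) (nat_lit 0) (nat_lit 22800) (XT.nd (nat_lit 468) (nat_lit 2660) (nat_lit 0) (XT.nd (nat_lit 234) (nat_lit 988) (nat_lit 0) (XT.nd (nat_lit 78) (nat_lit 1064) (nat_lit 0) (XT.lf (nat_lit 0) (nat_lit 9423893822) (nat_lit 532) (nat_lit 14130630540) (nat_lit 608) (nat_lit 11967872588) (nat_lit 237) (nat_lit 5) (nat_lit 244) (nat_lit 5) (nat_lit 245) (nat_lit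 5) (nat_lit 493) (nat_lit 449) (nat_lit 258)) (XT.nd (nat_lit 78) (nat_lit 608) (nat_lit 0) (XT.lf (nat_lit 0) (nat_lit 5164400023) (nat_lit 456) (nat_lit 29061707574) (nat_lit 532) (nat_lit 1931506897) (nat_lit 231) (nat_lit 5) (nat_lit 237) (nat_lit 5) (nat_lit 238) (nat_lit 5) (nat_lit 494) (nat_lit 449) (nat_lit 257)) (XT.lf (nat_lit 0) (nat_lit 767521291) (nat_lit 532) (nat_lit 7801091472) (nat_lit 608) (nat_lit 28236726276) (nat_lit 223) (nat_lit 5) (nat_lit 230) (nat_lit 5) (nat_lit 231) (nat_lit 5) (nat_lit 495) (nat_lit 449) (nat_lit 256)))) (XT.nd (nat_lit 78) (nat_lit 988) (nat_lit 0) (XT.lf (nat_lit 0) (nat_lit 19656070159) (nat_lit 608) (nat_lit 3675166093) (nat_lit 76) (nat_lit 14135032387) (nat_lit 223) (nat_lit 5) (nat_lit 231) (nat_lit 5) (nat_lit 224) (nat_lit 5) (nat_lit 496) (nat_lit 449) (nat_lit 255)) (XT.nd (nat_lit 78) (nat_lit 532) (nat_lit 0) (XT.lf (nat_lit 0) (nat_lit 29993396285)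 (nat_lit 456) (nat_lit 1325279036) (nat_lit 532) (nat_lit 6823500498) (nat_lit 217) (nat_lit 5) (nat_lit 223) (nat_lit 5) (nat_lit 224) (nat_lit 5) (nat_lit 497) (nat_lit 449) (nat_lit 254)) (XT.lf (nat_lit 0) (nat_lit 4764712794) (nat_lit 532) (nat_lit 12781475287) (nat_lit 76) (nat_lit 21284972131) (nat_lit 210) (nat_lit 5) (nat_lit 217) (nat_lit 5) (nat_lit 211) (nat_lit 5) (nat_lit 498) (nat_lit 449) (nat_lit 253))))) (XT.nd (nat_lit 234) (nat_lit 1292) (nat_lit 0) (XT.nd (nat_lit 78) (nat_lit 912) (nat_lit 0) (XT.lf (nat_lit 0) (nat_lit 16846086171) (nat_lit 532) (nat_lit 17495512965) (nat_lit 76) (nat_lit 5193548727) (nat_lit 204) (nat_lit 5) (nat_lit 211) (nat_lit 5) (nat_lit 205) (nat_lit 5) (nat_lit 499) (nat_lit 449) (nat_lit 252)) (XT.nd (nat_lit 78) (nat_lit 456) (nat_lit 0) (XT.lf (nat_lit 0) (nat_lit 17933020201) (nat_lit 456) (nat_lit 11673662919) (nat_lit 532) (nat_lit 10647236531)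 (nat_lit 198) (nat_lit 5) (nat_lit 204) (nat_lit 5) (nat_lit 205) (nat_lit 5) (nat_lit 500) (nat_lit 449) (nat_lit 251)) (XT.lf (nat_lit 0) (nat_lit 2015109552) (nat_lit 456) (nat_lit 27231926310) (nat_lit 76) (nat_lit 11741344991) (nat_lit 192) (nat_lit 5) (nat_lit 198) (nat_lit 5) (nat_lit 193) (nat_lit 5) (nat_lit 501) (nat_lit 449) (nat_lit 250)))) (XT.nd (nat_lit 156) (nat_lit 456) (nat_lit 0) (XT.nd (nat_lit 78) (nat_lit 380) (nat_lit 0) (XT.lf (nat_lit 0) (nat_lit 9447444479) (nat_lit 456) (nat_lit 5753663096) (nat_lit 532) (nat_lit 26536592180) (nat_lit 186) (nat_lit 5) (nat_lit 192) (nat_lit 5) (nat_lit 193) (nat_lit 5) (nat_lit 502) (nat_lit 449) (nat_lit 249)) (XT.lf (nat_lit 0) (nat_lit 5033210071) (nat_lit 380) (nat_lit 24083679718) (nat_lit 456) (nat_lit 13385924490) (nat_lit 181) (nat_lit 5) (nat_lit 186) (nat_lit 5) (nat_lit 187) (nat_lit 5) (nat_lit 503) (nat_lit 449) (nat_lit 248)))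 (XT.nd (nat_lit 58266) (nat_lit 0) (nat_lit 24396) (XT.lf (nat_lit 0) (nat_lit 416976103) (nat_lit 456) (nat_lit 42694080803) (nat_lit 76) (nat_lit 174608751) (nat_lit 175) (nat_lit 5) (nat_lit 181) (nat_lit 5) (nat_lit 176) (nat_lit 5) (nat_lit 504) (nat_lit 449) (nat_lit 247)) (XT.lf (nat_lit 0) (nat_lit 3616654842) (nat_lit 0) (nat_lit 3616654842) (nat_lit 1748) (nat_lit 1738341833) (nat_lit 496) (nat_lit 5) (nat_lit 496) (nat_lit 3) (nat_lit 519) (nat_lit 3) (nat_lit 450) (nat_lit 450) (nat_lit 300)))))) (XT.nd (nat_lit 546) (nat_lit 0) (nat_lit 152) (XT.nd (nat_lit 234) (nat_lit 1596) (nat_lit 0) (XT.nd (nat_lit 78) (nat_lit 0) (nat_lit 76) (XT.lf (nat_lit 76) (nat_lit 2637295091) (nat_lit 0) (nat_lit 12408757962) (nat_lit 1824) (nat_lit 3159131701) (nat_lit 497) (nat_lit 5) (nat_lit 496) (nat_lit 5) (nat_lit 520) (nat_lit 5) (nat_lit 451) (nat_lit 450) (nat_lit 299)) (XT.nd (nat_lit 78) (nat_lit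 0) (nat_lit 0) (XT.lf (nat_lit 0) (nat_lit 15756208539) (nat_lit 1748) (nat_lit 2001228587) (nat_lit 1824) (nat_lit 715219774) (nat_lit 497) (nat_lit 5) (nat_lit 520) (nat_lit 5) (nat_lit 521) (nat_lit 5) (nat_lit 452) (nat_lit 450) (nat_lit 298)) (XT.lf (nat_lit 76) (nat_lit 12040925154) (nat_lit 0) (nat_lit 4596293956) (nat_lit 1824) (nat_lit 2107943815) (nat_lit 498) (nat_lit 5) (nat_lit 497) (nat_lit 5) (nat_lit 521) (nat_lit 5) (nat_lit 453) (nat_lit 450) (nat_lit 297)))) (XT.nd (nat_lit 156) (nat_lit 1748) (nat_lit 0) (XT.nd (nat_lit 78) (nat_lit 0) (nat_lit 76) (XT.lf (nat_lit 76) (nat_lit 7540194789) (nat_lit 0) (nat_lit 10113963313) (nat_lit 1824) (nat_lit 1369496770) (nat_lit 499) (nat_lit 5) (nat_lit 498) (nat_lit 5) (nat_lit 522) (nat_lit 5) (nat_lit 454) (nat_lit 450) (nat_lit 296)) (XT.lf (nat_lit 76) (nat_lit 2973161687) (nat_lit 0) (nat_lit 15835439371) (nat_lit 1824) (nat_lit 499761288)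 (nat_lit 500) (nat_lit 5) (nat_lit 499) (nat_lit 5) (nat_lit 523) (nat_lit 5) (nat_lit 455) (nat_lit 450) (nat_lit 295))) (XT.nd (nat_lit 78) (nat_lit 0) (nat_lit 76) (XT.lf (nat_lit 0) (nat_lit 526078945) (nat_lit 1824) (nat_lit 1656883612) (nat_lit 1900) (nat_lit 17415893564) (nat_lit 475) (nat_lit 5) (nat_lit 499) (nat_lit 5) (nat_lit 500) (nat_lit 5) (nat_lit 456) (nat_lit 450) (nat_lit 294)) (XT.lf (nat_lit 0) (nat_lit 1731755790) (nat_lit 1824) (nat_lit 6343566375) (nat_lit 1900) (nat_lit 11819560084) (nat_lit 476) (nat_lit 5) (nat_lit 500) (nat_lit 5) (nat_lit 501) (nat_lit 5) (nat_lit 457) (nat_lit 450) (nat_lit 293))))) (XT.nd (nat_lit 234) (nat_lit 0) (nat_lit 152) (XT.nd (nat_lit 78) (nat_lit 0) (nat_lit 0) (XT.lf (nat_lit 0) (nat_lit 3088200200) (nat_lit 1824) (nat_lit 11100478020) (nat_lit 1900) (nat_lit 6008819607) (nat_lit 477) (nat_lit 5) (nat_lit 501) (nat_lit 5) (nat_lit 502) (nat_lit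 5) (nat_lit 458) (nat_lit 450) (nat_lit 292)) (XT.nd (nat_lit 78) (nat_lit 0) (nat_lit 76) (XT.lf (nat_lit 76) (nat_lit 4578269100) (nat_lit 0) (nat_lit 24182132) (nat_lit 1900) (nat_lit 15904398971) (nat_lit 478) (nat_lit 5) (nat_lit 477) (nat_lit 5) (nat_lit 502) (nat_lit 5) (nat_lit 459) (nat_lit 450) (nat_lit 291)) (XT.lf (nat_lit 0) (nat_lit 6322793261) (nat_lit 1824) (nat_lit 46633368) (nat_lit 1900) (nat_lit 14452843831) (nat_lit 478) (nat_lit 5) (nat_lit 502) (nat_lit 5) (nat_lit 503) (nat_lit 5) (nat_lit 460) (nat_lit 450) (nat_lit 290)))) (XT.nd (nat_lit 156) (nat_lit 0) (nat_lit 76) (XT.nd (nat_lit 78) (nat_lit 0) (nat_lit 76) (XT.lf (nat_lit 0) (nat_lit 8246910077) (nat_lit 1824) (nat_lit 4677684857) (nat_lit 1900) (nat_lit 8219515659) (nat_lit 479) (nat_lit 5) (nat_lit 503) (nat_lit 5) (nat_lit 504) (nat_lit 5) (nat_lit 461) (nat_lit 450) (nat_lit 289)) (XT.lf (nat_lit 0) (nat_lit 10352668950)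 (nat_lit 1824) (nat_lit 9375505349) (nat_lit 1900) (nat_lit 1744953807) (nat_lit 480) (nat_lit 5) (nat_lit 504) (nat_lit 5) (nat_lit 505) (nat_lit 5) (nat_lit 462) (nat_lit 450) (nat_lit 288))) (XT.nd (nat_lit 78) (nat_lit 0) (nat_lit 76) (XT.lf (nat_lit 76) (nat_lit 7635450523) (nat_lit 0) (nat_lit 5045203534) (nat_lit 1900) (nat_lit 9128181545) (nat_lit 481) (nat_lit 5) (nat_lit 480) (nat_lit 5) (nat_lit 505) (nat_lit 5) (nat_lit 463) (nat_lit 450) (nat_lit 287)) (XT.lf (nat_lit 76) (nat_lit 3099563030) (nat_lit 0) (nat_lit 12119792421) (nat_lit 1900) (nat_lit 6932441852) (nat_lit 482) (nat_lit 5) (nat_lit 481) (nat_lit 5) (nat_lit 506) (nat_lit 5) (nat_lit 464) (nat_lit 450) (nat_lit 286))))))) (XT.nd (nat_lit 1092) (nat_lit 7904) (nat_lit 0) (XT.nd (nat_lit 546) (nat_lit 4940) (nat_lit 0) (XT.nd (nat_lit 234) (nat_lit 2888) (nat_lit 0) (XT.nd (nat_lit 78) (nat_lit 1824) (nat_lit 0) (XT.lf (nat_lit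 0) (nat_lit 17975402719) (nat_lit 1824) (nat_lit 1479002633) (nat_lit 1900) (nat_lit 3047819304) (nat_lit 482) (nat_lit 5) (nat_lit 506) (nat_lit 5) (nat_lit 507) (nat_lit 5) (nat_lit 465) (nat_lit 450) (nat_lit 285)) (XT.nd (nat_lit 78) (nat_lit 1824) (nat_lit 0) (XT.lf (nat_lit 76) (nat_lit 16753278322) (nat_lit 0) (nat_lit 4242504855) (nat_lit 1900) (nat_lit 1863749103) (nat_lit 483) (nat_lit 5) (nat_lit 482) (nat_lit 5) (nat_lit 507) (nat_lit 5) (nat_lit 466) (nat_lit 450) (nat_lit 284)) (XT.lf (nat_lit 0) (nat_lit 1025580466) (nat_lit 1900) (nat_lit 10824162756) (nat_lit 76) (nat_lit 11374544289) (nat_lit 458) (nat_lit 5) (nat_lit 483) (nat_lit 5) (nat_lit 459) (nat_lit 5) (nat_lit 467) (nat_lit 450) (nat_lit 283)))) (XT.nd (nat_lit 156) (nat_lit 912) (nat_lit 0) (XT.nd (nat_lit 78) (nat_lit 912) (nat_lit 0) (XT.lf (nat_lit 0) (nat_lit 4115967768) (nat_lit 1140) (nat_lit 15619753149) (nat_lit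 76) (nat_lit 3861224563) (nat_lit 444) (nat_lit 5) (nat_lit 459) (nat_lit 5) (nat_lit 445) (nat_lit 5) (nat_lit 468) (nat_lit 450) (nat_lit 282)) (XT.lf (nat_lit 0) (nat_lit 3470300273) (nat_lit 912) (nat_lit 3996732996) (nat_lit 988) (nat_lit 16510391023) (nat_lit 432) (nat_lit 5) (nat_lit 444) (nat_lit 5) (nat_lit 445) (nat_lit 5) (nat_lit 469) (nat_lit 450) (nat_lit 281))) (XT.nd (nat_lit 78) (nat_lit 912) (nat_lit 0) (XT.lf (nat_lit 0) (nat_lit 11097019836) (nat_lit 988) (nat_lit 1107304294) (nat_lit 76) (nat_lit 12161425977) (nat_lit 432) (nat_lit 5) (nat_lit 445) (nat_lit 5) (nat_lit 433) (nat_lit 5) (nat_lit 470) (nat_lit 450) (nat_lit 280)) (XT.lf (nat_lit 0) (nat_lit 15006043220) (nat_lit 988) (nat_lit 5698143043) (nat_lit 76) (nat_lit 4058137099) (nat_lit 420) (nat_lit 5) (nat_lit 433) (nat_lit 5) (nat_lit 421) (nat_lit 5) (nat_lit 471) (nat_lit 450) (nat_lit 279))))) (XT.nd (nat_lit 234)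 (nat_lit 2356) (nat_lit 0) (XT.nd (nat_lit 78) (nat_lit 1748) (nat_lit 0) (XT.lf (nat_lit 0) (nat_lit 14790850011) (nat_lit 836) (nat_lit 4419615659) (nat_lit 912) (nat_lit 5956765974) (nat_lit 409) (nat_lit 5) (nat_lit 420) (nat_lit 5) (nat_lit 421) (nat_lit 5) (nat_lit 472) (nat_lit 450) (nat_lit 278)) (XT.nd (nat_lit 78) (nat_lit 912) (nat_lit 0) (XT.lf (nat_lit 0) (nat_lit 10438614758) (nat_lit 836) (nat_lit 13282347230) (nat_lit 912) (nat_lit 1859726749) (nat_lit 398) (nat_lit 5) (nat_lit 409) (nat_lit 5) (nat_lit 410) (nat_lit 5) (nat_lit 473) (nat_lit 450) (nat_lit 277)) (XT.lf (nat_lit 0) (nat_lit 2485281038) (nat_lit 912) (nat_lit 19984785520) (nat_lit 76) (nat_lit 3533056627) (nat_lit 386) (nat_lit 5) (nat_lit 398) (nat_lit 5) (nat_lit 387) (nat_lit 5) (nat_lit 474) (nat_lit 450) (nat_lit 276)))) (XT.nd (nat_lit 156) (nat_lit 1520) (nat_lit 0) (XT.nd (nat_lit 78) (nat_lit 0) (nat_lit 0) (XT.lf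 (nat_lit 0) (nat_lit 1495498394) (nat_lit 836) (nat_lit 5635198323) (nat_lit 912) (nat_lit 19303381968) (nat_lit 375) (nat_lit 5) (nat_lit 386) (nat_lit 5) (nat_lit 387) (nat_lit 5) (nat_lit 475) (nat_lit 450) (nat_lit 275)) (XT.lf (nat_lit 0) (nat_lit 12121296448) (nat_lit 912) (nat_lit 3065242608) (nat_lit 76) (nat_lit 11687307709) (nat_lit 375) (nat_lit 5) (nat_lit 387) (nat_lit 5) (nat_lit 376) (nat_lit 5) (nat_lit 476) (nat_lit 450) (nat_lit 274))) (XT.nd (nat_lit 78) (nat_lit 760) (nat_lit 0) (XT.lf (nat_lit 0) (nat_lit 17435413872) (nat_lit 836) (nat_lit 7660232929) (nat_lit 76) (nat_lit 2227685429) (nat_lit 365) (nat_lit 5) (nat_lit 376) (nat_lit 5) (nat_lit 366) (nat_lit 5) (nat_lit 477) (nat_lit 450) (nat_lit 273)) (XT.lf (nat_lit 0) (nat_lit 15423288253) (nat_lit 760) (nat_lit 7702107141) (nat_lit 836) (nat_lit 4656578379) (nat_lit 355) (nat_lit 5) (nat_lit 365) (nat_lit 5) (nat_lit 366)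 (nat_lit 5) (nat_lit 478) (nat_lit 450) (nat_lit 272)))))) (XT.nd (nat_lit 546) (nat_lit 3648) (nat_lit 0) (XT.nd (nat_lit 234) (nat_lit 2052) (nat_lit 0) (XT.nd (nat_lit 78) (nat_lit 1444) (nat_lit 0) (XT.lf (nat_lit 0) (nat_lit 908080435) (nat_lit 760) (nat_lit 17133256372) (nat_lit 76) (nat_lit 10209223552) (nat_lit 345) (nat_lit 5) (nat_lit 355) (nat_lit 5) (nat_lit 346) (nat_lit 5) (nat_lit 479) (nat_lit 450) (nat_lit 271)) (XT.nd (nat_lit 78) (nat_lit 684) (nat_lit 0) (XT.lf (nat_lit 0) (nat_lit 6733685069) (nat_lit 760) (nat_lit 16679896) (nat_lit 836) (nat_lit 21978745267) (nat_lit 335) (nat_lit 5) (nat_lit 345) (nat_lit 5) (nat_lit 346) (nat_lit 5) (nat_lit 480) (nat_lit 450) (nat_lit 270)) (XT.lf (nat_lit 0) (nat_lit 2232907325) (nat_lit 684) (nat_lit 10780995945) (nat_lit 760) (nat_lit 16203193920) (nat_lit 326) (nat_lit 5) (nat_lit 335) (nat_lit 5) (nat_lit 336) (nat_lit 5) (nat_lit 481)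 (nat_lit 450) (nat_lit 269)))) (XT.nd (nat_lit 156) (nat_lit 1368) (nat_lit 0) (XT.nd (nat_lit 78) (nat_lit 684) (nat_lit 0) (XT.lf (nat_lit 0) (nat_lit 19659942543) (nat_lit 760) (nat_lit 2285455572) (nat_lit 76) (nat_lit 7770434030) (nat_lit 326) (nat_lit 5) (nat_lit 336) (nat_lit 5) (nat_lit 327) (nat_lit 5) (nat_lit 482) (nat_lit 450) (nat_lit 268)) (XT.lf (nat_lit 0) (nat_lit 23382358924) (nat_lit 684) (nat_lit 3341390178) (nat_lit 760) (nat_lit 3501412600) (nat_lit 317) (nat_lit 5) (nat_lit 326) (nat_lit 5) (nat_lit 327) (nat_lit 5) (nat_lit 483) (nat_lit 450) (nat_lit 267))) (XT.nd (nat_lit 78) (nat_lit 684) (nat_lit 0) (XT.lf (nat_lit 0) (nat_lit 3446502534) (nat_lit 684) (nat_lit 11522522160) (nat_lit 76) (nat_lit 15775536246) (nat_lit 308) (nat_lit 5) (nat_lit 317) (nat_lit 5) (nat_lit 309) (nat_lit 5) (nat_lit 484) (nat_lit 450) (nat_lit 266)) (XT.lf (nat_lit 0) (nat_lit 10744816255) (nat_lit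 760) (nat_lit 16275345892) (nat_lit 76) (nat_lit 4255126744) (nat_lit 299) (nat_lit 5) (nat_lit 309) (nat_lit 5) (nat_lit 300) (nat_lit 5) (nat_lit 485) (nat_lit 450) (nat_lit 265))))) (XT.nd (nat_lit 234) (nat_lit 1748) (nat_lit 0) (XT.nd (nat_lit 78) (nat_lit 1292) (nat_lit 0) (XT.lf (nat_lit 0) (nat_lit 10688582248) (nat_lit 608) (nat_lit 7816373324) (nat_lit 684) (nat_lit 13312125833) (nat_lit 291) (nat_lit 5) (nat_lit 299) (nat_lit 5) (nat_lit 300) (nat_lit 5) (nat_lit 486) (nat_lit 450) (nat_lit 264)) (XT.nd (nat_lit 78) (nat_lit 684) (nat_lit 0) (XT.lf (nat_lit 0) (nat_lit 6309230123) (nat_lit 608) (nat_lit 20413205539) (nat_lit 684) (nat_lit 5648201541) (nat_lit 283) (nat_lit 5) (nat_lit 291) (nat_lit 5) (nat_lit 292) (nat_lit 5) (nat_lit 487) (nat_lit 450) (nat_lit 263)) (XT.lf (nat_lit 0) (nat_lit 1871753493) (nat_lit 608) (nat_lit 547936074) (nat_lit 684) (nat_lit 30516748711) (nat_lit 274)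 (nat_lit 5) (nat_lit 282) (nat_lit 5) (nat_lit 283) (nat_lit 5) (nat_lit 488) (nat_lit 450) (nat_lit 262)))) (XT.nd (nat_lit 156) (nat_lit 1140) (nat_lit 0) (XT.nd (nat_lit 78) (nat_lit 608) (nat_lit 0) (XT.lf (nat_lit 0) (nat_lit 10955431118) (nat_lit 684) (nat_lit 2690619232) (nat_lit 76) (nat_lit 19866365553) (nat_lit 274) (nat_lit 5) (nat_lit 283) (nat_lit 5) (nat_lit 275) (nat_lit 5) (nat_lit 489) (nat_lit 450) (nat_lit 261)) (XT.lf (nat_lit 0) (nat_lit 19965779582) (nat_lit 684) (nat_lit 7270030918) (nat_lit 76) (nat_lit 6865491880) (nat_lit 266) (nat_lit 5) (nat_lit 275) (nat_lit 5) (nat_lit 267) (nat_lit 5) (nat_lit 490) (nat_lit 450) (nat_lit 260))) (XT.nd (nat_lit 78) (nat_lit 608) (nat_lit 0) (XT.lf (nat_lit 0) (nat_lit 22769254542) (nat_lit 532) (nat_lit 6729916301) (nat_lit 608) (nat_lit 5203630170) (nat_lit 259) (nat_lit 5) (nat_lit 266) (nat_lit 5) (nat_lit 267) (nat_lit 5) (nat_lit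 491) (nat_lit 450) (nat_lit 259)) (XT.lf (nat_lit 0) (nat_lit 4204903831) (nat_lit 608) (nat_lit 16712476638) (nat_lit 76) (nat_lit 14399223499) (nat_lit 251) (nat_lit 5) (nat_lit 259) (nat_lit 5) (nat_lit 252) (nat_lit 5) (nat_lit 492) (nat_lit 450) (nat_lit 258))))))))
noncomputable def xc106 : XT := (XT.nd (nat_lit 60372) (nat_lit 0) (nat_lit 5928) (XT.nd (nat_lit 59280) (nat_lit 0) (nat_lit 22344) (XT.nd (nat_lit 468) (nat_lit 2736) (nat_lit 0) (XT.nd (nat_lit 234) (nat_lit 1064) (nat_lit 0) (XT.nd (nat_lit 78) (nat_lit 988) (nat_lit 0) (XT.lf (nat_lit 0) (nat_lit 14042768300) (nat_lit 608) (nat_lit 21569811381) (nat_lit 76) (nat_lit 331198177) (nat_lit 244) (nat_lit 5) (nat_lit 252) (nat_lit 5) (nat_lit 245) (nat_lit 5) (nat_lit 493) (nat_lit 450) (nat_lit 257)) (XT.nd (nat_lit 78) (nat_lit 456) (nat_lit 0) (XT.lf (nat_lit 0) (nat_lit 10018957109) (nat_lit 532) (nat_lit 14471270749) (nat_lit 608)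 (nat_lit 12093250110) (nat_lit 237) (nat_lit 5) (nat_lit 244) (nat_lit 5) (nat_lit 245) (nat_lit 5) (nat_lit 494) (nat_lit 450) (nat_lit 256)) (XT.lf (nat_lit 0) (nat_lit 5630595527) (nat_lit 456) (nat_lit 29847237069) (nat_lit 532) (nat_lit 1760002242) (nat_lit 231) (nat_lit 5) (nat_lit 237) (nat_lit 5) (nat_lit 238) (nat_lit 5) (nat_lit 495) (nat_lit 450) (nat_lit 255)))) (XT.nd (nat_lit 78) (nat_lit 456) (nat_lit 0) (XT.lf (nat_lit 0) (nat_lit 1099729935) (nat_lit 532) (nat_lit 7947793862) (nat_lit 608) (nat_lit 28857529550) (nat_lit 223) (nat_lit 5) (nat_lit 230) (nat_lit 5) (nat_lit 231) (nat_lit 5) (nat_lit 496) (nat_lit 450) (nat_lit 254)) (XT.nd (nat_lit 78) (nat_lit 456) (nat_lit 0) (XT.lf (nat_lit 0) (nat_lit 20461693679) (nat_lit 608) (nat_lit 3481477519) (nat_lit 76) (nat_lit 14642758117) (nat_lit 223) (nat_lit 5) (nat_lit 231) (nat_lit 5) (nat_lit 224) (nat_lit 5) (nat_lit 497) (nat_lit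 450) (nat_lit 253)) (XT.lf (nat_lit 0) (nat_lit 31192210607) (nat_lit 456) (nat_lit 1277618220) (nat_lit 532) (nat_lit 6812372097) (nat_lit 217) (nat_lit 5) (nat_lit 223) (nat_lit 5) (nat_lit 224) (nat_lit 5) (nat_lit 498) (nat_lit 450) (nat_lit 252))))) (XT.nd (nat_lit 234) (nat_lit 1292) (nat_lit 0) (XT.nd (nat_lit 78) (nat_lit 912) (nat_lit 0) (XT.lf (nat_lit 0) (nat_lit 5116953790) (nat_lit 532) (nat_lit 12864355842) (nat_lit 76) (nat_lit 22010591487) (nat_lit 210) (nat_lit 5) (nat_lit 217) (nat_lit 5) (nat_lit 211) (nat_lit 5) (nat_lit 499) (nat_lit 450) (nat_lit 251)) (XT.nd (nat_lit 78) (nat_lit 456) (nat_lit 0) (XT.lf (nat_lit 0) (nat_lit 17557180064) (nat_lit 532) (nat_lit 17721168801) (nat_lit 76) (nat_lit 5438731531) (nat_lit 204) (nat_lit 5) (nat_lit 211) (nat_lit 5) (nat_lit 205) (nat_lit 5) (nat_lit 500) (nat_lit 450) (nat_lit 250)) (XT.lf (nat_lit 0) (nat_lit 18765366041) (nat_lit 456)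 (nat_lit 11931148440) (nat_lit 532) (nat_lit 10760982691) (nat_lit 198) (nat_lit 5) (nat_lit 204) (nat_lit 5) (nat_lit 205) (nat_lit 5) (nat_lit 501) (nat_lit 450) (nat_lit 249)))) (XT.nd (nat_lit 156) (nat_lit 380) (nat_lit 0) (XT.nd (nat_lit 78) (nat_lit 456) (nat_lit 0) (XT.lf (nat_lit 0) (nat_lit 2275127577) (nat_lit 456) (nat_lit 27753262963) (nat_lit 76) (nat_lit 12185643351) (nat_lit 192) (nat_lit 5) (nat_lit 198) (nat_lit 5) (nat_lit 193) (nat_lit 5) (nat_lit 502) (nat_lit 450) (nat_lit 248)) (XT.lf (nat_lit 0) (nat_lit 10021692847) (nat_lit 456) (nat_lit 5831088357) (nat_lit 532) (nat_lit 27133129849) (nat_lit 186) (nat_lit 5) (nat_lit 192) (nat_lit 5) (nat_lit 193) (nat_lit 5) (nat_lit 503) (nat_lit 450) (nat_lit 247))) (XT.nd (nat_lit 58344) (nat_lit 0) (nat_lit 23940) (XT.lf (nat_lit 0) (nat_lit 5473561244) (nat_lit 380) (nat_lit 24709256063) (nat_lit 456) (nat_lit 13591226299) (nat_lit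 181) (nat_lit 5) (nat_lit 186) (nat_lit 5) (nat_lit 187) (nat_lit 5) (nat_lit 504) (nat_lit 450) (nat_lit 246)) (XT.lf (nat_lit 0) (nat_lit 3877322355) (nat_lit 0) (nat_lit 3877322355) (nat_lit 1748) (nat_lit 1480050685) (nat_lit 496) (nat_lit 5) (nat_lit 496) (nat_lit 3) (nat_lit 519) (nat_lit 3) (nat_lit 451) (nat_lit 451) (nat_lit 298)))))) (XT.nd (nat_lit 546) (nat_lit 0) (nat_lit 152) (XT.nd (nat_lit 234) (nat_lit 1596) (nat_lit 0) (XT.nd (nat_lit 78) (nat_lit 0) (nat_lit 76) (XT.lf (nat_lit 76) (nat_lit 3029769305) (nat_lit 0) (nat_lit 13058724629) (nat_lit 1824) (nat_lit 2650988378) (nat_lit 497) (nat_lit 5) (nat_lit 496) (nat_lit 5) (nat_lit 520) (nat_lit 5) (nat_lit 452) (nat_lit 451) (nat_lit 297)) (XT.nd (nat_lit 78) (nat_lit 0) (nat_lit 0) (XT.lf (nat_lit 0) (nat_lit 16800988243) (nat_lit 1748) (nat_lit 1743773808) (nat_lit 1824) (nat_lit 470596958) (nat_lit 497) (nat_lit 5) (nat_lit 520)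 (nat_lit 5) (nat_lit 521) (nat_lit 5) (nat_lit 453) (nat_lit 451) (nat_lit 296)) (XT.lf (nat_lit 76) (nat_lit 12714493620) (nat_lit 0) (nat_lit 4979300518) (nat_lit 1824) (nat_lit 1602539818) (nat_lit 498) (nat_lit 5) (nat_lit 497) (nat_lit 5) (nat_lit 521) (nat_lit 5) (nat_lit 454) (nat_lit 451) (nat_lit 295)))) (XT.nd (nat_lit 156) (nat_lit 0) (nat_lit 0) (XT.nd (nat_lit 78) (nat_lit 1748) (nat_lit 0) (XT.lf (nat_lit 76) (nat_lit 8086242046) (nat_lit 0) (nat_lit 10639294109) (nat_lit 1824) (nat_lit 857959620) (nat_lit 499) (nat_lit 5) (nat_lit 498) (nat_lit 5) (nat_lit 522) (nat_lit 5) (nat_lit 455) (nat_lit 451) (nat_lit 294)) (XT.lf (nat_lit 0) (nat_lit 22214101) (nat_lit 1824) (nat_lit 16488073991) (nat_lit 1900) (nat_lit 3366755569) (nat_lit 475) (nat_lit 5) (nat_lit 499) (nat_lit 5) (nat_lit 500) (nat_lit 5) (nat_lit 456) (nat_lit 451) (nat_lit 293))) (XT.nd (nat_lit 78) (nat_lit 0) (nat_lit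 76) (XT.lf (nat_lit 0) (nat_lit 1056635232) (nat_lit 1824) (nat_lit 1382473068) (nat_lit 1900) (nat_lit 17737386905) (nat_lit 475) (nat_lit 5) (nat_lit 499) (nat_lit 5) (nat_lit 500) (nat_lit 5) (nat_lit 457) (nat_lit 451) (nat_lit 292)) (XT.lf (nat_lit 0) (nat_lit 2284371102) (nat_lit 1824) (nat_lit 6203759392) (nat_lit 1900) (nat_lit 11993554754) (nat_lit 476) (nat_lit 5) (nat_lit 500) (nat_lit 5) (nat_lit 501) (nat_lit 5) (nat_lit 458) (nat_lit 451) (nat_lit 291))))) (XT.nd (nat_lit 234) (nat_lit 0) (nat_lit 152) (XT.nd (nat_lit 78) (nat_lit 0) (nat_lit 0) (XT.lf (nat_lit 0) (nat_lit 3667973885) (nat_lit 1824) (nat_lit 11097879883) (nat_lit 1900) (nat_lit 6027797105) (nat_lit 477) (nat_lit 5) (nat_lit 501) (nat_lit 5) (nat_lit 502) (nat_lit 5) (nat_lit 459) (nat_lit 451) (nat_lit 290)) (XT.nd (nat_lit 78) (nat_lit 0) (nat_lit 76) (XT.lf (nat_lit 76) (nat_lit 5045784737) (nat_lit 0) (nat_lit 169823194)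 (nat_lit 1900) (nat_lit 15896917635) (nat_lit 478) (nat_lit 5) (nat_lit 477) (nat_lit 5) (nat_lit 502) (nat_lit 5) (nat_lit 460) (nat_lit 451) (nat_lit 289)) (XT.lf (nat_lit 76) (nat_lit 286441445) (nat_lit 0) (nat_lit 6688227685) (nat_lit 1900) (nat_lit 14462997951) (nat_lit 479) (nat_lit 5) (nat_lit 478) (nat_lit 5) (nat_lit 503) (nat_lit 5) (nat_lit 461) (nat_lit 451) (nat_lit 288)))) (XT.nd (nat_lit 156) (nat_lit 0) (nat_lit 76) (XT.nd (nat_lit 78) (nat_lit 0) (nat_lit 76) (XT.lf (nat_lit 0) (nat_lit 8942551297) (nat_lit 1824) (nat_lit 4482853178) (nat_lit 1900) (nat_lit 8344037912) (nat_lit 479) (nat_lit 5) (nat_lit 503) (nat_lit 5) (nat_lit 504) (nat_lit 5) (nat_lit 462) (nat_lit 451) (nat_lit 287)) (XT.lf (nat_lit 0) (nat_lit 11099869793) (nat_lit 1824) (nat_lit 9317574867) (nat_lit 1900) (nat_lit 1691118809) (nat_lit 480) (nat_lit 5) (nat_lit 504) (nat_lit 5) (nat_lit 505) (nat_lit 5) (nat_lit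 463) (nat_lit 451) (nat_lit 286))) (XT.nd (nat_lit 78) (nat_lit 0) (nat_lit 76) (XT.lf (nat_lit 76) (nat_lit 8198206635) (nat_lit 0) (nat_lit 5288937262) (nat_lit 1900) (nat_lit 8967410063) (nat_lit 481) (nat_lit 5) (nat_lit 480) (nat_lit 5) (nat_lit 505) (nat_lit 5) (nat_lit 464) (nat_lit 451) (nat_lit 285)) (XT.lf (nat_lit 76) (nat_lit 3529826846) (nat_lit 0) (nat_lit 12561377193) (nat_lit 1900) (nat_lit 6716817257) (nat_lit 482) (nat_lit 5) (nat_lit 481) (nat_lit 5) (nat_lit 506) (nat_lit 5) (nat_lit 465) (nat_lit 451) (nat_lit 284))))))) (XT.nd (nat_lit 1014) (nat_lit 8056) (nat_lit 0) (XT.nd (nat_lit 468) (nat_lit 5092) (nat_lit 0) (XT.nd (nat_lit 234) (nat_lit 1976) (nat_lit 0) (XT.nd (nat_lit 78) (nat_lit 1824) (nat_lit 0) (XT.lf (nat_lit 0) (nat_lit 18917345922) (nat_lit 1824) (nat_lit 1187340459) (nat_lit 1900) (nat_lit 3064527540) (nat_lit 482) (nat_lit 5) (nat_lit 506) (nat_lit 5) (nat_lit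 507) (nat_lit 5) (nat_lit 466) (nat_lit 451) (nat_lit 283)) (XT.nd (nat_lit 78) (nat_lit 1824) (nat_lit 0) (XT.lf (nat_lit 76) (nat_lit 17586457200) (nat_lit 0) (nat_lit 4432298365) (nat_lit 1900) (nat_lit 1518677547) (nat_lit 483) (nat_lit 5) (nat_lit 482) (nat_lit 5) (nat_lit 507) (nat_lit 5) (nat_lit 467) (nat_lit 451) (nat_lit 282)) (XT.lf (nat_lit 0) (nat_lit 1442329079) (nat_lit 1900) (nat_lit 10810362323) (nat_lit 76) (nat_lit 11660583068) (nat_lit 458) (nat_lit 5) (nat_lit 483) (nat_lit 5) (nat_lit 459) (nat_lit 5) (nat_lit 468) (nat_lit 451) (nat_lit 281)))) (XT.nd (nat_lit 78) (nat_lit 912) (nat_lit 0) (XT.lf (nat_lit 0) (nat_lit 4616063279) (nat_lit 1140) (nat_lit 15747468352) (nat_lit 76) (nat_lit 3933768483) (nat_lit 444) (nat_lit 5) (nat_lit 459) (nat_lit 5) (nat_lit 445) (nat_lit 5) (nat_lit 469) (nat_lit 451) (nat_lit 280)) (XT.nd (nat_lit 78) (nat_lit 0) (nat_lit 0) (XT.lf (nat_lit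 0) (nat_lit 3909756342) (nat_lit 912) (nat_lit 4149112287) (nat_lit 988) (nat_lit 16630501127) (nat_lit 432) (nat_lit 5) (nat_lit 444) (nat_lit 5) (nat_lit 445) (nat_lit 5) (nat_lit 470) (nat_lit 451) (nat_lit 279)) (XT.lf (nat_lit 0) (nat_lit 11786836740) (nat_lit 988) (nat_lit 807576637) (nat_lit 76) (nat_lit 12495150936) (nat_lit 432) (nat_lit 5) (nat_lit 445) (nat_lit 5) (nat_lit 433) (nat_lit 5) (nat_lit 471) (nat_lit 451) (nat_lit 278))))) (XT.nd (nat_lit 234) (nat_lit 2508) (nat_lit 0) (XT.nd (nat_lit 78) (nat_lit 1672) (nat_lit 0) (XT.lf (nat_lit 0) (nat_lit 15804725190) (nat_lit 988) (nat_lit 5534412931) (nat_lit 76) (nat_lit 4159065344) (nat_lit 420) (nat_lit 5) (nat_lit 433) (nat_lit 5) (nat_lit 421) (nat_lit 5) (nat_lit 472) (nat_lit 451) (nat_lit 277)) (XT.nd (nat_lit 78) (nat_lit 836) (nat_lit 0) (XT.lf (nat_lit 0) (nat_lit 15563820219) (nat_lit 836) (nat_lit 4563447264) (nat_lit 912)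 (nat_lit 5788152339) (nat_lit 409) (nat_lit 5) (nat_lit 420) (nat_lit 5) (nat_lit 421) (nat_lit 5) (nat_lit 473) (nat_lit 451) (nat_lit 276)) (XT.lf (nat_lit 0) (nat_lit 11082466100) (nat_lit 836) (nat_lit 13682771675) (nat_lit 912) (nat_lit 1576200225) (nat_lit 398) (nat_lit 5) (nat_lit 409) (nat_lit 5) (nat_lit 410) (nat_lit 5) (nat_lit 474) (nat_lit 451) (nat_lit 275)))) (XT.nd (nat_lit 156) (nat_lit 760) (nat_lit 0) (XT.nd (nat_lit 78) (nat_lit 836) (nat_lit 0) (XT.lf (nat_lit 0) (nat_lit 2887110944) (nat_lit 912) (nat_lit 20248058805) (nat_lit 76) (nat_lit 3641484131) (nat_lit 386) (nat_lit 5) (nat_lit 398) (nat_lit 5) (nat_lit 387) (nat_lit 5) (nat_lit 475) (nat_lit 451) (nat_lit 274)) (XT.lf (nat_lit 0) (nat_lit 1871178041) (nat_lit 836) (nat_lit 5793326742) (nat_lit 912) (nat_lit 19556181461) (nat_lit 375) (nat_lit 5) (nat_lit 386) (nat_lit 5) (nat_lit 387) (nat_lit 5) (nat_lit 476) (nat_lit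 451) (nat_lit 273))) (XT.nd (nat_lit 78) (nat_lit 760) (nat_lit 0) (XT.lf (nat_lit 0) (nat_lit 12795574287) (nat_lit 912) (nat_lit 2829861490) (nat_lit 76) (nat_lit 12048397051) (nat_lit 375) (nat_lit 5) (nat_lit 387) (nat_lit 5) (nat_lit 376) (nat_lit 5) (nat_lit 477) (nat_lit 451) (nat_lit 272)) (XT.lf (nat_lit 0) (nat_lit 18262277427) (nat_lit 836) (nat_lit 7562041589) (nat_lit 76) (nat_lit 2312621078) (nat_lit 365) (nat_lit 5) (nat_lit 376) (nat_lit 5) (nat_lit 366) (nat_lit 5) (nat_lit 478) (nat_lit 451) (nat_lit 271)))))) (XT.nd (nat_lit 546) (nat_lit 3724) (nat_lit 0) (XT.nd (nat_lit 234) (nat_lit 2052) (nat_lit 0) (XT.nd (nat_lit 78) (nat_lit 1520) (nat_lit 0) (XT.lf (nat_lit 0) (nat_lit 16208663845) (nat_lit 760) (nat_lit 7907541005) (nat_lit 836) (nat_lit 4493271573) (nat_lit 355) (nat_lit 5) (nat_lit 365) (nat_lit 5) (nat_lit 366) (nat_lit 5) (nat_lit 479) (nat_lit 451) (nat_lit 270)) (XT.nd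 (nat_lit 78) (nat_lit 760) (nat_lit 0) (XT.lf (nat_lit 0) (nat_lit 1227917981) (nat_lit 760) (nat_lit 17320212652) (nat_lit 76) (nat_lit 10544079775) (nat_lit 345) (nat_lit 5) (nat_lit 355) (nat_lit 5) (nat_lit 346) (nat_lit 5) (nat_lit 480) (nat_lit 451) (nat_lit 269)) (XT.lf (nat_lit 0) (nat_lit 7239157202) (nat_lit 836) (nat_lit 22327934124) (nat_lit 76) (nat_lit 18152161) (nat_lit 335) (nat_lit 5) (nat_lit 346) (nat_lit 5) (nat_lit 336) (nat_lit 5) (nat_lit 481) (nat_lit 451) (nat_lit 268)))) (XT.nd (nat_lit 156) (nat_lit 1368) (nat_lit 0) (XT.nd (nat_lit 78) (nat_lit 0) (nat_lit 0) (XT.lf (nat_lit 0) (nat_lit 2621827678) (nat_lit 684) (nat_lit 11062634188) (nat_lit 760) (nat_lit 16403531403) (nat_lit 326) (nat_lit 5) (nat_lit 335) (nat_lit 5) (nat_lit 336) (nat_lit 5) (nat_lit 482) (nat_lit 451) (nat_lit 267)) (XT.lf (nat_lit 0) (nat_lit 20521986292) (nat_lit 760) (nat_lit 2036272996) (nat_lit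 76) (nat_lit 8043589312) (nat_lit 326) (nat_lit 5) (nat_lit 336) (nat_lit 5) (nat_lit 327) (nat_lit 5) (nat_lit 483) (nat_lit 451) (nat_lit 266))) (XT.nd (nat_lit 78) (nat_lit 684) (nat_lit 0) (XT.lf (nat_lit 0) (nat_lit 24396420879) (nat_lit 684) (nat_lit 3395386238) (nat_lit 760) (nat_lit 3334769322) (nat_lit 317) (nat_lit 5) (nat_lit 326) (nat_lit 5) (nat_lit 327) (nat_lit 5) (nat_lit 484) (nat_lit 451) (nat_lit 265)) (XT.lf (nat_lit 0) (nat_lit 3812546359) (nat_lit 684) (nat_lit 11552216937) (nat_lit 76) (nat_lit 16296868930) (nat_lit 308) (nat_lit 5) (nat_lit 317) (nat_lit 5) (nat_lit 309) (nat_lit 5) (nat_lit 485) (nat_lit 451) (nat_lit 264))))) (XT.nd (nat_lit 234) (nat_lit 1824) (nat_lit 0) (XT.nd (nat_lit 78) (nat_lit 1216) (nat_lit 0) (XT.lf (nat_lit 0) (nat_lit 11324527350) (nat_lit 760) (nat_lit 16447948802) (nat_lit 76) (nat_lit 4435911872) (nat_lit 299) (nat_lit 5) (nat_lit 309) (nat_lit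 5) (nat_lit 300) (nat_lit 5) (nat_lit 486) (nat_lit 451) (nat_lit 263)) (XT.nd (nat_lit 78) (nat_lit 608) (nat_lit 0) (XT.lf (nat_lit 0) (nat_lit 11319776014) (nat_lit 608) (nat_lit 7992214925) (nat_lit 684) (nat_lit 13454553329) (nat_lit 291) (nat_lit 5) (nat_lit 299) (nat_lit 5) (nat_lit 300) (nat_lit 5) (nat_lit 487) (nat_lit 451) (nat_lit 262)) (XT.lf (nat_lit 0) (nat_lit 6808598285) (nat_lit 608) (nat_lit 20962443661) (nat_lit 684) (nat_lit 5565764208) (nat_lit 283) (nat_lit 5) (nat_lit 291) (nat_lit 5) (nat_lit 292) (nat_lit 5) (nat_lit 488) (nat_lit 451) (nat_lit 261)))) (XT.nd (nat_lit 156) (nat_lit 1140) (nat_lit 0) (XT.nd (nat_lit 78) (nat_lit 0) (nat_lit 0) (XT.lf (nat_lit 0) (nat_lit 2236227487) (nat_lit 608) (nat_lit 499394286) (nat_lit 684) (nat_lit 31184031877) (nat_lit 274) (nat_lit 5) (nat_lit 282) (nat_lit 5) (nat_lit 283) (nat_lit 5) (nat_lit 489) (nat_lit 451) (nat_lit 260)) (XT.lf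 (nat_lit 0) (nat_lit 11520757558) (nat_lit 684) (nat_lit 2467670554) (nat_lit 76) (nat_lit 20524616371) (nat_lit 274) (nat_lit 5) (nat_lit 283) (nat_lit 5) (nat_lit 275) (nat_lit 5) (nat_lit 490) (nat_lit 451) (nat_lit 259))) (XT.nd (nat_lit 78) (nat_lit 532) (nat_lit 0) (XT.lf (nat_lit 0) (nat_lit 20796898193) (nat_lit 684) (nat_lit 7185181919) (nat_lit 76) (nat_lit 7137608117) (nat_lit 266) (nat_lit 5) (nat_lit 275) (nat_lit 5) (nat_lit 267) (nat_lit 5) (nat_lit 491) (nat_lit 451) (nat_lit 258)) (XT.lf (nat_lit 0) (nat_lit 23750367101) (nat_lit 532) (nat_lit 6861097620) (nat_lit 608) (nat_lit 5127863930) (nat_lit 259) (nat_lit 5) (nat_lit 266) (nat_lit 5) (nat_lit 267) (nat_lit 5) (nat_lit 492) (nat_lit 451) (nat_lit 257))))))))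
noncomputable def xc107 : XT := (XT.nd (nat_lit 60450) (nat_lit 0) (nat_lit 4940) (XT.nd (nat_lit 59358) (nat_lit 0) (nat_lit 21964) (XT.nd (nat_lit 468) (nat_lit 2812) (nat_lit 0) (XT.nd (nat_lit 234) (nat_lit 1064) (nat_lit 0) (XT.nd (nat_lit 78) (nat_lit 1064) (nat_lit 0) (XT.lf (nat_lit 0) (nat_lit 4555611250) (nat_lit 608) (nat_lit 16913626670) (nat_lit 76) (nat_lit 14902363426) (nat_lit 251) (nat_lit 5) (nat_lit 259) (nat_lit 5) (nat_lit 252) (nat_lit 5) (nat_lit 493) (nat_lit 451) (nat_lit 256)) (XT.nd (nat_lit 78) (nat_lit 532) (nat_lit 0) (XT.lf (nat_lit 0) (nat_lit 14684478344) (nat_lit 608) (nat_lit 21917633884) (nat_lit 76) (nat_lit 415561168) (nat_lit 244) (nat_lit 5) (nat_lit 252) (nat_lit 5) (nat_lit 245) (nat_lit 5) (nat_lit 494) (nat_lit 451) (nat_lit 255)) (XT.lf (nat_lit 0) (nat_lit 10613942330) (nat_lit 532) (nat_lit 14826910702) (nat_lit 608) (nat_lit 12235801921) (nat_lit 237)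 (nat_lit 5) (nat_lit 244) (nat_lit 5) (nat_lit 245) (nat_lit 5) (nat_lit 495) (nat_lit 451) (nat_lit 254)))) (XT.nd (nat_lit 78) (nat_lit 608) (nat_lit 0) (XT.lf (nat_lit 0) (nat_lit 6092909097) (nat_lit 456) (nat_lit 30661287669) (nat_lit 532) (nat_lit 1596523807) (nat_lit 231) (nat_lit 5) (nat_lit 237) (nat_lit 5) (nat_lit 238) (nat_lit 5) (nat_lit 496) (nat_lit 451) (nat_lit 253)) (XT.nd (nat_lit 78) (nat_lit 0) (nat_lit 0) (XT.lf (nat_lit 0) (nat_lit 1424156469) (nat_lit 532) (nat_lit 8103910443) (nat_lit 608) (nat_lit 29509947382) (nat_lit 223) (nat_lit 5) (nat_lit 230) (nat_lit 5) (nat_lit 231) (nat_lit 5) (nat_lit 497) (nat_lit 451) (nat_lit 252)) (XT.lf (nat_lit 0) (nat_lit 21279089984) (nat_lit 608) (nat_lit 3299425892) (nat_lit 76) (nat_lit 15160912346) (nat_lit 223) (nat_lit 5) (nat_lit 231) (nat_lit 5) (nat_lit 224) (nat_lit 5) (nat_lit 498) (nat_lit 451) (nat_lit 251))))) (XT.nd (nat_lit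 234) (nat_lit 1368) (nat_lit 0) (XT.nd (nat_lit 78) (nat_lit 988) (nat_lit 0) (XT.lf (nat_lit 0) (nat_lit 32409824821) (nat_lit 456) (nat_lit 1233545798) (nat_lit 532) (nat_lit 6813299564) (nat_lit 217) (nat_lit 5) (nat_lit 223) (nat_lit 5) (nat_lit 224) (nat_lit 5) (nat_lit 499) (nat_lit 451) (nat_lit 250)) (XT.nd (nat_lit 78) (nat_lit 456) (nat_lit 0) (XT.lf (nat_lit 0) (nat_lit 5467747363) (nat_lit 532) (nat_lit 12966976401) (nat_lit 76) (nat_lit 22752981238) (nat_lit 210) (nat_lit 5) (nat_lit 217) (nat_lit 5) (nat_lit 211) (nat_lit 5) (nat_lit 500) (nat_lit 451) (nat_lit 249)) (XT.lf (nat_lit 0) (nat_lit 18277798104) (nat_lit 532) (nat_lit 17970770164) (nat_lit 76) (nat_lit 5686139252) (nat_lit 204) (nat_lit 5) (nat_lit 211) (nat_lit 5) (nat_lit 205) (nat_lit 5) (nat_lit 501) (nat_lit 451) (nat_lit 248)))) (XT.nd (nat_lit 156) (nat_lit 456) (nat_lit 0) (XT.nd (nat_lit 78) (nat_lit 456) (nat_lit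 0) (XT.lf (nat_lit 0) (nat_lit 19605785061) (nat_lit 456) (nat_lit 12201681284) (nat_lit 532) (nat_lit 10889947589) (nat_lit 198) (nat_lit 5) (nat_lit 204) (nat_lit 5) (nat_lit 205) (nat_lit 5) (nat_lit 502) (nat_lit 451) (nat_lit 247)) (XT.lf (nat_lit 0) (nat_lit 2531490310) (nat_lit 456) (nat_lit 28307209579) (nat_lit 76) (nat_lit 12637986155) (nat_lit 192) (nat_lit 5) (nat_lit 198) (nat_lit 5) (nat_lit 193) (nat_lit 5) (nat_lit 503) (nat_lit 451) (nat_lit 246))) (XT.nd (nat_lit 58422) (nat_lit 0) (nat_lit 23560) (XT.lf (nat_lit 0) (nat_lit 10596474120) (nat_lit 456) (nat_lit 5916300363) (nat_lit 532) (nat_lit 27759019214) (nat_lit 186) (nat_lit 5) (nat_lit 192) (nat_lit 5) (nat_lit 193) (nat_lit 5) (nat_lit 504) (nat_lit 451) (nat_lit 245)) (XT.lf (nat_lit 0) (nat_lit 4137074835) (nat_lit 0) (nat_lit 4137074835) (nat_lit 1748) (nat_lit 1231831410) (nat_lit 496) (nat_lit 5) (nat_lit 496) (nat_lit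 3) (nat_lit 519) (nat_lit 3) (nat_lit 452) (nat_lit 452) (nat_lit 296)))))) (XT.nd (nat_lit 546) (nat_lit 0) (nat_lit 152) (XT.nd (nat_lit 234) (nat_lit 1596) (nat_lit 0) (XT.nd (nat_lit 78) (nat_lit 0) (nat_lit 76) (XT.lf (nat_lit 76) (nat_lit 3416029865) (nat_lit 0) (nat_lit 13712248955) (nat_lit 1824) (nat_lit 2162210672) (nat_lit 497) (nat_lit 5) (nat_lit 496) (nat_lit 5) (nat_lit 520) (nat_lit 5) (nat_lit 453) (nat_lit 452) (nat_lit 295)) (XT.nd (nat_lit 78) (nat_lit 0) (nat_lit 0) (XT.lf (nat_lit 0) (nat_lit 17844270833) (nat_lit 1748) (nat_lit 1496820705) (nat_lit 1824) (nat_lit 233909504) (nat_lit 497) (nat_lit 5) (nat_lit 520) (nat_lit 5) (nat_lit 521) (nat_lit 5) (nat_lit 454) (nat_lit 452) (nat_lit 294)) (XT.lf (nat_lit 76) (nat_lit 13390339505) (nat_lit 0) (nat_lit 5359726515) (nat_lit 1824) (nat_lit 1114616096) (nat_lit 498) (nat_lit 5) (nat_lit 497) (nat_lit 5) (nat_lit 521) (nat_lit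 5) (nat_lit 455) (nat_lit 452) (nat_lit 293)))) (XT.nd (nat_lit 156) (nat_lit 0) (nat_lit 0) (XT.nd (nat_lit 78) (nat_lit 1748) (nat_lit 0) (XT.lf (nat_lit 76) (nat_lit 8630310515) (nat_lit 0) (nat_lit 11167646178) (nat_lit 1824) (nat_lit 362799122) (nat_lit 499) (nat_lit 5) (nat_lit 498) (nat_lit 5) (nat_lit 522) (nat_lit 5) (nat_lit 456) (nat_lit 452) (nat_lit 292)) (XT.lf (nat_lit 0) (nat_lit 522661027) (nat_lit 1824) (nat_lit 16668039461) (nat_lit 1900) (nat_lit 3272628658) (nat_lit 475) (nat_lit 5) (nat_lit 499) (nat_lit 5) (nat_lit 500) (nat_lit 5) (nat_lit 457) (nat_lit 452) (nat_lit 291))) (XT.nd (nat_lit 78) (nat_lit 0) (nat_lit 76) (XT.lf (nat_lit 0) (nat_lit 1573558078) (nat_lit 1824) (nat_lit 1118435853) (nat_lit 1900) (nat_lit 18080062319) (nat_lit 475) (nat_lit 5) (nat_lit 499) (nat_lit 5) (nat_lit 500) (nat_lit 5) (nat_lit 458) (nat_lit 452) (nat_lit 290)) (XT.lf (nat_lit 0) (nat_lit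 2824824790) (nat_lit 1824) (nat_lit 6078708092) (nat_lit 1900) (nat_lit 12183135991) (nat_lit 476) (nat_lit 5) (nat_lit 500) (nat_lit 5) (nat_lit 501) (nat_lit 5) (nat_lit 459) (nat_lit 452) (nat_lit 289))))) (XT.nd (nat_lit 234) (nat_lit 0) (nat_lit 152) (XT.nd (nat_lit 78) (nat_lit 0) (nat_lit 0) (XT.lf (nat_lit 0) (nat_lit 4237177659) (nat_lit 1824) (nat_lit 11114469332) (nat_lit 1900) (nat_lit 6056602467) (nat_lit 477) (nat_lit 5) (nat_lit 501) (nat_lit 5) (nat_lit 502) (nat_lit 5) (nat_lit 460) (nat_lit 452) (nat_lit 288)) (XT.nd (nat_lit 78) (nat_lit 0) (nat_lit 76) (XT.lf (nat_lit 76) (nat_lit 5508372874) (nat_lit 0) (nat_lit 311514738) (nat_lit 1900) (nat_lit 15917030646) (nat_lit 478) (nat_lit 5) (nat_lit 477) (nat_lit 5) (nat_lit 502) (nat_lit 5) (nat_lit 461) (nat_lit 452) (nat_lit 287)) (XT.lf (nat_lit 76) (nat_lit 610910019) (nat_lit 0) (nat_lit 7008957402) (nat_lit 1900) (nat_lit 14452184443)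 (nat_lit 479) (nat_lit 5) (nat_lit 478) (nat_lit 5) (nat_lit 503) (nat_lit 5) (nat_lit 462) (nat_lit 452) (nat_lit 286)))) (XT.nd (nat_lit 156) (nat_lit 0) (nat_lit 76) (XT.nd (nat_lit 78) (nat_lit 0) (nat_lit 76) (XT.lf (nat_lit 0) (nat_lit 9633331292) (nat_lit 1824) (nat_lit 4301416232) (nat_lit 1900) (nat_lit 8479302760) (nat_lit 479) (nat_lit 5) (nat_lit 503) (nat_lit 5) (nat_lit 504) (nat_lit 5) (nat_lit 463) (nat_lit 452) (nat_lit 285)) (XT.lf (nat_lit 0) (nat_lit 11844422843) (nat_lit 1824) (nat_lit 9277377688) (nat_lit 1900) (nat_lit 1641764136) (nat_lit 480) (nat_lit 5) (nat_lit 504) (nat_lit 5) (nat_lit 505) (nat_lit 5) (nat_lit 464) (nat_lit 452) (nat_lit 284))) (XT.nd (nat_lit 78) (nat_lit 0) (nat_lit 76) (XT.lf (nat_lit 76) (nat_lit 8758690111) (nat_lit 0) (nat_lit 5534680149) (nat_lit 1900) (nat_lit 8826764227) (nat_lit 481) (nat_lit 5) (nat_lit 480) (nat_lit 5) (nat_lit 505) (nat_lit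 5) (nat_lit 465) (nat_lit 452) (nat_lit 283)) (XT.lf (nat_lit 76) (nat_lit 3953637501) (nat_lit 0) (nat_lit 13011732505) (nat_lit 1900) (nat_lit 6519040174) (nat_lit 482) (nat_lit 5) (nat_lit 481) (nat_lit 5) (nat_lit 506) (nat_lit 5) (nat_lit 466) (nat_lit 452) (nat_lit 282))))))) (XT.nd (nat_lit 1092) (nat_lit 7904) (nat_lit 0) (XT.nd (nat_lit 546) (nat_lit 4940) (nat_lit 0) (XT.nd (nat_lit 234) (nat_lit 2888) (nat_lit 0) (XT.nd (nat_lit 78) (nat_lit 1824) (nat_lit 0) (XT.lf (nat_lit 0) (nat_lit 19864431878) (nat_lit 1824) (nat_lit 906218046) (nat_lit 1900) (nat_lit 3086026621) (nat_lit 482) (nat_lit 5) (nat_lit 506) (nat_lit 5) (nat_lit 507) (nat_lit 5) (nat_lit 467) (nat_lit 452) (nat_lit 281)) (XT.nd (nat_lit 78) (nat_lit 1824) (nat_lit 0) (XT.lf (nat_lit 76) (nat_lit 18425654771) (nat_lit 0) (nat_lit 4624196870) (nat_lit 1900) (nat_lit 1186271969) (nat_lit 483) (nat_lit 5) (nat_lit 482) (nat_lit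 5) (nat_lit 507) (nat_lit 5) (nat_lit 468) (nat_lit 452) (nat_lit 280)) (XT.lf (nat_lit 0) (nat_lit 1849423250) (nat_lit 1900) (nat_lit 10815580615) (nat_lit 76) (nat_lit 11958371576) (nat_lit 458) (nat_lit 5) (nat_lit 483) (nat_lit 5) (nat_lit 459) (nat_lit 5) (nat_lit 469) (nat_lit 452) (nat_lit 279)))) (XT.nd (nat_lit 156) (nat_lit 912) (nat_lit 0) (XT.nd (nat_lit 78) (nat_lit 912) (nat_lit 0) (XT.lf (nat_lit 0) (nat_lit 5109542330) (nat_lit 1140) (nat_lit 15898582768) (nat_lit 76) (nat_lit 4010973906) (nat_lit 444) (nat_lit 5) (nat_lit 459) (nat_lit 5) (nat_lit 445) (nat_lit 5) (nat_lit 470) (nat_lit 452) (nat_lit 278)) (XT.lf (nat_lit 0) (nat_lit 4343145800) (nat_lit 912) (nat_lit 4304198627) (nat_lit 988) (nat_lit 16775752643) (nat_lit 432) (nat_lit 5) (nat_lit 444) (nat_lit 5) (nat_lit 445) (nat_lit 5) (nat_lit 471) (nat_lit 452) (nat_lit 277))) (XT.nd (nat_lit 78) (nat_lit 912) (nat_lit 0)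 (XT.lf (nat_lit 0) (nat_lit 12476860269) (nat_lit 988) (nat_lit 517969658) (nat_lit 76) (nat_lit 12840673933) (nat_lit 432) (nat_lit 5) (nat_lit 445) (nat_lit 5) (nat_lit 433) (nat_lit 5) (nat_lit 472) (nat_lit 452) (nat_lit 276)) (XT.lf (nat_lit 0) (nat_lit 16607362254) (nat_lit 988) (nat_lit 5384982596) (nat_lit 76) (nat_lit 4264216352) (nat_lit 420) (nat_lit 5) (nat_lit 433) (nat_lit 5) (nat_lit 421) (nat_lit 5) (nat_lit 473) (nat_lit 452) (nat_lit 275))))) (XT.nd (nat_lit 234) (nat_lit 2356) (nat_lit 0) (XT.nd (nat_lit 78) (nat_lit 1748) (nat_lit 0) (XT.lf (nat_lit 0) (nat_lit 16341079541) (nat_lit 836) (nat_lit 4710948415) (nat_lit 912) (nat_lit 5634417690) (nat_lit 409) (nat_lit 5) (nat_lit 420) (nat_lit 5) (nat_lit 421) (nat_lit 5) (nat_lit 474) (nat_lit 452) (nat_lit 274)) (XT.nd (nat_lit 78) (nat_lit 912) (nat_lit 0) (XT.lf (nat_lit 0) (nat_lit 11726649858) (nat_lit 836) (nat_lit 14095096684)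 (nat_lit 912) (nat_lit 1303646166) (nat_lit 398) (nat_lit 5) (nat_lit 409) (nat_lit 5) (nat_lit 410) (nat_lit 5) (nat_lit 475) (nat_lit 452) (nat_lit 273)) (XT.lf (nat_lit 0) (nat_lit 3282209025) (nat_lit 912) (nat_lit 20538533578) (nat_lit 76) (nat_lit 3753024635) (nat_lit 386) (nat_lit 5) (nat_lit 398) (nat_lit 5) (nat_lit 387) (nat_lit 5) (nat_lit 476) (nat_lit 452) (nat_lit 272)))) (XT.nd (nat_lit 156) (nat_lit 1520) (nat_lit 0) (XT.nd (nat_lit 78) (nat_lit 0) (nat_lit 0) (XT.lf (nat_lit 0) (nat_lit 2239137960) (nat_lit 836) (nat_lit 5956826298) (nat_lit 912) (nat_lit 19835296006) (nat_lit 375) (nat_lit 5) (nat_lit 386) (nat_lit 5) (nat_lit 387) (nat_lit 5) (nat_lit 477) (nat_lit 452) (nat_lit 271)) (XT.lf (nat_lit 0) (nat_lit 13472248513) (nat_lit 912) (nat_lit 2606209501) (nat_lit 76) (nat_lit 12419718046) (nat_lit 375) (nat_lit 5) (nat_lit 387) (nat_lit 5) (nat_lit 376) (nat_lit 5) (nat_lit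 478) (nat_lit 452) (nat_lit 270))) (XT.nd (nat_lit 78) (nat_lit 760) (nat_lit 0) (XT.lf (nat_lit 0) (nat_lit 19096507460) (nat_lit 836) (nat_lit 7479732955) (nat_lit 76) (nat_lit 2399065491) (nat_lit 365) (nat_lit 5) (nat_lit 376) (nat_lit 5) (nat_lit 366) (nat_lit 5) (nat_lit 479) (nat_lit 452) (nat_lit 269)) (XT.lf (nat_lit 0) (nat_lit 16999077728) (nat_lit 760) (nat_lit 8120609115) (nat_lit 836) (nat_lit 4342459241) (nat_lit 355) (nat_lit 5) (nat_lit 365) (nat_lit 5) (nat_lit 366) (nat_lit 5) (nat_lit 480) (nat_lit 452) (nat_lit 268)))))) (XT.nd (nat_lit 546) (nat_lit 3648) (nat_lit 0) (XT.nd (nat_lit 234) (nat_lit 2052) (nat_lit 0) (XT.nd (nat_lit 78) (nat_lit 1444) (nat_lit 0) (XT.lf (nat_lit 0) (nat_lit 1540554496) (nat_lit 760) (nat_lit 17531551135) (nat_lit 76) (nat_lit 10887341103) (nat_lit 345) (nat_lit 5) (nat_lit 355) (nat_lit 5) (nat_lit 346) (nat_lit 5) (nat_lit 481) (nat_lit 452) (nat_lit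 267)) (XT.nd (nat_lit 78) (nat_lit 684) (nat_lit 0) (XT.lf (nat_lit 0) (nat_lit 7726284632) (nat_lit 836) (nat_lit 22689314942) (nat_lit 76) (nat_lit 51788565) (nat_lit 335) (nat_lit 5) (nat_lit 346) (nat_lit 5) (nat_lit 336) (nat_lit 5) (nat_lit 482) (nat_lit 452) (nat_lit 266)) (XT.lf (nat_lit 0) (nat_lit 3003935362) (nat_lit 684) (nat_lit 11355120590) (nat_lit 760) (nat_lit 16626282709) (nat_lit 326) (nat_lit 5) (nat_lit 335) (nat_lit 5) (nat_lit 336) (nat_lit 5) (nat_lit 483) (nat_lit 452) (nat_lit 265)))) (XT.nd (nat_lit 156) (nat_lit 1368) (nat_lit 0) (XT.nd (nat_lit 78) (nat_lit 684) (nat_lit 0) (XT.lf (nat_lit 0) (nat_lit 21394263350) (nat_lit 760) (nat_lit 1797854878) (nat_lit 76) (nat_lit 8322640664) (nat_lit 326) (nat_lit 5) (nat_lit 336) (nat_lit 5) (nat_lit 327) (nat_lit 5) (nat_lit 484) (nat_lit 452) (nat_lit 264)) (XT.lf (nat_lit 0) (nat_lit 25422960680) (nat_lit 684) (nat_lit 3453656869)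 (nat_lit 760) (nat_lit 3178722615) (nat_lit 317) (nat_lit 5) (nat_lit 326) (nat_lit 5) (nat_lit 327) (nat_lit 5) (nat_lit 485) (nat_lit 452) (nat_lit 263))) (XT.nd (nat_lit 78) (nat_lit 684) (nat_lit 0) (XT.lf (nat_lit 0) (nat_lit 4174494387) (nat_lit 684) (nat_lit 11600941153) (nat_lit 76) (nat_lit 16831082374) (nat_lit 308) (nat_lit 5) (nat_lit 317) (nat_lit 5) (nat_lit 309) (nat_lit 5) (nat_lit 486) (nat_lit 452) (nat_lit 262)) (XT.lf (nat_lit 0) (nat_lit 11906855883) (nat_lit 760) (nat_lit 16643849829) (nat_lit 76) (nat_lit 4619070599) (nat_lit 299) (nat_lit 5) (nat_lit 309) (nat_lit 5) (nat_lit 300) (nat_lit 5) (nat_lit 487) (nat_lit 452) (nat_lit 261))))) (XT.nd (nat_lit 234) (nat_lit 1748) (nat_lit 0) (XT.nd (nat_lit 78) (nat_lit 1292) (nat_lit 0) (XT.lf (nat_lit 0) (nat_lit 11952079540) (nat_lit 608) (nat_lit 8176698501) (nat_lit 684) (nat_lit 13616002842) (nat_lit 291) (nat_lit 5) (nat_lit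 299) (nat_lit 5) (nat_lit 300) (nat_lit 5) (nat_lit 488) (nat_lit 452) (nat_lit 260)) (XT.nd (nat_lit 78) (nat_lit 684) (nat_lit 0) (XT.lf (nat_lit 0) (nat_lit 7305146985) (nat_lit 608) (nat_lit 21531784456) (nat_lit 684) (nat_lit 5495312892) (nat_lit 283) (nat_lit 5) (nat_lit 291) (nat_lit 5) (nat_lit 292) (nat_lit 5) (nat_lit 489) (nat_lit 452) (nat_lit 259)) (XT.lf (nat_lit 0) (nat_lit 2593936791) (nat_lit 608) (nat_lit 453126356) (nat_lit 684) (nat_lit 31885582340) (nat_lit 274) (nat_lit 5) (nat_lit 282) (nat_lit 5) (nat_lit 283) (nat_lit 5) (nat_lit 490) (nat_lit 452) (nat_lit 258)))) (XT.nd (nat_lit 156) (nat_lit 1140) (nat_lit 0) (XT.nd (nat_lit 78) (nat_lit 608) (nat_lit 0) (XT.lf (nat_lit 0) (nat_lit 12089458337) (nat_lit 684) (nat_lit 2255465158) (nat_lit 76) (nat_lit 21199040743) (nat_lit 274) (nat_lit 5) (nat_lit 283) (nat_lit 5) (nat_lit 275) (nat_lit 5) (nat_lit 491) (nat_lit 452) (nat_lit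 257)) (XT.lf (nat_lit 0) (nat_lit 21639624277) (nat_lit 684) (nat_lit 7115178016) (nat_lit 76) (nat_lit 7414090474) (nat_lit 266) (nat_lit 5) (nat_lit 275) (nat_lit 5) (nat_lit 267) (nat_lit 5) (nat_lit 492) (nat_lit 452) (nat_lit 256))) (XT.nd (nat_lit 78) (nat_lit 608) (nat_lit 0) (XT.lf (nat_lit 0) (nat_lit 24743804614) (nat_lit 532) (nat_lit 7000273775) (nat_lit 608) (nat_lit 5063135285) (nat_lit 259) (nat_lit 5) (nat_lit 266) (nat_lit 5) (nat_lit 267) (nat_lit 5) (nat_lit 493) (nat_lit 452) (nat_lit 255)) (XT.lf (nat_lit 0) (nat_lit 4903949212) (nat_lit 608) (nat_lit 17138045304) (nat_lit 76) (nat_lit 15416512490) (nat_lit 251) (nat_lit 5) (nat_lit 259) (nat_lit 5) (nat_lit 252) (nat_lit 5) (nat_lit 494) (nat_lit 452) (nat_lit 254))))))))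
noncomputable def xc108 : XT := (XT.nd (nat_lit 60528) (nat_lit 0) (nat_lit 3952) (XT.nd (nat_lit 59436) (nat_lit 0) (nat_lit 21432) (XT.nd (nat_lit 468) (nat_lit 1900) (nat_lit 0) (XT.nd (nat_lit 234) (nat_lit 1064) (nat_lit 0) (XT.nd (nat_lit 78) (nat_lit 988) (nat_lit 0) (XT.lf (nat_lit 0) (nat_lit 15332786278) (nat_lit 608) (nat_lit 22293070491) (nat_lit 76) (nat_lit 498182632) (nat_lit 244) (nat_lit 5) (nat_lit 252) (nat_lit 5) (nat_lit 245) (nat_lit 5) (nat_lit 495) (nat_lit 452) (nat_lit 253)) (XT.nd (nat_lit 78) (nat_lit 456) (nat_lit 0) (XT.lf (nat_lit 0) (nat_lit 11209876396) (nat_lit 532) (nat_lit 15197725970) (nat_lit 608) (nat_lit 12395273289) (nat_lit 237) (nat_lit 5) (nat_lit 244) (nat_lit 5) (nat_lit 245) (nat_lit 5) (nat_lit 496) (nat_lit 452) (nat_lit 252)) (XT.lf (nat_lit 0) (nat_lit 6552249961) (nat_lit 456) (nat_lit 31504430557) (nat_lit 532) (nat_lit 1440556290) (nat_lit 231)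 (nat_lit 5) (nat_lit 237) (nat_lit 5) (nat_lit 238) (nat_lit 5) (nat_lit 497) (nat_lit 452) (nat_lit 251)))) (XT.nd (nat_lit 78) (nat_lit 456) (nat_lit 0) (XT.lf (nat_lit 0) (nat_lit 1741586259) (nat_lit 532) (nat_lit 8269435867) (nat_lit 608) (nat_lit 30194182503) (nat_lit 223) (nat_lit 5) (nat_lit 230) (nat_lit 5) (nat_lit 231) (nat_lit 5) (nat_lit 498) (nat_lit 452) (nat_lit 250)) (XT.nd (nat_lit 78) (nat_lit 456) (nat_lit 0) (XT.lf (nat_lit 0) (nat_lit 22109323833) (nat_lit 608) (nat_lit 3128358756) (nat_lit 76) (nat_lit 15690083655) (nat_lit 223) (nat_lit 5) (nat_lit 231) (nat_lit 5) (nat_lit 224) (nat_lit 5) (nat_lit 499) (nat_lit 452) (nat_lit 249)) (XT.lf (nat_lit 0) (nat_lit 33647788240) (nat_lit 456) (nat_lit 1192881357) (nat_lit 532) (nat_lit 6825933356) (nat_lit 217) (nat_lit 5) (nat_lit 223) (nat_lit 5) (nat_lit 224) (nat_lit 5) (nat_lit 500) (nat_lit 452) (nat_lit 248))))) (XT.nd (nat_lit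 234) (nat_lit 456) (nat_lit 0) (XT.nd (nat_lit 78) (nat_lit 912) (nat_lit 0) (XT.lf (nat_lit 0) (nat_lit 5817739779) (nat_lit 532) (nat_lit 13088938736) (nat_lit 76) (nat_lit 23512931413) (nat_lit 210) (nat_lit 5) (nat_lit 217) (nat_lit 5) (nat_lit 211) (nat_lit 5) (nat_lit 501) (nat_lit 452) (nat_lit 247)) (XT.nd (nat_lit 78) (nat_lit 456) (nat_lit 0) (XT.lf (nat_lit 0) (nat_lit 19008903881) (nat_lit 532) (nat_lit 18244049457) (nat_lit 76) (nat_lit 5936133153) (nat_lit 204) (nat_lit 5) (nat_lit 211) (nat_lit 5) (nat_lit 205) (nat_lit 5) (nat_lit 502) (nat_lit 452) (nat_lit 246)) (XT.lf (nat_lit 0) (nat_lit 20455489425) (nat_lit 456) (nat_lit 12485347323) (nat_lit 532) (nat_lit 11033910055) (nat_lit 198) (nat_lit 5) (nat_lit 204) (nat_lit 5) (nat_lit 205) (nat_lit 5) (nat_lit 503) (nat_lit 452) (nat_lit 245)))) (XT.nd (nat_lit 58578) (nat_lit 0) (nat_lit 23104) (XT.nd (nat_lit 58500) (nat_lit 0) (nat_lit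 23104) (XT.lf (nat_lit 0) (nat_lit 2784745705) (nat_lit 456) (nat_lit 28893770316) (nat_lit 76) (nat_lit 13098918089) (nat_lit 192) (nat_lit 5) (nat_lit 198) (nat_lit 5) (nat_lit 193) (nat_lit 5) (nat_lit 504) (nat_lit 452) (nat_lit 244)) (XT.lf (nat_lit 0) (nat_lit 4396386260) (nat_lit 0) (nat_lit 4396386260) (nat_lit 1748) (nat_lit 992963187) (nat_lit 496) (nat_lit 5) (nat_lit 496) (nat_lit 3) (nat_lit 519) (nat_lit 3) (nat_lit 453) (nat_lit 453) (nat_lit 294))) (XT.nd (nat_lit 78) (nat_lit 0) (nat_lit 76) (XT.lf (nat_lit 76) (nat_lit 3796922941) (nat_lit 0) (nat_lit 14370352767) (nat_lit 1824) (nat_lit 1691392802) (nat_lit 497) (nat_lit 5) (nat_lit 496) (nat_lit 5) (nat_lit 520) (nat_lit 5) (nat_lit 454) (nat_lit 453) (nat_lit 293)) (XT.lf (nat_lit 0) (nat_lit 18887896577) (nat_lit 1748) (nat_lit 1259638120) (nat_lit 1824) (nat_lit 4518681) (nat_lit 497) (nat_lit 5) (nat_lit 520) (nat_lit 5) (nat_lit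 521) (nat_lit 5) (nat_lit 455) (nat_lit 453) (nat_lit 292)))))) (XT.nd (nat_lit 546) (nat_lit 0) (nat_lit 304) (XT.nd (nat_lit 234) (nat_lit 0) (nat_lit 76) (XT.nd (nat_lit 78) (nat_lit 1748) (nat_lit 0) (XT.lf (nat_lit 76) (nat_lit 14069560367) (nat_lit 0) (nat_lit 5738302251) (nat_lit 1824) (nat_lit 642823250) (nat_lit 498) (nat_lit 5) (nat_lit 497) (nat_lit 5) (nat_lit 521) (nat_lit 5) (nat_lit 456) (nat_lit 453) (nat_lit 291)) (XT.nd (nat_lit 78) (nat_lit 0) (nat_lit 76) (XT.lf (nat_lit 0) (nat_lit 115775840) (nat_lit 1824) (nat_lit 11583288651) (nat_lit 1900) (nat_lit 9056842027) (nat_lit 474) (nat_lit 5) (nat_lit 498) (nat_lit 5) (nat_lit 499) (nat_lit 5) (nat_lit 457) (nat_lit 453) (nat_lit 290)) (XT.lf (nat_lit 0) (nat_lit 1009431916) (nat_lit 1824) (nat_lit 16871467628) (nat_lit 1900) (nat_lit 3186879175) (nat_lit 475) (nat_lit 5) (nat_lit 499) (nat_lit 5) (nat_lit 500) (nat_lit 5) (nat_lit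 458) (nat_lit 453) (nat_lit 289)))) (XT.nd (nat_lit 156) (nat_lit 0) (nat_lit 152) (XT.nd (nat_lit 78) (nat_lit 0) (nat_lit 76) (XT.lf (nat_lit 0) (nat_lit 2078134780) (nat_lit 1824) (nat_lit 864015125) (nat_lit 1900) (nat_lit 18443892982) (nat_lit 475) (nat_lit 5) (nat_lit 499) (nat_lit 5) (nat_lit 500) (nat_lit 5) (nat_lit 459) (nat_lit 453) (nat_lit 288)) (XT.lf (nat_lit 0) (nat_lit 3354401804) (nat_lit 1824) (nat_lit 5967767344) (nat_lit 1900) (nat_lit 12388176300) (nat_lit 476) (nat_lit 5) (nat_lit 500) (nat_lit 5) (nat_lit 501) (nat_lit 5) (nat_lit 460) (nat_lit 453) (nat_lit 287))) (XT.nd (nat_lit 78) (nat_lit 0) (nat_lit 0) (XT.lf (nat_lit 0) (nat_lit 4797099622) (nat_lit 1824) (nat_lit 11149716072) (nat_lit 1900) (nat_lit 6094999051) (nat_lit 477) (nat_lit 5) (nat_lit 501) (nat_lit 5) (nat_lit 502) (nat_lit 5) (nat_lit 461) (nat_lit 453) (nat_lit 286)) (XT.lf (nat_lit 76) (nat_lit 5966973664)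 (nat_lit 0) (nat_lit 449615812) (nat_lit 1900) (nat_lit 15963968921) (nat_lit 478) (nat_lit 5) (nat_lit 477) (nat_lit 5) (nat_lit 502) (nat_lit 5) (nat_lit 462) (nat_lit 453) (nat_lit 285))))) (XT.nd (nat_lit 234) (nat_lit 0) (nat_lit 152) (XT.nd (nat_lit 78) (nat_lit 0) (nat_lit 76) (XT.lf (nat_lit 76) (nat_lit 926980115) (nat_lit 0) (nat_lit 7332415762) (nat_lit 1900) (nat_lit 14466574327) (nat_lit 479) (nat_lit 5) (nat_lit 478) (nat_lit 5) (nat_lit 503) (nat_lit 5) (nat_lit 463) (nat_lit 453) (nat_lit 284)) (XT.nd (nat_lit 78) (nat_lit 0) (nat_lit 76) (XT.lf (nat_lit 0) (nat_lit 10320581261) (nat_lit 1824) (nat_lit 4132671424) (nat_lit 1900) (nat_lit 8625230255) (nat_lit 479) (nat_lit 5) (nat_lit 503) (nat_lit 5) (nat_lit 504) (nat_lit 5) (nat_lit 464) (nat_lit 453) (nat_lit 283)) (XT.lf (nat_lit 0) (nat_lit 12587687432) (nat_lit 1824) (nat_lit 9254328083) (nat_lit 1900) (nat_lit 1596674296) (nat_lit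 480) (nat_lit 5) (nat_lit 504) (nat_lit 5) (nat_lit 505) (nat_lit 5) (nat_lit 465) (nat_lit 453) (nat_lit 282)))) (XT.nd (nat_lit 156) (nat_lit 0) (nat_lit 152) (XT.nd (nat_lit 78) (nat_lit 0) (nat_lit 76) (XT.lf (nat_lit 76) (nat_lit 9317932364) (nat_lit 0) (nat_lit 5782796875) (nat_lit 1900) (nat_lit 8705415643) (nat_lit 481) (nat_lit 5) (nat_lit 480) (nat_lit 5) (nat_lit 505) (nat_lit 5) (nat_lit 466) (nat_lit 453) (nat_lit 281)) (XT.lf (nat_lit 76) (nat_lit 4371912806) (nat_lit 0) (nat_lit 13471378473) (nat_lit 1900) (nat_lit 6338250175) (nat_lit 482) (nat_lit 5) (nat_lit 481) (nat_lit 5) (nat_lit 506) (nat_lit 5) (nat_lit 467) (nat_lit 453) (nat_lit 280))) (XT.nd (nat_lit 78) (nat_lit 0) (nat_lit 0) (XT.lf (nat_lit 0) (nat_lit 20818141795) (nat_lit 1824) (nat_lit 634844282) (nat_lit 1900) (nat_lit 3112214032) (nat_lit 482) (nat_lit 5) (nat_lit 506) (nat_lit 5) (nat_lit 507) (nat_lit 5) (nat_lit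 468) (nat_lit 453) (nat_lit 279)) (XT.lf (nat_lit 76) (nat_lit 19272140932) (nat_lit 0) (nat_lit 4818469533) (nat_lit 1900) (nat_lit 865591012) (nat_lit 483) (nat_lit 5) (nat_lit 482) (nat_lit 5) (nat_lit 507) (nat_lit 5) (nat_lit 469) (nat_lit 453) (nat_lit 278))))))) (XT.nd (nat_lit 1014) (nat_lit 7676) (nat_lit 0) (XT.nd (nat_lit 468) (nat_lit 4864) (nat_lit 0) (XT.nd (nat_lit 234) (nat_lit 1748) (nat_lit 0) (XT.nd (nat_lit 78) (nat_lit 1976) (nat_lit 0) (XT.lf (nat_lit 0) (nat_lit 2247845243) (nat_lit 1900) (nat_lit 10839272675) (nat_lit 76) (nat_lit 12268080416) (nat_lit 458) (nat_lit 5) (nat_lit 483) (nat_lit 5) (nat_lit 459) (nat_lit 5) (nat_lit 470) (nat_lit 453) (nat_lit 277)) (XT.nd (nat_lit 78) (nat_lit 912) (nat_lit 0) (XT.lf (nat_lit 0) (nat_lit 5597447463) (nat_lit 1140) (nat_lit 16072675103) (nat_lit 76) (nat_lit 4092838016) (nat_lit 444) (nat_lit 5) (nat_lit 459) (nat_lit 5) (nat_lit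 445) (nat_lit 5) (nat_lit 471) (nat_lit 453) (nat_lit 276)) (XT.lf (nat_lit 0) (nat_lit 4771391694) (nat_lit 912) (nat_lit 4462180247) (nat_lit 988) (nat_lit 16945663437) (nat_lit 432) (nat_lit 5) (nat_lit 444) (nat_lit 5) (nat_lit 445) (nat_lit 5) (nat_lit 472) (nat_lit 453) (nat_lit 275)))) (XT.nd (nat_lit 78) (nat_lit 1748) (nat_lit 0) (XT.lf (nat_lit 0) (nat_lit 13168272709) (nat_lit 988) (nat_lit 237689841) (nat_lit 76) (nat_lit 13198246370) (nat_lit 432) (nat_lit 5) (nat_lit 445) (nat_lit 5) (nat_lit 433) (nat_lit 5) (nat_lit 473) (nat_lit 453) (nat_lit 274)) (XT.nd (nat_lit 78) (nat_lit 836) (nat_lit 0) (XT.lf (nat_lit 0) (nat_lit 17415221456) (nat_lit 988) (nat_lit 5249178202) (nat_lit 76) (nat_lit 4373648213) (nat_lit 420) (nat_lit 5) (nat_lit 433) (nat_lit 5) (nat_lit 421) (nat_lit 5) (nat_lit 474) (nat_lit 453) (nat_lit 273)) (XT.lf (nat_lit 0) (nat_lit 17123841586) (nat_lit 836) (nat_lit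 4862266247) (nat_lit 912) (nat_lit 5494863908) (nat_lit 409) (nat_lit 5) (nat_lit 420) (nat_lit 5) (nat_lit 421) (nat_lit 5) (nat_lit 475) (nat_lit 453) (nat_lit 272))))) (XT.nd (nat_lit 234) (nat_lit 2280) (nat_lit 0) (XT.nd (nat_lit 78) (nat_lit 1748) (nat_lit 0) (XT.lf (nat_lit 0) (nat_lit 12372265711) (nat_lit 836) (nat_lit 14519685713) (nat_lit 912) (nat_lit 1041275614) (nat_lit 398) (nat_lit 5) (nat_lit 409) (nat_lit 5) (nat_lit 410) (nat_lit 5) (nat_lit 476) (nat_lit 453) (nat_lit 271)) (XT.nd (nat_lit 78) (nat_lit 836) (nat_lit 0) (XT.lf (nat_lit 0) (nat_lit 3671451762) (nat_lit 912) (nat_lit 20855917797) (nat_lit 76) (nat_lit 3867779556) (nat_lit 386) (nat_lit 5) (nat_lit 398) (nat_lit 5) (nat_lit 387) (nat_lit 5) (nat_lit 477) (nat_lit 453) (nat_lit 270)) (XT.lf (nat_lit 0) (nat_lit 2600236670) (nat_lit 836) (nat_lit 6125822118) (nat_lit 912) (nat_lit 20140439815) (nat_lit 375) (nat_lit 5)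 (nat_lit 386) (nat_lit 5) (nat_lit 387) (nat_lit 5) (nat_lit 478) (nat_lit 453) (nat_lit 269)))) (XT.nd (nat_lit 156) (nat_lit 1520) (nat_lit 0) (XT.nd (nat_lit 78) (nat_lit 760) (nat_lit 0) (XT.lf (nat_lit 0) (nat_lit 14152414648) (nat_lit 912) (nat_lit 2393559861) (nat_lit 76) (nat_lit 12801612145) (nat_lit 375) (nat_lit 5) (nat_lit 387) (nat_lit 5) (nat_lit 376) (nat_lit 5) (nat_lit 479) (nat_lit 453) (nat_lit 268)) (XT.lf (nat_lit 0) (nat_lit 19939326060) (nat_lit 836) (nat_lit 7412702678) (nat_lit 76) (nat_lit 2487123591) (nat_lit 365) (nat_lit 5) (nat_lit 376) (nat_lit 5) (nat_lit 366) (nat_lit 5) (nat_lit 480) (nat_lit 453) (nat_lit 267))) (XT.nd (nat_lit 78) (nat_lit 760) (nat_lit 0) (XT.lf (nat_lit 0) (nat_lit 17795744346) (nat_lit 760) (nat_lit 8341456042) (nat_lit 836) (nat_lit 4203517749) (nat_lit 355) (nat_lit 5) (nat_lit 365) (nat_lit 5) (nat_lit 366) (nat_lit 5) (nat_lit 481) (nat_lit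 453) (nat_lit 266)) (XT.lf (nat_lit 0) (nat_lit 1846738117) (nat_lit 760) (nat_lit 17766925610) (nat_lit 76) (nat_lit 11239353866) (nat_lit 345) (nat_lit 5) (nat_lit 355) (nat_lit 5) (nat_lit 346) (nat_lit 5) (nat_lit 482) (nat_lit 453) (nat_lit 265)))))) (XT.nd (nat_lit 546) (nat_lit 3572) (nat_lit 0) (XT.nd (nat_lit 234) (nat_lit 2660) (nat_lit 0) (XT.nd (nat_lit 78) (nat_lit 684) (nat_lit 0) (XT.lf (nat_lit 0) (nat_lit 8212529494) (nat_lit 836) (nat_lit 23079243891) (nat_lit 76) (nat_lit 84534455) (nat_lit 335) (nat_lit 5) (nat_lit 346) (nat_lit 5) (nat_lit 336) (nat_lit 5) (nat_lit 483) (nat_lit 453) (nat_lit 264)) (XT.nd (nat_lit 78) (nat_lit 0) (nat_lit 0) (XT.lf (nat_lit 0) (nat_lit 3380086841) (nat_lit 684) (nat_lit 11658642882) (nat_lit 760) (nat_lit 16871178611) (nat_lit 326) (nat_lit 5) (nat_lit 335) (nat_lit 5) (nat_lit 336) (nat_lit 5) (nat_lit 484) (nat_lit 453) (nat_lit 263)) (XT.lf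 (nat_lit 0) (nat_lit 22277977827) (nat_lit 760) (nat_lit 1569477103) (nat_lit 76) (nat_lit 8607896915) (nat_lit 326) (nat_lit 5) (nat_lit 336) (nat_lit 5) (nat_lit 327) (nat_lit 5) (nat_lit 485) (nat_lit 453) (nat_lit 262)))) (XT.nd (nat_lit 156) (nat_lit 1292) (nat_lit 0) (XT.nd (nat_lit 78) (nat_lit 684) (nat_lit 0) (XT.lf (nat_lit 0) (nat_lit 26463382722) (nat_lit 684) (nat_lit 3516177918) (nat_lit 760) (nat_lit 3032695107) (nat_lit 317) (nat_lit 5) (nat_lit 326) (nat_lit 5) (nat_lit 327) (nat_lit 5) (nat_lit 486) (nat_lit 453) (nat_lit 261)) (XT.lf (nat_lit 0) (nat_lit 4533089231) (nat_lit 684) (nat_lit 11668224462) (nat_lit 76) (nat_lit 17378721394) (nat_lit 308) (nat_lit 5) (nat_lit 317) (nat_lit 5) (nat_lit 309) (nat_lit 5) (nat_lit 487) (nat_lit 453) (nat_lit 260))) (XT.nd (nat_lit 78) (nat_lit 608) (nat_lit 0) (XT.lf (nat_lit 0) (nat_lit 12492728457) (nat_lit 760) (nat_lit 16862707754) (nat_lit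 76) (nat_lit 4804849212) (nat_lit 299) (nat_lit 5) (nat_lit 309) (nat_lit 5) (nat_lit 300) (nat_lit 5) (nat_lit 488) (nat_lit 453) (nat_lit 259)) (XT.lf (nat_lit 0) (nat_lit 12586549406) (nat_lit 608) (nat_lit 8369890047) (nat_lit 684) (nat_lit 13796198371) (nat_lit 291) (nat_lit 5) (nat_lit 299) (nat_lit 5) (nat_lit 300) (nat_lit 5) (nat_lit 489) (nat_lit 453) (nat_lit 258))))) (XT.nd (nat_lit 234) (nat_lit 2280) (nat_lit 0) (XT.nd (nat_lit 78) (nat_lit 684) (nat_lit 0) (XT.lf (nat_lit 0) (nat_lit 7799813462) (nat_lit 608) (nat_lit 22121622886) (nat_lit 684) (nat_lit 5436377160) (nat_lit 283) (nat_lit 5) (nat_lit 291) (nat_lit 5) (nat_lit 292) (nat_lit 5) (nat_lit 490) (nat_lit 453) (nat_lit 257)) (XT.nd (nat_lit 78) (nat_lit 0) (nat_lit 0) (XT.lf (nat_lit 0) (nat_lit 2945694455) (nat_lit 608) (nat_lit 408986374) (nat_lit 684) (nat_lit 32621610181) (nat_lit 274) (nat_lit 5) (nat_lit 282) (nat_lit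 5) (nat_lit 283) (nat_lit 5) (nat_lit 491) (nat_lit 453) (nat_lit 256)) (XT.lf (nat_lit 0) (nat_lit 12662414547) (nat_lit 684) (nat_lit 2053324690) (nat_lit 76) (nat_lit 21890329037) (nat_lit 274) (nat_lit 5) (nat_lit 283) (nat_lit 5) (nat_lit 275) (nat_lit 5) (nat_lit 492) (nat_lit 453) (nat_lit 255)))) (XT.nd (nat_lit 156) (nat_lit 1140) (nat_lit 0) (XT.nd (nat_lit 78) (nat_lit 532) (nat_lit 0) (XT.lf (nat_lit 0) (nat_lit 22495071029) (nat_lit 684) (nat_lit 7059466271) (nat_lit 76) (nat_lit 7695287922) (nat_lit 266) (nat_lit 5) (nat_lit 275) (nat_lit 5) (nat_lit 267) (nat_lit 5) (nat_lit 493) (nat_lit 453) (nat_lit 254)) (XT.lf (nat_lit 0) (nat_lit 25750918921) (nat_lit 532) (nat_lit 7147451586) (nat_lit 608) (nat_lit 5009011280) (nat_lit 259) (nat_lit 5) (nat_lit 266) (nat_lit 5) (nat_lit 267) (nat_lit 5) (nat_lit 494) (nat_lit 453) (nat_lit 253))) (XT.nd (nat_lit 78) (nat_lit 532) (nat_lit 0) (XT.lf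 (nat_lit 0) (nat_lit 5250586610) (nat_lit 608) (nat_lit 17385441290) (nat_lit 76) (nat_lit 15942235466) (nat_lit 251) (nat_lit 5) (nat_lit 259) (nat_lit 5) (nat_lit 252) (nat_lit 5) (nat_lit 495) (nat_lit 453) (nat_lit 252)) (XT.lf (nat_lit 0) (nat_lit 15988616396) (nat_lit 608) (nat_lit 22695963454) (nat_lit 76) (nat_lit 579255576) (nat_lit 244) (nat_lit 5) (nat_lit 252) (nat_lit 5) (nat_lit 245) (nat_lit 5) (nat_lit 496) (nat_lit 453) (nat_lit 251))))))))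
noncomputable def xc109 : XT := (XT.nd (nat_lit 60606) (nat_lit 0) (nat_lit 1900) (XT.nd (nat_lit 59514) (nat_lit 0) (nat_lit 18696) (XT.nd (nat_lit 468) (nat_lit 912) (nat_lit 0) (XT.nd (nat_lit 234) (nat_lit 988) (nat_lit 0) (XT.nd (nat_lit 78) (nat_lit 1064) (nat_lit 0) (XT.lf (nat_lit 0) (nat_lit 11807757942) (nat_lit 532) (nat_lit 15583913143) (nat_lit 608) (nat_lit 12571446042) (nat_lit 237) (nat_lit 5) (nat_lit 244) (nat_lit 5) (nat_lit 245) (nat_lit 5) (nat_lit 497) (nat_lit 453) (nat_lit 250)) (XT.nd (nat_lit 78) (nat_lit 608) (nat_lit 0) (XT.lf (nat_lit 0) (nat_lit 7009495743) (nat_lit 456) (nat_lit 32377270381) (nat_lit 532) (nat_lit 1291612331) (nat_lit 231) (nat_lit 5) (nat_lit 237) (nat_lit 5) (nat_lit 238) (nat_lit 5) (nat_lit 498) (nat_lit 453) (nat_lit 249)) (XT.lf (nat_lit 0) (nat_lit 2052769746) (nat_lit 532) (nat_lit 8444381146) (nat_lit 608) (nat_lit 30910486535) (nat_lit 223)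 (nat_lit 5) (nat_lit 230) (nat_lit 5) (nat_lit 231) (nat_lit 5) (nat_lit 499) (nat_lit 453) (nat_lit 248)))) (XT.nd (nat_lit 78) (nat_lit 988) (nat_lit 0) (XT.lf (nat_lit 0) (nat_lit 22953451083) (nat_lit 608) (nat_lit 2967661575) (nat_lit 76) (nat_lit 16230862458) (nat_lit 223) (nat_lit 5) (nat_lit 231) (nat_lit 5) (nat_lit 224) (nat_lit 5) (nat_lit 500) (nat_lit 453) (nat_lit 247)) (XT.nd (nat_lit 78) (nat_lit 532) (nat_lit 0) (XT.lf (nat_lit 0) (nat_lit 34907640093) (nat_lit 456) (nat_lit 1155455605) (nat_lit 532) (nat_lit 6849954268) (nat_lit 217) (nat_lit 5) (nat_lit 223) (nat_lit 5) (nat_lit 224) (nat_lit 5) (nat_lit 501) (nat_lit 453) (nat_lit 246)) (XT.lf (nat_lit 0) (nat_lit 6167557103) (nat_lit 532) (nat_lit 13229889529) (nat_lit 76) (nat_lit 24291239271) (nat_lit 210) (nat_lit 5) (nat_lit 217) (nat_lit 5) (nat_lit 211) (nat_lit 5) (nat_lit 502) (nat_lit 453) (nat_lit 245))))) (XT.nd (nat_lit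 58734) (nat_lit 0) (nat_lit 20976) (XT.nd (nat_lit 78) (nat_lit 456) (nat_lit 0) (XT.lf (nat_lit 0) (nat_lit 19751450980) (nat_lit 532) (nat_lit 18540787650) (nat_lit 76) (nat_lit 6189068428) (nat_lit 204) (nat_lit 5) (nat_lit 211) (nat_lit 5) (nat_lit 205) (nat_lit 5) (nat_lit 503) (nat_lit 453) (nat_lit 244)) (XT.nd (nat_lit 58578) (nat_lit 0) (nat_lit 22648) (XT.lf (nat_lit 0) (nat_lit 21315671982) (nat_lit 456) (nat_lit 12782252546) (nat_lit 532) (nat_lit 11192681185) (nat_lit 198) (nat_lit 5) (nat_lit 204) (nat_lit 5) (nat_lit 205) (nat_lit 5) (nat_lit 504) (nat_lit 453) (nat_lit 243)) (XT.lf (nat_lit 0) (nat_lit 4655716041) (nat_lit 0) (nat_lit 4655716041) (nat_lit 1748) (nat_lit 762762296) (nat_lit 496) (nat_lit 5) (nat_lit 496) (nat_lit 3) (nat_lit 519) (nat_lit 3) (nat_lit 454) (nat_lit 454) (nat_lit 292)))) (XT.nd (nat_lit 156) (nat_lit 1672) (nat_lit 0) (XT.nd (nat_lit 78) (nat_lit 0) (nat_lit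 0) (XT.lf (nat_lit 76) (nat_lit 4173260811) (nat_lit 0) (nat_lit 15034036018) (nat_lit 1824) (nat_lit 1237200861) (nat_lit 497) (nat_lit 5) (nat_lit 496) (nat_lit 5) (nat_lit 520) (nat_lit 5) (nat_lit 455) (nat_lit 454) (nat_lit 291)) (XT.lf (nat_lit 76) (nat_lit 19714005533) (nat_lit 0) (nat_lit 221082612) (nat_lit 1824) (nat_lit 811885820) (nat_lit 497) (nat_lit 5) (nat_lit 496) (nat_lit 5) (nat_lit 520) (nat_lit 5) (nat_lit 456) (nat_lit 454) (nat_lit 290))) (XT.nd (nat_lit 78) (nat_lit 1748) (nat_lit 0) (XT.lf (nat_lit 76) (nat_lit 14753227606) (nat_lit 0) (nat_lit 6115733570) (nat_lit 1824) (nat_lit 185878965) (nat_lit 498) (nat_lit 5) (nat_lit 497) (nat_lit 5) (nat_lit 521) (nat_lit 5) (nat_lit 457) (nat_lit 454) (nat_lit 289)) (XT.lf (nat_lit 0) (nat_lit 575991518) (nat_lit 1824) (nat_lit 11656827645) (nat_lit 1900) (nat_lit 9136602051) (nat_lit 474) (nat_lit 5) (nat_lit 498) (nat_lit 5) (nat_lit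 499) (nat_lit 5) (nat_lit 458) (nat_lit 454) (nat_lit 288)))))) (XT.nd (nat_lit 546) (nat_lit 2356) (nat_lit 0) (XT.nd (nat_lit 234) (nat_lit 0) (nat_lit 152) (XT.nd (nat_lit 78) (nat_lit 0) (nat_lit 0) (XT.lf (nat_lit 0) (nat_lit 1483763377) (nat_lit 1824) (nat_lit 17098025440) (nat_lit 1900) (nat_lit 3109115447) (nat_lit 475) (nat_lit 5) (nat_lit 499) (nat_lit 5) (nat_lit 500) (nat_lit 5) (nat_lit 459) (nat_lit 454) (nat_lit 287)) (XT.nd (nat_lit 78) (nat_lit 0) (nat_lit 76) (XT.lf (nat_lit 0) (nat_lit 2571593875) (nat_lit 1824) (nat_lit 618492651) (nat_lit 1900) (nat_lit 18828889283) (nat_lit 475) (nat_lit 5) (nat_lit 499) (nat_lit 5) (nat_lit 500) (nat_lit 5) (nat_lit 460) (nat_lit 454) (nat_lit 286)) (XT.lf (nat_lit 0) (nat_lit 3874330936) (nat_lit 1824) (nat_lit 5870335108) (nat_lit 1900) (nat_lit 12608578521) (nat_lit 476) (nat_lit 5) (nat_lit 500) (nat_lit 5) (nat_lit 501) (nat_lit 5) (nat_lit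 461) (nat_lit 454) (nat_lit 285)))) (XT.nd (nat_lit 156) (nat_lit 0) (nat_lit 76) (XT.nd (nat_lit 78) (nat_lit 0) (nat_lit 0) (XT.lf (nat_lit 0) (nat_lit 5348974372) (nat_lit 1824) (nat_lit 11203137388) (nat_lit 1900) (nat_lit 6142773624) (nat_lit 477) (nat_lit 5) (nat_lit 501) (nat_lit 5) (nat_lit 502) (nat_lit 5) (nat_lit 462) (nat_lit 454) (nat_lit 284)) (XT.lf (nat_lit 76) (nat_lit 6422493010) (nat_lit 0) (nat_lit 584468817) (nat_lit 1900) (nat_lit 16037031975) (nat_lit 478) (nat_lit 5) (nat_lit 477) (nat_lit 5) (nat_lit 502) (nat_lit 5) (nat_lit 463) (nat_lit 454) (nat_lit 283))) (XT.nd (nat_lit 78) (nat_lit 0) (nat_lit 76) (XT.lf (nat_lit 76) (nat_lit 1235440660) (nat_lit 0) (nat_lit 7659080324) (nat_lit 1900) (nat_lit 14505458305) (nat_lit 479) (nat_lit 5) (nat_lit 478) (nat_lit 5) (nat_lit 503) (nat_lit 5) (nat_lit 464) (nat_lit 454) (nat_lit 282)) (XT.lf (nat_lit 0) (nat_lit 11005587548) (nat_lit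 1824) (nat_lit 3975958481) (nat_lit 1900) (nat_lit 8781761140) (nat_lit 479) (nat_lit 5) (nat_lit 503) (nat_lit 5) (nat_lit 504) (nat_lit 5) (nat_lit 465) (nat_lit 454) (nat_lit 281))))) (XT.nd (nat_lit 234) (nat_lit 2736) (nat_lit 0) (XT.nd (nat_lit 78) (nat_lit 0) (nat_lit 0) (XT.lf (nat_lit 0) (nat_lit 13330981080) (nat_lit 1824) (nat_lit 9247886915) (nat_lit 1900) (nat_lit 1555647421) (nat_lit 480) (nat_lit 5) (nat_lit 504) (nat_lit 5) (nat_lit 505) (nat_lit 5) (nat_lit 466) (nat_lit 454) (nat_lit 280)) (XT.nd (nat_lit 78) (nat_lit 0) (nat_lit 76) (XT.lf (nat_lit 76) (nat_lit 9876932630) (nat_lit 0) (nat_lit 6033645586) (nat_lit 1900) (nat_lit 8602593277) (nat_lit 481) (nat_lit 5) (nat_lit 480) (nat_lit 5) (nat_lit 505) (nat_lit 5) (nat_lit 467) (nat_lit 454) (nat_lit 279)) (XT.lf (nat_lit 76) (nat_lit 4785534305) (nat_lit 0) (nat_lit 13940836061) (nat_lit 1900) (nat_lit 6173641150) (nat_lit 482)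 (nat_lit 5) (nat_lit 481) (nat_lit 5) (nat_lit 506) (nat_lit 5) (nat_lit 468) (nat_lit 454) (nat_lit 278)))) (XT.nd (nat_lit 156) (nat_lit 2888) (nat_lit 0) (XT.nd (nat_lit 78) (nat_lit 0) (nat_lit 0) (XT.lf (nat_lit 0) (nat_lit 21779925148) (nat_lit 1824) (nat_lit 372467889) (nat_lit 1900) (nat_lit 3142998318) (nat_lit 482) (nat_lit 5) (nat_lit 506) (nat_lit 5) (nat_lit 507) (nat_lit 5) (nat_lit 469) (nat_lit 454) (nat_lit 277)) (XT.lf (nat_lit 76) (nat_lit 20127161149) (nat_lit 0) (nat_lit 5015381764) (nat_lit 1900) (nat_lit 555740932) (nat_lit 483) (nat_lit 5) (nat_lit 482) (nat_lit 5) (nat_lit 507) (nat_lit 5) (nat_lit 470) (nat_lit 454) (nat_lit 276))) (XT.nd (nat_lit 78) (nat_lit 1064) (nat_lit 0) (XT.lf (nat_lit 0) (nat_lit 2638533778) (nat_lit 1900) (nat_lit 10880941233) (nat_lit 76) (nat_lit 12589895750) (nat_lit 458) (nat_lit 5) (nat_lit 483) (nat_lit 5) (nat_lit 459) (nat_lit 5) (nat_lit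 471) (nat_lit 454) (nat_lit 275)) (XT.lf (nat_lit 0) (nat_lit 6080781259) (nat_lit 1140) (nat_lit 16269375907) (nat_lit 76) (nat_lit 4179366104) (nat_lit 444) (nat_lit 5) (nat_lit 459) (nat_lit 5) (nat_lit 445) (nat_lit 5) (nat_lit 472) (nat_lit 454) (nat_lit 274))))))) (XT.nd (nat_lit 1092) (nat_lit 7828) (nat_lit 0) (XT.nd (nat_lit 546) (nat_lit 3724) (nat_lit 0) (XT.nd (nat_lit 234) (nat_lit 3420) (nat_lit 0) (XT.nd (nat_lit 78) (nat_lit 912) (nat_lit 0) (XT.lf (nat_lit 0) (nat_lit 5195381329) (nat_lit 912) (nat_lit 4623244883) (nat_lit 988) (nat_lit 17139807885) (nat_lit 432) (nat_lit 5) (nat_lit 444) (nat_lit 5) (nat_lit 445) (nat_lit 5) (nat_lit 473) (nat_lit 454) (nat_lit 273)) (XT.nd (nat_lit 78) (nat_lit 0) (nat_lit 0) (XT.lf (nat_lit 0) (nat_lit 34469225) (nat_lit 912) (nat_lit 13827978877) (nat_lit 988) (nat_lit 13533887648) (nat_lit 420) (nat_lit 5) (nat_lit 432) (nat_lit 5) (nat_lit 433)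 (nat_lit 5) (nat_lit 474) (nat_lit 454) (nat_lit 272)) (XT.lf (nat_lit 0) (nat_lit 18229541927) (nat_lit 988) (nat_lit 5126369005) (nat_lit 76) (nat_lit 4487424698) (nat_lit 420) (nat_lit 5) (nat_lit 433) (nat_lit 5) (nat_lit 421) (nat_lit 5) (nat_lit 475) (nat_lit 454) (nat_lit 271)))) (XT.nd (nat_lit 156) (nat_lit 1748) (nat_lit 0) (XT.nd (nat_lit 78) (nat_lit 836) (nat_lit 0) (XT.lf (nat_lit 0) (nat_lit 17913294093) (nat_lit 836) (nat_lit 5017550183) (nat_lit 912) (nat_lit 5368837629) (nat_lit 409) (nat_lit 5) (nat_lit 420) (nat_lit 5) (nat_lit 421) (nat_lit 5) (nat_lit 476) (nat_lit 454) (nat_lit 270)) (XT.lf (nat_lit 0) (nat_lit 13020383780) (nat_lit 836) (nat_lit 14956912752) (nat_lit 912) (nat_lit 788340126) (nat_lit 398) (nat_lit 5) (nat_lit 409) (nat_lit 5) (nat_lit 410) (nat_lit 5) (nat_lit 477) (nat_lit 454) (nat_lit 269))) (XT.nd (nat_lit 78) (nat_lit 836) (nat_lit 0) (XT.lf (nat_lit 0)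 (nat_lit 4055680023) (nat_lit 912) (nat_lit 21199974265) (nat_lit 76) (nat_lit 3985852892) (nat_lit 386) (nat_lit 5) (nat_lit 398) (nat_lit 5) (nat_lit 387) (nat_lit 5) (nat_lit 478) (nat_lit 454) (nat_lit 268)) (XT.lf (nat_lit 0) (nat_lit 2955295869) (nat_lit 836) (nat_lit 6300445147) (nat_lit 912) (nat_lit 20471380250) (nat_lit 375) (nat_lit 5) (nat_lit 386) (nat_lit 5) (nat_lit 387) (nat_lit 5) (nat_lit 479) (nat_lit 454) (nat_lit 267))))) (XT.nd (nat_lit 234) (nat_lit 2204) (nat_lit 0) (XT.nd (nat_lit 78) (nat_lit 1520) (nat_lit 0) (XT.lf (nat_lit 0) (nat_lit 14837142313) (nat_lit 912) (nat_lit 2191225903) (nat_lit 76) (nat_lit 13194429062) (nat_lit 375) (nat_lit 5) (nat_lit 387) (nat_lit 5) (nat_lit 376) (nat_lit 5) (nat_lit 480) (nat_lit 454) (nat_lit 266)) (XT.nd (nat_lit 78) (nat_lit 760) (nat_lit 0) (XT.lf (nat_lit 0) (nat_lit 20791934512) (nat_lit 836) (nat_lit 7360390323) (nat_lit 76) (nat_lit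 2576900024) (nat_lit 365) (nat_lit 5) (nat_lit 376) (nat_lit 5) (nat_lit 366) (nat_lit 5) (nat_lit 481) (nat_lit 454) (nat_lit 265)) (XT.lf (nat_lit 0) (nat_lit 18599853537) (nat_lit 760) (nat_lit 8570235546) (nat_lit 836) (nat_lit 4075862070) (nat_lit 355) (nat_lit 5) (nat_lit 365) (nat_lit 5) (nat_lit 366) (nat_lit 5) (nat_lit 482) (nat_lit 454) (nat_lit 264)))) (XT.nd (nat_lit 156) (nat_lit 684) (nat_lit 0) (XT.nd (nat_lit 78) (nat_lit 760) (nat_lit 0) (XT.lf (nat_lit 0) (nat_lit 2147184078) (nat_lit 760) (nat_lit 18026041345) (nat_lit 76) (nat_lit 11600469377) (nat_lit 345) (nat_lit 5) (nat_lit 355) (nat_lit 5) (nat_lit 346) (nat_lit 5) (nat_lit 483) (nat_lit 454) (nat_lit 263)) (XT.lf (nat_lit 0) (nat_lit 8698754868) (nat_lit 836) (nat_lit 23497560975) (nat_lit 76) (nat_lit 116472159) (nat_lit 335) (nat_lit 5) (nat_lit 346) (nat_lit 5) (nat_lit 336) (nat_lit 5) (nat_lit 484) (nat_lit 454) (nat_lit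 262))) (XT.nd (nat_lit 78) (nat_lit 0) (nat_lit 0) (XT.lf (nat_lit 0) (nat_lit 3751103377) (nat_lit 684) (nat_lit 11973402333) (nat_lit 760) (nat_lit 17137995863) (nat_lit 326) (nat_lit 5) (nat_lit 335) (nat_lit 5) (nat_lit 336) (nat_lit 5) (nat_lit 485) (nat_lit 454) (nat_lit 261)) (XT.lf (nat_lit 0) (nat_lit 23174318459) (nat_lit 760) (nat_lit 1350453940) (nat_lit 76) (nat_lit 8899668586) (nat_lit 326) (nat_lit 5) (nat_lit 336) (nat_lit 5) (nat_lit 327) (nat_lit 5) (nat_lit 486) (nat_lit 454) (nat_lit 260)))))) (XT.nd (nat_lit 546) (nat_lit 3876) (nat_lit 0) (XT.nd (nat_lit 234) (nat_lit 1900) (nat_lit 0) (XT.nd (nat_lit 78) (nat_lit 1368) (nat_lit 0) (XT.lf (nat_lit 0) (nat_lit 27519074402) (nat_lit 684) (nat_lit 3582933256) (nat_lit 760) (nat_lit 2896143501) (nat_lit 317) (nat_lit 5) (nat_lit 326) (nat_lit 5) (nat_lit 327) (nat_lit 5) (nat_lit 487) (nat_lit 454) (nat_lit 259)) (XT.nd (nat_lit 78)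 (nat_lit 684) (nat_lit 0) (XT.lf (nat_lit 0) (nat_lit 4889046101) (nat_lit 684) (nat_lit 11753642177) (nat_lit 76) (nat_lit 17940338053) (nat_lit 308) (nat_lit 5) (nat_lit 317) (nat_lit 5) (nat_lit 309) (nat_lit 5) (nat_lit 488) (nat_lit 454) (nat_lit 258)) (XT.lf (nat_lit 0) (nat_lit 13083050792) (nat_lit 760) (nat_lit 17104230828) (nat_lit 76) (nat_lit 4993491338) (nat_lit 299) (nat_lit 5) (nat_lit 309) (nat_lit 5) (nat_lit 300) (nat_lit 5) (nat_lit 489) (nat_lit 454) (nat_lit 257)))) (XT.nd (nat_lit 156) (nat_lit 684) (nat_lit 0) (XT.nd (nat_lit 78) (nat_lit 608) (nat_lit 0) (XT.lf (nat_lit 0) (nat_lit 13224215150) (nat_lit 608) (nat_lit 8571868633) (nat_lit 684) (nat_lit 13994904232) (nat_lit 291) (nat_lit 5) (nat_lit 299) (nat_lit 5) (nat_lit 300) (nat_lit 5) (nat_lit 490) (nat_lit 454) (nat_lit 256)) (XT.lf (nat_lit 0) (nat_lit 8293504412) (nat_lit 608) (nat_lit 22732377704) (nat_lit 684) (nat_lit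 5388520111) (nat_lit 283) (nat_lit 5) (nat_lit 291) (nat_lit 5) (nat_lit 292) (nat_lit 5) (nat_lit 491) (nat_lit 454) (nat_lit 255))) (XT.nd (nat_lit 78) (nat_lit 0) (nat_lit 0) (XT.lf (nat_lit 0) (nat_lit 3292279597) (nat_lit 608) (nat_lit 366836347) (nat_lit 684) (nat_lit 33392378735) (nat_lit 274) (nat_lit 5) (nat_lit 282) (nat_lit 5) (nat_lit 283) (nat_lit 5) (nat_lit 492) (nat_lit 454) (nat_lit 254)) (XT.lf (nat_lit 0) (nat_lit 13240488944) (nat_lit 684) (nat_lit 1860607885) (nat_lit 76) (nat_lit 22599180554) (nat_lit 274) (nat_lit 5) (nat_lit 283) (nat_lit 5) (nat_lit 275) (nat_lit 5) (nat_lit 493) (nat_lit 454) (nat_lit 253))))) (XT.nd (nat_lit 234) (nat_lit 2128) (nat_lit 0) (XT.nd (nat_lit 78) (nat_lit 1140) (nat_lit 0) (XT.lf (nat_lit 0) (nat_lit 23364341130) (nat_lit 684) (nat_lit 7017534466) (nat_lit 76) (nat_lit 7981547382) (nat_lit 266) (nat_lit 5) (nat_lit 275) (nat_lit 5) (nat_lit 267)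 (nat_lit 5) (nat_lit 494) (nat_lit 454) (nat_lit 252)) (XT.nd (nat_lit 78) (nat_lit 608) (nat_lit 0) (XT.lf (nat_lit 0) (nat_lit 26773046045) (nat_lit 532) (nat_lit 7302651454) (nat_lit 608) (nat_lit 4965089835) (nat_lit 259) (nat_lit 5) (nat_lit 266) (nat_lit 5) (nat_lit 267) (nat_lit 5) (nat_lit 495) (nat_lit 454) (nat_lit 251)) (XT.lf (nat_lit 0) (nat_lit 5596169927) (nat_lit 608) (nat_lit 17655571432) (nat_lit 76) (nat_lit 16480100608) (nat_lit 251) (nat_lit 5) (nat_lit 259) (nat_lit 5) (nat_lit 252) (nat_lit 5) (nat_lit 496) (nat_lit 454) (nat_lit 250)))) (XT.nd (nat_lit 156) (nat_lit 1064) (nat_lit 0) (XT.nd (nat_lit 78) (nat_lit 532) (nat_lit 0) (XT.lf (nat_lit 0) (nat_lit 16652879026) (nat_lit 608) (nat_lit 23126206905) (nat_lit 76) (nat_lit 658964722) (nat_lit 244) (nat_lit 5) (nat_lit 252) (nat_lit 5) (nat_lit 245) (nat_lit 5) (nat_lit 497) (nat_lit 454) (nat_lit 249)) (XT.lf (nat_lit 0)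 (nat_lit 12408559870) (nat_lit 532) (nat_lit 15985689556) (nat_lit 608) (nat_lit 12764137123) (nat_lit 237) (nat_lit 5) (nat_lit 244) (nat_lit 5) (nat_lit 245) (nat_lit 5) (nat_lit 498) (nat_lit 454) (nat_lit 248))) (XT.nd (nat_lit 78) (nat_lit 608) (nat_lit 0) (XT.lf (nat_lit 0) (nat_lit 7465494899) (nat_lit 456) (nat_lit 33280445320) (nat_lit 532) (nat_lit 1149230861) (nat_lit 231) (nat_lit 5) (nat_lit 237) (nat_lit 5) (nat_lit 238) (nat_lit 5) (nat_lit 499) (nat_lit 454) (nat_lit 247)) (XT.lf (nat_lit 0) (nat_lit 2358424757) (nat_lit 532) (nat_lit 8628773192) (nat_lit 608) (nat_lit 31659158993) (nat_lit 223) (nat_lit 5) (nat_lit 230) (nat_lit 5) (nat_lit 231) (nat_lit 5) (nat_lit 500) (nat_lit 454) (nat_lit 246))))))))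
noncomputable def xc110 : XT := (XT.nd (nat_lit 60684) (nat_lit 0) (nat_lit 456) (XT.nd (nat_lit 59592) (nat_lit 0) (nat_lit 15580) (XT.nd (nat_lit 59046) (nat_lit 0) (nat_lit 20444) (XT.nd (nat_lit 234) (nat_lit 456) (nat_lit 0) (XT.nd (nat_lit 78) (nat_lit 988) (nat_lit 0) (XT.lf (nat_lit 0) (nat_lit 23812520763) (nat_lit 608) (nat_lit 2816755572) (nat_lit 76) (nat_lit 16783841958) (nat_lit 223) (nat_lit 5) (nat_lit 231) (nat_lit 5) (nat_lit 224) (nat_lit 5) (nat_lit 501) (nat_lit 454) (nat_lit 245)) (XT.nd (nat_lit 78) (nat_lit 532) (nat_lit 0) (XT.lf (nat_lit 0) (nat_lit 36190912471) (nat_lit 456) (nat_lit 1121109759) (nat_lit 532) (nat_lit 6885072004) (nat_lit 217) (nat_lit 5) (nat_lit 223) (nat_lit 5) (nat_lit 224) (nat_lit 5) (nat_lit 502) (nat_lit 454) (nat_lit 244)) (XT.lf (nat_lit 0) (nat_lit 6517806864) (nat_lit 532) (nat_lit 13389518452) (nat_lit 76) (nat_lit 25088710463) (nat_lit 210)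 (nat_lit 5) (nat_lit 217) (nat_lit 5) (nat_lit 211) (nat_lit 5) (nat_lit 503) (nat_lit 454) (nat_lit 243)))) (XT.nd (nat_lit 58656) (nat_lit 0) (nat_lit 22192) (XT.lf (nat_lit 0) (nat_lit 20506384916) (nat_lit 532) (nat_lit 18860812496) (nat_lit 76) (nat_lit 6445294991) (nat_lit 204) (nat_lit 5) (nat_lit 211) (nat_lit 5) (nat_lit 205) (nat_lit 5) (nat_lit 504) (nat_lit 454) (nat_lit 242)) (XT.nd (nat_lit 78) (nat_lit 0) (nat_lit 0) (XT.lf (nat_lit 0) (nat_lit 4915510242) (nat_lit 0) (nat_lit 4915510242) (nat_lit 1748) (nat_lit 540579855) (nat_lit 496) (nat_lit 5) (nat_lit 496) (nat_lit 3) (nat_lit 519) (nat_lit 3) (nat_lit 455) (nat_lit 455) (nat_lit 290)) (XT.lf (nat_lit 76) (nat_lit 4545824251) (nat_lit 0) (nat_lit 15704279143) (nat_lit 1824) (nat_lit 798368422) (nat_lit 497) (nat_lit 5) (nat_lit 496) (nat_lit 5) (nat_lit 520) (nat_lit 5) (nat_lit 456) (nat_lit 455) (nat_lit 289))))) (XT.nd (nat_lit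 234) (nat_lit 0) (nat_lit 152) (XT.nd (nat_lit 78) (nat_lit 1748) (nat_lit 0) (XT.lf (nat_lit 76) (nat_lit 20545586490) (nat_lit 0) (nat_lit 440552027) (nat_lit 1824) (nat_lit 374156507) (nat_lit 497) (nat_lit 5) (nat_lit 496) (nat_lit 5) (nat_lit 520) (nat_lit 5) (nat_lit 457) (nat_lit 455) (nat_lit 288)) (XT.nd (nat_lit 78) (nat_lit 0) (nat_lit 76) (XT.lf (nat_lit 0) (nat_lit 254059836) (nat_lit 1824) (nat_lit 6236939075) (nat_lit 1900) (nat_lit 15186624365) (nat_lit 473) (nat_lit 5) (nat_lit 497) (nat_lit 5) (nat_lit 498) (nat_lit 5) (nat_lit 458) (nat_lit 455) (nat_lit 287)) (XT.lf (nat_lit 0) (nat_lit 1023794785) (nat_lit 1824) (nat_lit 11748299214) (nat_lit 1900) (nat_lit 9229773318) (nat_lit 474) (nat_lit 5) (nat_lit 498) (nat_lit 5) (nat_lit 499) (nat_lit 5) (nat_lit 459) (nat_lit 455) (nat_lit 286)))) (XT.nd (nat_lit 156) (nat_lit 0) (nat_lit 76) (XT.nd (nat_lit 78) (nat_lit 0) (nat_lit 0)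 (XT.lf (nat_lit 0) (nat_lit 1946834582) (nat_lit 1824) (nat_lit 17347429380) (nat_lit 1900) (nat_lit 3038970960) (nat_lit 475) (nat_lit 5) (nat_lit 499) (nat_lit 5) (nat_lit 500) (nat_lit 5) (nat_lit 460) (nat_lit 455) (nat_lit 285)) (XT.lf (nat_lit 0) (nat_lit 3055108976) (nat_lit 1824) (nat_lit 381186436) (nat_lit 1900) (nat_lit 19235097757) (nat_lit 475) (nat_lit 5) (nat_lit 499) (nat_lit 5) (nat_lit 500) (nat_lit 5) (nat_lit 461) (nat_lit 455) (nat_lit 284))) (XT.nd (nat_lit 78) (nat_lit 0) (nat_lit 76) (XT.lf (nat_lit 0) (nat_lit 4385788574) (nat_lit 1824) (nat_lit 5785850142) (nat_lit 1900) (nat_lit 12844274780) (nat_lit 476) (nat_lit 5) (nat_lit 500) (nat_lit 5) (nat_lit 501) (nat_lit 5) (nat_lit 462) (nat_lit 455) (nat_lit 283)) (XT.lf (nat_lit 0) (nat_lit 5893986691) (nat_lit 1824) (nat_lit 11274295921) (nat_lit 1900) (nat_lit 6199735314) (nat_lit 477) (nat_lit 5) (nat_lit 501) (nat_lit 5)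 (nat_lit 502) (nat_lit 5) (nat_lit 463) (nat_lit 455) (nat_lit 282)))))) (XT.nd (nat_lit 546) (nat_lit 5168) (nat_lit 0) (XT.nd (nat_lit 234) (nat_lit 0) (nat_lit 228) (XT.nd (nat_lit 78) (nat_lit 0) (nat_lit 76) (XT.lf (nat_lit 76) (nat_lit 6875805124) (nat_lit 0) (nat_lit 716400592) (nat_lit 1900) (nat_lit 16135584717) (nat_lit 478) (nat_lit 5) (nat_lit 477) (nat_lit 5) (nat_lit 502) (nat_lit 5) (nat_lit 464) (nat_lit 455) (nat_lit 281)) (XT.nd (nat_lit 78) (nat_lit 0) (nat_lit 76) (XT.lf (nat_lit 76) (nat_lit 1537044497) (nat_lit 0) (nat_lit 7989420261) (nat_lit 1900) (nat_lit 14568189919) (nat_lit 479) (nat_lit 5) (nat_lit 478) (nat_lit 5) (nat_lit 503) (nat_lit 5) (nat_lit 465) (nat_lit 455) (nat_lit 280)) (XT.lf (nat_lit 0) (nat_lit 11689595168) (nat_lit 1824) (nat_lit 3830657081) (nat_lit 1900) (nat_lit 8948856143) (nat_lit 479) (nat_lit 5) (nat_lit 503) (nat_lit 5) (nat_lit 504) (nat_lit 5)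 (nat_lit 466) (nat_lit 455) (nat_lit 279)))) (XT.nd (nat_lit 156) (nat_lit 0) (nat_lit 76) (XT.nd (nat_lit 78) (nat_lit 0) (nat_lit 0) (XT.lf (nat_lit 0) (nat_lit 14075582984) (nat_lit 1824) (nat_lit 9257559350) (nat_lit 1900) (nat_lit 1518494520) (nat_lit 480) (nat_lit 5) (nat_lit 504) (nat_lit 5) (nat_lit 505) (nat_lit 5) (nat_lit 467) (nat_lit 455) (nat_lit 278)) (XT.lf (nat_lit 76) (nat_lit 10436660626) (nat_lit 0) (nat_lit 6287578701) (nat_lit 1900) (nat_lit 8517580460) (nat_lit 481) (nat_lit 5) (nat_lit 480) (nat_lit 5) (nat_lit 505) (nat_lit 5) (nat_lit 468) (nat_lit 455) (nat_lit 277))) (XT.nd (nat_lit 78) (nat_lit 0) (nat_lit 76) (XT.lf (nat_lit 76) (nat_lit 5195349854) (nat_lit 0) (nat_lit 14420627958) (nat_lit 1900) (nat_lit 6024458329) (nat_lit 482) (nat_lit 5) (nat_lit 481) (nat_lit 5) (nat_lit 506) (nat_lit 5) (nat_lit 469) (nat_lit 455) (nat_lit 276)) (XT.lf (nat_lit 0) (nat_lit 22751203099)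 (nat_lit 1824) (nat_lit 118374962) (nat_lit 1900) (nat_lit 3178298602) (nat_lit 482) (nat_lit 5) (nat_lit 506) (nat_lit 5) (nat_lit 507) (nat_lit 5) (nat_lit 470) (nat_lit 455) (nat_lit 275))))) (XT.nd (nat_lit 234) (nat_lit 2660) (nat_lit 0) (XT.nd (nat_lit 78) (nat_lit 2888) (nat_lit 0) (XT.lf (nat_lit 76) (nat_lit 20991939306) (nat_lit 0) (nat_lit 5215195791) (nat_lit 1900) (nat_lit 255872665) (nat_lit 483) (nat_lit 5) (nat_lit 482) (nat_lit 5) (nat_lit 507) (nat_lit 5) (nat_lit 471) (nat_lit 455) (nat_lit 274)) (XT.nd (nat_lit 78) (nat_lit 1064) (nat_lit 0) (XT.lf (nat_lit 0) (nat_lit 3022386913) (nat_lit 1900) (nat_lit 10940134460) (nat_lit 76) (nat_lit 12924019167) (nat_lit 458) (nat_lit 5) (nat_lit 483) (nat_lit 5) (nat_lit 459) (nat_lit 5) (nat_lit 472) (nat_lit 455) (nat_lit 273)) (XT.lf (nat_lit 0) (nat_lit 6560509223) (nat_lit 1140) (nat_lit 16488365423) (nat_lit 76) (nat_lit 4270571338)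 (nat_lit 444) (nat_lit 5) (nat_lit 459) (nat_lit 5) (nat_lit 445) (nat_lit 5) (nat_lit 473) (nat_lit 455) (nat_lit 272)))) (XT.nd (nat_lit 156) (nat_lit 836) (nat_lit 0) (XT.nd (nat_lit 78) (nat_lit 912) (nat_lit 0) (XT.lf (nat_lit 0) (nat_lit 5615968836) (nat_lit 912) (nat_lit 4787580111) (nat_lit 988) (nat_lit 17357814493) (nat_lit 432) (nat_lit 5) (nat_lit 444) (nat_lit 5) (nat_lit 445) (nat_lit 5) (nat_lit 474) (nat_lit 455) (nat_lit 271)) (XT.lf (nat_lit 0) (nat_lit 301827458) (nat_lit 912) (nat_lit 14259968376) (nat_lit 988) (nat_lit 13650744579) (nat_lit 420) (nat_lit 5) (nat_lit 432) (nat_lit 5) (nat_lit 433) (nat_lit 5) (nat_lit 475) (nat_lit 455) (nat_lit 270))) (XT.nd (nat_lit 78) (nat_lit 836) (nat_lit 0) (XT.lf (nat_lit 0) (nat_lit 19051537835) (nat_lit 988) (nat_lit 5015965011) (nat_lit 76) (nat_lit 4605615201) (nat_lit 420) (nat_lit 5) (nat_lit 433) (nat_lit 5) (nat_lit 421) (nat_lit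 5) (nat_lit 476) (nat_lit 455) (nat_lit 269)) (XT.lf (nat_lit 0) (nat_lit 18710601729) (nat_lit 836) (nat_lit 5176952123) (nat_lit 912) (nat_lit 5255727816) (nat_lit 409) (nat_lit 5) (nat_lit 420) (nat_lit 5) (nat_lit 421) (nat_lit 5) (nat_lit 477) (nat_lit 455) (nat_lit 268))))))) (XT.nd (nat_lit 1092) (nat_lit 6156) (nat_lit 0) (XT.nd (nat_lit 546) (nat_lit 4104) (nat_lit 0) (XT.nd (nat_lit 234) (nat_lit 2280) (nat_lit 0) (XT.nd (nat_lit 78) (nat_lit 1748) (nat_lit 0) (XT.lf (nat_lit 0) (nat_lit 13672047322) (nat_lit 836) (nat_lit 15407162663) (nat_lit 912) (nat_lit 544129310) (nat_lit 398) (nat_lit 5) (nat_lit 409) (nat_lit 5) (nat_lit 410) (nat_lit 5) (nat_lit 478) (nat_lit 455) (nat_lit 267)) (XT.nd (nat_lit 78) (nat_lit 836) (nat_lit 0) (XT.lf (nat_lit 0) (nat_lit 4435701548) (nat_lit 912) (nat_lit 21570518628) (nat_lit 76) (nat_lit 4107351326) (nat_lit 386) (nat_lit 5) (nat_lit 398) (nat_lit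 5) (nat_lit 387) (nat_lit 5) (nat_lit 479) (nat_lit 455) (nat_lit 266)) (XT.lf (nat_lit 0) (nat_lit 3305102920) (nat_lit 836) (nat_lit 6480832208) (nat_lit 912) (nat_lit 20827935872) (nat_lit 375) (nat_lit 5) (nat_lit 386) (nat_lit 5) (nat_lit 387) (nat_lit 5) (nat_lit 480) (nat_lit 455) (nat_lit 265)))) (XT.nd (nat_lit 156) (nat_lit 1520) (nat_lit 0) (XT.nd (nat_lit 78) (nat_lit 760) (nat_lit 0) (XT.lf (nat_lit 0) (nat_lit 15527477834) (nat_lit 912) (nat_lit 1998558728) (nat_lit 76) (nat_lit 13598527136) (nat_lit 375) (nat_lit 5) (nat_lit 387) (nat_lit 5) (nat_lit 376) (nat_lit 5) (nat_lit 481) (nat_lit 455) (nat_lit 264)) (XT.lf (nat_lit 0) (nat_lit 21655515972) (nat_lit 836) (nat_lit 7322277124) (nat_lit 76) (nat_lit 2668499348) (nat_lit 365) (nat_lit 5) (nat_lit 376) (nat_lit 5) (nat_lit 366) (nat_lit 5) (nat_lit 482) (nat_lit 455) (nat_lit 263))) (XT.nd (nat_lit 78) (nat_lit 760) (nat_lit 0) (XT.lf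 (nat_lit 0) (nat_lit 19412573303) (nat_lit 760) (nat_lit 8807110567) (nat_lit 836) (nat_lit 3958943652) (nat_lit 355) (nat_lit 5) (nat_lit 365) (nat_lit 5) (nat_lit 366) (nat_lit 5) (nat_lit 483) (nat_lit 455) (nat_lit 262)) (XT.lf (nat_lit 0) (nat_lit 2442576901) (nat_lit 760) (nat_lit 18308653076) (nat_lit 76) (nat_lit 11971044392) (nat_lit 345) (nat_lit 5) (nat_lit 355) (nat_lit 5) (nat_lit 346) (nat_lit 5) (nat_lit 484) (nat_lit 455) (nat_lit 261))))) (XT.nd (nat_lit 234) (nat_lit 2660) (nat_lit 0) (XT.nd (nat_lit 78) (nat_lit 684) (nat_lit 0) (XT.lf (nat_lit 0) (nat_lit 9185798661) (nat_lit 836) (nat_lit 23944159751) (nat_lit 76) (nat_lit 147680218) (nat_lit 335) (nat_lit 5) (nat_lit 346) (nat_lit 5) (nat_lit 336) (nat_lit 5) (nat_lit 485) (nat_lit 455) (nat_lit 260)) (XT.nd (nat_lit 78) (nat_lit 0) (nat_lit 0) (XT.lf (nat_lit 0) (nat_lit 4117773466) (nat_lit 684) (nat_lit 12299613700) (nat_lit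 760) (nat_lit 17426555471) (nat_lit 326) (nat_lit 5) (nat_lit 335) (nat_lit 5) (nat_lit 336) (nat_lit 5) (nat_lit 486) (nat_lit 455) (nat_lit 259)) (XT.lf (nat_lit 0) (nat_lit 24084461103) (nat_lit 760) (nat_lit 1140135740) (nat_lit 76) (nat_lit 9198268375) (nat_lit 326) (nat_lit 5) (nat_lit 336) (nat_lit 5) (nat_lit 327) (nat_lit 5) (nat_lit 487) (nat_lit 455) (nat_lit 258)))) (XT.nd (nat_lit 156) (nat_lit 1292) (nat_lit 0) (XT.nd (nat_lit 78) (nat_lit 684) (nat_lit 0) (XT.lf (nat_lit 0) (nat_lit 28591409004) (nat_lit 684) (nat_lit 3653914515) (nat_lit 760) (nat_lit 2768556640) (nat_lit 317) (nat_lit 5) (nat_lit 326) (nat_lit 5) (nat_lit 327) (nat_lit 5) (nat_lit 488) (nat_lit 455) (nat_lit 257)) (XT.lf (nat_lit 0) (nat_lit 5243054832) (nat_lit 684) (nat_lit 11856813212) (nat_lit 76) (nat_lit 18516492410) (nat_lit 308) (nat_lit 5) (nat_lit 317) (nat_lit 5) (nat_lit 309) (nat_lit 5) (nat_lit 489) (nat_lit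 455) (nat_lit 256))) (XT.nd (nat_lit 78) (nat_lit 608) (nat_lit 0) (XT.lf (nat_lit 0) (nat_lit 13678709893) (nat_lit 760) (nat_lit 17368174833) (nat_lit 76) (nat_lit 5185238437) (nat_lit 299) (nat_lit 5) (nat_lit 309) (nat_lit 5) (nat_lit 300) (nat_lit 5) (nat_lit 490) (nat_lit 455) (nat_lit 255)) (XT.lf (nat_lit 0) (nat_lit 13866081826) (nat_lit 608) (nat_lit 8782726157) (nat_lit 684) (nat_lit 14211923487) (nat_lit 291) (nat_lit 5) (nat_lit 299) (nat_lit 5) (nat_lit 300) (nat_lit 5) (nat_lit 491) (nat_lit 455) (nat_lit 254)))))) (XT.nd (nat_lit 546) (nat_lit 2584) (nat_lit 0) (XT.nd (nat_lit 234) (nat_lit 2280) (nat_lit 0) (XT.nd (nat_lit 78) (nat_lit 684) (nat_lit 0) (XT.lf (nat_lit 0) (nat_lit 8787098448) (nat_lit 608) (nat_lit 23364491492) (nat_lit 684) (nat_lit 5351336649) (nat_lit 283) (nat_lit 5) (nat_lit 291) (nat_lit 5) (nat_lit 292) (nat_lit 5) (nat_lit 492) (nat_lit 455) (nat_lit 253)) (XT.nd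 (nat_lit 78) (nat_lit 0) (nat_lit 0) (XT.lf (nat_lit 0) (nat_lit 3634439736) (nat_lit 608) (nat_lit 326545729) (nat_lit 684) (nat_lit 34198203493) (nat_lit 274) (nat_lit 5) (nat_lit 282) (nat_lit 5) (nat_lit 283) (nat_lit 5) (nat_lit 493) (nat_lit 455) (nat_lit 252)) (XT.lf (nat_lit 0) (nat_lit 13824527970) (nat_lit 684) (nat_lit 1676708386) (nat_lit 76) (nat_lit 23326304472) (nat_lit 274) (nat_lit 5) (nat_lit 283) (nat_lit 5) (nat_lit 275) (nat_lit 5) (nat_lit 494) (nat_lit 455) (nat_lit 251)))) (XT.nd (nat_lit 156) (nat_lit 1140) (nat_lit 0) (XT.nd (nat_lit 78) (nat_lit 532) (nat_lit 0) (XT.lf (nat_lit 0) (nat_lit 24248528947) (nat_lit 684) (nat_lit 6988909031) (nat_lit 76) (nat_lit 8273214393) (nat_lit 266) (nat_lit 5) (nat_lit 275) (nat_lit 5) (nat_lit 267) (nat_lit 5) (nat_lit 495) (nat_lit 455) (nat_lit 250)) (XT.lf (nat_lit 0) (nat_lit 27811508947) (nat_lit 532) (nat_lit 7465907000) (nat_lit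 608) (nat_lit 4930998149) (nat_lit 259) (nat_lit 5) (nat_lit 266) (nat_lit 5) (nat_lit 267) (nat_lit 5) (nat_lit 496) (nat_lit 455) (nat_lit 249))) (XT.nd (nat_lit 78) (nat_lit 532) (nat_lit 0) (XT.lf (nat_lit 0) (nat_lit 5941325003) (nat_lit 608) (nat_lit 17948238766) (nat_lit 76) (nat_lit 17030680531) (nat_lit 251) (nat_lit 5) (nat_lit 259) (nat_lit 5) (nat_lit 252) (nat_lit 5) (nat_lit 497) (nat_lit 455) (nat_lit 248)) (XT.lf (nat_lit 0) (nat_lit 17326472503) (nat_lit 608) (nat_lit 23583745160) (nat_lit 76) (nat_lit 737487061) (nat_lit 244) (nat_lit 5) (nat_lit 252) (nat_lit 5) (nat_lit 245) (nat_lit 5) (nat_lit 498) (nat_lit 455) (nat_lit 247))))) (XT.nd (nat_lit 234) (nat_lit 988) (nat_lit 0) (XT.nd (nat_lit 78) (nat_lit 1064) (nat_lit 0) (XT.lf (nat_lit 0) (nat_lit 13013231776) (nat_lit 532) (nat_lit 16403293063) (nat_lit 608) (nat_lit 12973197252) (nat_lit 237) (nat_lit 5) (nat_lit 244) (nat_lit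 5) (nat_lit 245) (nat_lit 5) (nat_lit 499) (nat_lit 455) (nat_lit 246)) (XT.nd (nat_lit 78) (nat_lit 608) (nat_lit 0) (XT.lf (nat_lit 0) (nat_lit 7921069024) (nat_lit 456) (nat_lit 34214627203) (nat_lit 532) (nat_lit 1012975540) (nat_lit 231) (nat_lit 5) (nat_lit 237) (nat_lit 5) (nat_lit 238) (nat_lit 5) (nat_lit 500) (nat_lit 455) (nat_lit 245)) (XT.lf (nat_lit 0) (nat_lit 2659238693) (nat_lit 532) (nat_lit 8822654403) (nat_lit 608) (nat_lit 32440546415) (nat_lit 223) (nat_lit 5) (nat_lit 230) (nat_lit 5) (nat_lit 231) (nat_lit 5) (nat_lit 501) (nat_lit 455) (nat_lit 244)))) (XT.nd (nat_lit 156) (nat_lit 532) (nat_lit 0) (XT.nd (nat_lit 78) (nat_lit 456) (nat_lit 0) (XT.lf (nat_lit 0) (nat_lit 24687577079) (nat_lit 608) (nat_lit 2675095689) (nat_lit 76) (nat_lit 17349619096) (nat_lit 223) (nat_lit 5) (nat_lit 231) (nat_lit 5) (nat_lit 224) (nat_lit 5) (nat_lit 502) (nat_lit 455) (nat_lit 243)) (XT.lf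 (nat_lit 0) (nat_lit 37499133178) (nat_lit 456) (nat_lit 1089694967) (nat_lit 532) (nat_lit 6931023832) (nat_lit 217) (nat_lit 5) (nat_lit 223) (nat_lit 5) (nat_lit 224) (nat_lit 5) (nat_lit 503) (nat_lit 455) (nat_lit 242))) (XT.nd (nat_lit 58734) (nat_lit 0) (nat_lit 21736) (XT.lf (nat_lit 0) (nat_lit 6869079638) (nat_lit 532) (nat_lit 13567556383) (nat_lit 76) (nat_lit 25906160177) (nat_lit 210) (nat_lit 5) (nat_lit 217) (nat_lit 5) (nat_lit 211) (nat_lit 5) (nat_lit 504) (nat_lit 455) (nat_lit 241)) (XT.lf (nat_lit 0) (nat_lit 5176202734) (nat_lit 0) (nat_lit 5176202734) (nat_lit 1748) (nat_lit 325799692) (nat_lit 496) (nat_lit 5) (nat_lit 496) (nat_lit 3) (nat_lit 519) (nat_lit 3) (nat_lit 456) (nat_lit 456) (nat_lit 288))))))))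
noncomputable def xc111 : XT := (XT.nd (nat_lit 2106) (nat_lit 10792) (nat_lit 0) (XT.nd (nat_lit 1014) (nat_lit 8132) (nat_lit 0) (XT.nd (nat_lit 468) (nat_lit 0) (nat_lit 304) (XT.nd (nat_lit 234) (nat_lit 0) (nat_lit 152) (XT.nd (nat_lit 78) (nat_lit 1824) (nat_lit 0) (XT.lf (nat_lit 76) (nat_lit 4915364796) (nat_lit 0) (nat_lit 16382045321) (nat_lit 1824) (nat_lit 373692399) (nat_lit 497) (nat_lit 5) (nat_lit 496) (nat_lit 5) (nat_lit 520) (nat_lit 5) (nat_lit 457) (nat_lit 456) (nat_lit 287)) (XT.nd (nat_lit 78) (nat_lit 0) (nat_lit 76) (XT.lf (nat_lit 0) (nat_lit 49520957) (nat_lit 1824) (nat_lit 604534545) (nat_lit 1900) (nat_lit 21338475396) (nat_lit 472) (nat_lit 5) (nat_lit 496) (nat_lit 5) (nat_lit 497) (nat_lit 5) (nat_lit 458) (nat_lit 456) (nat_lit 286)) (XT.lf (nat_lit 0) (nat_lit 679255577) (nat_lit 1824) (nat_lit 6186061782) (nat_lit 1900) (nat_lit 15454257832) (nat_lit 473) (nat_lit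 5) (nat_lit 497) (nat_lit 5) (nat_lit 498) (nat_lit 5) (nat_lit 459) (nat_lit 456) (nat_lit 285)))) (XT.nd (nat_lit 78) (nat_lit 0) (nat_lit 76) (XT.lf (nat_lit 0) (nat_lit 1460318338) (nat_lit 1824) (nat_lit 11857338576) (nat_lit 1900) (nat_lit 9336125661) (nat_lit 474) (nat_lit 5) (nat_lit 498) (nat_lit 5) (nat_lit 499) (nat_lit 5) (nat_lit 460) (nat_lit 456) (nat_lit 284)) (XT.nd (nat_lit 78) (nat_lit 0) (nat_lit 0) (XT.lf (nat_lit 0) (nat_lit 2399770963) (nat_lit 1824) (nat_lit 17619443529) (nat_lit 1900) (nat_lit 2976102997) (nat_lit 475) (nat_lit 5) (nat_lit 499) (nat_lit 5) (nat_lit 500) (nat_lit 5) (nat_lit 461) (nat_lit 456) (nat_lit 283)) (XT.lf (nat_lit 0) (nat_lit 3529802386) (nat_lit 1824) (nat_lit 151448503) (nat_lit 1900) (nat_lit 19662600116) (nat_lit 475) (nat_lit 5) (nat_lit 499) (nat_lit 5) (nat_lit 500) (nat_lit 5) (nat_lit 462) (nat_lit 456) (nat_lit 282))))) (XT.nd (nat_lit 234)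 (nat_lit 0) (nat_lit 152) (XT.nd (nat_lit 78) (nat_lit 0) (nat_lit 76) (XT.lf (nat_lit 0) (nat_lit 4889902255) (nat_lit 1824) (nat_lit 5713789847) (nat_lit 1900) (nat_lit 13095225516) (nat_lit 476) (nat_lit 5) (nat_lit 500) (nat_lit 5) (nat_lit 501) (nat_lit 5) (nat_lit 463) (nat_lit 456) (nat_lit 281)) (XT.nd (nat_lit 78) (nat_lit 0) (nat_lit 0) (XT.lf (nat_lit 0) (nat_lit 6433275033) (nat_lit 1824) (nat_lit 11362797597) (nat_lit 1900) (nat_lit 6265714631) (nat_lit 477) (nat_lit 5) (nat_lit 501) (nat_lit 5) (nat_lit 502) (nat_lit 5) (nat_lit 464) (nat_lit 456) (nat_lit 280)) (XT.lf (nat_lit 76) (nat_lit 7327754953) (nat_lit 0) (nat_lit 845723424) (nat_lit 1900) (nat_lit 16259054447) (nat_lit 478) (nat_lit 5) (nat_lit 477) (nat_lit 5) (nat_lit 502) (nat_lit 5) (nat_lit 465) (nat_lit 456) (nat_lit 279)))) (XT.nd (nat_lit 156) (nat_lit 0) (nat_lit 152) (XT.nd (nat_lit 78) (nat_lit 0) (nat_lit 76) (XT.lf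 (nat_lit 76) (nat_lit 1832510735) (nat_lit 0) (nat_lit 8323897408) (nat_lit 1900) (nat_lit 14654182609) (nat_lit 479) (nat_lit 5) (nat_lit 478) (nat_lit 5) (nat_lit 503) (nat_lit 5) (nat_lit 466) (nat_lit 456) (nat_lit 278)) (XT.lf (nat_lit 0) (nat_lit 12373811153) (nat_lit 1824) (nat_lit 3696184622) (nat_lit 1900) (nat_lit 9126495330) (nat_lit 479) (nat_lit 5) (nat_lit 503) (nat_lit 5) (nat_lit 504) (nat_lit 5) (nat_lit 467) (nat_lit 456) (nat_lit 277))) (XT.nd (nat_lit 78) (nat_lit 0) (nat_lit 0) (XT.lf (nat_lit 0) (nat_lit 14822737335) (nat_lit 1824) (nat_lit 9282892717) (nat_lit 1900) (nat_lit 1485038777) (nat_lit 480) (nat_lit 5) (nat_lit 504) (nat_lit 5) (nat_lit 505) (nat_lit 5) (nat_lit 468) (nat_lit 456) (nat_lit 276)) (XT.lf (nat_lit 76) (nat_lit 10998059075) (nat_lit 0) (nat_lit 6544943689) (nat_lit 1900) (nat_lit 8449712062) (nat_lit 481) (nat_lit 5) (nat_lit 480) (nat_lit 5) (nat_lit 505)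 (nat_lit 5) (nat_lit 469) (nat_lit 456) (nat_lit 275)))))) (XT.nd (nat_lit 546) (nat_lit 4180) (nat_lit 0) (XT.nd (nat_lit 234) (nat_lit 2812) (nat_lit 0) (XT.nd (nat_lit 78) (nat_lit 1824) (nat_lit 0) (XT.lf (nat_lit 76) (nat_lit 5602176057) (nat_lit 0) (nat_lit 14911279424) (nat_lit 1900) (nat_lit 5889995496) (nat_lit 482) (nat_lit 5) (nat_lit 481) (nat_lit 5) (nat_lit 506) (nat_lit 5) (nat_lit 470) (nat_lit 456) (nat_lit 274)) (XT.nd (nat_lit 78) (nat_lit 1900) (nat_lit 0) (XT.lf (nat_lit 76) (nat_lit 129815902) (nat_lit 0) (nat_lit 23604398712) (nat_lit 1900) (nat_lit 3089071092) (nat_lit 483) (nat_lit 5) (nat_lit 482) (nat_lit 5) (nat_lit 507) (nat_lit 5) (nat_lit 471) (nat_lit 456) (nat_lit 273)) (XT.lf (nat_lit 0) (nat_lit 34364247) (nat_lit 1900) (nat_lit 5383576349) (nat_lit 1976) (nat_lit 21833085595) (nat_lit 457) (nat_lit 5) (nat_lit 482) (nat_lit 5) (nat_lit 483) (nat_lit 5) (nat_lit 472)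 (nat_lit 456) (nat_lit 272)))) (XT.nd (nat_lit 156) (nat_lit 1824) (nat_lit 0) (XT.nd (nat_lit 78) (nat_lit 1064) (nat_lit 0) (XT.lf (nat_lit 0) (nat_lit 3400264782) (nat_lit 1900) (nat_lit 11016443866) (nat_lit 76) (nat_lit 13270667582) (nat_lit 458) (nat_lit 5) (nat_lit 483) (nat_lit 5) (nat_lit 459) (nat_lit 5) (nat_lit 473) (nat_lit 456) (nat_lit 271)) (XT.lf (nat_lit 0) (nat_lit 7037562530) (nat_lit 1140) (nat_lit 16729371593) (nat_lit 76) (nat_lit 4366474557) (nat_lit 444) (nat_lit 5) (nat_lit 459) (nat_lit 5) (nat_lit 445) (nat_lit 5) (nat_lit 474) (nat_lit 456) (nat_lit 270))) (XT.nd (nat_lit 78) (nat_lit 912) (nat_lit 0) (XT.lf (nat_lit 0) (nat_lit 6033977609) (nat_lit 912) (nat_lit 4955373676) (nat_lit 988) (nat_lit 17599363681) (nat_lit 432) (nat_lit 5) (nat_lit 444) (nat_lit 5) (nat_lit 445) (nat_lit 5) (nat_lit 475) (nat_lit 456) (nat_lit 269)) (XT.lf (nat_lit 0) (nat_lit 561918342) (nat_lit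 912) (nat_lit 14703933073) (nat_lit 988) (nat_lit 13787706167) (nat_lit 420) (nat_lit 5) (nat_lit 432) (nat_lit 5) (nat_lit 433) (nat_lit 5) (nat_lit 476) (nat_lit 456) (nat_lit 268))))) (XT.nd (nat_lit 234) (nat_lit 2508) (nat_lit 0) (XT.nd (nat_lit 78) (nat_lit 1672) (nat_lit 0) (XT.lf (nat_lit 0) (nat_lit 19882401200) (nat_lit 988) (nat_lit 4917414775) (nat_lit 76) (nat_lit 4728294696) (nat_lit 420) (nat_lit 5) (nat_lit 433) (nat_lit 5) (nat_lit 421) (nat_lit 5) (nat_lit 477) (nat_lit 456) (nat_lit 267)) (XT.nd (nat_lit 78) (nat_lit 836) (nat_lit 0) (XT.lf (nat_lit 0) (nat_lit 19516908765) (nat_lit 836) (nat_lit 5340626635) (nat_lit 912) (nat_lit 5154963472) (nat_lit 409) (nat_lit 5) (nat_lit 420) (nat_lit 5) (nat_lit 421) (nat_lit 5) (nat_lit 478) (nat_lit 456) (nat_lit 266)) (XT.lf (nat_lit 0) (nat_lit 14328275316) (nat_lit 836) (nat_lit 15870831523) (nat_lit 912) (nat_lit 307968488) (nat_lit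 398) (nat_lit 5) (nat_lit 409) (nat_lit 5) (nat_lit 410) (nat_lit 5) (nat_lit 479) (nat_lit 456) (nat_lit 265)))) (XT.nd (nat_lit 156) (nat_lit 760) (nat_lit 0) (XT.nd (nat_lit 78) (nat_lit 836) (nat_lit 0) (XT.lf (nat_lit 0) (nat_lit 4812293307) (nat_lit 912) (nat_lit 21967417518) (nat_lit 76) (nat_lit 4232384334) (nat_lit 386) (nat_lit 5) (nat_lit 398) (nat_lit 5) (nat_lit 387) (nat_lit 5) (nat_lit 480) (nat_lit 456) (nat_lit 264)) (XT.lf (nat_lit 0) (nat_lit 3650413209) (nat_lit 836) (nat_lit 6667126065) (nat_lit 912) (nat_lit 21209974640) (nat_lit 375) (nat_lit 5) (nat_lit 386) (nat_lit 5) (nat_lit 387) (nat_lit 5) (nat_lit 481) (nat_lit 456) (nat_lit 263))) (XT.nd (nat_lit 78) (nat_lit 760) (nat_lit 0) (XT.lf (nat_lit 0) (nat_lit 16224446717) (nat_lit 912) (nat_lit 1814944981) (nat_lit 76) (nat_lit 14014273696) (nat_lit 375) (nat_lit 5) (nat_lit 387) (nat_lit 5) (nat_lit 376) (nat_lit 5) (nat_lit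 482) (nat_lit 456) (nat_lit 262)) (XT.lf (nat_lit 0) (nat_lit 22531238029) (nat_lit 836) (nat_lit 7297883878) (nat_lit 76) (nat_lit 2762026213) (nat_lit 365) (nat_lit 5) (nat_lit 376) (nat_lit 5) (nat_lit 366) (nat_lit 5) (nat_lit 483) (nat_lit 456) (nat_lit 261))))))) (XT.nd (nat_lit 1092) (nat_lit 2736) (nat_lit 0) (XT.nd (nat_lit 546) (nat_lit 3724) (nat_lit 0) (XT.nd (nat_lit 234) (nat_lit 2052) (nat_lit 0) (XT.nd (nat_lit 78) (nat_lit 1520) (nat_lit 0) (XT.lf (nat_lit 0) (nat_lit 20235052453) (nat_lit 760) (nat_lit 9052253240) (nat_lit 836) (nat_lit 3852248412) (nat_lit 355) (nat_lit 5) (nat_lit 365) (nat_lit 5) (nat_lit 366) (nat_lit 5) (nat_lit 484) (nat_lit 456) (nat_lit 260)) (XT.nd (nat_lit 78) (nat_lit 760) (nat_lit 0) (XT.lf (nat_lit 0) (nat_lit 2733572466) (nat_lit 760) (nat_lit 18614563144) (nat_lit 76) (nat_lit 12351441568) (nat_lit 345) (nat_lit 5) (nat_lit 355) (nat_lit 5) (nat_lit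 346) (nat_lit 5) (nat_lit 485) (nat_lit 456) (nat_lit 259)) (XT.lf (nat_lit 0) (nat_lit 9674475785) (nat_lit 836) (nat_lit 24418985578) (nat_lit 76) (nat_lit 178233629) (nat_lit 335) (nat_lit 5) (nat_lit 346) (nat_lit 5) (nat_lit 336) (nat_lit 5) (nat_lit 486) (nat_lit 456) (nat_lit 258)))) (XT.nd (nat_lit 156) (nat_lit 1368) (nat_lit 0) (XT.nd (nat_lit 78) (nat_lit 0) (nat_lit 0) (XT.lf (nat_lit 0) (nat_lit 4480855155) (nat_lit 684) (nat_lit 12637505210) (nat_lit 760) (nat_lit 17736721097) (nat_lit 326) (nat_lit 5) (nat_lit 335) (nat_lit 5) (nat_lit 336) (nat_lit 5) (nat_lit 487) (nat_lit 456) (nat_lit 257)) (XT.lf (nat_lit 0) (nat_lit 25009571136) (nat_lit 760) (nat_lit 937906766) (nat_lit 76) (nat_lit 9504011630) (nat_lit 326) (nat_lit 5) (nat_lit 336) (nat_lit 5) (nat_lit 327) (nat_lit 5) (nat_lit 488) (nat_lit 456) (nat_lit 256))) (XT.nd (nat_lit 78) (nat_lit 684) (nat_lit 0) (XT.lf (nat_lit 0)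 (nat_lit 29681748474) (nat_lit 684) (nat_lit 3729120847) (nat_lit 760) (nat_lit 2649453696) (nat_lit 317) (nat_lit 5) (nat_lit 326) (nat_lit 5) (nat_lit 327) (nat_lit 5) (nat_lit 489) (nat_lit 456) (nat_lit 255)) (XT.lf (nat_lit 0) (nat_lit 5595781814) (nat_lit 684) (nat_lit 11977398153) (nat_lit 76) (nat_lit 19107753243) (nat_lit 308) (nat_lit 5) (nat_lit 317) (nat_lit 5) (nat_lit 309) (nat_lit 5) (nat_lit 490) (nat_lit 456) (nat_lit 254))))) (XT.nd (nat_lit 234) (nat_lit 1824) (nat_lit 0) (XT.nd (nat_lit 78) (nat_lit 1216) (nat_lit 0) (XT.lf (nat_lit 0) (nat_lit 14280576117) (nat_lit 760) (nat_lit 17654341278) (nat_lit 76) (nat_lit 5380330287) (nat_lit 299) (nat_lit 5) (nat_lit 309) (nat_lit 5) (nat_lit 300) (nat_lit 5) (nat_lit 491) (nat_lit 456) (nat_lit 253)) (XT.nd (nat_lit 78) (nat_lit 608) (nat_lit 0) (XT.lf (nat_lit 0) (nat_lit 14513132452) (nat_lit 608) (nat_lit 9002567133) (nat_lit 684)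 (nat_lit 14447096470) (nat_lit 291) (nat_lit 5) (nat_lit 299) (nat_lit 5) (nat_lit 300) (nat_lit 5) (nat_lit 492) (nat_lit 456) (nat_lit 252)) (XT.lf (nat_lit 0) (nat_lit 9281448419) (nat_lit 608) (nat_lit 24018430720) (nat_lit 684) (nat_lit 5324451859) (nat_lit 283) (nat_lit 5) (nat_lit 291) (nat_lit 5) (nat_lit 292) (nat_lit 5) (nat_lit 493) (nat_lit 456) (nat_lit 251)))) (XT.nd (nat_lit 156) (nat_lit 1140) (nat_lit 0) (XT.nd (nat_lit 78) (nat_lit 0) (nat_lit 0) (XT.lf (nat_lit 0) (nat_lit 3972892997) (nat_lit 608) (nat_lit 287990975) (nat_lit 684) (nat_lit 35039451130) (nat_lit 274) (nat_lit 5) (nat_lit 282) (nat_lit 5) (nat_lit 283) (nat_lit 5) (nat_lit 494) (nat_lit 456) (nat_lit 250)) (XT.lf (nat_lit 0) (nat_lit 14415363684) (nat_lit 684) (nat_lit 1501052681) (nat_lit 76) (nat_lit 24072420783) (nat_lit 274) (nat_lit 5) (nat_lit 283) (nat_lit 5) (nat_lit 275) (nat_lit 5) (nat_lit 495) (nat_lit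 456) (nat_lit 249))) (XT.nd (nat_lit 78) (nat_lit 532) (nat_lit 0) (XT.lf (nat_lit 0) (nat_lit 25148722664) (nat_lit 684) (nat_lit 6973153105) (nat_lit 76) (nat_lit 8570633738) (nat_lit 266) (nat_lit 5) (nat_lit 275) (nat_lit 5) (nat_lit 267) (nat_lit 5) (nat_lit 496) (nat_lit 456) (nat_lit 248)) (XT.lf (nat_lit 0) (nat_lit 28867620189) (nat_lit 532) (nat_lit 7637264738) (nat_lit 608) (nat_lit 4906391209) (nat_lit 259) (nat_lit 5) (nat_lit 266) (nat_lit 5) (nat_lit 267) (nat_lit 5) (nat_lit 497) (nat_lit 456) (nat_lit 247)))))) (XT.nd (nat_lit 59358) (nat_lit 0) (nat_lit 18924) (XT.nd (nat_lit 234) (nat_lit 1064) (nat_lit 0) (XT.nd (nat_lit 78) (nat_lit 1064) (nat_lit 0) (XT.lf (nat_lit 0) (nat_lit 6286658709) (nat_lit 608) (nat_lit 18263290879) (nat_lit 76) (nat_lit 17594553067) (nat_lit 251) (nat_lit 5) (nat_lit 259) (nat_lit 5) (nat_lit 252) (nat_lit 5) (nat_lit 498) (nat_lit 456) (nat_lit 246))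 (XT.nd (nat_lit 78) (nat_lit 532) (nat_lit 0) (XT.lf (nat_lit 0) (nat_lit 18010285063) (nat_lit 608) (nat_lit 24068571161) (nat_lit 76) (nat_lit 814992385) (nat_lit 244) (nat_lit 5) (nat_lit 252) (nat_lit 5) (nat_lit 245) (nat_lit 5) (nat_lit 499) (nat_lit 456) (nat_lit 245)) (XT.lf (nat_lit 0) (nat_lit 13622702261) (nat_lit 532) (nat_lit 16836981845) (nat_lit 608) (nat_lit 13198509690) (nat_lit 237) (nat_lit 5) (nat_lit 244) (nat_lit 5) (nat_lit 245) (nat_lit 5) (nat_lit 500) (nat_lit 456) (nat_lit 244)))) (XT.nd (nat_lit 156) (nat_lit 0) (nat_lit 0) (XT.nd (nat_lit 78) (nat_lit 608) (nat_lit 0) (XT.lf (nat_lit 0) (nat_lit 8377015053) (nat_lit 456) (nat_lit 35180521693) (nat_lit 532) (nat_lit 882433289) (nat_lit 231) (nat_lit 5) (nat_lit 237) (nat_lit 5) (nat_lit 238) (nat_lit 5) (nat_lit 501) (nat_lit 456) (nat_lit 243)) (XT.lf (nat_lit 0) (nat_lit 2955870593) (nat_lit 532) (nat_lit 9026082281) (nat_lit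 608) (nat_lit 33255041582) (nat_lit 223) (nat_lit 5) (nat_lit 230) (nat_lit 5) (nat_lit 231) (nat_lit 5) (nat_lit 502) (nat_lit 456) (nat_lit 242))) (XT.nd (nat_lit 58890) (nat_lit 0) (nat_lit 20748) (XT.lf (nat_lit 0) (nat_lit 25579661355) (nat_lit 608) (nat_lit 2542168664) (nat_lit 76) (nat_lit 17928795461) (nat_lit 223) (nat_lit 5) (nat_lit 231) (nat_lit 5) (nat_lit 224) (nat_lit 5) (nat_lit 503) (nat_lit 456) (nat_lit 241)) (XT.lf (nat_lit 0) (nat_lit 5438216297) (nat_lit 0) (nat_lit 5438216297) (nat_lit 1748) (nat_lit 117836329) (nat_lit 496) (nat_lit 5) (nat_lit 496) (nat_lit 3) (nat_lit 519) (nat_lit 3) (nat_lit 457) (nat_lit 457) (nat_lit 286))))) (XT.nd (nat_lit 234) (nat_lit 0) (nat_lit 152) (XT.nd (nat_lit 78) (nat_lit 0) (nat_lit 0) (XT.lf (nat_lit 0) (nat_lit 37472879) (nat_lit 1824) (nat_lit 17030558286) (nat_lit 1900) (nat_lit 5244882543) (nat_lit 472) (nat_lit 5) (nat_lit 496) (nat_lit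 5) (nat_lit 497) (nat_lit 5) (nat_lit 458) (nat_lit 457) (nat_lit 285)) (XT.nd (nat_lit 78) (nat_lit 0) (nat_lit 76) (XT.lf (nat_lit 0) (nat_lit 456179379) (nat_lit 1824) (nat_lit 403881728) (nat_lit 1900) (nat_lit 21784117695) (nat_lit 472) (nat_lit 5) (nat_lit 496) (nat_lit 5) (nat_lit 497) (nat_lit 5) (nat_lit 459) (nat_lit 457) (nat_lit 284)) (XT.lf (nat_lit 0) (nat_lit 1093236737) (nat_lit 1824) (nat_lit 6147319510) (nat_lit 1900) (nat_lit 15740710278) (nat_lit 473) (nat_lit 5) (nat_lit 497) (nat_lit 5) (nat_lit 498) (nat_lit 5) (nat_lit 460) (nat_lit 457) (nat_lit 283)))) (XT.nd (nat_lit 156) (nat_lit 0) (nat_lit 76) (XT.nd (nat_lit 78) (nat_lit 0) (nat_lit 76) (XT.lf (nat_lit 0) (nat_lit 1886642460) (nat_lit 1824) (nat_lit 11983621826) (nat_lit 1900) (nat_lit 9455458317) (nat_lit 474) (nat_lit 5) (nat_lit 498) (nat_lit 5) (nat_lit 499) (nat_lit 5) (nat_lit 461) (nat_lit 457) (nat_lit 282)) (XT.lf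 (nat_lit 0) (nat_lit 2843647723) (nat_lit 1824) (nat_lit 17913877780) (nat_lit 1900) (nat_lit 2920191355) (nat_lit 475) (nat_lit 5) (nat_lit 499) (nat_lit 5) (nat_lit 500) (nat_lit 5) (nat_lit 462) (nat_lit 457) (nat_lit 281))) (XT.nd (nat_lit 78) (nat_lit 0) (nat_lit 76) (XT.lf (nat_lit 76) (nat_lit 72285254) (nat_lit 0) (nat_lit 3924932596) (nat_lit 1900) (nat_lit 20039696429) (nat_lit 476) (nat_lit 5) (nat_lit 475) (nat_lit 5) (nat_lit 500) (nat_lit 5) (nat_lit 463) (nat_lit 457) (nat_lit 280)) (XT.lf (nat_lit 0) (nat_lit 5387754024) (nat_lit 1824) (nat_lit 5653668242) (nat_lit 1900) (nat_lit 13361418594) (nat_lit 476) (nat_lit 5) (nat_lit 500) (nat_lit 5) (nat_lit 501) (nat_lit 5) (nat_lit 464) (nat_lit 457) (nat_lit 279))))))))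
noncomputable def xc112 : XT := (XT.nd (nat_lit 2106) (nat_lit 6460) (nat_lit 0) (XT.nd (nat_lit 1014) (nat_lit 8512) (nat_lit 0) (XT.nd (nat_lit 468) (nat_lit 4332) (nat_lit 0) (XT.nd (nat_lit 234) (nat_lit 0) (nat_lit 152) (XT.nd (nat_lit 78) (nat_lit 0) (nat_lit 0) (XT.lf (nat_lit 0) (nat_lit 6967934837) (nat_lit 1824) (nat_lit 11468289686) (nat_lit 1900) (nat_lit 6340562550) (nat_lit 477) (nat_lit 5) (nat_lit 501) (nat_lit 5) (nat_lit 502) (nat_lit 5) (nat_lit 465) (nat_lit 457) (nat_lit 278)) (XT.nd (nat_lit 78) (nat_lit 0) (nat_lit 76) (XT.lf (nat_lit 76) (nat_lit 7779160488) (nat_lit 0) (nat_lit 972736011) (nat_lit 1900) (nat_lit 16406928059) (nat_lit 478) (nat_lit 5) (nat_lit 477) (nat_lit 5) (nat_lit 502) (nat_lit 5) (nat_lit 466) (nat_lit 457) (nat_lit 277)) (XT.lf (nat_lit 76) (nat_lit 2122526969) (nat_lit 0) (nat_lit 8662967276) (nat_lit 1900) (nat_lit 14762906959) (nat_lit 479) (nat_lit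 5) (nat_lit 478) (nat_lit 5) (nat_lit 503) (nat_lit 5) (nat_lit 467) (nat_lit 457) (nat_lit 276)))) (XT.nd (nat_lit 78) (nat_lit 0) (nat_lit 76) (XT.lf (nat_lit 0) (nat_lit 13059407739) (nat_lit 1824) (nat_lit 3571994120) (nat_lit 1900) (nat_lit 9314677505) (nat_lit 479) (nat_lit 5) (nat_lit 503) (nat_lit 5) (nat_lit 504) (nat_lit 5) (nat_lit 468) (nat_lit 457) (nat_lit 275)) (XT.nd (nat_lit 78) (nat_lit 0) (nat_lit 0) (XT.lf (nat_lit 0) (nat_lit 15573656482) (nat_lit 1824) (nat_lit 9323474500) (nat_lit 1900) (nat_lit 1455114891) (nat_lit 480) (nat_lit 5) (nat_lit 504) (nat_lit 5) (nat_lit 505) (nat_lit 5) (nat_lit 469) (nat_lit 457) (nat_lit 274)) (XT.lf (nat_lit 76) (nat_lit 11562046121) (nat_lit 0) (nat_lit 6806083806) (nat_lit 1900) (nat_lit 8398371855) (nat_lit 481) (nat_lit 5) (nat_lit 480) (nat_lit 5) (nat_lit 505) (nat_lit 5) (nat_lit 470) (nat_lit 457) (nat_lit 273))))) (XT.nd (nat_lit 234)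 (nat_lit 2812) (nat_lit 0) (XT.nd (nat_lit 78) (nat_lit 1824) (nat_lit 0) (XT.lf (nat_lit 76) (nat_lit 6006800589) (nat_lit 0) (nat_lit 15413319124) (nat_lit 1900) (nat_lit 5769592351) (nat_lit 482) (nat_lit 5) (nat_lit 481) (nat_lit 5) (nat_lit 506) (nat_lit 5) (nat_lit 471) (nat_lit 457) (nat_lit 272)) (XT.nd (nat_lit 78) (nat_lit 1900) (nat_lit 0) (XT.lf (nat_lit 76) (nat_lit 372528787) (nat_lit 0) (nat_lit 24357695270) (nat_lit 1900) (nat_lit 2892063831) (nat_lit 483) (nat_lit 5) (nat_lit 482) (nat_lit 5) (nat_lit 507) (nat_lit 5) (nat_lit 472) (nat_lit 457) (nat_lit 271)) (XT.lf (nat_lit 0) (nat_lit 312948763) (nat_lit 1900) (nat_lit 5309516643) (nat_lit 1976) (nat_lit 22440524576) (nat_lit 457) (nat_lit 5) (nat_lit 482) (nat_lit 5) (nat_lit 483) (nat_lit 5) (nat_lit 473) (nat_lit 457) (nat_lit 270)))) (XT.nd (nat_lit 156) (nat_lit 1824) (nat_lit 0) (XT.nd (nat_lit 78) (nat_lit 1064) (nat_lit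 0) (XT.lf (nat_lit 0) (nat_lit 3772992172) (nat_lit 1900) (nat_lit 11109502337) (nat_lit 76) (nat_lit 13630073159) (nat_lit 458) (nat_lit 5) (nat_lit 483) (nat_lit 5) (nat_lit 459) (nat_lit 5) (nat_lit 474) (nat_lit 457) (nat_lit 269)) (XT.lf (nat_lit 0) (nat_lit 7512840626) (nat_lit 1140) (nat_lit 16992168197) (nat_lit 76) (nat_lit 4467104083) (nat_lit 444) (nat_lit 5) (nat_lit 459) (nat_lit 5) (nat_lit 445) (nat_lit 5) (nat_lit 475) (nat_lit 457) (nat_lit 268))) (XT.nd (nat_lit 78) (nat_lit 912) (nat_lit 0) (XT.lf (nat_lit 0) (nat_lit 6450202618) (nat_lit 912) (nat_lit 5126813812) (nat_lit 988) (nat_lit 17864185720) (nat_lit 432) (nat_lit 5) (nat_lit 444) (nat_lit 5) (nat_lit 445) (nat_lit 5) (nat_lit 476) (nat_lit 457) (nat_lit 267)) (XT.lf (nat_lit 0) (nat_lit 815401456) (nat_lit 912) (nat_lit 15160288735) (nat_lit 988) (nat_lit 13944422706) (nat_lit 420) (nat_lit 5) (nat_lit 432) (nat_lit 5) (nat_lit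 433) (nat_lit 5) (nat_lit 477) (nat_lit 457) (nat_lit 266)))))) (XT.nd (nat_lit 546) (nat_lit 4332) (nat_lit 0) (XT.nd (nat_lit 234) (nat_lit 2508) (nat_lit 0) (XT.nd (nat_lit 78) (nat_lit 1672) (nat_lit 0) (XT.lf (nat_lit 0) (nat_lit 20723304596) (nat_lit 988) (nat_lit 4830203325) (nat_lit 76) (nat_lit 4855543706) (nat_lit 420) (nat_lit 5) (nat_lit 433) (nat_lit 5) (nat_lit 421) (nat_lit 5) (nat_lit 478) (nat_lit 457) (nat_lit 265)) (XT.nd (nat_lit 78) (nat_lit 836) (nat_lit 0) (XT.lf (nat_lit 0) (nat_lit 20333341642) (nat_lit 836) (nat_lit 5508731143) (nat_lit 912) (nat_lit 5066011491) (nat_lit 409) (nat_lit 5) (nat_lit 420) (nat_lit 5) (nat_lit 421) (nat_lit 5) (nat_lit 479) (nat_lit 457) (nat_lit 264)) (XT.lf (nat_lit 0) (nat_lit 14990064921) (nat_lit 836) (nat_lit 16348326984) (nat_lit 912) (nat_lit 79216496) (nat_lit 398) (nat_lit 5) (nat_lit 409) (nat_lit 5) (nat_lit 410) (nat_lit 5) (nat_lit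 480) (nat_lit 457) (nat_lit 263)))) (XT.nd (nat_lit 156) (nat_lit 760) (nat_lit 0) (XT.nd (nat_lit 78) (nat_lit 836) (nat_lit 0) (XT.lf (nat_lit 0) (nat_lit 5186203734) (nat_lit 912) (nat_lit 22390586834) (nat_lit 76) (nat_lit 4361064289) (nat_lit 386) (nat_lit 5) (nat_lit 398) (nat_lit 5) (nat_lit 387) (nat_lit 5) (nat_lit 481) (nat_lit 457) (nat_lit 262)) (XT.lf (nat_lit 0) (nat_lit 3991952376) (nat_lit 836) (nat_lit 6859475497) (nat_lit 912) (nat_lit 21617412245) (nat_lit 375) (nat_lit 5) (nat_lit 386) (nat_lit 5) (nat_lit 387) (nat_lit 5) (nat_lit 482) (nat_lit 457) (nat_lit 261))) (XT.nd (nat_lit 78) (nat_lit 760) (nat_lit 0) (XT.lf (nat_lit 0) (nat_lit 16929056024) (nat_lit 912) (nat_lit 1639804765) (nat_lit 76) (nat_lit 14442045432) (nat_lit 375) (nat_lit 5) (nat_lit 387) (nat_lit 5) (nat_lit 376) (nat_lit 5) (nat_lit 483) (nat_lit 457) (nat_lit 260)) (XT.lf (nat_lit 0) (nat_lit 23420255176)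 (nat_lit 836) (nat_lit 7286768966) (nat_lit 76) (nat_lit 2857585543) (nat_lit 365) (nat_lit 5) (nat_lit 376) (nat_lit 5) (nat_lit 366) (nat_lit 5) (nat_lit 484) (nat_lit 457) (nat_lit 259))))) (XT.nd (nat_lit 234) (nat_lit 2052) (nat_lit 0) (XT.nd (nat_lit 78) (nat_lit 1520) (nat_lit 0) (XT.lf (nat_lit 0) (nat_lit 21068423144) (nat_lit 760) (nat_lit 9305844927) (nat_lit 836) (nat_lit 3755294844) (nat_lit 355) (nat_lit 5) (nat_lit 365) (nat_lit 5) (nat_lit 366) (nat_lit 5) (nat_lit 485) (nat_lit 457) (nat_lit 258)) (XT.nd (nat_lit 78) (nat_lit 760) (nat_lit 0) (XT.lf (nat_lit 0) (nat_lit 3020799979) (nat_lit 760) (nat_lit 18943619772) (nat_lit 76) (nat_lit 12742029913) (nat_lit 345) (nat_lit 5) (nat_lit 355) (nat_lit 5) (nat_lit 346) (nat_lit 5) (nat_lit 486) (nat_lit 457) (nat_lit 257)) (XT.lf (nat_lit 0) (nat_lit 10165580230) (nat_lit 836) (nat_lit 24922034015) (nat_lit 76) (nat_lit 208204074) (nat_lit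 335) (nat_lit 5) (nat_lit 346) (nat_lit 5) (nat_lit 336) (nat_lit 5) (nat_lit 487) (nat_lit 457) (nat_lit 256)))) (XT.nd (nat_lit 156) (nat_lit 1368) (nat_lit 0) (XT.nd (nat_lit 78) (nat_lit 0) (nat_lit 0) (XT.lf (nat_lit 0) (nat_lit 4841078231) (nat_lit 684) (nat_lit 12987318555) (nat_lit 760) (nat_lit 18068397583) (nat_lit 326) (nat_lit 5) (nat_lit 335) (nat_lit 5) (nat_lit 336) (nat_lit 5) (nat_lit 488) (nat_lit 457) (nat_lit 255)) (XT.lf (nat_lit 0) (nat_lit 25950805767) (nat_lit 760) (nat_lit 743183148) (nat_lit 76) (nat_lit 9817216816) (nat_lit 326) (nat_lit 5) (nat_lit 336) (nat_lit 5) (nat_lit 327) (nat_lit 5) (nat_lit 489) (nat_lit 457) (nat_lit 254))) (XT.nd (nat_lit 78) (nat_lit 684) (nat_lit 0) (XT.lf (nat_lit 0) (nat_lit 30791446098) (nat_lit 684) (nat_lit 3808558707) (nat_lit 760) (nat_lit 2538382454) (nat_lit 317) (nat_lit 5) (nat_lit 326) (nat_lit 5) (nat_lit 327) (nat_lit 5) (nat_lit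 490) (nat_lit 457) (nat_lit 253)) (XT.lf (nat_lit 0) (nat_lit 5947871817) (nat_lit 684) (nat_lit 12115097461) (nat_lit 76) (nat_lit 19714698784) (nat_lit 308) (nat_lit 5) (nat_lit 317) (nat_lit 5) (nat_lit 309) (nat_lit 5) (nat_lit 491) (nat_lit 457) (nat_lit 252))))))) (XT.nd (nat_lit 59904) (nat_lit 0) (nat_lit 18924) (XT.nd (nat_lit 468) (nat_lit 3268) (nat_lit 0) (XT.nd (nat_lit 234) (nat_lit 1292) (nat_lit 0) (XT.nd (nat_lit 78) (nat_lit 1216) (nat_lit 0) (XT.lf (nat_lit 0) (nat_lit 14889505161) (nat_lit 760) (nat_lit 17962575721) (nat_lit 76) (nat_lit 5579005438) (nat_lit 299) (nat_lit 5) (nat_lit 309) (nat_lit 5) (nat_lit 300) (nat_lit 5) (nat_lit 492) (nat_lit 457) (nat_lit 251)) (XT.nd (nat_lit 78) (nat_lit 608) (nat_lit 0) (XT.lf (nat_lit 0) (nat_lit 15166330338) (nat_lit 608) (nat_lit 9231508498) (nat_lit 684) (nat_lit 14700299427) (nat_lit 291) (nat_lit 5) (nat_lit 299) (nat_lit 5) (nat_lit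 300) (nat_lit 5) (nat_lit 493) (nat_lit 457) (nat_lit 250)) (XT.lf (nat_lit 0) (nat_lit 9777383642) (nat_lit 608) (nat_lit 24694685860) (nat_lit 684) (nat_lit 5307519481) (nat_lit 283) (nat_lit 5) (nat_lit 291) (nat_lit 5) (nat_lit 292) (nat_lit 5) (nat_lit 494) (nat_lit 457) (nat_lit 249)))) (XT.nd (nat_lit 78) (nat_lit 608) (nat_lit 0) (XT.lf (nat_lit 0) (nat_lit 4308330206) (nat_lit 608) (nat_lit 251055131) (nat_lit 684) (nat_lit 35916538644) (nat_lit 274) (nat_lit 5) (nat_lit 282) (nat_lit 5) (nat_lit 283) (nat_lit 5) (nat_lit 495) (nat_lit 457) (nat_lit 248)) (XT.nd (nat_lit 78) (nat_lit 608) (nat_lit 0) (XT.lf (nat_lit 0) (nat_lit 15013815616) (nat_lit 684) (nat_lit 1333098158) (nat_lit 76) (nat_lit 24838261213) (nat_lit 274) (nat_lit 5) (nat_lit 283) (nat_lit 5) (nat_lit 275) (nat_lit 5) (nat_lit 496) (nat_lit 457) (nat_lit 247)) (XT.lf (nat_lit 0) (nat_lit 26066006333) (nat_lit 684) (nat_lit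 6969864715) (nat_lit 76) (nat_lit 8874150068) (nat_lit 266) (nat_lit 5) (nat_lit 275) (nat_lit 5) (nat_lit 267) (nat_lit 5) (nat_lit 497) (nat_lit 457) (nat_lit 246))))) (XT.nd (nat_lit 234) (nat_lit 1596) (nat_lit 0) (XT.nd (nat_lit 78) (nat_lit 1140) (nat_lit 0) (XT.lf (nat_lit 0) (nat_lit 29942684493) (nat_lit 532) (nat_lit 7816783780) (nat_lit 608) (nat_lit 4890950384) (nat_lit 259) (nat_lit 5) (nat_lit 266) (nat_lit 5) (nat_lit 267) (nat_lit 5) (nat_lit 498) (nat_lit 457) (nat_lit 245)) (XT.nd (nat_lit 78) (nat_lit 532) (nat_lit 0) (XT.lf (nat_lit 0) (nat_lit 6632760549) (nat_lit 608) (nat_lit 18600618344) (nat_lit 76) (nat_lit 18172302111) (nat_lit 251) (nat_lit 5) (nat_lit 259) (nat_lit 5) (nat_lit 252) (nat_lit 5) (nat_lit 499) (nat_lit 457) (nat_lit 244)) (XT.lf (nat_lit 0) (nat_lit 18705196675) (nat_lit 608) (nat_lit 24580725051) (nat_lit 76) (nat_lit 891643788) (nat_lit 244) (nat_lit 5)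 (nat_lit 252) (nat_lit 5) (nat_lit 245) (nat_lit 5) (nat_lit 500) (nat_lit 457) (nat_lit 243)))) (XT.nd (nat_lit 156) (nat_lit 608) (nat_lit 0) (XT.nd (nat_lit 78) (nat_lit 456) (nat_lit 0) (XT.lf (nat_lit 0) (nat_lit 14237881144) (nat_lit 532) (nat_lit 17287034264) (nat_lit 608) (nat_lit 13439989083) (nat_lit 237) (nat_lit 5) (nat_lit 244) (nat_lit 5) (nat_lit 245) (nat_lit 5) (nat_lit 501) (nat_lit 457) (nat_lit 242)) (XT.lf (nat_lit 0) (nat_lit 8834107349) (nat_lit 456) (nat_lit 36178868509) (nat_lit 532) (nat_lit 757212898) (nat_lit 231) (nat_lit 5) (nat_lit 237) (nat_lit 5) (nat_lit 238) (nat_lit 5) (nat_lit 502) (nat_lit 457) (nat_lit 241))) (XT.nd (nat_lit 58968) (nat_lit 0) (nat_lit 18848) (XT.lf (nat_lit 0) (nat_lit 3248953100) (nat_lit 532) (nat_lit 9239129098) (nat_lit 608) (nat_lit 34103082852) (nat_lit 223) (nat_lit 5) (nat_lit 230) (nat_lit 5) (nat_lit 231) (nat_lit 5) (nat_lit 503) (nat_lit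 457) (nat_lit 240)) (XT.lf (nat_lit 0) (nat_lit 82766989) (nat_lit 1900) (nat_lit 5618641274) (nat_lit 1900) (nat_lit 5618641274) (nat_lit 471) (nat_lit 3) (nat_lit 496) (nat_lit 3) (nat_lit 496) (nat_lit 5) (nat_lit 458) (nat_lit 458) (nat_lit 284)))))) (XT.nd (nat_lit 546) (nat_lit 0) (nat_lit 380) (XT.nd (nat_lit 234) (nat_lit 0) (nat_lit 152) (XT.nd (nat_lit 78) (nat_lit 0) (nat_lit 0) (XT.lf (nat_lit 0) (nat_lit 431968709) (nat_lit 1824) (nat_lit 17329058671) (nat_lit 1900) (nat_lit 5213382453) (nat_lit 472) (nat_lit 5) (nat_lit 496) (nat_lit 5) (nat_lit 497) (nat_lit 5) (nat_lit 459) (nat_lit 458) (nat_lit 283)) (XT.nd (nat_lit 78) (nat_lit 0) (nat_lit 76) (XT.lf (nat_lit 0) (nat_lit 851778978) (nat_lit 1824) (nat_lit 209768701) (nat_lit 1900) (nat_lit 22254295045) (nat_lit 472) (nat_lit 5) (nat_lit 496) (nat_lit 5) (nat_lit 497) (nat_lit 5) (nat_lit 460) (nat_lit 458) (nat_lit 282)) (XT.lf (nat_lit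 0) (nat_lit 1497042881) (nat_lit 1824) (nat_lit 6120292091) (nat_lit 1900) (nat_lit 16045926884) (nat_lit 473) (nat_lit 5) (nat_lit 497) (nat_lit 5) (nat_lit 498) (nat_lit 5) (nat_lit 461) (nat_lit 458) (nat_lit 281)))) (XT.nd (nat_lit 156) (nat_lit 0) (nat_lit 76) (XT.nd (nat_lit 78) (nat_lit 0) (nat_lit 76) (XT.lf (nat_lit 0) (nat_lit 2303798405) (nat_lit 1824) (nat_lit 12126864190) (nat_lit 1900) (nat_lit 9587598724) (nat_lit 474) (nat_lit 5) (nat_lit 498) (nat_lit 5) (nat_lit 499) (nat_lit 5) (nat_lit 462) (nat_lit 458) (nat_lit 280)) (XT.lf (nat_lit 0) (nat_lit 3279493145) (nat_lit 1824) (nat_lit 18230586173) (nat_lit 1900) (nat_lit 2870937135) (nat_lit 475) (nat_lit 5) (nat_lit 499) (nat_lit 5) (nat_lit 500) (nat_lit 5) (nat_lit 463) (nat_lit 458) (nat_lit 279))) (XT.nd (nat_lit 78) (nat_lit 0) (nat_lit 76) (XT.lf (nat_lit 76) (nat_lit 291581029) (nat_lit 0) (nat_lit 4167289294) (nat_lit 1900)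 (nat_lit 20292296091) (nat_lit 476) (nat_lit 5) (nat_lit 475) (nat_lit 5) (nat_lit 500) (nat_lit 5) (nat_lit 464) (nat_lit 458) (nat_lit 278)) (XT.lf (nat_lit 0) (nat_lit 5880383630) (nat_lit 1824) (nat_lit 5605034063) (nat_lit 1900) (nat_lit 13642868477) (nat_lit 476) (nat_lit 5) (nat_lit 500) (nat_lit 5) (nat_lit 501) (nat_lit 5) (nat_lit 465) (nat_lit 458) (nat_lit 277))))) (XT.nd (nat_lit 234) (nat_lit 0) (nat_lit 152) (XT.nd (nat_lit 78) (nat_lit 0) (nat_lit 0) (XT.lf (nat_lit 0) (nat_lit 7499021664) (nat_lit 1824) (nat_lit 11590458992) (nat_lit 1900) (nat_lit 6424149659) (nat_lit 477) (nat_lit 5) (nat_lit 501) (nat_lit 5) (nat_lit 502) (nat_lit 5) (nat_lit 466) (nat_lit 458) (nat_lit 276)) (XT.nd (nat_lit 78) (nat_lit 0) (nat_lit 76) (XT.lf (nat_lit 76) (nat_lit 8230814957) (nat_lit 0) (nat_lit 1097724373) (nat_lit 1900) (nat_lit 16578749416) (nat_lit 478) (nat_lit 5) (nat_lit 477) (nat_lit 5)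 (nat_lit 502) (nat_lit 5) (nat_lit 467) (nat_lit 458) (nat_lit 275)) (XT.lf (nat_lit 76) (nat_lit 2407751380) (nat_lit 0) (nat_lit 9007080015) (nat_lit 1900) (nat_lit 14893888118) (nat_lit 479) (nat_lit 5) (nat_lit 478) (nat_lit 5) (nat_lit 503) (nat_lit 5) (nat_lit 468) (nat_lit 458) (nat_lit 274)))) (XT.nd (nat_lit 156) (nat_lit 0) (nat_lit 76) (XT.nd (nat_lit 78) (nat_lit 0) (nat_lit 76) (XT.lf (nat_lit 0) (nat_lit 13747525395) (nat_lit 1824) (nat_lit 3457572230) (nat_lit 1900) (nat_lit 9513419664) (nat_lit 479) (nat_lit 5) (nat_lit 503) (nat_lit 5) (nat_lit 504) (nat_lit 5) (nat_lit 469) (nat_lit 458) (nat_lit 273)) (XT.lf (nat_lit 0) (nat_lit 16329523945) (nat_lit 1824) (nat_lit 9378930456) (nat_lit 1900) (nat_lit 1428568461) (nat_lit 480) (nat_lit 5) (nat_lit 504) (nat_lit 5) (nat_lit 505) (nat_lit 5) (nat_lit 470) (nat_lit 458) (nat_lit 272))) (XT.nd (nat_lit 78) (nat_lit 0) (nat_lit 76) (XT.lf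 (nat_lit 76) (nat_lit 12129517621) (nat_lit 0) (nat_lit 7071338811) (nat_lit 1900) (nat_lit 8362990021) (nat_lit 481) (nat_lit 5) (nat_lit 480) (nat_lit 5) (nat_lit 505) (nat_lit 5) (nat_lit 471) (nat_lit 458) (nat_lit 271)) (XT.lf (nat_lit 76) (nat_lit 6409984387) (nat_lit 0) (nat_lit 15927279936) (nat_lit 1900) (nat_lit 5662632040) (nat_lit 482) (nat_lit 5) (nat_lit 481) (nat_lit 5) (nat_lit 506) (nat_lit 5) (nat_lit 472) (nat_lit 458) (nat_lit 270))))))))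
noncomputable def xc113 : XT := (XT.nd (nat_lit 2106) (nat_lit 2128) (nat_lit 0) (XT.nd (nat_lit 1014) (nat_lit 8056) (nat_lit 0) (XT.nd (nat_lit 468) (nat_lit 4180) (nat_lit 0) (XT.nd (nat_lit 234) (nat_lit 2812) (nat_lit 0) (XT.nd (nat_lit 78) (nat_lit 1900) (nat_lit 0) (XT.lf (nat_lit 76) (nat_lit 608813905) (nat_lit 0) (nat_lit 25130998092) (nat_lit 1900) (nat_lit 2705775134) (nat_lit 483) (nat_lit 5) (nat_lit 482) (nat_lit 5) (nat_lit 507) (nat_lit 5) (nat_lit 473) (nat_lit 458) (nat_lit 269)) (XT.nd (nat_lit 78) (nat_lit 0) (nat_lit 76) (XT.lf (nat_lit 0) (nat_lit 583958104) (nat_lit 1900) (nat_lit 5246757655) (nat_lit 1976) (nat_lit 23068916496) (nat_lit 457) (nat_lit 5) (nat_lit 482) (nat_lit 5) (nat_lit 483) (nat_lit 5) (nat_lit 474) (nat_lit 458) (nat_lit 268)) (XT.lf (nat_lit 0) (nat_lit 4141360981) (nat_lit 1900) (nat_lit 11218982293) (nat_lit 76) (nat_lit 14002483271) (nat_lit 458) (nat_lit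 5) (nat_lit 483) (nat_lit 5) (nat_lit 459) (nat_lit 5) (nat_lit 475) (nat_lit 458) (nat_lit 267)))) (XT.nd (nat_lit 78) (nat_lit 1824) (nat_lit 0) (XT.lf (nat_lit 0) (nat_lit 7987213705) (nat_lit 1140) (nat_lit 17276573129) (nat_lit 76) (nat_lit 4572495554) (nat_lit 444) (nat_lit 5) (nat_lit 459) (nat_lit 5) (nat_lit 445) (nat_lit 5) (nat_lit 476) (nat_lit 458) (nat_lit 266)) (XT.nd (nat_lit 78) (nat_lit 912) (nat_lit 0) (XT.lf (nat_lit 0) (nat_lit 6865412610) (nat_lit 912) (nat_lit 5302089549) (nat_lit 988) (nat_lit 18152058815) (nat_lit 432) (nat_lit 5) (nat_lit 444) (nat_lit 5) (nat_lit 445) (nat_lit 5) (nat_lit 477) (nat_lit 458) (nat_lit 265)) (XT.lf (nat_lit 0) (nat_lit 1062905787) (nat_lit 912) (nat_lit 15629460364) (nat_lit 988) (nat_lit 14120588692) (nat_lit 420) (nat_lit 5) (nat_lit 432) (nat_lit 5) (nat_lit 433) (nat_lit 5) (nat_lit 478) (nat_lit 458) (nat_lit 264))))) (XT.nd (nat_lit 234)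 (nat_lit 2432) (nat_lit 0) (XT.nd (nat_lit 78) (nat_lit 1748) (nat_lit 0) (XT.lf (nat_lit 0) (nat_lit 21575403734) (nat_lit 988) (nat_lit 4753850218) (nat_lit 76) (nat_lit 4987448276) (nat_lit 420) (nat_lit 5) (nat_lit 433) (nat_lit 5) (nat_lit 421) (nat_lit 5) (nat_lit 479) (nat_lit 458) (nat_lit 263)) (XT.nd (nat_lit 78) (nat_lit 912) (nat_lit 0) (XT.lf (nat_lit 0) (nat_lit 21161011430) (nat_lit 836) (nat_lit 5681426114) (nat_lit 912) (nat_lit 4988374638) (nat_lit 409) (nat_lit 5) (nat_lit 420) (nat_lit 5) (nat_lit 421) (nat_lit 5) (nat_lit 480) (nat_lit 458) (nat_lit 262)) (XT.lf (nat_lit 0) (nat_lit 140864382) (nat_lit 912) (nat_lit 16698258980) (nat_lit 76) (nat_lit 15516584176) (nat_lit 397) (nat_lit 5) (nat_lit 409) (nat_lit 5) (nat_lit 398) (nat_lit 5) (nat_lit 481) (nat_lit 458) (nat_lit 261)))) (XT.nd (nat_lit 156) (nat_lit 760) (nat_lit 0) (XT.nd (nat_lit 78) (nat_lit 836) (nat_lit 0) (XT.lf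 (nat_lit 0) (nat_lit 5558154845) (nat_lit 912) (nat_lit 22839990169) (nat_lit 76) (nat_lit 4493506572) (nat_lit 386) (nat_lit 5) (nat_lit 398) (nat_lit 5) (nat_lit 387) (nat_lit 5) (nat_lit 482) (nat_lit 458) (nat_lit 260)) (XT.lf (nat_lit 0) (nat_lit 4330418432) (nat_lit 836) (nat_lit 7058035377) (nat_lit 912) (nat_lit 22050210573) (nat_lit 375) (nat_lit 5) (nat_lit 386) (nat_lit 5) (nat_lit 387) (nat_lit 5) (nat_lit 483) (nat_lit 458) (nat_lit 259))) (XT.nd (nat_lit 78) (nat_lit 760) (nat_lit 0) (XT.lf (nat_lit 0) (nat_lit 17642296642) (nat_lit 912) (nat_lit 1472589665) (nat_lit 76) (nat_lit 14882228772) (nat_lit 375) (nat_lit 5) (nat_lit 387) (nat_lit 5) (nat_lit 376) (nat_lit 5) (nat_lit 484) (nat_lit 458) (nat_lit 258)) (XT.lf (nat_lit 0) (nat_lit 24323711173) (nat_lit 836) (nat_lit 7288526501) (nat_lit 76) (nat_lit 2955282705) (nat_lit 365) (nat_lit 5) (nat_lit 376) (nat_lit 5) (nat_lit 366)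 (nat_lit 5) (nat_lit 485) (nat_lit 458) (nat_lit 257)))))) (XT.nd (nat_lit 546) (nat_lit 3724) (nat_lit 0) (XT.nd (nat_lit 234) (nat_lit 2052) (nat_lit 0) (XT.nd (nat_lit 78) (nat_lit 1520) (nat_lit 0) (XT.lf (nat_lit 0) (nat_lit 21913803312) (nat_lit 760) (nat_lit 9568076255) (nat_lit 836) (nat_lit 3667632246) (nat_lit 355) (nat_lit 5) (nat_lit 365) (nat_lit 5) (nat_lit 366) (nat_lit 5) (nat_lit 486) (nat_lit 458) (nat_lit 256)) (XT.nd (nat_lit 78) (nat_lit 760) (nat_lit 0) (XT.lf (nat_lit 0) (nat_lit 3304863831) (nat_lit 760) (nat_lit 19295715465) (nat_lit 76) (nat_lit 13143185237) (nat_lit 345) (nat_lit 5) (nat_lit 355) (nat_lit 5) (nat_lit 346) (nat_lit 5) (nat_lit 487) (nat_lit 458) (nat_lit 255)) (XT.lf (nat_lit 0) (nat_lit 10659887039) (nat_lit 836) (nat_lit 25453349358) (nat_lit 76) (nat_lit 237660146) (nat_lit 335) (nat_lit 5) (nat_lit 346) (nat_lit 5) (nat_lit 336) (nat_lit 5) (nat_lit 488)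 (nat_lit 458) (nat_lit 254)))) (XT.nd (nat_lit 156) (nat_lit 1368) (nat_lit 0) (XT.nd (nat_lit 78) (nat_lit 0) (nat_lit 0) (XT.lf (nat_lit 0) (nat_lit 5199146304) (nat_lit 684) (nat_lit 13349308918) (nat_lit 760) (nat_lit 18421529588) (nat_lit 326) (nat_lit 5) (nat_lit 335) (nat_lit 5) (nat_lit 336) (nat_lit 5) (nat_lit 489) (nat_lit 458) (nat_lit 253)) (XT.lf (nat_lit 0) (nat_lit 26909316270) (nat_lit 760) (nat_lit 555410943) (nat_lit 76) (nat_lit 10138205973) (nat_lit 326) (nat_lit 5) (nat_lit 336) (nat_lit 5) (nat_lit 327) (nat_lit 5) (nat_lit 490) (nat_lit 458) (nat_lit 252))) (XT.nd (nat_lit 78) (nat_lit 684) (nat_lit 0) (XT.lf (nat_lit 0) (nat_lit 31921849081) (nat_lit 684) (nat_lit 3892241649) (nat_lit 760) (nat_lit 2434917704) (nat_lit 317) (nat_lit 5) (nat_lit 326) (nat_lit 5) (nat_lit 327) (nat_lit 5) (nat_lit 491) (nat_lit 458) (nat_lit 251)) (XT.lf (nat_lit 0) (nat_lit 6299949736) (nat_lit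 684) (nat_lit 12269649793) (nat_lit 76) (nat_lit 20337917430) (nat_lit 308) (nat_lit 5) (nat_lit 317) (nat_lit 5) (nat_lit 309) (nat_lit 5) (nat_lit 492) (nat_lit 458) (nat_lit 250))))) (XT.nd (nat_lit 234) (nat_lit 1824) (nat_lit 0) (XT.nd (nat_lit 78) (nat_lit 1216) (nat_lit 0) (XT.lf (nat_lit 0) (nat_lit 15506339962) (nat_lit 760) (nat_lit 18292766221) (nat_lit 76) (nat_lit 5781501667) (nat_lit 299) (nat_lit 5) (nat_lit 309) (nat_lit 5) (nat_lit 300) (nat_lit 5) (nat_lit 493) (nat_lit 458) (nat_lit 249)) (XT.nd (nat_lit 78) (nat_lit 608) (nat_lit 0) (XT.lf (nat_lit 0) (nat_lit 15826621325) (nat_lit 608) (nat_lit 9469679459) (nat_lit 684) (nat_lit 14971443260) (nat_lit 291) (nat_lit 5) (nat_lit 299) (nat_lit 5) (nat_lit 300) (nat_lit 5) (nat_lit 494) (nat_lit 458) (nat_lit 248)) (XT.lf (nat_lit 0) (nat_lit 10275712003) (nat_lit 608) (nat_lit 25393771528) (nat_lit 684) (nat_lit 5300220479) (nat_lit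 283) (nat_lit 5) (nat_lit 291) (nat_lit 5) (nat_lit 292) (nat_lit 5) (nat_lit 495) (nat_lit 458) (nat_lit 247)))) (XT.nd (nat_lit 156) (nat_lit 1140) (nat_lit 0) (XT.nd (nat_lit 78) (nat_lit 0) (nat_lit 0) (XT.lf (nat_lit 0) (nat_lit 4641416872) (nat_lit 608) (nat_lit 215627436) (nat_lit 684) (nat_lit 36829932607) (nat_lit 274) (nat_lit 5) (nat_lit 282) (nat_lit 5) (nat_lit 283) (nat_lit 5) (nat_lit 496) (nat_lit 458) (nat_lit 246)) (XT.lf (nat_lit 0) (nat_lit 15620692542) (nat_lit 684) (nat_lit 1172331273) (nat_lit 76) (nat_lit 25624570146) (nat_lit 274) (nat_lit 5) (nat_lit 283) (nat_lit 5) (nat_lit 275) (nat_lit 5) (nat_lit 497) (nat_lit 458) (nat_lit 245))) (XT.nd (nat_lit 78) (nat_lit 532) (nat_lit 0) (XT.lf (nat_lit 0) (nat_lit 27001461864) (nat_lit 684) (nat_lit 6978675067) (nat_lit 76) (nat_lit 9184108491) (nat_lit 266) (nat_lit 5) (nat_lit 275) (nat_lit 5) (nat_lit 267) (nat_lit 5) (nat_lit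 498) (nat_lit 458) (nat_lit 244)) (XT.lf (nat_lit 0) (nat_lit 31038001222) (nat_lit 532) (nat_lit 8004535574) (nat_lit 608) (nat_lit 4884382108) (nat_lit 259) (nat_lit 5) (nat_lit 266) (nat_lit 5) (nat_lit 267) (nat_lit 5) (nat_lit 499) (nat_lit 458) (nat_lit 243))))))) (XT.nd (nat_lit 60060) (nat_lit 0) (nat_lit 12616) (XT.nd (nat_lit 59514) (nat_lit 0) (nat_lit 18392) (XT.nd (nat_lit 234) (nat_lit 456) (nat_lit 0) (XT.nd (nat_lit 78) (nat_lit 1064) (nat_lit 0) (XT.lf (nat_lit 0) (nat_lit 6980204181) (nat_lit 608) (nat_lit 18960153286) (nat_lit 76) (nat_lit 18764518448) (nat_lit 251) (nat_lit 5) (nat_lit 259) (nat_lit 5) (nat_lit 252) (nat_lit 5) (nat_lit 500) (nat_lit 458) (nat_lit 242)) (XT.nd (nat_lit 78) (nat_lit 532) (nat_lit 0) (XT.lf (nat_lit 0) (nat_lit 19412080786) (nat_lit 608) (nat_lit 25120292861) (nat_lit 76) (nat_lit 967598147) (nat_lit 244) (nat_lit 5) (nat_lit 252) (nat_lit 5) (nat_lit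 245) (nat_lit 5) (nat_lit 501) (nat_lit 458) (nat_lit 241)) (XT.lf (nat_lit 0) (nat_lit 14859661574) (nat_lit 532) (nat_lit 17753748755) (nat_lit 608) (nat_lit 13697580406) (nat_lit 237) (nat_lit 5) (nat_lit 244) (nat_lit 5) (nat_lit 245) (nat_lit 5) (nat_lit 502) (nat_lit 458) (nat_lit 240)))) (XT.nd (nat_lit 59124) (nat_lit 0) (nat_lit 18316) (XT.nd (nat_lit 59046) (nat_lit 0) (nat_lit 18240) (XT.lf (nat_lit 0) (nat_lit 9293099693) (nat_lit 456) (nat_lit 37210441714) (nat_lit 532) (nat_lit 636943716) (nat_lit 231) (nat_lit 5) (nat_lit 237) (nat_lit 5) (nat_lit 238) (nat_lit 5) (nat_lit 503) (nat_lit 458) (nat_lit 239)) (XT.lf (nat_lit 0) (nat_lit 276169596) (nat_lit 1900) (nat_lit 5689825728) (nat_lit 1900) (nat_lit 5689825728) (nat_lit 471) (nat_lit 3) (nat_lit 496) (nat_lit 3) (nat_lit 496) (nat_lit 5) (nat_lit 459) (nat_lit 459) (nat_lit 282))) (XT.nd (nat_lit 78) (nat_lit 0) (nat_lit 0) (XT.lf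 (nat_lit 0) (nat_lit 815718273) (nat_lit 1824) (nat_lit 17648707637) (nat_lit 1900) (nat_lit 5191777926) (nat_lit 472) (nat_lit 5) (nat_lit 496) (nat_lit 5) (nat_lit 497) (nat_lit 5) (nat_lit 460) (nat_lit 459) (nat_lit 281)) (XT.lf (nat_lit 0) (nat_lit 1237323126) (nat_lit 1824) (nat_lit 21670699) (nat_lit 1900) (nat_lit 22749102537) (nat_lit 472) (nat_lit 5) (nat_lit 496) (nat_lit 5) (nat_lit 497) (nat_lit 5) (nat_lit 461) (nat_lit 459) (nat_lit 280))))) (XT.nd (nat_lit 234) (nat_lit 0) (nat_lit 152) (XT.nd (nat_lit 78) (nat_lit 0) (nat_lit 76) (XT.lf (nat_lit 0) (nat_lit 1891665773) (nat_lit 1824) (nat_lit 6104591774) (nat_lit 1900) (nat_lit 16369886741) (nat_lit 473) (nat_lit 5) (nat_lit 497) (nat_lit 5) (nat_lit 498) (nat_lit 5) (nat_lit 462) (nat_lit 459) (nat_lit 279)) (XT.nd (nat_lit 78) (nat_lit 0) (nat_lit 76) (XT.lf (nat_lit 0) (nat_lit 2712771600) (nat_lit 1824) (nat_lit 12286818396) (nat_lit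 1900) (nat_lit 9732401403) (nat_lit 474) (nat_lit 5) (nat_lit 498) (nat_lit 5) (nat_lit 499) (nat_lit 5) (nat_lit 463) (nat_lit 459) (nat_lit 278)) (XT.lf (nat_lit 0) (nat_lit 3708291729) (nat_lit 1824) (nat_lit 18569465356) (nat_lit 1900) (nat_lit 2828061610) (nat_lit 475) (nat_lit 5) (nat_lit 499) (nat_lit 5) (nat_lit 500) (nat_lit 5) (nat_lit 464) (nat_lit 459) (nat_lit 277)))) (XT.nd (nat_lit 156) (nat_lit 0) (nat_lit 152) (XT.nd (nat_lit 78) (nat_lit 0) (nat_lit 76) (XT.lf (nat_lit 76) (nat_lit 504991686) (nat_lit 0) (nat_lit 4409763643) (nat_lit 1900) (nat_lit 20572484305) (nat_lit 476) (nat_lit 5) (nat_lit 475) (nat_lit 5) (nat_lit 500) (nat_lit 5) (nat_lit 465) (nat_lit 459) (nat_lit 276)) (XT.lf (nat_lit 0) (nat_lit 6368791543) (nat_lit 1824) (nat_lit 5567468970) (nat_lit 1900) (nat_lit 13939615485) (nat_lit 476) (nat_lit 5) (nat_lit 500) (nat_lit 5) (nat_lit 501) (nat_lit 5) (nat_lit 466)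 (nat_lit 459) (nat_lit 275))) (XT.nd (nat_lit 78) (nat_lit 0) (nat_lit 0) (XT.lf (nat_lit 0) (nat_lit 8027554179) (nat_lit 1824) (nat_lit 11729030161) (nat_lit 1900) (nat_lit 6516365367) (nat_lit 477) (nat_lit 5) (nat_lit 501) (nat_lit 5) (nat_lit 502) (nat_lit 5) (nat_lit 467) (nat_lit 459) (nat_lit 274)) (XT.lf (nat_lit 76) (nat_lit 8683488916) (nat_lit 0) (nat_lit 1220962713) (nat_lit 1900) (nat_lit 16774116909) (nat_lit 478) (nat_lit 5) (nat_lit 477) (nat_lit 5) (nat_lit 502) (nat_lit 5) (nat_lit 468) (nat_lit 459) (nat_lit 273)))))) (XT.nd (nat_lit 546) (nat_lit 4560) (nat_lit 0) (XT.nd (nat_lit 234) (nat_lit 1596) (nat_lit 0) (XT.nd (nat_lit 78) (nat_lit 0) (nat_lit 76) (XT.lf (nat_lit 76) (nat_lit 2688814728) (nat_lit 0) (nat_lit 9356681350) (nat_lit 1900) (nat_lit 15046703394) (nat_lit 479) (nat_lit 5) (nat_lit 478) (nat_lit 5) (nat_lit 503) (nat_lit 5) (nat_lit 469) (nat_lit 459) (nat_lit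 272)) (XT.nd (nat_lit 78) (nat_lit 0) (nat_lit 76) (XT.lf (nat_lit 0) (nat_lit 14439275715) (nat_lit 1824) (nat_lit 3352437379) (nat_lit 1900) (nat_lit 9722756492) (nat_lit 479) (nat_lit 5) (nat_lit 503) (nat_lit 5) (nat_lit 504) (nat_lit 5) (nat_lit 470) (nat_lit 459) (nat_lit 271)) (XT.lf (nat_lit 0) (nat_lit 17091497296) (nat_lit 1824) (nat_lit 9448922859) (nat_lit 1900) (nat_lit 1405255399) (nat_lit 480) (nat_lit 5) (nat_lit 504) (nat_lit 5) (nat_lit 505) (nat_lit 5) (nat_lit 471) (nat_lit 459) (nat_lit 270)))) (XT.nd (nat_lit 156) (nat_lit 1748) (nat_lit 0) (XT.nd (nat_lit 78) (nat_lit 0) (nat_lit 76) (XT.lf (nat_lit 76) (nat_lit 12701349344) (nat_lit 0) (nat_lit 7341045656) (nat_lit 1900) (nat_lit 8343040821) (nat_lit 481) (nat_lit 5) (nat_lit 480) (nat_lit 5) (nat_lit 505) (nat_lit 5) (nat_lit 472) (nat_lit 459) (nat_lit 269)) (XT.lf (nat_lit 76) (nat_lit 6812463748) (nat_lit 0) (nat_lit 16453699747)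 (nat_lit 1900) (nat_lit 5568538825) (nat_lit 482) (nat_lit 5) (nat_lit 481) (nat_lit 5) (nat_lit 506) (nat_lit 5) (nat_lit 473) (nat_lit 459) (nat_lit 268))) (XT.nd (nat_lit 78) (nat_lit 1900) (nat_lit 0) (XT.lf (nat_lit 76) (nat_lit 839265384) (nat_lit 0) (nat_lit 25925056194) (nat_lit 1900) (nat_lit 2529571999) (nat_lit 483) (nat_lit 5) (nat_lit 482) (nat_lit 5) (nat_lit 507) (nat_lit 5) (nat_lit 474) (nat_lit 459) (nat_lit 267)) (XT.lf (nat_lit 0) (nat_lit 848079616) (nat_lit 1900) (nat_lit 5194862159) (nat_lit 1976) (nat_lit 23718733245) (nat_lit 457) (nat_lit 5) (nat_lit 482) (nat_lit 5) (nat_lit 483) (nat_lit 5) (nat_lit 475) (nat_lit 459) (nat_lit 266))))) (XT.nd (nat_lit 234) (nat_lit 2660) (nat_lit 0) (XT.nd (nat_lit 78) (nat_lit 1976) (nat_lit 0) (XT.lf (nat_lit 0) (nat_lit 4506132532) (nat_lit 1900) (nat_lit 11344593978) (nat_lit 76) (nat_lit 14388160481) (nat_lit 458) (nat_lit 5) (nat_lit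 483) (nat_lit 5) (nat_lit 459) (nat_lit 5) (nat_lit 476) (nat_lit 459) (nat_lit 265)) (XT.nd (nat_lit 78) (nat_lit 912) (nat_lit 0) (XT.lf (nat_lit 0) (nat_lit 8461525055) (nat_lit 1140) (nat_lit 17582446802) (nat_lit 76) (nat_lit 4682691768) (nat_lit 444) (nat_lit 5) (nat_lit 459) (nat_lit 5) (nat_lit 445) (nat_lit 5) (nat_lit 477) (nat_lit 459) (nat_lit 264)) (XT.lf (nat_lit 0) (nat_lit 7280352190) (nat_lit 912) (nat_lit 5481391015) (nat_lit 988) (nat_lit 18462807331) (nat_lit 432) (nat_lit 5) (nat_lit 444) (nat_lit 5) (nat_lit 445) (nat_lit 5) (nat_lit 478) (nat_lit 459) (nat_lit 263)))) (XT.nd (nat_lit 156) (nat_lit 1748) (nat_lit 0) (XT.nd (nat_lit 78) (nat_lit 0) (nat_lit 0) (XT.lf (nat_lit 0) (nat_lit 1305031709) (nat_lit 912) (nat_lit 16111882648) (nat_lit 988) (nat_lit 14315941016) (nat_lit 420) (nat_lit 5) (nat_lit 432) (nat_lit 5) (nat_lit 433) (nat_lit 5) (nat_lit 479) (nat_lit 459) (nat_lit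 262)) (XT.lf (nat_lit 0) (nat_lit 22439839944) (nat_lit 988) (nat_lit 4687907702) (nat_lit 76) (nat_lit 5124099964) (nat_lit 420) (nat_lit 5) (nat_lit 433) (nat_lit 5) (nat_lit 421) (nat_lit 5) (nat_lit 480) (nat_lit 459) (nat_lit 261))) (XT.nd (nat_lit 78) (nat_lit 912) (nat_lit 0) (XT.lf (nat_lit 0) (nat_lit 22001016190) (nat_lit 836) (nat_lit 5858875247) (nat_lit 912) (nat_lit 4921589646) (nat_lit 409) (nat_lit 5) (nat_lit 420) (nat_lit 5) (nat_lit 421) (nat_lit 5) (nat_lit 481) (nat_lit 459) (nat_lit 260)) (XT.lf (nat_lit 0) (nat_lit 353769045) (nat_lit 912) (nat_lit 16990345359) (nat_lit 76) (nat_lit 15978079507) (nat_lit 397) (nat_lit 5) (nat_lit 409) (nat_lit 5) (nat_lit 398) (nat_lit 5) (nat_lit 482) (nat_lit 459) (nat_lit 259))))))))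
noncomputable def xc114 : XT := (XT.nd (nat_lit 61152) (nat_lit 0) (nat_lit 6764) (XT.nd (nat_lit 1014) (nat_lit 4104) (nat_lit 0) (XT.nd (nat_lit 468) (nat_lit 4104) (nat_lit 0) (XT.nd (nat_lit 234) (nat_lit 2280) (nat_lit 0) (XT.nd (nat_lit 78) (nat_lit 836) (nat_lit 0) (XT.lf (nat_lit 0) (nat_lit 5928844253) (nat_lit 912) (nat_lit 23315637353) (nat_lit 76) (nat_lit 4629829683) (nat_lit 386) (nat_lit 5) (nat_lit 398) (nat_lit 5) (nat_lit 387) (nat_lit 5) (nat_lit 483) (nat_lit 459) (nat_lit 258)) (XT.nd (nat_lit 78) (nat_lit 0) (nat_lit 0) (XT.lf (nat_lit 0) (nat_lit 4666483766) (nat_lit 836) (nat_lit 7262966762) (nat_lit 912) (nat_lit 22508376292) (nat_lit 375) (nat_lit 5) (nat_lit 386) (nat_lit 5) (nat_lit 387) (nat_lit 5) (nat_lit 484) (nat_lit 459) (nat_lit 257)) (XT.lf (nat_lit 0) (nat_lit 18365145462) (nat_lit 912) (nat_lit 1312780889) (nat_lit 76) (nat_lit 15335220262) (nat_lit 375) (nat_lit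 5) (nat_lit 387) (nat_lit 5) (nat_lit 376) (nat_lit 5) (nat_lit 485) (nat_lit 459) (nat_lit 256)))) (XT.nd (nat_lit 78) (nat_lit 1520) (nat_lit 0) (XT.lf (nat_lit 0) (nat_lit 25242741334) (nat_lit 836) (nat_lit 7302784582) (nat_lit 76) (nat_lit 3055223678) (nat_lit 365) (nat_lit 5) (nat_lit 376) (nat_lit 5) (nat_lit 366) (nat_lit 5) (nat_lit 486) (nat_lit 459) (nat_lit 255)) (XT.nd (nat_lit 78) (nat_lit 760) (nat_lit 0) (XT.lf (nat_lit 0) (nat_lit 22772299015) (nat_lit 760) (nat_lit 9839147178) (nat_lit 836) (nat_lit 3588839040) (nat_lit 355) (nat_lit 5) (nat_lit 365) (nat_lit 5) (nat_lit 366) (nat_lit 5) (nat_lit 487) (nat_lit 459) (nat_lit 254)) (XT.lf (nat_lit 0) (nat_lit 3586345359) (nat_lit 760) (nat_lit 19670785533) (nat_lit 76) (nat_lit 13555290604) (nat_lit 345) (nat_lit 5) (nat_lit 355) (nat_lit 5) (nat_lit 346) (nat_lit 5) (nat_lit 488) (nat_lit 459) (nat_lit 253))))) (XT.nd (nat_lit 234)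 (nat_lit 2660) (nat_lit 0) (XT.nd (nat_lit 78) (nat_lit 684) (nat_lit 0) (XT.lf (nat_lit 0) (nat_lit 11158154195) (nat_lit 836) (nat_lit 26013023288) (nat_lit 76) (nat_lit 266667555) (nat_lit 335) (nat_lit 5) (nat_lit 346) (nat_lit 5) (nat_lit 336) (nat_lit 5) (nat_lit 489) (nat_lit 459) (nat_lit 252)) (XT.nd (nat_lit 78) (nat_lit 0) (nat_lit 0) (XT.lf (nat_lit 0) (nat_lit 5555738778) (nat_lit 684) (nat_lit 13723745021) (nat_lit 760) (nat_lit 18796100329) (nat_lit 326) (nat_lit 5) (nat_lit 335) (nat_lit 5) (nat_lit 336) (nat_lit 5) (nat_lit 490) (nat_lit 459) (nat_lit 251)) (XT.lf (nat_lit 0) (nat_lit 27886250136) (nat_lit 760) (nat_lit 374064318) (nat_lit 76) (nat_lit 10467305166) (nat_lit 326) (nat_lit 5) (nat_lit 336) (nat_lit 5) (nat_lit 327) (nat_lit 5) (nat_lit 491) (nat_lit 459) (nat_lit 250)))) (XT.nd (nat_lit 156) (nat_lit 1292) (nat_lit 0) (XT.nd (nat_lit 78) (nat_lit 684) (nat_lit 0) (XT.lf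 (nat_lit 0) (nat_lit 33074301047) (nat_lit 684) (nat_lit 3980190141) (nat_lit 760) (nat_lit 2338659716) (nat_lit 317) (nat_lit 5) (nat_lit 326) (nat_lit 5) (nat_lit 327) (nat_lit 5) (nat_lit 492) (nat_lit 459) (nat_lit 249)) (XT.lf (nat_lit 0) (nat_lit 6652622246) (nat_lit 684) (nat_lit 12440830445) (nat_lit 76) (nat_lit 20978008467) (nat_lit 308) (nat_lit 5) (nat_lit 317) (nat_lit 5) (nat_lit 309) (nat_lit 5) (nat_lit 493) (nat_lit 459) (nat_lit 248))) (XT.nd (nat_lit 78) (nat_lit 608) (nat_lit 0) (XT.lf (nat_lit 0) (nat_lit 16131912522) (nat_lit 760) (nat_lit 18644841910) (nat_lit 76) (nat_lit 5988056403) (nat_lit 299) (nat_lit 5) (nat_lit 309) (nat_lit 5) (nat_lit 300) (nat_lit 5) (nat_lit 494) (nat_lit 459) (nat_lit 247)) (XT.lf (nat_lit 0) (nat_lit 16494935920) (nat_lit 608) (nat_lit 9717221352) (nat_lit 684) (nat_lit 15260472363) (nat_lit 291) (nat_lit 5) (nat_lit 299) (nat_lit 5) (nat_lit 300)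 (nat_lit 5) (nat_lit 495) (nat_lit 459) (nat_lit 246)))))) (XT.nd (nat_lit 546) (nat_lit 532) (nat_lit 0) (XT.nd (nat_lit 234) (nat_lit 2280) (nat_lit 0) (XT.nd (nat_lit 78) (nat_lit 684) (nat_lit 0) (XT.lf (nat_lit 0) (nat_lit 10777221984) (nat_lit 608) (nat_lit 26116226669) (nat_lit 684) (nat_lit 5302261700) (nat_lit 283) (nat_lit 5) (nat_lit 291) (nat_lit 5) (nat_lit 292) (nat_lit 5) (nat_lit 496) (nat_lit 459) (nat_lit 245)) (XT.nd (nat_lit 78) (nat_lit 0) (nat_lit 0) (XT.lf (nat_lit 0) (nat_lit 4972795074) (nat_lit 608) (nat_lit 181602953) (nat_lit 684) (nat_lit 37780148527) (nat_lit 274) (nat_lit 5) (nat_lit 282) (nat_lit 5) (nat_lit 283) (nat_lit 5) (nat_lit 497) (nat_lit 459) (nat_lit 244)) (XT.lf (nat_lit 0) (nat_lit 16236794191) (nat_lit 684) (nat_lit 1018265818) (nat_lit 76) (nat_lit 26432105532) (nat_lit 274) (nat_lit 5) (nat_lit 283) (nat_lit 5) (nat_lit 275) (nat_lit 5) (nat_lit 498)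 (nat_lit 459) (nat_lit 243)))) (XT.nd (nat_lit 156) (nat_lit 1140) (nat_lit 0) (XT.nd (nat_lit 78) (nat_lit 532) (nat_lit 0) (XT.lf (nat_lit 0) (nat_lit 27956170948) (nat_lit 684) (nat_lit 6999246940) (nat_lit 76) (nat_lit 9500855161) (nat_lit 266) (nat_lit 5) (nat_lit 275) (nat_lit 5) (nat_lit 267) (nat_lit 5) (nat_lit 499) (nat_lit 459) (nat_lit 242)) (XT.lf (nat_lit 0) (nat_lit 32154866770) (nat_lit 532) (nat_lit 8200603662) (nat_lit 608) (nat_lit 4886416647) (nat_lit 259) (nat_lit 5) (nat_lit 266) (nat_lit 5) (nat_lit 267) (nat_lit 5) (nat_lit 500) (nat_lit 459) (nat_lit 241))) (XT.nd (nat_lit 78) (nat_lit 532) (nat_lit 0) (XT.lf (nat_lit 0) (nat_lit 7329548864) (nat_lit 608) (nat_lit 19341868047) (nat_lit 76) (nat_lit 19371800569) (nat_lit 251) (nat_lit 5) (nat_lit 259) (nat_lit 5) (nat_lit 252) (nat_lit 5) (nat_lit 501) (nat_lit 459) (nat_lit 240)) (XT.lf (nat_lit 0) (nat_lit 20131806026) (nat_lit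 608) (nat_lit 25687405332) (nat_lit 76) (nat_lit 1043006565) (nat_lit 244) (nat_lit 5) (nat_lit 252) (nat_lit 5) (nat_lit 245) (nat_lit 5) (nat_lit 502) (nat_lit 459) (nat_lit 239))))) (XT.nd (nat_lit 59280) (nat_lit 0) (nat_lit 17860) (XT.nd (nat_lit 59124) (nat_lit 0) (nat_lit 17784) (XT.lf (nat_lit 0) (nat_lit 15488922055) (nat_lit 532) (nat_lit 18237443754) (nat_lit 608) (nat_lit 13971257984) (nat_lit 237) (nat_lit 5) (nat_lit 244) (nat_lit 5) (nat_lit 245) (nat_lit 5) (nat_lit 503) (nat_lit 459) (nat_lit 238)) (XT.nd (nat_lit 78) (nat_lit 0) (nat_lit 76) (XT.lf (nat_lit 0) (nat_lit 464414715) (nat_lit 1900) (nat_lit 5768735426) (nat_lit 1900) (nat_lit 5768735426) (nat_lit 471) (nat_lit 3) (nat_lit 496) (nat_lit 3) (nat_lit 496) (nat_lit 5) (nat_lit 460) (nat_lit 460) (nat_lit 280)) (XT.lf (nat_lit 0) (nat_lit 1189695432) (nat_lit 1824) (nat_lit 17989439679) (nat_lit 1900) (nat_lit 5179743536)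 (nat_lit 472) (nat_lit 5) (nat_lit 496) (nat_lit 5) (nat_lit 497) (nat_lit 5) (nat_lit 461) (nat_lit 460) (nat_lit 279)))) (XT.nd (nat_lit 156) (nat_lit 0) (nat_lit 152) (XT.nd (nat_lit 78) (nat_lit 0) (nat_lit 76) (XT.lf (nat_lit 76) (nat_lit 163049828) (nat_lit 0) (nat_lit 1451777455) (nat_lit 1900) (nat_lit 23106683706) (nat_lit 473) (nat_lit 5) (nat_lit 472) (nat_lit 5) (nat_lit 497) (nat_lit 5) (nat_lit 462) (nat_lit 460) (nat_lit 278)) (XT.lf (nat_lit 0) (nat_lit 2278052475) (nat_lit 1824) (nat_lit 6099861603) (nat_lit 1900) (nat_lit 16712601828) (nat_lit 473) (nat_lit 5) (nat_lit 497) (nat_lit 5) (nat_lit 498) (nat_lit 5) (nat_lit 463) (nat_lit 460) (nat_lit 277))) (XT.nd (nat_lit 78) (nat_lit 0) (nat_lit 76) (XT.lf (nat_lit 0) (nat_lit 3114504680) (nat_lit 1824) (nat_lit 12463273150) (nat_lit 1900) (nat_lit 9889746918) (nat_lit 474) (nat_lit 5) (nat_lit 498) (nat_lit 5) (nat_lit 499) (nat_lit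 5) (nat_lit 464) (nat_lit 460) (nat_lit 276)) (XT.lf (nat_lit 0) (nat_lit 4130987167) (nat_lit 1824) (nat_lit 18930453170) (nat_lit 1900) (nat_lit 2791305156) (nat_lit 475) (nat_lit 5) (nat_lit 499) (nat_lit 5) (nat_lit 500) (nat_lit 5) (nat_lit 465) (nat_lit 460) (nat_lit 275))))))) (XT.nd (nat_lit 1014) (nat_lit 8968) (nat_lit 0) (XT.nd (nat_lit 468) (nat_lit 2356) (nat_lit 0) (XT.nd (nat_lit 234) (nat_lit 0) (nat_lit 152) (XT.nd (nat_lit 78) (nat_lit 0) (nat_lit 76) (XT.lf (nat_lit 76) (nat_lit 713056156) (nat_lit 0) (nat_lit 4652769786) (nat_lit 1900) (nat_lit 20879940041) (nat_lit 476) (nat_lit 5) (nat_lit 475) (nat_lit 5) (nat_lit 500) (nat_lit 5) (nat_lit 466) (nat_lit 460) (nat_lit 274)) (XT.nd (nat_lit 78) (nat_lit 0) (nat_lit 76) (XT.lf (nat_lit 0) (nat_lit 6853941824) (nat_lit 1824) (nat_lit 5540585871) (nat_lit 1900) (nat_lit 14251725105) (nat_lit 476) (nat_lit 5) (nat_lit 500) (nat_lit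 5) (nat_lit 501) (nat_lit 5) (nat_lit 467) (nat_lit 460) (nat_lit 273)) (XT.lf (nat_lit 0) (nat_lit 8554516976) (nat_lit 1824) (nat_lit 11883764107) (nat_lit 1900) (nat_lit 6617117161) (nat_lit 477) (nat_lit 5) (nat_lit 501) (nat_lit 5) (nat_lit 502) (nat_lit 5) (nat_lit 468) (nat_lit 460) (nat_lit 272)))) (XT.nd (nat_lit 78) (nat_lit 0) (nat_lit 76) (XT.lf (nat_lit 76) (nat_lit 9137932230) (nat_lit 0) (nat_lit 1342714235) (nat_lit 1900) (nat_lit 16992681174) (nat_lit 478) (nat_lit 5) (nat_lit 477) (nat_lit 5) (nat_lit 502) (nat_lit 5) (nat_lit 469) (nat_lit 460) (nat_lit 271)) (XT.nd (nat_lit 78) (nat_lit 0) (nat_lit 76) (XT.lf (nat_lit 76) (nat_lit 2966322233) (nat_lit 0) (nat_lit 9712213475) (nat_lit 1900) (nat_lit 15220980011) (nat_lit 479) (nat_lit 5) (nat_lit 478) (nat_lit 5) (nat_lit 503) (nat_lit 5) (nat_lit 470) (nat_lit 460) (nat_lit 270)) (XT.lf (nat_lit 0) (nat_lit 15135744172) (nat_lit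 1824) (nat_lit 3256138017) (nat_lit 1900) (nat_lit 9942739912) (nat_lit 479) (nat_lit 5) (nat_lit 503) (nat_lit 5) (nat_lit 504) (nat_lit 5) (nat_lit 471) (nat_lit 460) (nat_lit 269))))) (XT.nd (nat_lit 234) (nat_lit 2736) (nat_lit 0) (XT.nd (nat_lit 78) (nat_lit 0) (nat_lit 0) (XT.lf (nat_lit 0) (nat_lit 17860710903) (nat_lit 1824) (nat_lit 9533148854) (nat_lit 1900) (nat_lit 1385041380) (nat_lit 480) (nat_lit 5) (nat_lit 504) (nat_lit 5) (nat_lit 505) (nat_lit 5) (nat_lit 472) (nat_lit 460) (nat_lit 268)) (XT.nd (nat_lit 78) (nat_lit 0) (nat_lit 76) (XT.lf (nat_lit 76) (nat_lit 13278399056) (nat_lit 0) (nat_lit 7615539143) (nat_lit 1900) (nat_lit 8338040406) (nat_lit 481) (nat_lit 5) (nat_lit 480) (nat_lit 5) (nat_lit 505) (nat_lit 5) (nat_lit 473) (nat_lit 460) (nat_lit 267)) (XT.lf (nat_lit 76) (nat_lit 7214952308) (nat_lit 0) (nat_lit 16993122231) (nat_lit 1900) (nat_lit 5486775897) (nat_lit 482)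 (nat_lit 5) (nat_lit 481) (nat_lit 5) (nat_lit 506) (nat_lit 5) (nat_lit 474) (nat_lit 460) (nat_lit 266)))) (XT.nd (nat_lit 156) (nat_lit 988) (nat_lit 0) (XT.nd (nat_lit 78) (nat_lit 1900) (nat_lit 0) (XT.lf (nat_lit 76) (nat_lit 1064450003) (nat_lit 0) (nat_lit 26740632518) (nat_lit 1900) (nat_lit 2362857227) (nat_lit 483) (nat_lit 5) (nat_lit 482) (nat_lit 5) (nat_lit 507) (nat_lit 5) (nat_lit 475) (nat_lit 460) (nat_lit 265)) (XT.lf (nat_lit 0) (nat_lit 1105968765) (nat_lit 1900) (nat_lit 5153424372) (nat_lit 1976) (nat_lit 24390469861) (nat_lit 457) (nat_lit 5) (nat_lit 482) (nat_lit 5) (nat_lit 483) (nat_lit 5) (nat_lit 476) (nat_lit 460) (nat_lit 264))) (XT.nd (nat_lit 78) (nat_lit 1064) (nat_lit 0) (XT.lf (nat_lit 0) (nat_lit 4868039783) (nat_lit 1900) (nat_lit 11486083852) (nat_lit 76) (nat_lit 14787382553) (nat_lit 458) (nat_lit 5) (nat_lit 483) (nat_lit 5) (nat_lit 459) (nat_lit 5) (nat_lit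 477) (nat_lit 460) (nat_lit 263)) (XT.lf (nat_lit 0) (nat_lit 8936593295) (nat_lit 1140) (nat_lit 17909690665) (nat_lit 76) (nat_lit 4797742554) (nat_lit 444) (nat_lit 5) (nat_lit 459) (nat_lit 5) (nat_lit 445) (nat_lit 5) (nat_lit 478) (nat_lit 460) (nat_lit 262)))))) (XT.nd (nat_lit 546) (nat_lit 3724) (nat_lit 0) (XT.nd (nat_lit 234) (nat_lit 3420) (nat_lit 0) (XT.nd (nat_lit 78) (nat_lit 912) (nat_lit 0) (XT.lf (nat_lit 0) (nat_lit 7695743811) (nat_lit 912) (nat_lit 5664909738) (nat_lit 988) (nat_lit 18796300138) (nat_lit 432) (nat_lit 5) (nat_lit 444) (nat_lit 5) (nat_lit 445) (nat_lit 5) (nat_lit 479) (nat_lit 460) (nat_lit 261)) (XT.nd (nat_lit 78) (nat_lit 0) (nat_lit 0) (XT.lf (nat_lit 0) (nat_lit 1542352845) (nat_lit 912) (nat_lit 16608000436) (nat_lit 988) (nat_lit 14530257274) (nat_lit 420) (nat_lit 5) (nat_lit 432) (nat_lit 5) (nat_lit 433) (nat_lit 5) (nat_lit 480) (nat_lit 460) (nat_lit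 260)) (XT.lf (nat_lit 0) (nat_lit 23317742559) (nat_lit 988) (nat_lit 4631958993) (nat_lit 76) (nat_lit 5265595834) (nat_lit 420) (nat_lit 5) (nat_lit 433) (nat_lit 5) (nat_lit 421) (nat_lit 5) (nat_lit 481) (nat_lit 460) (nat_lit 259)))) (XT.nd (nat_lit 156) (nat_lit 1672) (nat_lit 0) (XT.nd (nat_lit 78) (nat_lit 912) (nat_lit 0) (XT.lf (nat_lit 0) (nat_lit 22854443242) (nat_lit 836) (nat_lit 6041245662) (nat_lit 912) (nat_lit 4865225430) (nat_lit 409) (nat_lit 5) (nat_lit 420) (nat_lit 5) (nat_lit 421) (nat_lit 5) (nat_lit 482) (nat_lit 460) (nat_lit 258)) (XT.lf (nat_lit 0) (nat_lit 561081836) (nat_lit 912) (nat_lit 17303183827) (nat_lit 76) (nat_lit 16453649441) (nat_lit 397) (nat_lit 5) (nat_lit 409) (nat_lit 5) (nat_lit 398) (nat_lit 5) (nat_lit 483) (nat_lit 460) (nat_lit 257))) (XT.nd (nat_lit 78) (nat_lit 836) (nat_lit 0) (XT.lf (nat_lit 0) (nat_lit 6298947080) (nat_lit 912) (nat_lit 23817583124)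 (nat_lit 76) (nat_lit 4770155352) (nat_lit 386) (nat_lit 5) (nat_lit 398) (nat_lit 5) (nat_lit 387) (nat_lit 5) (nat_lit 484) (nat_lit 460) (nat_lit 256)) (XT.lf (nat_lit 0) (nat_lit 5000797047) (nat_lit 836) (nat_lit 7474436993) (nat_lit 912) (nat_lit 22991959565) (nat_lit 375) (nat_lit 5) (nat_lit 386) (nat_lit 5) (nat_lit 387) (nat_lit 5) (nat_lit 485) (nat_lit 460) (nat_lit 255))))) (XT.nd (nat_lit 234) (nat_lit 2204) (nat_lit 0) (XT.nd (nat_lit 78) (nat_lit 1520) (nat_lit 0) (XT.lf (nat_lit 0) (nat_lit 19098567467) (nat_lit 912) (nat_lit 1159887507) (nat_lit 76) (nat_lit 15801426956) (nat_lit 375) (nat_lit 5) (nat_lit 387) (nat_lit 5) (nat_lit 376) (nat_lit 5) (nat_lit 486) (nat_lit 460) (nat_lit 254)) (XT.nd (nat_lit 78) (nat_lit 760) (nat_lit 0) (XT.lf (nat_lit 0) (nat_lit 26178474724) (nat_lit 836) (nat_lit 7329203670) (nat_lit 76) (nat_lit 3157515218) (nat_lit 365) (nat_lit 5) (nat_lit 376)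 (nat_lit 5) (nat_lit 366) (nat_lit 5) (nat_lit 487) (nat_lit 460) (nat_lit 253)) (XT.lf (nat_lit 0) (nat_lit 23645006682) (nat_lit 760) (nat_lit 10119267052) (nat_lit 836) (nat_lit 3518521203) (nat_lit 355) (nat_lit 5) (nat_lit 365) (nat_lit 5) (nat_lit 366) (nat_lit 5) (nat_lit 488) (nat_lit 460) (nat_lit 252)))) (XT.nd (nat_lit 156) (nat_lit 684) (nat_lit 0) (XT.nd (nat_lit 78) (nat_lit 760) (nat_lit 0) (XT.lf (nat_lit 0) (nat_lit 3865804524) (nat_lit 760) (nat_lit 20068806738) (nat_lit 76) (nat_lit 13978736776) (nat_lit 345) (nat_lit 5) (nat_lit 355) (nat_lit 5) (nat_lit 346) (nat_lit 5) (nat_lit 489) (nat_lit 460) (nat_lit 251)) (XT.lf (nat_lit 0) (nat_lit 11661124427) (nat_lit 836) (nat_lit 26601193654) (nat_lit 76) (nat_lit 295289322) (nat_lit 335) (nat_lit 5) (nat_lit 346) (nat_lit 5) (nat_lit 336) (nat_lit 5) (nat_lit 490) (nat_lit 460) (nat_lit 250))) (XT.nd (nat_lit 78) (nat_lit 0) (nat_lit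 0) (XT.lf (nat_lit 0) (nat_lit 5911512728) (nat_lit 684) (nat_lit 14110909190) (nat_lit 760) (nat_lit 19192130434) (nat_lit 326) (nat_lit 5) (nat_lit 335) (nat_lit 5) (nat_lit 336) (nat_lit 5) (nat_lit 491) (nat_lit 460) (nat_lit 249)) (XT.lf (nat_lit 0) (nat_lit 28882753163) (nat_lit 760) (nat_lit 198643818) (nat_lit 76) (nat_lit 10804844929) (nat_lit 326) (nat_lit 5) (nat_lit 336) (nat_lit 5) (nat_lit 327) (nat_lit 5) (nat_lit 492) (nat_lit 460) (nat_lit 248))))))))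
noncomputable def xc115 : XT := (XT.nd (nat_lit 61230) (nat_lit 0) (nat_lit 532) (XT.nd (nat_lit 60138) (nat_lit 0) (nat_lit 17328) (XT.nd (nat_lit 468) (nat_lit 2280) (nat_lit 0) (XT.nd (nat_lit 234) (nat_lit 1900) (nat_lit 0) (XT.nd (nat_lit 78) (nat_lit 1368) (nat_lit 0) (XT.lf (nat_lit 0) (nat_lit 34250144456) (nat_lit 684) (nat_lit 4072431403) (nat_lit 760) (nat_lit 2249232818) (nat_lit 317) (nat_lit 5) (nat_lit 326) (nat_lit 5) (nat_lit 327) (nat_lit 5) (nat_lit 493) (nat_lit 460) (nat_lit 247)) (XT.nd (nat_lit 78) (nat_lit 684) (nat_lit 0) (XT.lf (nat_lit 0) (nat_lit 7006479372) (nat_lit 684) (nat_lit 12628449889) (nat_lit 76) (nat_lit 21635582780) (nat_lit 308) (nat_lit 5) (nat_lit 317) (nat_lit 5) (nat_lit 309) (nat_lit 5) (nat_lit 494) (nat_lit 460) (nat_lit 246)) (XT.lf (nat_lit 0) (nat_lit 16767045656) (nat_lit 760) (nat_lit 19018771673) (nat_lit 76) (nat_lit 6198907150) (nat_lit 299) (nat_lit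 5) (nat_lit 309) (nat_lit 5) (nat_lit 300) (nat_lit 5) (nat_lit 495) (nat_lit 460) (nat_lit 245)))) (XT.nd (nat_lit 78) (nat_lit 1292) (nat_lit 0) (XT.lf (nat_lit 0) (nat_lit 17172191345) (nat_lit 608) (nat_lit 9974287535) (nat_lit 684) (nat_lit 15567363548) (nat_lit 291) (nat_lit 5) (nat_lit 299) (nat_lit 5) (nat_lit 300) (nat_lit 5) (nat_lit 496) (nat_lit 460) (nat_lit 244)) (XT.nd (nat_lit 78) (nat_lit 684) (nat_lit 0) (XT.lf (nat_lit 0) (nat_lit 11282684576) (nat_lit 608) (nat_lit 26862614774) (nat_lit 684) (nat_lit 5313374612) (nat_lit 283) (nat_lit 5) (nat_lit 291) (nat_lit 5) (nat_lit 292) (nat_lit 5) (nat_lit 497) (nat_lit 460) (nat_lit 243)) (XT.lf (nat_lit 0) (nat_lit 5303085247) (nat_lit 608) (nat_lit 148882216) (nat_lit 684) (nat_lit 38767750307) (nat_lit 274) (nat_lit 5) (nat_lit 282) (nat_lit 5) (nat_lit 283) (nat_lit 5) (nat_lit 498) (nat_lit 460) (nat_lit 242))))) (XT.nd (nat_lit 234)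 (nat_lit 1140) (nat_lit 0) (XT.nd (nat_lit 78) (nat_lit 1140) (nat_lit 0) (XT.lf (nat_lit 0) (nat_lit 16862912884) (nat_lit 684) (nat_lit 870441284) (nat_lit 76) (nat_lit 27261639798) (nat_lit 274) (nat_lit 5) (nat_lit 283) (nat_lit 5) (nat_lit 275) (nat_lit 5) (nat_lit 499) (nat_lit 460) (nat_lit 241)) (XT.nd (nat_lit 78) (nat_lit 532) (nat_lit 0) (XT.lf (nat_lit 0) (nat_lit 28931216929) (nat_lit 684) (nat_lit 7031273196) (nat_lit 76) (nat_lit 9824737838) (nat_lit 266) (nat_lit 5) (nat_lit 275) (nat_lit 5) (nat_lit 267) (nat_lit 5) (nat_lit 500) (nat_lit 460) (nat_lit 240)) (XT.lf (nat_lit 0) (nat_lit 33294576880) (nat_lit 532) (nat_lit 8405083474) (nat_lit 608) (nat_lit 4896806936) (nat_lit 259) (nat_lit 5) (nat_lit 266) (nat_lit 5) (nat_lit 267) (nat_lit 5) (nat_lit 501) (nat_lit 460) (nat_lit 239)))) (XT.nd (nat_lit 59280) (nat_lit 0) (nat_lit 17252) (XT.nd (nat_lit 78) (nat_lit 532) (nat_lit 0)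 (XT.lf (nat_lit 0) (nat_lit 7681340842) (nat_lit 608) (nat_lit 19745773973) (nat_lit 76) (nat_lit 19994755479) (nat_lit 251) (nat_lit 5) (nat_lit 259) (nat_lit 5) (nat_lit 252) (nat_lit 5) (nat_lit 502) (nat_lit 460) (nat_lit 238)) (XT.lf (nat_lit 0) (nat_lit 20865237835) (nat_lit 608) (nat_lit 26282236828) (nat_lit 76) (nat_lit 1118014808) (nat_lit 244) (nat_lit 5) (nat_lit 252) (nat_lit 5) (nat_lit 245) (nat_lit 5) (nat_lit 503) (nat_lit 460) (nat_lit 237))) (XT.nd (nat_lit 78) (nat_lit 0) (nat_lit 76) (XT.lf (nat_lit 0) (nat_lit 647976746) (nat_lit 1900) (nat_lit 5855281255) (nat_lit 1900) (nat_lit 5855281255) (nat_lit 471) (nat_lit 3) (nat_lit 496) (nat_lit 3) (nat_lit 496) (nat_lit 5) (nat_lit 461) (nat_lit 461) (nat_lit 278)) (XT.lf (nat_lit 0) (nat_lit 1554828853) (nat_lit 1824) (nat_lit 18351227509) (nat_lit 1900) (nat_lit 5176979816) (nat_lit 472) (nat_lit 5) (nat_lit 496) (nat_lit 5) (nat_lit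 497) (nat_lit 5) (nat_lit 462) (nat_lit 461) (nat_lit 277)))))) (XT.nd (nat_lit 546) (nat_lit 0) (nat_lit 380) (XT.nd (nat_lit 234) (nat_lit 0) (nat_lit 228) (XT.nd (nat_lit 78) (nat_lit 0) (nat_lit 76) (XT.lf (nat_lit 76) (nat_lit 342950541) (nat_lit 0) (nat_lit 1641304980) (nat_lit 1900) (nat_lit 23472461734) (nat_lit 473) (nat_lit 5) (nat_lit 472) (nat_lit 5) (nat_lit 497) (nat_lit 5) (nat_lit 463) (nat_lit 461) (nat_lit 276)) (XT.nd (nat_lit 78) (nat_lit 0) (nat_lit 76) (XT.lf (nat_lit 0) (nat_lit 2657108282) (nat_lit 1824) (nat_lit 6105773914) (nat_lit 1900) (nat_lit 17074116074) (nat_lit 473) (nat_lit 5) (nat_lit 497) (nat_lit 5) (nat_lit 498) (nat_lit 5) (nat_lit 464) (nat_lit 461) (nat_lit 275)) (XT.lf (nat_lit 0) (nat_lit 3509900356) (nat_lit 1824) (nat_lit 12656051731) (nat_lit 1900) (nat_lit 10059540912) (nat_lit 474) (nat_lit 5) (nat_lit 498) (nat_lit 5) (nat_lit 499) (nat_lit 5) (nat_lit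 465) (nat_lit 461) (nat_lit 274)))) (XT.nd (nat_lit 156) (nat_lit 0) (nat_lit 76) (XT.nd (nat_lit 78) (nat_lit 0) (nat_lit 0) (XT.lf (nat_lit 0) (nat_lit 4548485154) (nat_lit 1824) (nat_lit 19313527339) (nat_lit 1900) (nat_lit 2760426248) (nat_lit 475) (nat_lit 5) (nat_lit 499) (nat_lit 5) (nat_lit 500) (nat_lit 5) (nat_lit 466) (nat_lit 461) (nat_lit 273)) (XT.lf (nat_lit 76) (nat_lit 916288467) (nat_lit 0) (nat_lit 4896710721) (nat_lit 1900) (nat_lit 21214398574) (nat_lit 476) (nat_lit 5) (nat_lit 475) (nat_lit 5) (nat_lit 500) (nat_lit 5) (nat_lit 467) (nat_lit 461) (nat_lit 272))) (XT.nd (nat_lit 78) (nat_lit 0) (nat_lit 76) (XT.lf (nat_lit 0) (nat_lit 7336764842) (nat_lit 1824) (nat_lit 5524027343) (nat_lit 1900) (nat_lit 14579287373) (nat_lit 476) (nat_lit 5) (nat_lit 500) (nat_lit 5) (nat_lit 501) (nat_lit 5) (nat_lit 468) (nat_lit 461) (nat_lit 271)) (XT.lf (nat_lit 0) (nat_lit 9080863270)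 (nat_lit 1824) (nat_lit 12054456538) (nat_lit 1900) (nat_lit 6726329925) (nat_lit 477) (nat_lit 5) (nat_lit 501) (nat_lit 5) (nat_lit 502) (nat_lit 5) (nat_lit 469) (nat_lit 461) (nat_lit 270))))) (XT.nd (nat_lit 234) (nat_lit 0) (nat_lit 228) (XT.nd (nat_lit 78) (nat_lit 0) (nat_lit 76) (XT.lf (nat_lit 76) (nat_lit 9594875972) (nat_lit 0) (nat_lit 1463231914) (nat_lit 1900) (nat_lit 17234142973) (nat_lit 478) (nat_lit 5) (nat_lit 477) (nat_lit 5) (nat_lit 502) (nat_lit 5) (nat_lit 470) (nat_lit 461) (nat_lit 269)) (XT.nd (nat_lit 78) (nat_lit 0) (nat_lit 76) (XT.lf (nat_lit 76) (nat_lit 3240855367) (nat_lit 0) (nat_lit 10074115920) (nat_lit 1900) (nat_lit 15416393004) (nat_lit 479) (nat_lit 5) (nat_lit 478) (nat_lit 5) (nat_lit 503) (nat_lit 5) (nat_lit 471) (nat_lit 461) (nat_lit 268)) (XT.lf (nat_lit 0) (nat_lit 15837992750) (nat_lit 1824) (nat_lit 3168250961) (nat_lit 1900) (nat_lit 10173438665)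 (nat_lit 479) (nat_lit 5) (nat_lit 503) (nat_lit 5) (nat_lit 504) (nat_lit 5) (nat_lit 472) (nat_lit 461) (nat_lit 267)))) (XT.nd (nat_lit 156) (nat_lit 0) (nat_lit 76) (XT.nd (nat_lit 78) (nat_lit 0) (nat_lit 0) (XT.lf (nat_lit 0) (nat_lit 18638278567) (nat_lit 1824) (nat_lit 9631338916) (nat_lit 1900) (nat_lit 1367801330) (nat_lit 480) (nat_lit 5) (nat_lit 504) (nat_lit 5) (nat_lit 505) (nat_lit 5) (nat_lit 473) (nat_lit 461) (nat_lit 266)) (XT.lf (nat_lit 76) (nat_lit 13861508527) (nat_lit 0) (nat_lit 7895152567) (nat_lit 1900) (nat_lit 8347544763) (nat_lit 481) (nat_lit 5) (nat_lit 480) (nat_lit 5) (nat_lit 505) (nat_lit 5) (nat_lit 474) (nat_lit 461) (nat_lit 265))) (XT.nd (nat_lit 78) (nat_lit 0) (nat_lit 76) (XT.lf (nat_lit 76) (nat_lit 7618142933) (nat_lit 0) (nat_lit 17546097624) (nat_lit 1900) (nat_lit 5416843314) (nat_lit 482) (nat_lit 5) (nat_lit 481) (nat_lit 5) (nat_lit 506) (nat_lit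 5) (nat_lit 475) (nat_lit 461) (nat_lit 264)) (XT.lf (nat_lit 76) (nat_lit 1284908959) (nat_lit 0) (nat_lit 27578504843) (nat_lit 1900) (nat_lit 2205067356) (nat_lit 483) (nat_lit 5) (nat_lit 482) (nat_lit 5) (nat_lit 507) (nat_lit 5) (nat_lit 476) (nat_lit 461) (nat_lit 263))))))) (XT.nd (nat_lit 1092) (nat_lit 7144) (nat_lit 0) (XT.nd (nat_lit 546) (nat_lit 4864) (nat_lit 0) (XT.nd (nat_lit 234) (nat_lit 2660) (nat_lit 0) (XT.nd (nat_lit 78) (nat_lit 988) (nat_lit 0) (XT.lf (nat_lit 0) (nat_lit 1358251194) (nat_lit 1900) (nat_lit 5122068341) (nat_lit 1976) (nat_lit 25084644716) (nat_lit 457) (nat_lit 5) (nat_lit 482) (nat_lit 5) (nat_lit 483) (nat_lit 5) (nat_lit 477) (nat_lit 461) (nat_lit 262)) (XT.nd (nat_lit 78) (nat_lit 1064) (nat_lit 0) (XT.lf (nat_lit 0) (nat_lit 5227789408) (nat_lit 1900) (nat_lit 11643233108) (nat_lit 76) (nat_lit 15200442485) (nat_lit 458) (nat_lit 5) (nat_lit 483) (nat_lit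 5) (nat_lit 459) (nat_lit 5) (nat_lit 478) (nat_lit 461) (nat_lit 261)) (XT.lf (nat_lit 0) (nat_lit 9413214507) (nat_lit 1140) (nat_lit 18258245838) (nat_lit 76) (nat_lit 4917704648) (nat_lit 444) (nat_lit 5) (nat_lit 459) (nat_lit 5) (nat_lit 445) (nat_lit 5) (nat_lit 479) (nat_lit 461) (nat_lit 260)))) (XT.nd (nat_lit 156) (nat_lit 836) (nat_lit 0) (XT.nd (nat_lit 78) (nat_lit 912) (nat_lit 0) (XT.lf (nat_lit 0) (nat_lit 8112289663) (nat_lit 912) (nat_lit 5852838924) (nat_lit 988) (nat_lit 19152449099) (nat_lit 432) (nat_lit 5) (nat_lit 444) (nat_lit 5) (nat_lit 445) (nat_lit 5) (nat_lit 480) (nat_lit 461) (nat_lit 259)) (XT.lf (nat_lit 0) (nat_lit 1775417835) (nat_lit 912) (nat_lit 17118269208) (nat_lit 988) (nat_lit 14763354198) (nat_lit 420) (nat_lit 5) (nat_lit 432) (nat_lit 5) (nat_lit 433) (nat_lit 5) (nat_lit 481) (nat_lit 461) (nat_lit 258))) (XT.nd (nat_lit 78) (nat_lit 836) (nat_lit 0)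 (XT.lf (nat_lit 0) (nat_lit 24210231209) (nat_lit 988) (nat_lit 4585616661) (nat_lit 76) (nat_lit 5412038468) (nat_lit 420) (nat_lit 5) (nat_lit 433) (nat_lit 5) (nat_lit 421) (nat_lit 5) (nat_lit 482) (nat_lit 461) (nat_lit 257)) (XT.lf (nat_lit 0) (nat_lit 23722371351) (nat_lit 836) (nat_lit 6228708083) (nat_lit 912) (nat_lit 4818881405) (nat_lit 409) (nat_lit 5) (nat_lit 420) (nat_lit 5) (nat_lit 421) (nat_lit 5) (nat_lit 483) (nat_lit 461) (nat_lit 256))))) (XT.nd (nat_lit 234) (nat_lit 2280) (nat_lit 0) (XT.nd (nat_lit 78) (nat_lit 1672) (nat_lit 0) (XT.lf (nat_lit 0) (nat_lit 763322642) (nat_lit 912) (nat_lit 17636708702) (nat_lit 76) (nat_lit 16943703026) (nat_lit 397) (nat_lit 5) (nat_lit 409) (nat_lit 5) (nat_lit 398) (nat_lit 5) (nat_lit 484) (nat_lit 461) (nat_lit 255)) (XT.nd (nat_lit 78) (nat_lit 836) (nat_lit 0) (XT.lf (nat_lit 0) (nat_lit 6669117773) (nat_lit 912) (nat_lit 24345925917)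 (nat_lit 76) (nat_lit 4914608659) (nat_lit 386) (nat_lit 5) (nat_lit 398) (nat_lit 5) (nat_lit 387) (nat_lit 5) (nat_lit 485) (nat_lit 461) (nat_lit 254)) (XT.lf (nat_lit 0) (nat_lit 5333985034) (nat_lit 836) (nat_lit 7692619794) (nat_lit 912) (nat_lit 23501052865) (nat_lit 375) (nat_lit 5) (nat_lit 386) (nat_lit 5) (nat_lit 387) (nat_lit 5) (nat_lit 486) (nat_lit 461) (nat_lit 253)))) (XT.nd (nat_lit 156) (nat_lit 1520) (nat_lit 0) (XT.nd (nat_lit 78) (nat_lit 760) (nat_lit 0) (XT.lf (nat_lit 0) (nat_lit 19843517743) (nat_lit 912) (nat_lit 1013444798) (nat_lit 76) (nat_lit 16281266811) (nat_lit 375) (nat_lit 5) (nat_lit 387) (nat_lit 5) (nat_lit 376) (nat_lit 5) (nat_lit 487) (nat_lit 461) (nat_lit 252)) (XT.lf (nat_lit 0) (nat_lit 27132036291) (nat_lit 836) (nat_lit 7367475059) (nat_lit 76) (nat_lit 3262265022) (nat_lit 365) (nat_lit 5) (nat_lit 376) (nat_lit 5) (nat_lit 366) (nat_lit 5) (nat_lit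 488) (nat_lit 461) (nat_lit 251))) (XT.nd (nat_lit 78) (nat_lit 760) (nat_lit 0) (XT.lf (nat_lit 0) (nat_lit 24533015284) (nat_lit 760) (nat_lit 10408654713) (nat_lit 836) (nat_lit 3456310783) (nat_lit 355) (nat_lit 5) (nat_lit 365) (nat_lit 5) (nat_lit 366) (nat_lit 5) (nat_lit 489) (nat_lit 461) (nat_lit 250)) (XT.lf (nat_lit 0) (nat_lit 4143781490) (nat_lit 760) (nat_lit 20489796040) (nat_lit 76) (nat_lit 14413922664) (nat_lit 345) (nat_lit 5) (nat_lit 355) (nat_lit 5) (nat_lit 346) (nat_lit 5) (nat_lit 490) (nat_lit 461) (nat_lit 249)))))) (XT.nd (nat_lit 546) (nat_lit 3040) (nat_lit 0) (XT.nd (nat_lit 234) (nat_lit 2660) (nat_lit 0) (XT.nd (nat_lit 78) (nat_lit 684) (nat_lit 0) (XT.lf (nat_lit 0) (nat_lit 12169526928) (nat_lit 836) (nat_lit 27218043365) (nat_lit 76) (nat_lit 323585970) (nat_lit 335) (nat_lit 5) (nat_lit 346) (nat_lit 5) (nat_lit 336) (nat_lit 5) (nat_lit 491) (nat_lit 461) (nat_lit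 248)) (XT.nd (nat_lit 78) (nat_lit 0) (nat_lit 0) (XT.lf (nat_lit 0) (nat_lit 6267104679) (nat_lit 684) (nat_lit 14511097451) (nat_lit 760) (nat_lit 19609676886) (nat_lit 326) (nat_lit 5) (nat_lit 335) (nat_lit 5) (nat_lit 336) (nat_lit 5) (nat_lit 492) (nat_lit 461) (nat_lit 247)) (XT.lf (nat_lit 0) (nat_lit 29899971475) (nat_lit 760) (nat_lit 28674742) (nat_lit 76) (nat_lit 11151160707) (nat_lit 326) (nat_lit 5) (nat_lit 336) (nat_lit 5) (nat_lit 327) (nat_lit 5) (nat_lit 493) (nat_lit 461) (nat_lit 246)))) (XT.nd (nat_lit 156) (nat_lit 1292) (nat_lit 0) (XT.nd (nat_lit 78) (nat_lit 684) (nat_lit 0) (XT.lf (nat_lit 0) (nat_lit 35450722951) (nat_lit 684) (nat_lit 4168999253) (nat_lit 760) (nat_lit 2166284043) (nat_lit 317) (nat_lit 5) (nat_lit 326) (nat_lit 5) (nat_lit 327) (nat_lit 5) (nat_lit 494) (nat_lit 461) (nat_lit 245)) (XT.lf (nat_lit 0) (nat_lit 7362095998) (nat_lit 684) (nat_lit 12832352429)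 (nat_lit 76) (nat_lit 22311263572) (nat_lit 308) (nat_lit 5) (nat_lit 317) (nat_lit 5) (nat_lit 309) (nat_lit 5) (nat_lit 495) (nat_lit 461) (nat_lit 244))) (XT.nd (nat_lit 78) (nat_lit 608) (nat_lit 0) (XT.lf (nat_lit 0) (nat_lit 17412554676) (nat_lit 760) (nat_lit 19414562938) (nat_lit 76) (nat_lit 6414291891) (nat_lit 299) (nat_lit 5) (nat_lit 309) (nat_lit 5) (nat_lit 300) (nat_lit 5) (nat_lit 496) (nat_lit 461) (nat_lit 243)) (XT.lf (nat_lit 0) (nat_lit 17859293505) (nat_lit 608) (nat_lit 10241043300) (nat_lit 684) (nat_lit 15892125066) (nat_lit 291) (nat_lit 5) (nat_lit 299) (nat_lit 5) (nat_lit 300) (nat_lit 5) (nat_lit 497) (nat_lit 461) (nat_lit 242))))) (XT.nd (nat_lit 234) (nat_lit 1748) (nat_lit 0) (XT.nd (nat_lit 78) (nat_lit 684) (nat_lit 0) (XT.lf (nat_lit 0) (nat_lit 11792855125) (nat_lit 608) (nat_lit 27633524139) (nat_lit 684) (nat_lit 5333314131) (nat_lit 283) (nat_lit 5) (nat_lit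 291) (nat_lit 5) (nat_lit 292) (nat_lit 5) (nat_lit 498) (nat_lit 461) (nat_lit 241)) (XT.nd (nat_lit 78) (nat_lit 0) (nat_lit 0) (XT.lf (nat_lit 0) (nat_lit 5632887882) (nat_lit 608) (nat_lit 117370905) (nat_lit 684) (nat_lit 39793349810) (nat_lit 274) (nat_lit 5) (nat_lit 282) (nat_lit 5) (nat_lit 283) (nat_lit 5) (nat_lit 499) (nat_lit 461) (nat_lit 240)) (XT.lf (nat_lit 0) (nat_lit 17499835116) (nat_lit 684) (nat_lit 728421326) (nat_lit 76) (nat_lit 28113960763) (nat_lit 274) (nat_lit 5) (nat_lit 283) (nat_lit 5) (nat_lit 275) (nat_lit 5) (nat_lit 500) (nat_lit 461) (nat_lit 239)))) (XT.nd (nat_lit 156) (nat_lit 608) (nat_lit 0) (XT.nd (nat_lit 78) (nat_lit 532) (nat_lit 0) (XT.lf (nat_lit 0) (nat_lit 29927686619) (nat_lit 684) (nat_lit 7074475363) (nat_lit 76) (nat_lit 10156106444) (nat_lit 266) (nat_lit 5) (nat_lit 275) (nat_lit 5) (nat_lit 267) (nat_lit 5) (nat_lit 501) (nat_lit 461) (nat_lit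 238)) (XT.lf (nat_lit 0) (nat_lit 34458428897) (nat_lit 532) (nat_lit 8618082149) (nat_lit 608) (nat_lit 4915327498) (nat_lit 259) (nat_lit 5) (nat_lit 266) (nat_lit 5) (nat_lit 267) (nat_lit 5) (nat_lit 502) (nat_lit 461) (nat_lit 237))) (XT.nd (nat_lit 59280) (nat_lit 0) (nat_lit 16720) (XT.lf (nat_lit 0) (nat_lit 8036114663) (nat_lit 608) (nat_lit 20171920294) (nat_lit 76) (nat_lit 20633999494) (nat_lit 251) (nat_lit 5) (nat_lit 259) (nat_lit 5) (nat_lit 252) (nat_lit 5) (nat_lit 503) (nat_lit 461) (nat_lit 236)) (XT.lf (nat_lit 0) (nat_lit 827308206) (nat_lit 1900) (nat_lit 5949389844) (nat_lit 1900) (nat_lit 5949389844) (nat_lit 471) (nat_lit 3) (nat_lit 496) (nat_lit 3) (nat_lit 496) (nat_lit 5) (nat_lit 462) (nat_lit 462) (nat_lit 276))))))))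
noncomputable def xc116 : XT := (XT.nd (nat_lit 2106) (nat_lit 7524) (nat_lit 0) (XT.nd (nat_lit 1014) (nat_lit 8132) (nat_lit 0) (XT.nd (nat_lit 468) (nat_lit 0) (nat_lit 304) (XT.nd (nat_lit 234) (nat_lit 0) (nat_lit 152) (XT.nd (nat_lit 78) (nat_lit 0) (nat_lit 0) (XT.lf (nat_lit 0) (nat_lit 1912004927) (nat_lit 1824) (nat_lit 18734080896) (nat_lit 1900) (nat_lit 5183211988) (nat_lit 472) (nat_lit 5) (nat_lit 496) (nat_lit 5) (nat_lit 497) (nat_lit 5) (nat_lit 463) (nat_lit 462) (nat_lit 275)) (XT.nd (nat_lit 78) (nat_lit 0) (nat_lit 76) (XT.lf (nat_lit 76) (nat_lit 518202032) (nat_lit 0) (nat_lit 1828138814) (nat_lit 1900) (nat_lit 23868008493) (nat_lit 473) (nat_lit 5) (nat_lit 472) (nat_lit 5) (nat_lit 497) (nat_lit 5) (nat_lit 464) (nat_lit 462) (nat_lit 274)) (XT.lf (nat_lit 0) (nat_lit 3029699494) (nat_lit 1824) (nat_lit 6122028914) (nat_lit 1900) (nat_lit 17454504502) (nat_lit 473) (nat_lit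 5) (nat_lit 497) (nat_lit 5) (nat_lit 498) (nat_lit 5) (nat_lit 465) (nat_lit 462) (nat_lit 273)))) (XT.nd (nat_lit 78) (nat_lit 0) (nat_lit 76) (XT.lf (nat_lit 0) (nat_lit 3899824132) (nat_lit 1824) (nat_lit 12865010677) (nat_lit 1900) (nat_lit 10241713214) (nat_lit 474) (nat_lit 5) (nat_lit 498) (nat_lit 5) (nat_lit 499) (nat_lit 5) (nat_lit 466) (nat_lit 462) (nat_lit 272)) (XT.nd (nat_lit 78) (nat_lit 0) (nat_lit 0) (XT.lf (nat_lit 0) (nat_lit 4961656056) (nat_lit 1824) (nat_lit 19718704272) (nat_lit 1900) (nat_lit 2735200519) (nat_lit 475) (nat_lit 5) (nat_lit 499) (nat_lit 5) (nat_lit 500) (nat_lit 5) (nat_lit 467) (nat_lit 462) (nat_lit 271)) (XT.lf (nat_lit 76) (nat_lit 1115179351) (nat_lit 0) (nat_lit 5141979318) (nat_lit 1900) (nat_lit 21575649394) (nat_lit 476) (nat_lit 5) (nat_lit 475) (nat_lit 5) (nat_lit 500) (nat_lit 5) (nat_lit 468) (nat_lit 462) (nat_lit 270))))) (XT.nd (nat_lit 234)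 (nat_lit 0) (nat_lit 152) (XT.nd (nat_lit 78) (nat_lit 0) (nat_lit 76) (XT.lf (nat_lit 0) (nat_lit 7818159864) (nat_lit 1824) (nat_lit 5517464156) (nat_lit 1900) (nat_lit 14922416314) (nat_lit 476) (nat_lit 5) (nat_lit 500) (nat_lit 5) (nat_lit 501) (nat_lit 5) (nat_lit 469) (nat_lit 462) (nat_lit 269)) (XT.nd (nat_lit 78) (nat_lit 0) (nat_lit 0) (XT.lf (nat_lit 0) (nat_lit 9607517451) (nat_lit 1824) (nat_lit 12240936600) (nat_lit 1900) (nat_lit 6843945300) (nat_lit 477) (nat_lit 5) (nat_lit 501) (nat_lit 5) (nat_lit 502) (nat_lit 5) (nat_lit 470) (nat_lit 462) (nat_lit 268)) (XT.lf (nat_lit 76) (nat_lit 10055034226) (nat_lit 0) (nat_lit 1582759235) (nat_lit 1900) (nat_lit 17498251212) (nat_lit 478) (nat_lit 5) (nat_lit 477) (nat_lit 5) (nat_lit 502) (nat_lit 5) (nat_lit 471) (nat_lit 462) (nat_lit 267)))) (XT.nd (nat_lit 156) (nat_lit 0) (nat_lit 152) (XT.nd (nat_lit 78) (nat_lit 0) (nat_lit 76) (XT.lf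 (nat_lit 76) (nat_lit 3512973540) (nat_lit 0) (nat_lit 10442826380) (nat_lit 1900) (nat_lit 15632663279) (nat_lit 479) (nat_lit 5) (nat_lit 478) (nat_lit 5) (nat_lit 503) (nat_lit 5) (nat_lit 472) (nat_lit 462) (nat_lit 266)) (XT.lf (nat_lit 0) (nat_lit 16547062452) (nat_lit 1824) (nat_lit 3088379838) (nat_lit 1900) (nat_lit 10414937947) (nat_lit 479) (nat_lit 5) (nat_lit 503) (nat_lit 5) (nat_lit 504) (nat_lit 5) (nat_lit 473) (nat_lit 462) (nat_lit 265))) (XT.nd (nat_lit 78) (nat_lit 0) (nat_lit 0) (XT.lf (nat_lit 0) (nat_lit 19425296032) (nat_lit 1824) (nat_lit 9743255421) (nat_lit 1900) (nat_lit 1353418939) (nat_lit 480) (nat_lit 5) (nat_lit 504) (nat_lit 5) (nat_lit 505) (nat_lit 5) (nat_lit 474) (nat_lit 462) (nat_lit 264)) (XT.lf (nat_lit 76) (nat_lit 14451505446) (nat_lit 0) (nat_lit 8180218332) (nat_lit 1900) (nat_lit 8371147791) (nat_lit 481) (nat_lit 5) (nat_lit 480) (nat_lit 5) (nat_lit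 505) (nat_lit 5) (nat_lit 475) (nat_lit 462) (nat_lit 263)))))) (XT.nd (nat_lit 546) (nat_lit 4180) (nat_lit 0) (XT.nd (nat_lit 234) (nat_lit 2812) (nat_lit 0) (XT.nd (nat_lit 78) (nat_lit 1824) (nat_lit 0) (XT.lf (nat_lit 76) (nat_lit 8022709519) (nat_lit 0) (nat_lit 18113183470) (nat_lit 1900) (nat_lit 5358276072) (nat_lit 482) (nat_lit 5) (nat_lit 481) (nat_lit 5) (nat_lit 506) (nat_lit 5) (nat_lit 476) (nat_lit 462) (nat_lit 262)) (XT.nd (nat_lit 78) (nat_lit 1900) (nat_lit 0) (XT.lf (nat_lit 76) (nat_lit 1501159552) (nat_lit 0) (nat_lit 28439466689) (nat_lit 1900) (nat_lit 2055670702) (nat_lit 483) (nat_lit 5) (nat_lit 482) (nat_lit 5) (nat_lit 507) (nat_lit 5) (nat_lit 477) (nat_lit 462) (nat_lit 261)) (XT.lf (nat_lit 0) (nat_lit 1605524666) (nat_lit 1900) (nat_lit 5100446422) (nat_lit 1976) (nat_lit 25801799722) (nat_lit 457) (nat_lit 5) (nat_lit 482) (nat_lit 5) (nat_lit 483) (nat_lit 5) (nat_lit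 478) (nat_lit 462) (nat_lit 260)))) (XT.nd (nat_lit 156) (nat_lit 1824) (nat_lit 0) (XT.nd (nat_lit 78) (nat_lit 1064) (nat_lit 0) (XT.lf (nat_lit 0) (nat_lit 5586063783) (nat_lit 1900) (nat_lit 11815856278) (nat_lit 76) (nat_lit 15627648573) (nat_lit 458) (nat_lit 5) (nat_lit 483) (nat_lit 5) (nat_lit 459) (nat_lit 5) (nat_lit 479) (nat_lit 462) (nat_lit 259)) (XT.lf (nat_lit 0) (nat_lit 9892164258) (nat_lit 1140) (nat_lit 18628091858) (nat_lit 76) (nat_lit 5042641591) (nat_lit 444) (nat_lit 5) (nat_lit 459) (nat_lit 5) (nat_lit 445) (nat_lit 5) (nat_lit 480) (nat_lit 462) (nat_lit 258))) (XT.nd (nat_lit 78) (nat_lit 912) (nat_lit 0) (XT.lf (nat_lit 0) (nat_lit 8530673469) (nat_lit 912) (nat_lit 6045373752) (nat_lit 988) (nat_lit 19531207657) (nat_lit 432) (nat_lit 5) (nat_lit 444) (nat_lit 5) (nat_lit 445) (nat_lit 5) (nat_lit 481) (nat_lit 462) (nat_lit 257)) (XT.lf (nat_lit 0) (nat_lit 2004752012)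 (nat_lit 912) (nat_lit 17643155542) (nat_lit 988) (nat_lit 15015086198) (nat_lit 420) (nat_lit 5) (nat_lit 432) (nat_lit 5) (nat_lit 433) (nat_lit 5) (nat_lit 482) (nat_lit 462) (nat_lit 256))))) (XT.nd (nat_lit 234) (nat_lit 2432) (nat_lit 0) (XT.nd (nat_lit 78) (nat_lit 1748) (nat_lit 0) (XT.lf (nat_lit 0) (nat_lit 25118418033) (nat_lit 988) (nat_lit 4548521100) (nat_lit 76) (nat_lit 5563535976) (nat_lit 420) (nat_lit 5) (nat_lit 433) (nat_lit 5) (nat_lit 421) (nat_lit 5) (nat_lit 483) (nat_lit 462) (nat_lit 255)) (XT.nd (nat_lit 78) (nat_lit 912) (nat_lit 0) (XT.lf (nat_lit 0) (nat_lit 24605872836) (nat_lit 836) (nat_lit 6421437033) (nat_lit 912) (nat_lit 4782185911) (nat_lit 409) (nat_lit 5) (nat_lit 420) (nat_lit 5) (nat_lit 421) (nat_lit 5) (nat_lit 484) (nat_lit 462) (nat_lit 254)) (XT.lf (nat_lit 0) (nat_lit 960987474) (nat_lit 912) (nat_lit 17990891837) (nat_lit 76) (nat_lit 17448662342) (nat_lit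 397) (nat_lit 5) (nat_lit 409) (nat_lit 5) (nat_lit 398) (nat_lit 5) (nat_lit 485) (nat_lit 462) (nat_lit 253)))) (XT.nd (nat_lit 156) (nat_lit 760) (nat_lit 0) (XT.nd (nat_lit 78) (nat_lit 836) (nat_lit 0) (XT.lf (nat_lit 0) (nat_lit 7039991835) (nat_lit 912) (nat_lit 24900806757) (nat_lit 76) (nat_lit 5063318148) (nat_lit 386) (nat_lit 5) (nat_lit 398) (nat_lit 5) (nat_lit 387) (nat_lit 5) (nat_lit 486) (nat_lit 462) (nat_lit 252)) (XT.lf (nat_lit 0) (nat_lit 5666654293) (nat_lit 836) (nat_lit 7917695391) (nat_lit 912) (nat_lit 24035789902) (nat_lit 375) (nat_lit 5) (nat_lit 386) (nat_lit 5) (nat_lit 387) (nat_lit 5) (nat_lit 487) (nat_lit 462) (nat_lit 251))) (XT.nd (nat_lit 78) (nat_lit 760) (nat_lit 0) (XT.lf (nat_lit 0) (nat_lit 20600943411) (nat_lit 912) (nat_lit 873012688) (nat_lit 76) (nat_lit 16775169088) (nat_lit 375) (nat_lit 5) (nat_lit 387) (nat_lit 5) (nat_lit 376) (nat_lit 5) (nat_lit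 488) (nat_lit 462) (nat_lit 250)) (XT.lf (nat_lit 0) (nat_lit 28104548915) (nat_lit 836) (nat_lit 7417319443) (nat_lit 76) (nat_lit 3369581882) (nat_lit 365) (nat_lit 5) (nat_lit 376) (nat_lit 5) (nat_lit 366) (nat_lit 5) (nat_lit 489) (nat_lit 462) (nat_lit 249))))))) (XT.nd (nat_lit 60372) (nat_lit 0) (nat_lit 15580) (XT.nd (nat_lit 468) (nat_lit 3876) (nat_lit 0) (XT.nd (nat_lit 234) (nat_lit 1368) (nat_lit 0) (XT.nd (nat_lit 78) (nat_lit 1520) (nat_lit 0) (XT.lf (nat_lit 0) (nat_lit 25437408420) (nat_lit 760) (nat_lit 10707538589) (nat_lit 836) (nat_lit 3401864509) (nat_lit 355) (nat_lit 5) (nat_lit 365) (nat_lit 5) (nat_lit 366) (nat_lit 5) (nat_lit 490) (nat_lit 462) (nat_lit 248)) (XT.nd (nat_lit 78) (nat_lit 760) (nat_lit 0) (XT.lf (nat_lit 0) (nat_lit 4420798141) (nat_lit 760) (nat_lit 20933809461) (nat_lit 76) (nat_lit 14861255779) (nat_lit 345) (nat_lit 5) (nat_lit 355) (nat_lit 5) (nat_lit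 346) (nat_lit 5) (nat_lit 491) (nat_lit 462) (nat_lit 247)) (XT.lf (nat_lit 0) (nat_lit 12684079008) (nat_lit 836) (nat_lit 27863799390) (nat_lit 76) (nat_lit 351615698) (nat_lit 335) (nat_lit 5) (nat_lit 346) (nat_lit 5) (nat_lit 336) (nat_lit 5) (nat_lit 492) (nat_lit 462) (nat_lit 246)))) (XT.nd (nat_lit 78) (nat_lit 684) (nat_lit 0) (XT.lf (nat_lit 0) (nat_lit 6623132307) (nat_lit 684) (nat_lit 14924619634) (nat_lit 760) (nat_lit 20048832060) (nat_lit 326) (nat_lit 5) (nat_lit 335) (nat_lit 5) (nat_lit 336) (nat_lit 5) (nat_lit 493) (nat_lit 462) (nat_lit 245)) (XT.nd (nat_lit 78) (nat_lit 0) (nat_lit 0) (XT.lf (nat_lit 0) (nat_lit 138105677) (nat_lit 684) (nat_lit 30801844487) (nat_lit 760) (nat_lit 11369384280) (nat_lit 317) (nat_lit 5) (nat_lit 326) (nat_lit 5) (nat_lit 327) (nat_lit 5) (nat_lit 494) (nat_lit 462) (nat_lit 244)) (XT.lf (nat_lit 0) (nat_lit 36677383636) (nat_lit 684) (nat_lit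 4269933975) (nat_lit 760) (nat_lit 2089481858) (nat_lit 317) (nat_lit 5) (nat_lit 326) (nat_lit 5) (nat_lit 327) (nat_lit 5) (nat_lit 495) (nat_lit 462) (nat_lit 243))))) (XT.nd (nat_lit 234) (nat_lit 1900) (nat_lit 0) (XT.nd (nat_lit 78) (nat_lit 1292) (nat_lit 0) (XT.lf (nat_lit 0) (nat_lit 7720033291) (nat_lit 684) (nat_lit 13052414947) (nat_lit 76) (nat_lit 23005687076) (nat_lit 308) (nat_lit 5) (nat_lit 317) (nat_lit 5) (nat_lit 309) (nat_lit 5) (nat_lit 496) (nat_lit 462) (nat_lit 242)) (XT.nd (nat_lit 78) (nat_lit 608) (nat_lit 0) (XT.lf (nat_lit 0) (nat_lit 18069249019) (nat_lit 760) (nat_lit 19832260561) (nat_lit 76) (nat_lit 6634449489) (nat_lit 299) (nat_lit 5) (nat_lit 309) (nat_lit 5) (nat_lit 300) (nat_lit 5) (nat_lit 497) (nat_lit 462) (nat_lit 241)) (XT.lf (nat_lit 0) (nat_lit 18557138876) (nat_lit 608) (nat_lit 10517665813) (nat_lit 684) (nat_lit 16234795700) (nat_lit 291) (nat_lit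 5) (nat_lit 299) (nat_lit 5) (nat_lit 300) (nat_lit 5) (nat_lit 498) (nat_lit 462) (nat_lit 240)))) (XT.nd (nat_lit 156) (nat_lit 608) (nat_lit 0) (XT.nd (nat_lit 78) (nat_lit 684) (nat_lit 0) (XT.lf (nat_lit 0) (nat_lit 12308475081) (nat_lit 608) (nat_lit 28429568154) (nat_lit 684) (nat_lit 5361857509) (nat_lit 283) (nat_lit 5) (nat_lit 291) (nat_lit 5) (nat_lit 292) (nat_lit 5) (nat_lit 499) (nat_lit 462) (nat_lit 239)) (XT.lf (nat_lit 0) (nat_lit 5962785139) (nat_lit 608) (nat_lit 86979525) (nat_lit 684) (nat_lit 40857606516) (nat_lit 274) (nat_lit 5) (nat_lit 282) (nat_lit 5) (nat_lit 283) (nat_lit 5) (nat_lit 500) (nat_lit 462) (nat_lit 238))) (XT.nd (nat_lit 78) (nat_lit 608) (nat_lit 0) (XT.lf (nat_lit 0) (nat_lit 18148343079) (nat_lit 684) (nat_lit 591792303) (nat_lit 76) (nat_lit 28989872535) (nat_lit 274) (nat_lit 5) (nat_lit 283) (nat_lit 5) (nat_lit 275) (nat_lit 5) (nat_lit 501) (nat_lit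 462) (nat_lit 237)) (XT.lf (nat_lit 0) (nat_lit 30946672069) (nat_lit 684) (nat_lit 7128602329) (nat_lit 76) (nat_lit 10495313598) (nat_lit 266) (nat_lit 5) (nat_lit 275) (nat_lit 5) (nat_lit 267) (nat_lit 5) (nat_lit 502) (nat_lit 462) (nat_lit 236)))))) (XT.nd (nat_lit 546) (nat_lit 0) (nat_lit 380) (XT.nd (nat_lit 234) (nat_lit 0) (nat_lit 152) (XT.nd (nat_lit 78) (nat_lit 0) (nat_lit 76) (XT.lf (nat_lit 0) (nat_lit 1002841145) (nat_lit 1900) (nat_lit 6051002985) (nat_lit 1900) (nat_lit 6051002985) (nat_lit 471) (nat_lit 3) (nat_lit 496) (nat_lit 3) (nat_lit 496) (nat_lit 5) (nat_lit 463) (nat_lit 463) (nat_lit 274)) (XT.nd (nat_lit 78) (nat_lit 0) (nat_lit 0) (XT.lf (nat_lit 0) (nat_lit 2262070521) (nat_lit 1824) (nat_lit 19138045600) (nat_lit 1900) (nat_lit 5198188767) (nat_lit 472) (nat_lit 5) (nat_lit 496) (nat_lit 5) (nat_lit 497) (nat_lit 5) (nat_lit 464) (nat_lit 463) (nat_lit 273)) (XT.lf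 (nat_lit 76) (nat_lit 689241517) (nat_lit 0) (nat_lit 2012679166) (nat_lit 1900) (nat_lit 24293138113) (nat_lit 473) (nat_lit 5) (nat_lit 472) (nat_lit 5) (nat_lit 497) (nat_lit 5) (nat_lit 465) (nat_lit 463) (nat_lit 272)))) (XT.nd (nat_lit 156) (nat_lit 0) (nat_lit 152) (XT.nd (nat_lit 78) (nat_lit 0) (nat_lit 76) (XT.lf (nat_lit 0) (nat_lit 3396656050) (nat_lit 1824) (nat_lit 6148353353) (nat_lit 1900) (nat_lit 17853872454) (nat_lit 473) (nat_lit 5) (nat_lit 497) (nat_lit 5) (nat_lit 498) (nat_lit 5) (nat_lit 466) (nat_lit 463) (nat_lit 271)) (XT.lf (nat_lit 0) (nat_lit 4285106881) (nat_lit 1824) (nat_lit 13090038567) (nat_lit 1900) (nat_lit 10436217013) (nat_lit 474) (nat_lit 5) (nat_lit 498) (nat_lit 5) (nat_lit 499) (nat_lit 5) (nat_lit 467) (nat_lit 463) (nat_lit 270))) (XT.nd (nat_lit 78) (nat_lit 0) (nat_lit 0) (XT.lf (nat_lit 0) (nat_lit 5371337434) (nat_lit 1824) (nat_lit 20146037965) (nat_lit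 1900) (nat_lit 2715419871) (nat_lit 475) (nat_lit 5) (nat_lit 499) (nat_lit 5) (nat_lit 500) (nat_lit 5) (nat_lit 468) (nat_lit 463) (nat_lit 269)) (XT.lf (nat_lit 76) (nat_lit 1310197772) (nat_lit 0) (nat_lit 5388959288) (nat_lit 1900) (nat_lit 21963534262) (nat_lit 476) (nat_lit 5) (nat_lit 475) (nat_lit 5) (nat_lit 500) (nat_lit 5) (nat_lit 469) (nat_lit 463) (nat_lit 268))))) (XT.nd (nat_lit 234) (nat_lit 0) (nat_lit 152) (XT.nd (nat_lit 78) (nat_lit 0) (nat_lit 76) (XT.lf (nat_lit 0) (nat_lit 8298997503) (nat_lit 1824) (nat_lit 5520593880) (nat_lit 1900) (nat_lit 15281249441) (nat_lit 476) (nat_lit 5) (nat_lit 500) (nat_lit 5) (nat_lit 501) (nat_lit 5) (nat_lit 470) (nat_lit 463) (nat_lit 267)) (XT.nd (nat_lit 78) (nat_lit 0) (nat_lit 0) (XT.lf (nat_lit 0) (nat_lit 10135377513) (nat_lit 1824) (nat_lit 12443065598) (nat_lit 1900) (nat_lit 6969921098) (nat_lit 477) (nat_lit 5) (nat_lit 501) (nat_lit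 5) (nat_lit 502) (nat_lit 5) (nat_lit 471) (nat_lit 463) (nat_lit 266)) (XT.lf (nat_lit 76) (nat_lit 10519105816) (nat_lit 0) (nat_lit 1701530883) (nat_lit 1900) (nat_lit 17784801115) (nat_lit 478) (nat_lit 5) (nat_lit 477) (nat_lit 5) (nat_lit 502) (nat_lit 5) (nat_lit 472) (nat_lit 463) (nat_lit 265)))) (XT.nd (nat_lit 156) (nat_lit 0) (nat_lit 152) (XT.nd (nat_lit 78) (nat_lit 0) (nat_lit 76) (XT.lf (nat_lit 76) (nat_lit 3783215713) (nat_lit 0) (nat_lit 10818781530) (nat_lit 1900) (nat_lit 15869555783) (nat_lit 479) (nat_lit 5) (nat_lit 478) (nat_lit 5) (nat_lit 503) (nat_lit 5) (nat_lit 473) (nat_lit 463) (nat_lit 264)) (XT.lf (nat_lit 0) (nat_lit 17263975711) (nat_lit 1824) (nat_lit 3016153628) (nat_lit 1900) (nat_lit 10667339071) (nat_lit 479) (nat_lit 5) (nat_lit 503) (nat_lit 5) (nat_lit 504) (nat_lit 5) (nat_lit 474) (nat_lit 463) (nat_lit 263))) (XT.nd (nat_lit 78) (nat_lit 0) (nat_lit 0)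 (XT.lf (nat_lit 0) (nat_lit 20222843403) (nat_lit 1824) (nat_lit 9868691304) (nat_lit 1900) (nat_lit 1341786206) (nat_lit 480) (nat_lit 5) (nat_lit 504) (nat_lit 5) (nat_lit 505) (nat_lit 5) (nat_lit 475) (nat_lit 463) (nat_lit 262)) (XT.lf (nat_lit 76) (nat_lit 15049205256) (nat_lit 0) (nat_lit 8471068551) (nat_lit 1900) (nat_lit 8408479495) (nat_lit 481) (nat_lit 5) (nat_lit 480) (nat_lit 5) (nat_lit 505) (nat_lit 5) (nat_lit 476) (nat_lit 463) (nat_lit 261))))))))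
noncomputable def xc117 : XT := (XT.nd (nat_lit 61542) (nat_lit 0) (nat_lit 6156) (XT.nd (nat_lit 1014) (nat_lit 7676) (nat_lit 0) (XT.nd (nat_lit 468) (nat_lit 4332) (nat_lit 0) (XT.nd (nat_lit 234) (nat_lit 1900) (nat_lit 0) (XT.nd (nat_lit 78) (nat_lit 1824) (nat_lit 0) (XT.lf (nat_lit 76) (nat_lit 8429308702) (nat_lit 0) (nat_lit 18694945378) (nat_lit 1900) (nat_lit 5310642281) (nat_lit 482) (nat_lit 5) (nat_lit 481) (nat_lit 5) (nat_lit 506) (nat_lit 5) (nat_lit 477) (nat_lit 463) (nat_lit 260)) (XT.nd (nat_lit 78) (nat_lit 1900) (nat_lit 0) (XT.lf (nat_lit 76) (nat_lit 1713696765) (nat_lit 0) (nat_lit 29324328229) (nat_lit 1900) (nat_lit 1914165525) (nat_lit 483) (nat_lit 5) (nat_lit 482) (nat_lit 5) (nat_lit 507) (nat_lit 5) (nat_lit 478) (nat_lit 463) (nat_lit 259)) (XT.lf (nat_lit 0) (nat_lit 1848360909) (nat_lit 1900) (nat_lit 5088237863) (nat_lit 1976) (nat_lit 26542500584) (nat_lit 457)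 (nat_lit 5) (nat_lit 482) (nat_lit 5) (nat_lit 483) (nat_lit 5) (nat_lit 479) (nat_lit 463) (nat_lit 258)))) (XT.nd (nat_lit 78) (nat_lit 1976) (nat_lit 0) (XT.lf (nat_lit 0) (nat_lit 5943522870) (nat_lit 1900) (nat_lit 12003799943) (nat_lit 76) (nat_lit 16069324493) (nat_lit 458) (nat_lit 5) (nat_lit 483) (nat_lit 5) (nat_lit 459) (nat_lit 5) (nat_lit 480) (nat_lit 463) (nat_lit 257)) (XT.nd (nat_lit 78) (nat_lit 912) (nat_lit 0) (XT.lf (nat_lit 0) (nat_lit 10374199537) (nat_lit 1140) (nat_lit 19019245525) (nat_lit 76) (nat_lit 5172623642) (nat_lit 444) (nat_lit 5) (nat_lit 459) (nat_lit 5) (nat_lit 445) (nat_lit 5) (nat_lit 481) (nat_lit 463) (nat_lit 256)) (XT.lf (nat_lit 0) (nat_lit 8951562206) (nat_lit 912) (nat_lit 6242711644) (nat_lit 988) (nat_lit 19932569549) (nat_lit 432) (nat_lit 5) (nat_lit 444) (nat_lit 5) (nat_lit 445) (nat_lit 5) (nat_lit 482) (nat_lit 463) (nat_lit 255))))) (XT.nd (nat_lit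 234) (nat_lit 2584) (nat_lit 0) (XT.nd (nat_lit 78) (nat_lit 836) (nat_lit 0) (XT.lf (nat_lit 0) (nat_lit 2230858982) (nat_lit 912) (nat_lit 18183137604) (nat_lit 988) (nat_lit 15285344020) (nat_lit 420) (nat_lit 5) (nat_lit 432) (nat_lit 5) (nat_lit 433) (nat_lit 5) (nat_lit 483) (nat_lit 463) (nat_lit 254)) (XT.nd (nat_lit 78) (nat_lit 836) (nat_lit 0) (XT.lf (nat_lit 0) (nat_lit 26043409812) (nat_lit 988) (nat_lit 4520339103) (nat_lit 76) (nat_lit 5720202028) (nat_lit 420) (nat_lit 5) (nat_lit 433) (nat_lit 5) (nat_lit 421) (nat_lit 5) (nat_lit 484) (nat_lit 463) (nat_lit 253)) (XT.lf (nat_lit 0) (nat_lit 25506015601) (nat_lit 836) (nat_lit 6619611021) (nat_lit 912) (nat_lit 4754794728) (nat_lit 409) (nat_lit 5) (nat_lit 420) (nat_lit 5) (nat_lit 421) (nat_lit 5) (nat_lit 485) (nat_lit 463) (nat_lit 252)))) (XT.nd (nat_lit 156) (nat_lit 836) (nat_lit 0) (XT.nd (nat_lit 78) (nat_lit 836) (nat_lit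 0) (XT.lf (nat_lit 0) (nat_lit 1154550016) (nat_lit 912) (nat_lit 18365741481) (nat_lit 76) (nat_lit 17968962844) (nat_lit 397) (nat_lit 5) (nat_lit 409) (nat_lit 5) (nat_lit 398) (nat_lit 5) (nat_lit 486) (nat_lit 463) (nat_lit 251)) (XT.lf (nat_lit 0) (nat_lit 7412187469) (nat_lit 912) (nat_lit 25482408264) (nat_lit 76) (nat_lit 5216415947) (nat_lit 386) (nat_lit 5) (nat_lit 398) (nat_lit 5) (nat_lit 387) (nat_lit 5) (nat_lit 487) (nat_lit 463) (nat_lit 250))) (XT.nd (nat_lit 78) (nat_lit 0) (nat_lit 0) (XT.lf (nat_lit 0) (nat_lit 5999392831) (nat_lit 836) (nat_lit 8149850632) (nat_lit 912) (nat_lit 24596344653) (nat_lit 375) (nat_lit 5) (nat_lit 386) (nat_lit 5) (nat_lit 387) (nat_lit 5) (nat_lit 488) (nat_lit 463) (nat_lit 249)) (XT.lf (nat_lit 0) (nat_lit 21371785490) (nat_lit 912) (nat_lit 738174268) (nat_lit 76) (nat_lit 17283574761) (nat_lit 375) (nat_lit 5) (nat_lit 387) (nat_lit 5) (nat_lit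 376) (nat_lit 5) (nat_lit 489) (nat_lit 463) (nat_lit 248)))))) (XT.nd (nat_lit 546) (nat_lit 3268) (nat_lit 0) (XT.nd (nat_lit 234) (nat_lit 2128) (nat_lit 0) (XT.nd (nat_lit 78) (nat_lit 1520) (nat_lit 0) (XT.lf (nat_lit 0) (nat_lit 29097135412) (nat_lit 836) (nat_lit 7478485583) (nat_lit 76) (nat_lit 3479575842) (nat_lit 365) (nat_lit 5) (nat_lit 376) (nat_lit 5) (nat_lit 366) (nat_lit 5) (nat_lit 490) (nat_lit 463) (nat_lit 247)) (XT.nd (nat_lit 78) (nat_lit 760) (nat_lit 0) (XT.lf (nat_lit 0) (nat_lit 26359266347) (nat_lit 760) (nat_lit 11016156805) (nat_lit 836) (nat_lit 3354862477) (nat_lit 355) (nat_lit 5) (nat_lit 365) (nat_lit 5) (nat_lit 366) (nat_lit 5) (nat_lit 491) (nat_lit 463) (nat_lit 246)) (XT.lf (nat_lit 0) (nat_lit 4697359502) (nat_lit 760) (nat_lit 21400941041) (nat_lit 76) (nat_lit 15321152681) (nat_lit 345) (nat_lit 5) (nat_lit 355) (nat_lit 5) (nat_lit 346) (nat_lit 5) (nat_lit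 492) (nat_lit 463) (nat_lit 245)))) (XT.nd (nat_lit 156) (nat_lit 684) (nat_lit 0) (XT.nd (nat_lit 78) (nat_lit 684) (nat_lit 0) (XT.lf (nat_lit 0) (nat_lit 13205487675) (nat_lit 836) (nat_lit 28538731869) (nat_lit 76) (nat_lit 379434552) (nat_lit 335) (nat_lit 5) (nat_lit 346) (nat_lit 5) (nat_lit 336) (nat_lit 5) (nat_lit 493) (nat_lit 463) (nat_lit 244)) (XT.lf (nat_lit 0) (nat_lit 6980196045) (nat_lit 684) (nat_lit 15351799508) (nat_lit 760) (nat_lit 20509722857) (nat_lit 326) (nat_lit 5) (nat_lit 335) (nat_lit 5) (nat_lit 336) (nat_lit 5) (nat_lit 494) (nat_lit 463) (nat_lit 243))) (XT.nd (nat_lit 78) (nat_lit 0) (nat_lit 0) (XT.lf (nat_lit 0) (nat_lit 300636222) (nat_lit 684) (nat_lit 31702467534) (nat_lit 760) (nat_lit 11572804929) (nat_lit 317) (nat_lit 5) (nat_lit 326) (nat_lit 5) (nat_lit 327) (nat_lit 5) (nat_lit 495) (nat_lit 463) (nat_lit 242)) (XT.lf (nat_lit 0) (nat_lit 37931479296)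 (nat_lit 684) (nat_lit 4375282201) (nat_lit 760) (nat_lit 2018514974) (nat_lit 317) (nat_lit 5) (nat_lit 326) (nat_lit 5) (nat_lit 327) (nat_lit 5) (nat_lit 496) (nat_lit 463) (nat_lit 241))))) (XT.nd (nat_lit 234) (nat_lit 1292) (nat_lit 0) (XT.nd (nat_lit 78) (nat_lit 1292) (nat_lit 0) (XT.lf (nat_lit 0) (nat_lit 8080840070) (nat_lit 684) (nat_lit 13288545736) (nat_lit 76) (nat_lit 23719503268) (nat_lit 308) (nat_lit 5) (nat_lit 317) (nat_lit 5) (nat_lit 309) (nat_lit 5) (nat_lit 497) (nat_lit 463) (nat_lit 240)) (XT.nd (nat_lit 78) (nat_lit 608) (nat_lit 0) (XT.lf (nat_lit 0) (nat_lit 18737933806) (nat_lit 760) (nat_lit 20271945821) (nat_lit 76) (nat_lit 6859620065) (nat_lit 299) (nat_lit 5) (nat_lit 309) (nat_lit 5) (nat_lit 300) (nat_lit 5) (nat_lit 498) (nat_lit 463) (nat_lit 239)) (XT.lf (nat_lit 0) (nat_lit 19266616324) (nat_lit 608) (nat_lit 10804344071) (nat_lit 684) (nat_lit 16595443947)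 (nat_lit 291) (nat_lit 5) (nat_lit 299) (nat_lit 5) (nat_lit 300) (nat_lit 5) (nat_lit 499) (nat_lit 463) (nat_lit 238)))) (XT.nd (nat_lit 156) (nat_lit 0) (nat_lit 0) (XT.nd (nat_lit 78) (nat_lit 684) (nat_lit 0) (XT.lf (nat_lit 0) (nat_lit 12830273685) (nat_lit 608) (nat_lit 29251385626) (nat_lit 684) (nat_lit 5398803303) (nat_lit 283) (nat_lit 5) (nat_lit 291) (nat_lit 5) (nat_lit 292) (nat_lit 5) (nat_lit 500) (nat_lit 463) (nat_lit 237)) (XT.lf (nat_lit 0) (nat_lit 6293342386) (nat_lit 608) (nat_lit 57623121) (nat_lit 684) (nat_lit 41961227266) (nat_lit 274) (nat_lit 5) (nat_lit 282) (nat_lit 5) (nat_lit 283) (nat_lit 5) (nat_lit 501) (nat_lit 463) (nat_lit 236))) (XT.nd (nat_lit 59514) (nat_lit 0) (nat_lit 14972) (XT.lf (nat_lit 0) (nat_lit 18809216134) (nat_lit 684) (nat_lit 460161904) (nat_lit 76) (nat_lit 29890196432) (nat_lit 274) (nat_lit 5) (nat_lit 283) (nat_lit 5) (nat_lit 275) (nat_lit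 5) (nat_lit 502) (nat_lit 463) (nat_lit 235)) (XT.lf (nat_lit 0) (nat_lit 1174988491) (nat_lit 1900) (nat_lit 6160077091) (nat_lit 1900) (nat_lit 6160077091) (nat_lit 471) (nat_lit 3) (nat_lit 496) (nat_lit 3) (nat_lit 496) (nat_lit 5) (nat_lit 464) (nat_lit 464) (nat_lit 272))))))) (XT.nd (nat_lit 1092) (nat_lit 8892) (nat_lit 0) (XT.nd (nat_lit 546) (nat_lit 0) (nat_lit 380) (XT.nd (nat_lit 234) (nat_lit 0) (nat_lit 152) (XT.nd (nat_lit 78) (nat_lit 0) (nat_lit 0) (XT.lf (nat_lit 0) (nat_lit 2605835594) (nat_lit 1824) (nat_lit 19563202404) (nat_lit 1900) (nat_lit 5221681248) (nat_lit 472) (nat_lit 5) (nat_lit 496) (nat_lit 5) (nat_lit 497) (nat_lit 5) (nat_lit 465) (nat_lit 464) (nat_lit 271)) (XT.nd (nat_lit 78) (nat_lit 0) (nat_lit 76) (XT.lf (nat_lit 76) (nat_lit 856486228) (nat_lit 0) (nat_lit 2195310636) (nat_lit 1900) (nat_lit 24747721082) (nat_lit 473) (nat_lit 5) (nat_lit 472) (nat_lit 5)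 (nat_lit 497) (nat_lit 5) (nat_lit 466) (nat_lit 464) (nat_lit 270)) (XT.lf (nat_lit 0) (nat_lit 3758774009) (nat_lit 1824) (nat_lit 6184499280) (nat_lit 1900) (nat_lit 18272354889) (nat_lit 473) (nat_lit 5) (nat_lit 497) (nat_lit 5) (nat_lit 498) (nat_lit 5) (nat_lit 467) (nat_lit 464) (nat_lit 269)))) (XT.nd (nat_lit 156) (nat_lit 0) (nat_lit 76) (XT.nd (nat_lit 78) (nat_lit 0) (nat_lit 76) (XT.lf (nat_lit 0) (nat_lit 4666547282) (nat_lit 1824) (nat_lit 13331054899) (nat_lit 1900) (nat_lit 10643028100) (nat_lit 474) (nat_lit 5) (nat_lit 498) (nat_lit 5) (nat_lit 499) (nat_lit 5) (nat_lit 468) (nat_lit 464) (nat_lit 268)) (XT.lf (nat_lit 0) (nat_lit 5778336448) (nat_lit 1824) (nat_lit 20595618994) (nat_lit 1900) (nat_lit 2700891644) (nat_lit 475) (nat_lit 5) (nat_lit 499) (nat_lit 5) (nat_lit 500) (nat_lit 5) (nat_lit 469) (nat_lit 464) (nat_lit 267))) (XT.nd (nat_lit 78) (nat_lit 0) (nat_lit 76)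 (XT.lf (nat_lit 76) (nat_lit 1501792367) (nat_lit 0) (nat_lit 5638026116) (nat_lit 1900) (nat_lit 22377945414) (nat_lit 476) (nat_lit 5) (nat_lit 475) (nat_lit 5) (nat_lit 500) (nat_lit 5) (nat_lit 470) (nat_lit 464) (nat_lit 266)) (XT.lf (nat_lit 0) (nat_lit 8780122054) (nat_lit 1824) (nat_lit 5533139587) (nat_lit 1900) (nat_lit 15655947305) (nat_lit 476) (nat_lit 5) (nat_lit 500) (nat_lit 5) (nat_lit 501) (nat_lit 5) (nat_lit 471) (nat_lit 464) (nat_lit 265))))) (XT.nd (nat_lit 234) (nat_lit 0) (nat_lit 152) (XT.nd (nat_lit 78) (nat_lit 0) (nat_lit 0) (XT.lf (nat_lit 0) (nat_lit 10665317375) (nat_lit 1824) (nat_lit 12660735829) (nat_lit 1900) (nat_lit 7104230757) (nat_lit 477) (nat_lit 5) (nat_lit 501) (nat_lit 5) (nat_lit 502) (nat_lit 5) (nat_lit 472) (nat_lit 464) (nat_lit 264)) (XT.nd (nat_lit 78) (nat_lit 0) (nat_lit 76) (XT.lf (nat_lit 76) (nat_lit 10987775949) (nat_lit 0) (nat_lit 1819773408)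 (nat_lit 1900) (nat_lit 18093632514) (nat_lit 478) (nat_lit 5) (nat_lit 477) (nat_lit 5) (nat_lit 502) (nat_lit 5) (nat_lit 473) (nat_lit 464) (nat_lit 263)) (XT.lf (nat_lit 76) (nat_lit 4052101916) (nat_lit 0) (nat_lit 11202417799) (nat_lit 1900) (nat_lit 16126877829) (nat_lit 479) (nat_lit 5) (nat_lit 478) (nat_lit 5) (nat_lit 503) (nat_lit 5) (nat_lit 474) (nat_lit 464) (nat_lit 262)))) (XT.nd (nat_lit 156) (nat_lit 0) (nat_lit 76) (XT.nd (nat_lit 78) (nat_lit 0) (nat_lit 76) (XT.lf (nat_lit 0) (nat_lit 17989738687) (nat_lit 1824) (nat_lit 2951225281) (nat_lit 1900) (nat_lit 10930759173) (nat_lit 479) (nat_lit 5) (nat_lit 503) (nat_lit 5) (nat_lit 504) (nat_lit 5) (nat_lit 475) (nat_lit 464) (nat_lit 261)) (XT.lf (nat_lit 0) (nat_lit 21031987456) (nat_lit 1824) (nat_lit 10007468812) (nat_lit 1900) (nat_lit 1332803011) (nat_lit 480) (nat_lit 5) (nat_lit 504) (nat_lit 5) (nat_lit 505) (nat_lit 5)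 (nat_lit 476) (nat_lit 464) (nat_lit 260))) (XT.nd (nat_lit 78) (nat_lit 0) (nat_lit 76) (XT.lf (nat_lit 76) (nat_lit 15655412911) (nat_lit 0) (nat_lit 8768035624) (nat_lit 1900) (nat_lit 8459204302) (nat_lit 481) (nat_lit 5) (nat_lit 480) (nat_lit 5) (nat_lit 505) (nat_lit 5) (nat_lit 477) (nat_lit 464) (nat_lit 259)) (XT.lf (nat_lit 76) (nat_lit 8838581495) (nat_lit 0) (nat_lit 19291957754) (nat_lit 1900) (nat_lit 5273541460) (nat_lit 482) (nat_lit 5) (nat_lit 481) (nat_lit 5) (nat_lit 506) (nat_lit 5) (nat_lit 478) (nat_lit 464) (nat_lit 258)))))) (XT.nd (nat_lit 546) (nat_lit 4940) (nat_lit 0) (XT.nd (nat_lit 234) (nat_lit 2812) (nat_lit 0) (XT.nd (nat_lit 78) (nat_lit 1900) (nat_lit 0) (XT.lf (nat_lit 76) (nat_lit 1922994770) (nat_lit 0) (nat_lit 30233917195) (nat_lit 1900) (nat_lit 1780078285) (nat_lit 483) (nat_lit 5) (nat_lit 482) (nat_lit 5) (nat_lit 507) (nat_lit 5) (nat_lit 479) (nat_lit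 464) (nat_lit 257)) (XT.nd (nat_lit 78) (nat_lit 0) (nat_lit 76) (XT.lf (nat_lit 0) (nat_lit 2087307356) (nat_lit 1900) (nat_lit 5085147463) (nat_lit 1976) (nat_lit 27307337079) (nat_lit 457) (nat_lit 5) (nat_lit 482) (nat_lit 5) (nat_lit 483) (nat_lit 5) (nat_lit 480) (nat_lit 464) (nat_lit 256)) (XT.lf (nat_lit 0) (nat_lit 6300806003) (nat_lit 1900) (nat_lit 12206941537) (nat_lit 76) (nat_lit 16525809415) (nat_lit 458) (nat_lit 5) (nat_lit 483) (nat_lit 5) (nat_lit 459) (nat_lit 5) (nat_lit 481) (nat_lit 464) (nat_lit 255)))) (XT.nd (nat_lit 156) (nat_lit 912) (nat_lit 0) (XT.nd (nat_lit 78) (nat_lit 912) (nat_lit 0) (XT.lf (nat_lit 0) (nat_lit 10860060599) (nat_lit 1140) (nat_lit 19431759842) (nat_lit 76) (nat_lit 5307727700) (nat_lit 444) (nat_lit 5) (nat_lit 459) (nat_lit 5) (nat_lit 445) (nat_lit 5) (nat_lit 482) (nat_lit 464) (nat_lit 254)) (XT.lf (nat_lit 0) (nat_lit 9375607736) (nat_lit 912)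 (nat_lit 6445052547) (nat_lit 988) (nat_lit 20356567619) (nat_lit 432) (nat_lit 5) (nat_lit 444) (nat_lit 5) (nat_lit 445) (nat_lit 5) (nat_lit 483) (nat_lit 464) (nat_lit 253))) (XT.nd (nat_lit 78) (nat_lit 0) (nat_lit 0) (XT.lf (nat_lit 0) (nat_lit 2454222125) (nat_lit 912) (nat_lit 18738705627) (nat_lit 988) (nat_lit 15574053493) (nat_lit 420) (nat_lit 5) (nat_lit 432) (nat_lit 5) (nat_lit 433) (nat_lit 5) (nat_lit 484) (nat_lit 464) (nat_lit 252)) (XT.lf (nat_lit 0) (nat_lit 26986310031) (nat_lit 988) (nat_lit 4500762520) (nat_lit 76) (nat_lit 5882155880) (nat_lit 420) (nat_lit 5) (nat_lit 433) (nat_lit 5) (nat_lit 421) (nat_lit 5) (nat_lit 485) (nat_lit 464) (nat_lit 251))))) (XT.nd (nat_lit 234) (nat_lit 2356) (nat_lit 0) (XT.nd (nat_lit 78) (nat_lit 1748) (nat_lit 0) (XT.lf (nat_lit 0) (nat_lit 26423865104) (nat_lit 836) (nat_lit 6823412735) (nat_lit 912) (nat_lit 4736389688) (nat_lit 409) (nat_lit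 5) (nat_lit 420) (nat_lit 5) (nat_lit 421) (nat_lit 5) (nat_lit 486) (nat_lit 464) (nat_lit 250)) (XT.nd (nat_lit 78) (nat_lit 836) (nat_lit 0) (XT.lf (nat_lit 0) (nat_lit 1344463091) (nat_lit 912) (nat_lit 18761301236) (nat_lit 76) (nat_lit 18505053721) (nat_lit 397) (nat_lit 5) (nat_lit 409) (nat_lit 5) (nat_lit 398) (nat_lit 5) (nat_lit 487) (nat_lit 464) (nat_lit 249)) (XT.lf (nat_lit 0) (nat_lit 7786307150) (nat_lit 912) (nat_lit 26090953756) (nat_lit 76) (nat_lit 5374037896) (nat_lit 386) (nat_lit 5) (nat_lit 398) (nat_lit 5) (nat_lit 387) (nat_lit 5) (nat_lit 488) (nat_lit 464) (nat_lit 248)))) (XT.nd (nat_lit 156) (nat_lit 1520) (nat_lit 0) (XT.nd (nat_lit 78) (nat_lit 0) (nat_lit 0) (XT.lf (nat_lit 0) (nat_lit 6332771646) (nat_lit 836) (nat_lit 8389279113) (nat_lit 912) (nat_lit 25182930491) (nat_lit 375) (nat_lit 5) (nat_lit 386) (nat_lit 5) (nat_lit 387) (nat_lit 5) (nat_lit 489) (nat_lit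 464) (nat_lit 247)) (XT.lf (nat_lit 0) (nat_lit 22156980695) (nat_lit 912) (nat_lit 608534408) (nat_lit 76) (nat_lit 17806936939) (nat_lit 375) (nat_lit 5) (nat_lit 387) (nat_lit 5) (nat_lit 376) (nat_lit 5) (nat_lit 490) (nat_lit 464) (nat_lit 246))) (XT.nd (nat_lit 78) (nat_lit 760) (nat_lit 0) (XT.lf (nat_lit 0) (nat_lit 30110920460) (nat_lit 836) (nat_lit 7550749056) (nat_lit 76) (nat_lit 3592358350) (nat_lit 365) (nat_lit 5) (nat_lit 376) (nat_lit 5) (nat_lit 366) (nat_lit 5) (nat_lit 491) (nat_lit 464) (nat_lit 245)) (XT.lf (nat_lit 0) (nat_lit 27299667935) (nat_lit 760) (nat_lit 11334757314) (nat_lit 836) (nat_lit 3315006921) (nat_lit 355) (nat_lit 5) (nat_lit 365) (nat_lit 5) (nat_lit 366) (nat_lit 5) (nat_lit 492) (nat_lit 464) (nat_lit 244))))))))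
noncomputable def xc118 : XT := (XT.nd (nat_lit 61620) (nat_lit 0) (nat_lit 684) (XT.nd (nat_lit 60528) (nat_lit 0) (nat_lit 13908) (XT.nd (nat_lit 468) (nat_lit 2584) (nat_lit 0) (XT.nd (nat_lit 234) (nat_lit 1368) (nat_lit 0) (XT.nd (nat_lit 78) (nat_lit 1444) (nat_lit 0) (XT.lf (nat_lit 0) (nat_lit 4973955108) (nat_lit 760) (nat_lit 21891321894) (nat_lit 76) (nat_lit 15794039432) (nat_lit 345) (nat_lit 5) (nat_lit 355) (nat_lit 5) (nat_lit 346) (nat_lit 5) (nat_lit 493) (nat_lit 464) (nat_lit 243)) (XT.nd (nat_lit 78) (nat_lit 684) (nat_lit 0) (XT.lf (nat_lit 0) (nat_lit 13734451152) (nat_lit 836) (nat_lit 29243153320) (nat_lit 76) (nat_lit 407096580) (nat_lit 335) (nat_lit 5) (nat_lit 346) (nat_lit 5) (nat_lit 336) (nat_lit 5) (nat_lit 494) (nat_lit 464) (nat_lit 242)) (XT.lf (nat_lit 0) (nat_lit 7338880623) (nat_lit 684) (nat_lit 15792974933) (nat_lit 760) (nat_lit 20992509910) (nat_lit 326) (nat_lit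 5) (nat_lit 335) (nat_lit 5) (nat_lit 336) (nat_lit 5) (nat_lit 495) (nat_lit 464) (nat_lit 241)))) (XT.nd (nat_lit 78) (nat_lit 684) (nat_lit 0) (XT.lf (nat_lit 0) (nat_lit 458950601) (nat_lit 684) (nat_lit 32631454383) (nat_lit 760) (nat_lit 11790230495) (nat_lit 317) (nat_lit 5) (nat_lit 326) (nat_lit 5) (nat_lit 327) (nat_lit 5) (nat_lit 496) (nat_lit 464) (nat_lit 240)) (XT.nd (nat_lit 78) (nat_lit 684) (nat_lit 0) (XT.lf (nat_lit 0) (nat_lit 39214370561) (nat_lit 684) (nat_lit 4485096805) (nat_lit 760) (nat_lit 1953091217) (nat_lit 317) (nat_lit 5) (nat_lit 326) (nat_lit 5) (nat_lit 327) (nat_lit 5) (nat_lit 497) (nat_lit 464) (nat_lit 239)) (XT.lf (nat_lit 0) (nat_lit 8445054113) (nat_lit 684) (nat_lit 13540683437) (nat_lit 76) (nat_lit 24453376593) (nat_lit 308) (nat_lit 5) (nat_lit 317) (nat_lit 5) (nat_lit 309) (nat_lit 5) (nat_lit 498) (nat_lit 464) (nat_lit 238))))) (XT.nd (nat_lit 234)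 (nat_lit 684) (nat_lit 0) (XT.nd (nat_lit 78) (nat_lit 1216) (nat_lit 0) (XT.lf (nat_lit 0) (nat_lit 19419411360) (nat_lit 760) (nat_lit 20733735493) (nat_lit 76) (nat_lit 7090045383) (nat_lit 299) (nat_lit 5) (nat_lit 309) (nat_lit 5) (nat_lit 300) (nat_lit 5) (nat_lit 499) (nat_lit 464) (nat_lit 237)) (XT.nd (nat_lit 78) (nat_lit 608) (nat_lit 0) (XT.lf (nat_lit 0) (nat_lit 19988608858) (nat_lit 608) (nat_lit 11101278884) (nat_lit 684) (nat_lit 16974167267) (nat_lit 291) (nat_lit 5) (nat_lit 299) (nat_lit 5) (nat_lit 300) (nat_lit 5) (nat_lit 500) (nat_lit 464) (nat_lit 236)) (XT.lf (nat_lit 0) (nat_lit 13358969577) (nat_lit 608) (nat_lit 30099641142) (nat_lit 684) (nat_lit 5443970407) (nat_lit 283) (nat_lit 5) (nat_lit 291) (nat_lit 5) (nat_lit 292) (nat_lit 5) (nat_lit 501) (nat_lit 464) (nat_lit 235)))) (XT.nd (nat_lit 59670) (nat_lit 0) (nat_lit 15048) (XT.nd (nat_lit 59592) (nat_lit 0) (nat_lit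 14972) (XT.lf (nat_lit 0) (nat_lit 6625109659) (nat_lit 608) (nat_lit 29220992) (nat_lit 684) (nat_lit 43104966105) (nat_lit 274) (nat_lit 5) (nat_lit 282) (nat_lit 5) (nat_lit 283) (nat_lit 5) (nat_lit 502) (nat_lit 464) (nat_lit 234)) (XT.lf (nat_lit 0) (nat_lit 1344145310) (nat_lit 1900) (nat_lit 6276582689) (nat_lit 1900) (nat_lit 6276582689) (nat_lit 471) (nat_lit 3) (nat_lit 496) (nat_lit 3) (nat_lit 496) (nat_lit 5) (nat_lit 465) (nat_lit 465) (nat_lit 270))) (XT.nd (nat_lit 78) (nat_lit 0) (nat_lit 0) (XT.lf (nat_lit 0) (nat_lit 2944075659) (nat_lit 1824) (nat_lit 20009666237) (nat_lit 1900) (nat_lit 5253481858) (nat_lit 472) (nat_lit 5) (nat_lit 496) (nat_lit 5) (nat_lit 497) (nat_lit 5) (nat_lit 466) (nat_lit 465) (nat_lit 269)) (XT.lf (nat_lit 76) (nat_lit 1020334708) (nat_lit 0) (nat_lit 2376403338) (nat_lit 1900) (nat_lit 25231682383) (nat_lit 473) (nat_lit 5) (nat_lit 472) (nat_lit 5)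 (nat_lit 497) (nat_lit 5) (nat_lit 467) (nat_lit 465) (nat_lit 268)))))) (XT.nd (nat_lit 546) (nat_lit 1216) (nat_lit 0) (XT.nd (nat_lit 234) (nat_lit 0) (nat_lit 152) (XT.nd (nat_lit 78) (nat_lit 0) (nat_lit 76) (XT.lf (nat_lit 0) (nat_lit 4116817913) (nat_lit 1824) (nat_lit 6230242879) (nat_lit 1900) (nat_lit 18710115753) (nat_lit 473) (nat_lit 5) (nat_lit 497) (nat_lit 5) (nat_lit 498) (nat_lit 5) (nat_lit 468) (nat_lit 465) (nat_lit 267)) (XT.nd (nat_lit 78) (nat_lit 0) (nat_lit 76) (XT.lf (nat_lit 0) (nat_lit 5044914136) (nat_lit 1824) (nat_lit 13588009051) (nat_lit 1900) (nat_lit 10862144163) (nat_lit 474) (nat_lit 5) (nat_lit 498) (nat_lit 5) (nat_lit 499) (nat_lit 5) (nat_lit 469) (nat_lit 465) (nat_lit 266)) (XT.lf (nat_lit 0) (nat_lit 6183432125) (nat_lit 1824) (nat_lit 21067573615) (nat_lit 1900) (nat_lit 2691437837) (nat_lit 475) (nat_lit 5) (nat_lit 499) (nat_lit 5) (nat_lit 500) (nat_lit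 5) (nat_lit 470) (nat_lit 465) (nat_lit 265)))) (XT.nd (nat_lit 156) (nat_lit 0) (nat_lit 152) (XT.nd (nat_lit 78) (nat_lit 0) (nat_lit 76) (XT.lf (nat_lit 76) (nat_lit 1690392807) (nat_lit 0) (nat_lit 5889547943) (nat_lit 1900) (nat_lit 22818823907) (nat_lit 476) (nat_lit 5) (nat_lit 475) (nat_lit 5) (nat_lit 500) (nat_lit 5) (nat_lit 471) (nat_lit 465) (nat_lit 264)) (XT.lf (nat_lit 0) (nat_lit 9262353716) (nat_lit 1824) (nat_lit 5554848631) (nat_lit 1900) (nat_lit 16046693101) (nat_lit 476) (nat_lit 5) (nat_lit 500) (nat_lit 5) (nat_lit 501) (nat_lit 5) (nat_lit 472) (nat_lit 465) (nat_lit 263))) (XT.nd (nat_lit 78) (nat_lit 0) (nat_lit 0) (XT.lf (nat_lit 0) (nat_lit 11198189080) (nat_lit 1824) (nat_lit 12893869492) (nat_lit 1900) (nat_lit 7246862842) (nat_lit 477) (nat_lit 5) (nat_lit 501) (nat_lit 5) (nat_lit 502) (nat_lit 5) (nat_lit 473) (nat_lit 465) (nat_lit 262)) (XT.lf (nat_lit 76) (nat_lit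 11461717794) (nat_lit 0) (nat_lit 1937705849) (nat_lit 1900) (nat_lit 18424628280) (nat_lit 478) (nat_lit 5) (nat_lit 477) (nat_lit 5) (nat_lit 502) (nat_lit 5) (nat_lit 474) (nat_lit 465) (nat_lit 261))))) (XT.nd (nat_lit 234) (nat_lit 1596) (nat_lit 0) (XT.nd (nat_lit 78) (nat_lit 0) (nat_lit 76) (XT.lf (nat_lit 76) (nat_lit 4320134700) (nat_lit 0) (nat_lit 11594172134) (nat_lit 1900) (nat_lit 16404477520) (nat_lit 479) (nat_lit 5) (nat_lit 478) (nat_lit 5) (nat_lit 503) (nat_lit 5) (nat_lit 475) (nat_lit 465) (nat_lit 260)) (XT.nd (nat_lit 78) (nat_lit 0) (nat_lit 76) (XT.lf (nat_lit 0) (nat_lit 18725343473) (nat_lit 1824) (nat_lit 2893270423) (nat_lit 1900) (nat_lit 11205330953) (nat_lit 479) (nat_lit 5) (nat_lit 503) (nat_lit 5) (nat_lit 504) (nat_lit 5) (nat_lit 476) (nat_lit 465) (nat_lit 259)) (XT.lf (nat_lit 0) (nat_lit 21853783870) (nat_lit 1824) (nat_lit 10159438347) (nat_lit 1900) (nat_lit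 1326376713) (nat_lit 480) (nat_lit 5) (nat_lit 504) (nat_lit 5) (nat_lit 505) (nat_lit 5) (nat_lit 477) (nat_lit 465) (nat_lit 258)))) (XT.nd (nat_lit 156) (nat_lit 1748) (nat_lit 0) (XT.nd (nat_lit 78) (nat_lit 0) (nat_lit 76) (XT.lf (nat_lit 76) (nat_lit 16270924574) (nat_lit 0) (nat_lit 9071452804) (nat_lit 1900) (nat_lit 8523019475) (nat_lit 481) (nat_lit 5) (nat_lit 480) (nat_lit 5) (nat_lit 505) (nat_lit 5) (nat_lit 478) (nat_lit 465) (nat_lit 257)) (XT.lf (nat_lit 76) (nat_lit 9251154844) (nat_lit 0) (nat_lit 19904804539) (nat_lit 1900) (nat_lit 5246602930) (nat_lit 482) (nat_lit 5) (nat_lit 481) (nat_lit 5) (nat_lit 506) (nat_lit 5) (nat_lit 479) (nat_lit 465) (nat_lit 256))) (XT.nd (nat_lit 78) (nat_lit 1900) (nat_lit 0) (XT.lf (nat_lit 76) (nat_lit 2129508349) (nat_lit 0) (nat_lit 31169079794) (nat_lit 1900) (nat_lit 1652962013) (nat_lit 483) (nat_lit 5) (nat_lit 482) (nat_lit 5) (nat_lit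 507) (nat_lit 5) (nat_lit 480) (nat_lit 465) (nat_lit 255)) (XT.lf (nat_lit 0) (nat_lit 2322888797) (nat_lit 1900) (nat_lit 5090904323) (nat_lit 1976) (nat_lit 28096923367) (nat_lit 457) (nat_lit 5) (nat_lit 482) (nat_lit 5) (nat_lit 483) (nat_lit 5) (nat_lit 481) (nat_lit 465) (nat_lit 254))))))) (XT.nd (nat_lit 1092) (nat_lit 3952) (nat_lit 0) (XT.nd (nat_lit 546) (nat_lit 4712) (nat_lit 0) (XT.nd (nat_lit 234) (nat_lit 2660) (nat_lit 0) (XT.nd (nat_lit 78) (nat_lit 1976) (nat_lit 0) (XT.lf (nat_lit 0) (nat_lit 6658533592) (nat_lit 1900) (nat_lit 12425188238) (nat_lit 76) (nat_lit 16997458132) (nat_lit 458) (nat_lit 5) (nat_lit 483) (nat_lit 5) (nat_lit 459) (nat_lit 5) (nat_lit 482) (nat_lit 465) (nat_lit 253)) (XT.nd (nat_lit 78) (nat_lit 912) (nat_lit 0) (XT.lf (nat_lit 0) (nat_lit 11350472724) (nat_lit 1140) (nat_lit 19865723053) (nat_lit 76) (nat_lit 5448037248) (nat_lit 444) (nat_lit 5) (nat_lit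 459) (nat_lit 5) (nat_lit 445) (nat_lit 5) (nat_lit 483) (nat_lit 465) (nat_lit 252)) (XT.lf (nat_lit 0) (nat_lit 9803448373) (nat_lit 912) (nat_lit 6652599197) (nat_lit 988) (nat_lit 20803272739) (nat_lit 432) (nat_lit 5) (nat_lit 444) (nat_lit 5) (nat_lit 445) (nat_lit 5) (nat_lit 484) (nat_lit 465) (nat_lit 251)))) (XT.nd (nat_lit 156) (nat_lit 1748) (nat_lit 0) (XT.nd (nat_lit 78) (nat_lit 0) (nat_lit 0) (XT.lf (nat_lit 0) (nat_lit 2675306017) (nat_lit 912) (nat_lit 19310362409) (nat_lit 988) (nat_lit 15881174384) (nat_lit 420) (nat_lit 5) (nat_lit 432) (nat_lit 5) (nat_lit 433) (nat_lit 5) (nat_lit 485) (nat_lit 465) (nat_lit 250)) (XT.lf (nat_lit 0) (nat_lit 27948220875) (nat_lit 988) (nat_lit 4489506995) (nat_lit 76) (nat_lit 6049522425) (nat_lit 420) (nat_lit 5) (nat_lit 433) (nat_lit 5) (nat_lit 421) (nat_lit 5) (nat_lit 486) (nat_lit 465) (nat_lit 249))) (XT.nd (nat_lit 78) (nat_lit 912)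 (nat_lit 0) (XT.lf (nat_lit 0) (nat_lit 27360486265) (nat_lit 836) (nat_lit 7033029230) (nat_lit 912) (nat_lit 4726677361) (nat_lit 409) (nat_lit 5) (nat_lit 420) (nat_lit 5) (nat_lit 421) (nat_lit 5) (nat_lit 487) (nat_lit 465) (nat_lit 248)) (XT.lf (nat_lit 0) (nat_lit 1531160048) (nat_lit 912) (nat_lit 19177649096) (nat_lit 76) (nat_lit 19057398274) (nat_lit 397) (nat_lit 5) (nat_lit 409) (nat_lit 5) (nat_lit 398) (nat_lit 5) (nat_lit 488) (nat_lit 465) (nat_lit 247))))) (XT.nd (nat_lit 234) (nat_lit 3040) (nat_lit 0) (XT.nd (nat_lit 78) (nat_lit 836) (nat_lit 0) (XT.lf (nat_lit 0) (nat_lit 8162939118) (nat_lit 912) (nat_lit 26726706446) (nat_lit 76) (nat_lit 5536323667) (nat_lit 386) (nat_lit 5) (nat_lit 398) (nat_lit 5) (nat_lit 387) (nat_lit 5) (nat_lit 489) (nat_lit 465) (nat_lit 246)) (XT.nd (nat_lit 78) (nat_lit 0) (nat_lit 0) (XT.lf (nat_lit 0) (nat_lit 6667346208) (nat_lit 836) (nat_lit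 8636181316) (nat_lit 912) (nat_lit 25795799402) (nat_lit 375) (nat_lit 5) (nat_lit 386) (nat_lit 5) (nat_lit 387) (nat_lit 5) (nat_lit 490) (nat_lit 465) (nat_lit 245)) (XT.lf (nat_lit 0) (nat_lit 22957463177) (nat_lit 912) (nat_lit 483718437) (nat_lit 76) (nat_lit 18345721289) (nat_lit 375) (nat_lit 5) (nat_lit 387) (nat_lit 5) (nat_lit 376) (nat_lit 5) (nat_lit 491) (nat_lit 465) (nat_lit 244)))) (XT.nd (nat_lit 156) (nat_lit 1520) (nat_lit 0) (XT.nd (nat_lit 78) (nat_lit 760) (nat_lit 0) (XT.lf (nat_lit 0) (nat_lit 31147032489) (nat_lit 836) (nat_lit 7633911083) (nat_lit 76) (nat_lit 3708042413) (nat_lit 365) (nat_lit 5) (nat_lit 376) (nat_lit 5) (nat_lit 366) (nat_lit 5) (nat_lit 492) (nat_lit 465) (nat_lit 243)) (XT.lf (nat_lit 0) (nat_lit 28259692565) (nat_lit 760) (nat_lit 11663598040) (nat_lit 836) (nat_lit 3282021056) (nat_lit 355) (nat_lit 5) (nat_lit 365) (nat_lit 5) (nat_lit 366) (nat_lit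 5) (nat_lit 493) (nat_lit 465) (nat_lit 242))) (XT.nd (nat_lit 78) (nat_lit 760) (nat_lit 0) (XT.lf (nat_lit 0) (nat_lit 5251060292) (nat_lit 760) (nat_lit 22405119353) (nat_lit 76) (nat_lit 16280352057) (nat_lit 345) (nat_lit 5) (nat_lit 355) (nat_lit 5) (nat_lit 346) (nat_lit 5) (nat_lit 494) (nat_lit 465) (nat_lit 241)) (XT.lf (nat_lit 0) (nat_lit 14271660336) (nat_lit 836) (nat_lit 29977417939) (nat_lit 76) (nat_lit 434653989) (nat_lit 335) (nat_lit 5) (nat_lit 346) (nat_lit 5) (nat_lit 336) (nat_lit 5) (nat_lit 495) (nat_lit 465) (nat_lit 240)))))) (XT.nd (nat_lit 60138) (nat_lit 0) (nat_lit 14288) (XT.nd (nat_lit 234) (nat_lit 2584) (nat_lit 0) (XT.nd (nat_lit 78) (nat_lit 684) (nat_lit 0) (XT.lf (nat_lit 0) (nat_lit 7699756530) (nat_lit 684) (nat_lit 16248498029) (nat_lit 760) (nat_lit 21497386882) (nat_lit 326) (nat_lit 5) (nat_lit 335) (nat_lit 5) (nat_lit 336) (nat_lit 5) (nat_lit 496) (nat_lit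 465) (nat_lit 239)) (XT.nd (nat_lit 78) (nat_lit 0) (nat_lit 0) (XT.lf (nat_lit 0) (nat_lit 613444251) (nat_lit 684) (nat_lit 33589578731) (nat_lit 760) (nat_lit 12021627501) (nat_lit 317) (nat_lit 5) (nat_lit 326) (nat_lit 5) (nat_lit 327) (nat_lit 5) (nat_lit 497) (nat_lit 465) (nat_lit 238)) (XT.lf (nat_lit 0) (nat_lit 40527428019) (nat_lit 684) (nat_lit 4599436813) (nat_lit 760) (nat_lit 1892936469) (nat_lit 317) (nat_lit 5) (nat_lit 326) (nat_lit 5) (nat_lit 327) (nat_lit 5) (nat_lit 498) (nat_lit 465) (nat_lit 237)))) (XT.nd (nat_lit 156) (nat_lit 1216) (nat_lit 0) (XT.nd (nat_lit 78) (nat_lit 684) (nat_lit 0) (XT.lf (nat_lit 0) (nat_lit 8813203399) (nat_lit 684) (nat_lit 13808796040) (nat_lit 76) (nat_lit 25207986683) (nat_lit 308) (nat_lit 5) (nat_lit 317) (nat_lit 5) (nat_lit 309) (nat_lit 5) (nat_lit 499) (nat_lit 465) (nat_lit 236)) (XT.lf (nat_lit 0) (nat_lit 20114482662) (nat_lit 760)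 (nat_lit 21217781017) (nat_lit 76) (nat_lit 7325969212) (nat_lit 299) (nat_lit 5) (nat_lit 309) (nat_lit 5) (nat_lit 300) (nat_lit 5) (nat_lit 500) (nat_lit 465) (nat_lit 235))) (XT.nd (nat_lit 78) (nat_lit 608) (nat_lit 0) (XT.lf (nat_lit 0) (nat_lit 20723995321) (nat_lit 608) (nat_lit 11408682874) (nat_lit 684) (nat_lit 17371091410) (nat_lit 291) (nat_lit 5) (nat_lit 299) (nat_lit 5) (nat_lit 300) (nat_lit 5) (nat_lit 501) (nat_lit 465) (nat_lit 234)) (XT.lf (nat_lit 0) (nat_lit 13895272345) (nat_lit 608) (nat_lit 30975025464) (nat_lit 684) (nat_lit 5497197150) (nat_lit 283) (nat_lit 5) (nat_lit 291) (nat_lit 5) (nat_lit 292) (nat_lit 5) (nat_lit 502) (nat_lit 465) (nat_lit 233))))) (XT.nd (nat_lit 234) (nat_lit 0) (nat_lit 152) (XT.nd (nat_lit 78) (nat_lit 0) (nat_lit 76) (XT.lf (nat_lit 0) (nat_lit 1510690014) (nat_lit 1900) (nat_lit 6400503966) (nat_lit 1900) (nat_lit 6400503966) (nat_lit 471)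 (nat_lit 3) (nat_lit 496) (nat_lit 3) (nat_lit 496) (nat_lit 5) (nat_lit 466) (nat_lit 466) (nat_lit 268)) (XT.nd (nat_lit 78) (nat_lit 0) (nat_lit 0) (XT.lf (nat_lit 0) (nat_lit 3277534132) (nat_lit 1824) (nat_lit 20477585369) (nat_lit 1900) (nat_lit 5293403378) (nat_lit 472) (nat_lit 5) (nat_lit 496) (nat_lit 5) (nat_lit 497) (nat_lit 5) (nat_lit 467) (nat_lit 466) (nat_lit 267)) (XT.lf (nat_lit 76) (nat_lit 1181168045) (nat_lit 0) (nat_lit 2556313953) (nat_lit 1900) (nat_lit 25744999778) (nat_lit 473) (nat_lit 5) (nat_lit 472) (nat_lit 5) (nat_lit 497) (nat_lit 5) (nat_lit 468) (nat_lit 466) (nat_lit 266)))) (XT.nd (nat_lit 156) (nat_lit 0) (nat_lit 152) (XT.nd (nat_lit 78) (nat_lit 0) (nat_lit 76) (XT.lf (nat_lit 0) (nat_lit 4471523020) (nat_lit 1824) (nat_lit 6285383383) (nat_lit 1900) (nat_lit 19167347417) (nat_lit 473) (nat_lit 5) (nat_lit 497) (nat_lit 5) (nat_lit 498) (nat_lit 5) (nat_lit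 469) (nat_lit 466) (nat_lit 265)) (XT.lf (nat_lit 0) (nat_lit 5420948557) (nat_lit 1824) (nat_lit 13860879320) (nat_lit 1900) (nat_lit 11093584151) (nat_lit 474) (nat_lit 5) (nat_lit 498) (nat_lit 5) (nat_lit 499) (nat_lit 5) (nat_lit 470) (nat_lit 466) (nat_lit 264))) (XT.nd (nat_lit 78) (nat_lit 0) (nat_lit 0) (XT.lf (nat_lit 0) (nat_lit 6587377529) (nat_lit 1824) (nat_lit 21562062931) (nat_lit 1900) (nat_lit 2686894369) (nat_lit 475) (nat_lit 5) (nat_lit 499) (nat_lit 5) (nat_lit 500) (nat_lit 5) (nat_lit 471) (nat_lit 466) (nat_lit 263)) (XT.lf (nat_lit 76) (nat_lit 1876411094) (nat_lit 0) (nat_lit 6143886416) (nat_lit 1900) (nat_lit 23286158093) (nat_lit 476) (nat_lit 5) (nat_lit 475) (nat_lit 5) (nat_lit 500) (nat_lit 5) (nat_lit 472) (nat_lit 466) (nat_lit 262))))))))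
noncomputable def xc119 : XT := (XT.nd (nat_lit 2106) (nat_lit 1976) (nat_lit 0) (XT.nd (nat_lit 1014) (nat_lit 8740) (nat_lit 0) (XT.nd (nat_lit 468) (nat_lit 3344) (nat_lit 0) (XT.nd (nat_lit 234) (nat_lit 0) (nat_lit 152) (XT.nd (nat_lit 78) (nat_lit 0) (nat_lit 76) (XT.lf (nat_lit 0) (nat_lit 9746490706) (nat_lit 1824) (nat_lit 5585491503) (nat_lit 1900) (nat_lit 16453692327) (nat_lit 476) (nat_lit 5) (nat_lit 500) (nat_lit 5) (nat_lit 501) (nat_lit 5) (nat_lit 473) (nat_lit 466) (nat_lit 261)) (XT.nd (nat_lit 78) (nat_lit 0) (nat_lit 0) (XT.lf (nat_lit 0) (nat_lit 11734824906) (nat_lit 1824) (nat_lit 13142417680) (nat_lit 1900) (nat_lit 7397820582) (nat_lit 477) (nat_lit 5) (nat_lit 501) (nat_lit 5) (nat_lit 502) (nat_lit 5) (nat_lit 474) (nat_lit 466) (nat_lit 260)) (XT.lf (nat_lit 76) (nat_lit 11941593993) (nat_lit 0) (nat_lit 2055540332) (nat_lit 1900) (nat_lit 18777712863) (nat_lit 478) (nat_lit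 5) (nat_lit 477) (nat_lit 5) (nat_lit 502) (nat_lit 5) (nat_lit 475) (nat_lit 466) (nat_lit 259)))) (XT.nd (nat_lit 78) (nat_lit 0) (nat_lit 76) (XT.lf (nat_lit 76) (nat_lit 4587800505) (nat_lit 0) (nat_lit 11994482736) (nat_lit 1900) (nat_lit 16702242307) (nat_lit 479) (nat_lit 5) (nat_lit 478) (nat_lit 5) (nat_lit 503) (nat_lit 5) (nat_lit 476) (nat_lit 466) (nat_lit 258)) (XT.nd (nat_lit 78) (nat_lit 0) (nat_lit 76) (XT.lf (nat_lit 0) (nat_lit 19471770216) (nat_lit 1824) (nat_lit 2841986137) (nat_lit 1900) (nat_lit 11491202453) (nat_lit 479) (nat_lit 5) (nat_lit 503) (nat_lit 5) (nat_lit 504) (nat_lit 5) (nat_lit 477) (nat_lit 466) (nat_lit 257)) (XT.lf (nat_lit 0) (nat_lit 22689279365) (nat_lit 1824) (nat_lit 10324477384) (nat_lit 1900) (nat_lit 1322421773) (nat_lit 480) (nat_lit 5) (nat_lit 504) (nat_lit 5) (nat_lit 505) (nat_lit 5) (nat_lit 478) (nat_lit 466) (nat_lit 256))))) (XT.nd (nat_lit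 234) (nat_lit 3648) (nat_lit 0) (XT.nd (nat_lit 78) (nat_lit 0) (nat_lit 76) (XT.lf (nat_lit 76) (nat_lit 16896529243) (nat_lit 0) (nat_lit 9381654746) (nat_lit 1900) (nat_lit 8599653640) (nat_lit 481) (nat_lit 5) (nat_lit 480) (nat_lit 5) (nat_lit 505) (nat_lit 5) (nat_lit 479) (nat_lit 466) (nat_lit 255)) (XT.nd (nat_lit 78) (nat_lit 0) (nat_lit 76) (XT.lf (nat_lit 76) (nat_lit 9667643117) (nat_lit 0) (nat_lit 20534079934) (nat_lit 1900) (nat_lit 5229484312) (nat_lit 482) (nat_lit 5) (nat_lit 481) (nat_lit 5) (nat_lit 506) (nat_lit 5) (nat_lit 480) (nat_lit 466) (nat_lit 254)) (XT.lf (nat_lit 76) (nat_lit 2333674245) (nat_lit 0) (nat_lit 32130681628) (nat_lit 1900) (nat_lit 1532394759) (nat_lit 483) (nat_lit 5) (nat_lit 482) (nat_lit 5) (nat_lit 507) (nat_lit 5) (nat_lit 481) (nat_lit 466) (nat_lit 253)))) (XT.nd (nat_lit 156) (nat_lit 1900) (nat_lit 0) (XT.nd (nat_lit 78) (nat_lit 0) (nat_lit 76)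 (XT.lf (nat_lit 0) (nat_lit 2555608942) (nat_lit 1900) (nat_lit 5105260669) (nat_lit 1976) (nat_lit 28911898348) (nat_lit 457) (nat_lit 5) (nat_lit 482) (nat_lit 5) (nat_lit 483) (nat_lit 5) (nat_lit 482) (nat_lit 466) (nat_lit 252)) (XT.lf (nat_lit 0) (nat_lit 7017308743) (nat_lit 1900) (nat_lit 12658475937) (nat_lit 76) (nat_lit 17484641217) (nat_lit 458) (nat_lit 5) (nat_lit 483) (nat_lit 5) (nat_lit 459) (nat_lit 5) (nat_lit 483) (nat_lit 466) (nat_lit 251))) (XT.nd (nat_lit 78) (nat_lit 912) (nat_lit 0) (XT.lf (nat_lit 0) (nat_lit 11846147909) (nat_lit 1140) (nat_lit 20321257773) (nat_lit 76) (nat_lit 5593642298) (nat_lit 444) (nat_lit 5) (nat_lit 459) (nat_lit 5) (nat_lit 445) (nat_lit 5) (nat_lit 484) (nat_lit 466) (nat_lit 250)) (XT.lf (nat_lit 0) (nat_lit 10235710373) (nat_lit 912) (nat_lit 6865557391) (nat_lit 988) (nat_lit 21272792819) (nat_lit 432) (nat_lit 5) (nat_lit 444) (nat_lit 5)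 (nat_lit 445) (nat_lit 5) (nat_lit 485) (nat_lit 466) (nat_lit 249)))))) (XT.nd (nat_lit 546) (nat_lit 4408) (nat_lit 0) (XT.nd (nat_lit 234) (nat_lit 2584) (nat_lit 0) (XT.nd (nat_lit 78) (nat_lit 836) (nat_lit 0) (XT.lf (nat_lit 0) (nat_lit 2894557777) (nat_lit 912) (nat_lit 19898623807) (nat_lit 988) (nat_lit 16206699337) (nat_lit 420) (nat_lit 5) (nat_lit 432) (nat_lit 5) (nat_lit 433) (nat_lit 5) (nat_lit 486) (nat_lit 466) (nat_lit 248)) (XT.nd (nat_lit 78) (nat_lit 836) (nat_lit 0) (XT.lf (nat_lit 0) (nat_lit 28930245164) (nat_lit 988) (nat_lit 4486310782) (nat_lit 76) (nat_lit 6222432236) (nat_lit 420) (nat_lit 5) (nat_lit 433) (nat_lit 5) (nat_lit 421) (nat_lit 5) (nat_lit 487) (nat_lit 466) (nat_lit 247)) (XT.lf (nat_lit 0) (nat_lit 28316945314) (nat_lit 836) (nat_lit 7248652129) (nat_lit 912) (nat_lit 4725387835) (nat_lit 409) (nat_lit 5) (nat_lit 420) (nat_lit 5) (nat_lit 421) (nat_lit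 5) (nat_lit 488) (nat_lit 466) (nat_lit 246)))) (XT.nd (nat_lit 156) (nat_lit 836) (nat_lit 0) (XT.nd (nat_lit 78) (nat_lit 836) (nat_lit 0) (XT.lf (nat_lit 0) (nat_lit 1715056075) (nat_lit 912) (nat_lit 19614896585) (nat_lit 76) (nat_lit 19626474300) (nat_lit 397) (nat_lit 5) (nat_lit 409) (nat_lit 5) (nat_lit 398) (nat_lit 5) (nat_lit 489) (nat_lit 466) (nat_lit 245)) (XT.lf (nat_lit 0) (nat_lit 8542658806) (nat_lit 912) (nat_lit 27389968736) (nat_lit 76) (nat_lit 5703416896) (nat_lit 386) (nat_lit 5) (nat_lit 398) (nat_lit 5) (nat_lit 387) (nat_lit 5) (nat_lit 490) (nat_lit 466) (nat_lit 244))) (XT.nd (nat_lit 78) (nat_lit 0) (nat_lit 0) (XT.lf (nat_lit 0) (nat_lit 7003657868) (nat_lit 836) (nat_lit 8890764758) (nat_lit 912) (nat_lit 26435241294) (nat_lit 375) (nat_lit 5) (nat_lit 386) (nat_lit 5) (nat_lit 387) (nat_lit 5) (nat_lit 491) (nat_lit 466) (nat_lit 243)) (XT.lf (nat_lit 0) (nat_lit 23774166205)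 (nat_lit 912) (nat_lit 363370904) (nat_lit 76) (nat_lit 18900406475) (nat_lit 375) (nat_lit 5) (nat_lit 387) (nat_lit 5) (nat_lit 376) (nat_lit 5) (nat_lit 492) (nat_lit 466) (nat_lit 242))))) (XT.nd (nat_lit 234) (nat_lit 2128) (nat_lit 0) (XT.nd (nat_lit 78) (nat_lit 1520) (nat_lit 0) (XT.lf (nat_lit 0) (nat_lit 32206605510) (nat_lit 836) (nat_lit 7727797448) (nat_lit 76) (nat_lit 3826742742) (nat_lit 365) (nat_lit 5) (nat_lit 376) (nat_lit 5) (nat_lit 366) (nat_lit 5) (nat_lit 493) (nat_lit 466) (nat_lit 241)) (XT.nd (nat_lit 78) (nat_lit 760) (nat_lit 0) (XT.lf (nat_lit 0) (nat_lit 29240421970) (nat_lit 760) (nat_lit 12002947029) (nat_lit 836) (nat_lit 3255647986) (nat_lit 355) (nat_lit 5) (nat_lit 365) (nat_lit 5) (nat_lit 366) (nat_lit 5) (nat_lit 494) (nat_lit 466) (nat_lit 240)) (XT.lf (nat_lit 0) (nat_lit 5529137421) (nat_lit 760) (nat_lit 22942536202) (nat_lit 76) (nat_lit 16780537001) (nat_lit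 345) (nat_lit 5) (nat_lit 355) (nat_lit 5) (nat_lit 346) (nat_lit 5) (nat_lit 495) (nat_lit 466) (nat_lit 239)))) (XT.nd (nat_lit 156) (nat_lit 684) (nat_lit 0) (XT.nd (nat_lit 78) (nat_lit 684) (nat_lit 0) (XT.lf (nat_lit 0) (nat_lit 14817800201) (nat_lit 836) (nat_lit 30741921004) (nat_lit 76) (nat_lit 462157283) (nat_lit 335) (nat_lit 5) (nat_lit 346) (nat_lit 5) (nat_lit 336) (nat_lit 5) (nat_lit 496) (nat_lit 466) (nat_lit 238)) (XT.lf (nat_lit 0) (nat_lit 8063381414) (nat_lit 684) (nat_lit 16718735370) (nat_lit 760) (nat_lit 22024579838) (nat_lit 326) (nat_lit 5) (nat_lit 335) (nat_lit 5) (nat_lit 336) (nat_lit 5) (nat_lit 497) (nat_lit 466) (nat_lit 237))) (XT.nd (nat_lit 78) (nat_lit 0) (nat_lit 0) (XT.lf (nat_lit 0) (nat_lit 764494511) (nat_lit 684) (nat_lit 34577641922) (nat_lit 760) (nat_lit 12266987506) (nat_lit 317) (nat_lit 5) (nat_lit 326) (nat_lit 5) (nat_lit 327) (nat_lit 5) (nat_lit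 498) (nat_lit 466) (nat_lit 236)) (XT.lf (nat_lit 0) (nat_lit 41872034290) (nat_lit 684) (nat_lit 4718367324) (nat_lit 760) (nat_lit 1837793670) (nat_lit 317) (nat_lit 5) (nat_lit 326) (nat_lit 5) (nat_lit 327) (nat_lit 5) (nat_lit 499) (nat_lit 466) (nat_lit 235))))))) (XT.nd (nat_lit 60762) (nat_lit 0) (nat_lit 7220) (XT.nd (nat_lit 60216) (nat_lit 0) (nat_lit 13908) (XT.nd (nat_lit 59904) (nat_lit 0) (nat_lit 13680) (XT.nd (nat_lit 78) (nat_lit 1292) (nat_lit 0) (XT.lf (nat_lit 0) (nat_lit 9185807308) (nat_lit 684) (nat_lit 14092879979) (nat_lit 76) (nat_lit 25984029085) (nat_lit 308) (nat_lit 5) (nat_lit 317) (nat_lit 5) (nat_lit 309) (nat_lit 5) (nat_lit 500) (nat_lit 466) (nat_lit 234)) (XT.nd (nat_lit 78) (nat_lit 608) (nat_lit 0) (XT.lf (nat_lit 0) (nat_lit 20823948776) (nat_lit 760) (nat_lit 21724267751) (nat_lit 76) (nat_lit 7567637691) (nat_lit 299) (nat_lit 5) (nat_lit 309) (nat_lit 5)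 (nat_lit 300) (nat_lit 5) (nat_lit 501) (nat_lit 466) (nat_lit 233)) (XT.lf (nat_lit 0) (nat_lit 21473652025) (nat_lit 608) (nat_lit 11726780503) (nat_lit 684) (nat_lit 17786369807) (nat_lit 291) (nat_lit 5) (nat_lit 299) (nat_lit 5) (nat_lit 300) (nat_lit 5) (nat_lit 502) (nat_lit 466) (nat_lit 232)))) (XT.nd (nat_lit 156) (nat_lit 0) (nat_lit 76) (XT.nd (nat_lit 78) (nat_lit 0) (nat_lit 76) (XT.lf (nat_lit 0) (nat_lit 1674985496) (nat_lit 1900) (nat_lit 6531838339) (nat_lit 1900) (nat_lit 6531838339) (nat_lit 471) (nat_lit 3) (nat_lit 496) (nat_lit 3) (nat_lit 496) (nat_lit 5) (nat_lit 467) (nat_lit 467) (nat_lit 266)) (XT.lf (nat_lit 0) (nat_lit 3606924539) (nat_lit 1824) (nat_lit 20967140704) (nat_lit 1900) (nat_lit 5341278024) (nat_lit 472) (nat_lit 5) (nat_lit 496) (nat_lit 5) (nat_lit 497) (nat_lit 5) (nat_lit 468) (nat_lit 467) (nat_lit 265))) (XT.nd (nat_lit 78) (nat_lit 0) (nat_lit 76) (XT.lf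 (nat_lit 76) (nat_lit 1339351031) (nat_lit 0) (nat_lit 2735386739) (nat_lit 1900) (nat_lit 26287702229) (nat_lit 473) (nat_lit 5) (nat_lit 472) (nat_lit 5) (nat_lit 497) (nat_lit 5) (nat_lit 469) (nat_lit 467) (nat_lit 264)) (XT.lf (nat_lit 0) (nat_lit 4823597421) (nat_lit 1824) (nat_lit 6349742055) (nat_lit 1900) (nat_lit 19644270177) (nat_lit 473) (nat_lit 5) (nat_lit 497) (nat_lit 5) (nat_lit 498) (nat_lit 5) (nat_lit 470) (nat_lit 467) (nat_lit 263))))) (XT.nd (nat_lit 234) (nat_lit 0) (nat_lit 152) (XT.nd (nat_lit 78) (nat_lit 0) (nat_lit 76) (XT.lf (nat_lit 0) (nat_lit 5795366058) (nat_lit 1824) (nat_lit 14149672047) (nat_lit 1900) (nat_lit 11337387681) (nat_lit 474) (nat_lit 5) (nat_lit 498) (nat_lit 5) (nat_lit 499) (nat_lit 5) (nat_lit 471) (nat_lit 467) (nat_lit 262)) (XT.nd (nat_lit 78) (nat_lit 0) (nat_lit 0) (XT.lf (nat_lit 0) (nat_lit 6990901805) (nat_lit 1824) (nat_lit 22079282165) (nat_lit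 1900) (nat_lit 2687110397) (nat_lit 475) (nat_lit 5) (nat_lit 499) (nat_lit 5) (nat_lit 500) (nat_lit 5) (nat_lit 472) (nat_lit 467) (nat_lit 261)) (XT.lf (nat_lit 76) (nat_lit 2060242784) (nat_lit 0) (nat_lit 6401397499) (nat_lit 1900) (nat_lit 23779982227) (nat_lit 476) (nat_lit 5) (nat_lit 475) (nat_lit 5) (nat_lit 500) (nat_lit 5) (nat_lit 473) (nat_lit 467) (nat_lit 260)))) (XT.nd (nat_lit 156) (nat_lit 0) (nat_lit 76) (XT.nd (nat_lit 78) (nat_lit 0) (nat_lit 76) (XT.lf (nat_lit 0) (nat_lit 10233311271) (nat_lit 1824) (nat_lit 5624860766) (nat_lit 1900) (nat_lit 16877172483) (nat_lit 476) (nat_lit 5) (nat_lit 500) (nat_lit 5) (nat_lit 501) (nat_lit 5) (nat_lit 474) (nat_lit 467) (nat_lit 259)) (XT.lf (nat_lit 0) (nat_lit 12276039372) (nat_lit 1824) (nat_lit 13406359457) (nat_lit 1900) (nat_lit 7557121449) (nat_lit 477) (nat_lit 5) (nat_lit 501) (nat_lit 5) (nat_lit 502) (nat_lit 5) (nat_lit 475)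 (nat_lit 467) (nat_lit 258))) (XT.nd (nat_lit 78) (nat_lit 0) (nat_lit 76) (XT.lf (nat_lit 76) (nat_lit 12428058105) (nat_lit 0) (nat_lit 2173482635) (nat_lit 1900) (nat_lit 19152850956) (nat_lit 478) (nat_lit 5) (nat_lit 477) (nat_lit 5) (nat_lit 502) (nat_lit 5) (nat_lit 476) (nat_lit 467) (nat_lit 257)) (XT.lf (nat_lit 76) (nat_lit 4855570974) (nat_lit 0) (nat_lit 12403789778) (nat_lit 1900) (nat_lit 17020097645) (nat_lit 479) (nat_lit 5) (nat_lit 478) (nat_lit 5) (nat_lit 503) (nat_lit 5) (nat_lit 477) (nat_lit 467) (nat_lit 256)))))) (XT.nd (nat_lit 546) (nat_lit 5396) (nat_lit 0) (XT.nd (nat_lit 234) (nat_lit 1672) (nat_lit 0) (XT.nd (nat_lit 78) (nat_lit 0) (nat_lit 76) (XT.lf (nat_lit 0) (nat_lit 20229989153) (nat_lit 1824) (nat_lit 2797089817) (nat_lit 1900) (nat_lit 11788536858) (nat_lit 479) (nat_lit 5) (nat_lit 503) (nat_lit 5) (nat_lit 504) (nat_lit 5) (nat_lit 478) (nat_lit 467) (nat_lit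 255)) (XT.nd (nat_lit 78) (nat_lit 0) (nat_lit 0) (XT.lf (nat_lit 0) (nat_lit 23539513762) (nat_lit 1824) (nat_lit 10502489475) (nat_lit 1900) (nat_lit 1320859397) (nat_lit 480) (nat_lit 5) (nat_lit 504) (nat_lit 5) (nat_lit 505) (nat_lit 5) (nat_lit 479) (nat_lit 467) (nat_lit 254)) (XT.lf (nat_lit 76) (nat_lit 17533010313) (nat_lit 0) (nat_lit 9698978040) (nat_lit 1900) (nat_lit 8688865400) (nat_lit 481) (nat_lit 5) (nat_lit 480) (nat_lit 5) (nat_lit 505) (nat_lit 5) (nat_lit 480) (nat_lit 467) (nat_lit 253)))) (XT.nd (nat_lit 156) (nat_lit 1824) (nat_lit 0) (XT.nd (nat_lit 78) (nat_lit 0) (nat_lit 76) (XT.lf (nat_lit 76) (nat_lit 10088649531) (nat_lit 0) (nat_lit 21180389126) (nat_lit 1900) (nat_lit 5221870109) (nat_lit 482) (nat_lit 5) (nat_lit 481) (nat_lit 5) (nat_lit 506) (nat_lit 5) (nat_lit 481) (nat_lit 467) (nat_lit 252)) (XT.lf (nat_lit 76) (nat_lit 2535912434) (nat_lit 0) (nat_lit 33119608619)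 (nat_lit 1900) (nat_lit 1417978145) (nat_lit 483) (nat_lit 5) (nat_lit 482) (nat_lit 5) (nat_lit 507) (nat_lit 5) (nat_lit 482) (nat_lit 467) (nat_lit 251))) (XT.nd (nat_lit 78) (nat_lit 0) (nat_lit 76) (XT.lf (nat_lit 0) (nat_lit 2785951903) (nat_lit 1900) (nat_lit 5127990754) (nat_lit 1976) (nat_lit 29752926030) (nat_lit 457) (nat_lit 5) (nat_lit 482) (nat_lit 5) (nat_lit 483) (nat_lit 5) (nat_lit 483) (nat_lit 467) (nat_lit 250)) (XT.lf (nat_lit 0) (nat_lit 7377718799) (nat_lit 1900) (nat_lit 12906768298) (nat_lit 76) (nat_lit 17987745201) (nat_lit 458) (nat_lit 5) (nat_lit 483) (nat_lit 5) (nat_lit 459) (nat_lit 5) (nat_lit 484) (nat_lit 467) (nat_lit 249))))) (XT.nd (nat_lit 234) (nat_lit 2584) (nat_lit 0) (XT.nd (nat_lit 78) (nat_lit 1824) (nat_lit 0) (XT.lf (nat_lit 0) (nat_lit 12347786473) (nat_lit 1140) (nat_lit 20798520191) (nat_lit 76) (nat_lit 5744639363) (nat_lit 444) (nat_lit 5) (nat_lit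 459) (nat_lit 5) (nat_lit 445) (nat_lit 5) (nat_lit 485) (nat_lit 467) (nat_lit 248)) (XT.nd (nat_lit 78) (nat_lit 912) (nat_lit 0) (XT.lf (nat_lit 0) (nat_lit 10673009367) (nat_lit 912) (nat_lit 7084136251) (nat_lit 988) (nat_lit 21765271917) (nat_lit 432) (nat_lit 5) (nat_lit 444) (nat_lit 5) (nat_lit 445) (nat_lit 5) (nat_lit 486) (nat_lit 467) (nat_lit 247)) (XT.lf (nat_lit 0) (nat_lit 3112408348) (nat_lit 912) (nat_lit 20504019250) (nat_lit 988) (nat_lit 16550652906) (nat_lit 420) (nat_lit 5) (nat_lit 432) (nat_lit 5) (nat_lit 433) (nat_lit 5) (nat_lit 487) (nat_lit 467) (nat_lit 246)))) (XT.nd (nat_lit 156) (nat_lit 1748) (nat_lit 0) (XT.nd (nat_lit 78) (nat_lit 836) (nat_lit 0) (XT.lf (nat_lit 0) (nat_lit 29933488237) (nat_lit 988) (nat_lit 4490933640) (nat_lit 76) (nat_lit 6401021630) (nat_lit 420) (nat_lit 5) (nat_lit 433) (nat_lit 5) (nat_lit 421) (nat_lit 5) (nat_lit 488) (nat_lit 467) (nat_lit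 245)) (XT.lf (nat_lit 0) (nat_lit 29294311586) (nat_lit 836) (nat_lit 7470477819) (nat_lit 912) (nat_lit 4732273567) (nat_lit 409) (nat_lit 5) (nat_lit 420) (nat_lit 5) (nat_lit 421) (nat_lit 5) (nat_lit 489) (nat_lit 467) (nat_lit 244))) (XT.nd (nat_lit 78) (nat_lit 836) (nat_lit 0) (XT.lf (nat_lit 0) (nat_lit 1896549444) (nat_lit 912) (nat_lit 20073187969) (nat_lit 76) (nat_lit 20212774494) (nat_lit 397) (nat_lit 5) (nat_lit 409) (nat_lit 5) (nat_lit 398) (nat_lit 5) (nat_lit 490) (nat_lit 467) (nat_lit 243)) (XT.lf (nat_lit 0) (nat_lit 8926030204) (nat_lit 912) (nat_lit 28081081595) (nat_lit 76) (nat_lit 5875465317) (nat_lit 386) (nat_lit 5) (nat_lit 398) (nat_lit 5) (nat_lit 387) (nat_lit 5) (nat_lit 491) (nat_lit 467) (nat_lit 242))))))))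
noncomputable def xc120 : XT := (XT.nd (nat_lit 61932) (nat_lit 0) (nat_lit 684) (XT.nd (nat_lit 60840) (nat_lit 0) (nat_lit 11324) (XT.nd (nat_lit 468) (nat_lit 2052) (nat_lit 0) (XT.nd (nat_lit 234) (nat_lit 2280) (nat_lit 0) (XT.nd (nat_lit 78) (nat_lit 760) (nat_lit 0) (XT.lf (nat_lit 0) (nat_lit 7342235201) (nat_lit 836) (nat_lit 9153244136) (nat_lit 912) (nat_lit 27101583395) (nat_lit 375) (nat_lit 5) (nat_lit 386) (nat_lit 5) (nat_lit 387) (nat_lit 5) (nat_lit 492) (nat_lit 467) (nat_lit 241)) (XT.nd (nat_lit 78) (nat_lit 760) (nat_lit 0) (XT.lf (nat_lit 0) (nat_lit 24608023797) (nat_lit 912) (nat_lit 247154410) (nat_lit 76) (nat_lit 19471484601) (nat_lit 375) (nat_lit 5) (nat_lit 387) (nat_lit 5) (nat_lit 376) (nat_lit 5) (nat_lit 493) (nat_lit 467) (nat_lit 240)) (XT.lf (nat_lit 0) (nat_lit 33290780908) (nat_lit 836) (nat_lit 7832257473) (nat_lit 76) (nat_lit 3948575900) (nat_lit 365) (nat_lit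 5) (nat_lit 376) (nat_lit 5) (nat_lit 366) (nat_lit 5) (nat_lit 494) (nat_lit 467) (nat_lit 239)))) (XT.nd (nat_lit 78) (nat_lit 1520) (nat_lit 0) (XT.lf (nat_lit 0) (nat_lit 30242942037) (nat_lit 760) (nat_lit 12353082614) (nat_lit 836) (nat_lit 3235649690) (nat_lit 355) (nat_lit 5) (nat_lit 365) (nat_lit 5) (nat_lit 366) (nat_lit 5) (nat_lit 495) (nat_lit 467) (nat_lit 238)) (XT.nd (nat_lit 78) (nat_lit 760) (nat_lit 0) (XT.lf (nat_lit 0) (nat_lit 5808637070) (nat_lit 760) (nat_lit 23503809996) (nat_lit 76) (nat_lit 17295051596) (nat_lit 345) (nat_lit 5) (nat_lit 355) (nat_lit 5) (nat_lit 346) (nat_lit 5) (nat_lit 496) (nat_lit 467) (nat_lit 237)) (XT.lf (nat_lit 0) (nat_lit 15373551151) (nat_lit 836) (nat_lit 31537098349) (nat_lit 76) (nat_lit 489655401) (nat_lit 335) (nat_lit 5) (nat_lit 346) (nat_lit 5) (nat_lit 336) (nat_lit 5) (nat_lit 497) (nat_lit 467) (nat_lit 236))))) (XT.nd (nat_lit 234)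 (nat_lit 684) (nat_lit 0) (XT.nd (nat_lit 78) (nat_lit 684) (nat_lit 0) (XT.lf (nat_lit 0) (nat_lit 8430301414) (nat_lit 684) (nat_lit 17204068192) (nat_lit 760) (nat_lit 22574346689) (nat_lit 326) (nat_lit 5) (nat_lit 335) (nat_lit 5) (nat_lit 336) (nat_lit 5) (nat_lit 498) (nat_lit 467) (nat_lit 235)) (XT.nd (nat_lit 78) (nat_lit 0) (nat_lit 0) (XT.lf (nat_lit 0) (nat_lit 912461803) (nat_lit 684) (nat_lit 35596473516) (nat_lit 760) (nat_lit 12526326361) (nat_lit 317) (nat_lit 5) (nat_lit 326) (nat_lit 5) (nat_lit 327) (nat_lit 5) (nat_lit 499) (nat_lit 467) (nat_lit 234)) (XT.lf (nat_lit 0) (nat_lit 43249586053) (nat_lit 684) (nat_lit 4841959447) (nat_lit 760) (nat_lit 1787421879) (nat_lit 317) (nat_lit 5) (nat_lit 326) (nat_lit 5) (nat_lit 327) (nat_lit 5) (nat_lit 500) (nat_lit 467) (nat_lit 233)))) (XT.nd (nat_lit 59982) (nat_lit 0) (nat_lit 12464) (XT.nd (nat_lit 59904) (nat_lit 0) (nat_lit 12388)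 (XT.lf (nat_lit 0) (nat_lit 9563377764) (nat_lit 684) (nat_lit 14392959298) (nat_lit 76) (nat_lit 26782215996) (nat_lit 308) (nat_lit 5) (nat_lit 317) (nat_lit 5) (nat_lit 309) (nat_lit 5) (nat_lit 501) (nat_lit 467) (nat_lit 232)) (XT.lf (nat_lit 0) (nat_lit 1837380203) (nat_lit 1900) (nat_lit 6670596066) (nat_lit 1900) (nat_lit 6670596066) (nat_lit 471) (nat_lit 3) (nat_lit 496) (nat_lit 3) (nat_lit 496) (nat_lit 5) (nat_lit 468) (nat_lit 468) (nat_lit 264))) (XT.nd (nat_lit 78) (nat_lit 0) (nat_lit 0) (XT.lf (nat_lit 0) (nat_lit 3932932617) (nat_lit 1824) (nat_lit 21478545135) (nat_lit 1900) (nat_lit 5396956600) (nat_lit 472) (nat_lit 5) (nat_lit 496) (nat_lit 5) (nat_lit 497) (nat_lit 5) (nat_lit 469) (nat_lit 468) (nat_lit 263)) (XT.lf (nat_lit 76) (nat_lit 1495233273) (nat_lit 0) (nat_lit 2913954485) (nat_lit 1900) (nat_lit 26859868463) (nat_lit 473) (nat_lit 5) (nat_lit 472) (nat_lit 5) (nat_lit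 497) (nat_lit 5) (nat_lit 470) (nat_lit 468) (nat_lit 262)))))) (XT.nd (nat_lit 546) (nat_lit 1216) (nat_lit 0) (XT.nd (nat_lit 234) (nat_lit 0) (nat_lit 152) (XT.nd (nat_lit 78) (nat_lit 0) (nat_lit 76) (XT.lf (nat_lit 0) (nat_lit 5173724055) (nat_lit 1824) (nat_lit 6423161238) (nat_lit 1900) (nat_lit 20141131828) (nat_lit 473) (nat_lit 5) (nat_lit 497) (nat_lit 5) (nat_lit 498) (nat_lit 5) (nat_lit 471) (nat_lit 468) (nat_lit 261)) (XT.nd (nat_lit 78) (nat_lit 0) (nat_lit 76) (XT.lf (nat_lit 0) (nat_lit 6168858526) (nat_lit 1824) (nat_lit 14454420808) (nat_lit 1900) (nat_lit 11593614511) (nat_lit 474) (nat_lit 5) (nat_lit 498) (nat_lit 5) (nat_lit 499) (nat_lit 5) (nat_lit 472) (nat_lit 468) (nat_lit 260)) (XT.lf (nat_lit 0) (nat_lit 7394712137) (nat_lit 1824) (nat_lit 22619459994) (nat_lit 1900) (nat_lit 2691947667) (nat_lit 475) (nat_lit 5) (nat_lit 499) (nat_lit 5) (nat_lit 500) (nat_lit 5) (nat_lit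 473) (nat_lit 468) (nat_lit 259)))) (XT.nd (nat_lit 156) (nat_lit 0) (nat_lit 152) (XT.nd (nat_lit 78) (nat_lit 0) (nat_lit 76) (XT.lf (nat_lit 76) (nat_lit 2242268143) (nat_lit 0) (nat_lit 6662432251) (nat_lit 1900) (nat_lit 24300375181) (nat_lit 476) (nat_lit 5) (nat_lit 475) (nat_lit 5) (nat_lit 500) (nat_lit 5) (nat_lit 474) (nat_lit 468) (nat_lit 258)) (XT.lf (nat_lit 0) (nat_lit 10723575615) (nat_lit 1824) (nat_lit 5672770053) (nat_lit 1900) (nat_lit 17317382829) (nat_lit 476) (nat_lit 5) (nat_lit 500) (nat_lit 5) (nat_lit 501) (nat_lit 5) (nat_lit 475) (nat_lit 468) (nat_lit 257))) (XT.nd (nat_lit 78) (nat_lit 0) (nat_lit 0) (XT.lf (nat_lit 0) (nat_lit 12822631155) (nat_lit 1824) (nat_lit 13685701005) (nat_lit 1900) (nat_lit 7724796776) (nat_lit 477) (nat_lit 5) (nat_lit 501) (nat_lit 5) (nat_lit 502) (nat_lit 5) (nat_lit 476) (nat_lit 468) (nat_lit 256)) (XT.lf (nat_lit 76) (nat_lit 12921756001)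 (nat_lit 0) (nat_lit 2291732729) (nat_lit 1900) (nat_lit 19550046256) (nat_lit 478) (nat_lit 5) (nat_lit 477) (nat_lit 5) (nat_lit 502) (nat_lit 5) (nat_lit 477) (nat_lit 468) (nat_lit 255))))) (XT.nd (nat_lit 234) (nat_lit 1596) (nat_lit 0) (XT.nd (nat_lit 78) (nat_lit 0) (nat_lit 76) (XT.lf (nat_lit 76) (nat_lit 5123904193) (nat_lit 0) (nat_lit 12822536103) (nat_lit 1900) (nat_lit 17358005756) (nat_lit 479) (nat_lit 5) (nat_lit 478) (nat_lit 5) (nat_lit 503) (nat_lit 5) (nat_lit 478) (nat_lit 468) (nat_lit 254)) (XT.nd (nat_lit 78) (nat_lit 0) (nat_lit 76) (XT.lf (nat_lit 0) (nat_lit 21000962566) (nat_lit 1824) (nat_lit 2758318089) (nat_lit 1900) (nat_lit 12097512346) (nat_lit 479) (nat_lit 5) (nat_lit 503) (nat_lit 5) (nat_lit 504) (nat_lit 5) (nat_lit 479) (nat_lit 468) (nat_lit 253)) (XT.lf (nat_lit 0) (nat_lit 24405521983) (nat_lit 1824) (nat_lit 10693403325) (nat_lit 1900) (nat_lit 1321617209)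 (nat_lit 480) (nat_lit 5) (nat_lit 504) (nat_lit 5) (nat_lit 505) (nat_lit 5) (nat_lit 480) (nat_lit 468) (nat_lit 252)))) (XT.nd (nat_lit 156) (nat_lit 1748) (nat_lit 0) (XT.nd (nat_lit 78) (nat_lit 0) (nat_lit 76) (XT.lf (nat_lit 76) (nat_lit 18181147096) (nat_lit 0) (nat_lit 10023761739) (nat_lit 1900) (nat_lit 8790442053) (nat_lit 481) (nat_lit 5) (nat_lit 480) (nat_lit 5) (nat_lit 505) (nat_lit 5) (nat_lit 481) (nat_lit 468) (nat_lit 251)) (XT.lf (nat_lit 76) (nat_lit 10514767515) (nat_lit 0) (nat_lit 21844349007) (nat_lit 1900) (nat_lit 5223470379) (nat_lit 482) (nat_lit 5) (nat_lit 481) (nat_lit 5) (nat_lit 506) (nat_lit 5) (nat_lit 482) (nat_lit 468) (nat_lit 250))) (XT.nd (nat_lit 78) (nat_lit 1900) (nat_lit 0) (XT.lf (nat_lit 76) (nat_lit 2736627343) (nat_lit 0) (nat_lit 34136767942) (nat_lit 1900) (nat_lit 1309335986) (nat_lit 483) (nat_lit 5) (nat_lit 482) (nat_lit 5) (nat_lit 507) (nat_lit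 5) (nat_lit 483) (nat_lit 468) (nat_lit 249)) (XT.lf (nat_lit 0) (nat_lit 3014383597) (nat_lit 1900) (nat_lit 5158889828) (nat_lit 1976) (nat_lit 30620695950) (nat_lit 457) (nat_lit 5) (nat_lit 482) (nat_lit 5) (nat_lit 483) (nat_lit 5) (nat_lit 484) (nat_lit 468) (nat_lit 248))))))) (XT.nd (nat_lit 1014) (nat_lit 2128) (nat_lit 0) (XT.nd (nat_lit 468) (nat_lit 4864) (nat_lit 0) (XT.nd (nat_lit 234) (nat_lit 1748) (nat_lit 0) (XT.nd (nat_lit 78) (nat_lit 1976) (nat_lit 0) (XT.lf (nat_lit 0) (nat_lit 7740336812) (nat_lit 1900) (nat_lit 13170055882) (nat_lit 76) (nat_lit 18507172776) (nat_lit 458) (nat_lit 5) (nat_lit 483) (nat_lit 5) (nat_lit 459) (nat_lit 5) (nat_lit 485) (nat_lit 468) (nat_lit 247)) (XT.nd (nat_lit 78) (nat_lit 912) (nat_lit 0) (XT.lf (nat_lit 0) (nat_lit 12856078608) (nat_lit 1140) (nat_lit 21297699366) (nat_lit 76) (nat_lit 5901131429) (nat_lit 444) (nat_lit 5) (nat_lit 459) (nat_lit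 5) (nat_lit 445) (nat_lit 5) (nat_lit 486) (nat_lit 468) (nat_lit 246)) (XT.lf (nat_lit 0) (nat_lit 11115951730) (nat_lit 912) (nat_lit 7308548489) (nat_lit 988) (nat_lit 22280889433) (nat_lit 432) (nat_lit 5) (nat_lit 444) (nat_lit 5) (nat_lit 445) (nat_lit 5) (nat_lit 487) (nat_lit 468) (nat_lit 245)))) (XT.nd (nat_lit 78) (nat_lit 836) (nat_lit 0) (XT.lf (nat_lit 0) (nat_lit 3329273706) (nat_lit 912) (nat_lit 21127092253) (nat_lit 988) (nat_lit 16913090666) (nat_lit 420) (nat_lit 5) (nat_lit 432) (nat_lit 5) (nat_lit 433) (nat_lit 5) (nat_lit 488) (nat_lit 468) (nat_lit 244)) (XT.nd (nat_lit 78) (nat_lit 836) (nat_lit 0) (XT.lf (nat_lit 0) (nat_lit 30959059778) (nat_lit 988) (nat_lit 4503155791) (nat_lit 76) (nat_lit 6585432737) (nat_lit 420) (nat_lit 5) (nat_lit 433) (nat_lit 5) (nat_lit 421) (nat_lit 5) (nat_lit 489) (nat_lit 468) (nat_lit 243)) (XT.lf (nat_lit 0) (nat_lit 30293659280) (nat_lit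 836) (nat_lit 7698707645) (nat_lit 912) (nat_lit 4747108299) (nat_lit 409) (nat_lit 5) (nat_lit 420) (nat_lit 5) (nat_lit 421) (nat_lit 5) (nat_lit 490) (nat_lit 468) (nat_lit 242))))) (XT.nd (nat_lit 234) (nat_lit 2280) (nat_lit 0) (XT.nd (nat_lit 78) (nat_lit 1672) (nat_lit 0) (XT.lf (nat_lit 0) (nat_lit 2076022689) (nat_lit 912) (nat_lit 20552699553) (nat_lit 76) (nat_lit 20816806862) (nat_lit 397) (nat_lit 5) (nat_lit 409) (nat_lit 5) (nat_lit 398) (nat_lit 5) (nat_lit 491) (nat_lit 468) (nat_lit 241)) (XT.nd (nat_lit 78) (nat_lit 836) (nat_lit 0) (XT.lf (nat_lit 0) (nat_lit 9313607165) (nat_lit 912) (nat_lit 28800424022) (nat_lit 76) (nat_lit 6052620890) (nat_lit 386) (nat_lit 5) (nat_lit 398) (nat_lit 5) (nat_lit 387) (nat_lit 5) (nat_lit 492) (nat_lit 468) (nat_lit 240)) (XT.lf (nat_lit 0) (nat_lit 7683595289) (nat_lit 836) (nat_lit 9423841493) (nat_lit 912) (nat_lit 27795189727) (nat_lit 375)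 (nat_lit 5) (nat_lit 386) (nat_lit 5) (nat_lit 387) (nat_lit 5) (nat_lit 493) (nat_lit 468) (nat_lit 239)))) (XT.nd (nat_lit 156) (nat_lit 1520) (nat_lit 0) (XT.nd (nat_lit 78) (nat_lit 760) (nat_lit 0) (XT.lf (nat_lit 0) (nat_lit 25459972312) (nat_lit 912) (nat_lit 134748491) (nat_lit 76) (nat_lit 20059461670) (nat_lit 375) (nat_lit 5) (nat_lit 387) (nat_lit 5) (nat_lit 376) (nat_lit 5) (nat_lit 494) (nat_lit 468) (nat_lit 238)) (XT.lf (nat_lit 0) (nat_lit 34400709193) (nat_lit 836) (nat_lit 7947163083) (nat_lit 76) (nat_lit 4073660452) (nat_lit 365) (nat_lit 5) (nat_lit 376) (nat_lit 5) (nat_lit 366) (nat_lit 5) (nat_lit 495) (nat_lit 468) (nat_lit 237))) (XT.nd (nat_lit 78) (nat_lit 760) (nat_lit 0) (XT.lf (nat_lit 0) (nat_lit 31268344548) (nat_lit 760) (nat_lit 12714293599) (nat_lit 836) (nat_lit 3221806054) (nat_lit 355) (nat_lit 5) (nat_lit 365) (nat_lit 5) (nat_lit 366) (nat_lit 5) (nat_lit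 496) (nat_lit 468) (nat_lit 236)) (XT.lf (nat_lit 0) (nat_lit 6089999138) (nat_lit 760) (nat_lit 24089212456) (nat_lit 76) (nat_lit 17824364530) (nat_lit 345) (nat_lit 5) (nat_lit 355) (nat_lit 5) (nat_lit 346) (nat_lit 5) (nat_lit 497) (nat_lit 468) (nat_lit 235)))))) (XT.nd (nat_lit 60450) (nat_lit 0) (nat_lit 11856) (XT.nd (nat_lit 234) (nat_lit 0) (nat_lit 0) (XT.nd (nat_lit 78) (nat_lit 1368) (nat_lit 0) (XT.lf (nat_lit 0) (nat_lit 15939590321) (nat_lit 836) (nat_lit 32363425943) (nat_lit 76) (nat_lit 517195850) (nat_lit 335) (nat_lit 5) (nat_lit 346) (nat_lit 5) (nat_lit 336) (nat_lit 5) (nat_lit 498) (nat_lit 468) (nat_lit 234)) (XT.nd (nat_lit 78) (nat_lit 684) (nat_lit 0) (XT.lf (nat_lit 0) (nat_lit 8801052438) (nat_lit 684) (nat_lit 17704892623) (nat_lit 760) (nat_lit 23146976709) (nat_lit 326) (nat_lit 5) (nat_lit 335) (nat_lit 5) (nat_lit 336) (nat_lit 5) (nat_lit 499) (nat_lit 468) (nat_lit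 233)) (XT.lf (nat_lit 0) (nat_lit 1057690740) (nat_lit 684) (nat_lit 36646931899) (nat_lit 760) (nat_lit 12799683529) (nat_lit 317) (nat_lit 5) (nat_lit 326) (nat_lit 5) (nat_lit 327) (nat_lit 5) (nat_lit 500) (nat_lit 468) (nat_lit 232)))) (XT.nd (nat_lit 60060) (nat_lit 0) (nat_lit 11780) (XT.nd (nat_lit 59982) (nat_lit 0) (nat_lit 11704) (XT.lf (nat_lit 0) (nat_lit 44661496045) (nat_lit 684) (nat_lit 4970290248) (nat_lit 760) (nat_lit 1741595386) (nat_lit 317) (nat_lit 5) (nat_lit 326) (nat_lit 5) (nat_lit 327) (nat_lit 5) (nat_lit 501) (nat_lit 468) (nat_lit 231)) (XT.lf (nat_lit 0) (nat_lit 1998209161) (nat_lit 1900) (nat_lit 6816799891) (nat_lit 1900) (nat_lit 6816799891) (nat_lit 471) (nat_lit 3) (nat_lit 496) (nat_lit 3) (nat_lit 496) (nat_lit 5) (nat_lit 469) (nat_lit 469) (nat_lit 262))) (XT.nd (nat_lit 78) (nat_lit 0) (nat_lit 0) (XT.lf (nat_lit 0) (nat_lit 4256218306) (nat_lit 1824) (nat_lit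 22012042982) (nat_lit 1900) (nat_lit 5460307692) (nat_lit 472) (nat_lit 5) (nat_lit 496) (nat_lit 5) (nat_lit 497) (nat_lit 5) (nat_lit 470) (nat_lit 469) (nat_lit 261)) (XT.lf (nat_lit 76) (nat_lit 1649150230) (nat_lit 0) (nat_lit 3092339416) (nat_lit 1900) (nat_lit 27461625650) (nat_lit 473) (nat_lit 5) (nat_lit 472) (nat_lit 5) (nat_lit 497) (nat_lit 5) (nat_lit 471) (nat_lit 469) (nat_lit 260))))) (XT.nd (nat_lit 234) (nat_lit 0) (nat_lit 152) (XT.nd (nat_lit 78) (nat_lit 0) (nat_lit 76) (XT.lf (nat_lit 0) (nat_lit 5522562614) (nat_lit 1824) (nat_lit 6505503469) (nat_lit 1900) (nat_lit 20658207281) (nat_lit 473) (nat_lit 5) (nat_lit 497) (nat_lit 5) (nat_lit 498) (nat_lit 5) (nat_lit 472) (nat_lit 469) (nat_lit 259)) (XT.nd (nat_lit 78) (nat_lit 0) (nat_lit 76) (XT.lf (nat_lit 0) (nat_lit 6542096105) (nat_lit 1824) (nat_lit 14775185677) (nat_lit 1900) (nat_lit 11862344050) (nat_lit 474) (nat_lit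 5) (nat_lit 498) (nat_lit 5) (nat_lit 499) (nat_lit 5) (nat_lit 473) (nat_lit 469) (nat_lit 258)) (XT.lf (nat_lit 0) (nat_lit 7799495605) (nat_lit 1824) (nat_lit 23182857974) (nat_lit 1900) (nat_lit 2701279910) (nat_lit 475) (nat_lit 5) (nat_lit 499) (nat_lit 5) (nat_lit 500) (nat_lit 5) (nat_lit 474) (nat_lit 469) (nat_lit 257)))) (XT.nd (nat_lit 156) (nat_lit 0) (nat_lit 152) (XT.nd (nat_lit 78) (nat_lit 0) (nat_lit 76) (XT.lf (nat_lit 76) (nat_lit 2422853253) (nat_lit 0) (nat_lit 6927337576) (nat_lit 1900) (nat_lit 24847459287) (nat_lit 476) (nat_lit 5) (nat_lit 475) (nat_lit 5) (nat_lit 500) (nat_lit 5) (nat_lit 475) (nat_lit 469) (nat_lit 256)) (XT.lf (nat_lit 0) (nat_lit 11218027728) (nat_lit 1824) (nat_lit 5729053129) (nat_lit 1900) (nat_lit 17774594172) (nat_lit 476) (nat_lit 5) (nat_lit 500) (nat_lit 5) (nat_lit 501) (nat_lit 5) (nat_lit 476) (nat_lit 469) (nat_lit 255))) (XT.nd (nat_lit 78)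 (nat_lit 0) (nat_lit 0) (XT.lf (nat_lit 0) (nat_lit 13375384934) (nat_lit 1824) (nat_lit 13980474848) (nat_lit 1900) (nat_lit 7900891404) (nat_lit 477) (nat_lit 5) (nat_lit 501) (nat_lit 5) (nat_lit 502) (nat_lit 5) (nat_lit 477) (nat_lit 469) (nat_lit 254)) (XT.lf (nat_lit 76) (nat_lit 13423327196) (nat_lit 0) (nat_lit 2410485291) (nat_lit 1900) (nat_lit 19969340340) (nat_lit 478) (nat_lit 5) (nat_lit 477) (nat_lit 5) (nat_lit 502) (nat_lit 5) (nat_lit 478) (nat_lit 469) (nat_lit 253))))))))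
noncomputable def xc121 : XT := (XT.nd (nat_lit 62088) (nat_lit 0) (nat_lit 684) (XT.nd (nat_lit 1014) (nat_lit 6992) (nat_lit 0) (XT.nd (nat_lit 468) (nat_lit 5244) (nat_lit 0) (XT.nd (nat_lit 234) (nat_lit 0) (nat_lit 152) (XT.nd (nat_lit 78) (nat_lit 0) (nat_lit 76) (XT.lf (nat_lit 76) (nat_lit 5393245873) (nat_lit 0) (nat_lit 13251167914) (nat_lit 1900) (nat_lit 17715964501) (nat_lit 479) (nat_lit 5) (nat_lit 478) (nat_lit 5) (nat_lit 503) (nat_lit 5) (nat_lit 479) (nat_lit 469) (nat_lit 252)) (XT.nd (nat_lit 78) (nat_lit 0) (nat_lit 76) (XT.lf (nat_lit 0) (nat_lit 21785646679) (nat_lit 1824) (nat_lit 2725425797) (nat_lit 1900) (nat_lit 12418321948) (nat_lit 479) (nat_lit 5) (nat_lit 503) (nat_lit 5) (nat_lit 504) (nat_lit 5) (nat_lit 480) (nat_lit 469) (nat_lit 251)) (XT.lf (nat_lit 0) (nat_lit 25288335967) (nat_lit 1824) (nat_lit 10897171929) (nat_lit 1900) (nat_lit 1324628936) (nat_lit 480)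 (nat_lit 5) (nat_lit 504) (nat_lit 5) (nat_lit 505) (nat_lit 5) (nat_lit 481) (nat_lit 469) (nat_lit 250)))) (XT.nd (nat_lit 78) (nat_lit 0) (nat_lit 76) (XT.lf (nat_lit 76) (nat_lit 18841716274) (nat_lit 0) (nat_lit 10356347866) (nat_lit 1900) (nat_lit 8904198382) (nat_lit 481) (nat_lit 5) (nat_lit 480) (nat_lit 5) (nat_lit 505) (nat_lit 5) (nat_lit 482) (nat_lit 469) (nat_lit 249)) (XT.nd (nat_lit 78) (nat_lit 0) (nat_lit 76) (XT.lf (nat_lit 76) (nat_lit 10946582016) (nat_lit 0) (nat_lit 22526588901) (nat_lit 1900) (nat_lit 5234019497) (nat_lit 482) (nat_lit 5) (nat_lit 481) (nat_lit 5) (nat_lit 506) (nat_lit 5) (nat_lit 483) (nat_lit 469) (nat_lit 248)) (XT.lf (nat_lit 76) (nat_lit 2936208995) (nat_lit 0) (nat_lit 35183088969) (nat_lit 1900) (nat_lit 1206112999) (nat_lit 483) (nat_lit 5) (nat_lit 482) (nat_lit 5) (nat_lit 507) (nat_lit 5) (nat_lit 484) (nat_lit 469) (nat_lit 247))))) (XT.nd (nat_lit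 234) (nat_lit 2660) (nat_lit 0) (XT.nd (nat_lit 78) (nat_lit 988) (nat_lit 0) (XT.lf (nat_lit 0) (nat_lit 3241353079) (nat_lit 1900) (nat_lit 5197773170) (nat_lit 1976) (nat_lit 31515923614) (nat_lit 457) (nat_lit 5) (nat_lit 482) (nat_lit 5) (nat_lit 483) (nat_lit 5) (nat_lit 485) (nat_lit 469) (nat_lit 246)) (XT.nd (nat_lit 78) (nat_lit 1064) (nat_lit 0) (XT.lf (nat_lit 0) (nat_lit 8105722946) (nat_lit 1900) (nat_lit 13448355348) (nat_lit 76) (nat_lit 19043343015) (nat_lit 458) (nat_lit 5) (nat_lit 483) (nat_lit 5) (nat_lit 459) (nat_lit 5) (nat_lit 486) (nat_lit 469) (nat_lit 245)) (XT.lf (nat_lit 0) (nat_lit 13371705863) (nat_lit 1140) (nat_lit 21819016594) (nat_lit 76) (nat_lit 6063227946) (nat_lit 444) (nat_lit 5) (nat_lit 459) (nat_lit 5) (nat_lit 445) (nat_lit 5) (nat_lit 487) (nat_lit 469) (nat_lit 244)))) (XT.nd (nat_lit 156) (nat_lit 836) (nat_lit 0) (XT.nd (nat_lit 78) (nat_lit 912) (nat_lit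 0) (XT.lf (nat_lit 0) (nat_lit 11565135891) (nat_lit 912) (nat_lit 7539010666) (nat_lit 988) (nat_lit 22819859389) (nat_lit 432) (nat_lit 5) (nat_lit 444) (nat_lit 5) (nat_lit 445) (nat_lit 5) (nat_lit 488) (nat_lit 469) (nat_lit 243)) (XT.lf (nat_lit 0) (nat_lit 3545556014) (nat_lit 912) (nat_lit 21768400945) (nat_lit 988) (nat_lit 17294098404) (nat_lit 420) (nat_lit 5) (nat_lit 432) (nat_lit 5) (nat_lit 433) (nat_lit 5) (nat_lit 489) (nat_lit 469) (nat_lit 242))) (XT.nd (nat_lit 78) (nat_lit 836) (nat_lit 0) (XT.lf (nat_lit 0) (nat_lit 32008075603) (nat_lit 988) (nat_lit 4522776944) (nat_lit 76) (nat_lit 6775813569) (nat_lit 420) (nat_lit 5) (nat_lit 433) (nat_lit 5) (nat_lit 421) (nat_lit 5) (nat_lit 490) (nat_lit 469) (nat_lit 241)) (XT.lf (nat_lit 0) (nat_lit 31316069159) (nat_lit 836) (nat_lit 7933548121) (nat_lit 912) (nat_lit 4769686054) (nat_lit 409) (nat_lit 5) (nat_lit 420) (nat_lit 5) (nat_lit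 421) (nat_lit 5) (nat_lit 491) (nat_lit 469) (nat_lit 240)))))) (XT.nd (nat_lit 546) (nat_lit 2128) (nat_lit 0) (XT.nd (nat_lit 234) (nat_lit 2280) (nat_lit 0) (XT.nd (nat_lit 78) (nat_lit 1672) (nat_lit 0) (XT.lf (nat_lit 0) (nat_lit 2253843724) (nat_lit 912) (nat_lit 21053639052) (nat_lit 76) (nat_lit 21439095150) (nat_lit 397) (nat_lit 5) (nat_lit 409) (nat_lit 5) (nat_lit 398) (nat_lit 5) (nat_lit 492) (nat_lit 469) (nat_lit 239)) (XT.nd (nat_lit 78) (nat_lit 836) (nat_lit 0) (XT.lf (nat_lit 0) (nat_lit 9705934650) (nat_lit 912) (nat_lit 29548412592) (nat_lit 76) (nat_lit 6235039949) (nat_lit 386) (nat_lit 5) (nat_lit 398) (nat_lit 5) (nat_lit 387) (nat_lit 5) (nat_lit 493) (nat_lit 469) (nat_lit 238)) (XT.lf (nat_lit 0) (nat_lit 8028244944) (nat_lit 836) (nat_lit 9702786386) (nat_lit 912) (nat_lit 28516460660) (nat_lit 375) (nat_lit 5) (nat_lit 386) (nat_lit 5) (nat_lit 387) (nat_lit 5) (nat_lit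 494) (nat_lit 469) (nat_lit 237)))) (XT.nd (nat_lit 156) (nat_lit 1520) (nat_lit 0) (XT.nd (nat_lit 78) (nat_lit 760) (nat_lit 0) (XT.lf (nat_lit 0) (nat_lit 26330951990) (nat_lit 912) (nat_lit 25848585) (nat_lit 76) (nat_lit 20664858047) (nat_lit 375) (nat_lit 5) (nat_lit 387) (nat_lit 5) (nat_lit 376) (nat_lit 5) (nat_lit 495) (nat_lit 469) (nat_lit 236)) (XT.lf (nat_lit 0) (nat_lit 35537551712) (nat_lit 836) (nat_lit 8072407917) (nat_lit 76) (nat_lit 4202117107) (nat_lit 365) (nat_lit 5) (nat_lit 376) (nat_lit 5) (nat_lit 366) (nat_lit 5) (nat_lit 496) (nat_lit 469) (nat_lit 235))) (XT.nd (nat_lit 78) (nat_lit 760) (nat_lit 0) (XT.lf (nat_lit 0) (nat_lit 32317728893) (nat_lit 760) (nat_lit 13086879450) (nat_lit 836) (nat_lit 3213913977) (nat_lit 355) (nat_lit 5) (nat_lit 365) (nat_lit 5) (nat_lit 366) (nat_lit 5) (nat_lit 497) (nat_lit 469) (nat_lit 234)) (XT.lf (nat_lit 0) (nat_lit 6373653921)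 (nat_lit 760) (nat_lit 24699048938) (nat_lit 76) (nat_lit 18368956326) (nat_lit 345) (nat_lit 5) (nat_lit 355) (nat_lit 5) (nat_lit 346) (nat_lit 5) (nat_lit 498) (nat_lit 469) (nat_lit 233))))) (XT.nd (nat_lit 60216) (nat_lit 0) (nat_lit 11704) (XT.nd (nat_lit 78) (nat_lit 1368) (nat_lit 0) (XT.lf (nat_lit 0) (nat_lit 16516592845) (nat_lit 836) (nat_lit 33221419535) (nat_lit 76) (nat_lit 544824824) (nat_lit 335) (nat_lit 5) (nat_lit 346) (nat_lit 5) (nat_lit 336) (nat_lit 5) (nat_lit 499) (nat_lit 469) (nat_lit 232)) (XT.nd (nat_lit 78) (nat_lit 684) (nat_lit 0) (XT.lf (nat_lit 0) (nat_lit 9176161380) (nat_lit 684) (nat_lit 18221619932) (nat_lit 760) (nat_lit 23742790119) (nat_lit 326) (nat_lit 5) (nat_lit 335) (nat_lit 5) (nat_lit 336) (nat_lit 5) (nat_lit 500) (nat_lit 469) (nat_lit 231)) (XT.lf (nat_lit 0) (nat_lit 1200511180) (nat_lit 684) (nat_lit 37729904922) (nat_lit 760) (nat_lit 13087121464)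 (nat_lit 317) (nat_lit 5) (nat_lit 326) (nat_lit 5) (nat_lit 327) (nat_lit 5) (nat_lit 501) (nat_lit 469) (nat_lit 230)))) (XT.nd (nat_lit 156) (nat_lit 0) (nat_lit 76) (XT.nd (nat_lit 78) (nat_lit 0) (nat_lit 76) (XT.lf (nat_lit 0) (nat_lit 2157794942) (nat_lit 1900) (nat_lit 6970484718) (nat_lit 1900) (nat_lit 6970484718) (nat_lit 471) (nat_lit 3) (nat_lit 496) (nat_lit 3) (nat_lit 496) (nat_lit 5) (nat_lit 470) (nat_lit 470) (nat_lit 260)) (XT.lf (nat_lit 0) (nat_lit 4577417638) (nat_lit 1824) (nat_lit 22567909497) (nat_lit 1900) (nat_lit 5531216926) (nat_lit 472) (nat_lit 5) (nat_lit 496) (nat_lit 5) (nat_lit 497) (nat_lit 5) (nat_lit 471) (nat_lit 470) (nat_lit 259))) (XT.nd (nat_lit 78) (nat_lit 0) (nat_lit 76) (XT.lf (nat_lit 76) (nat_lit 1801424209) (nat_lit 0) (nat_lit 3270854057) (nat_lit 1900) (nat_lit 28093148219) (nat_lit 473) (nat_lit 5) (nat_lit 472) (nat_lit 5) (nat_lit 497) (nat_lit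 5) (nat_lit 472) (nat_lit 470) (nat_lit 258)) (XT.lf (nat_lit 0) (nat_lit 5870751357) (nat_lit 1824) (nat_lit 6596650659) (nat_lit 1900) (nat_lit 21195798252) (nat_lit 473) (nat_lit 5) (nat_lit 497) (nat_lit 5) (nat_lit 498) (nat_lit 5) (nat_lit 473) (nat_lit 470) (nat_lit 257))))))) (XT.nd (nat_lit 1092) (nat_lit 9956) (nat_lit 0) (XT.nd (nat_lit 546) (nat_lit 1292) (nat_lit 0) (XT.nd (nat_lit 234) (nat_lit 0) (nat_lit 152) (XT.nd (nat_lit 78) (nat_lit 0) (nat_lit 76) (XT.lf (nat_lit 0) (nat_lit 6915728978) (nat_lit 1824) (nat_lit 15112052563) (nat_lit 1900) (nat_lit 12143674927) (nat_lit 474) (nat_lit 5) (nat_lit 498) (nat_lit 5) (nat_lit 499) (nat_lit 5) (nat_lit 474) (nat_lit 470) (nat_lit 256)) (XT.nd (nat_lit 78) (nat_lit 0) (nat_lit 0) (XT.lf (nat_lit 0) (nat_lit 8205920953) (nat_lit 1824) (nat_lit 23769770032) (nat_lit 1900) (nat_lit 2714992276) (nat_lit 475) (nat_lit 5) (nat_lit 499) (nat_lit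 5) (nat_lit 500) (nat_lit 5) (nat_lit 475) (nat_lit 470) (nat_lit 255)) (XT.lf (nat_lit 76) (nat_lit 2602351054) (nat_lit 0) (nat_lit 7196456936) (nat_lit 1900) (nat_lit 25421399279) (nat_lit 476) (nat_lit 5) (nat_lit 475) (nat_lit 5) (nat_lit 500) (nat_lit 5) (nat_lit 476) (nat_lit 470) (nat_lit 254)))) (XT.nd (nat_lit 156) (nat_lit 0) (nat_lit 76) (XT.nd (nat_lit 78) (nat_lit 0) (nat_lit 76) (XT.lf (nat_lit 0) (nat_lit 11717397143) (nat_lit 1824) (nat_lit 5793563025) (nat_lit 1900) (nat_lit 18249098713) (nat_lit 476) (nat_lit 5) (nat_lit 500) (nat_lit 5) (nat_lit 501) (nat_lit 5) (nat_lit 477) (nat_lit 470) (nat_lit 253)) (XT.lf (nat_lit 0) (nat_lit 13935073143) (nat_lit 1824) (nat_lit 14290739139) (nat_lit 1900) (nat_lit 8085463366) (nat_lit 477) (nat_lit 5) (nat_lit 501) (nat_lit 5) (nat_lit 502) (nat_lit 5) (nat_lit 478) (nat_lit 470) (nat_lit 252))) (XT.nd (nat_lit 78) (nat_lit 0) (nat_lit 76)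 (XT.lf (nat_lit 76) (nat_lit 13933406138) (nat_lit 0) (nat_lit 2529930192) (nat_lit 1900) (nat_lit 20410811630) (nat_lit 478) (nat_lit 5) (nat_lit 477) (nat_lit 5) (nat_lit 502) (nat_lit 5) (nat_lit 479) (nat_lit 470) (nat_lit 251)) (XT.lf (nat_lit 76) (nat_lit 5664030481) (nat_lit 0) (nat_lit 13690135441) (nat_lit 1900) (nat_lit 18094006327) (nat_lit 479) (nat_lit 5) (nat_lit 478) (nat_lit 5) (nat_lit 503) (nat_lit 5) (nat_lit 480) (nat_lit 470) (nat_lit 250))))) (XT.nd (nat_lit 234) (nat_lit 1672) (nat_lit 0) (XT.nd (nat_lit 78) (nat_lit 0) (nat_lit 76) (XT.lf (nat_lit 0) (nat_lit 22584993472) (nat_lit 1824) (nat_lit 2698185050) (nat_lit 1900) (nat_lit 12751173456) (nat_lit 479) (nat_lit 5) (nat_lit 503) (nat_lit 5) (nat_lit 504) (nat_lit 5) (nat_lit 481) (nat_lit 470) (nat_lit 249)) (XT.nd (nat_lit 78) (nat_lit 0) (nat_lit 0) (XT.lf (nat_lit 0) (nat_lit 26188986541) (nat_lit 1824) (nat_lit 11113771793)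 (nat_lit 1900) (nat_lit 1329834117) (nat_lit 480) (nat_lit 5) (nat_lit 504) (nat_lit 5) (nat_lit 505) (nat_lit 5) (nat_lit 482) (nat_lit 470) (nat_lit 248)) (XT.lf (nat_lit 76) (nat_lit 19515493322) (nat_lit 0) (nat_lit 10697081921) (nat_lit 1900) (nat_lit 9029975542) (nat_lit 481) (nat_lit 5) (nat_lit 480) (nat_lit 5) (nat_lit 505) (nat_lit 5) (nat_lit 483) (nat_lit 470) (nat_lit 247)))) (XT.nd (nat_lit 156) (nat_lit 1824) (nat_lit 0) (XT.nd (nat_lit 78) (nat_lit 0) (nat_lit 76) (XT.lf (nat_lit 76) (nat_lit 11384670753) (nat_lit 0) (nat_lit 23227751280) (nat_lit 1900) (nat_lit 5253274983) (nat_lit 482) (nat_lit 5) (nat_lit 481) (nat_lit 5) (nat_lit 506) (nat_lit 5) (nat_lit 484) (nat_lit 470) (nat_lit 246)) (XT.lf (nat_lit 76) (nat_lit 3135034102) (nat_lit 0) (nat_lit 36259524223) (nat_lit 1900) (nat_lit 1107973582) (nat_lit 483) (nat_lit 5) (nat_lit 482) (nat_lit 5) (nat_lit 507) (nat_lit 5) (nat_lit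 485) (nat_lit 470) (nat_lit 245))) (XT.nd (nat_lit 78) (nat_lit 0) (nat_lit 76) (XT.lf (nat_lit 0) (nat_lit 3467293807) (nat_lit 1900) (nat_lit 5244475191) (nat_lit 1976) (nat_lit 32439350975) (nat_lit 457) (nat_lit 5) (nat_lit 482) (nat_lit 5) (nat_lit 483) (nat_lit 5) (nat_lit 486) (nat_lit 470) (nat_lit 244)) (XT.lf (nat_lit 0) (nat_lit 8474425814) (nat_lit 1900) (nat_lit 13741708722) (nat_lit 76) (nat_lit 19596691619) (nat_lit 458) (nat_lit 5) (nat_lit 483) (nat_lit 5) (nat_lit 459) (nat_lit 5) (nat_lit 487) (nat_lit 470) (nat_lit 243)))))) (XT.nd (nat_lit 546) (nat_lit 4560) (nat_lit 0) (XT.nd (nat_lit 234) (nat_lit 2584) (nat_lit 0) (XT.nd (nat_lit 78) (nat_lit 1824) (nat_lit 0) (XT.lf (nat_lit 0) (nat_lit 13895342567) (nat_lit 1140) (nat_lit 22362724849) (nat_lit 76) (nat_lit 6231044828) (nat_lit 444) (nat_lit 5) (nat_lit 459) (nat_lit 5) (nat_lit 445) (nat_lit 5) (nat_lit 488) (nat_lit 470)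 (nat_lit 242)) (XT.nd (nat_lit 78) (nat_lit 912) (nat_lit 0) (XT.lf (nat_lit 0) (nat_lit 12021153602) (nat_lit 912) (nat_lit 7775743454) (nat_lit 988) (nat_lit 23382429789) (nat_lit 432) (nat_lit 5) (nat_lit 444) (nat_lit 5) (nat_lit 445) (nat_lit 5) (nat_lit 489) (nat_lit 470) (nat_lit 241)) (XT.lf (nat_lit 0) (nat_lit 3761644721) (nat_lit 912) (nat_lit 22428518601) (nat_lit 988) (nat_lit 17693791389) (nat_lit 420) (nat_lit 5) (nat_lit 432) (nat_lit 5) (nat_lit 433) (nat_lit 5) (nat_lit 490) (nat_lit 470) (nat_lit 240)))) (XT.nd (nat_lit 156) (nat_lit 1748) (nat_lit 0) (XT.nd (nat_lit 78) (nat_lit 836) (nat_lit 0) (XT.lf (nat_lit 0) (nat_lit 33081659405) (nat_lit 988) (nat_lit 4549615384) (nat_lit 76) (nat_lit 6972318112) (nat_lit 420) (nat_lit 5) (nat_lit 433) (nat_lit 5) (nat_lit 421) (nat_lit 5) (nat_lit 491) (nat_lit 470) (nat_lit 239)) (XT.lf (nat_lit 0) (nat_lit 32362630223) (nat_lit 836) (nat_lit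 8175211126) (nat_lit 912) (nat_lit 4799820190) (nat_lit 409) (nat_lit 5) (nat_lit 420) (nat_lit 5) (nat_lit 421) (nat_lit 5) (nat_lit 492) (nat_lit 470) (nat_lit 238))) (XT.nd (nat_lit 78) (nat_lit 836) (nat_lit 0) (XT.lf (nat_lit 0) (nat_lit 2430366901) (nat_lit 912) (nat_lit 21576245030) (nat_lit 76) (nat_lit 22080179289) (nat_lit 397) (nat_lit 5) (nat_lit 409) (nat_lit 5) (nat_lit 398) (nat_lit 5) (nat_lit 493) (nat_lit 470) (nat_lit 237)) (XT.lf (nat_lit 0) (nat_lit 10103549932) (nat_lit 912) (nat_lit 30325501080) (nat_lit 76) (nat_lit 6422883335) (nat_lit 386) (nat_lit 5) (nat_lit 398) (nat_lit 5) (nat_lit 387) (nat_lit 5) (nat_lit 494) (nat_lit 470) (nat_lit 236))))) (XT.nd (nat_lit 234) (nat_lit 2964) (nat_lit 0) (XT.nd (nat_lit 78) (nat_lit 760) (nat_lit 0) (XT.lf (nat_lit 0) (nat_lit 8376681883) (nat_lit 836) (nat_lit 9990316059) (nat_lit 912) (nat_lit 29265832546) (nat_lit 375) (nat_lit 5)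 (nat_lit 386) (nat_lit 5) (nat_lit 387) (nat_lit 5) (nat_lit 495) (nat_lit 470) (nat_lit 235)) (XT.nd (nat_lit 78) (nat_lit 0) (nat_lit 0) (XT.lf (nat_lit 0) (nat_lit 80895928) (nat_lit 760) (nat_lit 27141537760) (nat_lit 836) (nat_lit 21207838244) (nat_lit 365) (nat_lit 5) (nat_lit 375) (nat_lit 5) (nat_lit 376) (nat_lit 5) (nat_lit 496) (nat_lit 470) (nat_lit 234)) (XT.lf (nat_lit 0) (nat_lit 36702482339) (nat_lit 836) (nat_lit 8207906520) (nat_lit 76) (nat_lit 4334068868) (nat_lit 365) (nat_lit 5) (nat_lit 376) (nat_lit 5) (nat_lit 366) (nat_lit 5) (nat_lit 497) (nat_lit 470) (nat_lit 233)))) (XT.nd (nat_lit 156) (nat_lit 1444) (nat_lit 0) (XT.nd (nat_lit 78) (nat_lit 760) (nat_lit 0) (XT.lf (nat_lit 0) (nat_lit 33392203741) (nat_lit 760) (nat_lit 13471150499) (nat_lit 836) (nat_lit 3211786520) (nat_lit 355) (nat_lit 5) (nat_lit 365) (nat_lit 5) (nat_lit 366) (nat_lit 5) (nat_lit 498) (nat_lit 470)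 (nat_lit 232)) (XT.lf (nat_lit 0) (nat_lit 6660023128) (nat_lit 760) (nat_lit 25333657986) (nat_lit 76) (nat_lit 18929319821) (nat_lit 345) (nat_lit 5) (nat_lit 355) (nat_lit 5) (nat_lit 346) (nat_lit 5) (nat_lit 499) (nat_lit 470) (nat_lit 231))) (XT.nd (nat_lit 78) (nat_lit 684) (nat_lit 0) (XT.lf (nat_lit 0) (nat_lit 17105233070) (nat_lit 836) (nat_lit 34111634383) (nat_lit 76) (nat_lit 572587327) (nat_lit 335) (nat_lit 5) (nat_lit 346) (nat_lit 5) (nat_lit 336) (nat_lit 5) (nat_lit 500) (nat_lit 470) (nat_lit 230)) (XT.lf (nat_lit 0) (nat_lit 9556147296) (nat_lit 684) (nat_lit 18754676798) (nat_lit 760) (nat_lit 24362137739) (nat_lit 326) (nat_lit 5) (nat_lit 335) (nat_lit 5) (nat_lit 336) (nat_lit 5) (nat_lit 501) (nat_lit 470) (nat_lit 229))))))))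
noncomputable def xc122 : XT := (XT.nd (nat_lit 2106) (nat_lit 1520) (nat_lit 0) (XT.nd (nat_lit 1014) (nat_lit 8056) (nat_lit 0) (XT.nd (nat_lit 468) (nat_lit 0) (nat_lit 304) (XT.nd (nat_lit 234) (nat_lit 0) (nat_lit 152) (XT.nd (nat_lit 78) (nat_lit 0) (nat_lit 76) (XT.lf (nat_lit 0) (nat_lit 2316448582) (nat_lit 1900) (nat_lit 7131697318) (nat_lit 1900) (nat_lit 7131697318) (nat_lit 471) (nat_lit 3) (nat_lit 496) (nat_lit 3) (nat_lit 496) (nat_lit 5) (nat_lit 471) (nat_lit 471) (nat_lit 258)) (XT.nd (nat_lit 78) (nat_lit 0) (nat_lit 0) (XT.lf (nat_lit 0) (nat_lit 4897144524) (nat_lit 1824) (nat_lit 23146450434) (nat_lit 1900) (nat_lit 5609586277) (nat_lit 472) (nat_lit 5) (nat_lit 496) (nat_lit 5) (nat_lit 497) (nat_lit 5) (nat_lit 472) (nat_lit 471) (nat_lit 257)) (XT.lf (nat_lit 76) (nat_lit 1952365296) (nat_lit 0) (nat_lit 3449802055) (nat_lit 1900) (nat_lit 28754656775) (nat_lit 473) (nat_lit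 5) (nat_lit 472) (nat_lit 5) (nat_lit 497) (nat_lit 5) (nat_lit 473) (nat_lit 471) (nat_lit 256)))) (XT.nd (nat_lit 78) (nat_lit 0) (nat_lit 76) (XT.lf (nat_lit 0) (nat_lit 6218908834) (nat_lit 1824) (nat_lit 6696503318) (nat_lit 1900) (nat_lit 21754233000) (nat_lit 473) (nat_lit 5) (nat_lit 497) (nat_lit 5) (nat_lit 498) (nat_lit 5) (nat_lit 474) (nat_lit 471) (nat_lit 255)) (XT.nd (nat_lit 78) (nat_lit 0) (nat_lit 76) (XT.lf (nat_lit 0) (nat_lit 7290389075) (nat_lit 1824) (nat_lit 15465132601) (nat_lit 1900) (nat_lit 12437724600) (nat_lit 474) (nat_lit 5) (nat_lit 498) (nat_lit 5) (nat_lit 499) (nat_lit 5) (nat_lit 475) (nat_lit 471) (nat_lit 254)) (XT.lf (nat_lit 0) (nat_lit 8614640271) (nat_lit 1824) (nat_lit 24380522024) (nat_lit 1900) (nat_lit 2732980802) (nat_lit 475) (nat_lit 5) (nat_lit 499) (nat_lit 5) (nat_lit 500) (nat_lit 5) (nat_lit 476) (nat_lit 471) (nat_lit 253))))) (XT.nd (nat_lit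 234) (nat_lit 0) (nat_lit 152) (XT.nd (nat_lit 78) (nat_lit 0) (nat_lit 76) (XT.lf (nat_lit 76) (nat_lit 2781102331) (nat_lit 0) (nat_lit 7470131051) (nat_lit 1900) (nat_lit 26022401341) (nat_lit 476) (nat_lit 5) (nat_lit 475) (nat_lit 5) (nat_lit 500) (nat_lit 5) (nat_lit 477) (nat_lit 471) (nat_lit 252)) (XT.nd (nat_lit 78) (nat_lit 0) (nat_lit 76) (XT.lf (nat_lit 0) (nat_lit 12222400614) (nat_lit 1824) (nat_lit 5866171219) (nat_lit 1900) (nat_lit 18741209921) (nat_lit 476) (nat_lit 5) (nat_lit 500) (nat_lit 5) (nat_lit 501) (nat_lit 5) (nat_lit 478) (nat_lit 471) (nat_lit 251)) (XT.lf (nat_lit 0) (nat_lit 14502457659) (nat_lit 1824) (nat_lit 14616577012) (nat_lit 1900) (nat_lit 8278583606) (nat_lit 477) (nat_lit 5) (nat_lit 501) (nat_lit 5) (nat_lit 502) (nat_lit 5) (nat_lit 479) (nat_lit 471) (nat_lit 250)))) (XT.nd (nat_lit 156) (nat_lit 0) (nat_lit 152) (XT.nd (nat_lit 78) (nat_lit 0) (nat_lit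 76) (XT.lf (nat_lit 76) (nat_lit 14452623448) (nat_lit 0) (nat_lit 2650252965) (nat_lit 1900) (nat_lit 20874574455) (nat_lit 478) (nat_lit 5) (nat_lit 477) (nat_lit 5) (nat_lit 502) (nat_lit 5) (nat_lit 480) (nat_lit 471) (nat_lit 249)) (XT.lf (nat_lit 76) (nat_lit 5936682314) (nat_lit 0) (nat_lit 14139893600) (nat_lit 1900) (nat_lit 18492197326) (nat_lit 479) (nat_lit 5) (nat_lit 478) (nat_lit 5) (nat_lit 503) (nat_lit 5) (nat_lit 481) (nat_lit 471) (nat_lit 248))) (XT.nd (nat_lit 78) (nat_lit 0) (nat_lit 76) (XT.lf (nat_lit 0) (nat_lit 23399952449) (nat_lit 1824) (nat_lit 2676384329) (nat_lit 1900) (nat_lit 13096289346) (nat_lit 479) (nat_lit 5) (nat_lit 503) (nat_lit 5) (nat_lit 504) (nat_lit 5) (nat_lit 482) (nat_lit 471) (nat_lit 247)) (XT.lf (nat_lit 0) (nat_lit 27108505223) (nat_lit 1824) (nat_lit 11343202203) (nat_lit 1900) (nat_lit 1337177828) (nat_lit 480) (nat_lit 5) (nat_lit 504) (nat_lit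 5) (nat_lit 505) (nat_lit 5) (nat_lit 483) (nat_lit 471) (nat_lit 246)))))) (XT.nd (nat_lit 546) (nat_lit 5092) (nat_lit 0) (XT.nd (nat_lit 234) (nat_lit 3648) (nat_lit 0) (XT.nd (nat_lit 78) (nat_lit 0) (nat_lit 76) (XT.lf (nat_lit 76) (nat_lit 20203253870) (nat_lit 0) (nat_lit 11046313370) (nat_lit 1900) (nat_lit 9167640016) (nat_lit 481) (nat_lit 5) (nat_lit 480) (nat_lit 5) (nat_lit 505) (nat_lit 5) (nat_lit 484) (nat_lit 471) (nat_lit 245)) (XT.nd (nat_lit 78) (nat_lit 0) (nat_lit 76) (XT.lf (nat_lit 76) (nat_lit 11829605425) (nat_lit 0) (nat_lit 23948492493) (nat_lit 1900) (nat_lit 5281016413) (nat_lit 482) (nat_lit 5) (nat_lit 481) (nat_lit 5) (nat_lit 506) (nat_lit 5) (nat_lit 485) (nat_lit 471) (nat_lit 244)) (XT.lf (nat_lit 76) (nat_lit 3333467099) (nat_lit 0) (nat_lit 37367050345) (nat_lit 1900) (nat_lit 1014600660) (nat_lit 483) (nat_lit 5) (nat_lit 482) (nat_lit 5) (nat_lit 507) (nat_lit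 5) (nat_lit 486) (nat_lit 471) (nat_lit 243)))) (XT.nd (nat_lit 156) (nat_lit 1900) (nat_lit 0) (XT.nd (nat_lit 78) (nat_lit 0) (nat_lit 76) (XT.lf (nat_lit 0) (nat_lit 3692624842) (nat_lit 1900) (nat_lit 5298848588) (nat_lit 1976) (nat_lit 33391746937) (nat_lit 457) (nat_lit 5) (nat_lit 482) (nat_lit 5) (nat_lit 483) (nat_lit 5) (nat_lit 487) (nat_lit 471) (nat_lit 242)) (XT.lf (nat_lit 0) (nat_lit 8846983766) (nat_lit 1900) (nat_lit 14050182733) (nat_lit 76) (nat_lit 20167671181) (nat_lit 458) (nat_lit 5) (nat_lit 483) (nat_lit 5) (nat_lit 459) (nat_lit 5) (nat_lit 488) (nat_lit 471) (nat_lit 241))) (XT.nd (nat_lit 78) (nat_lit 912) (nat_lit 0) (XT.lf (nat_lit 0) (nat_lit 14427657202) (nat_lit 1140) (nat_lit 22929108298) (nat_lit 76) (nat_lit 6404704464) (nat_lit 444) (nat_lit 5) (nat_lit 459) (nat_lit 5) (nat_lit 445) (nat_lit 5) (nat_lit 489) (nat_lit 471) (nat_lit 240)) (XT.lf (nat_lit 0) (nat_lit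 12484591146) (nat_lit 912) (nat_lit 8018971896) (nat_lit 988) (nat_lit 23968882058) (nat_lit 432) (nat_lit 5) (nat_lit 444) (nat_lit 5) (nat_lit 445) (nat_lit 5) (nat_lit 490) (nat_lit 471) (nat_lit 239))))) (XT.nd (nat_lit 234) (nat_lit 3344) (nat_lit 0) (XT.nd (nat_lit 78) (nat_lit 836) (nat_lit 0) (XT.lf (nat_lit 0) (nat_lit 3977917596) (nat_lit 912) (nat_lit 23108034191) (nat_lit 988) (nat_lit 18112313711) (nat_lit 420) (nat_lit 5) (nat_lit 432) (nat_lit 5) (nat_lit 433) (nat_lit 5) (nat_lit 491) (nat_lit 471) (nat_lit 238)) (XT.nd (nat_lit 78) (nat_lit 836) (nat_lit 0) (XT.lf (nat_lit 0) (nat_lit 34180944452) (nat_lit 988) (nat_lit 4583507118) (nat_lit 76) (nat_lit 7175106409) (nat_lit 420) (nat_lit 5) (nat_lit 433) (nat_lit 5) (nat_lit 421) (nat_lit 5) (nat_lit 492) (nat_lit 471) (nat_lit 237)) (XT.lf (nat_lit 0) (nat_lit 33434441347) (nat_lit 836) (nat_lit 8423914120) (nat_lit 912) (nat_lit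 4837342512) (nat_lit 409) (nat_lit 5) (nat_lit 420) (nat_lit 5) (nat_lit 421) (nat_lit 5) (nat_lit 493) (nat_lit 471) (nat_lit 236)))) (XT.nd (nat_lit 156) (nat_lit 1596) (nat_lit 0) (XT.nd (nat_lit 78) (nat_lit 836) (nat_lit 0) (XT.lf (nat_lit 0) (nat_lit 2605934017) (nat_lit 912) (nat_lit 22120786417) (nat_lit 76) (nat_lit 22740615853) (nat_lit 397) (nat_lit 5) (nat_lit 409) (nat_lit 5) (nat_lit 398) (nat_lit 5) (nat_lit 494) (nat_lit 471) (nat_lit 235)) (XT.lf (nat_lit 0) (nat_lit 10506983739) (nat_lit 912) (nat_lit 31132180158) (nat_lit 76) (nat_lit 6616316548) (nat_lit 386) (nat_lit 5) (nat_lit 398) (nat_lit 5) (nat_lit 387) (nat_lit 5) (nat_lit 495) (nat_lit 471) (nat_lit 234))) (XT.nd (nat_lit 78) (nat_lit 760) (nat_lit 0) (XT.lf (nat_lit 0) (nat_lit 8729395847) (nat_lit 836) (nat_lit 10286675631) (nat_lit 912) (nat_lit 30043777423) (nat_lit 375) (nat_lit 5) (nat_lit 386) (nat_lit 5) (nat_lit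 387) (nat_lit 5) (nat_lit 496) (nat_lit 471) (nat_lit 233)) (XT.lf (nat_lit 0) (nat_lit 185004200) (nat_lit 760) (nat_lit 27949991175) (nat_lit 836) (nat_lit 21746261864) (nat_lit 365) (nat_lit 5) (nat_lit 375) (nat_lit 5) (nat_lit 376) (nat_lit 5) (nat_lit 497) (nat_lit 471) (nat_lit 232))))))) (XT.nd (nat_lit 61308) (nat_lit 0) (nat_lit 3116) (XT.nd (nat_lit 60762) (nat_lit 0) (nat_lit 9804) (XT.nd (nat_lit 60450) (nat_lit 0) (nat_lit 9576) (XT.nd (nat_lit 78) (nat_lit 1520) (nat_lit 0) (XT.lf (nat_lit 0) (nat_lit 37896689126) (nat_lit 836) (nat_lit 8353593584) (nat_lit 76) (nat_lit 4469641172) (nat_lit 365) (nat_lit 5) (nat_lit 376) (nat_lit 5) (nat_lit 366) (nat_lit 5) (nat_lit 498) (nat_lit 471) (nat_lit 231)) (XT.nd (nat_lit 78) (nat_lit 760) (nat_lit 0) (XT.lf (nat_lit 0) (nat_lit 34492888678) (nat_lit 760) (nat_lit 13867428161) (nat_lit 836) (nat_lit 3215252118) (nat_lit 355) (nat_lit 5) (nat_lit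 365) (nat_lit 5) (nat_lit 366) (nat_lit 5) (nat_lit 499) (nat_lit 471) (nat_lit 230)) (XT.lf (nat_lit 0) (nat_lit 6949520861) (nat_lit 760) (nat_lit 25993410944) (nat_lit 76) (nat_lit 19505960662) (nat_lit 345) (nat_lit 5) (nat_lit 355) (nat_lit 5) (nat_lit 346) (nat_lit 5) (nat_lit 500) (nat_lit 471) (nat_lit 229)))) (XT.nd (nat_lit 156) (nat_lit 0) (nat_lit 76) (XT.nd (nat_lit 78) (nat_lit 0) (nat_lit 76) (XT.lf (nat_lit 0) (nat_lit 2474470450) (nat_lit 1900) (nat_lit 7300496064) (nat_lit 1900) (nat_lit 7300496064) (nat_lit 471) (nat_lit 3) (nat_lit 496) (nat_lit 3) (nat_lit 496) (nat_lit 5) (nat_lit 472) (nat_lit 472) (nat_lit 256)) (XT.lf (nat_lit 0) (nat_lit 5215992461) (nat_lit 1824) (nat_lit 23748001693) (nat_lit 1900) (nat_lit 5695333421) (nat_lit 472) (nat_lit 5) (nat_lit 496) (nat_lit 5) (nat_lit 497) (nat_lit 5) (nat_lit 473) (nat_lit 472) (nat_lit 255))) (XT.nd (nat_lit 78) (nat_lit 0)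 (nat_lit 76) (XT.lf (nat_lit 76) (nat_lit 2102272254) (nat_lit 0) (nat_lit 3629478958) (nat_lit 1900) (nat_lit 29446417140) (nat_lit 473) (nat_lit 5) (nat_lit 472) (nat_lit 5) (nat_lit 497) (nat_lit 5) (nat_lit 474) (nat_lit 472) (nat_lit 254)) (XT.lf (nat_lit 0) (nat_lit 6567635527) (nat_lit 1824) (nat_lit 6804979848) (nat_lit 1900) (nat_lit 22333866117) (nat_lit 473) (nat_lit 5) (nat_lit 497) (nat_lit 5) (nat_lit 498) (nat_lit 5) (nat_lit 475) (nat_lit 472) (nat_lit 253))))) (XT.nd (nat_lit 234) (nat_lit 0) (nat_lit 152) (XT.nd (nat_lit 78) (nat_lit 0) (nat_lit 76) (XT.lf (nat_lit 0) (nat_lit 7666691686) (nat_lit 1824) (nat_lit 15834561612) (nat_lit 1900) (nat_lit 12744629008) (nat_lit 474) (nat_lit 5) (nat_lit 498) (nat_lit 5) (nat_lit 499) (nat_lit 5) (nat_lit 476) (nat_lit 472) (nat_lit 252)) (XT.nd (nat_lit 78) (nat_lit 0) (nat_lit 0) (XT.lf (nat_lit 0) (nat_lit 9026290612) (nat_lit 1824) (nat_lit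 25015471374) (nat_lit 1900) (nat_lit 2755151919) (nat_lit 475) (nat_lit 5) (nat_lit 499) (nat_lit 5) (nat_lit 500) (nat_lit 5) (nat_lit 477) (nat_lit 472) (nat_lit 251)) (XT.lf (nat_lit 76) (nat_lit 2959436660) (nat_lit 0) (nat_lit 7748698558) (nat_lit 1900) (nat_lit 26650712258) (nat_lit 476) (nat_lit 5) (nat_lit 475) (nat_lit 5) (nat_lit 500) (nat_lit 5) (nat_lit 478) (nat_lit 472) (nat_lit 250)))) (XT.nd (nat_lit 156) (nat_lit 0) (nat_lit 76) (XT.nd (nat_lit 78) (nat_lit 0) (nat_lit 76) (XT.lf (nat_lit 0) (nat_lit 12733743720) (nat_lit 1824) (nat_lit 5946766878) (nat_lit 1900) (nat_lit 19251262456) (nat_lit 476) (nat_lit 5) (nat_lit 500) (nat_lit 5) (nat_lit 501) (nat_lit 5) (nat_lit 479) (nat_lit 472) (nat_lit 249)) (XT.lf (nat_lit 0) (nat_lit 15078291425) (nat_lit 1824) (nat_lit 14958096001) (nat_lit 1900) (nat_lit 8480335722) (nat_lit 477) (nat_lit 5) (nat_lit 501) (nat_lit 5) (nat_lit 502) (nat_lit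 5) (nat_lit 480) (nat_lit 472) (nat_lit 248))) (XT.nd (nat_lit 78) (nat_lit 0) (nat_lit 76) (XT.lf (nat_lit 76) (nat_lit 14981607114) (nat_lit 0) (nat_lit 2771635253) (nat_lit 1900) (nat_lit 21360778204) (nat_lit 478) (nat_lit 5) (nat_lit 477) (nat_lit 5) (nat_lit 502) (nat_lit 5) (nat_lit 481) (nat_lit 472) (nat_lit 247)) (XT.lf (nat_lit 76) (nat_lit 6211616527) (nat_lit 0) (nat_lit 14600902638) (nat_lit 1900) (nat_lit 18910636362) (nat_lit 479) (nat_lit 5) (nat_lit 478) (nat_lit 5) (nat_lit 503) (nat_lit 5) (nat_lit 482) (nat_lit 472) (nat_lit 246)))))) (XT.nd (nat_lit 546) (nat_lit 5396) (nat_lit 0) (XT.nd (nat_lit 234) (nat_lit 1672) (nat_lit 0) (XT.nd (nat_lit 78) (nat_lit 0) (nat_lit 76) (XT.lf (nat_lit 0) (nat_lit 24231472348) (nat_lit 1824) (nat_lit 2659827643) (nat_lit 1900) (nat_lit 13453906734) (nat_lit 479) (nat_lit 5) (nat_lit 503) (nat_lit 5) (nat_lit 504) (nat_lit 5) (nat_lit 483) (nat_lit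 472) (nat_lit 245)) (XT.nd (nat_lit 78) (nat_lit 0) (nat_lit 0) (XT.lf (nat_lit 0) (nat_lit 28047925980) (nat_lit 1824) (nat_lit 11585484559) (nat_lit 1900) (nat_lit 1346610429) (nat_lit 480) (nat_lit 5) (nat_lit 504) (nat_lit 5) (nat_lit 505) (nat_lit 5) (nat_lit 484) (nat_lit 472) (nat_lit 244)) (XT.lf (nat_lit 76) (nat_lit 20905775039) (nat_lit 0) (nat_lit 11404396138) (nat_lit 1900) (nat_lit 9317082646) (nat_lit 481) (nat_lit 5) (nat_lit 480) (nat_lit 5) (nat_lit 505) (nat_lit 5) (nat_lit 485) (nat_lit 472) (nat_lit 243)))) (XT.nd (nat_lit 156) (nat_lit 1824) (nat_lit 0) (XT.nd (nat_lit 78) (nat_lit 0) (nat_lit 76) (XT.lf (nat_lit 76) (nat_lit 12281952866) (nat_lit 0) (nat_lit 24689483486) (nat_lit 1900) (nat_lit 5317044400) (nat_lit 482) (nat_lit 5) (nat_lit 481) (nat_lit 5) (nat_lit 506) (nat_lit 5) (nat_lit 486) (nat_lit 472) (nat_lit 242)) (XT.lf (nat_lit 76) (nat_lit 3531861134) (nat_lit 0)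 (nat_lit 38506669071) (nat_lit 1900) (nat_lit 925694606) (nat_lit 483) (nat_lit 5) (nat_lit 482) (nat_lit 5) (nat_lit 507) (nat_lit 5) (nat_lit 487) (nat_lit 472) (nat_lit 241))) (XT.nd (nat_lit 78) (nat_lit 0) (nat_lit 76) (XT.lf (nat_lit 0) (nat_lit 3917751991) (nat_lit 1900) (nat_lit 5360763562) (nat_lit 1976) (nat_lit 34373907896) (nat_lit 457) (nat_lit 5) (nat_lit 482) (nat_lit 5) (nat_lit 483) (nat_lit 5) (nat_lit 488) (nat_lit 472) (nat_lit 240)) (XT.lf (nat_lit 0) (nat_lit 9223926106) (nat_lit 1900) (nat_lit 14373868202) (nat_lit 76) (nat_lit 20756751475) (nat_lit 458) (nat_lit 5) (nat_lit 483) (nat_lit 5) (nat_lit 459) (nat_lit 5) (nat_lit 489) (nat_lit 472) (nat_lit 239))))) (XT.nd (nat_lit 234) (nat_lit 2584) (nat_lit 0) (XT.nd (nat_lit 78) (nat_lit 1824) (nat_lit 0) (XT.lf (nat_lit 0) (nat_lit 14969313724) (nat_lit 1140) (nat_lit 23518481880) (nat_lit 76) (nat_lit 6584335739) (nat_lit 444)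 (nat_lit 5) (nat_lit 459) (nat_lit 5) (nat_lit 445) (nat_lit 5) (nat_lit 490) (nat_lit 472) (nat_lit 238)) (XT.nd (nat_lit 78) (nat_lit 912) (nat_lit 0) (XT.lf (nat_lit 0) (nat_lit 12956030507) (nat_lit 912) (nat_lit 8268925669) (nat_lit 988) (nat_lit 24579530549) (nat_lit 432) (nat_lit 5) (nat_lit 444) (nat_lit 5) (nat_lit 445) (nat_lit 5) (nat_lit 491) (nat_lit 472) (nat_lit 237)) (XT.lf (nat_lit 0) (nat_lit 4194741723) (nat_lit 912) (nat_lit 23807552935) (nat_lit 988) (nat_lit 18549837689) (nat_lit 420) (nat_lit 5) (nat_lit 432) (nat_lit 5) (nat_lit 433) (nat_lit 5) (nat_lit 492) (nat_lit 472) (nat_lit 236)))) (XT.nd (nat_lit 156) (nat_lit 1748) (nat_lit 0) (XT.nd (nat_lit 78) (nat_lit 836) (nat_lit 0) (XT.lf (nat_lit 0) (nat_lit 35307075270) (nat_lit 988) (nat_lit 4624305076) (nat_lit 76) (nat_lit 7384344664) (nat_lit 420) (nat_lit 5) (nat_lit 433) (nat_lit 5) (nat_lit 421) (nat_lit 5) (nat_lit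 493) (nat_lit 472) (nat_lit 235)) (XT.lf (nat_lit 0) (nat_lit 34532612883) (nat_lit 836) (nat_lit 8679880351) (nat_lit 912) (nat_lit 4882102448) (nat_lit 409) (nat_lit 5) (nat_lit 420) (nat_lit 5) (nat_lit 421) (nat_lit 5) (nat_lit 494) (nat_lit 472) (nat_lit 234))) (XT.nd (nat_lit 78) (nat_lit 836) (nat_lit 0) (XT.lf (nat_lit 0) (nat_lit 2780875265) (nat_lit 912) (nat_lit 22687562084) (nat_lit 76) (nat_lit 23420978533) (nat_lit 397) (nat_lit 5) (nat_lit 409) (nat_lit 5) (nat_lit 398) (nat_lit 5) (nat_lit 495) (nat_lit 472) (nat_lit 233)) (XT.lf (nat_lit 0) (nat_lit 10916761363) (nat_lit 912) (nat_lit 31968977163) (nat_lit 76) (nat_lit 6815509893) (nat_lit 386) (nat_lit 5) (nat_lit 398) (nat_lit 5) (nat_lit 387) (nat_lit 5) (nat_lit 496) (nat_lit 472) (nat_lit 232))))))))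
noncomputable def xc123 : XT := (XT.nd (nat_lit 62400) (nat_lit 0) (nat_lit 760) (XT.nd (nat_lit 61308) (nat_lit 0) (nat_lit 4104) (XT.nd (nat_lit 60762) (nat_lit 0) (nat_lit 8892) (XT.nd (nat_lit 234) (nat_lit 760) (nat_lit 0) (XT.nd (nat_lit 78) (nat_lit 760) (nat_lit 0) (XT.lf (nat_lit 0) (nat_lit 9086869680) (nat_lit 836) (nat_lit 10592118289) (nat_lit 912) (nat_lit 30850802782) (nat_lit 375) (nat_lit 5) (nat_lit 386) (nat_lit 5) (nat_lit 387) (nat_lit 5) (nat_lit 497) (nat_lit 472) (nat_lit 231)) (XT.nd (nat_lit 78) (nat_lit 0) (nat_lit 0) (XT.lf (nat_lit 0) (nat_lit 286398793) (nat_lit 760) (nat_lit 28783030718) (nat_lit 836) (nat_lit 22306452975) (nat_lit 365) (nat_lit 5) (nat_lit 375) (nat_lit 5) (nat_lit 376) (nat_lit 5) (nat_lit 498) (nat_lit 472) (nat_lit 230)) (XT.lf (nat_lit 0) (nat_lit 39121375941) (nat_lit 836) (nat_lit 8509423250) (nat_lit 76) (nat_lit 4608962039) (nat_lit 365) (nat_lit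 5) (nat_lit 376) (nat_lit 5) (nat_lit 366) (nat_lit 5) (nat_lit 499) (nat_lit 472) (nat_lit 229)))) (XT.nd (nat_lit 60372) (nat_lit 0) (nat_lit 8816) (XT.lf (nat_lit 0) (nat_lit 35620915818) (nat_lit 760) (nat_lit 14276045169) (nat_lit 836) (nat_lit 3224153835) (nat_lit 355) (nat_lit 5) (nat_lit 365) (nat_lit 5) (nat_lit 366) (nat_lit 5) (nat_lit 500) (nat_lit 472) (nat_lit 228)) (XT.nd (nat_lit 78) (nat_lit 0) (nat_lit 76) (XT.lf (nat_lit 0) (nat_lit 2632151081) (nat_lit 1900) (nat_lit 7476950691) (nat_lit 1900) (nat_lit 7476950691) (nat_lit 471) (nat_lit 3) (nat_lit 496) (nat_lit 3) (nat_lit 496) (nat_lit 5) (nat_lit 473) (nat_lit 473) (nat_lit 254)) (XT.lf (nat_lit 0) (nat_lit 5534536143) (nat_lit 1824) (nat_lit 24372929015) (nat_lit 1900) (nat_lit 5788391139) (nat_lit 472) (nat_lit 5) (nat_lit 496) (nat_lit 5) (nat_lit 497) (nat_lit 5) (nat_lit 474) (nat_lit 473) (nat_lit 253))))) (XT.nd (nat_lit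 234) (nat_lit 0) (nat_lit 228) (XT.nd (nat_lit 78) (nat_lit 0) (nat_lit 76) (XT.lf (nat_lit 76) (nat_lit 2251433361) (nat_lit 0) (nat_lit 3810172961) (nat_lit 1900) (nat_lit 30168739489) (nat_lit 473) (nat_lit 5) (nat_lit 472) (nat_lit 5) (nat_lit 497) (nat_lit 5) (nat_lit 475) (nat_lit 473) (nat_lit 252)) (XT.nd (nat_lit 78) (nat_lit 0) (nat_lit 76) (XT.lf (nat_lit 0) (nat_lit 6917515406) (nat_lit 1824) (nat_lit 6922015877) (nat_lit 1900) (nat_lit 22935078374) (nat_lit 473) (nat_lit 5) (nat_lit 497) (nat_lit 5) (nat_lit 498) (nat_lit 5) (nat_lit 476) (nat_lit 473) (nat_lit 251)) (XT.lf (nat_lit 0) (nat_lit 8045237011) (nat_lit 1824) (nat_lit 16220499612) (nat_lit 1900) (nat_lit 13064542267) (nat_lit 474) (nat_lit 5) (nat_lit 498) (nat_lit 5) (nat_lit 499) (nat_lit 5) (nat_lit 477) (nat_lit 473) (nat_lit 250)))) (XT.nd (nat_lit 156) (nat_lit 0) (nat_lit 76) (XT.nd (nat_lit 78) (nat_lit 0) (nat_lit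 0) (XT.lf (nat_lit 0) (nat_lit 9441495516) (nat_lit 1824) (nat_lit 25675006766) (nat_lit 1900) (nat_lit 2781421985) (nat_lit 475) (nat_lit 5) (nat_lit 499) (nat_lit 5) (nat_lit 500) (nat_lit 5) (nat_lit 478) (nat_lit 473) (nat_lit 249)) (XT.lf (nat_lit 76) (nat_lit 3137673298) (nat_lit 0) (nat_lit 8032496657) (nat_lit 1900) (nat_lit 27306618654) (nat_lit 476) (nat_lit 5) (nat_lit 475) (nat_lit 5) (nat_lit 500) (nat_lit 5) (nat_lit 479) (nat_lit 473) (nat_lit 248))) (XT.nd (nat_lit 78) (nat_lit 0) (nat_lit 76) (XT.lf (nat_lit 0) (nat_lit 13252122407) (nat_lit 1824) (nat_lit 6035256153) (nat_lit 1900) (nat_lit 19779612129) (nat_lit 476) (nat_lit 5) (nat_lit 500) (nat_lit 5) (nat_lit 501) (nat_lit 5) (nat_lit 480) (nat_lit 473) (nat_lit 247)) (XT.lf (nat_lit 0) (nat_lit 15663320002) (nat_lit 1824) (nat_lit 15315427513) (nat_lit 1900) (nat_lit 8690815741) (nat_lit 477) (nat_lit 5) (nat_lit 501) (nat_lit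 5) (nat_lit 502) (nat_lit 5) (nat_lit 481) (nat_lit 473) (nat_lit 246)))))) (XT.nd (nat_lit 546) (nat_lit 5168) (nat_lit 0) (XT.nd (nat_lit 234) (nat_lit 0) (nat_lit 228) (XT.nd (nat_lit 78) (nat_lit 0) (nat_lit 76) (XT.lf (nat_lit 76) (nat_lit 15520983655) (nat_lit 0) (nat_lit 2894255230) (nat_lit 1900) (nat_lit 21869606561) (nat_lit 478) (nat_lit 5) (nat_lit 477) (nat_lit 5) (nat_lit 502) (nat_lit 5) (nat_lit 482) (nat_lit 473) (nat_lit 245)) (XT.nd (nat_lit 78) (nat_lit 0) (nat_lit 76) (XT.lf (nat_lit 76) (nat_lit 6489240113) (nat_lit 0) (nat_lit 15073628775) (nat_lit 1900) (nat_lit 19349454290) (nat_lit 479) (nat_lit 5) (nat_lit 478) (nat_lit 5) (nat_lit 503) (nat_lit 5) (nat_lit 483) (nat_lit 473) (nat_lit 244)) (XT.lf (nat_lit 0) (nat_lit 25080502789) (nat_lit 1824) (nat_lit 2648333739) (nat_lit 1900) (nat_lit 13824277360) (nat_lit 479) (nat_lit 5) (nat_lit 503) (nat_lit 5) (nat_lit 504) (nat_lit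 5) (nat_lit 484) (nat_lit 473) (nat_lit 243)))) (XT.nd (nat_lit 156) (nat_lit 0) (nat_lit 76) (XT.nd (nat_lit 78) (nat_lit 0) (nat_lit 0) (XT.lf (nat_lit 0) (nat_lit 29008286938) (nat_lit 1824) (nat_lit 11840661774) (nat_lit 1900) (nat_lit 1358087322) (nat_lit 480) (nat_lit 5) (nat_lit 504) (nat_lit 5) (nat_lit 505) (nat_lit 5) (nat_lit 485) (nat_lit 473) (nat_lit 242)) (XT.lf (nat_lit 76) (nat_lit 21623836738) (nat_lit 0) (nat_lit 11771689080) (nat_lit 1900) (nat_lit 9478217738) (nat_lit 481) (nat_lit 5) (nat_lit 480) (nat_lit 5) (nat_lit 505) (nat_lit 5) (nat_lit 486) (nat_lit 473) (nat_lit 241))) (XT.nd (nat_lit 78) (nat_lit 0) (nat_lit 76) (XT.lf (nat_lit 76) (nat_lit 12742276169) (nat_lit 0) (nat_lit 25451410538) (nat_lit 1900) (nat_lit 5361179630) (nat_lit 482) (nat_lit 5) (nat_lit 481) (nat_lit 5) (nat_lit 506) (nat_lit 5) (nat_lit 487) (nat_lit 473) (nat_lit 240)) (XT.lf (nat_lit 76) (nat_lit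 3730559000) (nat_lit 0) (nat_lit 39679408228) (nat_lit 1900) (nat_lit 840972207) (nat_lit 483) (nat_lit 5) (nat_lit 482) (nat_lit 5) (nat_lit 507) (nat_lit 5) (nat_lit 488) (nat_lit 473) (nat_lit 239))))) (XT.nd (nat_lit 234) (nat_lit 2660) (nat_lit 0) (XT.nd (nat_lit 78) (nat_lit 988) (nat_lit 0) (XT.lf (nat_lit 0) (nat_lit 4143068888) (nat_lit 1900) (nat_lit 5430107080) (nat_lit 1976) (nat_lit 35386658314) (nat_lit 457) (nat_lit 5) (nat_lit 482) (nat_lit 5) (nat_lit 483) (nat_lit 5) (nat_lit 489) (nat_lit 473) (nat_lit 238)) (XT.nd (nat_lit 78) (nat_lit 1064) (nat_lit 0) (XT.lf (nat_lit 0) (nat_lit 9605774277) (nat_lit 1900) (nat_lit 14712879505) (nat_lit 76) (nat_lit 21364419765) (nat_lit 458) (nat_lit 5) (nat_lit 483) (nat_lit 5) (nat_lit 459) (nat_lit 5) (nat_lit 490) (nat_lit 473) (nat_lit 237)) (XT.lf (nat_lit 0) (nat_lit 15520972837) (nat_lit 1140) (nat_lit 24131190954) (nat_lit 76) (nat_lit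 6770074070) (nat_lit 444) (nat_lit 5) (nat_lit 459) (nat_lit 5) (nat_lit 445) (nat_lit 5) (nat_lit 491) (nat_lit 473) (nat_lit 236)))) (XT.nd (nat_lit 156) (nat_lit 836) (nat_lit 0) (XT.nd (nat_lit 78) (nat_lit 912) (nat_lit 0) (XT.lf (nat_lit 0) (nat_lit 13436050499) (nat_lit 912) (nat_lit 8525839339) (nat_lit 988) (nat_lit 25214722130) (nat_lit 432) (nat_lit 5) (nat_lit 444) (nat_lit 5) (nat_lit 445) (nat_lit 5) (nat_lit 492) (nat_lit 473) (nat_lit 235)) (XT.lf (nat_lit 0) (nat_lit 4412474444) (nat_lit 912) (nat_lit 24527696875) (nat_lit 988) (nat_lit 19006563348) (nat_lit 420) (nat_lit 5) (nat_lit 432) (nat_lit 5) (nat_lit 433) (nat_lit 5) (nat_lit 493) (nat_lit 473) (nat_lit 234))) (XT.nd (nat_lit 78) (nat_lit 836) (nat_lit 0) (XT.lf (nat_lit 0) (nat_lit 36461209277) (nat_lit 988) (nat_lit 4671878365) (nat_lit 76) (nat_lit 7600205349) (nat_lit 420) (nat_lit 5) (nat_lit 433) (nat_lit 5) (nat_lit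 421) (nat_lit 5) (nat_lit 494) (nat_lit 473) (nat_lit 233)) (XT.lf (nat_lit 0) (nat_lit 35658268238) (nat_lit 836) (nat_lit 8943339074) (nat_lit 912) (nat_lit 4933966276) (nat_lit 409) (nat_lit 5) (nat_lit 420) (nat_lit 5) (nat_lit 421) (nat_lit 5) (nat_lit 495) (nat_lit 473) (nat_lit 232))))))) (XT.nd (nat_lit 61464) (nat_lit 0) (nat_lit 3344) (XT.nd (nat_lit 60918) (nat_lit 0) (nat_lit 8132) (XT.nd (nat_lit 234) (nat_lit 760) (nat_lit 0) (XT.nd (nat_lit 78) (nat_lit 1672) (nat_lit 0) (XT.lf (nat_lit 0) (nat_lit 2955510146) (nat_lit 912) (nat_lit 23276900488) (nat_lit 76) (nat_lit 24121858623) (nat_lit 397) (nat_lit 5) (nat_lit 409) (nat_lit 5) (nat_lit 398) (nat_lit 5) (nat_lit 496) (nat_lit 473) (nat_lit 231)) (XT.nd (nat_lit 78) (nat_lit 836) (nat_lit 0) (XT.lf (nat_lit 0) (nat_lit 11333403719) (nat_lit 912) (nat_lit 32836455942) (nat_lit 76) (nat_lit 7020638635) (nat_lit 386) (nat_lit 5) (nat_lit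 398) (nat_lit 5) (nat_lit 387) (nat_lit 5) (nat_lit 497) (nat_lit 473) (nat_lit 230)) (XT.lf (nat_lit 0) (nat_lit 9449580358) (nat_lit 836) (nat_lit 10906905487) (nat_lit 912) (nat_lit 31687451418) (nat_lit 375) (nat_lit 5) (nat_lit 386) (nat_lit 5) (nat_lit 387) (nat_lit 5) (nat_lit 498) (nat_lit 473) (nat_lit 229)))) (XT.nd (nat_lit 60528) (nat_lit 0) (nat_lit 8056) (XT.nd (nat_lit 78) (nat_lit 0) (nat_lit 0) (XT.lf (nat_lit 0) (nat_lit 385333358) (nat_lit 760) (nat_lit 29641374885) (nat_lit 836) (nat_lit 22888742289) (nat_lit 365) (nat_lit 5) (nat_lit 375) (nat_lit 5) (nat_lit 376) (nat_lit 5) (nat_lit 499) (nat_lit 473) (nat_lit 228)) (XT.lf (nat_lit 0) (nat_lit 40377764077) (nat_lit 836) (nat_lit 8675368458) (nat_lit 76) (nat_lit 4752162215) (nat_lit 365) (nat_lit 5) (nat_lit 376) (nat_lit 5) (nat_lit 366) (nat_lit 5) (nat_lit 500) (nat_lit 473) (nat_lit 227))) (XT.nd (nat_lit 78) (nat_lit 0)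 (nat_lit 76) (XT.lf (nat_lit 0) (nat_lit 2789771960) (nat_lit 1900) (nat_lit 7661142090) (nat_lit 1900) (nat_lit 7661142090) (nat_lit 471) (nat_lit 3) (nat_lit 496) (nat_lit 3) (nat_lit 496) (nat_lit 5) (nat_lit 474) (nat_lit 474) (nat_lit 252)) (XT.lf (nat_lit 0) (nat_lit 5853333005) (nat_lit 1824) (nat_lit 25021627745) (nat_lit 1900) (nat_lit 5888706758) (nat_lit 472) (nat_lit 5) (nat_lit 496) (nat_lit 5) (nat_lit 497) (nat_lit 5) (nat_lit 475) (nat_lit 474) (nat_lit 251))))) (XT.nd (nat_lit 234) (nat_lit 0) (nat_lit 228) (XT.nd (nat_lit 78) (nat_lit 0) (nat_lit 76) (XT.lf (nat_lit 76) (nat_lit 2400127214) (nat_lit 0) (nat_lit 3992165617) (nat_lit 1900) (nat_lit 30921977595) (nat_lit 473) (nat_lit 5) (nat_lit 472) (nat_lit 5) (nat_lit 497) (nat_lit 5) (nat_lit 476) (nat_lit 474) (nat_lit 250)) (XT.nd (nat_lit 78) (nat_lit 0) (nat_lit 76) (XT.lf (nat_lit 0) (nat_lit 7269117419) (nat_lit 1824) (nat_lit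 7047563651) (nat_lit 1900) (nat_lit 23558276614) (nat_lit 473) (nat_lit 5) (nat_lit 497) (nat_lit 5) (nat_lit 498) (nat_lit 5) (nat_lit 477) (nat_lit 474) (nat_lit 249)) (XT.lf (nat_lit 0) (nat_lit 8426611629) (nat_lit 1824) (nat_lit 16623130391) (nat_lit 1900) (nat_lit 13397636410) (nat_lit 474) (nat_lit 5) (nat_lit 498) (nat_lit 5) (nat_lit 499) (nat_lit 5) (nat_lit 478) (nat_lit 474) (nat_lit 248)))) (XT.nd (nat_lit 156) (nat_lit 0) (nat_lit 76) (XT.nd (nat_lit 78) (nat_lit 0) (nat_lit 0) (XT.lf (nat_lit 0) (nat_lit 9860866488) (nat_lit 1824) (nat_lit 26359547902) (nat_lit 1900) (nat_lit 2811716853) (nat_lit 475) (nat_lit 5) (nat_lit 499) (nat_lit 5) (nat_lit 500) (nat_lit 5) (nat_lit 479) (nat_lit 474) (nat_lit 247)) (XT.lf (nat_lit 76) (nat_lit 3316122037) (nat_lit 0) (nat_lit 8321861738) (nat_lit 1900) (nat_lit 27990446329) (nat_lit 476) (nat_lit 5) (nat_lit 475) (nat_lit 5) (nat_lit 500) (nat_lit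 5) (nat_lit 480) (nat_lit 474) (nat_lit 246))) (XT.nd (nat_lit 78) (nat_lit 0) (nat_lit 76) (XT.lf (nat_lit 0) (nat_lit 13778224467) (nat_lit 1824) (nat_lit 6131561522) (nat_lit 1900) (nat_lit 20326635896) (nat_lit 476) (nat_lit 5) (nat_lit 500) (nat_lit 5) (nat_lit 501) (nat_lit 5) (nat_lit 481) (nat_lit 474) (nat_lit 245)) (XT.lf (nat_lit 0) (nat_lit 16258283071) (nat_lit 1824) (nat_lit 15688726356) (nat_lit 1900) (nat_lit 8910131926) (nat_lit 477) (nat_lit 5) (nat_lit 501) (nat_lit 5) (nat_lit 502) (nat_lit 5) (nat_lit 482) (nat_lit 474) (nat_lit 244)))))) (XT.nd (nat_lit 546) (nat_lit 5168) (nat_lit 0) (XT.nd (nat_lit 234) (nat_lit 0) (nat_lit 228) (XT.nd (nat_lit 78) (nat_lit 0) (nat_lit 76) (XT.lf (nat_lit 76) (nat_lit 16071379239) (nat_lit 0) (nat_lit 3018288014) (nat_lit 1900) (nat_lit 22401276821) (nat_lit 478) (nat_lit 5) (nat_lit 477) (nat_lit 5) (nat_lit 502) (nat_lit 5) (nat_lit 483) (nat_lit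 474) (nat_lit 243)) (XT.nd (nat_lit 78) (nat_lit 0) (nat_lit 76) (XT.lf (nat_lit 76) (nat_lit 6769952844) (nat_lit 0) (nat_lit 15558544828) (nat_lit 1900) (nat_lit 19808813249) (nat_lit 479) (nat_lit 5) (nat_lit 478) (nat_lit 5) (nat_lit 503) (nat_lit 5) (nat_lit 484) (nat_lit 474) (nat_lit 242)) (XT.lf (nat_lit 0) (nat_lit 25947995892) (nat_lit 1824) (nat_lit 2641735366) (nat_lit 1900) (nat_lit 14207667594) (nat_lit 479) (nat_lit 5) (nat_lit 503) (nat_lit 5) (nat_lit 504) (nat_lit 5) (nat_lit 485) (nat_lit 474) (nat_lit 241)))) (XT.nd (nat_lit 156) (nat_lit 0) (nat_lit 76) (XT.nd (nat_lit 78) (nat_lit 0) (nat_lit 0) (XT.lf (nat_lit 0) (nat_lit 29990632048) (nat_lit 1824) (nat_lit 12108797716) (nat_lit 1900) (nat_lit 1371568730) (nat_lit 480) (nat_lit 5) (nat_lit 504) (nat_lit 5) (nat_lit 505) (nat_lit 5) (nat_lit 486) (nat_lit 474) (nat_lit 240)) (XT.lf (nat_lit 76) (nat_lit 22358222918) (nat_lit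 0) (nat_lit 12148556462) (nat_lit 1900) (nat_lit 9650982230) (nat_lit 481) (nat_lit 5) (nat_lit 480) (nat_lit 5) (nat_lit 505) (nat_lit 5) (nat_lit 487) (nat_lit 474) (nat_lit 239))) (XT.nd (nat_lit 78) (nat_lit 0) (nat_lit 76) (XT.lf (nat_lit 76) (nat_lit 13211135761) (nat_lit 0) (nat_lit 26234975993) (nat_lit 1900) (nat_lit 5413261977) (nat_lit 482) (nat_lit 5) (nat_lit 481) (nat_lit 5) (nat_lit 506) (nat_lit 5) (nat_lit 488) (nat_lit 474) (nat_lit 238)) (XT.lf (nat_lit 76) (nat_lit 3929894030) (nat_lit 0) (nat_lit 40886322745) (nat_lit 1900) (nat_lit 760165709) (nat_lit 483) (nat_lit 5) (nat_lit 482) (nat_lit 5) (nat_lit 507) (nat_lit 5) (nat_lit 489) (nat_lit 474) (nat_lit 237))))) (XT.nd (nat_lit 234) (nat_lit 2660) (nat_lit 0) (XT.nd (nat_lit 78) (nat_lit 988) (nat_lit 0) (XT.lf (nat_lit 0) (nat_lit 4368958031) (nat_lit 1900) (nat_lit 5506782195) (nat_lit 1976) (nat_lit 36430851315) (nat_lit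 457) (nat_lit 5) (nat_lit 482) (nat_lit 5) (nat_lit 483) (nat_lit 5) (nat_lit 490) (nat_lit 474) (nat_lit 236)) (XT.nd (nat_lit 78) (nat_lit 1064) (nat_lit 0) (XT.lf (nat_lit 0) (nat_lit 9993042978) (nat_lit 1900) (nat_lit 15067354076) (nat_lit 76) (nat_lit 21991181130) (nat_lit 458) (nat_lit 5) (nat_lit 483) (nat_lit 5) (nat_lit 459) (nat_lit 5) (nat_lit 491) (nat_lit 474) (nat_lit 235)) (XT.lf (nat_lit 0) (nat_lit 16083293229) (nat_lit 1140) (nat_lit 24767611005) (nat_lit 76) (nat_lit 6962061445) (nat_lit 444) (nat_lit 5) (nat_lit 459) (nat_lit 5) (nat_lit 445) (nat_lit 5) (nat_lit 492) (nat_lit 474) (nat_lit 234)))) (XT.nd (nat_lit 156) (nat_lit 836) (nat_lit 0) (XT.nd (nat_lit 78) (nat_lit 912) (nat_lit 0) (XT.lf (nat_lit 0) (nat_lit 13925227854) (nat_lit 912) (nat_lit 8789952629) (nat_lit 988) (nat_lit 25874835831) (nat_lit 432) (nat_lit 5) (nat_lit 444) (nat_lit 5) (nat_lit 445) (nat_lit 5) (nat_lit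 493) (nat_lit 474) (nat_lit 233)) (XT.lf (nat_lit 0) (nat_lit 4631464258) (nat_lit 912) (nat_lit 25269105453) (nat_lit 988) (nat_lit 19482717952) (nat_lit 420) (nat_lit 5) (nat_lit 432) (nat_lit 5) (nat_lit 433) (nat_lit 5) (nat_lit 494) (nat_lit 474) (nat_lit 232))) (XT.nd (nat_lit 78) (nat_lit 836) (nat_lit 0) (XT.lf (nat_lit 0) (nat_lit 37644518409) (nat_lit 988) (nat_lit 4726111572) (nat_lit 76) (nat_lit 7822867315) (nat_lit 420) (nat_lit 5) (nat_lit 433) (nat_lit 5) (nat_lit 421) (nat_lit 5) (nat_lit 495) (nat_lit 474) (nat_lit 231)) (XT.lf (nat_lit 0) (nat_lit 36812545428) (nat_lit 836) (nat_lit 9214525770) (nat_lit 912) (nat_lit 4992816403) (nat_lit 409) (nat_lit 5) (nat_lit 420) (nat_lit 5) (nat_lit 421) (nat_lit 5) (nat_lit 496) (nat_lit 474) (nat_lit 230))))))))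
noncomputable def xc124 : XT := (XT.nd (nat_lit 62634) (nat_lit 0) (nat_lit 836) (XT.nd (nat_lit 61542) (nat_lit 0) (nat_lit 1672) (XT.nd (nat_lit 60996) (nat_lit 0) (nat_lit 7448) (XT.nd (nat_lit 60762) (nat_lit 0) (nat_lit 7296) (XT.nd (nat_lit 78) (nat_lit 1672) (nat_lit 0) (XT.lf (nat_lit 0) (nat_lit 3130148325) (nat_lit 912) (nat_lit 23889159375) (nat_lit 76) (nat_lit 24843865530) (nat_lit 397) (nat_lit 5) (nat_lit 409) (nat_lit 5) (nat_lit 398) (nat_lit 5) (nat_lit 497) (nat_lit 474) (nat_lit 229)) (XT.nd (nat_lit 78) (nat_lit 836) (nat_lit 0) (XT.lf (nat_lit 0) (nat_lit 11757428372) (nat_lit 912) (nat_lit 33735216756) (nat_lit 76) (nat_lit 7231883154) (nat_lit 386) (nat_lit 5) (nat_lit 398) (nat_lit 5) (nat_lit 387) (nat_lit 5) (nat_lit 498) (nat_lit 474) (nat_lit 228)) (XT.lf (nat_lit 0) (nat_lit 9817999985) (nat_lit 836) (nat_lit 11231307155) (nat_lit 912) (nat_lit 32554301326) (nat_lit 375)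 (nat_lit 5) (nat_lit 386) (nat_lit 5) (nat_lit 387) (nat_lit 5) (nat_lit 499) (nat_lit 474) (nat_lit 227)))) (XT.nd (nat_lit 78) (nat_lit 0) (nat_lit 76) (XT.lf (nat_lit 0) (nat_lit 2947606269) (nat_lit 1900) (nat_lit 7853162118) (nat_lit 1900) (nat_lit 7853162118) (nat_lit 471) (nat_lit 3) (nat_lit 496) (nat_lit 3) (nat_lit 496) (nat_lit 5) (nat_lit 475) (nat_lit 475) (nat_lit 250)) (XT.nd (nat_lit 78) (nat_lit 0) (nat_lit 0) (XT.lf (nat_lit 0) (nat_lit 6172924679) (nat_lit 1824) (nat_lit 25694522651) (nat_lit 1900) (nat_lit 5996241638) (nat_lit 472) (nat_lit 5) (nat_lit 496) (nat_lit 5) (nat_lit 497) (nat_lit 5) (nat_lit 476) (nat_lit 475) (nat_lit 249)) (XT.lf (nat_lit 76) (nat_lit 2548623492) (nat_lit 0) (nat_lit 4175732516) (nat_lit 1900) (nat_lit 31706528167) (nat_lit 473) (nat_lit 5) (nat_lit 472) (nat_lit 5) (nat_lit 497) (nat_lit 5) (nat_lit 477) (nat_lit 475) (nat_lit 248))))) (XT.nd (nat_lit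 234) (nat_lit 0) (nat_lit 152) (XT.nd (nat_lit 78) (nat_lit 0) (nat_lit 76) (XT.lf (nat_lit 0) (nat_lit 7622996909) (nat_lit 1824) (nat_lit 7181591464) (nat_lit 1900) (nat_lit 24203893693) (nat_lit 473) (nat_lit 5) (nat_lit 497) (nat_lit 5) (nat_lit 498) (nat_lit 5) (nat_lit 478) (nat_lit 475) (nat_lit 247)) (XT.nd (nat_lit 78) (nat_lit 0) (nat_lit 76) (XT.lf (nat_lit 0) (nat_lit 8811389909) (nat_lit 1824) (nat_lit 17042661130) (nat_lit 1900) (nat_lit 13744101156) (nat_lit 474) (nat_lit 5) (nat_lit 498) (nat_lit 5) (nat_lit 499) (nat_lit 5) (nat_lit 479) (nat_lit 475) (nat_lit 246)) (XT.lf (nat_lit 0) (nat_lit 10285004394) (nat_lit 1824) (nat_lit 27069545323) (nat_lit 1900) (nat_lit 2845971468) (nat_lit 475) (nat_lit 5) (nat_lit 499) (nat_lit 5) (nat_lit 500) (nat_lit 5) (nat_lit 480) (nat_lit 475) (nat_lit 245)))) (XT.nd (nat_lit 156) (nat_lit 0) (nat_lit 152) (XT.nd (nat_lit 78) (nat_lit 0) (nat_lit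 76) (XT.lf (nat_lit 76) (nat_lit 3495084008) (nat_lit 0) (nat_lit 8617129977) (nat_lit 1900) (nat_lit 28702559677) (nat_lit 476) (nat_lit 5) (nat_lit 475) (nat_lit 5) (nat_lit 500) (nat_lit 5) (nat_lit 481) (nat_lit 475) (nat_lit 244)) (XT.lf (nat_lit 0) (nat_lit 14312730959) (nat_lit 1824) (nat_lit 6235621181) (nat_lit 1900) (nat_lit 20892731893) (nat_lit 476) (nat_lit 5) (nat_lit 500) (nat_lit 5) (nat_lit 501) (nat_lit 5) (nat_lit 482) (nat_lit 475) (nat_lit 243))) (XT.nd (nat_lit 78) (nat_lit 0) (nat_lit 0) (XT.lf (nat_lit 0) (nat_lit 16863915877) (nat_lit 1824) (nat_lit 16078170330) (nat_lit 1900) (nat_lit 9138404601) (nat_lit 477) (nat_lit 5) (nat_lit 501) (nat_lit 5) (nat_lit 502) (nat_lit 5) (nat_lit 483) (nat_lit 475) (nat_lit 242)) (XT.lf (nat_lit 76) (nat_lit 16633420771) (nat_lit 0) (nat_lit 3143906055) (nat_lit 1900) (nat_lit 22956039287) (nat_lit 478) (nat_lit 5) (nat_lit 477) (nat_lit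 5) (nat_lit 502) (nat_lit 5) (nat_lit 484) (nat_lit 475) (nat_lit 241)))))) (XT.nd (nat_lit 546) (nat_lit 4560) (nat_lit 0) (XT.nd (nat_lit 234) (nat_lit 1596) (nat_lit 0) (XT.nd (nat_lit 78) (nat_lit 0) (nat_lit 76) (XT.lf (nat_lit 76) (nat_lit 7054148165) (nat_lit 0) (nat_lit 16056130837) (nat_lit 1900) (nat_lit 20288906027) (nat_lit 479) (nat_lit 5) (nat_lit 478) (nat_lit 5) (nat_lit 503) (nat_lit 5) (nat_lit 485) (nat_lit 475) (nat_lit 240)) (XT.nd (nat_lit 78) (nat_lit 0) (nat_lit 76) (XT.lf (nat_lit 0) (nat_lit 26834907840) (nat_lit 1824) (nat_lit 2639878571) (nat_lit 1900) (nat_lit 14604358469) (nat_lit 479) (nat_lit 5) (nat_lit 503) (nat_lit 5) (nat_lit 504) (nat_lit 5) (nat_lit 486) (nat_lit 475) (nat_lit 239)) (XT.lf (nat_lit 0) (nat_lit 30996012713) (nat_lit 1824) (nat_lit 12389976709) (nat_lit 1900) (nat_lit 1387019485) (nat_lit 480) (nat_lit 5) (nat_lit 504) (nat_lit 5) (nat_lit 505) (nat_lit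 5) (nat_lit 487) (nat_lit 475) (nat_lit 238)))) (XT.nd (nat_lit 156) (nat_lit 1748) (nat_lit 0) (XT.nd (nat_lit 78) (nat_lit 0) (nat_lit 76) (XT.lf (nat_lit 76) (nat_lit 23109722814) (nat_lit 0) (nat_lit 12535368430) (nat_lit 1900) (nat_lit 9835334921) (nat_lit 481) (nat_lit 5) (nat_lit 480) (nat_lit 5) (nat_lit 505) (nat_lit 5) (nat_lit 488) (nat_lit 475) (nat_lit 237)) (XT.lf (nat_lit 76) (nat_lit 13689090446) (nat_lit 0) (nat_lit 27040899001) (nat_lit 1900) (nat_lit 5473149665) (nat_lit 482) (nat_lit 5) (nat_lit 481) (nat_lit 5) (nat_lit 506) (nat_lit 5) (nat_lit 489) (nat_lit 475) (nat_lit 236))) (XT.nd (nat_lit 78) (nat_lit 1900) (nat_lit 0) (XT.lf (nat_lit 76) (nat_lit 4130190946) (nat_lit 0) (nat_lit 42128495678) (nat_lit 1900) (nat_lit 683021896) (nat_lit 483) (nat_lit 5) (nat_lit 482) (nat_lit 5) (nat_lit 507) (nat_lit 5) (nat_lit 490) (nat_lit 475) (nat_lit 235)) (XT.lf (nat_lit 0) (nat_lit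 4595791759) (nat_lit 1900) (nat_lit 5590707409) (nat_lit 1976) (nat_lit 37507369325) (nat_lit 457) (nat_lit 5) (nat_lit 482) (nat_lit 5) (nat_lit 483) (nat_lit 5) (nat_lit 491) (nat_lit 475) (nat_lit 234))))) (XT.nd (nat_lit 234) (nat_lit 2660) (nat_lit 0) (XT.nd (nat_lit 78) (nat_lit 1976) (nat_lit 0) (XT.lf (nat_lit 0) (nat_lit 10386241254) (nat_lit 1900) (nat_lit 15437451977) (nat_lit 76) (nat_lit 22637558824) (nat_lit 458) (nat_lit 5) (nat_lit 483) (nat_lit 5) (nat_lit 459) (nat_lit 5) (nat_lit 492) (nat_lit 475) (nat_lit 233)) (XT.nd (nat_lit 78) (nat_lit 912) (nat_lit 0) (XT.lf (nat_lit 0) (nat_lit 16656932763) (nat_lit 1140) (nat_lit 25428147415) (nat_lit 76) (nat_lit 7160446478) (nat_lit 444) (nat_lit 5) (nat_lit 459) (nat_lit 5) (nat_lit 445) (nat_lit 5) (nat_lit 493) (nat_lit 475) (nat_lit 232)) (XT.lf (nat_lit 0) (nat_lit 14424138276) (nat_lit 912) (nat_lit 9061510676) (nat_lit 988) (nat_lit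 26560282562) (nat_lit 432) (nat_lit 5) (nat_lit 444) (nat_lit 5) (nat_lit 445) (nat_lit 5) (nat_lit 494) (nat_lit 475) (nat_lit 231)))) (XT.nd (nat_lit 156) (nat_lit 1748) (nat_lit 0) (XT.nd (nat_lit 78) (nat_lit 0) (nat_lit 0) (XT.lf (nat_lit 0) (nat_lit 4852051678) (nat_lit 912) (nat_lit 26032436107) (nat_lit 988) (nat_lit 19978555607) (nat_lit 420) (nat_lit 5) (nat_lit 432) (nat_lit 5) (nat_lit 433) (nat_lit 5) (nat_lit 495) (nat_lit 475) (nat_lit 230)) (XT.lf (nat_lit 0) (nat_lit 38858190706) (nat_lit 988) (nat_lit 4786904115) (nat_lit 76) (nat_lit 8052515920) (nat_lit 420) (nat_lit 5) (nat_lit 433) (nat_lit 5) (nat_lit 421) (nat_lit 5) (nat_lit 496) (nat_lit 475) (nat_lit 229))) (XT.nd (nat_lit 78) (nat_lit 912) (nat_lit 0) (XT.lf (nat_lit 0) (nat_lit 37996598616) (nat_lit 836) (nat_lit 9493682368) (nat_lit 912) (nat_lit 5058550691) (nat_lit 409) (nat_lit 5) (nat_lit 420) (nat_lit 5) (nat_lit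 421) (nat_lit 5) (nat_lit 497) (nat_lit 475) (nat_lit 228)) (XT.lf (nat_lit 0) (nat_lit 3305090454) (nat_lit 912) (nat_lit 24524725543) (nat_lit 76) (nat_lit 25587627296) (nat_lit 397) (nat_lit 5) (nat_lit 409) (nat_lit 5) (nat_lit 398) (nat_lit 5) (nat_lit 498) (nat_lit 475) (nat_lit 227))))))) (XT.nd (nat_lit 61620) (nat_lit 0) (nat_lit 1748) (XT.nd (nat_lit 61074) (nat_lit 0) (nat_lit 6764) (XT.nd (nat_lit 60840) (nat_lit 0) (nat_lit 6536) (XT.nd (nat_lit 60684) (nat_lit 0) (nat_lit 6460) (XT.lf (nat_lit 0) (nat_lit 12189350528) (nat_lit 912) (nat_lit 34665896254) (nat_lit 76) (nat_lit 7449429111) (nat_lit 386) (nat_lit 5) (nat_lit 398) (nat_lit 5) (nat_lit 387) (nat_lit 5) (nat_lit 499) (nat_lit 475) (nat_lit 226)) (XT.nd (nat_lit 78) (nat_lit 0) (nat_lit 76) (XT.lf (nat_lit 0) (nat_lit 3105919602) (nat_lit 1900) (nat_lit 8053113439) (nat_lit 1900) (nat_lit 8053113439) (nat_lit 471) (nat_lit 3)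 (nat_lit 496) (nat_lit 3) (nat_lit 496) (nat_lit 5) (nat_lit 476) (nat_lit 476) (nat_lit 248)) (XT.lf (nat_lit 0) (nat_lit 6493838392) (nat_lit 1824) (nat_lit 26392067798) (nat_lit 1900) (nat_lit 6110970699) (nat_lit 472) (nat_lit 5) (nat_lit 496) (nat_lit 5) (nat_lit 497) (nat_lit 5) (nat_lit 477) (nat_lit 476) (nat_lit 247)))) (XT.nd (nat_lit 78) (nat_lit 0) (nat_lit 76) (XT.lf (nat_lit 76) (nat_lit 2697183677) (nat_lit 0) (nat_lit 4361143929) (nat_lit 1900) (nat_lit 32522830285) (nat_lit 473) (nat_lit 5) (nat_lit 472) (nat_lit 5) (nat_lit 497) (nat_lit 5) (nat_lit 478) (nat_lit 476) (nat_lit 246)) (XT.nd (nat_lit 78) (nat_lit 0) (nat_lit 76) (XT.lf (nat_lit 0) (nat_lit 7979696966) (nat_lit 1824) (nat_lit 7324083135) (nat_lit 1900) (nat_lit 24872388466) (nat_lit 473) (nat_lit 5) (nat_lit 497) (nat_lit 5) (nat_lit 498) (nat_lit 5) (nat_lit 479) (nat_lit 476) (nat_lit 245)) (XT.lf (nat_lit 0) (nat_lit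 9200135349) (nat_lit 1824) (nat_lit 17479322081) (nat_lit 1900) (nat_lit 14104143724) (nat_lit 474) (nat_lit 5) (nat_lit 498) (nat_lit 5) (nat_lit 499) (nat_lit 5) (nat_lit 480) (nat_lit 476) (nat_lit 244))))) (XT.nd (nat_lit 234) (nat_lit 0) (nat_lit 152) (XT.nd (nat_lit 78) (nat_lit 0) (nat_lit 0) (XT.lf (nat_lit 0) (nat_lit 10714500808) (nat_lit 1824) (nat_lit 27805480287) (nat_lit 1900) (nat_lit 2884129488) (nat_lit 475) (nat_lit 5) (nat_lit 499) (nat_lit 5) (nat_lit 500) (nat_lit 5) (nat_lit 481) (nat_lit 476) (nat_lit 243)) (XT.nd (nat_lit 78) (nat_lit 0) (nat_lit 76) (XT.lf (nat_lit 76) (nat_lit 3674852458) (nat_lit 0) (nat_lit 8918637925) (nat_lit 1900) (nat_lit 29443361189) (nat_lit 476) (nat_lit 5) (nat_lit 475) (nat_lit 5) (nat_lit 500) (nat_lit 5) (nat_lit 482) (nat_lit 476) (nat_lit 242)) (XT.lf (nat_lit 0) (nat_lit 14856317581) (nat_lit 1824) (nat_lit 6347388482) (nat_lit 1900) (nat_lit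 21478319506) (nat_lit 476) (nat_lit 5) (nat_lit 500) (nat_lit 5) (nat_lit 501) (nat_lit 5) (nat_lit 483) (nat_lit 476) (nat_lit 241)))) (XT.nd (nat_lit 156) (nat_lit 0) (nat_lit 76) (XT.nd (nat_lit 78) (nat_lit 0) (nat_lit 0) (XT.lf (nat_lit 0) (nat_lit 17480950626) (nat_lit 1824) (nat_lit 16483959858) (nat_lit 1900) (nat_lit 9375766012) (nat_lit 477) (nat_lit 5) (nat_lit 501) (nat_lit 5) (nat_lit 502) (nat_lit 5) (nat_lit 484) (nat_lit 476) (nat_lit 240)) (XT.lf (nat_lit 76) (nat_lit 17207736953) (nat_lit 0) (nat_lit 3271279510) (nat_lit 1900) (nat_lit 23534176739) (nat_lit 478) (nat_lit 5) (nat_lit 477) (nat_lit 5) (nat_lit 502) (nat_lit 5) (nat_lit 485) (nat_lit 476) (nat_lit 239))) (XT.nd (nat_lit 78) (nat_lit 0) (nat_lit 76) (XT.lf (nat_lit 76) (nat_lit 7342214062) (nat_lit 0) (nat_lit 16566874676) (nat_lit 1900) (nat_lit 20789955507) (nat_lit 479) (nat_lit 5) (nat_lit 478) (nat_lit 5) (nat_lit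 503) (nat_lit 5) (nat_lit 486) (nat_lit 476) (nat_lit 238)) (XT.lf (nat_lit 0) (nat_lit 27742200405) (nat_lit 1824) (nat_lit 2642622052) (nat_lit 1900) (nat_lit 15014645739) (nat_lit 479) (nat_lit 5) (nat_lit 503) (nat_lit 5) (nat_lit 504) (nat_lit 5) (nat_lit 487) (nat_lit 476) (nat_lit 237)))))) (XT.nd (nat_lit 546) (nat_lit 2660) (nat_lit 0) (XT.nd (nat_lit 234) (nat_lit 2736) (nat_lit 0) (XT.nd (nat_lit 78) (nat_lit 0) (nat_lit 0) (XT.lf (nat_lit 0) (nat_lit 32025489385) (nat_lit 1824) (nat_lit 12684303082) (nat_lit 1900) (nat_lit 1404408836) (nat_lit 480) (nat_lit 5) (nat_lit 504) (nat_lit 5) (nat_lit 505) (nat_lit 5) (nat_lit 488) (nat_lit 476) (nat_lit 236)) (XT.nd (nat_lit 78) (nat_lit 0) (nat_lit 76) (XT.lf (nat_lit 76) (nat_lit 23879132142) (nat_lit 0) (nat_lit 12932501472) (nat_lit 1900) (nat_lit 10031255770) (nat_lit 481) (nat_lit 5) (nat_lit 480) (nat_lit 5) (nat_lit 505) (nat_lit 5) (nat_lit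 489) (nat_lit 476) (nat_lit 235)) (XT.lf (nat_lit 76) (nat_lit 14176698414) (nat_lit 0) (nat_lit 27869916270) (nat_lit 1900) (nat_lit 5540718486) (nat_lit 482) (nat_lit 5) (nat_lit 481) (nat_lit 5) (nat_lit 506) (nat_lit 5) (nat_lit 490) (nat_lit 476) (nat_lit 234)))) (XT.nd (nat_lit 156) (nat_lit 988) (nat_lit 0) (XT.nd (nat_lit 78) (nat_lit 1900) (nat_lit 0) (XT.lf (nat_lit 76) (nat_lit 4331766666) (nat_lit 0) (nat_lit 43407039256) (nat_lit 1900) (nat_lit 609301238) (nat_lit 483) (nat_lit 5) (nat_lit 482) (nat_lit 5) (nat_lit 507) (nat_lit 5) (nat_lit 491) (nat_lit 476) (nat_lit 233)) (XT.lf (nat_lit 0) (nat_lit 4823933198) (nat_lit 1900) (nat_lit 5681816083) (nat_lit 1976) (nat_lit 38617124735) (nat_lit 457) (nat_lit 5) (nat_lit 482) (nat_lit 5) (nat_lit 483) (nat_lit 5) (nat_lit 492) (nat_lit 476) (nat_lit 232))) (XT.nd (nat_lit 78) (nat_lit 1064) (nat_lit 0) (XT.lf (nat_lit 0) (nat_lit 10785873536)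 (nat_lit 1900) (nat_lit 15823355516) (nat_lit 76) (nat_lit 23304094637) (nat_lit 458) (nat_lit 5) (nat_lit 483) (nat_lit 5) (nat_lit 459) (nat_lit 5) (nat_lit 493) (nat_lit 476) (nat_lit 231)) (XT.lf (nat_lit 0) (nat_lit 17242549631) (nat_lit 1140) (nat_lit 26113235291) (nat_lit 76) (nat_lit 7365384475) (nat_lit 444) (nat_lit 5) (nat_lit 459) (nat_lit 5) (nat_lit 445) (nat_lit 5) (nat_lit 494) (nat_lit 476) (nat_lit 230))))) (XT.nd (nat_lit 234) (nat_lit 836) (nat_lit 0) (XT.nd (nat_lit 78) (nat_lit 912) (nat_lit 0) (XT.lf (nat_lit 0) (nat_lit 14933357464) (nat_lit 912) (nat_lit 9340764299) (nat_lit 988) (nat_lit 27271504891) (nat_lit 432) (nat_lit 5) (nat_lit 444) (nat_lit 5) (nat_lit 445) (nat_lit 5) (nat_lit 495) (nat_lit 476) (nat_lit 229)) (XT.nd (nat_lit 78) (nat_lit 0) (nat_lit 0) (XT.lf (nat_lit 0) (nat_lit 5074570050) (nat_lit 912) (nat_lit 26818364879) (nat_lit 988) (nat_lit 20494356913)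 (nat_lit 420) (nat_lit 5) (nat_lit 432) (nat_lit 5) (nat_lit 433) (nat_lit 5) (nat_lit 496) (nat_lit 476) (nat_lit 228)) (XT.lf (nat_lit 0) (nat_lit 40103431898) (nat_lit 988) (nat_lit 4854169638) (nat_lit 76) (nat_lit 8289343151) (nat_lit 420) (nat_lit 5) (nat_lit 433) (nat_lit 5) (nat_lit 421) (nat_lit 5) (nat_lit 497) (nat_lit 476) (nat_lit 227)))) (XT.nd (nat_lit 60918) (nat_lit 0) (nat_lit 4788) (XT.nd (nat_lit 60840) (nat_lit 0) (nat_lit 4712) (XT.lf (nat_lit 0) (nat_lit 39211599623) (nat_lit 836) (nat_lit 9781057478) (nat_lit 912) (nat_lit 5131081833) (nat_lit 409) (nat_lit 5) (nat_lit 420) (nat_lit 5) (nat_lit 421) (nat_lit 5) (nat_lit 498) (nat_lit 476) (nat_lit 226)) (XT.lf (nat_lit 0) (nat_lit 3264970642) (nat_lit 1900) (nat_lit 8261109384) (nat_lit 1900) (nat_lit 8261109384) (nat_lit 471) (nat_lit 3) (nat_lit 496) (nat_lit 3) (nat_lit 496) (nat_lit 5) (nat_lit 477) (nat_lit 477) (nat_lit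 246))) (XT.nd (nat_lit 78) (nat_lit 0) (nat_lit 0) (XT.lf (nat_lit 0) (nat_lit 6816588290) (nat_lit 1824) (nat_lit 27114746475) (nat_lit 1900) (nat_lit 6232881978) (nat_lit 472) (nat_lit 5) (nat_lit 496) (nat_lit 5) (nat_lit 497) (nat_lit 5) (nat_lit 478) (nat_lit 477) (nat_lit 245)) (XT.lf (nat_lit 76) (nat_lit 2846061749) (nat_lit 0) (nat_lit 4548665436) (nat_lit 1900) (nat_lit 33371364917) (nat_lit 473) (nat_lit 5) (nat_lit 472) (nat_lit 5) (nat_lit 497) (nat_lit 5) (nat_lit 479) (nat_lit 477) (nat_lit 244))))))))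
noncomputable def xc125 : XT := (XT.nd (nat_lit 62946) (nat_lit 0) (nat_lit 0) (XT.nd (nat_lit 1014) (nat_lit 4028) (nat_lit 0) (XT.nd (nat_lit 468) (nat_lit 0) (nat_lit 304) (XT.nd (nat_lit 234) (nat_lit 0) (nat_lit 152) (XT.nd (nat_lit 78) (nat_lit 0) (nat_lit 76) (XT.lf (nat_lit 0) (nat_lit 8339749718) (nat_lit 1824) (nat_lit 7475037534) (nat_lit 1900) (nat_lit 25564245824) (nat_lit 473) (nat_lit 5) (nat_lit 497) (nat_lit 5) (nat_lit 498) (nat_lit 5) (nat_lit 480) (nat_lit 477) (nat_lit 243)) (XT.nd (nat_lit 78) (nat_lit 0) (nat_lit 76) (XT.lf (nat_lit 0) (nat_lit 9593401868) (nat_lit 1824) (nat_lit 17933366290) (nat_lit 1900) (nat_lit 14477988682) (nat_lit 474) (nat_lit 5) (nat_lit 498) (nat_lit 5) (nat_lit 499) (nat_lit 5) (nat_lit 481) (nat_lit 477) (nat_lit 242)) (XT.lf (nat_lit 0) (nat_lit 11149939304) (nat_lit 1824) (nat_lit 28567864701) (nat_lit 1900) (nat_lit 2926142935) (nat_lit 475) (nat_lit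 5) (nat_lit 499) (nat_lit 5) (nat_lit 500) (nat_lit 5) (nat_lit 482) (nat_lit 477) (nat_lit 241)))) (XT.nd (nat_lit 78) (nat_lit 0) (nat_lit 76) (XT.lf (nat_lit 76) (nat_lit 3855713482) (nat_lit 0) (nat_lit 9226723077) (nat_lit 1900) (nat_lit 30213291040) (nat_lit 476) (nat_lit 5) (nat_lit 475) (nat_lit 5) (nat_lit 500) (nat_lit 5) (nat_lit 483) (nat_lit 477) (nat_lit 240)) (XT.nd (nat_lit 78) (nat_lit 0) (nat_lit 76) (XT.lf (nat_lit 0) (nat_lit 15409655984) (nat_lit 1824) (nat_lit 6466831407) (nat_lit 1900) (nat_lit 22083839471) (nat_lit 476) (nat_lit 5) (nat_lit 500) (nat_lit 5) (nat_lit 501) (nat_lit 5) (nat_lit 484) (nat_lit 477) (nat_lit 239)) (XT.lf (nat_lit 0) (nat_lit 18110117831) (nat_lit 1824) (nat_lit 16906317675) (nat_lit 1900) (nat_lit 9622360204) (nat_lit 477) (nat_lit 5) (nat_lit 501) (nat_lit 5) (nat_lit 502) (nat_lit 5) (nat_lit 485) (nat_lit 477) (nat_lit 238))))) (XT.nd (nat_lit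 234) (nat_lit 0) (nat_lit 228) (XT.nd (nat_lit 78) (nat_lit 0) (nat_lit 76) (XT.lf (nat_lit 76) (nat_lit 17794959314) (nat_lit 0) (nat_lit 3400576604) (nat_lit 1900) (nat_lit 24136003978) (nat_lit 478) (nat_lit 5) (nat_lit 477) (nat_lit 5) (nat_lit 502) (nat_lit 5) (nat_lit 486) (nat_lit 477) (nat_lit 237)) (XT.nd (nat_lit 78) (nat_lit 0) (nat_lit 76) (XT.lf (nat_lit 76) (nat_lit 7634533883) (nat_lit 0) (nat_lit 17091272673) (nat_lit 1900) (nat_lit 21312214168) (nat_lit 479) (nat_lit 5) (nat_lit 478) (nat_lit 5) (nat_lit 503) (nat_lit 5) (nat_lit 487) (nat_lit 477) (nat_lit 236)) (XT.lf (nat_lit 0) (nat_lit 28670842447) (nat_lit 1824) (nat_lit 2649836545) (nat_lit 1900) (nat_lit 15438839957) (nat_lit 479) (nat_lit 5) (nat_lit 503) (nat_lit 5) (nat_lit 504) (nat_lit 5) (nat_lit 488) (nat_lit 477) (nat_lit 235)))) (XT.nd (nat_lit 156) (nat_lit 0) (nat_lit 76) (XT.nd (nat_lit 78) (nat_lit 0) (nat_lit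 0) (XT.lf (nat_lit 0) (nat_lit 33080133122) (nat_lit 1824) (nat_lit 12991900770) (nat_lit 1900) (nat_lit 1423710265) (nat_lit 480) (nat_lit 5) (nat_lit 504) (nat_lit 5) (nat_lit 505) (nat_lit 5) (nat_lit 489) (nat_lit 477) (nat_lit 234)) (XT.lf (nat_lit 76) (nat_lit 24667254286) (nat_lit 0) (nat_lit 13340338888) (nat_lit 1900) (nat_lit 10238745241) (nat_lit 481) (nat_lit 5) (nat_lit 480) (nat_lit 5) (nat_lit 505) (nat_lit 5) (nat_lit 490) (nat_lit 477) (nat_lit 233))) (XT.nd (nat_lit 78) (nat_lit 0) (nat_lit 76) (XT.lf (nat_lit 76) (nat_lit 14674518222) (nat_lit 0) (nat_lit 28722782821) (nat_lit 1900) (nat_lit 5615861081) (nat_lit 482) (nat_lit 5) (nat_lit 481) (nat_lit 5) (nat_lit 506) (nat_lit 5) (nat_lit 491) (nat_lit 477) (nat_lit 232)) (XT.lf (nat_lit 76) (nat_lit 4534931083) (nat_lit 0) (nat_lit 44723095950) (nat_lit 1900) (nat_lit 538777076) (nat_lit 483) (nat_lit 5) (nat_lit 482) (nat_lit 5)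 (nat_lit 507) (nat_lit 5) (nat_lit 492) (nat_lit 477) (nat_lit 231)))))) (XT.nd (nat_lit 61386) (nat_lit 0) (nat_lit 3952) (XT.nd (nat_lit 234) (nat_lit 1824) (nat_lit 0) (XT.nd (nat_lit 78) (nat_lit 988) (nat_lit 0) (XT.lf (nat_lit 0) (nat_lit 5053737145) (nat_lit 1900) (nat_lit 5780055891) (nat_lit 1976) (nat_lit 39761060599) (nat_lit 457) (nat_lit 5) (nat_lit 482) (nat_lit 5) (nat_lit 483) (nat_lit 5) (nat_lit 493) (nat_lit 477) (nat_lit 230)) (XT.nd (nat_lit 78) (nat_lit 1064) (nat_lit 0) (XT.lf (nat_lit 0) (nat_lit 11192440640) (nat_lit 1900) (nat_lit 16225268905) (nat_lit 76) (nat_lit 23991349296) (nat_lit 458) (nat_lit 5) (nat_lit 483) (nat_lit 5) (nat_lit 459) (nat_lit 5) (nat_lit 494) (nat_lit 477) (nat_lit 229)) (XT.lf (nat_lit 0) (nat_lit 17840803483) (nat_lit 1140) (nat_lit 26823339347) (nat_lit 76) (nat_lit 7577037499) (nat_lit 444) (nat_lit 5) (nat_lit 459) (nat_lit 5) (nat_lit 445) (nat_lit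 5) (nat_lit 495) (nat_lit 477) (nat_lit 228)))) (XT.nd (nat_lit 156) (nat_lit 0) (nat_lit 0) (XT.nd (nat_lit 78) (nat_lit 912) (nat_lit 0) (XT.lf (nat_lit 0) (nat_lit 15453462098) (nat_lit 912) (nat_lit 9627970263) (nat_lit 988) (nat_lit 28008976886) (nat_lit 432) (nat_lit 5) (nat_lit 444) (nat_lit 5) (nat_lit 445) (nat_lit 5) (nat_lit 496) (nat_lit 477) (nat_lit 227)) (XT.lf (nat_lit 0) (nat_lit 5299346336) (nat_lit 912) (nat_lit 27627587038) (nat_lit 988) (nat_lit 21030428678) (nat_lit 420) (nat_lit 5) (nat_lit 432) (nat_lit 5) (nat_lit 433) (nat_lit 5) (nat_lit 497) (nat_lit 477) (nat_lit 226))) (XT.nd (nat_lit 60918) (nat_lit 0) (nat_lit 3876) (XT.lf (nat_lit 0) (nat_lit 41381466960) (nat_lit 988) (nat_lit 4927835446) (nat_lit 76) (nat_lit 8533547767) (nat_lit 420) (nat_lit 5) (nat_lit 433) (nat_lit 5) (nat_lit 421) (nat_lit 5) (nat_lit 498) (nat_lit 477) (nat_lit 225)) (XT.lf (nat_lit 0) (nat_lit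 3425011807) (nat_lit 1900) (nat_lit 8477273839) (nat_lit 1900) (nat_lit 8477273839) (nat_lit 471) (nat_lit 3) (nat_lit 496) (nat_lit 3) (nat_lit 496) (nat_lit 5) (nat_lit 478) (nat_lit 478) (nat_lit 244))))) (XT.nd (nat_lit 234) (nat_lit 0) (nat_lit 152) (XT.nd (nat_lit 78) (nat_lit 0) (nat_lit 0) (XT.lf (nat_lit 0) (nat_lit 7141676707) (nat_lit 1824) (nat_lit 27863071180) (nat_lit 1900) (nat_lit 6361976231) (nat_lit 472) (nat_lit 5) (nat_lit 496) (nat_lit 5) (nat_lit 497) (nat_lit 5) (nat_lit 479) (nat_lit 478) (nat_lit 243)) (XT.nd (nat_lit 78) (nat_lit 0) (nat_lit 76) (XT.lf (nat_lit 76) (nat_lit 2995504833) (nat_lit 0) (nat_lit 4738558511) (nat_lit 1900) (nat_lit 34252654535) (nat_lit 473) (nat_lit 5) (nat_lit 472) (nat_lit 5) (nat_lit 497) (nat_lit 5) (nat_lit 480) (nat_lit 478) (nat_lit 242)) (XT.lf (nat_lit 0) (nat_lit 8703677570) (nat_lit 1824) (nat_lit 7634468134) (nat_lit 1900) (nat_lit 26279976764)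 (nat_lit 473) (nat_lit 5) (nat_lit 497) (nat_lit 5) (nat_lit 498) (nat_lit 5) (nat_lit 481) (nat_lit 478) (nat_lit 241)))) (XT.nd (nat_lit 156) (nat_lit 0) (nat_lit 76) (XT.nd (nat_lit 78) (nat_lit 0) (nat_lit 76) (XT.lf (nat_lit 0) (nat_lit 9991735038) (nat_lit 1824) (nat_lit 18405069368) (nat_lit 1900) (nat_lit 14865877826) (nat_lit 474) (nat_lit 5) (nat_lit 498) (nat_lit 5) (nat_lit 499) (nat_lit 5) (nat_lit 482) (nat_lit 478) (nat_lit 240)) (XT.lf (nat_lit 0) (nat_lit 11591896688) (nat_lit 1824) (nat_lit 29357241113) (nat_lit 1900) (nat_lit 2971971866) (nat_lit 475) (nat_lit 5) (nat_lit 499) (nat_lit 5) (nat_lit 500) (nat_lit 5) (nat_lit 483) (nat_lit 478) (nat_lit 239))) (XT.nd (nat_lit 78) (nat_lit 0) (nat_lit 76) (XT.lf (nat_lit 76) (nat_lit 4037946720) (nat_lit 0) (nat_lit 9541724425) (nat_lit 1900) (nat_lit 31012826745) (nat_lit 476) (nat_lit 5) (nat_lit 475) (nat_lit 5) (nat_lit 500) (nat_lit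 5) (nat_lit 484) (nat_lit 478) (nat_lit 238)) (XT.lf (nat_lit 0) (nat_lit 15973415054) (nat_lit 1824) (nat_lit 6593932088) (nat_lit 1900) (nat_lit 22709754014) (nat_lit 476) (nat_lit 5) (nat_lit 500) (nat_lit 5) (nat_lit 501) (nat_lit 5) (nat_lit 485) (nat_lit 478) (nat_lit 237))))))) (XT.nd (nat_lit 62010) (nat_lit 0) (nat_lit 3952) (XT.nd (nat_lit 546) (nat_lit 4332) (nat_lit 0) (XT.nd (nat_lit 234) (nat_lit 0) (nat_lit 152) (XT.nd (nat_lit 78) (nat_lit 0) (nat_lit 0) (XT.lf (nat_lit 0) (nat_lit 18752147623) (nat_lit 1824) (nat_lit 17345488562) (nat_lit 1900) (nat_lit 9878342925) (nat_lit 477) (nat_lit 5) (nat_lit 501) (nat_lit 5) (nat_lit 502) (nat_lit 5) (nat_lit 486) (nat_lit 478) (nat_lit 236)) (XT.nd (nat_lit 78) (nat_lit 0) (nat_lit 76) (XT.lf (nat_lit 76) (nat_lit 18395723215) (nat_lit 0) (nat_lit 3531963973) (nat_lit 1900) (nat_lit 24761867429) (nat_lit 478) (nat_lit 5) (nat_lit 477) (nat_lit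 5) (nat_lit 502) (nat_lit 5) (nat_lit 487) (nat_lit 478) (nat_lit 235)) (XT.lf (nat_lit 76) (nat_lit 7931487139) (nat_lit 0) (nat_lit 17629830211) (nat_lit 1900) (nat_lit 21855963660) (nat_lit 479) (nat_lit 5) (nat_lit 478) (nat_lit 5) (nat_lit 503) (nat_lit 5) (nat_lit 488) (nat_lit 478) (nat_lit 234)))) (XT.nd (nat_lit 156) (nat_lit 0) (nat_lit 76) (XT.nd (nat_lit 78) (nat_lit 0) (nat_lit 76) (XT.lf (nat_lit 0) (nat_lit 29621811371) (nat_lit 1824) (nat_lit 2661404251) (nat_lit 1900) (nat_lit 15877266581) (nat_lit 479) (nat_lit 5) (nat_lit 503) (nat_lit 5) (nat_lit 504) (nat_lit 5) (nat_lit 489) (nat_lit 478) (nat_lit 233)) (XT.lf (nat_lit 0) (nat_lit 34161027129) (nat_lit 1824) (nat_lit 13312912949) (nat_lit 1900) (nat_lit 1444901321) (nat_lit 480) (nat_lit 5) (nat_lit 504) (nat_lit 5) (nat_lit 505) (nat_lit 5) (nat_lit 490) (nat_lit 478) (nat_lit 232))) (XT.nd (nat_lit 78) (nat_lit 0) (nat_lit 76)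 (XT.lf (nat_lit 76) (nat_lit 25474901455) (nat_lit 0) (nat_lit 13759271244) (nat_lit 1900) (nat_lit 10457823705) (nat_lit 481) (nat_lit 5) (nat_lit 480) (nat_lit 5) (nat_lit 505) (nat_lit 5) (nat_lit 491) (nat_lit 478) (nat_lit 231)) (XT.lf (nat_lit 76) (nat_lit 15183109746) (nat_lit 0) (nat_lit 29600272756) (nat_lit 1900) (nat_lit 5698486258) (nat_lit 482) (nat_lit 5) (nat_lit 481) (nat_lit 5) (nat_lit 506) (nat_lit 5) (nat_lit 492) (nat_lit 478) (nat_lit 230))))) (XT.nd (nat_lit 234) (nat_lit 2812) (nat_lit 0) (XT.nd (nat_lit 78) (nat_lit 1900) (nat_lit 0) (XT.lf (nat_lit 76) (nat_lit 4739987797) (nat_lit 0) (nat_lit 46077839555) (nat_lit 1900) (nat_lit 471234855) (nat_lit 483) (nat_lit 5) (nat_lit 482) (nat_lit 5) (nat_lit 507) (nat_lit 5) (nat_lit 493) (nat_lit 478) (nat_lit 229)) (XT.nd (nat_lit 78) (nat_lit 0) (nat_lit 76) (XT.lf (nat_lit 0) (nat_lit 5285550929) (nat_lit 1900) (nat_lit 5885388311)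 (nat_lit 1976) (nat_lit 40940151370) (nat_lit 457) (nat_lit 5) (nat_lit 482) (nat_lit 5) (nat_lit 483) (nat_lit 5) (nat_lit 494) (nat_lit 478) (nat_lit 228)) (XT.lf (nat_lit 0) (nat_lit 11606440741) (nat_lit 1900) (nat_lit 16643417984) (nat_lit 76) (nat_lit 24699902877) (nat_lit 458) (nat_lit 5) (nat_lit 483) (nat_lit 5) (nat_lit 459) (nat_lit 5) (nat_lit 495) (nat_lit 478) (nat_lit 227)))) (XT.nd (nat_lit 156) (nat_lit 912) (nat_lit 0) (XT.nd (nat_lit 78) (nat_lit 912) (nat_lit 0) (XT.lf (nat_lit 0) (nat_lit 18452356520) (nat_lit 1140) (nat_lit 27558953843) (nat_lit 76) (nat_lit 7795574461) (nat_lit 444) (nat_lit 5) (nat_lit 459) (nat_lit 5) (nat_lit 445) (nat_lit 5) (nat_lit 496) (nat_lit 478) (nat_lit 226)) (XT.lf (nat_lit 0) (nat_lit 15985030812) (nat_lit 912) (nat_lit 9923391552) (nat_lit 988) (nat_lit 28773204009) (nat_lit 432) (nat_lit 5) (nat_lit 444) (nat_lit 5) (nat_lit 445) (nat_lit 5) (nat_lit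 497) (nat_lit 478) (nat_lit 225))) (XT.nd (nat_lit 60996) (nat_lit 0) (nat_lit 3876) (XT.lf (nat_lit 0) (nat_lit 5526701866) (nat_lit 912) (nat_lit 28460817715) (nat_lit 988) (nat_lit 21587103681) (nat_lit 420) (nat_lit 5) (nat_lit 432) (nat_lit 5) (nat_lit 433) (nat_lit 5) (nat_lit 498) (nat_lit 478) (nat_lit 224)) (XT.lf (nat_lit 0) (nat_lit 3586289870) (nat_lit 1900) (nat_lit 8701741148) (nat_lit 1900) (nat_lit 8701741148) (nat_lit 471) (nat_lit 3) (nat_lit 496) (nat_lit 3) (nat_lit 496) (nat_lit 5) (nat_lit 479) (nat_lit 479) (nat_lit 242)))))) (XT.nd (nat_lit 546) (nat_lit 0) (nat_lit 380) (XT.nd (nat_lit 234) (nat_lit 0) (nat_lit 152) (XT.nd (nat_lit 78) (nat_lit 0) (nat_lit 0) (XT.lf (nat_lit 0) (nat_lit 7469595373) (nat_lit 1824) (nat_lit 28637583648) (nat_lit 1900) (nat_lit 6498266561) (nat_lit 472) (nat_lit 5) (nat_lit 496) (nat_lit 5) (nat_lit 497) (nat_lit 5) (nat_lit 480) (nat_lit 479)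 (nat_lit 241)) (XT.nd (nat_lit 78) (nat_lit 0) (nat_lit 76) (XT.lf (nat_lit 76) (nat_lit 3145753833) (nat_lit 0) (nat_lit 4931081099) (nat_lit 1900) (nat_lit 35167262798) (nat_lit 473) (nat_lit 5) (nat_lit 472) (nat_lit 5) (nat_lit 497) (nat_lit 5) (nat_lit 481) (nat_lit 479) (nat_lit 240)) (XT.lf (nat_lit 0) (nat_lit 9071994382) (nat_lit 1824) (nat_lit 7802402616) (nat_lit 1900) (nat_lit 27020118518) (nat_lit 473) (nat_lit 5) (nat_lit 497) (nat_lit 5) (nat_lit 498) (nat_lit 5) (nat_lit 482) (nat_lit 479) (nat_lit 239)))) (XT.nd (nat_lit 156) (nat_lit 0) (nat_lit 76) (XT.nd (nat_lit 78) (nat_lit 0) (nat_lit 76) (XT.lf (nat_lit 0) (nat_lit 10395673265) (nat_lit 1824) (nat_lit 18894729310) (nat_lit 1900) (nat_lit 15268070093) (nat_lit 474) (nat_lit 5) (nat_lit 498) (nat_lit 5) (nat_lit 499) (nat_lit 5) (nat_lit 483) (nat_lit 479) (nat_lit 238)) (XT.lf (nat_lit 0) (nat_lit 12040944197) (nat_lit 1824)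 (nat_lit 30174182751) (nat_lit 1900) (nat_lit 3021584073) (nat_lit 475) (nat_lit 5) (nat_lit 499) (nat_lit 5) (nat_lit 500) (nat_lit 5) (nat_lit 484) (nat_lit 479) (nat_lit 237))) (XT.nd (nat_lit 78) (nat_lit 0) (nat_lit 76) (XT.lf (nat_lit 76) (nat_lit 4221826033) (nat_lit 0) (nat_lit 9863982997) (nat_lit 1900) (nat_lit 31842482895) (nat_lit 476) (nat_lit 5) (nat_lit 475) (nat_lit 5) (nat_lit 500) (nat_lit 5) (nat_lit 485) (nat_lit 479) (nat_lit 236)) (XT.lf (nat_lit 0) (nat_lit 16548262137) (nat_lit 1824) (nat_lit 6728686369) (nat_lit 1900) (nat_lit 23356547020) (nat_lit 476) (nat_lit 5) (nat_lit 500) (nat_lit 5) (nat_lit 501) (nat_lit 5) (nat_lit 486) (nat_lit 479) (nat_lit 235))))) (XT.nd (nat_lit 234) (nat_lit 0) (nat_lit 152) (XT.nd (nat_lit 78) (nat_lit 0) (nat_lit 0) (XT.lf (nat_lit 0) (nat_lit 19407771018) (nat_lit 1824) (nat_lit 17801739124) (nat_lit 1900) (nat_lit 10143881558) (nat_lit 477)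 (nat_lit 5) (nat_lit 501) (nat_lit 5) (nat_lit 502) (nat_lit 5) (nat_lit 487) (nat_lit 479) (nat_lit 234)) (XT.nd (nat_lit 78) (nat_lit 0) (nat_lit 76) (XT.lf (nat_lit 76) (nat_lit 19010668831) (nat_lit 0) (nat_lit 3665607001) (nat_lit 1900) (nat_lit 25412144822) (nat_lit 478) (nat_lit 5) (nat_lit 477) (nat_lit 5) (nat_lit 502) (nat_lit 5) (nat_lit 488) (nat_lit 479) (nat_lit 233)) (XT.lf (nat_lit 76) (nat_lit 8233450265) (nat_lit 0) (nat_lit 18183062339) (nat_lit 1900) (nat_lit 22421514440) (nat_lit 479) (nat_lit 5) (nat_lit 478) (nat_lit 5) (nat_lit 503) (nat_lit 5) (nat_lit 489) (nat_lit 479) (nat_lit 232)))) (XT.nd (nat_lit 156) (nat_lit 0) (nat_lit 76) (XT.nd (nat_lit 78) (nat_lit 0) (nat_lit 76) (XT.lf (nat_lit 0) (nat_lit 30596094567) (nat_lit 1824) (nat_lit 2677218298) (nat_lit 1900) (nat_lit 16330266099) (nat_lit 479) (nat_lit 5) (nat_lit 503) (nat_lit 5) (nat_lit 504) (nat_lit 5) (nat_lit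 490) (nat_lit 479) (nat_lit 231)) (XT.lf (nat_lit 0) (nat_lit 35269268268) (nat_lit 1824) (nat_lit 13647501729) (nat_lit 1900) (nat_lit 1467963459) (nat_lit 480) (nat_lit 5) (nat_lit 504) (nat_lit 5) (nat_lit 505) (nat_lit 5) (nat_lit 491) (nat_lit 479) (nat_lit 230))) (XT.nd (nat_lit 78) (nat_lit 0) (nat_lit 76) (XT.lf (nat_lit 76) (nat_lit 26302895827) (nat_lit 0) (nat_lit 14189696841) (nat_lit 1900) (nat_lit 10688530898) (nat_lit 481) (nat_lit 5) (nat_lit 480) (nat_lit 5) (nat_lit 505) (nat_lit 5) (nat_lit 492) (nat_lit 479) (nat_lit 229)) (XT.lf (nat_lit 76) (nat_lit 15703035103) (nat_lit 0) (nat_lit 30503180034) (nat_lit 1900) (nat_lit 5788518369) (nat_lit 482) (nat_lit 5) (nat_lit 481) (nat_lit 5) (nat_lit 506) (nat_lit 5) (nat_lit 493) (nat_lit 479) (nat_lit 228))))))))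
noncomputable def xc126 : XT := (XT.nd (nat_lit 124332) (nat_lit 0) (nat_lit 2052) (XT.nd (nat_lit 62088) (nat_lit 0) (nat_lit 988) (XT.nd (nat_lit 61542) (nat_lit 0) (nat_lit 2128) (XT.nd (nat_lit 234) (nat_lit 988) (nat_lit 0) (XT.nd (nat_lit 78) (nat_lit 1900) (nat_lit 0) (XT.lf (nat_lit 76) (nat_lit 4947234827) (nat_lit 0) (nat_lit 47472476303) (nat_lit 1900) (nat_lit 406471408) (nat_lit 483) (nat_lit 5) (nat_lit 482) (nat_lit 5) (nat_lit 507) (nat_lit 5) (nat_lit 494) (nat_lit 479) (nat_lit 227)) (XT.nd (nat_lit 78) (nat_lit 0) (nat_lit 76) (XT.lf (nat_lit 0) (nat_lit 5519715223) (nat_lit 1900) (nat_lit 5997788158) (nat_lit 1976) (nat_lit 42155403655) (nat_lit 457) (nat_lit 5) (nat_lit 482) (nat_lit 5) (nat_lit 483) (nat_lit 5) (nat_lit 495) (nat_lit 479) (nat_lit 226)) (XT.lf (nat_lit 0) (nat_lit 12028370301) (nat_lit 1900) (nat_lit 17078049971) (nat_lit 76) (nat_lit 25430355240) (nat_lit 458)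 (nat_lit 5) (nat_lit 483) (nat_lit 5) (nat_lit 459) (nat_lit 5) (nat_lit 496) (nat_lit 479) (nat_lit 225)))) (XT.nd (nat_lit 61152) (nat_lit 0) (nat_lit 2052) (XT.lf (nat_lit 0) (nat_lit 19077874554) (nat_lit 1140) (nat_lit 28320602575) (nat_lit 76) (nat_lit 8021171205) (nat_lit 444) (nat_lit 5) (nat_lit 459) (nat_lit 5) (nat_lit 445) (nat_lit 5) (nat_lit 497) (nat_lit 479) (nat_lit 224)) (XT.nd (nat_lit 78) (nat_lit 0) (nat_lit 76) (XT.lf (nat_lit 0) (nat_lit 3749046545) (nat_lit 1900) (nat_lit 8934656040) (nat_lit 1900) (nat_lit 8934656040) (nat_lit 471) (nat_lit 3) (nat_lit 496) (nat_lit 3) (nat_lit 496) (nat_lit 5) (nat_lit 480) (nat_lit 480) (nat_lit 240)) (XT.lf (nat_lit 0) (nat_lit 7800826570) (nat_lit 1824) (nat_lit 29438854934) (nat_lit 1900) (nat_lit 6641778082) (nat_lit 472) (nat_lit 5) (nat_lit 496) (nat_lit 5) (nat_lit 497) (nat_lit 5) (nat_lit 481) (nat_lit 480) (nat_lit 239))))) (XT.nd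 (nat_lit 234) (nat_lit 0) (nat_lit 228) (XT.nd (nat_lit 78) (nat_lit 0) (nat_lit 76) (XT.lf (nat_lit 76) (nat_lit 3297044023) (nat_lit 0) (nat_lit 5126488159) (nat_lit 1900) (nat_lit 36115794328) (nat_lit 473) (nat_lit 5) (nat_lit 472) (nat_lit 5) (nat_lit 497) (nat_lit 5) (nat_lit 482) (nat_lit 480) (nat_lit 238)) (XT.nd (nat_lit 78) (nat_lit 0) (nat_lit 76) (XT.lf (nat_lit 0) (nat_lit 9445206608) (nat_lit 1824) (nat_lit 7978882498) (nat_lit 1900) (nat_lit 27785234705) (nat_lit 473) (nat_lit 5) (nat_lit 497) (nat_lit 5) (nat_lit 498) (nat_lit 5) (nat_lit 483) (nat_lit 480) (nat_lit 237)) (XT.lf (nat_lit 0) (nat_lit 10805748926) (nat_lit 1824) (nat_lit 19402666354) (nat_lit 1900) (nat_lit 15684841513) (nat_lit 474) (nat_lit 5) (nat_lit 498) (nat_lit 5) (nat_lit 499) (nat_lit 5) (nat_lit 484) (nat_lit 480) (nat_lit 236)))) (XT.nd (nat_lit 156) (nat_lit 0) (nat_lit 76) (XT.nd (nat_lit 78) (nat_lit 0)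 (nat_lit 0) (XT.lf (nat_lit 0) (nat_lit 12497648635) (nat_lit 1824) (nat_lit 31019293618) (nat_lit 1900) (nat_lit 3074954804) (nat_lit 475) (nat_lit 5) (nat_lit 499) (nat_lit 5) (nat_lit 500) (nat_lit 5) (nat_lit 485) (nat_lit 480) (nat_lit 235)) (XT.lf (nat_lit 76) (nat_lit 4407620141) (nat_lit 0) (nat_lit 10193842387) (nat_lit 1900) (nat_lit 32702810967) (nat_lit 476) (nat_lit 5) (nat_lit 475) (nat_lit 5) (nat_lit 500) (nat_lit 5) (nat_lit 486) (nat_lit 480) (nat_lit 234))) (XT.nd (nat_lit 78) (nat_lit 0) (nat_lit 76) (XT.lf (nat_lit 0) (nat_lit 17134864240) (nat_lit 1824) (nat_lit 6871103391) (nat_lit 1900) (nat_lit 24024724235) (nat_lit 476) (nat_lit 5) (nat_lit 500) (nat_lit 5) (nat_lit 501) (nat_lit 5) (nat_lit 487) (nat_lit 480) (nat_lit 233)) (XT.lf (nat_lit 0) (nat_lit 20077721149) (nat_lit 1824) (nat_lit 18275357614) (nat_lit 1900) (nat_lit 10419155066) (nat_lit 477) (nat_lit 5) (nat_lit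 501) (nat_lit 5) (nat_lit 502) (nat_lit 5) (nat_lit 488) (nat_lit 480) (nat_lit 232)))))) (XT.nd (nat_lit 546) (nat_lit 1520) (nat_lit 0) (XT.nd (nat_lit 234) (nat_lit 0) (nat_lit 228) (XT.nd (nat_lit 78) (nat_lit 0) (nat_lit 76) (XT.lf (nat_lit 76) (nat_lit 19640442114) (nat_lit 0) (nat_lit 3801670139) (nat_lit 1900) (nat_lit 26087244928) (nat_lit 478) (nat_lit 5) (nat_lit 477) (nat_lit 5) (nat_lit 502) (nat_lit 5) (nat_lit 489) (nat_lit 480) (nat_lit 231)) (XT.nd (nat_lit 78) (nat_lit 0) (nat_lit 76) (XT.lf (nat_lit 76) (nat_lit 8540797361) (nat_lit 0) (nat_lit 18751494374) (nat_lit 1900) (nat_lit 23009205466) (nat_lit 479) (nat_lit 5) (nat_lit 478) (nat_lit 5) (nat_lit 503) (nat_lit 5) (nat_lit 490) (nat_lit 480) (nat_lit 230)) (XT.lf (nat_lit 0) (nat_lit 31594690811) (nat_lit 1824) (nat_lit 2697182241) (nat_lit 1900) (nat_lit 16798194179) (nat_lit 479) (nat_lit 5) (nat_lit 503) (nat_lit 5) (nat_lit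 504) (nat_lit 5) (nat_lit 491) (nat_lit 480) (nat_lit 229)))) (XT.nd (nat_lit 156) (nat_lit 0) (nat_lit 76) (XT.nd (nat_lit 78) (nat_lit 0) (nat_lit 0) (XT.lf (nat_lit 0) (nat_lit 36405968547) (nat_lit 1824) (nat_lit 13995847877) (nat_lit 1900) (nat_lit 1492881897) (nat_lit 480) (nat_lit 5) (nat_lit 504) (nat_lit 5) (nat_lit 505) (nat_lit 5) (nat_lit 492) (nat_lit 480) (nat_lit 228)) (XT.lf (nat_lit 76) (nat_lit 27152070673) (nat_lit 0) (nat_lit 14632022170) (nat_lit 1900) (nat_lit 10930925426) (nat_lit 481) (nat_lit 5) (nat_lit 480) (nat_lit 5) (nat_lit 505) (nat_lit 5) (nat_lit 493) (nat_lit 480) (nat_lit 227))) (XT.nd (nat_lit 78) (nat_lit 0) (nat_lit 76) (XT.lf (nat_lit 76) (nat_lit 16234859556) (nat_lit 0) (nat_lit 31432319262) (nat_lit 1900) (nat_lit 5885896725) (nat_lit 482) (nat_lit 5) (nat_lit 481) (nat_lit 5) (nat_lit 506) (nat_lit 5) (nat_lit 494) (nat_lit 480) (nat_lit 226)) (XT.lf (nat_lit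 76) (nat_lit 5156965280) (nat_lit 0) (nat_lit 48908245994) (nat_lit 1900) (nat_lit 344294269) (nat_lit 483) (nat_lit 5) (nat_lit 482) (nat_lit 5) (nat_lit 507) (nat_lit 5) (nat_lit 495) (nat_lit 480) (nat_lit 225))))) (XT.nd (nat_lit 61386) (nat_lit 0) (nat_lit 1140) (XT.nd (nat_lit 78) (nat_lit 0) (nat_lit 76) (XT.lf (nat_lit 0) (nat_lit 5756564824) (nat_lit 1900) (nat_lit 6117243150) (nat_lit 1976) (nat_lit 43407857022) (nat_lit 457) (nat_lit 5) (nat_lit 482) (nat_lit 5) (nat_lit 483) (nat_lit 5) (nat_lit 496) (nat_lit 480) (nat_lit 224)) (XT.nd (nat_lit 61230) (nat_lit 0) (nat_lit 988) (XT.lf (nat_lit 0) (nat_lit 12458724981) (nat_lit 1900) (nat_lit 17529433272) (nat_lit 76) (nat_lit 26183326484) (nat_lit 458) (nat_lit 5) (nat_lit 483) (nat_lit 5) (nat_lit 459) (nat_lit 5) (nat_lit 497) (nat_lit 480) (nat_lit 223)) (XT.lf (nat_lit 0) (nat_lit 3913519052) (nat_lit 1900) (nat_lit 9176173578) (nat_lit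 1900) (nat_lit 9176173578) (nat_lit 471) (nat_lit 3) (nat_lit 496) (nat_lit 3) (nat_lit 496) (nat_lit 5) (nat_lit 481) (nat_lit 481) (nat_lit 238)))) (XT.nd (nat_lit 156) (nat_lit 0) (nat_lit 76) (XT.nd (nat_lit 78) (nat_lit 0) (nat_lit 0) (XT.lf (nat_lit 0) (nat_lit 8135844237) (nat_lit 1824) (nat_lit 30267485543) (nat_lit 1900) (nat_lit 6792547612) (nat_lit 472) (nat_lit 5) (nat_lit 496) (nat_lit 5) (nat_lit 497) (nat_lit 5) (nat_lit 482) (nat_lit 481) (nat_lit 237)) (XT.lf (nat_lit 76) (nat_lit 3449605617) (nat_lit 0) (nat_lit 5325032194) (nat_lit 1900) (nat_lit 37098894555) (nat_lit 473) (nat_lit 5) (nat_lit 472) (nat_lit 5) (nat_lit 497) (nat_lit 5) (nat_lit 483) (nat_lit 481) (nat_lit 236))) (XT.nd (nat_lit 78) (nat_lit 0) (nat_lit 76) (XT.lf (nat_lit 0) (nat_lit 9823814379) (nat_lit 1824) (nat_lit 8163962803) (nat_lit 1900) (nat_lit 28575915539) (nat_lit 473) (nat_lit 5) (nat_lit 497) (nat_lit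 5) (nat_lit 498) (nat_lit 5) (nat_lit 484) (nat_lit 481) (nat_lit 235)) (XT.lf (nat_lit 0) (nat_lit 11222489462) (nat_lit 1824) (nat_lit 19929222889) (nat_lit 1900) (nat_lit 16116485182) (nat_lit 474) (nat_lit 5) (nat_lit 498) (nat_lit 5) (nat_lit 499) (nat_lit 5) (nat_lit 485) (nat_lit 481) (nat_lit 234))))))) (XT.nd (nat_lit 62400) (nat_lit 0) (nat_lit 0) (XT.nd (nat_lit 546) (nat_lit 304) (nat_lit 0) (XT.nd (nat_lit 234) (nat_lit 0) (nat_lit 152) (XT.nd (nat_lit 78) (nat_lit 0) (nat_lit 0) (XT.lf (nat_lit 0) (nat_lit 12962573487) (nat_lit 1824) (nat_lit 31893208636) (nat_lit 1900) (nat_lit 3132066497) (nat_lit 475) (nat_lit 5) (nat_lit 499) (nat_lit 5) (nat_lit 500) (nat_lit 5) (nat_lit 486) (nat_lit 481) (nat_lit 233)) (XT.nd (nat_lit 78) (nat_lit 0) (nat_lit 76) (XT.lf (nat_lit 76) (nat_lit 4595593233) (nat_lit 0) (nat_lit 10531649268) (nat_lit 1900) (nat_lit 33594399194) (nat_lit 476) (nat_lit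 5) (nat_lit 475) (nat_lit 5) (nat_lit 500) (nat_lit 5) (nat_lit 487) (nat_lit 481) (nat_lit 232)) (XT.lf (nat_lit 0) (nat_lit 17733889184) (nat_lit 1824) (nat_lit 7021205227) (nat_lit 1900) (nat_lit 24714813501) (nat_lit 476) (nat_lit 5) (nat_lit 500) (nat_lit 5) (nat_lit 501) (nat_lit 5) (nat_lit 488) (nat_lit 481) (nat_lit 231)))) (XT.nd (nat_lit 156) (nat_lit 0) (nat_lit 76) (XT.nd (nat_lit 78) (nat_lit 0) (nat_lit 0) (XT.lf (nat_lit 0) (nat_lit 20762734470) (nat_lit 1824) (nat_lit 18766653800) (nat_lit 1900) (nat_lit 10704353961) (nat_lit 477) (nat_lit 5) (nat_lit 501) (nat_lit 5) (nat_lit 502) (nat_lit 5) (nat_lit 489) (nat_lit 481) (nat_lit 230)) (XT.lf (nat_lit 76) (nat_lit 20285695739) (nat_lit 0) (nat_lit 3940317215) (nat_lit 1900) (nat_lit 26787607363) (nat_lit 478) (nat_lit 5) (nat_lit 477) (nat_lit 5) (nat_lit 502) (nat_lit 5) (nat_lit 490) (nat_lit 481) (nat_lit 229))) (XT.nd (nat_lit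 78) (nat_lit 0) (nat_lit 76) (XT.lf (nat_lit 76) (nat_lit 8853900901) (nat_lit 0) (nat_lit 19335662510) (nat_lit 1900) (nat_lit 23619403954) (nat_lit 479) (nat_lit 5) (nat_lit 478) (nat_lit 5) (nat_lit 503) (nat_lit 5) (nat_lit 491) (nat_lit 481) (nat_lit 228)) (XT.lf (nat_lit 0) (nat_lit 32618611664) (nat_lit 1824) (nat_lit 2721209588) (nat_lit 1900) (nat_lit 17281421837) (nat_lit 479) (nat_lit 5) (nat_lit 503) (nat_lit 5) (nat_lit 504) (nat_lit 5) (nat_lit 492) (nat_lit 481) (nat_lit 227))))) (XT.nd (nat_lit 234) (nat_lit 684) (nat_lit 0) (XT.nd (nat_lit 78) (nat_lit 0) (nat_lit 0) (XT.lf (nat_lit 0) (nat_lit 37572256596) (nat_lit 1824) (nat_lit 14358150589) (nat_lit 1900) (nat_lit 1519645481) (nat_lit 480) (nat_lit 5) (nat_lit 504) (nat_lit 5) (nat_lit 505) (nat_lit 5) (nat_lit 493) (nat_lit 481) (nat_lit 226)) (XT.nd (nat_lit 78) (nat_lit 0) (nat_lit 76) (XT.lf (nat_lit 76) (nat_lit 28023271468)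 (nat_lit 0) (nat_lit 15086662374) (nat_lit 1900) (nat_lit 11185084315) (nat_lit 481) (nat_lit 5) (nat_lit 480) (nat_lit 5) (nat_lit 505) (nat_lit 5) (nat_lit 494) (nat_lit 481) (nat_lit 225)) (XT.lf (nat_lit 76) (nat_lit 16779152398) (nat_lit 0) (nat_lit 32388526493) (nat_lit 1900) (nat_lit 5990575055) (nat_lit 482) (nat_lit 5) (nat_lit 481) (nat_lit 5) (nat_lit 506) (nat_lit 5) (nat_lit 495) (nat_lit 481) (nat_lit 224)))) (XT.nd (nat_lit 61464) (nat_lit 0) (nat_lit 76) (XT.nd (nat_lit 61386) (nat_lit 836) (nat_lit 0) (XT.lf (nat_lit 76) (nat_lit 5369468007) (nat_lit 0) (nat_lit 50386423152) (nat_lit 1900) (nat_lit 284521031) (nat_lit 483) (nat_lit 5) (nat_lit 482) (nat_lit 5) (nat_lit 507) (nat_lit 5) (nat_lit 496) (nat_lit 481) (nat_lit 223)) (XT.lf (nat_lit 0) (nat_lit 4079940658) (nat_lit 1900) (nat_lit 9426459122) (nat_lit 1900) (nat_lit 9426459122) (nat_lit 471) (nat_lit 3) (nat_lit 496) (nat_lit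 3) (nat_lit 496) (nat_lit 5) (nat_lit 482) (nat_lit 482) (nat_lit 236))) (XT.nd (nat_lit 78) (nat_lit 0) (nat_lit 0) (XT.lf (nat_lit 0) (nat_lit 8475115030) (nat_lit 1824) (nat_lit 31124105604) (nat_lit 1900) (nat_lit 6950623398) (nat_lit 472) (nat_lit 5) (nat_lit 496) (nat_lit 5) (nat_lit 497) (nat_lit 5) (nat_lit 483) (nat_lit 482) (nat_lit 235)) (XT.lf (nat_lit 76) (nat_lit 3603664314) (nat_lit 0) (nat_lit 5526963752) (nat_lit 1900) (nat_lit 38117249646) (nat_lit 473) (nat_lit 5) (nat_lit 472) (nat_lit 5) (nat_lit 497) (nat_lit 5) (nat_lit 484) (nat_lit 482) (nat_lit 234)))))) (XT.nd (nat_lit 546) (nat_lit 152) (nat_lit 0) (XT.nd (nat_lit 234) (nat_lit 0) (nat_lit 152) (XT.nd (nat_lit 78) (nat_lit 0) (nat_lit 76) (XT.lf (nat_lit 0) (nat_lit 10208312554) (nat_lit 1824) (nat_lit 8357711766) (nat_lit 1900) (nat_lit 29392778067) (nat_lit 473) (nat_lit 5) (nat_lit 497) (nat_lit 5) (nat_lit 498) (nat_lit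 5) (nat_lit 485) (nat_lit 482) (nat_lit 233)) (XT.nd (nat_lit 78) (nat_lit 0) (nat_lit 76) (XT.lf (nat_lit 0) (nat_lit 11646418427) (nat_lit 1824) (nat_lit 20474763392) (nat_lit 1900) (nat_lit 16563311270) (nat_lit 474) (nat_lit 5) (nat_lit 498) (nat_lit 5) (nat_lit 499) (nat_lit 5) (nat_lit 486) (nat_lit 482) (nat_lit 232)) (XT.lf (nat_lit 0) (nat_lit 13436279980) (nat_lit 1824) (nat_lit 32796593838) (nat_lit 1900) (nat_lit 3192908546) (nat_lit 475) (nat_lit 5) (nat_lit 499) (nat_lit 5) (nat_lit 500) (nat_lit 5) (nat_lit 487) (nat_lit 482) (nat_lit 231)))) (XT.nd (nat_lit 156) (nat_lit 0) (nat_lit 152) (XT.nd (nat_lit 78) (nat_lit 0) (nat_lit 76) (XT.lf (nat_lit 76) (nat_lit 4786005557) (nat_lit 0) (nat_lit 10877753907) (nat_lit 1900) (nat_lit 34517872510) (nat_lit 476) (nat_lit 5) (nat_lit 475) (nat_lit 5) (nat_lit 500) (nat_lit 5) (nat_lit 488) (nat_lit 482) (nat_lit 230)) (XT.lf (nat_lit 0) (nat_lit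 18346006733) (nat_lit 1824) (nat_lit 7179026543) (nat_lit 1900) (nat_lit 25427365022) (nat_lit 476) (nat_lit 5) (nat_lit 500) (nat_lit 5) (nat_lit 501) (nat_lit 5) (nat_lit 489) (nat_lit 482) (nat_lit 229))) (XT.nd (nat_lit 78) (nat_lit 0) (nat_lit 0) (XT.lf (nat_lit 0) (nat_lit 21463551923) (nat_lit 1824) (nat_lit 19275958869) (nat_lit 1900) (nat_lit 10999680304) (nat_lit 477) (nat_lit 5) (nat_lit 501) (nat_lit 5) (nat_lit 502) (nat_lit 5) (nat_lit 490) (nat_lit 482) (nat_lit 228)) (XT.lf (nat_lit 76) (nat_lit 20947090026) (nat_lit 0) (nat_lit 4081711737) (nat_lit 1900) (nat_lit 27513702438) (nat_lit 478) (nat_lit 5) (nat_lit 477) (nat_lit 5) (nat_lit 502) (nat_lit 5) (nat_lit 491) (nat_lit 482) (nat_lit 227))))) (XT.nd (nat_lit 234) (nat_lit 532) (nat_lit 0) (XT.nd (nat_lit 78) (nat_lit 0) (nat_lit 76) (XT.lf (nat_lit 76) (nat_lit 9173132424) (nat_lit 0) (nat_lit 19936114425) (nat_lit 1900) (nat_lit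 24252505182) (nat_lit 479) (nat_lit 5) (nat_lit 478) (nat_lit 5) (nat_lit 503) (nat_lit 5) (nat_lit 492) (nat_lit 482) (nat_lit 226)) (XT.nd (nat_lit 78) (nat_lit 0) (nat_lit 76) (XT.lf (nat_lit 0) (nat_lit 33668882831) (nat_lit 1824) (nat_lit 2749223367) (nat_lit 1900) (nat_lit 17780335633) (nat_lit 479) (nat_lit 5) (nat_lit 503) (nat_lit 5) (nat_lit 504) (nat_lit 5) (nat_lit 493) (nat_lit 482) (nat_lit 225)) (XT.lf (nat_lit 0) (nat_lit 38769279128) (nat_lit 1824) (nat_lit 14734627292) (nat_lit 1900) (nat_lit 1548246560) (nat_lit 480) (nat_lit 5) (nat_lit 504) (nat_lit 5) (nat_lit 505) (nat_lit 5) (nat_lit 494) (nat_lit 482) (nat_lit 224)))) (XT.nd (nat_lit 61542) (nat_lit 684) (nat_lit 0) (XT.nd (nat_lit 78) (nat_lit 0) (nat_lit 76) (XT.lf (nat_lit 76) (nat_lit 28917356996) (nat_lit 0) (nat_lit 15554041715) (nat_lit 1900) (nat_lit 11451102606) (nat_lit 481) (nat_lit 5) (nat_lit 480) (nat_lit 5) (nat_lit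 505) (nat_lit 5) (nat_lit 495) (nat_lit 482) (nat_lit 223)) (XT.lf (nat_lit 76) (nat_lit 17336487809) (nat_lit 0) (nat_lit 33372660045) (nat_lit 1900) (nat_lit 6102521007) (nat_lit 482) (nat_lit 5) (nat_lit 481) (nat_lit 5) (nat_lit 506) (nat_lit 5) (nat_lit 496) (nat_lit 482) (nat_lit 222))) (XT.nd (nat_lit 78) (nat_lit 0) (nat_lit 76) (XT.lf (nat_lit 0) (nat_lit 4248541192) (nat_lit 1900) (nat_lit 9685688314) (nat_lit 1900) (nat_lit 9685688314) (nat_lit 471) (nat_lit 3) (nat_lit 496) (nat_lit 3) (nat_lit 496) (nat_lit 5) (nat_lit 483) (nat_lit 483) (nat_lit 234)) (XT.lf (nat_lit 0) (nat_lit 8819099338) (nat_lit 1824) (nat_lit 32009375096) (nat_lit 1900) (nat_lit 7116064862) (nat_lit 472) (nat_lit 5) (nat_lit 496) (nat_lit 5) (nat_lit 497) (nat_lit 5) (nat_lit 484) (nat_lit 483) (nat_lit 233))))))))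
noncomputable def xc127 : XT := (XT.nd (nat_lit 125268) (nat_lit 0) (nat_lit 0) (XT.nd (nat_lit 62556) (nat_lit 0) (nat_lit 0) (XT.nd (nat_lit 468) (nat_lit 76) (nat_lit 0) (XT.nd (nat_lit 234) (nat_lit 0) (nat_lit 228) (XT.nd (nat_lit 78) (nat_lit 0) (nat_lit 76) (XT.lf (nat_lit 76) (nat_lit 3759441816) (nat_lit 0) (nat_lit 5732531918) (nat_lit 1900) (nat_lit 39171586490) (nat_lit 473) (nat_lit 5) (nat_lit 472) (nat_lit 5) (nat_lit 497) (nat_lit 5) (nat_lit 485) (nat_lit 483) (nat_lit 232)) (XT.nd (nat_lit 78) (nat_lit 0) (nat_lit 76) (XT.lf (nat_lit 0) (nat_lit 10599191720) (nat_lit 1824) (nat_lit 8560210560) (nat_lit 1900) (nat_lit 30236466454) (nat_lit 473) (nat_lit 5) (nat_lit 497) (nat_lit 5) (nat_lit 498) (nat_lit 5) (nat_lit 486) (nat_lit 483) (nat_lit 231)) (XT.lf (nat_lit 0) (nat_lit 12078056510) (nat_lit 1824) (nat_lit 21039674422) (nat_lit 1900) (nat_lit 17025647061) (nat_lit 474) (nat_lit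 5) (nat_lit 498) (nat_lit 5) (nat_lit 499) (nat_lit 5) (nat_lit 487) (nat_lit 483) (nat_lit 230)))) (XT.nd (nat_lit 78) (nat_lit 0) (nat_lit 0) (XT.lf (nat_lit 0) (nat_lit 13919328121) (nat_lit 1824) (nat_lit 33730146609) (nat_lit 1900) (nat_lit 3257477076) (nat_lit 475) (nat_lit 5) (nat_lit 499) (nat_lit 5) (nat_lit 500) (nat_lit 5) (nat_lit 488) (nat_lit 483) (nat_lit 229)) (XT.nd (nat_lit 78) (nat_lit 0) (nat_lit 76) (XT.lf (nat_lit 76) (nat_lit 4979113979) (nat_lit 0) (nat_lit 11232510656) (nat_lit 1900) (nat_lit 35473892557) (nat_lit 476) (nat_lit 5) (nat_lit 475) (nat_lit 5) (nat_lit 500) (nat_lit 5) (nat_lit 489) (nat_lit 483) (nat_lit 228)) (XT.lf (nat_lit 0) (nat_lit 18971889691) (nat_lit 1824) (nat_lit 7344614286) (nat_lit 1900) (nat_lit 26162951659) (nat_lit 476) (nat_lit 5) (nat_lit 500) (nat_lit 5) (nat_lit 501) (nat_lit 5) (nat_lit 490) (nat_lit 483) (nat_lit 227))))) (XT.nd (nat_lit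 234) (nat_lit 456) (nat_lit 0) (XT.nd (nat_lit 78) (nat_lit 0) (nat_lit 0) (XT.lf (nat_lit 0) (nat_lit 22180920088) (nat_lit 1824) (nat_lit 19803625376) (nat_lit 1900) (nat_lit 11305347709) (nat_lit 477) (nat_lit 5) (nat_lit 501) (nat_lit 5) (nat_lit 502) (nat_lit 5) (nat_lit 491) (nat_lit 483) (nat_lit 226)) (XT.nd (nat_lit 78) (nat_lit 0) (nat_lit 76) (XT.lf (nat_lit 76) (nat_lit 21625293861) (nat_lit 0) (nat_lit 4226017180) (nat_lit 1900) (nat_lit 28266031086) (nat_lit 478) (nat_lit 5) (nat_lit 477) (nat_lit 5) (nat_lit 502) (nat_lit 5) (nat_lit 492) (nat_lit 483) (nat_lit 225)) (XT.lf (nat_lit 76) (nat_lit 9498863201) (nat_lit 0) (nat_lit 20553409885) (nat_lit 1900) (nat_lit 24908932359) (nat_lit 479) (nat_lit 5) (nat_lit 478) (nat_lit 5) (nat_lit 503) (nat_lit 5) (nat_lit 493) (nat_lit 483) (nat_lit 224)))) (XT.nd (nat_lit 61698) (nat_lit 608) (nat_lit 0) (XT.nd (nat_lit 78) (nat_lit 0) (nat_lit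 76) (XT.lf (nat_lit 0) (nat_lit 34746545524) (nat_lit 1824) (nat_lit 2781155710) (nat_lit 1900) (nat_lit 18295337878) (nat_lit 479) (nat_lit 5) (nat_lit 503) (nat_lit 5) (nat_lit 504) (nat_lit 5) (nat_lit 494) (nat_lit 483) (nat_lit 223)) (XT.lf (nat_lit 0) (nat_lit 39998202383) (nat_lit 1824) (nat_lit 15125513491) (nat_lit 1900) (nat_lit 1578680868) (nat_lit 480) (nat_lit 5) (nat_lit 504) (nat_lit 5) (nat_lit 505) (nat_lit 5) (nat_lit 495) (nat_lit 483) (nat_lit 222))) (XT.nd (nat_lit 78) (nat_lit 0) (nat_lit 76) (XT.lf (nat_lit 0) (nat_lit 4419547539) (nat_lit 1900) (nat_lit 9954047086) (nat_lit 1900) (nat_lit 9954047086) (nat_lit 471) (nat_lit 3) (nat_lit 496) (nat_lit 3) (nat_lit 496) (nat_lit 5) (nat_lit 484) (nat_lit 484) (nat_lit 232)) (XT.lf (nat_lit 0) (nat_lit 9168252257) (nat_lit 1824) (nat_lit 32923984112) (nat_lit 1900) (nat_lit 7288942378) (nat_lit 472) (nat_lit 5) (nat_lit 496) (nat_lit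 5) (nat_lit 497) (nat_lit 5) (nat_lit 485) (nat_lit 484) (nat_lit 231)))))) (XT.nd (nat_lit 546) (nat_lit 76) (nat_lit 0) (XT.nd (nat_lit 234) (nat_lit 0) (nat_lit 228) (XT.nd (nat_lit 78) (nat_lit 0) (nat_lit 76) (XT.lf (nat_lit 76) (nat_lit 3917156330) (nat_lit 0) (nat_lit 5941984785) (nat_lit 1900) (nat_lit 40262672773) (nat_lit 473) (nat_lit 5) (nat_lit 472) (nat_lit 5) (nat_lit 497) (nat_lit 5) (nat_lit 486) (nat_lit 484) (nat_lit 230)) (XT.nd (nat_lit 78) (nat_lit 0) (nat_lit 76) (XT.lf (nat_lit 0) (nat_lit 10996939165) (nat_lit 1824) (nat_lit 8771553065) (nat_lit 1900) (nat_lit 31107652299) (nat_lit 473) (nat_lit 5) (nat_lit 497) (nat_lit 5) (nat_lit 498) (nat_lit 5) (nat_lit 487) (nat_lit 484) (nat_lit 229)) (XT.lf (nat_lit 0) (nat_lit 12517922504) (nat_lit 1824) (nat_lit 21624364634) (nat_lit 1900) (nat_lit 17503837015) (nat_lit 474) (nat_lit 5) (nat_lit 498) (nat_lit 5) (nat_lit 499) (nat_lit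 5) (nat_lit 488) (nat_lit 484) (nat_lit 228)))) (XT.nd (nat_lit 156) (nat_lit 0) (nat_lit 76) (XT.nd (nat_lit 78) (nat_lit 0) (nat_lit 0) (XT.lf (nat_lit 0) (nat_lit 14412277689) (nat_lit 1824) (nat_lit 34694595975) (nat_lit 1900) (nat_lit 3325774745) (nat_lit 475) (nat_lit 5) (nat_lit 499) (nat_lit 5) (nat_lit 500) (nat_lit 5) (nat_lit 489) (nat_lit 484) (nat_lit 227)) (XT.lf (nat_lit 76) (nat_lit 5175172529) (nat_lit 0) (nat_lit 11596278446) (nat_lit 1900) (nat_lit 36463157757) (nat_lit 476) (nat_lit 5) (nat_lit 475) (nat_lit 5) (nat_lit 500) (nat_lit 5) (nat_lit 490) (nat_lit 484) (nat_lit 226))) (XT.nd (nat_lit 78) (nat_lit 0) (nat_lit 76) (XT.lf (nat_lit 0) (nat_lit 19612214970) (nat_lit 1824) (nat_lit 7518027413) (nat_lit 1900) (nat_lit 26922169255) (nat_lit 476) (nat_lit 5) (nat_lit 500) (nat_lit 5) (nat_lit 501) (nat_lit 5) (nat_lit 491) (nat_lit 484) (nat_lit 225)) (XT.lf (nat_lit 0) (nat_lit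 22915592301) (nat_lit 1824) (nat_lit 20350027230) (nat_lit 1900) (nat_lit 11621581375) (nat_lit 477) (nat_lit 5) (nat_lit 501) (nat_lit 5) (nat_lit 502) (nat_lit 5) (nat_lit 492) (nat_lit 484) (nat_lit 224))))) (XT.nd (nat_lit 61854) (nat_lit 456) (nat_lit 0) (XT.nd (nat_lit 78) (nat_lit 0) (nat_lit 76) (XT.lf (nat_lit 76) (nat_lit 22320985597) (nat_lit 0) (nat_lit 4373397272) (nat_lit 1900) (nat_lit 29045124824) (nat_lit 478) (nat_lit 5) (nat_lit 477) (nat_lit 5) (nat_lit 502) (nat_lit 5) (nat_lit 493) (nat_lit 484) (nat_lit 223)) (XT.nd (nat_lit 78) (nat_lit 0) (nat_lit 76) (XT.lf (nat_lit 76) (nat_lit 9831464882) (nat_lit 0) (nat_lit 21188121360) (nat_lit 1900) (nat_lit 25589136537) (nat_lit 479) (nat_lit 5) (nat_lit 478) (nat_lit 5) (nat_lit 503) (nat_lit 5) (nat_lit 494) (nat_lit 484) (nat_lit 222)) (XT.lf (nat_lit 0) (nat_lit 35852657799) (nat_lit 1824) (nat_lit 2816947476) (nat_lit 1900) (nat_lit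 18826846876) (nat_lit 479) (nat_lit 5) (nat_lit 503) (nat_lit 5) (nat_lit 504) (nat_lit 5) (nat_lit 495) (nat_lit 484) (nat_lit 221)))) (XT.nd (nat_lit 156) (nat_lit 0) (nat_lit 76) (XT.nd (nat_lit 78) (nat_lit 0) (nat_lit 76) (XT.lf (nat_lit 0) (nat_lit 4593184123) (nat_lit 1900) (nat_lit 10231731674) (nat_lit 1900) (nat_lit 10231731674) (nat_lit 471) (nat_lit 3) (nat_lit 496) (nat_lit 3) (nat_lit 496) (nat_lit 5) (nat_lit 485) (nat_lit 485) (nat_lit 230)) (XT.lf (nat_lit 0) (nat_lit 9523024529) (nat_lit 1824) (nat_lit 33868653171) (nat_lit 1900) (nat_lit 7469337081) (nat_lit 472) (nat_lit 5) (nat_lit 496) (nat_lit 5) (nat_lit 497) (nat_lit 5) (nat_lit 486) (nat_lit 485) (nat_lit 229))) (XT.nd (nat_lit 78) (nat_lit 0) (nat_lit 76) (XT.lf (nat_lit 76) (nat_lit 4077023041) (nat_lit 0) (nat_lit 6155569910) (nat_lit 1900) (nat_lit 41391317108) (nat_lit 473) (nat_lit 5) (nat_lit 472) (nat_lit 5) (nat_lit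 497) (nat_lit 5) (nat_lit 487) (nat_lit 485) (nat_lit 228)) (XT.lf (nat_lit 0) (nat_lit 11402039811) (nat_lit 1824) (nat_lit 8991845653) (nat_lit 1900) (nat_lit 32007034994) (nat_lit 473) (nat_lit 5) (nat_lit 497) (nat_lit 5) (nat_lit 498) (nat_lit 5) (nat_lit 488) (nat_lit 485) (nat_lit 227))))))) (XT.nd (nat_lit 124800) (nat_lit 0) (nat_lit 0) (XT.nd (nat_lit 62322) (nat_lit 0) (nat_lit 76) (XT.nd (nat_lit 234) (nat_lit 228) (nat_lit 0) (XT.nd (nat_lit 78) (nat_lit 0) (nat_lit 76) (XT.lf (nat_lit 0) (nat_lit 12966534267) (nat_lit 1824) (nat_lit 22229264844) (nat_lit 1900) (nat_lit 17998242861) (nat_lit 474) (nat_lit 5) (nat_lit 498) (nat_lit 5) (nat_lit 499) (nat_lit 5) (nat_lit 489) (nat_lit 485) (nat_lit 226)) (XT.nd (nat_lit 78) (nat_lit 0) (nat_lit 0) (XT.lf (nat_lit 0) (nat_lit 14915689214) (nat_lit 1824) (nat_lit 35690702935) (nat_lit 1900) (nat_lit 3397810554) (nat_lit 475) (nat_lit 5) (nat_lit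 499) (nat_lit 5) (nat_lit 500) (nat_lit 5) (nat_lit 490) (nat_lit 485) (nat_lit 225)) (XT.lf (nat_lit 76) (nat_lit 5374432918) (nat_lit 0) (nat_lit 11969421271) (nat_lit 1900) (nat_lit 37486403441) (nat_lit 476) (nat_lit 5) (nat_lit 475) (nat_lit 5) (nat_lit 500) (nat_lit 5) (nat_lit 491) (nat_lit 485) (nat_lit 224)))) (XT.nd (nat_lit 156) (nat_lit 380) (nat_lit 0) (XT.nd (nat_lit 78) (nat_lit 0) (nat_lit 76) (XT.lf (nat_lit 0) (nat_lit 20267664640) (nat_lit 1824) (nat_lit 7699336637) (nat_lit 1900) (nat_lit 27705636997) (nat_lit 476) (nat_lit 5) (nat_lit 500) (nat_lit 5) (nat_lit 501) (nat_lit 5) (nat_lit 492) (nat_lit 485) (nat_lit 223)) (XT.lf (nat_lit 0) (nat_lit 23668329756) (nat_lit 1824) (nat_lit 20915559711) (nat_lit 1900) (nat_lit 11948618142) (nat_lit 477) (nat_lit 5) (nat_lit 501) (nat_lit 5) (nat_lit 502) (nat_lit 5) (nat_lit 493) (nat_lit 485) (nat_lit 222))) (XT.nd (nat_lit 61854) (nat_lit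 456) (nat_lit 0) (XT.lf (nat_lit 76) (nat_lit 23034853943) (nat_lit 0) (nat_lit 4524016267) (nat_lit 1900) (nat_lit 29851545780) (nat_lit 478) (nat_lit 5) (nat_lit 477) (nat_lit 5) (nat_lit 502) (nat_lit 5) (nat_lit 494) (nat_lit 485) (nat_lit 221)) (XT.lf (nat_lit 0) (nat_lit 4769673357) (nat_lit 1900) (nat_lit 10518948658) (nat_lit 1900) (nat_lit 10518948658) (nat_lit 471) (nat_lit 3) (nat_lit 496) (nat_lit 3) (nat_lit 496) (nat_lit 5) (nat_lit 486) (nat_lit 486) (nat_lit 228))))) (XT.nd (nat_lit 234) (nat_lit 0) (nat_lit 152) (XT.nd (nat_lit 78) (nat_lit 0) (nat_lit 0) (XT.lf (nat_lit 0) (nat_lit 9883863445) (nat_lit 1824) (nat_lit 34844133575) (nat_lit 1900) (nat_lit 7657340684) (nat_lit 472) (nat_lit 5) (nat_lit 496) (nat_lit 5) (nat_lit 497) (nat_lit 5) (nat_lit 487) (nat_lit 486) (nat_lit 227)) (XT.nd (nat_lit 78) (nat_lit 0) (nat_lit 76) (XT.lf (nat_lit 76) (nat_lit 4239254574) (nat_lit 0)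 (nat_lit 6373534757) (nat_lit 1900) (nat_lit 42558369235) (nat_lit 473) (nat_lit 5) (nat_lit 472) (nat_lit 5) (nat_lit 497) (nat_lit 5) (nat_lit 488) (nat_lit 486) (nat_lit 226)) (XT.lf (nat_lit 0) (nat_lit 11814977122) (nat_lit 1824) (nat_lit 9221207014) (nat_lit 1900) (nat_lit 32935342119) (nat_lit 473) (nat_lit 5) (nat_lit 497) (nat_lit 5) (nat_lit 498) (nat_lit 5) (nat_lit 489) (nat_lit 486) (nat_lit 225)))) (XT.nd (nat_lit 156) (nat_lit 0) (nat_lit 76) (XT.nd (nat_lit 78) (nat_lit 0) (nat_lit 76) (XT.lf (nat_lit 0) (nat_lit 13424409631) (nat_lit 1824) (nat_lit 22854828123) (nat_lit 1900) (nat_lit 18509243720) (nat_lit 474) (nat_lit 5) (nat_lit 498) (nat_lit 5) (nat_lit 499) (nat_lit 5) (nat_lit 490) (nat_lit 486) (nat_lit 224)) (XT.lf (nat_lit 0) (nat_lit 15430124915) (nat_lit 1824) (nat_lit 36719260841) (nat_lit 1900) (nat_lit 3473599679) (nat_lit 475) (nat_lit 5) (nat_lit 499) (nat_lit 5) (nat_lit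 500) (nat_lit 5) (nat_lit 491) (nat_lit 486) (nat_lit 223))) (XT.nd (nat_lit 78) (nat_lit 0) (nat_lit 76) (XT.lf (nat_lit 76) (nat_lit 5577145040) (nat_lit 0) (nat_lit 12352308672) (nat_lit 1900) (nat_lit 38544402039) (nat_lit 476) (nat_lit 5) (nat_lit 475) (nat_lit 5) (nat_lit 500) (nat_lit 5) (nat_lit 492) (nat_lit 486) (nat_lit 222)) (XT.lf (nat_lit 0) (nat_lit 20938926949) (nat_lit 1824) (nat_lit 7888624213) (nat_lit 1900) (nat_lit 28513997798) (nat_lit 476) (nat_lit 5) (nat_lit 500) (nat_lit 5) (nat_lit 501) (nat_lit 5) (nat_lit 493) (nat_lit 486) (nat_lit 221)))))) (XT.nd (nat_lit 62556) (nat_lit 0) (nat_lit 0) (XT.nd (nat_lit 234) (nat_lit 0) (nat_lit 152) (XT.nd (nat_lit 78) (nat_lit 0) (nat_lit 76) (XT.lf (nat_lit 0) (nat_lit 4949236091) (nat_lit 1900) (nat_lit 10815915020) (nat_lit 1900) (nat_lit 10815915020) (nat_lit 471) (nat_lit 3) (nat_lit 496) (nat_lit 3) (nat_lit 496) (nat_lit 5) (nat_lit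 487) (nat_lit 487) (nat_lit 226)) (XT.nd (nat_lit 78) (nat_lit 0) (nat_lit 0) (XT.lf (nat_lit 0) (nat_lit 10251213715) (nat_lit 1824) (nat_lit 35851207803) (nat_lit 1900) (nat_lit 7853055335) (nat_lit 472) (nat_lit 5) (nat_lit 496) (nat_lit 5) (nat_lit 497) (nat_lit 5) (nat_lit 488) (nat_lit 487) (nat_lit 225)) (XT.lf (nat_lit 76) (nat_lit 4404061434) (nat_lit 0) (nat_lit 6596127121) (nat_lit 1900) (nat_lit 43764720287) (nat_lit 473) (nat_lit 5) (nat_lit 472) (nat_lit 5) (nat_lit 497) (nat_lit 5) (nat_lit 489) (nat_lit 487) (nat_lit 224)))) (XT.nd (nat_lit 156) (nat_lit 0) (nat_lit 152) (XT.nd (nat_lit 78) (nat_lit 0) (nat_lit 76) (XT.lf (nat_lit 0) (nat_lit 12236233972) (nat_lit 1824) (nat_lit 9459767998) (nat_lit 1900) (nat_lit 33893329873) (nat_lit 473) (nat_lit 5) (nat_lit 497) (nat_lit 5) (nat_lit 498) (nat_lit 5) (nat_lit 490) (nat_lit 487) (nat_lit 223)) (XT.lf (nat_lit 0) (nat_lit 13892067300)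 (nat_lit 1824) (nat_lit 23501529932) (nat_lit 1900) (nat_lit 19037236249) (nat_lit 474) (nat_lit 5) (nat_lit 498) (nat_lit 5) (nat_lit 499) (nat_lit 5) (nat_lit 491) (nat_lit 487) (nat_lit 222))) (XT.nd (nat_lit 78) (nat_lit 0) (nat_lit 0) (XT.lf (nat_lit 0) (nat_lit 15956149620) (nat_lit 1824) (nat_lit 37781095824) (nat_lit 1900) (nat_lit 3553163319) (nat_lit 475) (nat_lit 5) (nat_lit 499) (nat_lit 5) (nat_lit 500) (nat_lit 5) (nat_lit 492) (nat_lit 487) (nat_lit 221)) (XT.lf (nat_lit 76) (nat_lit 5783557453) (nat_lit 0) (nat_lit 12745316204) (nat_lit 1900) (nat_lit 39637963334) (nat_lit 476) (nat_lit 5) (nat_lit 475) (nat_lit 5) (nat_lit 500) (nat_lit 5) (nat_lit 493) (nat_lit 487) (nat_lit 220))))) (XT.nd (nat_lit 234) (nat_lit 0) (nat_lit 76) (XT.nd (nat_lit 78) (nat_lit 0) (nat_lit 76) (XT.lf (nat_lit 0) (nat_lit 5132092034) (nat_lit 1900) (nat_lit 11122858209) (nat_lit 1900) (nat_lit 11122858209)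 (nat_lit 471) (nat_lit 3) (nat_lit 496) (nat_lit 3) (nat_lit 496) (nat_lit 5) (nat_lit 488) (nat_lit 488) (nat_lit 224)) (XT.nd (nat_lit 78) (nat_lit 0) (nat_lit 0) (XT.lf (nat_lit 0) (nat_lit 10625518312) (nat_lit 1824) (nat_lit 36890689952) (nat_lit 1900) (nat_lit 8056593484) (nat_lit 472) (nat_lit 5) (nat_lit 496) (nat_lit 5) (nat_lit 497) (nat_lit 5) (nat_lit 489) (nat_lit 488) (nat_lit 223)) (XT.lf (nat_lit 76) (nat_lit 4571652428) (nat_lit 0) (nat_lit 6823595553) (nat_lit 1900) (nat_lit 45011303120) (nat_lit 473) (nat_lit 5) (nat_lit 472) (nat_lit 5) (nat_lit 497) (nat_lit 5) (nat_lit 490) (nat_lit 488) (nat_lit 222)))) (XT.nd (nat_lit 62400) (nat_lit 76) (nat_lit 0) (XT.nd (nat_lit 78) (nat_lit 0) (nat_lit 76) (XT.lf (nat_lit 0) (nat_lit 12666293503) (nat_lit 1824) (nat_lit 9707671484) (nat_lit 1900) (nat_lit 34881783545) (nat_lit 473) (nat_lit 5) (nat_lit 497) (nat_lit 5) (nat_lit 498) (nat_lit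 5) (nat_lit 491) (nat_lit 488) (nat_lit 221)) (XT.lf (nat_lit 0) (nat_lit 14370027717) (nat_lit 1824) (nat_lit 24169868284) (nat_lit 1900) (nat_lit 19582634811) (nat_lit 474) (nat_lit 5) (nat_lit 498) (nat_lit 5) (nat_lit 499) (nat_lit 5) (nat_lit 492) (nat_lit 488) (nat_lit 220))) (XT.nd (nat_lit 78) (nat_lit 0) (nat_lit 0) (XT.lf (nat_lit 0) (nat_lit 11007219279) (nat_lit 1824) (nat_lit 37963426216) (nat_lit 1900) (nat_lit 8268077780) (nat_lit 472) (nat_lit 5) (nat_lit 496) (nat_lit 5) (nat_lit 497) (nat_lit 5) (nat_lit 490) (nat_lit 489) (nat_lit 221)) (XT.lf (nat_lit 76) (nat_lit 4742235077) (nat_lit 0) (nat_lit 7056189760) (nat_lit 1900) (nat_lit 46299092704) (nat_lit 473) (nat_lit 5) (nat_lit 472) (nat_lit 5) (nat_lit 497) (nat_lit 5) (nat_lit 491) (nat_lit 489) (nat_lit 220))))))))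

set_option maxRecDepth 10000000 in
noncomputable def Tp : PT := (PT.nd (nat_lit 12824760) (PT.nd (nat_lit 11823708) (PT.nd (nat_lit 10763298) (PT.nd (nat_lit 9888606) (PT.nd (nat_lit 9139572) (PT.nd (nat_lit 8639904) pc0 pc1) (PT.nd (nat_lit 436800) pc2 pc3)) (PT.nd (nat_lit 499746) (PT.nd (nat_lit 249990) pc4 pc5) (PT.nd (nat_lit 249288) pc6 pc7))) (PT.nd (nat_lit 623688) (PT.nd (nat_lit 373698) (PT.nd (nat_lit 186966) pc8 pc9) (PT.nd (nat_lit 125034) pc10 pc11)) (PT.nd (nat_lit 188136) (PT.nd (nat_lit 124644) pc12 pc13) (PT.nd (nat_lit 124410) pc14 pc15)))) (PT.nd (nat_lit 563784) (PT.nd (nat_lit 312858) (PT.nd (nat_lit 126360) (PT.nd (nat_lit 63180) pc16 pc17) (PT.nd (nat_lit 123552) pc18 pc19)) (PT.nd (nat_lit 125658) (PT.nd (nat_lit 62868) pc20 pc21) (PT.nd (nat_lit 62712) pc22 pc23))) (PT.nd (nat_lit 249054) (PT.nd (nat_lit 124644) (PT.nd (nat_lit 62322) pc24 pc25) (PT.nd (nat_lit 62244) pc26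 pc27)) (PT.nd (nat_lit 123864) (PT.nd (nat_lit 62010) pc28 pc29) (PT.nd (nat_lit 61776) pc30 pc31))))) (PT.nd (nat_lit 683280) (PT.nd (nat_lit 372996) (PT.nd (nat_lit 187122) (PT.nd (nat_lit 123162) (PT.nd (nat_lit 61620) pc32 pc33) (PT.nd (nat_lit 61386) pc34 pc35)) (PT.nd (nat_lit 122304) (PT.nd (nat_lit 61230) pc36 pc37) (PT.nd (nat_lit 2574) pc38 pc39))) (PT.nd (nat_lit 126594) (PT.nd (nat_lit 63336) (PT.nd (nat_lit 60762) pc40 pc41) (PT.nd (nat_lit 60684) pc42 pc43)) (PT.nd (nat_lit 63102) (PT.nd (nat_lit 60528) pc44 pc45) (PT.nd (nat_lit 60372) pc46 pc47)))) (PT.nd (nat_lit 373932) (PT.nd (nat_lit 125814) (PT.nd (nat_lit 62478) (PT.nd (nat_lit 2496) pc48 pc49) (PT.nd (nat_lit 3510) pc50 pc51)) (PT.nd (nat_lit 123396) (PT.nd (nat_lit 61464) pc52 pc53) (PT.nd (nat_lit 5460) pc54 pc55))) (PT.nd (nat_lit 317928) (PT.nd (nat_lit 130026) (PT.nd (nat_lit 62634) pc56 pc57) (PT.nd (nat_lit 63414) pc58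 pc59)) (PT.nd (nat_lit 250458) (PT.nd (nat_lit 118950) pc60 pc61) (PT.nd (nat_lit 187590) pc62 pc63))))))

set_option maxRecDepth 10000000 in
noncomputable def Tx : XT := (XT.nd (nat_lit 22280232) (nat_lit 0) (nat_lit 912) XT.nil (XT.nd (nat_lit 8309886) (nat_lit 0) (nat_lit 0) (XT.nd (nat_lit 3869034) (nat_lit 0) (nat_lit 4864) (XT.nd (nat_lit 2558946) (nat_lit 0) (nat_lit 3496) (XT.nd (nat_lit 1807962) (nat_lit 0) (nat_lit 1672) (XT.nd (nat_lit 1247766) (nat_lit 0) (nat_lit 608) (XT.nd (nat_lit 873132) (nat_lit 0) (nat_lit 304) (XT.nd (nat_lit 562380) (nat_lit 0) (nat_lit 76) (XT.nd (nat_lit 374868) (nat_lit 0) (nat_lit 0) xc0 xc1) (XT.nd (nat_lit 186030) (nat_lit 0) (nat_lit 228) xc2 xc3)) (XT.nd (nat_lit 187980) (nat_lit 0) (nat_lit 228) (XT.nd (nat_lit 124020) (nat_lit 0) (nat_lit 76) xc4 xc5) (XT.nd (nat_lit 123162) (nat_lit 0) (nat_lit 76) xc6 xc7))) (XT.nd (nat_lit 310674) (nat_lit 0) (nat_lit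 684) (XT.nd (nat_lit 126360) (nat_lit 0) (nat_lit 304) (XT.nd (nat_lit 63258) (nat_lit 76) (nat_lit 0) xc8 xc9) (XT.nd (nat_lit 62946) (nat_lit 0) (nat_lit 0) xc10 xc11)) (XT.nd (nat_lit 125034) (nat_lit 0) (nat_lit 152) (XT.nd (nat_lit 62556) (nat_lit 0) (nat_lit 0) xc12 xc13) (XT.nd (nat_lit 62322) (nat_lit 0) (nat_lit 76) xc14 xc15)))) (XT.nd (nat_lit 378066) (nat_lit 0) (nat_lit 760) (XT.nd (nat_lit 189696) (nat_lit 0) (nat_lit 380) (XT.nd (nat_lit 66222) (nat_lit 0) (nat_lit 152) (XT.nd (nat_lit 61932) (nat_lit 0) (nat_lit 760) xc16 xc17) (XT.nd (nat_lit 61776) (nat_lit 0) (nat_lit 0) xc18 xc19)) (XT.nd (nat_lit 122850) (nat_lit 0) (nat_lit 152) (XT.nd (nat_lit 61464) (nat_lit 0) (nat_lit 152) xc20 xc21) (XT.nd (nat_lit 61230) (nat_lit 0) (nat_lit 2432) xc22 xc23))) (XT.nd (nat_lit 187122) (nat_lit 0) (nat_lit 608) (XT.nd (nat_lit 121992) (nat_lit 0) (nat_lit 380) (XT.nd (nat_lit 60996) (nat_lit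 0) (nat_lit 304) xc24 xc25) (XT.nd (nat_lit 60840) (nat_lit 0) (nat_lit 3420) xc26 xc27)) (XT.nd (nat_lit 121134) (nat_lit 0) (nat_lit 456) (XT.nd (nat_lit 60606) (nat_lit 0) (nat_lit 152) xc28 xc29) (XT.nd (nat_lit 4290) (nat_lit 1672) (nat_lit 0) xc30 xc31))))) (XT.nd (nat_lit 626574) (nat_lit 0) (nat_lit 608) (XT.nd (nat_lit 312858) (nat_lit 0) (nat_lit 836) (XT.nd (nat_lit 184314) (nat_lit 0) (nat_lit 608) (XT.nd (nat_lit 64428) (nat_lit 0) (nat_lit 152) (XT.nd (nat_lit 60138) (nat_lit 0) (nat_lit 2432) xc32 xc33) (XT.nd (nat_lit 59982) (nat_lit 0) (nat_lit 304) xc34 xc35)) (XT.nd (nat_lit 64194) (nat_lit 0) (nat_lit 0) (XT.nd (nat_lit 4212) (nat_lit 6004) (nat_lit 0) xc36 xc37) (XT.nd (nat_lit 60060) (nat_lit 0) (nat_lit 9728) xc38 xc39))) (XT.nd (nat_lit 184704) (nat_lit 0) (nat_lit 304) (XT.nd (nat_lit 64350) (nat_lit 76) (nat_lit 0) (XT.nd (nat_lit 60060) (nat_lit 0) (nat_lit 1292) xc40 xc41)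 (XT.nd (nat_lit 60138) (nat_lit 304) (nat_lit 0) xc42 xc43)) (XT.nd (nat_lit 64506) (nat_lit 0) (nat_lit 0) (XT.nd (nat_lit 4212) (nat_lit 2736) (nat_lit 0) xc44 xc45) (XT.nd (nat_lit 60216) (nat_lit 0) (nat_lit 4028) xc46 xc47)))) (XT.nd (nat_lit 313482) (nat_lit 0) (nat_lit 228) (XT.nd (nat_lit 184704) (nat_lit 0) (nat_lit 0) (XT.nd (nat_lit 120354) (nat_lit 304) (nat_lit 0) (XT.nd (nat_lit 60138) (nat_lit 0) (nat_lit 0) xc48 xc49) (XT.nd (nat_lit 4212) (nat_lit 6688) (nat_lit 0) xc50 xc51)) (XT.nd (nat_lit 64350) (nat_lit 0) (nat_lit 0) (XT.nd (nat_lit 60060) (nat_lit 0) (nat_lit 9652) xc52 xc53) (XT.nd (nat_lit 60138) (nat_lit 0) (nat_lit 1824) xc54 xc55))) (XT.nd (nat_lit 184860) (nat_lit 0) (nat_lit 304) (XT.nd (nat_lit 120354) (nat_lit 0) (nat_lit 0) (XT.nd (nat_lit 60138) (nat_lit 0) (nat_lit 0) xc56 xc57) (XT.nd (nat_lit 4290) (nat_lit 3040) (nat_lit 0) xc58 xc59)) (XT.nd (nat_lit 64506) (nat_lit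 0) (nat_lit 0) (XT.nd (nat_lit 60216) (nat_lit 0) (nat_lit 4332) xc60 xc61) (XT.nd (nat_lit 60294) (nat_lit 0) (nat_lit 228) xc62 xc63)))))) (XT.nd (nat_lit 1440816) (nat_lit 0) (nat_lit 4864) (XT.nd (nat_lit 687882) (nat_lit 0) (nat_lit 1596) (XT.nd (nat_lit 315198) (nat_lit 0) (nat_lit 304) (XT.nd (nat_lit 129324) (nat_lit 0) (nat_lit 0) (XT.nd (nat_lit 64662) (nat_lit 0) (nat_lit 0) (XT.nd (nat_lit 4212) (nat_lit 4864) (nat_lit 0) xc64 xc65) (XT.nd (nat_lit 60372) (nat_lit 0) (nat_lit 4864) xc66 xc67)) (XT.nd (nat_lit 121056) (nat_lit 304) (nat_lit 0) (XT.nd (nat_lit 60450) (nat_lit 0) (nat_lit 228) xc68 xc69) (XT.nd (nat_lit 4290) (nat_lit 3800) (nat_lit 0) xc70 xc71))) (XT.nd (nat_lit 186030) (nat_lit 0) (nat_lit 760) (XT.nd (nat_lit 64818) (nat_lit 0) (nat_lit 228) (XT.nd (nat_lit 60528) (nat_lit 0) (nat_lit 2508) xc72 xc73) (XT.nd (nat_lit 60528) (nat_lit 0) (nat_lit 228) xc74 xc75)) (XT.nd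 (nat_lit 64974) (nat_lit 0) (nat_lit 228) (XT.nd (nat_lit 4212) (nat_lit 836) (nat_lit 0) xc76 xc77) (XT.nd (nat_lit 60840) (nat_lit 0) (nat_lit 0) xc78 xc79)))) (XT.nd (nat_lit 375024) (nat_lit 0) (nat_lit 1520) (XT.nd (nat_lit 187122) (nat_lit 0) (nat_lit 684) (XT.nd (nat_lit 65130) (nat_lit 0) (nat_lit 76) (XT.nd (nat_lit 4212) (nat_lit 4028) (nat_lit 0) xc80 xc81) (XT.nd (nat_lit 60918) (nat_lit 0) (nat_lit 228) xc82 xc83)) (XT.nd (nat_lit 65364) (nat_lit 0) (nat_lit 228) (XT.nd (nat_lit 4212) (nat_lit 6080) (nat_lit 0) xc84 xc85) (XT.nd (nat_lit 61230) (nat_lit 0) (nat_lit 304) xc86 xc87))) (XT.nd (nat_lit 188604) (nat_lit 0) (nat_lit 988) (XT.nd (nat_lit 65598) (nat_lit 0) (nat_lit 304) (XT.nd (nat_lit 4212) (nat_lit 4028) (nat_lit 0) xc88 xc89) (XT.nd (nat_lit 61464) (nat_lit 0) (nat_lit 304) xc90 xc91)) (XT.nd (nat_lit 65832) (nat_lit 0) (nat_lit 304) (XT.nd (nat_lit 61542) (nat_lit 0) (nat_lit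 3040) xc92 xc93) (XT.nd (nat_lit 61698) (nat_lit 0) (nat_lit 0) xc94 xc95))))) (XT.nd (nat_lit 998634) (nat_lit 0) (nat_lit 6308) (XT.nd (nat_lit 438672) (nat_lit 0) (nat_lit 2660) (XT.nd (nat_lit 247728) (nat_lit 0) (nat_lit 1444) (XT.nd (nat_lit 123708) (nat_lit 0) (nat_lit 684) (XT.nd (nat_lit 61776) (nat_lit 0) (nat_lit 304) xc96 xc97) (XT.nd (nat_lit 61932) (nat_lit 0) (nat_lit 380) xc98 xc99)) (XT.nd (nat_lit 66378) (nat_lit 0) (nat_lit 456) (XT.nd (nat_lit 4212) (nat_lit 456) (nat_lit 0) xc100 xc101) (XT.nd (nat_lit 62244) (nat_lit 0) (nat_lit 380) xc102 xc103))) (XT.nd (nat_lit 249912) (nat_lit 0) (nat_lit 1292) (XT.nd (nat_lit 124800) (nat_lit 0) (nat_lit 456) (XT.nd (nat_lit 62322) (nat_lit 0) (nat_lit 0) xc104 xc105) (XT.nd (nat_lit 62478) (nat_lit 0) (nat_lit 380) xc106 xc107)) (XT.nd (nat_lit 125424) (nat_lit 0) (nat_lit 912) (XT.nd (nat_lit 62634) (nat_lit 0) (nat_lit 456) xc108 xc109)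 (XT.nd (nat_lit 121524) (nat_lit 0) (nat_lit 1444) xc110 xc111)))) (XT.nd (nat_lit 626886) (nat_lit 0) (nat_lit 6460) (XT.nd (nat_lit 312234) (nat_lit 0) (nat_lit 3268) (XT.nd (nat_lit 126360) (nat_lit 0) (nat_lit 1064) (XT.nd (nat_lit 63102) (nat_lit 0) (nat_lit 608) xc112 xc113) (XT.nd (nat_lit 63258) (nat_lit 0) (nat_lit 532) xc114 xc115)) (XT.nd (nat_lit 127296) (nat_lit 0) (nat_lit 608) (XT.nd (nat_lit 63570) (nat_lit 0) (nat_lit 608) xc116 xc117) (XT.nd (nat_lit 123396) (nat_lit 0) (nat_lit 1292) xc118 xc119))) (XT.nd (nat_lit 437736) (nat_lit 0) (nat_lit 5092) (XT.nd (nat_lit 248274) (nat_lit 0) (nat_lit 2812) (XT.nd (nat_lit 123942) (nat_lit 0) (nat_lit 684) xc120 xc121) (XT.nd (nat_lit 64506) (nat_lit 0) (nat_lit 760) xc122 xc123)) (XT.nd (nat_lit 312156) (nat_lit 0) (nat_lit 5244) (XT.nd (nat_lit 186108) (nat_lit 0) (nat_lit 3420) xc124 xc125) (XT.nd (nat_lit 249210) (nat_lit 0) (nat_lit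 2052) xc126 xc127))))))) XT.nil))

set_option maxRecDepth 10000000 in
noncomputable def Te : XT := XT.nil

set_option maxRecDepth 10000000 in
noncomputable def Tz : ZL := (ZL.cons (nat_lit 76) (nat_lit 6) (nat_lit 469033064676824012920) (ZL.cons (nat_lit 152) (nat_lit 3) (nat_lit 231071298202025844660) (ZL.cons (nat_lit 5548) (nat_lit 6) (nat_lit 221327170639421978604) (ZL.cons (nat_lit 5624) (nat_lit 6) (nat_lit 218340699059386766422) (ZL.cons (nat_lit 5700) (nat_lit 3) (nat_lit 109123633589194412662) (ZL.cons (nat_lit 5852) (nat_lit 6) (nat_lit 215264633331950497876) (ZL.cons (nat_lit 5928) (nat_lit 6) (nat_lit 212376662915192632678) (ZL.cons (nat_lit 6004) (nat_lit 3) (nat_lit 106142976175558480853) (ZL.cons (nat_lit 6156) (nat_lit 6) (nat_lit 209402053385932031522) (ZL.cons (nat_lit 6232) (nat_lit 6) (nat_lit 206610416524678555442) (ZL.cons (nat_lit 6308) (nat_lit 3) (nat_lit 103261174007933612202)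 (ZL.cons (nat_lit 6460) (nat_lit 6) (nat_lit 203735030557587475082) (ZL.cons (nat_lit 6536) (nat_lit 6) (nat_lit 201037665490983607078) (ZL.cons (nat_lit 6612) (nat_lit 3) (nat_lit 100476081042185332159) (ZL.cons (nat_lit 6764) (nat_lit 6) (nat_lit 198259379472381623032) (ZL.cons (nat_lit 6840) (nat_lit 6) (nat_lit 195654329804774923902) (ZL.cons (nat_lit 6916) (nat_lit 3) (nat_lit 97785658394322926633) (ZL.cons (nat_lit 6992) (nat_lit 6) (nat_lit 193134736824559454276) (ZL.cons (nat_lit 7068) (nat_lit 6) (nat_lit 192971128647140023798) (ZL.cons (nat_lit 7220) (nat_lit 6) (nat_lit 190456543038808449926) (ZL.cons (nat_lit 7296) (nat_lit 3) (nat_lit 95187973938759045042) (ZL.cons (nat_lit 7372) (nat_lit 6) (nat_lit 188025362752925405034) (ZL.cons (nat_lit 7448) (nat_lit 6) (nat_lit 187866519862226928838) (ZL.cons (nat_lit 7600) (nat_lit 6) (nat_lit 185440651897175508952) (ZL.cons (nat_lit 7676) (nat_lit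 3) (nat_lit 92681202083883696299) (ZL.cons (nat_lit 7752) (nat_lit 6) (nat_lit 183096224291908931122) (ZL.cons (nat_lit 7828) (nat_lit 6) (nat_lit 182942007893172546468) (ZL.cons (nat_lit 7980) (nat_lit 6) (nat_lit 180603216129076239606) (ZL.cons (nat_lit 8056) (nat_lit 3) (nat_lit 90263623729873985653) (ZL.cons (nat_lit 8132) (nat_lit 6) (nat_lit 178343985271024407282) (ZL.cons (nat_lit 8208) (nat_lit 6) (nat_lit 178194260612057043540) (ZL.cons (nat_lit 8284) (nat_lit 6) (nat_lit 176162341233801276052) (ZL.cons (nat_lit 8360) (nat_lit 6) (nat_lit 175941008817902751688) (ZL.cons (nat_lit 8436) (nat_lit 3) (nat_lit 87933626414131828123) (ZL.cons (nat_lit 8512) (nat_lit 6) (nat_lit 173765523216494087140) (ZL.cons (nat_lit 8588) (nat_lit 6) (nat_lit 173620159469923831076) (ZL.cons (nat_lit 8664) (nat_lit 6) (nat_lit 171665902898082246210) (ZL.cons (nat_lit 8740) (nat_lit 6) (nat_lit 171451017057404067214)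 (ZL.cons (nat_lit 8816) (nat_lit 3) (nat_lit 85689704650236453296) (ZL.cons (nat_lit 8968) (nat_lit 6) (nat_lit 169357930223547793990) (ZL.cons (nat_lit 9044) (nat_lit 6) (nat_lit 169216800372508710436) (ZL.cons (nat_lit 9120) (nat_lit 6) (nat_lit 167339070057529311744) (ZL.cons (nat_lit 9196) (nat_lit 6) (nat_lit 167130443027744671946) (ZL.cons (nat_lit 9272) (nat_lit 3) (nat_lit 83530460466818374507) (ZL.cons (nat_lit 9348) (nat_lit 6) (nat_lit 165392672506776371324) (ZL.cons (nat_lit 9424) (nat_lit 6) (nat_lit 165118514235491191480) (ZL.cons (nat_lit 9500) (nat_lit 6) (nat_lit 164981494962637712304) (ZL.cons (nat_lit 9576) (nat_lit 6) (nat_lit 163179255999716202892) (ZL.cons (nat_lit 9652) (nat_lit 6) (nat_lit 162976705485362183670) (ZL.cons (nat_lit 9728) (nat_lit 3) (nat_lit 81454604153308313713) (ZL.cons (nat_lit 9804) (nat_lit 6) (nat_lit 161310973822932135802) (ZL.cons (nat_lit 9880) (nat_lit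 6) (nat_lit 161044800744014485468) (ZL.cons (nat_lit 9956) (nat_lit 6) (nat_lit 160911772323768389178) (ZL.cons (nat_lit 10032) (nat_lit 6) (nat_lit 159184092666490527478) (ZL.cons (nat_lit 10108) (nat_lit 6) (nat_lit 158987441681680800076) (ZL.cons (nat_lit 10184) (nat_lit 3) (nat_lit 79460955220090130015) (ZL.cons (nat_lit 10260) (nat_lit 6) (nat_lit 157392955391363347014) (ZL.cons (nat_lit 10336) (nat_lit 6) (nat_lit 157134534926394754456) (ZL.cons (nat_lit 10412) (nat_lit 6) (nat_lit 157005381120330583298) (ZL.cons (nat_lit 10488) (nat_lit 6) (nat_lit 155669823847227493142) (ZL.cons (nat_lit 10564) (nat_lit 6) (nat_lit 155351433013172623734) (ZL.cons (nat_lit 10640) (nat_lit 6) (nat_lit 155160509726949587420) (ZL.cons (nat_lit 10716) (nat_lit 3) (nat_lit 77548443581192978154) (ZL.cons (nat_lit 10792) (nat_lit 6) (nat_lit 153636577891798971098) (ZL.cons (nat_lit 10868) (nat_lit 6) (nat_lit 153385684236489657934)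 (ZL.cons (nat_lit 10944) (nat_lit 6) (nat_lit 153260292191767161666) (ZL.cons (nat_lit 11020) (nat_lit 6) (nat_lit 151988471145177450636) (ZL.cons (nat_lit 11096) (nat_lit 6) (nat_lit 151679353830561072568) (ZL.cons (nat_lit 11172) (nat_lit 6) (nat_lit 151493991416752299450) (ZL.cons (nat_lit 11248) (nat_lit 3) (nat_lit 75716110968296717147) (ZL.cons (nat_lit 11324) (nat_lit 6) (nat_lit 150040027540847971398) (ZL.cons (nat_lit 11400) (nat_lit 6) (nat_lit 149796441467732133376) (ZL.cons (nat_lit 11476) (nat_lit 6) (nat_lit 149674701618486991370) (ZL.cons (nat_lit 11552) (nat_lit 6) (nat_lit 148466272946320508022) (ZL.cons (nat_lit 11628) (nat_lit 6) (nat_lit 148166159048634704074) (ZL.cons (nat_lit 11704) (nat_lit 6) (nat_lit 147986195540082497164) (ZL.cons (nat_lit 11780) (nat_lit 3) (nat_lit 73963112585498110157) (ZL.cons (nat_lit 11856) (nat_lit 6) (nat_lit 146956714921604823492) (ZL.cons (nat_lit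 11932) (nat_lit 6) (nat_lit 146601719640841382722) (ZL.cons (nat_lit 12008) (nat_lit 6) (nat_lit 146365228307719209886) (ZL.cons (nat_lit 12084) (nat_lit 6) (nat_lit 146247034279325868132) (ZL.cons (nat_lit 12160) (nat_lit 6) (nat_lit 145101756258461864478) (ZL.cons (nat_lit 12236) (nat_lit 6) (nat_lit 144810383542262054820) (ZL.cons (nat_lit 12312) (nat_lit 6) (nat_lit 144635661689298747140) (ZL.cons (nat_lit 12388) (nat_lit 3) (nat_lit 72288719014995841118) (ZL.cons (nat_lit 12464) (nat_lit 6) (nat_lit 143664958253880477918) (ZL.cons (nat_lit 12540) (nat_lit 6) (nat_lit 143320302641488787850) (ZL.cons (nat_lit 12616) (nat_lit 6) (nat_lit 143090699405447843348) (ZL.cons (nat_lit 12692) (nat_lit 6) (nat_lit 142975947921570812518) (ZL.cons (nat_lit 12844) (nat_lit 6) (nat_lit 141893683592961840102) (ZL.cons (nat_lit 12920) (nat_lit 6) (nat_lit 141610797460729015190) (ZL.cons (nat_lit 12996) (nat_lit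 6) (nat_lit 141441164593774347538) (ZL.cons (nat_lit 13072) (nat_lit 3) (nat_lit 70692318384602190806) (ZL.cons (nat_lit 13148) (nat_lit 6) (nat_lit 140529279836347547252) (ZL.cons (nat_lit 13224) (nat_lit 6) (nat_lit 140194662736938139420) (ZL.cons (nat_lit 13300) (nat_lit 6) (nat_lit 139971746973791591358) (ZL.cons (nat_lit 13376) (nat_lit 6) (nat_lit 139860337766143988610) (ZL.cons (nat_lit 13452) (nat_lit 6) (nat_lit 139225899174188673508) (ZL.cons (nat_lit 13528) (nat_lit 6) (nat_lit 138841057834802000704) (ZL.cons (nat_lit 13604) (nat_lit 6) (nat_lit 138566411104478869722) (ZL.cons (nat_lit 13680) (nat_lit 6) (nat_lit 138401719000639386564) (ZL.cons (nat_lit 13756) (nat_lit 3) (nat_lit 69173418808780874871) (ZL.cons (nat_lit 13832) (nat_lit 6) (nat_lit 137548799992755625720) (ZL.cons (nat_lit 13908) (nat_lit 6) (nat_lit 137223929022455229766) (ZL.cons (nat_lit 13984) (nat_lit 6) (nat_lit 137007505951439163688)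 (ZL.cons (nat_lit 14060) (nat_lit 6) (nat_lit 136899341672169646456) (ZL.cons (nat_lit 14136) (nat_lit 6) (nat_lit 136316760053461304044) (ZL.cons (nat_lit 14212) (nat_lit 6) (nat_lit 135943127685124728506) (ZL.cons (nat_lit 14288) (nat_lit 6) (nat_lit 135676480374131397456) (ZL.cons (nat_lit 14364) (nat_lit 6) (nat_lit 135516585127685297304) (ZL.cons (nat_lit 14440) (nat_lit 3) (nat_lit 67731651115746708447) (ZL.cons (nat_lit 14516) (nat_lit 6) (nat_lit 135143861477166254230) (ZL.cons (nat_lit 14592) (nat_lit 6) (nat_lit 134722887945687756764) (ZL.cons (nat_lit 14668) (nat_lit 6) (nat_lit 134407479236658246130) (ZL.cons (nat_lit 14744) (nat_lit 6) (nat_lit 134197359750234881006) (ZL.cons (nat_lit 14820) (nat_lit 6) (nat_lit 134092345886866417676) (ZL.cons (nat_lit 14896) (nat_lit 6) (nat_lit 133562143575245777382) (ZL.cons (nat_lit 14972) (nat_lit 6) (nat_lit 133199393703074344820) (ZL.cons (nat_lit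 15048) (nat_lit 6) (nat_lit 132940512818614800112) (ZL.cons (nat_lit 15124) (nat_lit 6) (nat_lit 132785274715269071810) (ZL.cons (nat_lit 15200) (nat_lit 3) (nat_lit 66366771874046244445) (ZL.cons (nat_lit 15276) (nat_lit 6) (nat_lit 132459880331145006108) (ZL.cons (nat_lit 15352) (nat_lit 6) (nat_lit 132051168164661027984) (ZL.cons (nat_lit 15428) (nat_lit 6) (nat_lit 131744946117059561348) (ZL.cons (nat_lit 15504) (nat_lit 6) (nat_lit 131540946615677653462) (ZL.cons (nat_lit 15580) (nat_lit 6) (nat_lit 131438991408523805570) (ZL.cons (nat_lit 15656) (nat_lit 6) (nat_lit 131415135070744966534) (ZL.cons (nat_lit 15732) (nat_lit 6) (nat_lit 130961799317549779132) (ZL.cons (nat_lit 15808) (nat_lit 6) (nat_lit 130609614975635766934) (ZL.cons (nat_lit 15884) (nat_lit 6) (nat_lit 130358274311111937120) (ZL.cons (nat_lit 15960) (nat_lit 6) (nat_lit 130207557705921909644) (ZL.cons (nat_lit 16036) (nat_lit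 3) (nat_lit 65078666732972322336) (ZL.cons (nat_lit 16112) (nat_lit 6) (nat_lit 130426994909837542126) (ZL.cons (nat_lit 16188) (nat_lit 6) (nat_lit 129930335286048947652) (ZL.cons (nat_lit 16264) (nat_lit 6) (nat_lit 129533527357423726176) (ZL.cons (nat_lit 16340) (nat_lit 6) (nat_lit 129236224398587350800) (ZL.cons (nat_lit 16416) (nat_lit 6) (nat_lit 129038166630255401396) (ZL.cons (nat_lit 16492) (nat_lit 6) (nat_lit 128939180992241956840) (ZL.cons (nat_lit 16568) (nat_lit 6) (nat_lit 128955874790907707582) (ZL.cons (nat_lit 16644) (nat_lit 6) (nat_lit 128515742991689079034) (ZL.cons (nat_lit 16720) (nat_lit 6) (nat_lit 128173816446141494380) (ZL.cons (nat_lit 16796) (nat_lit 6) (nat_lit 127929796383496999414) (ZL.cons (nat_lit 16872) (nat_lit 6) (nat_lit 127783469582341632930) (ZL.cons (nat_lit 16948) (nat_lit 3) (nat_lit 63867354092152726673) (ZL.cons (nat_lit 17024) (nat_lit 6) (nat_lit 128037566361790498612)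 (ZL.cons (nat_lit 17100) (nat_lit 6) (nat_lit 127555372552287008832) (ZL.cons (nat_lit 17176) (nat_lit 6) (nat_lit 127170122136146017106) (ZL.cons (nat_lit 17252) (nat_lit 6) (nat_lit 126881478486790312862) (ZL.cons (nat_lit 17328) (nat_lit 6) (nat_lit 126689189391322400816) (ZL.cons (nat_lit 17404) (nat_lit 6) (nat_lit 126593086830144299304) (ZL.cons (nat_lit 17480) (nat_lit 6) (nat_lit 127174607593273820266) (ZL.cons (nat_lit 17556) (nat_lit 6) (nat_lit 126651576880581144824) (ZL.cons (nat_lit 17632) (nat_lit 6) (nat_lit 126224264454155291866) (ZL.cons (nat_lit 17708) (nat_lit 6) (nat_lit 125892296934206180550) (ZL.cons (nat_lit 17784) (nat_lit 6) (nat_lit 125655384252027059226) (ZL.cons (nat_lit 17860) (nat_lit 6) (nat_lit 125513319396536412152) (ZL.cons (nat_lit 17936) (nat_lit 3) (nat_lit 62732989116697245112) (ZL.cons (nat_lit 18012) (nat_lit 6) (nat_lit 125803566252198151792) (ZL.cons (nat_lit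 18088) (nat_lit 6) (nat_lit 125335416922583113172) (ZL.cons (nat_lit 18164) (nat_lit 6) (nat_lit 124961387392349140624) (ZL.cons (nat_lit 18240) (nat_lit 6) (nat_lit 124681150839576612228) (ZL.cons (nat_lit 18316) (nat_lit 6) (nat_lit 124494462397374755876) (ZL.cons (nat_lit 18392) (nat_lit 6) (nat_lit 124401158939920288386) (ZL.cons (nat_lit 18468) (nat_lit 6) (nat_lit 125010599686977306732) (ZL.cons (nat_lit 18544) (nat_lit 6) (nat_lit 124502802878537816010) (ZL.cons (nat_lit 18620) (nat_lit 6) (nat_lit 124087936445114657800) (ZL.cons (nat_lit 18696) (nat_lit 6) (nat_lit 123765637882057268172) (ZL.cons (nat_lit 18772) (nat_lit 6) (nat_lit 123535625569262004748) (ZL.cons (nat_lit 18848) (nat_lit 6) (nat_lit 123397698525096327980) (ZL.cons (nat_lit 18924) (nat_lit 3) (nat_lit 61675868115391891209) (ZL.cons (nat_lit 19000) (nat_lit 6) (nat_lit 124271984301512105990) (ZL.cons (nat_lit 19076) (nat_lit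 6) (nat_lit 123725694795184797698) (ZL.cons (nat_lit 19152) (nat_lit 6) (nat_lit 123271180882937187386) (ZL.cons (nat_lit 19228) (nat_lit 6) (nat_lit 122908045416690612096) (ZL.cons (nat_lit 19304) (nat_lit 6) (nat_lit 122635971093610487440) (ZL.cons (nat_lit 19380) (nat_lit 6) (nat_lit 122454720178851403600) (ZL.cons (nat_lit 19456) (nat_lit 6) (nat_lit 122364134297827648760) (ZL.cons (nat_lit 19532) (nat_lit 6) (nat_lit 123587074703718162502) (ZL.cons (nat_lit 19608) (nat_lit 6) (nat_lit 123003413646043458508) (ZL.cons (nat_lit 19684) (nat_lit 6) (nat_lit 122510407035908030626) (ZL.cons (nat_lit 19760) (nat_lit 6) (nat_lit 122107624090837003234) (ZL.cons (nat_lit 19836) (nat_lit 6) (nat_lit 121794712864567692916) (ZL.cons (nat_lit 19912) (nat_lit 6) (nat_lit 121571399939523747844) (ZL.cons (nat_lit 19988) (nat_lit 6) (nat_lit 121437490187906585932) (ZL.cons (nat_lit 20064) (nat_lit 3) (nat_lit 60696433300597688327)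 (ZL.cons (nat_lit 20140) (nat_lit 6) (nat_lit 122955272428898374760) (ZL.cons (nat_lit 20216) (nat_lit 6) (nat_lit 122335328311663092414) (ZL.cons (nat_lit 20292) (nat_lit 6) (nat_lit 121804950150180268830) (ZL.cons (nat_lit 20368) (nat_lit 6) (nat_lit 121363674507221423868) (ZL.cons (nat_lit 20444) (nat_lit 6) (nat_lit 121011115802127661448) (ZL.cons (nat_lit 20520) (nat_lit 6) (nat_lit 120746965973894530714) (ZL.cons (nat_lit 20596) (nat_lit 6) (nat_lit 120570994211992507570) (ZL.cons (nat_lit 20672) (nat_lit 6) (nat_lit 120483046754687891220) (ZL.cons (nat_lit 20748) (nat_lit 6) (nat_lit 121720855028159289394) (ZL.cons (nat_lit 20824) (nat_lit 6) (nat_lit 121154193807115887458) (ZL.cons (nat_lit 20900) (nat_lit 6) (nat_lit 120675546612809646794) (ZL.cons (nat_lit 20976) (nat_lit 6) (nat_lit 120284495209828066804) (ZL.cons (nat_lit 21052) (nat_lit 6) (nat_lit 119980697902770483968) (ZL.cons (nat_lit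 21128) (nat_lit 6) (nat_lit 119763889237679275162) (ZL.cons (nat_lit 21204) (nat_lit 6) (nat_lit 119633879770089797580) (ZL.cons (nat_lit 21280) (nat_lit 3) (nat_lit 59795277949748195254) (ZL.cons (nat_lit 21356) (nat_lit 6) (nat_lit 121159456877128987866) (ZL.cons (nat_lit 21432) (nat_lit 6) (nat_lit 120557569384667548696) (ZL.cons (nat_lit 21508) (nat_lit 6) (nat_lit 120042639130800729680) (ZL.cons (nat_lit 21584) (nat_lit 6) (nat_lit 119614216176471753988) (ZL.cons (nat_lit 21660) (nat_lit 6) (nat_lit 119271926171526353582) (ZL.cons (nat_lit 21736) (nat_lit 6) (nat_lit 119015470027610692674) (ZL.cons (nat_lit 21812) (nat_lit 6) (nat_lit 118844623656832029430) (ZL.cons (nat_lit 21888) (nat_lit 6) (nat_lit 118759237775953761126) (ZL.cons (nat_lit 21964) (nat_lit 6) (nat_lit 120650643316498472036) (ZL.cons (nat_lit 22040) (nat_lit 6) (nat_lit 120014555560524375358) (ZL.cons (nat_lit 22116) (nat_lit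 6) (nat_lit 119464399035239519108) (ZL.cons (nat_lit 22192) (nat_lit 6) (nat_lit 118999693021349965064) (ZL.cons (nat_lit 22268) (nat_lit 6) (nat_lit 118620031465057168956) (ZL.cons (nat_lit 22344) (nat_lit 6) (nat_lit 118325082623253690478) (ZL.cons (nat_lit 22420) (nat_lit 6) (nat_lit 118114588773650575132) (ZL.cons (nat_lit 22496) (nat_lit 6) (nat_lit 117988365989583121166) (ZL.cons (nat_lit 22572) (nat_lit 3) (nat_lit 58973151989649129967) (ZL.cons (nat_lit 22648) (nat_lit 6) (nat_lit 119435491680699625190) (ZL.cons (nat_lit 22724) (nat_lit 6) (nat_lit 119789037148163160494) (ZL.cons (nat_lit 22800) (nat_lit 6) (nat_lit 120193969751894375432) (ZL.cons (nat_lit 22876) (nat_lit 6) (nat_lit 119524677856587601560) (ZL.cons (nat_lit 22952) (nat_lit 6) (nat_lit 118940321067790087802) (ZL.cons (nat_lit 23028) (nat_lit 6) (nat_lit 118440388782482496524) (ZL.cons (nat_lit 23104) (nat_lit 6) (nat_lit 118024444166629122064)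 (ZL.cons (nat_lit 23180) (nat_lit 6) (nat_lit 117692123773478247884) (ZL.cons (nat_lit 23256) (nat_lit 6) (nat_lit 117443137225987314968) (ZL.cons (nat_lit 23332) (nat_lit 6) (nat_lit 117277266963095408900) (ZL.cons (nat_lit 23408) (nat_lit 6) (nat_lit 117194368049621362006) (ZL.cons (nat_lit 23484) (nat_lit 3) (nat_lit 58725669225113491530) (ZL.cons (nat_lit 23560) (nat_lit 6) (nat_lit 117476786658194616008) (ZL.cons (nat_lit 23636) (nat_lit 6) (nat_lit 117553153518395739002) (ZL.cons (nat_lit 23712) (nat_lit 6) (nat_lit 117680505759154799622) (ZL.cons (nat_lit 23788) (nat_lit 6) (nat_lit 117858954659128771804) (ZL.cons (nat_lit 23864) (nat_lit 6) (nat_lit 118088656144540933782) (ZL.cons (nat_lit 23940) (nat_lit 6) (nat_lit 118369810925427082586) (ZL.cons (nat_lit 24016) (nat_lit 6) (nat_lit 118702664671013235236) (ZL.cons (nat_lit 24092) (nat_lit 6) (nat_lit 119087508224378059252) (ZL.cons (nat_lit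 24168) (nat_lit 6) (nat_lit 118469947296247868300) (ZL.cons (nat_lit 24244) (nat_lit 6) (nat_lit 117935814747427619514) (ZL.cons (nat_lit 24320) (nat_lit 6) (nat_lit 117484643860156207820) (ZL.cons (nat_lit 24396) (nat_lit 6) (nat_lit 117116040407444755288) (ZL.cons (nat_lit 24472) (nat_lit 6) (nat_lit 116829682308606426670) (ZL.cons (nat_lit 24548) (nat_lit 6) (nat_lit 116625319347826703032) (ZL.cons (nat_lit 24624) (nat_lit 6) (nat_lit 116502772955528204036) (ZL.cons (nat_lit 24700) (nat_lit 3) (nat_lit 58230968026169509187) (ZL.cons (nat_lit 24776) (nat_lit 6) (nat_lit 116600694684562950272) (ZL.cons (nat_lit 24852) (nat_lit 6) (nat_lit 116652354546737245160) (ZL.cons (nat_lit 24928) (nat_lit 6) (nat_lit 116755719410771229948) (ZL.cons (nat_lit 25004) (nat_lit 6) (nat_lit 116910879595478138218) (ZL.cons (nat_lit 25080) (nat_lit 6) (nat_lit 117117970677718393482) (ZL.cons (nat_lit 25156) (nat_lit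 6) (nat_lit 117377173610864827030) (ZL.cons (nat_lit 25232) (nat_lit 6) (nat_lit 117688714882917275552) (ZL.cons (nat_lit 25308) (nat_lit 6) (nat_lit 118052866714404716914) (ZL.cons (nat_lit 25384) (nat_lit 6) (nat_lit 117485530026251790934) (ZL.cons (nat_lit 25460) (nat_lit 6) (nat_lit 117000158875467721732) (ZL.cons (nat_lit 25536) (nat_lit 6) (nat_lit 116596329151338231966) (ZL.cons (nat_lit 25612) (nat_lit 6) (nat_lit 116273687992939324996) (ZL.cons (nat_lit 25688) (nat_lit 6) (nat_lit 116031953480812205656) (ZL.cons (nat_lit 25764) (nat_lit 6) (nat_lit 115870914390625889090) (ZL.cons (nat_lit 25840) (nat_lit 6) (nat_lit 115790430008612251326) (ZL.cons (nat_lit 25916) (nat_lit 3) (nat_lit 57900137579438091228) (ZL.cons (nat_lit 25992) (nat_lit 6) (nat_lit 115826486813082844396) (ZL.cons (nat_lit 26068) (nat_lit 6) (nat_lit 115905144679090001078) (ZL.cons (nat_lit 26144) (nat_lit 6) (nat_lit 116036317487071833516)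 (ZL.cons (nat_lit 26220) (nat_lit 6) (nat_lit 116220119854045024868) (ZL.cons (nat_lit 26296) (nat_lit 6) (nat_lit 116456712384019551702) (ZL.cons (nat_lit 26372) (nat_lit 6) (nat_lit 116746301808332284968) (ZL.cons (nat_lit 26448) (nat_lit 6) (nat_lit 117089141166286022202) (ZL.cons (nat_lit 26524) (nat_lit 6) (nat_lit 116570565876169275806) (ZL.cons (nat_lit 26600) (nat_lit 6) (nat_lit 116132535888527128532) (ZL.cons (nat_lit 26676) (nat_lit 6) (nat_lit 115774668458710184328) (ZL.cons (nat_lit 26752) (nat_lit 6) (nat_lit 115496650887022486636) (ZL.cons (nat_lit 26828) (nat_lit 6) (nat_lit 115298240245488774368) (ZL.cons (nat_lit 26904) (nat_lit 6) (nat_lit 115179263165587319034) (ZL.cons (nat_lit 26980) (nat_lit 3) (nat_lit 57569807843381433466) (ZL.cons (nat_lit 27056) (nat_lit 6) (nat_lit 115074828685432256164) (ZL.cons (nat_lit 27132) (nat_lit 6) (nat_lit 115128038343471779898) (ZL.cons (nat_lit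 27208) (nat_lit 6) (nat_lit 115234504153426784230) (ZL.cons (nat_lit 27284) (nat_lit 6) (nat_lit 115394319143674899750) (ZL.cons (nat_lit 27360) (nat_lit 6) (nat_lit 115607622958382362672) (ZL.cons (nat_lit 27436) (nat_lit 6) (nat_lit 115874601979523189224) (ZL.cons (nat_lit 27512) (nat_lit 6) (nat_lit 116195489489737211202) (ZL.cons (nat_lit 27588) (nat_lit 6) (nat_lit 115724255362762386734) (ZL.cons (nat_lit 27664) (nat_lit 6) (nat_lit 115332187669432785022) (ZL.cons (nat_lit 27740) (nat_lit 6) (nat_lit 115018943826327050096) (ZL.cons (nat_lit 27816) (nat_lit 6) (nat_lit 114784250125232759476) (ZL.cons (nat_lit 27892) (nat_lit 6) (nat_lit 114627901493983908440) (ZL.cons (nat_lit 27968) (nat_lit 6) (nat_lit 114549761317271638768) (ZL.cons (nat_lit 28044) (nat_lit 3) (nat_lit 57198361687565125900) (ZL.cons (nat_lit 28120) (nat_lit 6) (nat_lit 114423721378963113594) (ZL.cons (nat_lit 28196) (nat_lit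 6) (nat_lit 114504738980950484978) (ZL.cons (nat_lit 28272) (nat_lit 6) (nat_lit 114639846973171772392) (ZL.cons (nat_lit 28348) (nat_lit 6) (nat_lit 114829163411154159482) (ZL.cons (nat_lit 28424) (nat_lit 6) (nat_lit 115072853717027922122) (ZL.cons (nat_lit 28500) (nat_lit 6) (nat_lit 115371130824070037386) (ZL.cons (nat_lit 28576) (nat_lit 6) (nat_lit 114945858991407758480) (ZL.cons (nat_lit 28652) (nat_lit 6) (nat_lit 114598414884789366046) (ZL.cons (nat_lit 28728) (nat_lit 6) (nat_lit 114328494912277038192) (ZL.cons (nat_lit 28804) (nat_lit 6) (nat_lit 114135863221467608804) (ZL.cons (nat_lit 28880) (nat_lit 6) (nat_lit 114020351493407943430) (ZL.cons (nat_lit 28956) (nat_lit 3) (nat_lit 56990929397760062930) (ZL.cons (nat_lit 29032) (nat_lit 6) (nat_lit 113791578362973654792) (ZL.cons (nat_lit 29108) (nat_lit 6) (nat_lit 113846384310754364236) (ZL.cons (nat_lit 29184) (nat_lit 6) (nat_lit 113956044095008018702)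 (ZL.cons (nat_lit 29260) (nat_lit 6) (nat_lit 114120653534963577686) (ZL.cons (nat_lit 29336) (nat_lit 6) (nat_lit 114340356464112264494) (ZL.cons (nat_lit 29412) (nat_lit 6) (nat_lit 114615344855887315846) (ZL.cons (nat_lit 29488) (nat_lit 6) (nat_lit 114234696609936246218) (ZL.cons (nat_lit 29564) (nat_lit 6) (nat_lit 113930576373911260856) (ZL.cons (nat_lit 29640) (nat_lit 6) (nat_lit 113702718411683794234) (ZL.cons (nat_lit 29716) (nat_lit 6) (nat_lit 113550923624063550508) (ZL.cons (nat_lit 29792) (nat_lit 6) (nat_lit 113475059374828337236) (ZL.cons (nat_lit 29868) (nat_lit 3) (nat_lit 56615528468764133531) (ZL.cons (nat_lit 29944) (nat_lit 6) (nat_lit 113258864881476114712) (ZL.cons (nat_lit 30020) (nat_lit 6) (nat_lit 113342313011523107238) (ZL.cons (nat_lit 30096) (nat_lit 6) (nat_lit 113481474243511033274) (ZL.cons (nat_lit 30172) (nat_lit 6) (nat_lit 113676470174632891976) (ZL.cons (nat_lit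 30248) (nat_lit 6) (nat_lit 113927471189682867496) (ZL.cons (nat_lit 30324) (nat_lit 6) (nat_lit 113590146814325204940) (ZL.cons (nat_lit 30400) (nat_lit 6) (nat_lit 113328088588585080810) (ZL.cons (nat_lit 30476) (nat_lit 6) (nat_lit 113141067529546799850) (ZL.cons (nat_lit 30552) (nat_lit 6) (nat_lit 113028920220751008226) (ZL.cons (nat_lit 30628) (nat_lit 3) (nat_lit 56495774334701806262) (ZL.cons (nat_lit 30704) (nat_lit 6) (nat_lit 112741667326624134054) (ZL.cons (nat_lit 30780) (nat_lit 6) (nat_lit 112798117452838264786) (ZL.cons (nat_lit 30856) (nat_lit 6) (nat_lit 112911067030619528882) (ZL.cons (nat_lit 30932) (nat_lit 6) (nat_lit 113080614753773754636) (ZL.cons (nat_lit 31008) (nat_lit 6) (nat_lit 113306908770796902050) (ZL.cons (nat_lit 31084) (nat_lit 6) (nat_lit 113011646405724100726) (ZL.cons (nat_lit 31160) (nat_lit 6) (nat_lit 112790425083173162258) (ZL.cons (nat_lit 31236) (nat_lit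 6) (nat_lit 112643051502959333400) (ZL.cons (nat_lit 31312) (nat_lit 6) (nat_lit 112569396892051359346) (ZL.cons (nat_lit 31388) (nat_lit 3) (nat_lit 56147169863002431139) (ZL.cons (nat_lit 31464) (nat_lit 6) (nat_lit 112322981908271145360) (ZL.cons (nat_lit 31540) (nat_lit 6) (nat_lit 112408933482219547662) (ZL.cons (nat_lit 31616) (nat_lit 6) (nat_lit 112552269551167111476) (ZL.cons (nat_lit 31692) (nat_lit 6) (nat_lit 112753115360222625942) (ZL.cons (nat_lit 31768) (nat_lit 6) (nat_lit 112498689898339010280) (ZL.cons (nat_lit 31844) (nat_lit 6) (nat_lit 112317116054612523914) (ZL.cons (nat_lit 31920) (nat_lit 6) (nat_lit 112208235172286512626) (ZL.cons (nat_lit 31996) (nat_lit 3) (nat_lit 56085976056362967137) (ZL.cons (nat_lit 32072) (nat_lit 6) (nat_lit 111916491210841059246) (ZL.cons (nat_lit 32148) (nat_lit 6) (nat_lit 111974634840841613898) (ZL.cons (nat_lit 32224) (nat_lit 6) (nat_lit 112090972905956315918)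 (ZL.cons (nat_lit 32300) (nat_lit 6) (nat_lit 112265607060805168444) (ZL.cons (nat_lit 32376) (nat_lit 6) (nat_lit 112050829077746004884) (ZL.cons (nat_lit 32452) (nat_lit 6) (nat_lit 111907747931907336088) (ZL.cons (nat_lit 32528) (nat_lit 6) (nat_lit 111836238600928720502) (ZL.cons (nat_lit 32604) (nat_lit 3) (nat_lit 55789145087250854158) (ZL.cons (nat_lit 32680) (nat_lit 6) (nat_lit 111607791622235979886) (ZL.cons (nat_lit 32756) (nat_lit 6) (nat_lit 111696321743402834256) (ZL.cons (nat_lit 32832) (nat_lit 6) (nat_lit 111843957894418824988) (ZL.cons (nat_lit 32908) (nat_lit 6) (nat_lit 111667672609247478998) (ZL.cons (nat_lit 32984) (nat_lit 6) (nat_lit 111561963014756205904) (ZL.cons (nat_lit 33060) (nat_lit 3) (nat_lit 55763368371669084335) (ZL.cons (nat_lit 33136) (nat_lit 6) (nat_lit 111308083283784446526) (ZL.cons (nat_lit 33212) (nat_lit 6) (nat_lit 111367971222685017814) (ZL.cons (nat_lit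 33288) (nat_lit 6) (nat_lit 111487799429753160896) (ZL.cons (nat_lit 33364) (nat_lit 6) (nat_lit 111348885695929210608) (ZL.cons (nat_lit 33440) (nat_lit 6) (nat_lit 111279459160998515866) (ZL.cons (nat_lit 33516) (nat_lit 3) (nat_lit 55537623972207290219) (ZL.cons (nat_lit 33592) (nat_lit 6) (nat_lit 111105634435580880156) (ZL.cons (nat_lit 33668) (nat_lit 6) (nat_lit 111196820460382740156) (ZL.cons (nat_lit 33744) (nat_lit 6) (nat_lit 111094189786119368220) (ZL.cons (nat_lit 33820) (nat_lit 3) (nat_lit 55529994761303355356) (ZL.cons (nat_lit 33896) (nat_lit 6) (nat_lit 110909082155771592420) (ZL.cons (nat_lit 33972) (nat_lit 6) (nat_lit 110970766732839180850) (ZL.cons (nat_lit 34048) (nat_lit 6) (nat_lit 110903362329993846148) (ZL.cons (nat_lit 34124) (nat_lit 3) (nat_lit 55389071319273320818) (ZL.cons (nat_lit 34200) (nat_lit 6) (nat_lit 110809440724447930348) (ZL.cons (nat_lit 34276) (nat_lit 3)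 (nat_lit 55388118292557626577) (ZL.cons (nat_lit 34352) (nat_lit 6) (nat_lit 110712701470735637072) (ZL.cons (nat_lit 34428) (nat_lit 1) (nat_lit 18446744073709551617) ZL.nil))))))))))))))))))))))))))))))))))))))))))))))))))))))))))))))))))))))))))))))))))))))))))))))))))))))))))))))))))))))))))))))))))))))))))))))))))))))))))))))))))))))))))))))))))))))))))))))))))))))))))))))))))))))))))))))))))))))))))))))))))))))))))))))))))))))))))))))))))))))))))))))))))))))))))))))))))))))))))))))))))))))))))))))))))))))))))))))))))))))))))))))))))))))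

noncomputable def vl : XL := ⟨(nat_lit 0), (nat_lit 76), (nat_lit 208383496), (nat_lit 152), (nat_lit 23469523), (nat_lit 152), (nat_lit 23469523), (nat_lit 1), (nat_lit 4), (nat_lit 2), (nat_lit 5), (nat_lit 2), (nat_lit 4), (nat_lit 0), (nat_lit 0), (nat_lit 0)⟩

noncomputable def cp0 : Nat := (nat_lit 546322690907526342096821101973079321996626016119642703032095510607633424809704481534203990300661374348790211787715859072740856034391683602689601514648972413230683345709777181524709810787594665717210321246772046375671816203164805042686207850660684474112700072235623571308330877646570833463199535095321353729654903563637266534456909451638725529220432317648702147862060623256859357247114202906884910066362768124769114845479135336115178920144781651773678356999369189956920749133130101625961448594305293818132704924830824117338935941566312231502941112956386369474514867023612589833801855404993856053134805086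89544073154013708520728270539412991553259467679759510372357638719330376441690304255803741734837909083184412659092395442582181004460155872544144220429659281782653041734330559631749392185167319117660715779821421114529661181261399544478031599136899279268651499015275318859746142606886420913150816109381395864497981968702453089652374061110800874066591465392039489460760939481126149167046382984318811376137973157179934417843850270981579197916653600236812822554292246550990005891320484582805798556801997431531849533008051342328523860511670045668528193379352171008585766760620379651952806692168474518555580856686543128169175551147676238589897985010769479855043122378756526108113717354970957012171742385426528856907382701007209226124188096304491663980289164675488745196039294657904087500106633529241245573026754908150855646549771969688373301724067985131517750853344939894102262098131590124035289554814910643784204015293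76794407315853208444095648659905343618164199691531580309463136747530341465502200937851346755946874389771932330467972059598124570839827860383562852288688135030286749326953301855670058238726734822191882174062219409758665667858182414467470521565408968863624475012873229601600410992553198799435030259058968852009718315343974329601021911932930227285072330998959753433151029230477310569836422880747436550530757213387992060096498540005185297942837331080383230334696078897420904424020172198388789408438149740751873470680099429975295292855255952138516857820750177992187398774181645039850558036757869022557565865927701255217007302152413662699566686469329305933530637971851199910964849271041771360026771428890392191380004568374151537799387965908517096568804644834105833541186028755078419293907515092547839754523955581741918976505387024832887823110471239754476144273543633995194297341891366440870147450687115907535108295004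34919559460470184575546007122491813414278017847035283206262794802365014323400351992366994245222192657488411618198184605989599995376423675648462566208307063270814273713726440564180450905290526351813857005538954276503064482499981964316222027454221495970746499000115022974496214244808574264985329711083748552133255250080925778780807812080221088132707752280349130006301505497056210725011566248873293637542859931864135558306927627026539595914489274497965400766718869235655382303514438063092820945901989778506488769356472058558641454453730458110040710850135041120566744038609083092427326582678669224471527352538339098396869030414451375217972657717714330152499142262337738008775953906095406504238860121982828824339726838999754681692661637681518334056457808238007710404765303328885475310280919809624399228545464023099032099233868885605568700361145780799805385829424993684408622811425806920063166136698128585678173033184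39919678098685319703727955731815894307395452197643733966035153822245269262058794056274927669015388392568868566964183927331098263750262983749877887933919659222360423028441715363109622712377459511516386743858446371640247623607591397828182412094091713909867797626884992888691329173928244760269507403761974506508429812837965417355351320252953405896016487685328719061011894988905219671483308096056095126207310654704669658613318320303899026816613965270654140858144876883258386647948557037381770698606515975859862301352822542464343992506940829080367475994368547392522843665008561261163745057308193966342202552741432077341960037362438193084324655798962646941955493564119107966096578641006027209565071431135349231768587066930681091984568035448239426496066987525382147844090191997801622865559730528544752628879848502197418493911014028933846417526555542504883320812381291359748127003117992089505490877169338848282927391705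60947997354196303415847201356904890383801406186919412344046610467638569428127919087281578554655302276979362816922768955956436819329942071139484147857606610113794761403652210643983526832096111407370208082522885259354452416444270252506819980479261145428421637095187676511272595308319207263907992730867300197459732617306663659665408895936480381870736370539217781406009085581767019065245133318429222213852691429053337938196725658447512342258479842847697952482109407170284715864711676982856985864657829712998560108448553958034529679213047504883151470552155761578594125820354024441929685214275950265238859887915845689731540601670715305010091084802200035009140167487517556551769262825701582069231435704584696379244930077297066839565453613464744800345036415166064248337239469569910032477566714747065046115932462954437241642832906219358088110989856312919367921685660229390612896021089306593371513357618064098151875459635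30348957062690873309162827008004055422342405321994109931846416769816463209061601615467311749189136214433973088709561137948114041239591441080608276665469328284481662753991703876734693097916658336772239978249943572474011936221236417541182277473438373395549635799020005148074694654574865313699478331500834450490745241505271694246221265386812697834158987958833922512505827889100655653695212191317569682192344544117733012195571260219092251747437813956551476895533408948061033820073098491797120007911609576665115148373527823718617711972747825696749177445912106698105019236323386442704254402522082460093922337121099478059401362898170817344452807589942024943732712277968912813518523730749203140875418422543363389458004780770713940479851881107178994474718834276241929386546068069048599191645526028350096379203078856277922138868990040177621113656397413534511148047980362690078414171063361169612903459659015505732466338229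52887615793378269705002574180326228731237084235428242146198538645117017462700812965479178885118016403625252819930292263635329485000602389619416186160021252021177126636895490665368711332591315090840629859991208050679810185535817328271134939250704686897496982901741334977701450271876296518337362996009206895925725741554437836879666327206735652928042971122619288240105281404220239727616487570363979314385127905514360347516761877333631750469775274743190743918993554379723824582800179408052674069040245694468018817662579257961477565592692502918410139437026371456037482280770810561297053511379149899813680374851072368048388041984014070549862376925293786683303825996120542782533690268147729691701060611213407724989810358574526861678949438833531538871951310105679325105547530601955858422276208055393286652239162619919015413309034726240487792686684820026319503797453049271305584924910234511900858419514227503899884513821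45122872277061484060018950891892283829564881514967457693246105521509134802020494804167819744601219467629736013517317015527078777474195310172951272512936666847673307580485920028528392119641384549690353018357921046897932203708858104112089797570454785483570416789838811176237825449838621589729242549442973958194009091845770455150112715930723574840138336054865788567419351859909684718143197072004284116260301166204272175263452187080133622868857367125531720279448894622566200106251275207254522598387788086455304470708052087226864063646534381045405978013310922842740929300940855477440030635845662100068365569155165965615971361510180427583006094899852283697510804962827526746414190052858338318786405501169403243214457090641264108195048282017357658916026529113292339233852800495910718292099454472887544144802732314317562833170047707303683748108108989608959329074167401920226875976707115845701745387522615996417174445743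40582882472951265709871446444165680688678750989508510146945987183089625226626575964680675162863894869491551432992311543842629942793386167008632477217527426961873850917339015988509617393605396486448333249244753707140762832519453541248473425534874241622869397853336754939430406607245210394992454570258673151121038514441170546372931263632893038447013617381497550657533391237098876302428635601586309678271694209193646735082744257286918093826316563512339114932714748697982525951563942299193785007708270381123851079932117777571718783071611967275645256703460521631281853521790384396805178312765283988383817221637510258099118255140318548040406036071136980820125769002491243374196026064507928493498401759550781406742194650645202221728237132281977561971500511697207385784823320073028444472725882033961716746126613844428984357306797504881539553911485955450566032835859272940143249579012977771904366859711941011924458294323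18035035581873047847614272752588452714659916791553945305878519780439780649116620207969634007885071998180117506804186792559701117848901321146673695765110303727854197220064176664496068080995304349872122096415671472929013113231501219783693034013725738584653112432397545348572370572527150048292457321042166276802770743059194627086494538541279313845209903845078502465249307729161477777399789384019525710632955907234807711227011297083242754564836059613785486571915858060776193353678514695440959543645574602242916263233177536352236703410326209996076195165330459647262132894603844038003461232271654546787092236573293576661050016605212517088581594836119795350324413473871462960221544308317211108352342753046156082113819228793083810195362743196460585239025516522516865305398146276831151194809657912186570555095897737418523180176933729324185936642633189570499687071693041658683627555368795789488718075810618526921066825751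3708850897072380738653087615381133773005287688062843557257704386404910834097883061207480079695074441274749226662803223426882656448797269939702388638615136370472828912358053691927248575155584592040294814473568640875743395051020295493187170339695609896951183124055646951693382408653312886414893551271165940585625022041303613053729518272172550692302257174652703810511488480847975685008983334358255308385602946622367191906404979616391962640485134866077368048484601329137926856779486819737888636479181683267733215046284925763264265829105858871585348678242694951777178099220527944016992227188161859008013744479899583021691220924457467447818836921285955358113467537287792295936)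

noncomputable def cp1 : Nat := (nat_lit 33420739184131400374724915492672385207943064566761189604365357825246515574515969082320098210574874469822957557047407745494142444977067961425381181151343473984333899329117376775479240002842219413166930336760371569890872913909030163012161433165767702857261282892131105500043225519942549587259294058081120779235680455002247447639853794285704318221860882913076408169959340923497395843123572550042086496048679940848115807859356102016723038603672495373325196346644365513073363202744129369592086706679455650229175124176049978763573009922037490920052040873167728302292860936439247863367693522064667156663454479392276099651775874791899834608306240158999660655295450029803191943833947650419656497043542266458180540547121788239163795644475710037361612521301970875493157080078503300517970950582443299748855774361493367003602319135233916260469416627795624844181201651282769341089873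69807948044715548357082063108361226643633044379415499269168331490085179470589699932820780677154316355223131914726590563035284087027673457479534861010839272989511166504090256996799442285840921638507277135933474849456893259177100446815272943753119371624061282425594585443962877419076478685588170218356945303994113035016346395399278427944551316559229446054423348955644843665770480804638199142801452372187865733241108428723307010298217827067352190669813442069046129443831986041379838656526718010009280783982494050962581894939433197285536248394391166588362747514007985890997074423826243707563072193779602252816207405838714193917465715889359150732749247550504088357211941506415686007853304448663519442648376176629370092607042011524434107635852215360012701617959821098282324111607807813226710868052645009372315237900765637683703691419598926860610510981618522974392759714423006035251527496088005320485946528353025578551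13557680965525413449390813615802944315608771425256079012793045811942060586492080224242538020910009177132421780880910139804642812971210933300448808264908172734788951210440377344638622190155639453383547392373694883765627724172506042484322695282206678580778399049465998034481459193910625684061248185053985278367957493092753991017015829777600640555694377038052351024493655697414046843205722778127208647980311166228868482645348490482211105147923935872536011488504904150031261181007526227862589945396477846124953683090536216071895073355818303298641536258219872580214564409384269527842526851936329150513904667489032865004042865537439888722538936429902496047051466579001447276860687551692327558776771358589116125729709157568436857790352907641002064612981557255236018458471681693935046471285292562290272795926349203584724958715414019791954179603687488144340620070100763472004001666466377359876258473039500957810027938930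22981290045328192987834986918720877379780080381699155680221235294852526634735747141503325931450483165152671130973978923296410552723943911852835488554538330766882824259470102957976867988506316875298302234270475884538202655976363837779259966998084917146711953110480833793386761569599518033425489452379489926887627064400508655993670095601340061393921661268258355064252453507545342146033906683469929586946847559796327951870751240508089503441389836688399378627619317686564828217943623860977713150345283302029954514695490510315868772258965065285149892216064603550345126759004918957670182209165678528035491630283201567580702172688559757492550507425446855593162457451514486770399072194251562458911889965726503365652980105245357210907095570240650939867180247718774198551466407976864124067471897684971155043150206417753232509614247709707547996582675316944778416688806124624926488618290981015498822983023421778708138191791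75774556243679006615295625219698341009288210833369179800807757893808925699502854295408655298739108059049761374616700490756471886027393621036884556742175821014925059063547510158154528057339008364389435602634874287293929043738066776109117153784388882161263800649034851603444114691667434149430580685774832887069603364837786996763883434270032935702692996762788600395130521238098619514652035112456387997903708410247322748549405602558687148870983301990414854981251745297244169639137498678320601549601908685798873532837431987839086044849869757006817345744645203425731409361403619824291020666276680796127890531450972705270084174706373767376150749588773139448461287252709042238193211462780635883152565670566103242386993887379749929020319384416675438749738079916476705558610245211809376747132039898823999171758880814072149123643726784638560945983641981203954591953760442868700848108922729115019538811471054836344916454097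62628473907461723105570584767485989754798727694745270124263623713205830537726034812790844419950504111605284482525251604718881880406501153927097420425240721500204182313974018620819173359071576068693974434239416582481645616664200754973899196701890996135609231930946252421616098746587644790081034334773691547865367432470526121736335871509981441369253146500943819690789753865447399144167197158771907617562219181451421517185048274008956347291144871201088275050298777202305055662279192321211406075365067114504890772524889268549131829462968562433180130882173050499489294306138486040575113590497295588454037706932827940892590721913498624543735043546891851514166119090139682253943282971523307317827111075531530903033935865657067613993217014507771996600098466240361063894664686360588867159314491975130754183609332701804291755335559789598247901662680032520716948685513745808660367834829725452377995899679674142945082255886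30380445259353460919805962656960208214424055071401429796575579214713600896196741505020672235804167237572937474385409637084349066206343746856401040108601670916979361385392037353565657586431523259328308817894476797029294183097577172906416466556153369574624000675391344340755531458638181848583275369341966765939022804642451573076393958758881254452089364526018402900850010605542181110225174101981274548293940220882819109459606432922340743729007681150475825721671713680772602092493551399802167122467744997992545633521160271568766101250983248685471338513504270889666590749618678745810543817763582607929870718191011391532215529294378781212449057030981300392183954353721589128148872002262661197192302071192515442449819060428111582509540347166999108594528864784511415144109908352527429104550515606716611705680202680841478173894788060475861793436073811747440668946449698876375699352730037235364186616190912361920563068730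62898673653137206277574652898953508153357973182595962384591856969213111940173080311333924166763633449339859945530932629096255689928012034511034857616595821608253191458382445282600030438535937651303459297811449093658696735257635063464367439308089038443085428982737328729196309370389065309977384297447255778579882151659928938976297683407459915166946081312565296480534081302096578239152729516266106697016105801491892793461585300839541892676303981905171026308829646204129221917544946281172134674057937373943526268292502265116951989944433091345653186393249802331034010762188760499557269550502902010848022633191899008729392555088234168697730160445169176685715804217497047072078384791752118471175304783849392532394941488126253742169217116956608443143886515834227117495693996981581716072054573731176213786639471895482898894826705196185717418468113652455150737450748372418115449957312231578913248149141740967703242566916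20759443952127204170375586567150856979056786835672238712563083656315359478780650292397255605951584575684481728473941151413957943298668383182549366524705307116046962116856146232969140377764984261891377337625527359880077864869617007280761778210551804594064938820803714666704218958262139141331642144977952798659500197654934454122275472017707197261217322097721581950016408529681807395816665799886287796602580226979060141540567618755020760658570017589249376990877706895536596531982751305857340045120287852286704278816992082955559324357154304119909286680224671453378094612509103567499939037087782371640998536603466888274784638447619092891227323689420144684574405337509604077376807943530873408939273197121529925548324585359540155625744692871057712728744747005205039239320273536024328682761799591518733097789663785822495043803891127954637828348020897087429230027964853885955063361752887720687530683966562941921712490256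95840602490680394829632653995929803007827165994387915916601082062146701016005771377839270973350362328421687700210683500555936885887634602733598608258636404743241099870929365413965360902372781818067412220443544563464770320286186380426458679884143962392653632497656400507442393350444463059114697338881363076937216190835744544099151365974682577603332871742948355825199235654283258011423278046427074804835989199859961958145524274780261990918417456965383911651212223810613055829868871153211748490068701814079465932836370701280607137762823747256107423595803556260629978249310005691530913116559782792338270422126279299637937878178159602872164231969261113922675517520920507367521741570187840337744105338221733012651199369505675097984029106228740607958971246179127853917534251228029543140368442173985130222580741950222970097968739864148962314605674680068563134300044774709722958758631685640361561179043644857252137580366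19716858822401880409830654998973372296716331144894786535100920794407868063071377523133104385587860008593767760558992221440726029755120328308071524570052559492259692340808363916986904753347887339727356145677789087672663203131798693755379709558774370292842594986621627663356881829825291076068223990975997981710736166823301138092300065662682302327998141518508769482581388637410100969495721492900827134350953450812142079371086699097265647741084766899548205890026035208844622082273138655704269351753567784652416336538271622860982592398208019898390542754413079716094111904979362413652194753307284352249967933013908206976870308277700875584899831466021557371868023688306935919095597721356012346233665648588599223134729695217415848989744509642888783599435924576253143458232496546666330813646261228963368241911607221349124331248677081785578856599638343130823531161248163556227047263967843620661819565711770312561279321807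75603679453529699587715588369621681698296580043930553735686740790121217359944705374603486479162137990180509582311048828628999906263956150121259364293323101585204111171378635772141566172012987923576824068785058580300550988182648208710951836138485668956229359189342936151290596404313711357552785546666904751954039712057024659852268027727965603815602715466386384477954159742668147734286664337112809296567680150431638668864261268174118083061901710158798740575375870114793158158216810917905415154597986201684956113498458363372390644536338296234572001762390163604072146093692636580343547539741071843781024209983815102967692841023625521956506523348808153637314563402085878690228634028668237577554832746865311173058621205389771172119823308686891033073563622656369179191624009263416571224751690123869502727521987664396614881048379629678158955519567137935904275794503525226684977436648651059829914225817764055666387602446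60325937623498204474174992979063369348772645883327437039981817297513044855825557945075187301829160261699883777054489176090623824026333078334482414541439141933356746647791569540783474350179711839024518631367522804139346727330996168398886322425748700693719754767325149372399389853002024768029998413608197413977733020101507244247415456393881627172448946633647478908635265192296613325359035490817882906198607402142921532089340777091389428133949600921552955524710461013135710353787936985903187606650221924133006802420674770968169391188262513273578373369760189639561309707843549060928701383714598913450025674811253030902702461668065874820774237376719544293324623634126881476803451151507573244689286424757005095741178722959927121133675878425903842761317041446248126677653487352566442006319617086417372185849411740041264577240109410080236508703697801906319129150871846563417783777384948493817279444165430515140947010377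72958304909340987583383564339185361179985606238857911506299856250598162515216133049531998651706142195659484066992111295819840595284715902571394420229499590873213608238592773919178749243595906792444710687389110222613870553238563968425676158642956354066320505287472785063343898635077496829680608369147670566174158711252547581619596642158785189038206861352309878849324090071114234900175984690043695083217518605943988154988718570081809240980111758986502700469248899720515379844585628116579616887998548685671943625083108490519219516836930757159208067534162337630885922544877954358075049371380001860997094136472143997924695828934333473172919726595941743043648082559150301372397740184869313810883776023542200722162201705238489469612802240957447840415368543062475506998329223874308821718540688729844047304165975529407291776397811464360679798202226195553461804701340116123720574359026748515833432415401976032471197882415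36968638489511731535435615320772917006934915876167536885197196425395127603077701709018995668388846784850702702539087597510379036038922638669187169789008382015714660852856018106148298441154599948975563429017744451976347265846692930557462385562507702861284523440932836573113936935887695195908532035181660448741451150732713864651958600402680560198870269057946534847335019046949789337562279742747859560532451312754118445975281766399139548383767703832584755944102138982556166574269725952697393469906967188415372855761873898899468263274825532372757912656708820077962700921397795174232356987141864610096074409445047850670653004426926296226858403578902519691923835606776640489853293758373516261740239327313064068952750488269236518747614297869133555598464031138503308407544330047867710681684374557208908843904098836895350701553148037671973011708664839094297692596931497337562114720410936827669898028233952014920455583440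69858109325555846421786543859549568599408360378722408435561480215874242701661174525631327582926591915881573287102470348434663108906838075481287313841046222987035141575618301416106739750014908642618963197446179845097971877387846350635447913937281203974330510759525942096108372507180875530096299465816514841326741324741760014878019851059056582632639442341084297635039309078849395095561803644269249228344930370422378450987596592474723651917467286498673081836728152555551620984204604310639389157173726193203162278162019584321250175237376117604996075925121124059050964441633398794114387137936081048834139993237728211069786298666359096465043494187323900412871840118594615669834925219245990780998589786203987773465365193990227384198428860657296926456674477608203702146062248718715317219604964400725131031080596234437353080637967875140064741353476146288935141046897302711784318309641313910075755555304725263091843373012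80488768844118411567753463009844567065230569196780431941806698775410564328093856502888242563357710007797919898342364600424149671312909115793967480766048346631554215519811390203090861517438252801103208489783827981328979532416027952337330149383369252175312867950291504582001497110427537891399004143748934148472028378929580716366199554016455248979175138338926241417915403470184996760254534526317808621160995241138891983693996111348503774439033675593447571752347634391894742418566452525100339945417077340787962820578068614762421214458467635394592149573326617199395030901033451379735196448450863015222173136981805361967521629565953850954657775062638704404331104661886592059735660486650389212492487129637551341312898256707331830114477076079467279398395351517582018118517789177237427820219788473348492924516997036347114710197194984699782201409594492672374596479310936973068253349171208878817671662118350708953465612046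34291426347610434852846432203820720256050593250606048973810828470417096359089740282437619048833177545770024427211999921058542120217267875791577685231593184777401393110427747915850877663130031489528933440605636301178430187741620616142031107868795883912947294946714588723268648745887691502561539374073499740228515045212708135029732403529043494843308017182125654903049829253264222119024471245377527990920051446231787472889001326446377350274909831170579594221924799319892925758634595257923470917480222157444672626950248404089827687984899441469313220719226185137349648265704464971128280427576703635169145673286641337107751493440781355427371304510858698721073148074739811895885175491207207499292777730348201730280550061868463948542071568592669322692787966315936199363939113507893390719141576328733552840574076567873728485781376423616129535097357540797109135904300928902041967753469903559066186146843596049562027614788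46826574441338879589969888630557437158490226980675743542431301801796404602140952745305745671728262046792406143985257085203588027269163248763072237413844726630656103369240627792838934812658310455948916719266144299447507286852564532574312285338511603332997624142508857188461298749798432413359317430524994151824210555089907301572580496437859758446813948492390738104606218004771056242356531604695888773779335834952342777144297641875643131347807368694905975957316970201446914461620040352452681816543409345151541844562458879150234952024933458403142691845259333695611511025383879516093902945320542246449356826614953463474554574619765464418906350489462522931262567119625473276930082984309434269730575826748926961237479084097698666205953907894872660258759963411582023152175223199509147709794399497869169356870865625574818218049532122903467611357195932842293478469698843238772939154757701920668620446093683296579386539859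703644972594839418436781142342553709016637285028380299340760864232176744028809715687126557805060066475547840285696815281033586261706315680207891814163909224367492495344089093383378758811858193155440538563782448655992781757950833839877845103410452106033433000595431511263896446524299149816802713995822930201772652016714319057018873040614451718827735235397030660167409945037332116724667679118191834575699009651913330808208151763475468876924922601775940461143433310912382764080792671966564203849982624164414580957997821598275200723443798484952779702311238367694135109837630497986632304090651742707325951546746159254892778810076649944572875508881421506478230777913933824)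

noncomputable def rc0 : Nat := (nat_lit 33420739184131400374724915492672385207943064566761189604365357825246515574515969082320098210574874469822957557047407745494142444977067961425381181151343473984333899329117376775479240002842219413166930336760371569890872913909030163012161433165767702857261282892131105500043225519942549587259294058081120779235680455002247447639853794285704318221860882913076408169959340923497395843123572550042086496048679940848115807859356102016723038603672495373325196346644365513073363202744129369592086706679455650229175124176049978763573009922037490920052040873167728302292860936439247863367693522064667156663454479392276099651775874791899834608306240158999660655295450029803191943833947650419656497043542266458180540547121788239163795644475710037361612521301970875493157080078503300517970950582443299748855774361493367003602319135233916260469416627795624844181201651282769341089873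69807948044715548357082063108361226643633044379415499269168331490085179470589699932820780677154316355223131914726590563035284087027673457479534861010839272989511166504090256996799442285840921638507277135933474849456893259177100446815272943753119371624061282425594585443962877419076478685588170218356945303994113035016346395399278427944551316559229446054423348955644843665770480804638199142801452372187865733241108428723307010298217827067352190669813442069046129443831986041379838656526718010009280783982494050962581894939433197285536248394391166588362747514007985890997074423826243707563072193779602252816207405838714193917465715889359150732749247550504088357211941506415686007853304448663519442648376176629370092607042011524434107635852215360012701617959821098282324111607807813226710868052645009372315237900765637683703691419598926860610510981618522974392759714423006035251527496088005320485946528353025578551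13557680965525413449390813615802944315608771425256079012793045811942060586492080224242538020910009177132421780880910139804642812971210933300448808264908172734788951210440377344638622190155639453383547392373694883765627724172506042484322695282206678580778399049465998034481459193910625684061248185053985278367957493092753991017015829777600640555694377038052351024493655697414046843205722778127208647980311166228868482645348490482211105147923935872536011488504904150031261181007526227862589945396477846124953683090536216071895073355818303298641536258219872580214564409384269527842526851936329150513904667489032865004042865537439888722538936429902496047051466579001447276860687551692327558776771358589116125729709157568436857790352907641002064612981557255236018458471681693935046471285292562290272795926349203584724958715414019791954179603687488144340620070100763472004001666466377359876258473039500957810027938930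22981290045328192987834986918720877379780080381699155680221235294852526634735747141503325931450483165152671130973978923296410552723943911852835488554538330766882824259470102957976867988506316875298302234270475884538202655976363837779259966998084917146711953110480833793386761569599518033425489452379489926887627064400508655993670095601340061393921661268258355064252453507545342146033906683469929586946847559796327951870751240508089503441389836688399378627619317686564828217943623860977713150345283302029954514695490510315868772258965065285149892216064603550345126759004918957670182209165678528035491630283201567580702172688559757492550507425446855593162457451514486770399072194251562458911889965726503365652980105245357210907095570240650939867180247718774198551466407976864124067471897684971155043150206417753232509614247709707547996582675316944778416688806124624926488618290981015498822983023421778708138191791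75774556243679006615295625219698341009288210833369179800807757893808925699502854295408655298739108059049761374616700490756471886027393621036884556742175821014925059063547510158154528057339008364389435602634874287293929043738066776109117153784388882161263800649034851603444114691667434149430580685774832887069603364837786996763883434270032935702692996762788600395130521238098619514652035112456387997903708410247322748549405602558687148870983301990414854981251745297244169639137498678320601549601908685798873532837431987839086044849869757006817345744645203425731409361403619824291020666276680796127890531450972705270084174706373767376150749588773139448461287252709042238193211462780635883152565670566103242386993887379749929020319384416675438749738079916476705558610245211809376747132039898823999171758880814072149123643726784638560945983641981203954591953760442868700848108922729115019538811471054836344916454097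62628473907461723105570584767485989754798727694745270124263623713205830537726034812790844419950504111605284482525251604718881880406501153927097420425240721500204182313974018620819173359071576068693974434239416582481645616664200754973899196701890996135609231930946252421616098746587644790081034334773691547865367432470526121736335871509981441369253146500943819690789753865447399144167197158771907617562219181451421517185048274008956347291144871201088275050298777202305055662279192321211406075365067114504890772524889268549131829462968562433180130882173050499489294306138486040575113590497295588454037706932827940892590721913498624543735043546891851514166119090139682253943282971523307317827111075531530903033935865657067613993217014507771996600098466240361063894664686360588867159314491975130754183609332701804291755335559789598247901662680032520716948685513745808660367834829725452377995899679674142945082255886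30380445259353460919805962656960208214424055071401429796575579214713600896196741505020672235804167237572937474385409637084349066206343746856401040108601670916979361385392037353565657586431523259328308817894476797029294183097577172906416466556153369574624000675391344340755531458638181848583275369341966765939022804642451573076393958758881254452089364526018402900850010605542181110225174101981274548293940220882819109459606432922340743729007681150475825721671713680772602092493551399802167122467744997992545633521160271568766101250983248685471338513504270889666590749618678745810543817763582607929870718191011391532215529294378781212449057030981300392183954353721589128148872002262661197192302071192515442449819060428111582509540347166999108594528864784511415144109908352527429104550515606716611705680202680841478173894788060475861793436073811747440668946449698876375699352730037235364186616190912361920563068730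62898673653137206277574652898953508153357973182595962384591856969213111940173080311333924166763633449339859945530932629096255689928012034511034857616595821608253191458382445282600030438535937651303459297811449093658696735257635063464367439308089038443085428982737328729196309370389065309977384297447255778579882151659928938976297683407459915166946081312565296480534081302096578239152729516266106697016105801491892793461585300839541892676303981905171026308829646204129221917544946281172134674057937373943526268292502265116951989944433091345653186393249802331034010762188760499557269550502902010848022633191899008729392555088234168697730160445169176685715804217497047072078384791752118471175304783849392532394941488126253742169217116956608443143886515834227117495693996981581716072054573731176213786639471895482898894826705196185717418468113652455150737450748372418115449957312231578913248149141740967703242566916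20759443952127204170375586567150856979056786835672238712563083656315359478780650292397255605951584575684481728473941151413957943298668383182549366524705307116046962116856146232969140377764984261891377337625527359880077864869617007280761778210551804594064938820803714666704218958262139141331642144977952798659500197654934454122275472017707197261217322097721581950016408529681807395816665799886287796602580226979060141540567618755020760658570017589249376990877706895536596531982751305857340045120287852286704278816992082955559324357154304119909286680224671453378094612509103567499939037087782371640998536603466888274784638447619092891227323689420144684574405337509604077376807943530873408939273197121529925548324585359540155625744692871057712728744747005205039239320273536024328682761799591518733097789663785822495043803891127954637828348020897087429230027964853885955063361752887720687530683966562941921712490256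95840602490680394829632653995929803007827165994387915916601082062146701016005771377839270973350362328421687700210683500555936885887634602733598608258636404743241099870929365413965360902372781818067412220443544563464770320286186380426458679884143962392653632497656400507442393350444463059114697338881363076937216190835744544099151365974682577603332871742948355825199235654283258011423278046427074804835989199859961958145524274780261990918417456965383911651212223810613055829868871153211748490068701814079465932836370701280607137762823747256107423595803556260629978249310005691530913116559782792338270422126279299637937878178159602872164231969261113922675517520920507367521741570187840337744105338221733012651199369505675097984029106228740607958971246179127853917534251228029543140368442173985130222580741950222970097968739864148962314605674680068563134300044774709722958758631685640361561179043644857252137580366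19716858822401880409830654998973372296716331144894786535100920794407868063071377523133104385587860008593767760558992221440726029755120328308071524570052559492259692340808363916986904753347887339727356145677789087672663203131798693755379709558774370292842594986621627663356881829825291076068223990975997981710736166823301138092300065662682302327998141518508769482581388637410100969495721492900827134350953450812142079371086699097265647741084766899548205890026035208844622082273138655704269351753567784652416336538271622860982592398208019898390542754413079716094111904979362413652194753307284352249967933013908206976870308277700875584899831466021557371868023688306935919095597721356012346233665648588599223134729695217415848989744509642888783599435924576253143458232496546666330813646261228963368241911607221349124331248677081785578856599638343130823531161248163556227047263967843620661819565711770312561279321807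75603679453529699587715588369621681698296580043930553735686740790121217359944705374603486479162137990180509582311048828628999906263956150121259364293323101585204111171378635772141566172012987923576824068785058580300550988182648208710951836138485668956229359189342936151290596404313711357552785546666904751954039712057024659852268027727965603815602715466386384477954159742668147734286664337112809296567680150431638668864261268174118083061901710158798740575375870114793158158216810917905415154597986201684956113498458363372390644536338296234572001762390163604072146093692636580343547539741071843781024209983815102967692841023625521956506523348808153637314563402085878690228634028668237577554832746865311173058621205389771172119823308686891033073563622656369179191624009263416571224751690123869502727521987664396614881048379629678158955519567137935904275794503525226684977436648651059829914225817764055666387602446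60325937623498204474174992979063369348772645883327437039981817297513044855825557945075187301829160261699883777054489176090623824026333078334482414541439141933356746647791569540783474350179711839024518631367522804139346727330996168398886322425748700693719754767325149372399389853002024768029998413608197413977733020101507244247415456393881627172448946633647478908635265192296613325359035490817882906198607402142921532089340777091389428133949600921552955524710461013135710353787936985903187606650221924133006802420674770968169391188262513273578373369760189639561309707843549060928701383714598913450025674811253030902702461668065874820774237376719544293324623634126881476803451151507573244689286424757005095741178722959927121133675878425903842761317041446248126677653487352566442006319617086417372185849411740041264577240109410080236508703697801906319129150871846563417783777384948493817279444165430515140947010377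72958304909340987583383564339185361179985606238857911506299856250598162515216133049531998651706142195659484066992111295819840595284715902571394420229499590873213608238592773919178749243595906792444710687389110222613870553238563968425676158642956354066320505287472785063343898635077496829680608369147670566174158711252547581619596642158785189038206861352309878849324090071114234900175984690043695083217518605943988154988718570081809240980111758986502700469248899720515379844585628116579616887998548685671943625083108490519219516836930757159208067534162337630885922544877954358075049371380001860997094136472143997924695828934333473172919726595941743043648082559150301372397740184869313810883776023542200722162201705238489469612802240957447840415368543062475506998329223874308821718540688729844047304165975529407291776397811464360679798202226195553461804701340116123720574359026748515833432415401976032471197882415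36968638489511731535435615320772917006934915876167536885197196425395127603077701709018995668388846784850702702539087597510379036038922638669187169789008382015714660852856018106148298441154599948975563429017744451976347265846692930557462385562507702861284523440932836573113936935887695195908532035181660448741451150732713864651958600402680560198870269057946534847335019046949789337562279742747859560532451312754118445975281766399139548383767703832584755944102138982556166574269725952697393469906967188415372855761873898899468263274825532372757912656708820077962700921397795174232356987141864610096074409445047850670653004426926296226858403578902519691923835606776640489853293758373516261740239327313064068952750488269236518747614297869133555598464031138503308407544330047867710681684374557208908843904098836895350701553148037671973011708664839094297692596931497337562114720410936827669898028233952014920455583440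69858109325555846421786543859549568599408360378722408435561480215874242701661174525631327582926591915881573287102470348434663108906838075481287313841046222987035141575618301416106739750014908642618963197446179845097971877387846350635447913937281203974330510759525942096108372507180875530096299465816514841326741324741760014878019851059056582632639442341084297635039309078849395095561803644269249228344930370422378450987596592474723651917467286498673081836728152555551620984204604310639389157173726193203162278162019584321250175237376117604996075925121124059050964441633398794114387137936081048834139993237728211069786298666359096465043494187323900412871840118594615669834925219245990780998589786203987773465365193990227384198428860657296926456674477608203702146062248718715317219604964400725131031080596234437353080637967875140064741353476146288935141046897302711784318309641313910075755555304725263091843373012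80488768844118411567753463009844567065230569196780431941806698775410564328093856502888242563357710007797919898342364600424149671312909115793967480766048346631554215519811390203090861517438252801103208489783827981328979532416027952337330149383369252175312867950291504582001497110427537891399004143748934148472028378929580716366199554016455248979175138338926241417915403470184996760254534526317808621160995241138891983693996111348503774439033675593447571752347634391894742418566452525100339945417077340787962820578068614762421214458467635394592149573326617199395030901033451379735196448450863015222173136981805361967521629565953850954657775062638704404331104661886592059735660486650389212492487129637551341312898256707331830114477076079467279398395351517582018118517789177237427820219788473348492924516997036347114710197194984699782201409594492672374596479310936973068253349171208878817671662118350708953465612046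34291426347610434852846432203820720256050593250606048973810828470417096359089740282437619048833177545770024427211999921058542120217267875791577685231593184777401393110427747915850877663130031489528933440605636301178430187741620616142031107868795883912947294946714588723268648745887691502561539374073499740228515045212708135029732403529043494843308017182125654903049829253264222119024471245377527990920051446231787472889001326446377350274909831170579594221924799319892925758634595257923470917480222157444672626950248404089827687984899441469313220719226185137349648265704464971128280427576703635169145673286641337107751493440781355427371304510858698721073148074739811895885175491207207499292777730348201730280550061868463948542071568592669322692787966315936199363939113507893390719141576328733552840574076567873728485781376423616129535097357540797109135904300928902041967753469903559066186146843596049562027614788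46826574441338879589969888630557437158490226980675743542431301801796404602140952745305745671728262046792406143985257085203588027269163248763072237413844726630656103369240627792838934812658310455948916719266144299447507286852564532574312285338511603332997624142508857188461298749798432413359317430524994151824210555089907301572580496437859758446813948492390738104606218004771056242356531604695888773779335834952342777144297641875643131347807368694905975957316970201446914461620040352452681816543409345151541844562458879150234952024933458403142691845259333695611511025383879516093902945320542246449356826614953463474554574619765464418906350489462522931262567119625473276930082984309434269730575826748926961237479084097698666205953907894872660258759963411582023152175223199509147709794399497869169356870865625574818218049532122903467611357195932842293478469698843238772939154757701920668620446093683296579386539859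703644972594839418436781142342553709016637285028380299340760864232176744028809715687126557805060066475547840285696815281033586261706315680207891814163909224367492495344089093383378758811858193155440538563782448655992781757950833839877845103410452106033433000595431511263896446524299149816802713995822930201772652016714319057018873040614451718827735235397030660167409945037332116724667679118191834575699009651913330808208151763475468876924922601775940461143433310912382764080792671966564203849982624164414580957997821598275200723443798484952779702311238367694135109837630497986632304090651742707325951546746159254892778810076649944572875508881421506478230777913933824)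

end Vale.Agent.Lib.P154.PChain.BC.S7
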